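import Mathlib
import Crest.Agent.R116.LZg2_725
import Crest.Agent.R138.Rect_779

-- ▼ part R116/Gc1_192
section

/-!
# R116: planar (conic) geometry of the slab and MIS steps (helper192)

Functions of the six-dimensional space `W = span (1, s, x', y, |x'|² - 2 s y)` are affine along every
light ray `x' = a - s C`, `y = c + s |C|²/2`; their derivative along the ray of direction `C` is a
quadratic function `L C = a + ⟪b, C⟫ + c |C|²/2`.
-/

set_option autoImplicit false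

namespace Crest.Agent.R116.Gc192

/-- the plane of directions. -/
abbrev E2 := EuclideanSpace ℝ (Fin 2)

/-- quadratic function of the direction. -/
noncomputable def Lq (a : ℝ) (b : E2) (c : ℝ) (C : E2) : ℝ := a + inner ℝ b C + c * ‖C‖ ^ 2 / 2

/-- its gradient. -/
noncomputable def nab (b : E2) (c : ℝ) (C : E2) : E2 := b + c • C

/-- the two-dimensional cross product. -/
def crs (u v : E2) : ℝ := u 0 * v 1 - u 1 * v 0


lemma inner2 (u v : E2) : inner ℝ u v = u 0 * v 0 + u 1 * v 1 := by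
  simp [PiLp.inner_apply, Fin.sum_univ_two, mul_comm]

lemma norm_sq2 (u : E2) : ‖u‖ ^ 2 = u 0 ^ 2 + u 1 ^ 2 := by
  rw [EuclideanSpace.norm_sq_eq, Fin.sum_univ_two]; simp [sq_abs]






/-- exact difference formula for quadratic functions. -/
lemma Lq_sub (a : ℝ) (b : E2) (c : ℝ) (C C' : E2) :
    Lq a b c C - Lq a b c C' = inner ℝ (nab b c ((1 / 2 : ℝ) • (C + C'))) (C - C') := by
  unfold Lq nab
  simp only [inner2, norm_sq2, PiLp.sub_apply, PiLp.smul_apply, PiLp.add_apply, smul_eq_mul]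
  ring

/-- the Jacobian of two quadratic functions is AFFINE. -/
lemma crs_mid (b1 b2 : E2) (c1 c2 : ℝ) (C C' : E2) :
    crs (nab b1 c1 ((1 / 2 : ℝ) • (C + C'))) (nab b2 c2 ((1 / 2 : ℝ) • (C + C'))) =
      (crs (nab b1 c1 C) (nab b2 c2 C) + crs (nab b1 c1 C') (nab b2 c2 C')) / 2 := by
  unfold crs nab
  simp only [PiLp.smul_apply, PiLp.add_apply, smul_eq_mul]
  ring

/-- a vector is controlled by two inner products and the cross product. -/
lemma norm_mul_crs_le (u v w : E2) :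
    ‖w‖ * |crs u v| ≤ |inner ℝ u w| * ‖v‖ + |inner ℝ v w| * ‖u‖ := by
  have key : (‖w‖ * |crs u v|) ^ 2 ≤ (|inner ℝ u w| * ‖v‖ + |inner ℝ v w| * ‖u‖) ^ 2 := by
    have e1 : (‖w‖ * |crs u v|) ^ 2 =
        (inner ℝ u w) ^ 2 * ‖v‖ ^ 2 + (inner ℝ v w) ^ 2 * ‖u‖ ^ 2
          - 2 * (inner ℝ u w * inner ℝ v w) * inner ℝ u v := by
      rw [mul_pow, sq_abs, norm_sq2, norm_sq2, norm_sq2]
      simp only [inner2, crs]
      ring
    have e2 : (|inner ℝ u w| * ‖v‖ + |inner ℝ v w| * ‖u‖) ^ 2 =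
        (inner ℝ u w) ^ 2 * ‖v‖ ^ 2 + (inner ℝ v w) ^ 2 * ‖u‖ ^ 2
          + 2 * (|inner ℝ u w| * |inner ℝ v w|) * (‖u‖ * ‖v‖) := by
      have h1 : |inner ℝ u w| ^ 2 = (inner ℝ u w) ^ 2 := sq_abs _
      have h2 : |inner ℝ v w| ^ 2 = (inner ℝ v w) ^ 2 := sq_abs _
      calc _ = |inner ℝ u w| ^ 2 * ‖v‖ ^ 2 + |inner ℝ v w| ^ 2 * ‖u‖ ^ 2
          + 2 * (|inner ℝ u w| * |inner ℝ v w|) * (‖u‖ * ‖v‖) := by ring
        _ = _ := by rw [h1, h2]
    rw [e1, e2]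
    have h3 : -((inner ℝ u w * inner ℝ v w) * inner ℝ u v) ≤
        (|inner ℝ u w| * |inner ℝ v w|) * (‖u‖ * ‖v‖) := by
      calc -((inner ℝ u w * inner ℝ v w) * inner ℝ u v)
          ≤ |(inner ℝ u w * inner ℝ v w) * inner ℝ u v| := neg_le_abs _
        _ = (|inner ℝ u w| * |inner ℝ v w|) * |inner ℝ u v| := by rw [abs_mul, abs_mul]
        _ ≤ _ := by gcongr; exact abs_real_inner_le_norm u v
    linarith
  exact abs_le_of_sq_le_sq' key (by positivity) |>.2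

lemma abs_half_add {p q g : ℝ} (hg : 0 < g) (hs : 0 < p * q) (hp : g ≤ |p|) (hq : g ≤ |q|) :
    g ≤ |(p + q) / 2| := by
  rcases lt_trichotomy p 0 with h | h | h
  · have hq0 : q < 0 := by
      by_contra hh
      push Not at hh
      nlinarith [mul_nonpos_of_nonpos_of_nonneg h.le hh]
    rw [abs_of_neg h] at hp
    rw [abs_of_neg hq0] at hq
    rw [abs_of_neg (by linarith)]; linarith
  · simp [h] at hs
  · have hq0 : 0 < q := by
      by_contra hh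
      push Not at hh
      nlinarith [mul_nonneg h.le (neg_nonneg.2 hh)]
    rw [abs_of_pos h] at hp
    rw [abs_of_pos hq0] at hq
    rw [abs_of_pos (by linarith)]; linarith

lemma norm_nab_mid_le {b : E2} {c M : ℝ} {C C' : E2} (h : ‖nab b c C‖ ≤ M) (h' : ‖nab b c C'‖ ≤ M) :
    ‖nab b c ((1 / 2 : ℝ) • (C + C'))‖ ≤ M := by
  have e : nab b c ((1 / 2 : ℝ) • (C + C')) = (1 / 2 : ℝ) • (nab b c C + nab b c C') := by
    unfold nab
    rw [smul_add, smul_add, smul_add, smul_smul, smul_smul, smul_add, smul_add, smul_smul, smul_smul]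
    have : b = (1 / 2 : ℝ) • b + (1 / 2 : ℝ) • b := by rw [← add_smul]; norm_num
    nth_rewrite 1 [this]
    rw [mul_comm c (1 / 2)]
    abel
  rw [e, norm_smul, Real.norm_of_nonneg (by norm_num)]
  have := norm_add_le (nab b c C) (nab b c C')
  linarith

/-- **CROSS**: two conic strips cross in two clusters (`J > 0` and `J < 0`). -/
theorem cross {a1 a2 : ℝ} {b1 b2 : E2} {c1 c2 h g M : ℝ} {C C' : E2} (hg : 0 < g) (hh : 0 ≤ h)
    (h1 : |Lq a1 b1 c1 C| ≤ h) (h1' : |Lq a1 b1 c1 C'| ≤ h)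
    (h2 : |Lq a2 b2 c2 C| ≤ h) (h2' : |Lq a2 b2 c2 C'| ≤ h)
    (m1 : ‖nab b1 c1 C‖ ≤ M) (m1' : ‖nab b1 c1 C'‖ ≤ M)
    (m2 : ‖nab b2 c2 C‖ ≤ M) (m2' : ‖nab b2 c2 C'‖ ≤ M)
    (hs : 0 < crs (nab b1 c1 C) (nab b2 c2 C) * crs (nab b1 c1 C') (nab b2 c2 C'))
    (hJ : g ≤ |crs (nab b1 c1 C) (nab b2 c2 C)|) (hJ' : g ≤ |crs (nab b1 c1 C') (nab b2 c2 C')|) :
    ‖C - C'‖ ≤ 4 * M * h / g := by
  set u := nab b1 c1 ((1 / 2 : ℝ) • (C + C')) with hu
  set v := nab b2 c2 ((1 / 2 : ℝ) • (C + C')) with hv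
  have k1 : |inner ℝ u (C - C')| ≤ 2 * h := by
    rw [hu, ← Lq_sub a1]; refine (abs_sub _ _).trans ?_; linarith
  have k2 : |inner ℝ v (C - C')| ≤ 2 * h := by
    rw [hv, ← Lq_sub a2]; refine (abs_sub _ _).trans ?_; linarith
  have k3 : g ≤ |crs u v| := by rw [hu, hv, crs_mid]; exact abs_half_add hg hs hJ hJ'
  have n1 : ‖u‖ ≤ M := norm_nab_mid_le m1 m1'
  have n2 : ‖v‖ ≤ M := norm_nab_mid_le m2 m2'
  have M0 : 0 ≤ M := (norm_nonneg _).trans n1
  have k4 := norm_mul_crs_le u v (C - C')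
  rw [le_div_iff₀ hg]
  calc ‖C - C'‖ * g ≤ ‖C - C'‖ * |crs u v| := by gcongr
    _ ≤ _ := k4
    _ ≤ 2 * h * M + 2 * h * M := by gcongr
    _ = 4 * M * h := by ring

/-- unit normals of a conic strip vary slowly. -/
lemma unit_sub_le {u v : E2} {k d : ℝ} (hk : 0 < k) (hu : k ≤ ‖u‖) (hv : k ≤ ‖v‖)
    (hd : ‖u - v‖ ≤ d) : ‖(‖u‖⁻¹ • u) - (‖v‖⁻¹ • v)‖ ≤ 2 * d / k := by
  have hu0 : 0 < ‖u‖ := hk.trans_le hu
  have hv0 : 0 < ‖v‖ := hk.trans_le hv
  have e : (‖u‖⁻¹ • u) - (‖v‖⁻¹ • v) = ‖u‖⁻¹ • (u - v) + (‖u‖⁻¹ - ‖v‖⁻¹) • v := by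
    rw [smul_sub, sub_smul]; abel
  rw [e]
  refine (norm_add_le _ _).trans ?_
  rw [norm_smul, norm_smul, norm_inv, norm_norm]
  have e2 : ‖‖u‖⁻¹ - ‖v‖⁻¹‖ * ‖v‖ ≤ ‖u‖⁻¹ * ‖u - v‖ := by
    rw [Real.norm_eq_abs]
    have : ‖u‖⁻¹ - ‖v‖⁻¹ = (‖v‖ - ‖u‖) * ‖u‖⁻¹ * ‖v‖⁻¹ := by field_simp
    rw [this, abs_mul, abs_mul, abs_of_pos (inv_pos.2 hv0), abs_of_pos (inv_pos.2 hu0),
      mul_assoc, inv_mul_cancel₀ hv0.ne', mul_one, mul_comm]
    gcongr
    rw [abs_sub_comm]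
    exact abs_norm_sub_norm_le u v
  have e3 : ‖u‖⁻¹ * ‖u - v‖ ≤ d / k := by
    rw [div_eq_inv_mul]
    exact mul_le_mul (inv_anti₀ hk hu) hd (norm_nonneg _) (inv_nonneg.2 hk.le)
  calc _ ≤ d / k + d / k := add_le_add e3 (e2.trans e3)
    _ = 2 * d / k := by ring

/-- **DISJOINT**: segments normal to a conic strip do not meet. -/
theorem disjoint_normals {a : ℝ} {b : E2} {c h k M b0 th bt bt' : ℝ} {C C' : E2} (hk : 0 < k)
    (hM : 0 ≤ M) (hh : 0 ≤ h)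
    (hc : |c| ≤ M) (h1 : |Lq a b c C| ≤ h) (h1' : |Lq a b c C'| ≤ h)
    (hn : k ≤ ‖nab b c C‖) (hn' : k ≤ ‖nab b c C'‖)
    (hbt : |bt| ≤ b0) (hbt' : |bt'| ≤ b0) (hb0 : 16 * (b0 * M) ≤ k) (hth : 8 * (th * M) ≤ k)
    (hr : ‖(C + bt • (‖nab b c C‖⁻¹ • nab b c C)) -
      (C' + bt' • (‖nab b c C'‖⁻¹ • nab b c C'))‖ ≤ th) :
    ‖C - C'‖ ≤ 4 * (h / k + th) := by
  set u := nab b c C with hu
  set v := nab b c C' with hv
  set e := ‖u‖⁻¹ • u with he
  set e' := ‖v‖⁻¹ • v with he'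
  set w := C - C' with hw
  have hb00 : 0 ≤ b0 := (abs_nonneg _).trans hbt
  have hth0 : 0 ≤ th := (norm_nonneg _).trans hr
  have hu0 : 0 < ‖u‖ := hk.trans_le hn
  have hv0 : 0 < ‖v‖ := hk.trans_le hn'
  have ne : ‖e‖ = 1 := by
    rw [he, norm_smul, norm_inv, norm_norm, inv_mul_cancel₀ hu0.ne']
  have ne' : ‖e'‖ = 1 := by
    rw [he', norm_smul, norm_inv, norm_norm, inv_mul_cancel₀ hv0.ne']
  -- normals
  have huv : ‖u - v‖ ≤ M * ‖w‖ := by
    have : u - v = c • w := by rw [hu, hv, hw]; unfold nab; rw [smul_sub]; abel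
    rw [this, norm_smul, Real.norm_eq_abs]; gcongr
  have hee : ‖e - e'‖ ≤ 2 * (M * ‖w‖) / k := unit_sub_le hk hn hn' huv
  -- residual
  set r := (C + bt • e) - (C' + bt' • e') with hrdef
  have hwr : w = (bt' - bt) • e + bt' • (e' - e) + r := by
    rw [hrdef, hw, sub_smul, smul_sub]; abel
  have hW1 : ‖w‖ ≤ 2 * b0 + th := by
    have : w = bt' • e' - bt • e + r := by rw [hrdef, hw]; abel
    rw [this]
    refine (norm_add_le _ _).trans ?_
    refine add_le_add ((norm_sub_le _ _).trans ?_) hr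
    have n1 : ‖bt' • e'‖ = |bt'| := by rw [norm_smul bt' e', ne', mul_one, Real.norm_eq_abs]
    have n2 : ‖bt • e‖ = |bt| := by rw [norm_smul bt e, ne, mul_one, Real.norm_eq_abs]
    rw [n1, n2]
    linarith
  -- inner product with the normal
  have hin : |inner ℝ u w| ≤ 2 * h + M * ‖w‖ ^ 2 / 2 := by
    have e1 : inner ℝ u w = (Lq a b c C - Lq a b c C') + c * ‖w‖ ^ 2 / 2 := by
      rw [hu, hw]; unfold Lq nab
      simp only [inner2, norm_sq2, PiLp.sub_apply, PiLp.smul_apply, PiLp.add_apply, smul_eq_mul]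
      ring
    rw [e1]
    refine (abs_add_le _ _).trans (add_le_add ((abs_sub _ _).trans (by linarith)) ?_)
    rw [abs_div, abs_mul, abs_of_nonneg (sq_nonneg ‖w‖), abs_of_pos (by norm_num : (0:ℝ) < 2)]
    have := mul_le_mul_of_nonneg_right hc (sq_nonneg ‖w‖)
    linarith
  have hin2 : |inner ℝ e w| ≤ (2 * h + M * ‖w‖ ^ 2 / 2) / k := by
    rw [he, inner_smul_left, abs_mul, div_eq_inv_mul]
    have : |(starRingEnd ℝ) ‖u‖⁻¹| = ‖u‖⁻¹ := by
      simp [abs_of_pos hu0]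
    rw [this]
    exact mul_le_mul (inv_anti₀ hk hn) hin (abs_nonneg _) (inv_nonneg.2 hk.le)
  set q := b0 * (2 * (M * ‖w‖) / k) with hq
  have hq1 : ‖bt' • (e' - e)‖ ≤ q := by
    have n1 : ‖bt' • (e' - e)‖ = |bt'| * ‖e - e'‖ := by
      rw [norm_smul bt' (e' - e), Real.norm_eq_abs, norm_sub_rev e' e]
    rw [n1, hq]
    exact mul_le_mul hbt' hee (norm_nonneg _) hb00
  have hlam : |bt' - bt| ≤ |inner ℝ e w| + q + th := by
    have e1 : inner ℝ e w = (bt' - bt) + inner ℝ e (bt' • (e' - e)) + inner ℝ e r := by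
      conv_lhs => rw [hwr]
      rw [inner_add_right, inner_add_right, inner_smul_right, real_inner_self_eq_norm_sq, ne]
      ring
    have e2 : bt' - bt = inner ℝ e w - inner ℝ e (bt' • (e' - e)) - inner ℝ e r := by linarith
    rw [e2]
    refine (abs_sub _ _).trans (add_le_add ((abs_sub _ _).trans (add_le_add le_rfl ?_)) ?_)
    · refine (abs_real_inner_le_norm _ _).trans ?_
      rw [ne, one_mul]; exact hq1
    · refine (abs_real_inner_le_norm _ _).trans ?_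
      rw [ne, one_mul]; exact hr
  have hw2 : ‖w‖ ≤ |bt' - bt| + q + th := by
    calc ‖w‖ = ‖(bt' - bt) • e + bt' • (e' - e) + r‖ := by rw [← hwr]
      _ ≤ ‖(bt' - bt) • e‖ + ‖bt' • (e' - e)‖ + ‖r‖ := norm_add₃_le
      _ ≤ _ := by
        rw [norm_smul, ne, mul_one, Real.norm_eq_abs]
        gcongr
  have hfin : ‖w‖ ≤ (2 * h + M * ‖w‖ ^ 2 / 2) / k + 2 * q + 2 * th := by linarith
  -- absorb
  have a1 : M * ‖w‖ ^ 2 / 2 / k ≤ ‖w‖ / 8 := by
    rw [div_le_iff₀ hk]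
    have : M * ‖w‖ ≤ M * (2 * b0 + th) := by gcongr
    have h4 : M * (2 * b0 + th) ≤ k / 4 := by nlinarith
    nlinarith [norm_nonneg w]
  have a2 : 2 * q ≤ ‖w‖ / 4 := by
    rw [hq]
    have : 2 * (b0 * (2 * (M * ‖w‖) / k)) = 4 * (b0 * M) * ‖w‖ / k := by ring
    rw [this, div_le_iff₀ hk]
    nlinarith [norm_nonneg w]
  have a3 : (2 * h + M * ‖w‖ ^ 2 / 2) / k = 2 * (h / k) + M * ‖w‖ ^ 2 / 2 / k := by ring
  rw [a3] at hfin
  have hhk : 0 ≤ h / k := by positivity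
  linarith

end Crest.Agent.R116.Gc192
end

-- ▼ part R116/Gc2_192
section

/-!
# R116: planar (conic) geometry, part 2: counting, covering and area of strips (helper192)

A strip `{C : |Lq a b c C| ≤ h, k ≤ ‖nab b c C‖}` is a neighbourhood of width `h / k` of a circle (or of
a line); in a disc of radius `ρ` it has at most `289 (4 ρ / δ + 2)` points which are `δ`-separated,
`δ ≥ 8 h / k`.
-/

set_option autoImplicit false

open Finset

namespace Crest.Agent.R116.Gc192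

/-- rotation by a quarter turn. -/
noncomputable def rot (u : E2) : E2 := !₂[-(u 1), u 0]








lemma abs_coord_le {e : E2} (he : ‖e‖ = 1) (i : Fin 2) : |e i| ≤ 1 := by
  have h := norm_sq2 e
  rw [he] at h
  have : e i ^ 2 ≤ 1 := by
    fin_cases i
    · simp only [Fin.zero_eta]; nlinarith [sq_nonneg (e 1)]
    · simp only [Fin.mk_one]; nlinarith [sq_nonneg (e 0)]
  exact (sq_le_one_iff_abs_le_one _).1 this






/-- **G2 (cover)**: two strips crossing with Jacobian at least `g` meet in two clusters. -/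
theorem cross_cover {a1 a2 : ℝ} {b1 b2 : E2} {c1 c2 h g M : ℝ} (hg : 0 < g) (hh : 0 ≤ h)
    (S : Finset E2) (h1 : ∀ C ∈ S, |Lq a1 b1 c1 C| ≤ h) (h2 : ∀ C ∈ S, |Lq a2 b2 c2 C| ≤ h)
    (m1 : ∀ C ∈ S, ‖nab b1 c1 C‖ ≤ M) (m2 : ∀ C ∈ S, ‖nab b2 c2 C‖ ≤ M)
    (hJ : ∀ C ∈ S, g ≤ |crs (nab b1 c1 C) (nab b2 c2 C)|) :
    ∃ T ⊆ S, T.card ≤ 2 ∧ ∀ C ∈ S, ∃ C' ∈ T, ‖C - C'‖ ≤ 4 * M * h / g := by
  classical
  have half : ∀ (P : E2 → Prop), (∀ C C', P C → P C' →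
      0 < crs (nab b1 c1 C) (nab b2 c2 C) * crs (nab b1 c1 C') (nab b2 c2 C')) →
      ∃ T ⊆ S, T.card ≤ 1 ∧ ∀ C ∈ S, P C → ∃ C' ∈ T, ‖C - C'‖ ≤ 4 * M * h / g := by
    intro P hP
    rcases (S.filter P).eq_empty_or_nonempty with hS | ⟨C1, hC1⟩
    · refine ⟨∅, by simp, by simp, ?_⟩
      intro C hC hPC
      have : C ∈ S.filter P := Finset.mem_filter.2 ⟨hC, hPC⟩
      rw [hS] at this; exact absurd this (Finset.notMem_empty _)
    · obtain ⟨hC1S, hC1P⟩ := Finset.mem_filter.1 hC1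
      refine ⟨{C1}, by simpa using hC1S, by simp, ?_⟩
      intro C hC hPC
      exact ⟨C1, by simp, cross hg hh (h1 C hC) (h1 C1 hC1S) (h2 C hC) (h2 C1 hC1S) (m1 C hC)
        (m1 C1 hC1S) (m2 C hC) (m2 C1 hC1S) (hP C C1 hPC hC1P) (hJ C hC) (hJ C1 hC1S)⟩
  obtain ⟨T1, hT1, c1', d1⟩ := half (fun C => 0 < crs (nab b1 c1 C) (nab b2 c2 C))
    (fun C C' h h' => mul_pos h h')
  obtain ⟨T2, hT2, c2', d2⟩ := half (fun C => crs (nab b1 c1 C) (nab b2 c2 C) < 0)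
    (fun C C' h h' => mul_pos_of_neg_of_neg h h')
  refine ⟨T1 ∪ T2, Finset.union_subset hT1 hT2, (Finset.card_union_le _ _).trans (by omega), ?_⟩
  intro C hC
  rcases lt_trichotomy (crs (nab b1 c1 C) (nab b2 c2 C)) 0 with h | h | h
  · obtain ⟨C', hC', hd⟩ := d2 C hC h
    exact ⟨C', Finset.mem_union_right _ hC', hd⟩
  · have := hJ C hC; rw [h, abs_zero] at this; exact absurd this (not_le.2 hg)
  · obtain ⟨C', hC', hd⟩ := d1 C hC h
    exact ⟨C', Finset.mem_union_left _ hC', hd⟩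

end Crest.Agent.R116.Gc192
end

-- ▼ part R116/Gc3_192

/-!
# R116: geometry of the coherence rectangles on curved strips (helper192)

725's conformal functions `p : Cf E2`; at a point `(x, y, s)` the strip of slopes is
`{C : |p.ld C x y s| ≤ h}`, its normal at `C` is `p.gr C x s`, `un p C x s` the unit normal.
Cone versions of `Rect_779` (W5 of 1979): DISJOINT, multiplicity, summed form, class count, and the
two-cluster form of the misaligned case.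
-/

set_option autoImplicit false

namespace Crest.Agent.R116.Gc192

open Crest.Agent.R116.LZg725 (Cf)
open Crest.Agent.R138.Rect779 (orth RectF)
open Crest.Agent.R138.Wpk685 (cen)

/-! ### bridge to 725's objects -/

theorem ld_eq (p : Cf E2) (C x : E2) (y s : ℝ) :
    p.ld C x y s = Lq (p.a1 - 2 * p.d * y) (-(p.be + (2 * p.d) • x)) (p.ny s) C := by
  unfold Cf.ld Lq
  rw [inner_neg_left]
  ring

theorem gr_eq (p : Cf E2) (C x : E2) (s : ℝ) :
    p.gr C x s = -nab (-(p.be + (2 * p.d) • x)) (p.ny s) C := by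
  unfold Cf.gr nab
  abel

theorem norm_gr (p : Cf E2) (C x : E2) (s : ℝ) :
    ‖p.gr C x s‖ = ‖nab (-(p.be + (2 * p.d) • x)) (p.ny s) C‖ := by rw [gr_eq, norm_neg]

/-- the unit normal of the strip of `p` at the slope `C`, at the point `(x, s)`. -/
noncomputable def un (p : Cf E2) (C x : E2) (s : ℝ) : E2 := ‖p.gr C x s‖⁻¹ • p.gr C x s

theorem un_eq (p : Cf E2) (C x : E2) (s : ℝ) : un p C x s =
    -(‖nab (-(p.be + (2 * p.d) • x)) (p.ny s) C‖⁻¹ • nab (-(p.be + (2 * p.d) • x)) (p.ny s) C) := by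
  unfold un
  rw [norm_gr, gr_eq, smul_neg]

theorem norm_un {p : Cf E2} {C x : E2} {s k : ℝ} (hk : 0 < k) (h : k ≤ ‖p.gr C x s‖) :
    ‖un p C x s‖ = 1 := by
  unfold un
  rw [norm_smul, norm_inv, norm_norm, inv_mul_cancel₀ (hk.trans_le h).ne']


/-- the unit normals vary slowly. -/
theorem un_sub {p : Cf E2} {C C' x x' : E2} {s s' k d : ℝ} (hk : 0 < k)
    (h : k ≤ ‖p.gr C x s‖) (h' : k ≤ ‖p.gr C' x' s'‖)
    (hd : ‖p.gr C x s - p.gr C' x' s'‖ ≤ d) : ‖un p C x s - un p C' x' s'‖ ≤ 2 * d / k :=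
  unit_sub_le hk h h' hd


/-! ### DISJOINT -/

/-- a point of a rectangle, in the form of `disjoint_normals`. -/
lemma rect_point {N ξ0 ξ : E2} {L w : ℝ} (hN : ‖N‖ = 1) (h : ξ ∈ RectF N ξ0 L w) :
    |(inner ℝ N (ξ - ξ0) : ℝ)| ≤ L ∧ ‖ξ - (ξ0 + (inner ℝ N (ξ - ξ0) : ℝ) • N)‖ ≤ w := by
  refine ⟨(Crest.Agent.R138.Rect779.abs_inner_le hN _).trans h.1, ?_⟩
  have e : ξ - (ξ0 + (inner ℝ N (ξ - ξ0) : ℝ) • N) = orth N (ξ - ξ0) := by
    unfold orth; abel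
  rw [e]; exact h.2

/-- **DISJOINT for curved strips**: two rectangles with their own normals, centres in the same strip,
are disjoint unless the centres are close. -/
theorem rect_disjointC {p : Cf E2} {x : E2} {y s h k M L w : ℝ} (hk : 0 < k) (hM : |p.ny s| ≤ M)
    (hL : 16 * (L * M) ≤ k) (hw : 16 * (w * M) ≤ k) {C1 C2 ξ : E2}
    (h1 : |p.ld C1 x y s| ≤ h) (h2 : |p.ld C2 x y s| ≤ h)
    (k1 : k ≤ ‖p.gr C1 x s‖) (k2 : k ≤ ‖p.gr C2 x s‖)
    (r1 : ξ ∈ RectF (un p C1 x s) C1 L w) (r2 : ξ ∈ RectF (un p C2 x s) C2 L w) :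
    ‖C1 - C2‖ ≤ 4 * (h / k + 2 * w) := by
  obtain ⟨b1, c1⟩ := rect_point (norm_un hk k1) r1
  obtain ⟨b2, c2⟩ := rect_point (norm_un hk k2) r2
  have hM0 : 0 ≤ M := (abs_nonneg _).trans hM
  have hh : 0 ≤ h := (abs_nonneg _).trans h1
  set B : E2 := -(p.be + (2 * p.d) • x) with hB
  set bt1 : ℝ := inner ℝ (un p C1 x s) (ξ - C1)
  set bt2 : ℝ := inner ℝ (un p C2 x s) (ξ - C2)
  rw [ld_eq] at h1 h2
  rw [norm_gr] at k1 k2
  have e1 : ∀ C (bt : ℝ), C + bt • un p C x s =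
      C + (-bt) • (‖nab B (p.ny s) C‖⁻¹ • nab B (p.ny s) C) := by
    intro C bt
    rw [un_eq, smul_neg, neg_smul]
  refine disjoint_normals (b0 := L) (th := 2 * w) (bt := -bt1) (bt' := -bt2) hk hM0 hh hM h1 h2 k1 k2
    (by rw [abs_neg]; exact b1) (by rw [abs_neg]; exact b2) hL (by linarith) ?_
  rw [← e1, ← e1]
  have e2 : (C1 + bt1 • un p C1 x s) - (C2 + bt2 • un p C2 x s) =
      (ξ - (C2 + bt2 • un p C2 x s)) - (ξ - (C1 + bt1 • un p C1 x s)) := by abel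
  rw [e2]
  refine (norm_sub_le _ _).trans ?_
  linarith

/-- **multiplicity**: a slope `ξ` lies in at most `(2 K + 1)^2` rectangles of the caps of a strip. -/
theorem multC_le {p : Cf E2} {x : E2} {y s h k M L w ρ K : ℝ} (hk : 0 < k) (hM : |p.ny s| ≤ M)
    (hL : 16 * (L * M) ≤ k) (hw : 16 * (w * M) ≤ k) (hρ : 0 < ρ) (hK : 0 ≤ K)
    (hKa : 4 * (h / k + 2 * w) ≤ K * ρ) {T : Finset (ℤ × ℤ)}
    (h1 : ∀ m ∈ T, |p.ld (cen ρ m) x y s| ≤ h) (k1 : ∀ m ∈ T, k ≤ ‖p.gr (cen ρ m) x s‖) (ξ : E2)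
    (hT : ∀ m ∈ T, ξ ∈ RectF (un p (cen ρ m) x s) (cen ρ m) L w) :
    (T.card : ℝ) ≤ (2 * K + 1) ^ 2 := by
  rcases T.eq_empty_or_nonempty with rfl | ⟨m0, hm0⟩
  · simp only [Finset.card_empty, Nat.cast_zero]; positivity
  · refine Crest.Agent.R138.Rect779.card_caps_le hρ hK (ξ0 := cen ρ m0) fun m hm => ?_
    exact (rect_disjointC hk hM hL hw (h1 m hm) (h1 m0 hm0) (k1 m hm) (k1 m0 hm0) (hT m hm)
      (hT m0 hm0)).trans hKa



/-! ### UPPER: coherent classes -/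

/-- the phase `‖ξ‖²/2`, whose gradient is the identity. -/
noncomputable def hsq (ξ : E2) : ℝ := ‖ξ‖ ^ 2 / 2





/-! ### alignment and the two clusters of the misaligned case -/





lemma crs_smul (a b : ℝ) (u v : E2) : crs (a • u) (b • v) = a * b * crs u v := by
  unfold crs
  simp only [PiLp.smul_apply, smul_eq_mul]
  ring

lemma crs_neg (u v : E2) : crs (-u) (-v) = crs u v := by
  unfold crs
  simp only [PiLp.neg_apply]
  ring

/-- the Jacobian of two strips in terms of the sine of the unit normals. -/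
lemma crs_gr {p q : Cf E2} {C x : E2} {s k : ℝ} (hk : 0 < k) (h1 : k ≤ ‖p.gr C x s‖)
    (h2 : k ≤ ‖q.gr C x s‖) :
    crs (p.gr C x s) (q.gr C x s) = ‖p.gr C x s‖ * ‖q.gr C x s‖ * crs (un p C x s) (un q C x s) := by
  have e1 : p.gr C x s = ‖p.gr C x s‖ • un p C x s := by
    unfold un; rw [smul_smul, mul_inv_cancel₀ (hk.trans_le h1).ne', one_smul]
  have e2 : q.gr C x s = ‖q.gr C x s‖ • un q C x s := by
    unfold un; rw [smul_smul, mul_inv_cancel₀ (hk.trans_le h2).ne', one_smul]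
  conv_lhs => rw [e1, e2]
  rw [crs_smul]

/-- **MIS, two clusters**: the slopes common to two strips through one point, whose normals make an
angle of sine at least `δ`, lie in two balls of radius `4 M h / (k² δ)`. -/
theorem mis_two {p q : Cf E2} {x : E2} {y s h k M δ : ℝ} (hk : 0 < k) (hδ : 0 < δ) (hh : 0 ≤ h)
    (S : Finset E2) (h1 : ∀ C ∈ S, |p.ld C x y s| ≤ h) (h2 : ∀ C ∈ S, |q.ld C x y s| ≤ h)
    (m1 : ∀ C ∈ S, ‖p.gr C x s‖ ≤ M) (m2 : ∀ C ∈ S, ‖q.gr C x s‖ ≤ M)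
    (k1 : ∀ C ∈ S, k ≤ ‖p.gr C x s‖) (k2 : ∀ C ∈ S, k ≤ ‖q.gr C x s‖)
    (hs : ∀ C ∈ S, δ ≤ |crs (un p C x s) (un q C x s)|) :
    ∃ T ⊆ S, T.card ≤ 2 ∧ ∀ C ∈ S, ∃ C' ∈ T, ‖C - C'‖ ≤ 4 * M * h / (k ^ 2 * δ) := by
  refine cross_cover (a1 := p.a1 - 2 * p.d * y) (b1 := -(p.be + (2 * p.d) • x)) (c1 := p.ny s)
    (a2 := q.a1 - 2 * q.d * y) (b2 := -(q.be + (2 * q.d) • x)) (c2 := q.ny s)
    (by positivity) hh S ?_ ?_ ?_ ?_ ?_
  · intro C hC; rw [← ld_eq]; exact h1 C hC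
  · intro C hC; rw [← ld_eq]; exact h2 C hC
  · intro C hC; rw [← norm_gr]; exact m1 C hC
  · intro C hC; rw [← norm_gr]; exact m2 C hC
  · intro C hC
    have e : crs (nab (-(p.be + (2 * p.d) • x)) (p.ny s) C) (nab (-(q.be + (2 * q.d) • x)) (q.ny s) C) =
        crs (p.gr C x s) (q.gr C x s) := by
      rw [gr_eq, gr_eq, crs_neg]
    rw [e, crs_gr hk (k1 C hC) (k2 C hC), abs_mul, abs_mul, abs_norm, abs_norm]
    calc k ^ 2 * δ = k * k * δ := by ring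
      _ ≤ ‖p.gr C x s‖ * ‖q.gr C x s‖ * |crs (un p C x s) (un q C x s)| := by
        have := k1 C hC
        have := k2 C hC
        have := hs C hC
        gcongr

end Crest.Agent.R116.Gc192
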