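import Mathlib
import Crest.Agent.R116.Cad1_538
import Crest.Agent.R116.LZg2_725
import Crest.Agent.R116.Gc3_192
import Crest.Agent.R116.AlB1_888
import Crest.Agent.R116.WDefC_188

-- ▼ part R116/AlV1_339
section

/-!
# R116 (S0155), wave side, AL-CONE (helper339): volumes of slabs, part 1

Fibre lemma for `Fin 3 → ℝ` and the one dimensional quadratic lemma.
-/

set_option autoImplicit false

open MeasureTheory
open scoped ENNReal

namespace Crest.Agent.R116.AlV339

/-- a subset of the line with small diameter. -/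
theorem vol_le_of_dist {S : Set ℝ} {D : ℝ} (h : ∀ s ∈ S, ∀ s' ∈ S, |s - s'| ≤ D) :
    volume S ≤ ENNReal.ofReal D := by
  refine (Real.volume_le_diam S).trans ?_
  refine Metric.ediam_le fun s hs s' hs' => ?_
  rw [edist_dist, Real.dist_eq]
  exact ENNReal.ofReal_le_ofReal (h s hs s' hs')

/-- **quadratic fibre**: where the derivative is at least `c1`, the set `{|h| ≤ w}` is small. -/
theorem vol_quad {al be d w c1 : ℝ} (hw : 0 ≤ w) (hc : 0 < c1) :
    volume {s : ℝ | |al + be * s + d * s ^ 2| ≤ w ∧ c1 ≤ |be + 2 * d * s|} ≤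
      ENNReal.ofReal (4 * w / c1) := by
  have key : ∀ s s' : ℝ, |al + be * s + d * s ^ 2| ≤ w → |al + be * s' + d * s' ^ 2| ≤ w →
      ((c1 ≤ be + 2 * d * s ∧ c1 ≤ be + 2 * d * s') ∨
        (be + 2 * d * s ≤ -c1 ∧ be + 2 * d * s' ≤ -c1)) → |s - s'| ≤ 2 * w / c1 := by
    intro s s' h1 h2 h3
    rw [le_div_iff₀ hc]
    have e : (al + be * s + d * s ^ 2) - (al + be * s' + d * s' ^ 2) =
        (s - s') * (((be + 2 * d * s) + (be + 2 * d * s')) / 2) := by ring
    have h4 : |(al + be * s + d * s ^ 2) - (al + be * s' + d * s' ^ 2)| ≤ 2 * w := by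
      refine (abs_sub _ _).trans ?_
      linarith
    rw [e, abs_mul] at h4
    refine le_trans ?_ h4
    refine mul_le_mul_of_nonneg_left ?_ (abs_nonneg _)
    rcases h3 with ⟨h5, h6⟩ | ⟨h5, h6⟩
    · rw [le_abs]; left; linarith
    · rw [le_abs]; right; linarith
  have hsub : {s : ℝ | |al + be * s + d * s ^ 2| ≤ w ∧ c1 ≤ |be + 2 * d * s|} ⊆
      {s : ℝ | |al + be * s + d * s ^ 2| ≤ w ∧ c1 ≤ be + 2 * d * s} ∪
        {s : ℝ | |al + be * s + d * s ^ 2| ≤ w ∧ be + 2 * d * s ≤ -c1} := by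
    rintro s ⟨h1, h2⟩
    rcases le_abs.1 h2 with h3 | h3
    · left; exact ⟨h1, h3⟩
    · right; exact ⟨h1, by linarith⟩
  refine (measure_mono hsub).trans ((measure_union_le _ _).trans ?_)
  have e : 4 * w / c1 = 2 * w / c1 + 2 * w / c1 := by ring
  rw [e, ENNReal.ofReal_add (by positivity) (by positivity)]
  refine add_le_add (vol_le_of_dist ?_) (vol_le_of_dist ?_)
  · rintro s ⟨h1, h2⟩ s' ⟨h1', h2'⟩
    exact key s s' h1 h1' (Or.inl ⟨h2, h2'⟩)
  · rintro s ⟨h1, h2⟩ s' ⟨h1', h2'⟩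
    exact key s s' h1 h1' (Or.inr ⟨h2, h2'⟩)

/-- **fibre lemma.** -/
theorem vol_slice {S : Set (Fin 3 → ℝ)} (hS : MeasurableSet S) (i : Fin 3) (b a : Fin 3 → ℝ)
    (hbox : ∀ p ∈ S, ∀ j, |p j - b j| ≤ a j) {m : ℝ≥0∞}
    (hm : ∀ p : Fin 3 → ℝ, volume {s : ℝ | Function.update p i s ∈ S} ≤ m) :
    volume S ≤ m * ∏ j : Fin 2, ENNReal.ofReal (2 * a (i.succAbove j)) := by
  classical
  set e := MeasurableEquiv.piFinSuccAbove (fun _ : Fin 3 => ℝ) i with he
  have hmp : MeasurePreserving e := volume_preserving_piFinSuccAbove (fun _ => ℝ) i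
  set S' : Set (ℝ × (Fin 2 → ℝ)) := e.symm ⁻¹' S with hS'
  have hS'm : MeasurableSet S' := e.symm.measurable hS
  have h1 : volume S = volume S' := by
    rw [← hmp.measure_preimage hS'm.nullMeasurableSet]
    congr 1
    ext p
    rw [hS', Set.mem_preimage, Set.mem_preimage, MeasurableEquiv.symm_apply_apply]
  rw [h1, Measure.volume_eq_prod, Measure.prod_apply_symm hS'm]
  set Q : Set (Fin 2 → ℝ) := Set.pi Set.univ fun j =>
    Set.Icc (b (i.succAbove j) - a (i.succAbove j)) (b (i.succAbove j) + a (i.succAbove j)) with hQ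
  have hQv : volume Q = ∏ j : Fin 2, ENNReal.ofReal (2 * a (i.succAbove j)) := by
    rw [hQ, volume_pi_pi]
    refine Finset.prod_congr rfl fun j _ => ?_
    rw [Real.volume_Icc]
    congr 1; ring
  have hQm : MeasurableSet Q := MeasurableSet.univ_pi fun _ => measurableSet_Icc
  have hins : ∀ (s : ℝ) (v : Fin 2 → ℝ), e.symm (s, v) = (i.insertNth s v : Fin 3 → ℝ) :=
    fun _ _ => rfl
  have h2 : ∀ v : Fin 2 → ℝ, volume ((fun s => (s, v)) ⁻¹' S') ≤ Q.indicator (fun _ => m) v := by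
    intro v
    by_cases hv : v ∈ Q
    · rw [Set.indicator_of_mem hv]
      refine le_trans (le_of_eq ?_) (hm (e.symm (0, v)))
      congr 1
      ext s
      simp only [hS', Set.mem_preimage, Set.mem_ofPred_eq]
      rw [hins, hins]
      have : (i.insertNth s v : Fin 3 → ℝ) = Function.update (i.insertNth (0:ℝ) v) i s := by
        funext j
        rcases Fin.eq_self_or_eq_succAbove i j with h | ⟨k, h⟩
        · rw [h]; simp
        · rw [h, Function.update_of_ne (Fin.succAbove_ne i k)]; simp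
      rw [this]
    · rw [Set.indicator_of_notMem hv]
      have : (fun s => (s, v)) ⁻¹' S' = ∅ := by
        ext s
        simp only [hS', Set.mem_preimage, Set.mem_empty_iff_false, iff_false]
        intro hs
        apply hv
        rw [hQ]
        intro j _
        have h3 := hbox _ hs (i.succAbove j)
        have h4 : (e.symm (s, v)) (i.succAbove j) = v j := by
          rw [hins]; simp
        rw [h4, abs_le] at h3
        constructor <;> linarith [h3.1, h3.2]
      rw [this, measure_empty]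
  refine (lintegral_mono h2).trans ?_
  rw [lintegral_indicator_const hQm, hQv]

end Crest.Agent.R116.AlV339
end

-- ▼ part R116/AlV2_339
section

/-!
# R116 (S0155), wave side, AL-CONE (helper339): volumes of slabs, part 2

`regC` = region of one plate at one time (section of the light box cut by a slab), its volume.
-/

set_option autoImplicit false

open MeasureTheory
open scoped ENNReal

namespace Crest.Agent.R116.AlV339

open Crest.Agent.R138.Defs (E2)
open Crest.Agent.R116.CDef480 Crest.Agent.R116.Cad538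
open Crest.Agent.R116.LZg725 (Cf)

/-- region of a plate at time `t`. -/
def regC (a b w L : ℝ) (c x0 : E2) (n0 : ℝ) (f : Cf E2) (t : ℝ) : Set E3 :=
  {x | ‖lat x - x0‖ ≤ a ∧ |nrm c x t - n0| ≤ b ∧ |f.ev (lat x) (x 2) t| ≤ w ∧
    (1/4 ≤ ‖f.gr c (lat x) t‖ ∨ 1/4 ≤ L * |f.ny t|)}

theorem nrm_cont (c : E2) (t : ℝ) : Continuous fun x : E3 => nrm c x t := by
  have h1 : Continuous lat := latL.continuous
  have h2 : Continuous fun x : E3 => x 2 := (EuclideanSpace.proj (𝕜 := ℝ) 2).continuous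
  unfold nrm
  fun_prop

theorem ev_cont (f : Cf E2) (t : ℝ) : Continuous fun x : E3 => f.ev (lat x) (x 2) t := by
  have h1 : Continuous lat := latL.continuous
  have h2 : Continuous fun x : E3 => x 2 := (EuclideanSpace.proj (𝕜 := ℝ) 2).continuous
  unfold Cf.ev
  fun_prop

theorem gr_cont (f : Cf E2) (c : E2) (t : ℝ) : Continuous fun x : E3 => f.gr c (lat x) t := by
  have h1 : Continuous lat := latL.continuous
  unfold Cf.gr
  fun_prop

theorem regC_closed (a b w L : ℝ) (c x0 : E2) (n0 : ℝ) (f : Cf E2) (t : ℝ) :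
    IsClosed (regC a b w L c x0 n0 f t) := by
  have h1 : Continuous lat := latL.continuous
  refine (isClosed_le (f := fun x : E3 => ‖lat x - x0‖) (by fun_prop) continuous_const).inter
    ((isClosed_le ((nrm_cont c t).sub continuous_const).abs continuous_const).inter
    ((isClosed_le (ev_cont f t).abs continuous_const).inter
    ((isClosed_le continuous_const (gr_cont f c t).norm).union isClosed_const)))

/-- the region in the coordinates `(lat, nrm c)`. -/
theorem ev_coord (f : Cf E2) (c : E2) (t : ℝ) (x : E3) :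
    f.ev (lat x) (x 2) t = (f.a0 + f.a1 * t - f.ny t * (t * ‖c‖ ^ 2 / 2)) +
      inner ℝ (f.be - f.ny t • c) (lat x) + f.ny t * nrm c x t + f.d * ‖lat x‖ ^ 2 := by
  unfold Cf.ev Cf.ny nrm
  rw [inner_sub_left, real_inner_smul_left]
  ring

/-- the set in `Fin 3 → ℝ`. -/
def reg3 (a b w g : ℝ) (x0 : E2) (n0 : ℝ) (al : ℝ) (be : E2) (n d : ℝ) (k : Fin 3) :
    Set (Fin 3 → ℝ) :=
  {p | |p 0 - x0 0| ≤ a ∧ |p 1 - x0 1| ≤ a ∧ |p 2 - n0| ≤ b ∧
    |al + (be 0 * p 0 + be 1 * p 1) + n * p 2 + d * (p 0 ^ 2 + p 1 ^ 2)| ≤ w ∧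
    g ≤ |![be 0 + 2 * d * p 0, be 1 + 2 * d * p 1, n] k|}

theorem reg3_meas (a b w g : ℝ) (x0 : E2) (n0 : ℝ) (al : ℝ) (be : E2) (n d : ℝ) (k : Fin 3) :
    MeasurableSet (reg3 a b w g x0 n0 al be n d k) := by
  have hk : Continuous fun p : Fin 3 → ℝ => |![be 0 + 2 * d * p 0, be 1 + 2 * d * p 1, n] k| := by
    fin_cases k
    · show Continuous fun p : Fin 3 → ℝ => |be 0 + 2 * d * p 0|
      fun_prop
    · show Continuous fun p : Fin 3 → ℝ => |be 1 + 2 * d * p 1|
      fun_prop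
    · show Continuous fun p : Fin 3 → ℝ => |n|
      fun_prop
  have : IsClosed (reg3 a b w g x0 n0 al be n d k) := by
    refine (isClosed_le (f := fun p : Fin 3 → ℝ => |p 0 - x0 0|) (by fun_prop)
        continuous_const).inter
      ((isClosed_le (f := fun p : Fin 3 → ℝ => |p 1 - x0 1|) (by fun_prop)
        continuous_const).inter
      ((isClosed_le (f := fun p : Fin 3 → ℝ => |p 2 - n0|) (by fun_prop) continuous_const).inter
      ((isClosed_le (f := fun p : Fin 3 → ℝ =>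
        |al + (be 0 * p 0 + be 1 * p 1) + n * p 2 + d * (p 0 ^ 2 + p 1 ^ 2)|) (by fun_prop)
        continuous_const).inter (isClosed_le continuous_const hk))))
  exact this.measurableSet

theorem reg3_vol {a b w g : ℝ} (ha : 0 ≤ a) (hw : 0 ≤ w) (hg : 0 < g) (x0 : E2)
    (n0 : ℝ) (al : ℝ) (be : E2) (n d : ℝ) (k : Fin 3) :
    volume (reg3 a b w g x0 n0 al be n d k) ≤
      ENNReal.ofReal (4 * w / g * (4 * a * (if k = 2 then a else b))) := by
  have h := vol_slice (reg3_meas a b w g x0 n0 al be n d k) k ![x0 0, x0 1, n0] ![a, a, b]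
    (by
      rintro p ⟨h0, h1, h2, -, -⟩ j
      fin_cases j
      · exact h0
      · exact h1
      · exact h2) (m := ENNReal.ofReal (4 * w / g)) (by
      intro p
      fin_cases k
      · refine (measure_mono ?_).trans (vol_quad (al := al + be 1 * p 1 + n * p 2 + d * p 1 ^ 2)
          (be := be 0) (d := d) hw hg)
        rintro s ⟨-, -, -, h3, h4⟩
        simp only [Fin.zero_eta, Function.update_self, Fin.isValue, ne_eq, one_ne_zero,
          not_false_eq_true, Function.update_of_ne, Fin.reduceEq, Matrix.cons_val_zero] at h3 h4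
        refine ⟨?_, h4⟩
        rw [← show al + (be 0 * s + be 1 * p 1) + n * p 2 + d * (s ^ 2 + p 1 ^ 2) =
          al + be 1 * p 1 + n * p 2 + d * p 1 ^ 2 + be 0 * s + d * s ^ 2 by ring]
        exact h3
      · refine (measure_mono ?_).trans (vol_quad (al := al + be 0 * p 0 + n * p 2 + d * p 0 ^ 2)
          (be := be 1) (d := d) hw hg)
        rintro s ⟨-, -, -, h3, h4⟩
        simp only [Fin.mk_one, Function.update_self, Fin.isValue, ne_eq, zero_ne_one,
          not_false_eq_true, Function.update_of_ne, Fin.reduceEq, Matrix.cons_val_one,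
          Matrix.cons_val_zero] at h3 h4
        refine ⟨?_, h4⟩
        rw [← show al + (be 0 * p 0 + be 1 * s) + n * p 2 + d * (p 0 ^ 2 + s ^ 2) =
          al + be 0 * p 0 + n * p 2 + d * p 0 ^ 2 + be 1 * s + d * s ^ 2 by ring]
        exact h3
      · refine (measure_mono ?_).trans (vol_quad
          (al := al + (be 0 * p 0 + be 1 * p 1) + d * (p 0 ^ 2 + p 1 ^ 2))
          (be := n) (d := 0) hw hg)
        rintro s ⟨-, -, -, h3, h4⟩
        simp only [Fin.reduceFinMk, Function.update_self, Fin.isValue, ne_eq, Fin.reduceEq,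
          not_false_eq_true, Function.update_of_ne, Matrix.cons_val] at h3 h4
        refine ⟨?_, by simpa using h4⟩
        rw [← show al + (be 0 * p 0 + be 1 * p 1) + n * s + d * (p 0 ^ 2 + p 1 ^ 2) =
          al + (be 0 * p 0 + be 1 * p 1) + d * (p 0 ^ 2 + p 1 ^ 2) + n * s + 0 * s ^ 2 by ring]
        exact h3)
  refine h.trans (le_of_eq ?_)
  rw [Fin.prod_univ_two]
  fin_cases k
  · show ENNReal.ofReal (4 * w / g) * (ENNReal.ofReal (2 * a) * ENNReal.ofReal (2 * b)) =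
      ENNReal.ofReal (4 * w / g * (4 * a * b))
    rw [← ENNReal.ofReal_mul (by positivity), ← ENNReal.ofReal_mul (by positivity)]
    congr 1; ring
  · show ENNReal.ofReal (4 * w / g) * (ENNReal.ofReal (2 * a) * ENNReal.ofReal (2 * b)) =
      ENNReal.ofReal (4 * w / g * (4 * a * b))
    rw [← ENNReal.ofReal_mul (by positivity), ← ENNReal.ofReal_mul (by positivity)]
    congr 1; ring
  · show ENNReal.ofReal (4 * w / g) * (ENNReal.ofReal (2 * a) * ENNReal.ofReal (2 * a)) =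
      ENNReal.ofReal (4 * w / g * (4 * a * a))
    rw [← ENNReal.ofReal_mul (by positivity), ← ENNReal.ofReal_mul (by positivity)]
    congr 1; ring

/-- **volume of the region.** -/
theorem regC_vol {a b w L : ℝ} (ha : 0 ≤ a) (hb : 0 ≤ b) (hw : 0 ≤ w) (hL : 0 < L)
    (c x0 : E2) (n0 : ℝ) (f : Cf E2) (t : ℝ) :
    volume (regC a b w L c x0 n0 f t) ≤ ENNReal.ofReal (256 * w * a * (b + L * a)) := by
  set al := f.a0 + f.a1 * t - f.ny t * (t * ‖c‖ ^ 2 / 2) with hal
  set be := f.be - f.ny t • c with hbe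
  set n0' := n0 - t * ‖c‖ ^ 2 / 2 with hn0'
  -- constants are shifted: `nrm c x t = nrm c x 0 + t ‖c‖² / 2`
  set al' := al + f.ny t * (t * ‖c‖ ^ 2 / 2) with hal'
  have hsub : regC a b w L c x0 n0 f t ⊆ (frc 1 1 c : E3 →ₗ[ℝ] E3) ⁻¹'
      ((@WithLp.ofLp 2 (Fin 3 → ℝ)) ⁻¹' (reg3 a b w (1/8) x0 n0' al' be (f.ny t) f.d 0 ∪
        (reg3 a b w (1/8) x0 n0' al' be (f.ny t) f.d 1 ∪
          reg3 a b w (1 / (4 * L)) x0 n0' al' be (f.ny t) f.d 2))) := by
    rintro x ⟨h1, h2, h3, h4⟩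
    rw [Set.mem_preimage, Set.mem_preimage]
    have e0 : WithLp.ofLp ((frc 1 1 c : E3 →ₗ[ℝ] E3) x) 0 = x 0 := by
      show (frc 1 1 c x) 0 = x 0
      rw [frc_apply, pt_zero]; simp
    have e1 : WithLp.ofLp ((frc 1 1 c : E3 →ₗ[ℝ] E3) x) 1 = x 1 := by
      show (frc 1 1 c x) 1 = x 1
      rw [frc_apply, pt_one]; simp
    have e2 : WithLp.ofLp ((frc 1 1 c : E3 →ₗ[ℝ] E3) x) 2 = nrm c x t - t * ‖c‖ ^ 2 / 2 := by
      show (frc 1 1 c x) 2 = _
      rw [frc_apply, pt_two]; unfold nrm; ring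
    have c0 : |(lat x - x0) 0| ≤ a := (PiLp.norm_apply_le (lat x - x0) 0).trans h1
    have c1 : |(lat x - x0) 1| ≤ a := (PiLp.norm_apply_le (lat x - x0) 1).trans h1
    have hev : |al' + (be 0 * x 0 + be 1 * x 1) + f.ny t * (nrm c x t - t * ‖c‖ ^ 2 / 2) +
        f.d * (x 0 ^ 2 + x 1 ^ 2)| ≤ w := by
      have h5 := ev_coord f c t x
      rw [inner2, normsq2 (lat x), lat_zero, lat_one] at h5
      have : al' + (be 0 * x 0 + be 1 * x 1) + f.ny t * (nrm c x t - t * ‖c‖ ^ 2 / 2) +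
        f.d * (x 0 ^ 2 + x 1 ^ 2) = f.ev (lat x) (x 2) t := by
        rw [h5, hal', hal, hbe]; ring
      rw [this]; exact h3
    have hn : |nrm c x t - t * ‖c‖ ^ 2 / 2 - n0'| ≤ b := by
      have : nrm c x t - t * ‖c‖ ^ 2 / 2 - n0' = nrm c x t - n0 := by rw [hn0']; ring
      rw [this]; exact h2
    have hgr : ∀ i, f.gr c (lat x) t i = be i + 2 * f.d * lat x i := by
      intro i
      unfold Cf.gr
      rw [hbe]
      simp only [PiLp.add_apply, PiLp.sub_apply, PiLp.smul_apply, smul_eq_mul]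
      ring
    have hbase : ∀ (g : ℝ) (k : Fin 3),
        g ≤ |![be 0 + 2 * f.d * x 0, be 1 + 2 * f.d * x 1, f.ny t] k| →
        WithLp.ofLp ((frc 1 1 c : E3 →ₗ[ℝ] E3) x) ∈ reg3 a b w g x0 n0' al' be (f.ny t) f.d k := by
      intro g k hk
      refine ⟨?_, ?_, ?_, ?_, ?_⟩
      · rw [e0]; exact c0
      · rw [e1]; exact c1
      · rw [e2]; exact hn
      · rw [e0, e1, e2]; exact hev
      · rw [e0, e1]; exact hk
    rcases h4 with h4 | h4
    · have h5 : ‖f.gr c (lat x) t‖ ≤ |f.gr c (lat x) t 0| + |f.gr c (lat x) t 1| := by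
        have h6 : ‖f.gr c (lat x) t‖ ^ 2 ≤ (|f.gr c (lat x) t 0| + |f.gr c (lat x) t 1|) ^ 2 := by
          rw [normsq2, ← sq_abs (f.gr c (lat x) t 0), ← sq_abs (f.gr c (lat x) t 1)]
          nlinarith [abs_nonneg (f.gr c (lat x) t 0), abs_nonneg (f.gr c (lat x) t 1)]
        exact le_of_sq_le_sq h6 (by positivity)
      rcases le_total (|f.gr c (lat x) t 1|) (|f.gr c (lat x) t 0|) with h7 | h7
      · left
        refine hbase _ _ ?_
        show 1/8 ≤ |be 0 + 2 * f.d * x 0|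
        rw [← lat_zero x, ← hgr 0]
        linarith
      · right; left
        refine hbase _ _ ?_
        show 1/8 ≤ |be 1 + 2 * f.d * x 1|
        rw [← lat_one x, ← hgr 1]
        linarith
    · right; right
      refine hbase _ _ ?_
      show 1 / (4 * L) ≤ |f.ny t|
      rw [div_le_iff₀ (by positivity)]
      linarith
  refine (measure_mono hsub).trans ?_
  rw [Measure.addHaar_preimage_linearMap volume (by rw [det_frc]; norm_num), det_frc,
    show ENNReal.ofReal |((1:ℝ) ^ 2 * 1)⁻¹| = 1 by norm_num, one_mul]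
  have hmp : MeasurePreserving (@WithLp.ofLp 2 (Fin 3 → ℝ)) := PiLp.volume_preserving_ofLp (Fin 3)
  rw [hmp.measure_preimage (((reg3_meas _ _ _ _ _ _ _ _ _ _ _).union
    ((reg3_meas _ _ _ _ _ _ _ _ _ _ _).union (reg3_meas _ _ _ _ _ _ _ _ _ _ _))).nullMeasurableSet)]
  refine (measure_union_le _ _).trans ((add_le_add le_rfl (measure_union_le _ _)).trans ?_)
  have v0 := reg3_vol (b := b) ha hw (g := 1/8) (by norm_num) x0 n0' al' be (f.ny t) f.d 0
  have v1 := reg3_vol (b := b) ha hw (g := 1/8) (by norm_num) x0 n0' al' be (f.ny t) f.d 1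
  have v2 := reg3_vol (b := b) ha hw (g := 1 / (4 * L)) (by positivity) x0 n0' al' be (f.ny t) f.d 2
  refine (add_le_add v0 (add_le_add v1 v2)).trans ?_
  simp only [Fin.isValue, Fin.reduceEq, if_false, if_true]
  rw [← ENNReal.ofReal_add (by positivity) (by positivity),
    ← ENNReal.ofReal_add (by positivity) (by positivity)]
  refine ENNReal.ofReal_le_ofReal ?_
  have e : 4 * w / (1/8) * (4 * a * b) + (4 * w / (1/8) * (4 * a * b) +
      4 * w / (1 / (4 * L)) * (4 * a * a)) = 256 * w * a * b + 64 * w * a * (L * a) := by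
    field_simp
    ring
  rw [e]
  have : 0 ≤ w * a * (L * a) := by positivity
  nlinarith

end Crest.Agent.R116.AlV339
end

-- ▼ part R116/AlG1_339
section

/-!
# R116 (S0155), wave side, AL-CONE (helper339): geometry of one plate

`Plt M κ s1 s2 r f` = bounds of an admissible compatible conformal function; `Src` = phase point of
the plate; movement along the ray and inside one cell.
-/

set_option autoImplicit false

open MeasureTheory
open scoped ENNReal

namespace Crest.Agent.R116.AlC339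

open Crest.Agent.R138.Defs (E2)
open Crest.Agent.R116.CDef480 Crest.Agent.R116.Ckm538 Crest.Agent.R116.Cad538
open Crest.Agent.R116.LZg725 (Cf)
open Crest.Agent.R116.Gc192 (un norm_un)
open Crest.Agent.R116.AlB888 (lat_vel)

/-- bounds of the conformal function of a plate. -/
structure Plt (M κ s1 s2 r : ℝ) (f : Cf E2) : Prop where
  disc : f.disc = 1
  ny1 : ∀ s : ℝ, |s| ≤ r → |f.ny s| ≤ M / s2
  ny2 : ∀ s : ℝ, |s| ≤ r → |f.ny s| ≤ M * (κ * s1 * r)

theorem Plt.d1 {M κ s1 s2 r : ℝ} {f : Cf E2} (h : Plt M κ s1 s2 r f) (hr : 0 < r)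
    (hs2 : 0 < s2) : |f.d| ≤ M / (2 * s2 * r) := by
  have h1 := h.ny1 r (by rw [abs_of_pos hr])
  have h2 := h.ny1 (-r) (by rw [abs_neg, abs_of_pos hr])
  have e : f.ny (-r) - f.ny r = 4 * (f.d * r) := by unfold Cf.ny; ring
  have h3 : |4 * (f.d * r)| ≤ 2 * (M / s2) := by
    rw [← e]; exact (abs_sub _ _).trans (by linarith)
  rw [abs_mul, abs_mul, abs_of_pos hr, abs_of_pos (by norm_num : (0:ℝ) < 4)] at h3
  rw [le_div_iff₀ (by positivity)]
  have h4 : M / s2 * s2 = M := div_mul_cancel₀ _ hs2.ne'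
  nlinarith

theorem Plt.d2 {M κ s1 s2 r : ℝ} {f : Cf E2} (h : Plt M κ s1 s2 r f) (hr : 0 < r) :
    |f.d| ≤ M * κ * s1 / 2 := by
  have h1 := h.ny2 r (by rw [abs_of_pos hr])
  have h2 := h.ny2 (-r) (by rw [abs_neg, abs_of_pos hr])
  have e : f.ny (-r) - f.ny r = 4 * (f.d * r) := by unfold Cf.ny; ring
  have h3 : |4 * (f.d * r)| ≤ 2 * (M * (κ * s1 * r)) := by
    rw [← e]; exact (abs_sub _ _).trans (by linarith)
  rw [abs_mul, abs_mul, abs_of_pos hr, abs_of_pos (by norm_num : (0:ℝ) < 4)] at h3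
  have h4 : |f.d| * r ≤ (M * κ * s1 / 2) * r := by linarith
  exact le_of_mul_le_mul_right h4 hr

theorem two_vel (C : E2) : (vel C) 2 = -‖C‖ ^ 2 / 2 := by unfold vel; rw [pt_two]

theorem lat_ray (y : E3) (t : ℝ) (C : E2) : lat (y - t • vel C) = lat y - t • C := by
  rw [lat_sub, lat_smul, lat_vel]

theorem two_ray (y : E3) (t : ℝ) (C : E2) : (y - t • vel C) 2 = y 2 + t * ‖C‖ ^ 2 / 2 := by
  rw [PiLp.sub_apply, PiLp.smul_apply, two_vel, smul_eq_mul]; ring

/-- the value along the ray. -/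
theorem ev_ray (f : Cf E2) (C : E2) (y : E3) (t : ℝ) :
    f.ev (lat (y - t • vel C)) ((y - t • vel C) 2) t = f.ev (lat y) (y 2) 0 +
      t * f.ld C (lat y) (y 2) 0 := by
  have h := f.ev_along C (lat y) (y 2) 0 t
  rw [zero_add] at h
  rw [lat_ray, two_ray, h]

/-- the gradient is constant along the ray. -/
theorem gr_ray (f : Cf E2) (C : E2) (y : E3) (t : ℝ) :
    f.gr C (lat (y - t • vel C)) t = f.gr C (lat y) 0 := by
  rw [lat_ray, f.gr_move C (lat y) (lat y - t • C) 0 t]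
  have : lat y - t • C - lat y + (t - 0) • C = 0 := by
    rw [sub_zero]; abel
  rw [this, smul_zero, add_zero]



/-- expansion at fixed time. -/
theorem ev_step (f : Cf E2) (C : E2) (x u : E3) (t : ℝ) :
    f.ev (lat (x + u)) ((x + u) 2) t = f.ev (lat x) (x 2) t + inner ℝ (f.gr C (lat x) t) (lat u) +
      f.ny t * nrm C u 0 + f.d * ‖lat u‖ ^ 2 := by
  have h := f.ev_expand C (lat x) (x 2) t (lat (x + u)) ((x + u) 2) t
  have e1 : lat (x + u) - lat x + (t - t) • C = lat u := by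
    rw [lat_add, sub_self, zero_smul, add_zero]; abel
  have e2 : LZg725.nrm C (lat (x + u)) ((x + u) 2) t - LZg725.nrm C (lat x) (x 2) t =
      nrm C u 0 := by
    unfold LZg725.nrm CDef480.nrm
    rw [lat_add, inner_add_right, PiLp.add_apply]
    ring
  rw [e1, e2] at h
  rw [h]
  ring

theorem gr_step (f : Cf E2) (C : E2) (x u : E3) (t : ℝ) :
    f.gr C (lat (x + u)) t = f.gr C (lat x) t + (2 * f.d) • lat u := by
  rw [f.gr_move C (lat x) (lat (x + u)) t t, lat_add, sub_self, zero_smul, add_zero]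
  congr 2
  abel


/-- phase point of the plate with slope `C`, position `y` at time `0`. -/
structure Src (A s1 r : ℝ) (f : Cf E2) (C : E2) (y : E3) : Prop where
  ev : |f.ev (lat y) (y 2) 0| ≤ A * s1 * r
  ld : |f.ld C (lat y) (y 2) 0| ≤ A * s1

theorem Src.ev_t {A s1 r : ℝ} {f : Cf E2} {C : E2} {y : E3} (h : Src A s1 r f C y) {t : ℝ}
    (ht : |t| ≤ r) : |f.ev (lat (y - t • vel C)) ((y - t • vel C) 2) t| ≤ 2 * (A * s1 * r) := by
  rw [ev_ray]
  refine (abs_add_le _ _).trans ?_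
  rw [abs_mul]
  have h1 := h.ev
  have h2 : |t| * |f.ld C (lat y) (y 2) 0| ≤ r * (A * s1) :=
    mul_le_mul ht h.ld (abs_nonneg _) ((abs_nonneg _).trans ht)
  linarith

/-- the gradient of an active phase point is nearly a unit vector. -/
theorem Src.gr_sq {M κ A s1 s2 r : ℝ} {f : Cf E2} {C : E2} {y : E3} (h : Src A s1 r f C y)
    (hp : Plt M κ s1 s2 r f) (hr : 0 < r) (hs2 : 0 < s2) (hM : 0 ≤ M)
    (hsm : 32 * M * A * s1 ≤ s2) : |‖f.gr C (lat y) 0‖ ^ 2 - 1| ≤ 1 / 8 := by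
  rw [f.norm_gr_sq C (lat y) (y 2) 0, hp.disc]
  have h1 := hp.ny1 0 (by rw [abs_zero]; exact hr.le)
  have h2 := hp.d1 hr hs2
  have e : 1 + 2 * f.ny 0 * f.ld C (lat y) (y 2) 0 + 4 * f.d * f.ev (lat y) (y 2) 0 - 1 =
      2 * (f.ny 0 * f.ld C (lat y) (y 2) 0) + 4 * (f.d * f.ev (lat y) (y 2) 0) := by ring
  rw [e]
  refine (abs_add_le _ _).trans ?_
  rw [abs_mul, abs_mul, abs_mul 4, abs_mul f.d, abs_of_pos (by norm_num : (0:ℝ) < 2),
    abs_of_pos (by norm_num : (0:ℝ) < 4)]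
  have h3 : |f.ny 0| * |f.ld C (lat y) (y 2) 0| ≤ M / s2 * (A * s1) :=
    mul_le_mul h1 h.ld (abs_nonneg _) (by positivity)
  have h4 : |f.d| * |f.ev (lat y) (y 2) 0| ≤ M / (2 * s2 * r) * (A * s1 * r) :=
    mul_le_mul h2 h.ev (abs_nonneg _) (by positivity)
  have e3 : M / s2 * (A * s1) = M * A * s1 / s2 := by ring
  have e4 : M / (2 * s2 * r) * (A * s1 * r) = M * A * s1 / s2 / 2 := by field_simp
  rw [e3] at h3
  rw [e4] at h4
  have h5 : M * A * s1 / s2 ≤ 1 / 32 := by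
    rw [div_le_iff₀ hs2]; linarith
  linarith

theorem norm_of_sq {v : E2} (h : |‖v‖ ^ 2 - 1| ≤ 1 / 8) : 7 / 8 ≤ ‖v‖ ∧ ‖v‖ ≤ 9 / 8 := by
  obtain ⟨h1, h2⟩ := abs_le.1 h
  have := norm_nonneg v
  constructor <;> nlinarith

end Crest.Agent.R116.AlC339
end

-- ▼ part R116/AlG2_339
section

/-!
# R116 (S0155), wave side, AL-CONE (helper339): one isotropic cell of a plate

All phase points of one cap `C` of the plate which are active near `(x, t)`.
-/

set_option autoImplicit false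

open MeasureTheory
open scoped ENNReal

namespace Crest.Agent.R116.AlC339

open Crest.Agent.R138.Defs (E2)
open Crest.Agent.R116.CDef480 Crest.Agent.R116.Ckm538 Crest.Agent.R116.Cad538
open Crest.Agent.R116.LZg725 (Cf)
open Crest.Agent.R116.Gc192 (un norm_un un_sub)

/-- numbers of the slab step. -/
structure Num (M A κ θ θ' δ s1 s2 r Gm Y : ℝ) : Prop where
  M1 : 1 ≤ M
  A1 : 1 ≤ A
  k0 : 0 < κ
  t0 : 0 < θ
  tt : θ ≤ θ'
  d0 : 0 < δ
  d1 : δ ≤ 1
  p1 : 0 < s1
  p2 : 0 < s2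
  r0 : 0 < r
  Gm1 : 1 ≤ Gm
  Y1 : 1 ≤ Y
  hsm : 32 * M * A * s1 ≤ s2
  thin : θ' * (s1 * r) ≤ Gm
  cur : θ' ≤ s2 * r * θ ^ 2
  al : δ * θ' ≤ θ
  var : 64 * M * Y ≤ δ * (θ * (s2 * r))

variable {M A κ θ θ' δ s1 s2 r Gm Y : ℝ} {f : Cf E2} {C : E2} {x y y0 : E3} {t : ℝ}

theorem lat_bd (hn : Num M A κ θ θ' δ s1 s2 r Gm Y) {u : E3} (h : ‖frc θ κ C u‖ ≤ Y) :
    ‖lat u‖ ≤ Y / θ := by
  rw [le_div_iff₀ hn.t0, mul_comm]
  exact (lat_le_frc hn.t0.le C u).trans h

theorem nrm_bd (hn : Num M A κ θ θ' δ s1 s2 r Gm Y) {u : E3} (h : ‖frc θ κ C u‖ ≤ Y) :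
    |nrm C u 0| ≤ Y / κ := by
  rw [le_div_iff₀ hn.k0, mul_comm]
  exact (nrm_le_frc hn.k0.le C u).trans h

theorem split_u (x y : E3) (t : ℝ) (C : E2) :
    y - t • vel C = x + (y - t • vel C - x) := by abel

/-- the gradient at the point and at the source. -/
theorem gr_near (hn : Num M A κ θ θ' δ s1 s2 r Gm Y) (hp : Plt M κ s1 s2 r f)
    (h : ‖frc θ κ C (y - t • vel C - x)‖ ≤ Y) :
    ‖f.gr C (lat y) 0 - f.gr C (lat x) t‖ ≤ δ / 64 := by
  have e : f.gr C (lat y) 0 = f.gr C (lat x) t + (2 * f.d) • lat (y - t • vel C - x) := by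
    rw [← gr_ray f C y t, ← gr_step, ← split_u]
  rw [e, add_sub_cancel_left, norm_smul, Real.norm_eq_abs, abs_mul, abs_of_pos
    (by norm_num : (0:ℝ) < 2)]
  have h1 := hp.d1 hn.r0 hn.p2
  have h2 := lat_bd hn h
  have hM := hn.M1; have hp2 := hn.p2; have hr := hn.r0; have hθ := hn.t0; have hY := hn.Y1
  calc 2 * |f.d| * ‖lat (y - t • vel C - x)‖ ≤ 2 * (M / (2 * s2 * r)) * (Y / θ) := by gcongr
    _ = M * Y / (θ * (s2 * r)) := by field_simp
    _ ≤ δ / 64 := by
        rw [div_le_div_iff₀ (by positivity) (by norm_num)]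
        have := hn.var
        linarith

/-- size of the gradient at an active point. -/
theorem gr_size (hn : Num M A κ θ θ' δ s1 s2 r Gm Y) (hp : Plt M κ s1 s2 r f)
    (hs : Src A s1 r f C y) (h : ‖frc θ κ C (y - t • vel C - x)‖ ≤ Y) :
    3 / 4 ≤ ‖f.gr C (lat x) t‖ ∧ ‖f.gr C (lat x) t‖ ≤ 5 / 4 := by
  have h1 := norm_of_sq (hs.gr_sq hp hn.r0 hn.p2 (by linarith [hn.M1]) hn.hsm)
  have h2 := gr_near hn hp h
  have h3 : δ / 64 ≤ 1 / 64 := by linarith [hn.d1]
  have h4 := abs_le.1 ((abs_norm_sub_norm_le (f.gr C (lat y) 0) (f.gr C (lat x) t)).trans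
    (h2.trans h3))
  constructor <;> linarith [h1.1, h1.2, h4.1, h4.2]

/-- the unit normal at the source and at the point. -/
theorem un_near (hn : Num M A κ θ θ' δ s1 s2 r Gm Y) (hp : Plt M κ s1 s2 r f)
    (hs : Src A s1 r f C y) (h : ‖frc θ κ C (y - t • vel C - x)‖ ≤ Y) :
    ‖un f C (lat y) 0 - un f C (lat x) t‖ ≤ δ / 16 := by
  have h1 := norm_of_sq (hs.gr_sq hp hn.r0 hn.p2 (by linarith [hn.M1]) hn.hsm)
  have h2 := gr_size hn hp hs h
  have h3 := un_sub (k := 3 / 4) (by norm_num) (by linarith [h1.1]) h2.1 (gr_near hn hp h)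
  refine h3.trans ?_
  have := hn.d0
  linarith


/-- numerics of the strip. -/
theorem strip_num (hn : Num M A κ θ θ' δ s1 s2 r Gm Y) {I : ℝ}
    (h : I ≤ 4 * (A * s1 * r) + 2 * M * (s1 * r) * Y + M * Y ^ 2 / (2 * (s2 * r * θ ^ 2))) :
    θ' * I ≤ (4 * A + 3 * M) * Gm * Y ^ 2 := by
  have hM := hn.M1; have hA := hn.A1; have hp2 := hn.p2
  have hY := hn.Y1; have hr := hn.r0; have hθ := hn.t0; have hθ' := hn.t0.trans_le hn.tt
  have hGm := hn.Gm1
  have hthin := hn.thin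
  have c4 : θ' * (M * Y ^ 2 / (2 * (s2 * r * θ ^ 2))) ≤ M * Y ^ 2 := by
    have hcur := hn.cur
    rw [mul_div_assoc', div_le_iff₀ (by positivity)]
    have h1 : θ' * (M * Y ^ 2) ≤ (s2 * r * θ ^ 2) * (M * Y ^ 2) :=
      mul_le_mul_of_nonneg_right hcur (by positivity)
    have h0 : 0 ≤ (s2 * r * θ ^ 2) * (M * Y ^ 2) := by positivity
    linarith
  have h1 : θ' * I ≤ θ' * (4 * (A * s1 * r) + 2 * M * (s1 * r) * Y +
      M * Y ^ 2 / (2 * (s2 * r * θ ^ 2))) := mul_le_mul_of_nonneg_left h hθ'.le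
  have e1 : θ' * (4 * (A * s1 * r) + 2 * M * (s1 * r) * Y +
      M * Y ^ 2 / (2 * (s2 * r * θ ^ 2))) = 4 * A * (θ' * (s1 * r)) +
        2 * M * Y * (θ' * (s1 * r)) + θ' * (M * Y ^ 2 / (2 * (s2 * r * θ ^ 2))) := by ring
  have hYY : Y ≤ Y ^ 2 := by nlinarith
  have hY2 : 1 ≤ Y ^ 2 := by nlinarith
  have g1 : Gm ≤ Gm * Y ^ 2 := by nlinarith
  have g2 : Gm * Y ≤ Gm * Y ^ 2 := mul_le_mul_of_nonneg_left hYY (by linarith)
  have g3 : Y ^ 2 ≤ Gm * Y ^ 2 := by nlinarith
  have g4 : 4 * A * (θ' * (s1 * r)) ≤ 4 * A * (Gm * Y ^ 2) :=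
    mul_le_mul_of_nonneg_left (hthin.trans g1) (by linarith)
  have g5 : 2 * M * Y * (θ' * (s1 * r)) ≤ 2 * M * (Gm * Y ^ 2) := by
    have : Y * (θ' * (s1 * r)) ≤ Gm * Y ^ 2 := by
      refine le_trans (mul_le_mul_of_nonneg_left hthin (by linarith)) ?_
      rw [mul_comm]; exact g2
    calc 2 * M * Y * (θ' * (s1 * r)) = 2 * M * (Y * (θ' * (s1 * r))) := by ring
      _ ≤ _ := mul_le_mul_of_nonneg_left this (by linarith)
  have g6 : M * Y ^ 2 ≤ M * (Gm * Y ^ 2) := mul_le_mul_of_nonneg_left g3 (by linarith)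
  have e2 : (4 * A + 3 * M) * Gm * Y ^ 2 =
      4 * A * (Gm * Y ^ 2) + 2 * M * (Gm * Y ^ 2) + M * (Gm * Y ^ 2) := by ring
  rw [e1] at h1
  rw [e2]
  linarith

/-- **strip**: two active sources of the same cap, gradient form. -/
theorem strip_gr (hn : Num M A κ θ θ' δ s1 s2 r Gm Y) (hp : Plt M κ s1 s2 r f)
    (hs : Src A s1 r f C y) (hs0 : Src A s1 r f C y0) (ht : |t| ≤ r)
    (h : ‖frc θ κ C (y - t • vel C - x)‖ ≤ Y) (h0 : ‖frc θ κ C (y0 - t • vel C - x)‖ ≤ Y) :
    θ' * |inner ℝ (f.gr C (lat x) t) (lat (y - y0))| ≤ (4 * A + 3 * M) * Gm * Y ^ 2 := by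
  refine strip_num hn ?_
  have b4 := nrm_bd hn h
  have b5 := nrm_bd hn h0
  have b7 := lat_bd hn h
  have b8 := lat_bd hn h0
  have e1 := ev_step f C x (y - t • vel C - x) t
  have e2 := ev_step f C x (y0 - t • vel C - x) t
  rw [← split_u] at e1 e2
  have e3 : lat (y - y0) = lat (y - t • vel C - x) - lat (y0 - t • vel C - x) := by
    rw [← lat_sub]; congr 1; abel
  have b1 := hs.ev_t ht
  have b2 := hs0.ev_t ht
  rw [e3, inner_sub_right]
  generalize f.ev (lat (y - t • vel C)) ((y - t • vel C) 2) t = E1 at *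
  generalize f.ev (lat (y0 - t • vel C)) ((y0 - t • vel C) 2) t = E2 at *
  generalize f.ev (lat x) (x 2) t = E0 at *
  generalize hi1 : inner ℝ (f.gr C (lat x) t) (lat (y - t • vel C - x)) = i1 at *
  generalize hi2 : inner ℝ (f.gr C (lat x) t) (lat (y0 - t • vel C - x)) = i2 at *
  generalize nrm C (y - t • vel C - x) 0 = n1 at *
  generalize nrm C (y0 - t • vel C - x) 0 = n2 at *
  have b3 := hp.ny2 t ht
  have b6 := hp.d1 hn.r0 hn.p2
  have hM := hn.M1; have hA := hn.A1; have hp1 := hn.p1; have hp2 := hn.p2; have hk := hn.k0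
  have hY := hn.Y1; have hr := hn.r0; have hθ := hn.t0
  have e4 : i1 - i2 = (E1 - E2) - f.ny t * (n1 - n2) -
      f.d * (‖lat (y - t • vel C - x)‖ ^ 2 - ‖lat (y0 - t • vel C - x)‖ ^ 2) := by
    linarith
  have c1 : |f.ny t * (n1 - n2)| ≤ 2 * M * (s1 * r) * Y := by
    rw [abs_mul]
    have h3 : |n1 - n2| ≤ Y / κ + Y / κ := (abs_sub _ _).trans (add_le_add b4 b5)
    calc |f.ny t| * |n1 - n2| ≤ M * (κ * s1 * r) * (Y / κ + Y / κ) :=
          mul_le_mul b3 h3 (abs_nonneg _) (by positivity)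
      _ = _ := by field_simp; ring
  have c2 : |f.d * (‖lat (y - t • vel C - x)‖ ^ 2 - ‖lat (y0 - t • vel C - x)‖ ^ 2)| ≤
      M * Y ^ 2 / (2 * (s2 * r * θ ^ 2)) := by
    rw [abs_mul]
    have q1 := pow_le_pow_left₀ (norm_nonneg _) b7 2
    have q2 := pow_le_pow_left₀ (norm_nonneg _) b8 2
    have q3 : |‖lat (y - t • vel C - x)‖ ^ 2 - ‖lat (y0 - t • vel C - x)‖ ^ 2| ≤
        (Y / θ) ^ 2 := by
      rw [abs_le]
      have z1 := sq_nonneg ‖lat (y - t • vel C - x)‖
      have z2 := sq_nonneg ‖lat (y0 - t • vel C - x)‖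
      constructor <;> linarith
    calc |f.d| * |‖lat (y - t • vel C - x)‖ ^ 2 - ‖lat (y0 - t • vel C - x)‖ ^ 2|
        ≤ M / (2 * s2 * r) * (Y / θ) ^ 2 :=
          mul_le_mul b6 q3 (abs_nonneg _) (by positivity)
      _ = _ := by field_simp
  rw [e4]
  refine (abs_sub _ _).trans (add_le_add ((abs_sub _ _).trans (add_le_add ?_ c1)) c2)
  exact (abs_sub _ _).trans (by linarith)

/-- **strip**, for a unit vector near the normal. -/
theorem strip_nu (hn : Num M A κ θ θ' δ s1 s2 r Gm Y) (hp : Plt M κ s1 s2 r f)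
    (hs : Src A s1 r f C y) (hs0 : Src A s1 r f C y0) (ht : |t| ≤ r)
    (h : ‖frc θ κ C (y - t • vel C - x)‖ ≤ Y) (h0 : ‖frc θ κ C (y0 - t • vel C - x)‖ ≤ Y)
    {ν : E2} (hν : ‖ν - un f C (lat x) t‖ ≤ δ / 4) :
    |θ' * inner ℝ ν (lat (y - y0))| ≤ (6 * A + 5 * M) * Gm * Y ^ 2 := by
  have h1 := strip_gr hn hp hs hs0 ht h h0
  obtain ⟨g1, g2⟩ := gr_size hn hp hs h
  have hM := hn.M1; have hA := hn.A1; have hY := hn.Y1; have hθ := hn.t0
  have hθ' := hn.t0.trans_le hn.tt; have hGm := hn.Gm1; have hδ := hn.d0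
  have e : inner ℝ (un f C (lat x) t) (lat (y - y0)) =
      ‖f.gr C (lat x) t‖⁻¹ * inner ℝ (f.gr C (lat x) t) (lat (y - y0)) := by
    unfold un; rw [real_inner_smul_left]
  have h2 : |θ' * inner ℝ (un f C (lat x) t) (lat (y - y0))| ≤
      4 / 3 * ((4 * A + 3 * M) * Gm * Y ^ 2) := by
    rw [abs_mul, abs_of_pos hθ', e, abs_mul, abs_of_pos (by positivity)]
    have h3 : ‖f.gr C (lat x) t‖⁻¹ ≤ 4 / 3 := by
      rw [inv_le_comm₀ (by linarith) (by norm_num)]
      linarith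
    calc θ' * (‖f.gr C (lat x) t‖⁻¹ * |inner ℝ (f.gr C (lat x) t) (lat (y - y0))|)
        = ‖f.gr C (lat x) t‖⁻¹ * (θ' * |inner ℝ (f.gr C (lat x) t) (lat (y - y0))|) := by ring
      _ ≤ _ := by gcongr
  have e2 : inner ℝ ν (lat (y - y0)) = inner ℝ (un f C (lat x) t) (lat (y - y0)) +
      inner ℝ (ν - un f C (lat x) t) (lat (y - y0)) := by
    rw [inner_sub_left]; ring
  have h4 : ‖lat (y - y0)‖ ≤ 2 * (Y / θ) := by
    have e3 : lat (y - y0) = lat (y - t • vel C - x) - lat (y0 - t • vel C - x) := by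
      rw [← lat_sub]; congr 1; abel
    rw [e3]
    refine (norm_sub_le _ _).trans ?_
    have := lat_bd hn h
    have := lat_bd hn h0
    linarith
  have h5 : |θ' * inner ℝ (ν - un f C (lat x) t) (lat (y - y0))| ≤ Y / 2 := by
    rw [abs_mul, abs_of_pos hθ']
    have h6 := (abs_real_inner_le_norm (ν - un f C (lat x) t) (lat (y - y0))).trans
      (mul_le_mul hν h4 (norm_nonneg _) (by positivity))
    have hal := hn.al
    calc θ' * |inner ℝ (ν - un f C (lat x) t) (lat (y - y0))|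
        ≤ θ' * (δ / 4 * (2 * (Y / θ))) := by gcongr
      _ = (δ * θ') * Y / (2 * θ) := by field_simp; ring
      _ ≤ θ * Y / (2 * θ) := by gcongr
      _ = Y / 2 := by field_simp
  rw [e2, mul_add]
  refine (abs_add_le _ _).trans ((add_le_add h2 h5).trans ?_)
  have hYG : Y ≤ Gm * Y ^ 2 := by nlinarith
  have : 0 ≤ Gm * Y ^ 2 := by positivity
  nlinarith

end Crest.Agent.R116.AlC339
end

-- ▼ part R116/AlG3_339

/-!
# R116 (S0155), wave side, AL-CONE (helper339): the region of one plate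

`rgn` = region at time `t` which contains the cells of all phase points of the plate; membership,
volume, size.
-/

set_option autoImplicit false

open MeasureTheory
open scoped ENNReal

namespace Crest.Agent.R116.AlC339

open Crest.Agent.R138.Defs (E2)
open Crest.Agent.R116.CDef480 Crest.Agent.R116.Ckm538 Crest.Agent.R116.Cad538
open Crest.Agent.R116.LZg725 (Cf)
open Crest.Agent.R116.Gc192 (un norm_un un_sub)
open Crest.Agent.R116.WC188 (TT Adm mset scost)
open Crest.Agent.R116.AlV339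

variable {M A κ θ θ' δ s1 s2 r Gm Y T : ℝ} {f : Cf E2} {C c : E2} {x y y0 X0 : E3} {t : ℝ}

/-- from the class to `Plt`. -/
theorem plt_of_adm (hM : 0 ≤ M) (hs2 : 0 < s2)
    (h : Adm M κ s1 s2 (TT κ s2 r) r c X0 f) : Plt M κ s1 s2 r f := by
  refine ⟨h.disc, fun s hs => (h.ny s hs).trans ?_, h.cmp⟩
  have h1 : s2 ^ 2 ≤ TT κ s2 r := le_max_left _ _
  have h2 : 0 < s2 ^ 2 := by positivity
  rw [div_le_div_iff₀ (h2.trans_le h1) hs2]
  calc M * s2 * s2 = M * s2 ^ 2 := by ring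
    _ ≤ _ := mul_le_mul_of_nonneg_left h1 hM

/-- from the class to `Src`. -/
theorem src_of_mset {sg T : ℝ} (h : y ∈ mset (A * sg) T r (A * s1) c X0 f C) :
    Src A s1 r f C y := ⟨h.2.2.2.1, h.2.2.2.2⟩

/-- the region of the plate. -/
def rgn (M A θ s2 T r : ℝ) (c : E2) (X0 : E3) (f : Cf E2) (t : ℝ) : Set E3 :=
  regC (3 * A * (s2 * r)) (4 * A ^ 2 * (T * r)) ((4 * A + 2 * M) / θ) (A * s2) c (lat X0 - t • c)
    (nrm c X0 0) f t

theorem nrm_ray2 (c C : E2) (y : E3) (t : ℝ) :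
    nrm c (y - t • vel C) t = nrm c y 0 + t * (‖C - c‖ ^ 2 / 2) := by
  unfold nrm
  rw [lat_ray, two_ray, inner_sub_right, real_inner_smul_right, norm_sub_sq_real,
    real_inner_comm c C]
  ring

theorem nrm_sub2 (c : E2) (x u : E3) (t : ℝ) : nrm c (x - u) t = nrm c x t - nrm c u 0 := by
  unfold nrm
  rw [lat_sub, inner_sub_right, PiLp.sub_apply]
  ring

theorem nrm_dir2 (c C : E2) (u : E3) : nrm c u 0 = nrm C u 0 + inner ℝ (c - C) (lat u) := by
  unfold nrm
  rw [inner_sub_left]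
  ring

/-- **membership.** -/
theorem mem_rgn (hn : Num M A κ θ θ' δ s1 s2 r Gm 1) (hG : Gm * θ ≤ θ')
    (hp : Plt M κ s1 s2 r f) (hT1 : s2 ^ 2 ≤ T) (hT2 : (κ * r)⁻¹ ≤ T) (ht : |t| ≤ r)
    (hy : y ∈ mset (A * s2) (A * T) r (A * s1) c X0 f C) {u : E3}
    (hu : ‖frc θ κ C u‖ ≤ 1) : y - t • vel C - u ∈ rgn M A θ s2 T r c X0 f t := by
  have hs : Src A s1 r f C y := ⟨hy.2.2.2.1, hy.2.2.2.2⟩
  have hM := hn.M1; have hA := hn.A1; have hp1 := hn.p1; have hp2 := hn.p2; have hk := hn.k0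
  have hr := hn.r0; have hθ := hn.t0; have hθ' := hn.t0.trans_le hn.tt
  have hGm := hn.Gm1
  have l1 : ‖lat u‖ ≤ 1 / θ := lat_bd hn hu
  have l2 : |nrm C u 0| ≤ 1 / κ := nrm_bd hn hu
  have hθr : 1 ≤ θ * (s2 * r) := by
    have h1 := hn.var
    have h2 : δ * (θ * (s2 * r)) ≤ 1 * (θ * (s2 * r)) :=
      mul_le_mul_of_nonneg_right hn.d1 (by positivity)
    linarith
  have i1 : 1 / θ ≤ s2 * r := by rw [div_le_iff₀ hθ]; linarith
  have hTr : 1 / κ ≤ T * r := by
    have h1 : (κ * r)⁻¹ * r ≤ T * r := mul_le_mul_of_nonneg_right hT2 hr.le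
    have h2 : (κ * r)⁻¹ * r = 1 / κ := by field_simp
    linarith
  have hs2T : s2 ^ 2 * r ≤ T * r := mul_le_mul_of_nonneg_right hT1 hr.le
  have hcell : ‖frc θ κ C (y - t • vel C - (y - t • vel C - u))‖ ≤ 1 := by
    rw [sub_sub_cancel]; exact hu
  refine ⟨?_, ?_, ?_, ?_⟩
  · -- lateral
    have e : lat (y - t • vel C - u) - (lat X0 - t • c) =
        (lat y - lat X0) - t • (C - c) - lat u := by
      rw [lat_sub, lat_ray, smul_sub]; abel
    rw [e]
    have h1 : ‖t • (C - c)‖ ≤ r * (A * s2) := by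
      rw [norm_smul, Real.norm_eq_abs]
      exact mul_le_mul ht hy.1 (norm_nonneg _) hr.le
    have h2 := norm_sub_le ((lat y - lat X0) - t • (C - c)) (lat u)
    have h3 := norm_sub_le (lat y - lat X0) (t • (C - c))
    have h4 := hy.2.1
    have h5 : s2 * r ≤ A * (s2 * r) := le_mul_of_one_le_left (by positivity) hA
    linarith
  · -- normal
    rw [nrm_sub2, nrm_ray2, nrm_dir2 c C u]
    have e : nrm c y 0 + t * (‖C - c‖ ^ 2 / 2) - (nrm C u 0 + inner ℝ (c - C) (lat u)) -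
        nrm c X0 0 = (nrm c y 0 - nrm c X0 0) + t * (‖C - c‖ ^ 2 / 2) - nrm C u 0 -
          inner ℝ (c - C) (lat u) := by ring
    rw [e]
    have h1 := hy.2.2.1
    have h2 : |t * (‖C - c‖ ^ 2 / 2)| ≤ r * ((A * s2) ^ 2 / 2) := by
      rw [abs_mul, abs_of_nonneg (a := ‖C - c‖ ^ 2 / 2) (by positivity)]
      have := pow_le_pow_left₀ (norm_nonneg _) hy.1 2
      exact mul_le_mul ht (by linarith) (by positivity) hr.le
    have h3 : |inner ℝ (c - C) (lat u)| ≤ A * s2 * (1 / θ) := by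
      refine (abs_real_inner_le_norm _ _).trans ?_
      rw [norm_sub_rev]
      exact mul_le_mul hy.1 l1 (norm_nonneg _) (by positivity)
    have h4 : A * s2 * (1 / θ) ≤ A * (s2 ^ 2 * r) := by
      calc A * s2 * (1 / θ) ≤ A * s2 * (s2 * r) := mul_le_mul_of_nonneg_left i1 (by positivity)
        _ = _ := by ring
    have h5 : r * ((A * s2) ^ 2 / 2) = A ^ 2 / 2 * (s2 ^ 2 * r) := by ring
    have h6 : A * (s2 ^ 2 * r) ≤ A * (T * r) := mul_le_mul_of_nonneg_left hs2T (by linarith)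
    have h7 : A ^ 2 / 2 * (s2 ^ 2 * r) ≤ A ^ 2 / 2 * (T * r) :=
      mul_le_mul_of_nonneg_left hs2T (by positivity)
    have hTr0 : 0 < T * r := lt_of_lt_of_le (by positivity) hTr
    have h8 : A * (T * r) ≤ A ^ 2 * (T * r) := by
      have : A ≤ A ^ 2 := by nlinarith
      exact mul_le_mul_of_nonneg_right this hTr0.le
    have h9 : T * r ≤ A ^ 2 * (T * r) := by
      have : 1 ≤ A ^ 2 := by nlinarith
      exact le_mul_of_one_le_left hTr0.le this
    have g1 := abs_sub ((nrm c y 0 - nrm c X0 0) + t * (‖C - c‖ ^ 2 / 2) - nrm C u 0)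
      (inner ℝ (c - C) (lat u))
    have g2 := abs_sub ((nrm c y 0 - nrm c X0 0) + t * (‖C - c‖ ^ 2 / 2)) (nrm C u 0)
    have g3 := abs_add_le (nrm c y 0 - nrm c X0 0) (t * (‖C - c‖ ^ 2 / 2))
    have h10 : A * T * r = A * (T * r) := by ring
    linarith
  · -- value
    have e1 := ev_step f C (y - t • vel C - u) u t
    rw [sub_add_cancel] at e1
    have h1 := hs.ev_t ht
    have h2 := (gr_size hn hp hs hcell).2
    have h3 : |inner ℝ (f.gr C (lat (y - t • vel C - u)) t) (lat u)| ≤ 5 / 4 * (1 / θ) :=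
      (abs_real_inner_le_norm _ _).trans (mul_le_mul h2 l1 (norm_nonneg _) (by norm_num))
    have h4 : |f.ny t * nrm C u 0| ≤ M * (s1 * r) := by
      rw [abs_mul]
      calc |f.ny t| * |nrm C u 0| ≤ M * (κ * s1 * r) * (1 / κ) :=
            mul_le_mul (hp.ny2 t ht) l2 (abs_nonneg _) (by positivity)
        _ = _ := by field_simp
    have h5 : |f.d * ‖lat u‖ ^ 2| ≤ M / 2 * (1 / θ) := by
      rw [abs_mul, abs_of_nonneg (a := ‖lat u‖ ^ 2) (by positivity)]
      have q1 := pow_le_pow_left₀ (norm_nonneg _) l1 2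
      calc |f.d| * ‖lat u‖ ^ 2 ≤ M / (2 * s2 * r) * (1 / θ) ^ 2 :=
            mul_le_mul (hp.d1 hr hp2) q1 (by positivity) (by positivity)
        _ = M / 2 * (1 / θ) * ((1 / θ) / (s2 * r)) := by field_simp
        _ ≤ M / 2 * (1 / θ) * 1 := by
            refine mul_le_mul_of_nonneg_left ?_ (by positivity)
            rw [div_le_one (by positivity)]; exact i1
        _ = _ := by ring
    have h6 : s1 * r ≤ 1 / θ := by
      have a1 := hn.thin
      rw [le_div_iff₀ hθ]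
      have a2 : (s1 * r * θ) * θ' ≤ 1 * θ' := by
        calc (s1 * r * θ) * θ' = (θ' * (s1 * r)) * θ := by ring
          _ ≤ Gm * θ := mul_le_mul_of_nonneg_right a1 hθ.le
          _ ≤ θ' := hG
          _ = 1 * θ' := (one_mul _).symm
      exact le_of_mul_le_mul_right a2 hθ'
    have e2 : f.ev (lat (y - t • vel C - u)) ((y - t • vel C - u) 2) t =
        f.ev (lat (y - t • vel C)) ((y - t • vel C) 2) t -
          inner ℝ (f.gr C (lat (y - t • vel C - u)) t) (lat u) - f.ny t * nrm C u 0 -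
          f.d * ‖lat u‖ ^ 2 := by linarith
    rw [e2]
    have g1 := abs_sub (f.ev (lat (y - t • vel C)) ((y - t • vel C) 2) t -
          inner ℝ (f.gr C (lat (y - t • vel C - u)) t) (lat u) - f.ny t * nrm C u 0)
          (f.d * ‖lat u‖ ^ 2)
    have g2 := abs_sub (f.ev (lat (y - t • vel C)) ((y - t • vel C) 2) t -
          inner ℝ (f.gr C (lat (y - t • vel C - u)) t) (lat u)) (f.ny t * nrm C u 0)
    have g3 := abs_sub (f.ev (lat (y - t • vel C)) ((y - t • vel C) 2) t)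
          (inner ℝ (f.gr C (lat (y - t • vel C - u)) t) (lat u))
    have h7 : 2 * (A * s1 * r) ≤ 2 * A * (1 / θ) := by
      calc 2 * (A * s1 * r) = 2 * A * (s1 * r) := by ring
        _ ≤ _ := mul_le_mul_of_nonneg_left h6 (by positivity)
    have h8 : M * (s1 * r) ≤ M * (1 / θ) := mul_le_mul_of_nonneg_left h6 (by positivity)
    have e3 : (4 * A + 2 * M) / θ = (4 * A + 2 * M) * (1 / θ) := by ring
    rw [e3]
    have hθ1 : 0 < 1 / θ := by positivity
    have h9 : 2 * A * (1 / θ) + 5 / 4 * (1 / θ) + M * (1 / θ) + M / 2 * (1 / θ) ≤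
        (4 * A + 2 * M) * (1 / θ) := by
      rw [← add_mul, ← add_mul, ← add_mul]
      refine mul_le_mul_of_nonneg_right ?_ hθ1.le
      linarith
    linarith
  · -- gradient
    have h1 := (gr_size hn hp hs hcell).1
    have e := f.gr_dir c C (lat (y - t • vel C - u)) t
    rw [e] at h1
    have h2 : ‖f.gr c (lat (y - t • vel C - u)) t - f.ny t • (C - c)‖ ≤
        ‖f.gr c (lat (y - t • vel C - u)) t‖ + |f.ny t| * (A * s2) := by
      refine (norm_sub_le _ _).trans (add_le_add le_rfl ?_)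
      rw [norm_smul, Real.norm_eq_abs]
      exact mul_le_mul_of_nonneg_left hy.1 (abs_nonneg _)
    by_cases h3 : 1/4 ≤ A * s2 * |f.ny t|
    · right; exact h3
    · left; push Not at h3; linarith

/-- **volume.** -/
theorem rgn_vol (hA : 1 ≤ A) (hM : 1 ≤ M) (hθ : 0 < θ) (hs2 : 0 < s2) (hr : 0 < r)
    (hT1 : s2 ^ 2 ≤ T) (hs1 : θ' ≤ s1) (hθ' : 0 < θ') (hθr : 1 ≤ θ' ^ 2 * r) (c : E2) (X0 : E3)
    (f : Cf E2) (t : ℝ) :
    volume (rgn M A θ s2 T r c X0 f t) ≤
      ENNReal.ofReal ((5376 * (4 * A + 2 * M) * A ^ 3 * (θ' / θ)) * (s1 * s2 * T * r ^ 3)) := by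
  have hT0 : 0 < T := lt_of_lt_of_le (by positivity) hT1
  refine (regC_vol (by positivity) (by positivity) (by positivity) (by positivity) _ _ _ _ _).trans
    (ENNReal.ofReal_le_ofReal ?_)
  have h1 : A * s2 * (3 * A * (s2 * r)) ≤ 3 * A ^ 2 * (T * r) := by
    calc A * s2 * (3 * A * (s2 * r)) = 3 * A ^ 2 * r * s2 ^ 2 := by ring
      _ ≤ 3 * A ^ 2 * r * T := mul_le_mul_of_nonneg_left hT1 (by positivity)
      _ = _ := by ring
  have h2 : 1 / θ ≤ (θ' / θ) * (s1 * r) := by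
    rw [div_mul_eq_mul_div, div_le_div_iff_of_pos_right hθ]
    calc (1:ℝ) ≤ θ' ^ 2 * r := hθr
      _ = θ' * (θ' * r) := by ring
      _ ≤ θ' * (s1 * r) := by gcongr
  calc 256 * ((4 * A + 2 * M) / θ) * (3 * A * (s2 * r)) *
        (4 * A ^ 2 * (T * r) + A * s2 * (3 * A * (s2 * r)))
      ≤ 256 * ((4 * A + 2 * M) / θ) * (3 * A * (s2 * r)) *
        (4 * A ^ 2 * (T * r) + 3 * A ^ 2 * (T * r)) := by
        refine mul_le_mul_of_nonneg_left ?_ (by positivity)
        linarith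
    _ = 5376 * (4 * A + 2 * M) * A ^ 3 * (1 / θ) * ((s2 * r) * (T * r)) := by ring
    _ ≤ 5376 * (4 * A + 2 * M) * A ^ 3 * ((θ' / θ) * (s1 * r)) * ((s2 * r) * (T * r)) := by
        refine mul_le_mul_of_nonneg_right ?_ (by positivity)
        exact mul_le_mul_of_nonneg_left h2 (by positivity)
    _ = _ := by ring

/-- **size.** -/
theorem rgn_norm (hA : 1 ≤ A) (hr : 0 < r) (hs21 : s2 ≤ 1) (hT1 : T ≤ 1) (hX : ‖X0‖ ≤ A * r) (hc : ‖c‖ ≤ A) (ht : |t| ≤ r)
    (hx : x ∈ rgn M A θ s2 T r c X0 f t) : ‖x‖ ≤ 17 * A ^ 2 * r := by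
  have h1 := hx.1
  have h2 := hx.2.1
  have hlatX : ‖lat X0‖ ≤ A * r := (lat_norm_le X0).trans hX
  have htc : ‖t • c‖ ≤ r * A := by
    rw [norm_smul, Real.norm_eq_abs]
    exact mul_le_mul ht hc (norm_nonneg _) hr.le
  have h3 : ‖lat x‖ ≤ 5 * A * r := by
    have e : lat x = (lat x - (lat X0 - t • c)) + (lat X0 - t • c) := by abel
    rw [e]
    refine (norm_add_le _ _).trans ?_
    have := norm_sub_le (lat X0) (t • c)
    have h4 : 3 * A * (s2 * r) ≤ 3 * A * r := by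
      refine mul_le_mul_of_nonneg_left ?_ (by positivity)
      exact mul_le_of_le_one_left hr.le hs21
    linarith
  have h4 : |nrm c X0 0| ≤ A * r + A * (A * r) := by
    unfold nrm
    have h5 : |X0 2| ≤ A * r := (two_norm_le X0).trans hX
    have h6 : |inner ℝ c (lat X0)| ≤ A * (A * r) :=
      (abs_real_inner_le_norm _ _).trans (mul_le_mul hc hlatX (norm_nonneg _) (by positivity))
    have e : X0 2 + inner ℝ c (lat X0) + 0 * ‖c‖ ^ 2 / 2 = X0 2 + inner ℝ c (lat X0) := by ring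
    rw [e]
    exact (abs_add_le _ _).trans (add_le_add h5 h6)
  have h5 : |nrm c x t| ≤ A * r + A * (A * r) + 4 * A ^ 2 * r := by
    have e : nrm c x t = (nrm c x t - nrm c X0 0) + nrm c X0 0 := by ring
    rw [e]
    refine (abs_add_le _ _).trans ?_
    have h6 : 4 * A ^ 2 * (T * r) ≤ 4 * A ^ 2 * r := by
      refine mul_le_mul_of_nonneg_left ?_ (by positivity)
      exact mul_le_of_le_one_left hr.le hT1
    linarith
  have h6 : |x 2| ≤ 12 * A ^ 2 * r := by
    have e : x 2 = nrm c x t - inner ℝ c (lat x) - t * (‖c‖ ^ 2 / 2) := by unfold nrm; ring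
    rw [e]
    have h7 : |inner ℝ c (lat x)| ≤ A * (5 * A * r) :=
      (abs_real_inner_le_norm _ _).trans (mul_le_mul hc h3 (norm_nonneg _) (by positivity))
    have h8 : |t * (‖c‖ ^ 2 / 2)| ≤ r * (A ^ 2 / 2) := by
      rw [abs_mul, abs_of_nonneg (a := ‖c‖ ^ 2 / 2) (by positivity)]
      have := pow_le_pow_left₀ (norm_nonneg _) hc 2
      exact mul_le_mul ht (by linarith) (by positivity) hr.le
    have g1 := abs_sub (nrm c x t - inner ℝ c (lat x)) (t * (‖c‖ ^ 2 / 2))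
    have g2 := abs_sub (nrm c x t) (inner ℝ c (lat x))
    have hAr : A * r ≤ A ^ 2 * r := by nlinarith [mul_pos (by linarith : (0:ℝ) < A) hr]
    have hA2 : 0 ≤ A ^ 2 * r := by positivity
    nlinarith
  refine (norm3_le x).trans ?_
  have hAr : A * r ≤ A ^ 2 * r := by nlinarith [mul_pos (by linarith : (0:ℝ) < A) hr]
  nlinarith

end Crest.Agent.R116.AlC339
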