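import Crest.Agent.R116.WDefC_188
import Crest.Agent.R116.DeDef_295

-- ▼ part R116/Cov1_369
section

/-!
# R116 (S0155), wave side, COV (helper369)

The constant `M` of the class and the dilation `A` of a member are irrelevant: a dilated member
`pbx κ A r s1 s2 c X0 f` (normalised, `|ny| ≤ M s2/T`, compatible `|ny| ≤ M κ s1 r`) is covered by
`≤ N(A,M)` members with constant `1` and dilation `1`, whose sides satisfy `s2' ≤ s2`,
`scost' ≤ A M scost`.
-/

set_option autoImplicit false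

open MeasureTheory
open scoped ENNReal

namespace Crest.Agent.R116.Cov369

open Crest.Agent.R138.Defs (E2 ee)
open Crest.Agent.R138.Wpk685 (cen caps)
open Crest.Agent.R116.CDef480
open Crest.Agent.R116.LZg725 (Cf)
open Crest.Agent.R116.WC188 (TT mset scost Sd pbx)

/-! ### elementary facts -/

theorem abs_le_norm (v : E2) (i : Fin 2) : |v i| ≤ ‖v‖ := by
  have := PiLp.norm_apply_le v i
  rwa [Real.norm_eq_abs] at this

theorem norm_le_add (v : E2) : ‖v‖ ≤ |v 0| + |v 1| := by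
  rw [EuclideanSpace.norm_eq, Fin.sum_univ_two, Real.norm_eq_abs, Real.norm_eq_abs]
  refine Real.sqrt_le_iff.2 ⟨by positivity, ?_⟩
  nlinarith [abs_nonneg (v 0), abs_nonneg (v 1)]

theorem norm_sub_le_of (v w : E2) {h : ℝ} (h0 : |v 0 - w 0| ≤ h) (h1 : |v 1 - w 1| ≤ h) :
    ‖v - w‖ ≤ 2 * h := by
  refine (norm_le_add _).trans ?_
  simp only [PiLp.sub_apply]
  linarith

theorem floor_close {a b h : ℝ} (hh : 0 < h) (e : ⌊a / h⌋ = ⌊b / h⌋) : |a - b| ≤ h := by
  have h1 := Int.abs_sub_lt_one_of_floor_eq_floor e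
  have e1 : a / h - b / h = (a - b) / h := by ring
  rw [e1, abs_div, abs_of_pos hh, div_lt_one hh] at h1
  exact h1.le

theorem floor_mem {a h : ℝ} {n : ℕ} (hh : 0 < h) (e : |a| ≤ n * h) :
    ⌊a / h⌋ ∈ Finset.Icc (-(n : ℤ)) n := by
  rw [abs_le] at e
  rw [Finset.mem_Icc]
  constructor
  · rw [Int.le_floor]
    push_cast
    rw [le_div_iff₀ hh]
    linarith
  · have h1 : a / h ≤ n := by
      rw [div_le_iff₀ hh]; exact e.2
    have h2 := (Int.floor_le (a / h)).trans h1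
    exact_mod_cast h2

/-- flat conformal function `⟨e, x - x0 + s C0⟩`. -/
noncomputable def flat (e : E2) (C0 : E2) (X0 : E3) : Cf E2 :=
  ⟨-inner ℝ e (lat X0), inner ℝ e C0, e, 0, 0⟩

theorem flat_ev (e C0 : E2) (X0 : E3) (x : E2) (y s : ℝ) :
    (flat e C0 X0).ev x y s = inner ℝ e (x - lat X0 + s • C0) := by
  unfold flat Cf.ev
  simp only []
  rw [inner_add_right, inner_sub_right, real_inner_smul_right]
  ring

theorem flat_ny (e C0 : E2) (X0 : E3) (s : ℝ) : (flat e C0 X0).ny s = 0 := by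
  unfold flat Cf.ny; simp

theorem flat_ld (e C0 : E2) (X0 : E3) (C x : E2) (y s : ℝ) :
    (flat e C0 X0).ld C x y s = inner ℝ e (C0 - C) := by
  unfold Cf.ld
  rw [flat_ny]
  unfold flat
  simp only []
  rw [mul_zero, zero_smul, add_zero, inner_sub_right]
  ring

theorem flat_disc (e C0 : E2) (X0 : E3) : (flat e C0 X0).disc = ‖e‖ ^ 2 := by
  unfold flat Cf.disc; simp

/-- a unit vector. -/
noncomputable def e0 : E2 := EuclideanSpace.single 0 1

theorem norm_e0 : ‖e0‖ = 1 := by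
  unfold e0; simp

theorem TT_pos {κ sg r : ℝ} (hκ : 0 < κ) (hr : 0 < r) : 0 < TT κ sg r :=
  lt_of_lt_of_le (inv_pos.2 (mul_pos hκ hr)) (le_max_right _ _)

theorem TT_mono {κ sg sg' r : ℝ} (h0 : 0 ≤ sg) (h : sg ≤ sg') : TT κ sg r ≤ TT κ sg' r :=
  max_le_max (pow_le_pow_left₀ h0 h 2) le_rfl

theorem TT_le_mul {κ sg sg' r L : ℝ} (hκ : 0 < κ) (hr : 0 < r) (h0 : 0 ≤ sg)
    (hL : 1 ≤ L) (h : sg ≤ L * sg') : TT κ sg r ≤ L ^ 2 * TT κ sg' r := by
  have hL2 : (1:ℝ) ≤ L ^ 2 := one_le_pow₀ hL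
  refine max_le ?_ ?_
  · calc sg ^ 2 ≤ (L * sg') ^ 2 := pow_le_pow_left₀ h0 h 2
      _ = L ^ 2 * sg' ^ 2 := by ring
      _ ≤ L ^ 2 * TT κ sg' r := mul_le_mul_of_nonneg_left (le_max_left _ _) (by positivity)
  · calc (κ * r)⁻¹ = 1 * (κ * r)⁻¹ := (one_mul _).symm
      _ ≤ L ^ 2 * TT κ sg' r := mul_le_mul hL2 (le_max_right _ _)
          (inv_nonneg.2 (mul_pos hκ hr).le) (by positivity)

/-- member data. -/
structure Mb where
  c : E2
  X0 : E3
  f : Cf E2
  s1 : ℝ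
  s2 : ℝ

/-- constant one, compatible. -/
structure Good (κ r : ℝ) (b : Mb) : Prop where
  sd : Sd r b.s1 b.s2
  disc : b.f.disc = 1
  ny : ∀ s, |s| ≤ r → |b.f.ny s| ≤ b.s2 / TT κ b.s2 r
  cmp : ∀ s, |s| ≤ r → |b.f.ny s| ≤ κ * b.s1 * r
  ld : |b.f.ld b.c (lat b.X0) (b.X0 2) 0| ≤ b.s2
  ev : |b.f.ev (lat b.X0) (b.X0 2) 0| ≤ b.s2 * r

/-- the flat member. -/
noncomputable def fm (c : E2) (X0 : E3) (sg : ℝ) : Mb := ⟨c, X0, flat e0 c X0, sg, sg⟩

theorem good_fm {κ r : ℝ} (hκ : 0 < κ) (hr : 1 ≤ r) (c : E2) (X0 : E3) {sg : ℝ}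
    (h1 : r ^ (-(1/2) : ℝ) ≤ sg) (h2 : sg ≤ 1) : Good κ r (fm c X0 sg) := by
  have hr0 : 0 < r := lt_of_lt_of_le one_pos hr
  have hsg : 0 < sg := lt_of_lt_of_le (Real.rpow_pos_of_pos hr0 _) h1
  have hT := TT_pos (sg := sg) hκ hr0
  refine ⟨⟨h1, le_rfl, h2⟩, ?_, fun s _ => ?_, fun s _ => ?_, ?_, ?_⟩
  · change (flat e0 c X0).disc = 1
    rw [flat_disc, norm_e0, one_pow]
  · change |(flat e0 c X0).ny s| ≤ sg / TT κ sg r
    rw [flat_ny, abs_zero]; positivity
  · change |(flat e0 c X0).ny s| ≤ κ * sg * r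
    rw [flat_ny, abs_zero]; positivity
  · change |(flat e0 c X0).ld c (lat X0) (X0 2) 0| ≤ sg
    rw [flat_ld, sub_self, inner_zero_right, abs_zero]; exact hsg.le
  · change |(flat e0 c X0).ev (lat X0) (X0 2) 0| ≤ sg * r
    rw [flat_ev, zero_smul, sub_self, add_zero, inner_zero_right, abs_zero]; positivity

/-- the phase set of a member (constant slope `C`). -/
def ms (κ r : ℝ) (b : Mb) (C : E2) : Set E3 := mset b.s2 (TT κ b.s2 r) r b.s1 b.c b.X0 b.f C

theorem mem_fm {κ r : ℝ} {c : E2} {X0 : E3} {sg : ℝ} {C : E2} {X : E3}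
    (h1 : ‖C - c‖ ≤ sg) (h2 : ‖lat X - lat X0‖ ≤ sg * r)
    (h3 : |nrm c X 0 - nrm c X0 0| ≤ TT κ sg r * r) : X ∈ ms κ r (fm c X0 sg) C := by
  refine ⟨h1, h2, h3, ?_, ?_⟩
  · change |(flat e0 c X0).ev (lat X) (X 2) 0| ≤ sg * r
    rw [flat_ev, zero_smul, add_zero]
    refine (abs_real_inner_le_norm _ _).trans ?_
    rw [norm_e0, one_mul]; exact h2
  · change |(flat e0 c X0).ld C (lat X) (X 2) 0| ≤ sg
    rw [flat_ld]
    refine (abs_real_inner_le_norm _ _).trans ?_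
    rw [norm_e0, one_mul, norm_sub_rev]; exact h1

/-- the index set of the cells. -/
noncomputable def cells (n : ℕ) : Finset (ℤ × ℤ × ℤ × ℤ × ℤ) :=
  Finset.Icc (-(n : ℤ)) n ×ˢ Finset.Icc (-(n : ℤ)) n ×ˢ Finset.Icc (-(n : ℤ)) n ×ˢ
    Finset.Icc (-(n : ℤ)) n ×ˢ Finset.Icc (-(n : ℤ)) n

theorem card_cells (n : ℕ) : (cells n).card = (2 * n + 1) ^ 5 := by
  unfold cells
  simp only [Finset.card_product, Int.card_Icc]
  have e : ((n : ℤ) + 1 - -(n : ℤ)).toNat = 2 * n + 1 := by omega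
  rw [e]; ring

/-- number of cells per direction. -/
noncomputable def nn (A M : ℝ) : ℕ := ⌈4 * A ^ 2 * (A * M) ^ 2⌉₊

set_option maxHeartbeats 1000000 in
/-- **COV** (all slopes). -/
theorem cov {κ r A M : ℝ} (hκ : 0 < κ) (hκ1 : κ ≤ 1) (hr : 1 ≤ r) (hA : 1 ≤ A) (hM : 1 ≤ M)
    {s1 s2 : ℝ} (hS : Sd r s1 s2) {c : E2} {X0 : E3} {f : Cf E2} (hdisc : f.disc = 1)
    (hny : ∀ s : ℝ, |s| ≤ r → |f.ny s| ≤ M * s2 / TT κ s2 r)
    (hcmp : ∀ s : ℝ, |s| ≤ r → |f.ny s| ≤ M * (κ * s1 * r)) :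
    ∃ F : ℤ × ℤ × ℤ × ℤ × ℤ → Mb, (∀ j, Good κ r (F j) ∧ (F j).s2 ≤ s2 ∧
      (F j).s1 ≤ A * M * s1 ∧ s2 ≤ A * M * (F j).s2 ∧ s1 ≤ A * M * (F j).s1 ∧
      scost κ (F j).s1 (F j).s2 r ≤ A * M * scost κ s1 s2 r) ∧
      ∀ C, mset (A * s2) (A * TT κ s2 r) r (A * s1) c X0 f C ⊆
        ⋃ j ∈ cells (nn A M), ms κ r (F j) C := by
  classical
  have hr0 : 0 < r := lt_of_lt_of_le one_pos hr
  have hA0 : 0 < A := lt_of_lt_of_le one_pos hA
  have hM0 : 0 < M := lt_of_lt_of_le one_pos hM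
  set L := A * M with hL
  have hAL : A ≤ L := le_mul_of_one_le_right hA0.le hM
  have hML : M ≤ L := le_mul_of_one_le_left hM0.le hA
  have hL1 : 1 ≤ L := hA.trans hAL
  have hL0 : 0 < L := lt_of_lt_of_le one_pos hL1
  set an := r ^ (-(1/2) : ℝ) with han
  have han0 : 0 < an := Real.rpow_pos_of_pos hr0 _
  have hlo : an ≤ s1 := hS.lo
  have hs1 : 0 < s1 := han0.trans_le hlo
  have hs2 : 0 < s2 := hs1.trans_le hS.le
  have han2 : an ^ 2 = r⁻¹ := by
    rw [han, ← Real.rpow_natCast, ← Real.rpow_mul hr0.le]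
    norm_num
    exact Real.rpow_neg_one r
  -- the new aperture
  set sg := max (s2 / L) an with hsg
  have hsg_an : an ≤ sg := le_max_right _ _
  have hsg0 : 0 < sg := han0.trans_le hsg_an
  have hsg_s2 : sg ≤ s2 := max_le (div_le_self hs2.le hL1) (hlo.trans hS.le)
  have hs2_sg : s2 ≤ L * sg := by
    have := le_max_left (s2 / L) an
    rw [div_le_iff₀ hL0] at this
    linarith
  have hsg1 : sg ≤ 1 := hsg_s2.trans hS.hi
  have hT' : 0 < TT κ sg r := TT_pos hκ hr0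
  have hT : 0 < TT κ s2 r := TT_pos hκ hr0
  have hTT : TT κ sg r ≤ TT κ s2 r := TT_mono hsg0.le hsg_s2
  have hTL : TT κ s2 r ≤ L ^ 2 * TT κ sg r := TT_le_mul hκ hr0 hs2.le hL1 hs2_sg
  have hsgT : sg ^ 2 ≤ TT κ sg r := le_max_left _ _
  -- steps
  set h1 := sg / 2 with hh1
  set h2 := sg * r / (4 * A * L) with hh2
  set h3 := TT κ sg r * r / 2 with hh3
  have p1 : 0 < h1 := by positivity
  have p2 : 0 < h2 := by positivity
  have p3 : 0 < h3 := by positivity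
  set key : E2 × E3 → ℤ × ℤ × ℤ × ℤ × ℤ := fun q =>
    (⌊(q.1 0 - c 0) / h1⌋, ⌊(q.1 1 - c 1) / h1⌋, ⌊(lat q.2 0 - lat X0 0) / h2⌋,
      ⌊(lat q.2 1 - lat X0 1) / h2⌋, ⌊(nrm c q.2 0 - nrm c X0 0) / h3⌋) with hkey
  set W : ℤ × ℤ × ℤ × ℤ × ℤ → E2 × E3 → Prop := fun j q =>
    q.2 ∈ mset (A * s2) (A * TT κ s2 r) r (A * s1) c X0 f q.1 ∧ key q = j with hW
  -- slab or flat
  set mk : E2 × E3 → Mb := fun q =>
    if L * s1 ≤ sg then ⟨q.1, q.2, f, L * s1, sg⟩ else fm q.1 q.2 sg with hmk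
  have hs1L : s1 ≤ L * s1 := le_mul_of_one_le_left hs1.le hL1
  have hs1s2 : s1 ≤ L * sg := hS.le.trans hs2_sg
  -- good members
  have good_mk : ∀ q : E2 × E3, q.2 ∈ mset (A * s2) (A * TT κ s2 r) r (A * s1) c X0 f q.1 →
      Good κ r (mk q) := by
    intro q hq
    obtain ⟨-, -, -, hq4, hq5⟩ := hq
    simp only [hmk]
    split_ifs with hc
    · have hev : A * s1 ≤ L * s1 := mul_le_mul_of_nonneg_right hAL hs1.le
      refine ⟨⟨hlo.trans hs1L, hc, hsg1⟩, hdisc, fun s hs => ?_, fun s hs => ?_, ?_, ?_⟩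
      · change |f.ny s| ≤ sg / TT κ sg r
        rcases le_total (sg ^ 2) ((κ * r)⁻¹) with hcase | hcase
        · have e : TT κ sg r = (κ * r)⁻¹ := max_eq_right hcase
          rw [e, div_inv_eq_mul]
          calc |f.ny s| ≤ M * (κ * s1 * r) := hcmp s hs
            _ ≤ L * (κ * s1 * r) := mul_le_mul_of_nonneg_right hML (by positivity)
            _ = (L * s1) * (κ * r) := by ring
            _ ≤ sg * (κ * r) := mul_le_mul_of_nonneg_right hc (by positivity)
        · have e : TT κ sg r = sg ^ 2 := max_eq_left hcase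
          rcases eq_or_lt_of_le hsg_an with he | hlt
          · -- sg = an: then sg² ≤ 1/(κ r) ≤ sg²
            have e2 : sg ^ 2 ≤ (κ * r)⁻¹ := by
              rw [← he, han2]
              exact inv_anti₀ (mul_pos hκ hr0) (by nlinarith)
            have e3 : TT κ sg r = (κ * r)⁻¹ := max_eq_right e2
            rw [e3, div_inv_eq_mul]
            calc |f.ny s| ≤ M * (κ * s1 * r) := hcmp s hs
              _ ≤ L * (κ * s1 * r) := mul_le_mul_of_nonneg_right hML (by positivity)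
              _ = (L * s1) * (κ * r) := by ring
              _ ≤ sg * (κ * r) := mul_le_mul_of_nonneg_right hc (by positivity)
          · have e4 : sg = s2 / L := by
              rcases max_cases (s2 / L) an with h | h
              · rw [hsg]; exact h.1
              · rw [hsg, h.1] at hlt; exact absurd hlt (lt_irrefl _)
            rw [e]
            have e5 : M * s2 / TT κ s2 r ≤ M * s2 / s2 ^ 2 :=
              div_le_div_of_nonneg_left (by positivity) (by positivity) (le_max_left _ _)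
            have e6 : M * s2 / s2 ^ 2 = M / s2 := by field_simp
            have e7 : sg / sg ^ 2 = L / s2 := by rw [e4]; field_simp
            rw [e7]
            exact ((hny s hs).trans (e5.trans_eq e6)).trans
              (div_le_div_of_nonneg_right hML hs2.le)
      · change |f.ny s| ≤ κ * (L * s1) * r
        calc |f.ny s| ≤ M * (κ * s1 * r) := hcmp s hs
          _ ≤ L * (κ * s1 * r) := mul_le_mul_of_nonneg_right hML (by positivity)
          _ = κ * (L * s1) * r := by ring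
      · exact hq5.trans (hev.trans hc)
      · change |f.ev (lat q.2) (q.2 2) 0| ≤ sg * r
        exact hq4.trans (mul_le_mul_of_nonneg_right (hev.trans hc) hr0.le)
    · exact good_fm hκ hr _ _ hsg_an hsg1
  have side_mk : ∀ q : E2 × E3, (mk q).s2 = sg ∧ (mk q).s1 = min (L * s1) sg := by
    intro q
    simp only [hmk]
    split_ifs with hc
    · exact ⟨rfl, (min_eq_left hc).symm⟩
    · exact ⟨rfl, (min_eq_right (not_le.1 hc).le).symm⟩
  have cost_le : ∀ t : ℝ, 0 ≤ t → t ≤ L * s1 → scost κ t sg r ≤ L * scost κ s1 s2 r := by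
    intro t ht0 ht
    unfold scost
    have a1 : t * sg ≤ (L * s1) * s2 := mul_le_mul ht hsg_s2 hsg0.le (by positivity)
    have a2 : t * sg * TT κ sg r ≤ (L * s1) * s2 * TT κ s2 r :=
      mul_le_mul a1 hTT hT'.le (by positivity)
    calc t * sg * TT κ sg r * r ^ 3 ≤ (L * s1) * s2 * TT κ s2 r * r ^ 3 :=
          mul_le_mul_of_nonneg_right a2 (by positivity)
      _ = L * (s1 * s2 * TT κ s2 r * r ^ 3) := by ring
  -- empty cells: an auxiliary flat member
  set F' : ℤ × ℤ × ℤ × ℤ × ℤ → Mb := fun j =>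
    if h : ∃ q, W j q then mk h.choose
      else ⟨c, X0, flat e0 c X0, min (L * s1) sg, sg⟩ with hF'
  have good_aux : Good κ r ⟨c, X0, flat e0 c X0, min (L * s1) sg, sg⟩ := by
    have hg := good_fm hκ hr c X0 hsg_an hsg1
    have hmin : 0 < min (L * s1) sg := lt_min (by positivity) hsg0
    refine ⟨⟨le_min (hlo.trans hs1L) hsg_an, min_le_right _ _, hsg1⟩, hg.disc, hg.ny,
      fun s _ => ?_, hg.ld, hg.ev⟩
    change |(flat e0 c X0).ny s| ≤ κ * min (L * s1) sg * r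
    rw [flat_ny, abs_zero]; positivity
  refine ⟨F', fun j => ?_, fun C X hX => ?_⟩
  · have key2 : Good κ r (F' j) ∧ (F' j).s2 = sg ∧ (F' j).s1 = min (L * s1) sg := by
      simp only [hF']
      split_ifs with h
      · exact ⟨good_mk _ h.choose_spec.1, (side_mk _).1, (side_mk _).2⟩
      · exact ⟨good_aux, rfl, rfl⟩
    obtain ⟨g1, g2, g3⟩ := key2
    refine ⟨g1, g2.trans_le hsg_s2, ?_, ?_, ?_, ?_⟩
    · rw [g3]; exact min_le_left _ _
    · rw [g2]; exact hs2_sg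
    · rw [g3, mul_min_of_nonneg _ _ hL0.le]
      refine le_min ?_ hs1s2
      calc s1 = 1 * (1 * s1) := by ring
        _ ≤ L * (L * s1) := mul_le_mul hL1 (mul_le_mul_of_nonneg_right hL1 hs1.le)
            (by positivity) hL0.le
    · rw [g2, g3]
      exact cost_le _ (le_min (by positivity) hsg0.le) (min_le_left _ _)
  · have hX' := hX
    obtain ⟨x1, x2, x3, x4, x5⟩ := hX
    -- the cell
    have hn : 4 * A ^ 2 * L ^ 2 ≤ (nn A M : ℝ) := Nat.le_ceil _
    have hn1 : A * s2 ≤ (nn A M : ℝ) * h1 := by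
      calc A * s2 ≤ A * (L * sg) := mul_le_mul_of_nonneg_left hs2_sg hA0.le
        _ = (2 * A * L) * h1 := by rw [hh1]; ring
        _ ≤ (4 * A ^ 2 * L ^ 2) * h1 := by
            refine mul_le_mul_of_nonneg_right ?_ p1.le
            have : 1 ≤ A * L := one_le_mul_of_one_le_of_one_le hA hL1
            nlinarith
        _ ≤ _ := mul_le_mul_of_nonneg_right hn p1.le
    have hn2 : A * s2 * r ≤ (nn A M : ℝ) * h2 := by
      calc A * s2 * r ≤ A * (L * sg) * r := by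
            refine mul_le_mul_of_nonneg_right ?_ hr0.le
            exact mul_le_mul_of_nonneg_left hs2_sg hA0.le
        _ = (4 * A ^ 2 * L ^ 2) * h2 := by rw [hh2]; field_simp
        _ ≤ _ := mul_le_mul_of_nonneg_right hn p2.le
    have hn3 : A * TT κ s2 r * r ≤ (nn A M : ℝ) * h3 := by
      calc A * TT κ s2 r * r ≤ A * (L ^ 2 * TT κ sg r) * r := by
            refine mul_le_mul_of_nonneg_right ?_ hr0.le
            exact mul_le_mul_of_nonneg_left hTL hA0.le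
        _ = (2 * A * L ^ 2) * h3 := by rw [hh3]; ring
        _ ≤ (4 * A ^ 2 * L ^ 2) * h3 := by
            refine mul_le_mul_of_nonneg_right ?_ p3.le
            refine mul_le_mul_of_nonneg_right ?_ (sq_nonneg L)
            nlinarith
        _ ≤ _ := mul_le_mul_of_nonneg_right hn p3.le
    have hmem : key (C, X) ∈ cells (nn A M) := by
      simp only [hkey, cells, Finset.mem_product]
      refine ⟨floor_mem p1 ?_, floor_mem p1 ?_, floor_mem p2 ?_, floor_mem p2 ?_,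
        floor_mem p3 ?_⟩
      · exact ((abs_le_norm (C - c) 0).trans x1).trans hn1
      · exact ((abs_le_norm (C - c) 1).trans x1).trans hn1
      · exact ((abs_le_norm (lat X - lat X0) 0).trans x2).trans hn2
      · exact ((abs_le_norm (lat X - lat X0) 1).trans x2).trans hn2
      · exact x3.trans hn3
    refine Set.mem_iUnion₂.2 ⟨key (C, X), hmem, ?_⟩
    have hex : ∃ q, W (key (C, X)) q := ⟨(C, X), hX', rfl⟩
    have hFe : F' (key (C, X)) = mk hex.choose := dif_pos hex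
    rw [hFe]
    obtain ⟨hq, hqk⟩ := hex.choose_spec
    set q := hex.choose with hqdef
    simp only [hkey, Prod.mk.injEq] at hqk
    obtain ⟨k1, k2, k3, k4, k5⟩ := hqk
    have c1 : ‖C - q.1‖ ≤ sg := by
      have a := floor_close p1 k1
      have b := floor_close p1 k2
      have := norm_sub_le_of C q.1 (h := h1) (by
        rw [abs_sub_comm]; convert a using 2; ring) (by
        rw [abs_sub_comm]; convert b using 2; ring)
      rw [hh1] at this
      linarith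
    have c2' : ‖lat X - lat q.2‖ ≤ 2 * h2 := by
      have a := floor_close p2 k3
      have b := floor_close p2 k4
      exact norm_sub_le_of (lat X) (lat q.2) (h := h2) (by
        rw [abs_sub_comm]; convert a using 2; ring) (by
        rw [abs_sub_comm]; convert b using 2; ring)
    have e2 : 2 * h2 ≤ sg * r := by
      rw [hh2]
      have : 2 * (sg * r / (4 * A * L)) = sg * r * (1 / (2 * A * L)) := by field_simp; ring
      rw [this]
      refine mul_le_of_le_one_right (by positivity) ?_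
      rw [div_le_one (by positivity)]
      nlinarith
    have c2 : ‖lat X - lat q.2‖ ≤ sg * r := c2'.trans e2
    have c3 : |nrm q.1 X 0 - nrm q.1 q.2 0| ≤ TT κ sg r * r := by
      have a := floor_close p3 k5
      have e3 : nrm q.1 X 0 - nrm q.1 q.2 0 = (nrm c X 0 - nrm c q.2 0) +
          inner ℝ (q.1 - c) (lat X - lat q.2) := by
        unfold nrm
        rw [inner_sub_right, inner_sub_left, inner_sub_left]
        ring
      have e4 : |nrm c X 0 - nrm c q.2 0| ≤ h3 := by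
        rw [abs_sub_comm]; convert a using 2; ring
      have e5 : |inner ℝ (q.1 - c) (lat X - lat q.2)| ≤ TT κ sg r * r / 2 := by
        refine (abs_real_inner_le_norm _ _).trans ?_
        calc ‖q.1 - c‖ * ‖lat X - lat q.2‖ ≤ (A * s2) * (2 * h2) :=
              mul_le_mul hq.1 c2' (norm_nonneg _) (by positivity)
          _ ≤ (A * (L * sg)) * (2 * h2) := by
              refine mul_le_mul_of_nonneg_right ?_ (by positivity)
              exact mul_le_mul_of_nonneg_left hs2_sg hA0.le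
          _ = sg ^ 2 * r / 2 := by rw [hh2]; field_simp; ring
          _ ≤ TT κ sg r * r / 2 := by
              have := mul_le_mul_of_nonneg_right hsgT hr0.le
              linarith
      rw [e3]
      refine (abs_add_le _ _).trans ?_
      rw [hh3] at e4
      linarith
    simp only [hmk]
    split_ifs with hc
    · have hev : A * s1 ≤ L * s1 := mul_le_mul_of_nonneg_right hAL hs1.le
      exact ⟨c1, c2, c3, x4.trans (mul_le_mul_of_nonneg_right hev hr0.le), x5.trans hev⟩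
    · exact mem_fm c1 c2 c3

end Crest.Agent.R116.Cov369
end

-- ▼ part R116/Cov2_369

/-!
# R116 (S0155), wave side, COV / STAB (helper369), part 2: the forms used by the leaves

* `cov_pbx`: a dilated member is covered by `≤ card (cells (nn A M'))` members with constant `1`.
* `stab_core`: density (of any family `S` of sets) for the members `Adm 1` gives the density for the
  `A`-dilated members `Adm M'`, factor `11^5 (A M')^21`.
* `stabc : 0 ≤ q → De295.STABc q`; `stabP`; `cov2`; `pbx_change` (`PBx M ⟹ PBx M'`).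
-/

set_option autoImplicit false

open MeasureTheory FourierTransform
open scoped ENNReal

namespace Crest.Agent.R116.Cov369

open Crest.Agent.R138.Defs (E2 ee)
open Crest.Agent.R138.Wpk685 (cen caps)
open Crest.Agent.R116.CDef480
open Crest.Agent.R116.LZg725 (Cf)
open Crest.Agent.R116.WC188 (TT mset scost Sd pbx PBx Adm)

/-- good members are `Adm M` for every `M ≥ 1`. -/
theorem Good.toAdm {κ r M : ℝ} {b : Mb} (h : Good κ r b) (hκ : 0 < κ) (hr : 0 < r) (hM : 1 ≤ M) :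
    Adm M κ b.s1 b.s2 (TT κ b.s2 r) r b.c b.X0 b.f := by
  have hs1 : 0 < b.s1 := lt_of_lt_of_le (Real.rpow_pos_of_pos hr _) h.sd.lo
  have hs2 : 0 < b.s2 := hs1.trans_le h.sd.le
  have hT : 0 < TT κ b.s2 r := TT_pos hκ hr
  refine ⟨h.disc, fun s hs => (h.ny s hs).trans ?_, fun s hs => (h.cmp s hs).trans ?_,
    h.ld.trans ?_, h.ev.trans ?_⟩
  · exact div_le_div_of_nonneg_right (le_mul_of_one_le_left hs2.le hM) hT.le
  · exact le_mul_of_one_le_left (by positivity) hM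
  · exact le_mul_of_one_le_left hs2.le hM
  · rw [mul_assoc]; exact le_mul_of_one_le_left (by positivity) hM

/-- `Adm` is monotone in the constant. -/
theorem adm_mono {κ r M M' s1 s2 : ℝ} {c : E2} {X0 : E3} {f : Cf E2} (hκ : 0 < κ) (hr : 0 < r)
    (hs1 : 0 < s1) (hs2 : 0 < s2) (hM : M ≤ M')
    (h : Adm M κ s1 s2 (TT κ s2 r) r c X0 f) : Adm M' κ s1 s2 (TT κ s2 r) r c X0 f := by
  have hT : 0 < TT κ s2 r := TT_pos hκ hr
  refine ⟨h.disc, fun s hs => (h.ny s hs).trans ?_, fun s hs => (h.cmp s hs).trans ?_,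
    h.ld.trans ?_, h.ev.trans ?_⟩
  · exact div_le_div_of_nonneg_right (mul_le_mul_of_nonneg_right hM hs2.le) hT.le
  · exact mul_le_mul_of_nonneg_right hM (by positivity)
  · exact mul_le_mul_of_nonneg_right hM hs2.le
  · exact mul_le_mul_of_nonneg_right (mul_le_mul_of_nonneg_right hM hs2.le) hr.le

/-- **COV over the literals of `WDefC_188`**. -/
theorem cov_pbx {κ r A M : ℝ} (hκ : 0 < κ) (hκ1 : κ ≤ 1) (hr : 1 ≤ r) (hA : 1 ≤ A) (hM : 1 ≤ M)
    {s1 s2 : ℝ} (hS : Sd r s1 s2) {c : E2} {X0 : E3} {f : Cf E2}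
    (hadm : Adm M κ s1 s2 (TT κ s2 r) r c X0 f) :
    ∃ F : ℤ × ℤ × ℤ × ℤ × ℤ → Mb, (∀ j, Good κ r (F j) ∧ (F j).s2 ≤ s2 ∧
      (F j).s1 ≤ A * M * s1 ∧ s2 ≤ A * M * (F j).s2 ∧ s1 ≤ A * M * (F j).s1 ∧
      scost κ (F j).s1 (F j).s2 r ≤ A * M * scost κ s1 s2 r) ∧
      ∀ m, pbx κ A r s1 s2 c X0 f m ⊆
        ⋃ j ∈ cells (nn A M), pbx κ 1 r (F j).s1 (F j).s2 (F j).c (F j).X0 (F j).f m := by
  obtain ⟨F, hF, hcov⟩ := cov hκ hκ1 hr hA hM hS hadm.disc hadm.ny hadm.cmp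
  refine ⟨F, hF, fun m => ?_⟩
  have h1 := hcov (cen (r ^ (-(1/2) : ℝ)) m)
  unfold ms at h1
  unfold pbx
  simp only [one_mul]
  exact h1

theorem card_le {A M : ℝ} (hA : 1 ≤ A) (hM : 1 ≤ M) :
    ((cells (nn A M)).card : ℝ) ≤ 11 ^ 5 * (A * M) ^ 20 := by
  rw [card_cells]
  have hL : 1 ≤ A * M := one_le_mul_of_one_le_of_one_le hA hM
  have hAL : A ≤ A * M := le_mul_of_one_le_right (by linarith) hM
  have h1 : (nn A M : ℝ) ≤ 4 * A ^ 2 * (A * M) ^ 2 + 1 := by
    unfold nn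
    exact (Nat.ceil_lt_add_one (by positivity)).le
  have h2 : A ^ 2 ≤ (A * M) ^ 2 := pow_le_pow_left₀ (by linarith) hAL 2
  have h3 : (1:ℝ) ≤ (A * M) ^ 4 := one_le_pow₀ hL
  have h4 : 2 * (nn A M : ℝ) + 1 ≤ 11 * (A * M) ^ 4 := by
    have : 4 * A ^ 2 * (A * M) ^ 2 ≤ 4 * (A * M) ^ 4 := by
      have := mul_le_mul_of_nonneg_right h2 (sq_nonneg (A * M))
      nlinarith
    linarith
  push_cast
  calc (2 * (nn A M : ℝ) + 1) ^ 5 ≤ (11 * (A * M) ^ 4) ^ 5 :=
        pow_le_pow_left₀ (by positivity) h4 5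
    _ = 11 ^ 5 * (A * M) ^ 20 := by ring

/-- `enc` and finite covers. -/
theorem enc_cover {ι : Type*} (ρ : ℝ) (g : E3 → ℂ) (I : Finset ι) (S : ℤ × ℤ → Set E3)
    (V : ι → ℤ × ℤ → Set E3) (h : ∀ m, S m ⊆ ⋃ j ∈ I, V j m) :
    enc ρ g S ≤ ∑ j ∈ I, enc ρ g (V j) := by
  classical
  unfold enc
  rw [Finset.sum_comm]
  refine Finset.sum_le_sum fun m _ => ?_
  have e : (⋃ j ∈ I, V j m) = ⋃ j : I, V (j : ι) m := by ext x; simp
  refine (lintegral_mono_set (h m)).trans ?_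
  rw [e]
  refine (lintegral_iUnion_le _ _).trans ?_
  rw [tsum_fintype, Finset.univ_eq_attach]
  exact (Finset.sum_attach I (fun j => ∫⁻ x in V j m, ‖umc ρ g m x‖ₑ ^ 2)).le

/-- **STAB, core form** (any family of sets, no measurability). -/
theorem stab_core {q κ r A M' : ℝ} (hq : 0 ≤ q) (hκ : 0 < κ) (hκ1 : κ ≤ 1) (hr : 1 ≤ r)
    (hA : 1 ≤ A) (hM' : 1 ≤ M') {g : E3 → ℂ} {S : ℤ × ℤ → Set E3} {D : ℝ} (hD : 0 ≤ D)
    (h : ∀ (c : E2) (X0 : E3) (f : Cf E2) (s1 s2 : ℝ), Sd r s1 s2 →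
      Adm 1 κ s1 s2 (TT κ s2 r) r c X0 f →
      enc (r ^ (-(1/2) : ℝ)) g (fun m => S m ∩ pbx κ 1 r s1 s2 c X0 f m) ≤
        ENNReal.ofReal (D * s2 ^ q * scost κ s1 s2 r))
    {c : E2} {X0 : E3} {f : Cf E2} {s1 s2 : ℝ} (hS : Sd r s1 s2)
    (hadm : Adm M' κ s1 s2 (TT κ s2 r) r c X0 f) :
    enc (r ^ (-(1/2) : ℝ)) g (fun m => S m ∩ pbx κ A r s1 s2 c X0 f m) ≤
      ENNReal.ofReal (11 ^ 5 * (A * M') ^ 21 * D * s2 ^ q * scost κ s1 s2 r) := by
  classical
  have hr0 : 0 < r := lt_of_lt_of_le one_pos hr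
  obtain ⟨F, hF, hcov⟩ := cov_pbx hκ hκ1 hr hA hM' hS hadm
  have hs1 : 0 < s1 := lt_of_lt_of_le (Real.rpow_pos_of_pos hr0 _) hS.lo
  have hs2 : 0 < s2 := hs1.trans_le hS.le
  have hT : 0 < TT κ s2 r := TT_pos hκ hr0
  have hL : 1 ≤ A * M' := one_le_mul_of_one_le_of_one_le hA hM'
  have hsc : 0 ≤ scost κ s1 s2 r := by
    unfold scost; positivity
  have step : ∀ j ∈ cells (nn A M'),
      enc (r ^ (-(1/2) : ℝ)) g (fun m => S m ∩
        pbx κ 1 r (F j).s1 (F j).s2 (F j).c (F j).X0 (F j).f m) ≤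
      ENNReal.ofReal (D * s2 ^ q * (A * M' * scost κ s1 s2 r)) := by
    intro j _
    obtain ⟨hg, hj2, -, -, -, hjc⟩ := hF j
    have hb1 : 0 < (F j).s1 := lt_of_lt_of_le (Real.rpow_pos_of_pos hr0 _) hg.sd.lo
    have hb2 : 0 < (F j).s2 := hb1.trans_le hg.sd.le
    have hTj : 0 < TT κ (F j).s2 r := TT_pos hκ hr0
    refine (h (F j).c (F j).X0 (F j).f (F j).s1 (F j).s2 hg.sd
      (hg.toAdm hκ hr0 le_rfl)).trans (ENNReal.ofReal_le_ofReal ?_)
    have a1 : (F j).s2 ^ q ≤ s2 ^ q := Real.rpow_le_rpow hb2.le hj2 hq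
    have a2 : 0 ≤ scost κ (F j).s1 (F j).s2 r := by unfold scost; positivity
    calc D * (F j).s2 ^ q * scost κ (F j).s1 (F j).s2 r
        ≤ D * s2 ^ q * scost κ (F j).s1 (F j).s2 r :=
          mul_le_mul_of_nonneg_right (mul_le_mul_of_nonneg_left a1 hD) a2
      _ ≤ D * s2 ^ q * (A * M' * scost κ s1 s2 r) :=
          mul_le_mul_of_nonneg_left hjc (mul_nonneg hD (Real.rpow_nonneg hs2.le _))
  have h1 := enc_cover (r ^ (-(1/2) : ℝ)) g (cells (nn A M'))
    (fun m => S m ∩ pbx κ A r s1 s2 c X0 f m)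
    (fun j m => S m ∩ pbx κ 1 r (F j).s1 (F j).s2 (F j).c (F j).X0 (F j).f m) (fun m => by
      rw [← Set.inter_iUnion₂]
      exact Set.inter_subset_inter_right _ (hcov m))
  refine h1.trans ((Finset.sum_le_sum step).trans ?_)
  rw [Finset.sum_const, nsmul_eq_mul, ← ENNReal.ofReal_natCast,
    ← ENNReal.ofReal_mul (Nat.cast_nonneg _)]
  refine ENNReal.ofReal_le_ofReal ?_
  have h2 := card_le hA hM'
  have h3 : 0 ≤ D * s2 ^ q * (A * M' * scost κ s1 s2 r) :=
    mul_nonneg (mul_nonneg hD (Real.rpow_nonneg hs2.le _)) (mul_nonneg (by linarith) hsc)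
  calc ((cells (nn A M')).card : ℝ) * (D * s2 ^ q * (A * M' * scost κ s1 s2 r))
      ≤ (11 ^ 5 * (A * M') ^ 20) * (D * s2 ^ q * (A * M' * scost κ s1 s2 r)) :=
        mul_le_mul_of_nonneg_right h2 h3
    _ = 11 ^ 5 * (A * M') ^ 21 * D * s2 ^ q * scost κ s1 s2 r := by ring

/-- **D2** of 295. -/
theorem stabc {q : ℝ} (hq : 0 ≤ q) : De295.STABc q := by
  intro M' hM'
  refine ⟨11 ^ 5 * M' ^ 21, 21, by positivity, ?_⟩
  intro A κ r hA hr hκ hκ1 _ g S D _ hD h c X0 f s1 s2 hS hadm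
  refine (stab_core hq hκ hκ1 hr hA hM' hD h hS hadm).trans (le_of_eq ?_)
  congr 1
  ring

/-- monotonicity of the box bound in the class constant. -/
theorem pbx_one {M κ q r : ℝ} {g : E3 → ℂ} {D : ℝ} (hM : 1 ≤ M) (hκ : 0 < κ) (hr : 1 ≤ r)
    (h : PBx M κ q r g D) : ∀ (c : E2) (X0 : E3) (f : Cf E2) (s1 s2 : ℝ), Sd r s1 s2 →
      Adm 1 κ s1 s2 (TT κ s2 r) r c X0 f →
      enc (r ^ (-(1/2) : ℝ)) g (fun m => Set.univ ∩ pbx κ 1 r s1 s2 c X0 f m) ≤
        ENNReal.ofReal (D * s2 ^ q * scost κ s1 s2 r) := by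
  intro c X0 f s1 s2 hS hadm
  have hr0 : 0 < r := lt_of_lt_of_le one_pos hr
  have hs1 : 0 < s1 := lt_of_lt_of_le (Real.rpow_pos_of_pos hr0 _) hS.lo
  simp only [Set.univ_inter]
  exact h c X0 f s1 s2 hS (adm_mono hκ hr0 hs1 (hs1.trans_le hS.le) hM hadm)




/-- 894's `Cov2`. -/
theorem cov2 {M q : ℝ} (hM : 1 ≤ M) (hq : 0 ≤ q) : ∃ C : ℝ, 1 ≤ C ∧ ∀ κ r : ℝ, 0 < κ → κ ≤ 1 →
    1 ≤ r → 1 ≤ κ * r → ∀ (g : E3 → ℂ) (D : ℝ), 0 ≤ D → PBx M κ q r g D →
      ∀ (c : E2) (X0 : E3) (f : Cf E2) (s1 s2 : ℝ), Sd r s1 s2 →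
        Adm M κ s1 s2 (TT κ s2 r) r c X0 f →
        enc (r ^ (-(1/2) : ℝ)) g (pbx κ 2 r s1 s2 c X0 f) ≤
          ENNReal.ofReal (C * D * s2 ^ q * scost κ s1 s2 r) := by
  refine ⟨11 ^ 5 * (2 * M) ^ 21, ?_, ?_⟩
  · have h1 : (1:ℝ) ≤ (2 * M) ^ 21 := one_le_pow₀ (by linarith)
    nlinarith
  intro κ r hκ hκ1 hr _ g D hD hP c X0 f s1 s2 hS hadm
  have h1 := stab_core hq hκ hκ1 hr (by norm_num : (1:ℝ) ≤ 2) hM hD (pbx_one hM hκ hr hP) hS hadm
  simp only [Set.univ_inter] at h1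
  exact h1

end Crest.Agent.R116.Cov369
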