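import Crest.Agent.R116.CWd1_480
import Crest.Agent.R138.Loc1_878

-- ▼ part R116/F1c1_124
section

/-!
# R116 (S0155): (F1) in `l^1` form for the cone packets, part 1 (helper124)

`kc N ρ κ C x = ρ² κ (1 + |(ρ x', κ (y + C.x'))|)^(-N)` = kernel profile of the plate of slope `C`.
`Kn e ρ ρ' τ C C'` = kernel from the fat window of the cap `(C, ρ)` (scalar window `e`) to the
window of the cap `(C', ρ')`, time shift `τ`.
`exists_pc` : uniformly in all parameters (`ρ ≤ ρ'`, `|C - C'| ≤ 3 ρ'`, `|τ| ρ² ≤ T`) the product of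
the windows is a window of the frame of `C`; `kn_sliced`, `kn_unsliced` : bounds
`|Kn (x)| ≤ K kc (x + τ vel C)`.
-/

set_option autoImplicit false
set_option linter.unusedSectionVars false

open MeasureTheory FourierTransform
open scoped ContDiff ENNReal

namespace Crest.Agent.R116.F1c124

open Crest.Agent.R138.Wf448
open Crest.Agent.R138.Defs (E2 ee)
open Crest.Agent.R138.Wpk685 (win fat cen caps)
open Crest.Agent.R116.CWp480 Crest.Agent.R116.CDef480 Crest.Agent.R116.CWc480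
open Crest.Agent.R116.CWd480

/-! ### the kernel profile -/

/-- kernel profile of the plate of slope `C`. -/
noncomputable def kc (N : ℕ) (ρ κ : ℝ) (C : E2) (x : E3) : ℝ :=
  ρ ^ 2 * κ * ((1 + ‖pt (ρ • lat x) (κ * (x 2 + inner ℝ C (lat x)))‖) ^ N)⁻¹

theorem kc_nonneg (N : ℕ) {ρ κ : ℝ} (hκ : 0 ≤ κ) (C : E2) (x : E3) : 0 ≤ kc N ρ κ C x := by
  unfold kc; positivity

theorem adet_Pl {ρ κ : ℝ} (hρ : 0 < ρ) (hκ : 0 < κ) (C : E2) :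
    adet (Pl ρ κ hρ hκ C : E3 →L[ℝ] E3) = ρ ^ 2 * κ := by
  unfold adet
  have h1 : LinearMap.det ((Pl ρ κ hρ hκ C : E3 →L[ℝ] E3) : E3 →ₗ[ℝ] E3) = ρ ^ 2 * κ := by
    rw [← LinearMap.det_toMatrix (EuclideanSpace.basisFun (Fin 3) ℝ).toBasis, Matrix.det_fin_three]
    simp only [LinearMap.toMatrix_apply, OrthonormalBasis.coe_toBasis_repr_apply,
      OrthonormalBasis.coe_toBasis, EuclideanSpace.basisFun_apply, EuclideanSpace.basisFun_repr,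
      ContinuousLinearMap.coe_coe, ContinuousLinearEquiv.coe_coe, Pl_apply, pt_zero, pt_one, pt_two,
      PiLp.smul_apply, lat_zero, lat_one, inner2, smul_eq_mul]
    simp
    left
    ring
  rw [h1, abs_of_pos (by positivity)]

theorem kc_eq (N : ℕ) {ρ κ : ℝ} (hρ : 0 < ρ) (hκ : 0 < κ) (C : E2) (x : E3) :
    kc N ρ κ C x = adet (Pl ρ κ hρ hκ C : E3 →L[ℝ] E3) * ((1 + ‖Pl ρ κ hρ hκ C x‖) ^ N)⁻¹ := by
  rw [adet_Pl, Pl_apply]; rfl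

/-! ### the composite window -/

/-- parameters `((σ, μ), (t, (η0, κ)))`. -/
abbrev PP : Type := (ℝ × E2) × (ℝ × (ℝ × ℝ))

/-- the composite window. -/
noncomputable def cwE (J : ℝ → ℝ) (l : ℝ) (E : ℝ → ℂ) (p : PP) (z : E3) : ℂ :=
  win (p.1.2 + p.2.1 • (J (p.2.2.1 + p.2.2.2 * (l * z 2)) • (l • lat z))) *
    (wnE J l E fat p.2.2 z * trE J l (p.1.1, p.2.2) z)

theorem cw1_smooth {J : ℝ → ℝ} (hJ : ContDiff ℝ ∞ J) (l : ℝ) : ContDiff ℝ ∞ (fun x : PP × E3 =>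
    x.1.1.2 + x.1.2.1 • (J (x.1.2.2.1 + x.1.2.2.2 * (l * x.2 2)) • (l • lat x.2))) := by
  have hz : ContDiff ℝ ∞ (fun x : PP × E3 => x.2) := contDiff_snd
  have hp0 : ContDiff ℝ ∞ (fun x : PP × E3 => x.1) := contDiff_fst
  have hp1 : ContDiff ℝ ∞ (fun x : PP × E3 => x.1.2) := contDiff_snd.comp hp0
  have hp : ContDiff ℝ ∞ (fun x : PP × E3 => x.1.2.2) := contDiff_snd.comp hp1
  have hpa : ContDiff ℝ ∞ (fun x : PP × E3 => x.1.2.2.1) := contDiff_fst.comp hp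
  have hpb : ContDiff ℝ ∞ (fun x : PP × E3 => x.1.2.2.2) := contDiff_snd.comp hp
  have hq1 : ContDiff ℝ ∞ (fun x : PP × E3 => x.1.1) := contDiff_fst.comp hp0
  have hμ : ContDiff ℝ ∞ (fun x : PP × E3 => x.1.1.2) := contDiff_snd.comp hq1
  have ht : ContDiff ℝ ∞ (fun x : PP × E3 => x.1.2.1) := contDiff_fst.comp hp1
  have h2 : ContDiff ℝ ∞ (fun x : PP × E3 => l * x.2 2) :=
    contDiff_const.mul ((coord_smooth 2).comp hz)
  have h1 : ContDiff ℝ ∞ (fun x : PP × E3 => x.1.2.2.1 + x.1.2.2.2 * (l * x.2 2)) :=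
    hpa.add (hpb.mul h2)
  have h3 : ContDiff ℝ ∞ (fun x : PP × E3 => l • lat x.2) :=
    ContDiff.const_smul l (lat_smooth.comp hz)
  exact hμ.add (ht.smul ((hJ.comp h1).smul h3))

theorem cw2_smooth {J : ℝ → ℝ} (hJ : ContDiff ℝ ∞ J) (l : ℝ) {E : ℝ → ℂ} (hE : ContDiff ℝ ∞ E) :
    ContDiff ℝ ∞ (fun x : PP × E3 => wnE J l E fat x.1.2.2 x.2) := by
  unfold wnE
  have hz : ContDiff ℝ ∞ (fun x : PP × E3 => x.2) := contDiff_snd
  have hp0 : ContDiff ℝ ∞ (fun x : PP × E3 => x.1) := contDiff_fst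
  have hp1 : ContDiff ℝ ∞ (fun x : PP × E3 => x.1.2) := contDiff_snd.comp hp0
  have hp : ContDiff ℝ ∞ (fun x : PP × E3 => x.1.2.2) := contDiff_snd.comp hp1
  have hpa : ContDiff ℝ ∞ (fun x : PP × E3 => x.1.2.2.1) := contDiff_fst.comp hp
  have hpb : ContDiff ℝ ∞ (fun x : PP × E3 => x.1.2.2.2) := contDiff_snd.comp hp
  have h2 : ContDiff ℝ ∞ (fun x : PP × E3 => l * x.2 2) :=
    contDiff_const.mul ((coord_smooth 2).comp hz)
  have h1 : ContDiff ℝ ∞ (fun x : PP × E3 => x.1.2.2.1 + x.1.2.2.2 * (l * x.2 2)) :=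
    hpa.add (hpb.mul h2)
  have h3 : ContDiff ℝ ∞ (fun x : PP × E3 => l • lat x.2) :=
    ContDiff.const_smul l (lat_smooth.comp hz)
  exact (Crest.Agent.R138.Wpk685.fat_contDiff.comp ((hJ.comp h1).smul h3)).mul (hE.comp h2)

theorem cw3_smooth {J : ℝ → ℝ} (hJ : ContDiff ℝ ∞ J) (l : ℝ) :
    ContDiff ℝ ∞ (fun x : PP × E3 => trE J l (x.1.1.1, x.1.2.2) x.2) := by
  unfold trE
  have hz : ContDiff ℝ ∞ (fun x : PP × E3 => x.2) := contDiff_snd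
  have hp0 : ContDiff ℝ ∞ (fun x : PP × E3 => x.1) := contDiff_fst
  have hp1 : ContDiff ℝ ∞ (fun x : PP × E3 => x.1.2) := contDiff_snd.comp hp0
  have hp : ContDiff ℝ ∞ (fun x : PP × E3 => x.1.2.2) := contDiff_snd.comp hp1
  have hpa : ContDiff ℝ ∞ (fun x : PP × E3 => x.1.2.2.1) := contDiff_fst.comp hp
  have hpb : ContDiff ℝ ∞ (fun x : PP × E3 => x.1.2.2.2) := contDiff_snd.comp hp
  have hq1 : ContDiff ℝ ∞ (fun x : PP × E3 => x.1.1) := contDiff_fst.comp hp0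
  have h0 : ContDiff ℝ ∞ (fun x : PP × E3 => x.1.1.1) := contDiff_fst.comp hq1
  have h2 : ContDiff ℝ ∞ (fun x : PP × E3 => l * x.2 2) :=
    contDiff_const.mul ((coord_smooth 2).comp hz)
  have h1 : ContDiff ℝ ∞ (fun x : PP × E3 => x.1.2.2.1 + x.1.2.2.2 * (l * x.2 2)) :=
    hpa.add (hpb.mul h2)
  have h3 : ContDiff ℝ ∞ (fun x : PP × E3 => ‖l • lat x.2‖ ^ 2) :=
    (contDiff_norm_sq ℝ).comp (ContDiff.const_smul l (lat_smooth.comp hz))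
  exact (b57_smooth.comp hz).mul (contDiff_ee.comp (h0.mul
    ((h3.mul (hJ.comp h1)).div_const 2)))

theorem cw_smooth {J : ℝ → ℝ} (hJ : ContDiff ℝ ∞ J) (l : ℝ) {E : ℝ → ℂ} (hE : ContDiff ℝ ∞ E) :
    ContDiff ℝ ∞ (fun x : PP × E3 => cwE J l E x.1 x.2) := by
  unfold cwE
  exact (Crest.Agent.R138.Wpk685.win_contDiff.comp (cw1_smooth hJ l)).mul
    ((cw2_smooth hJ l hE).mul (cw3_smooth hJ l))

theorem cw_unif {a M : ℝ} {E : ℝ → ℂ} {P : Set (ℝ × ℝ)} (h : EW a M E P) {J : ℝ → ℝ}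
    (hJs : ContDiff ℝ ∞ J) (N : ℕ) (T : ℝ) :
    ∃ Q : ℝ, 0 ≤ Q ∧ ∀ σ : ℝ, |σ| ≤ T → ∀ μ : E2, ‖μ‖ ≤ 3 → ∀ t : ℝ, 0 ≤ t → t ≤ 1 →
      ∀ p ∈ P, Win N Q (cwE J (lam a M) E ((σ, μ), (t, p))) := by
  obtain ⟨Q, hQ, hw⟩ := unif_win
    (F := fun x : PP × E3 => cwE J (lam a M) E x.1 x.2) (cw_smooth hJs _ h.sm)
    (K := (Set.Icc (-T) T ×ˢ Metric.closedBall (0 : E2) 3) ×ˢ (Set.Icc (0:ℝ) 1 ×ˢ P))
    ((isCompact_Icc.prod (isCompact_closedBall _ _)).prod (isCompact_Icc.prod h.cp)) (by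
      intro p _ z hz
      show cwE J (lam a M) E p z = 0
      unfold cwE trE
      rw [b57_zero (by linarith), zero_mul, mul_zero, mul_zero]) N
  exact ⟨Q, hQ, fun σ hσ μ hμ t ht0 ht1 p hp => hw ((σ, μ), (t, p))
    ⟨⟨abs_le.1 hσ, by simpa using hμ⟩, ⟨⟨ht0, ht1⟩, hp⟩⟩⟩

/-- **the identity of the composite window**. -/
theorem cw_id {a M : ℝ} {E : ℝ → ℂ} {P : Set (ℝ × ℝ)} (h : EW a M E P) {J : ℝ → ℝ}
    (hJ : ∀ t, a⁻¹ ≤ t → t ≤ a → J t = t⁻¹) {p : ℝ × ℝ} (hp : p ∈ P) (hκ : 0 < p.2)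
    {ρ ρ' : ℝ} (hρ : 0 < ρ) (hρ' : 0 < ρ') (C C' : E2) (τ : ℝ) (ζ : E3) :
    Crest.Agent.R138.Wpk685.cap win C' ρ' (slp ζ) *
      (Crest.Agent.R138.Wpk685.cap fat C ρ (slp ζ) * E ((ζ 2 - p.1) / p.2)) * ee (τ * hc ζ) =
      CWp480.cap (cwE J (lam a M) E ((τ * ρ ^ 2, ρ'⁻¹ • (C - C')), (ρ / ρ', p))) (ctr p.1 C)
        (Fr (lam a M) ρ p.2 (lam_pos h.one h.M0) hρ hκ C) ζ * ee (inner ℝ (τ • vel C) ζ) := by
  have hl := lam_pos h.one h.M0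
  have hid := cap_wnE h hJ fat hp hl hρ hκ C ζ
  by_cases hne : Crest.Agent.R138.Wpk685.cap fat C ρ (slp ζ) * E ((ζ 2 - p.1) / p.2) = 0
  · have e2 : CWp480.cap (cwE J (lam a M) E ((τ * ρ ^ 2, ρ'⁻¹ • (C - C')), (ρ / ρ', p))) (ctr p.1 C)
        (Fr (lam a M) ρ p.2 hl hρ hκ C) ζ = 0 := by
      unfold CWp480.cap at hid ⊢
      unfold cwE
      simp only
      rw [hid, hne, zero_mul, mul_zero]
    rw [e2, hne, mul_zero, zero_mul, zero_mul]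
  · have hS := mem_Sd h fat_supp hp hρ hκ hne
    have hph := phase_Sd h.one h.M0 hJ hρ hκ hS τ
    have h7 : ζ 2 ≠ 0 := (lt_of_lt_of_le (inv_pos.2 (by linarith [h.one])) hS.1).ne'
    have e1 : p.1 + p.2 * ((ζ 2 - p.1) / p.2) = ζ 2 := by field_simp; ring
    have e0 : lam a M * ((ζ 2 - p.1) / (lam a M * p.2)) = (ζ 2 - p.1) / p.2 := by field_simp
    have e2 : lam a M • ((lam a M * ρ)⁻¹ • (lat ζ - ζ 2 • C)) = ρ⁻¹ • (lat ζ - ζ 2 • C) := by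
      rw [smul_smul]
      congr 1
      field_simp
    have e3 : CWp480.cap (cwE J (lam a M) E ((τ * ρ ^ 2, ρ'⁻¹ • (C - C')), (ρ / ρ', p))) (ctr p.1 C)
        (Fr (lam a M) ρ p.2 hl hρ hκ C) ζ =
        Crest.Agent.R138.Wpk685.cap win C' ρ' (slp ζ) *
          ((Crest.Agent.R138.Wpk685.cap fat C ρ (slp ζ) * E ((ζ 2 - p.1) / p.2)) *
          CWp480.cap (trE J (lam a M) (τ * ρ ^ 2, p.1, p.2)) (ctr p.1 C)
            (Fr (lam a M) ρ p.2 hl hρ hκ C) ζ) := by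
      rw [← hid]
      unfold CWp480.cap cwE
      simp only
      congr 1
      rw [symm_Fr, pt_two, lat_pt, e0, e2, e1, hJ _ hS.1 hS.2.1]
      unfold Crest.Agent.R138.Wpk685.cap
      congr 1
      rw [lat_sub_eq h7, smul_smul, smul_smul, smul_smul]
      have e4 : ρ / ρ' * (ζ 2)⁻¹ * ρ⁻¹ * ζ 2 = ρ'⁻¹ := by field_simp
      rw [e4, ← smul_add]
      congr 1
      abel
    rw [e3, hph]
    ring

/-- **composite packets**: window of the cap `(C', ρ')` times the fat window of the cap `(C, ρ)`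
times the transport `τ`. -/
structure Pc (N : ℕ) (Q ρ ρ' τ : ℝ) (e : E3 → ℂ) (C C' : E2) (B : E3 ≃L[ℝ] E3) (c : E3) : Prop where
  wn : ∃ a, Win N Q a ∧ ∀ ζ, Crest.Agent.R138.Wpk685.cap win C' ρ' (slp ζ) *
    (Crest.Agent.R138.Wpk685.cap fat C ρ (slp ζ) * e ζ) * ee (τ * hc ζ) =
      CWp480.cap a c B ζ * ee (inner ℝ (τ • vel C) ζ)

theorem exists_pc {a M : ℝ} {E : ℝ → ℂ} {P : Set (ℝ × ℝ)} (h : EW a M E P) (N : ℕ) (T : ℝ) :
    ∃ Q : ℝ, 0 < Q ∧ ∀ p ∈ P, ∀ (hκ : 0 < p.2) (ρ ρ' τ : ℝ) (hρ : 0 < ρ), ρ ≤ ρ' →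
      |τ| * ρ ^ 2 ≤ T → ∀ C C' : E2, ‖C - C'‖ ≤ 3 * ρ' →
      Pc N Q ρ ρ' τ (fun ζ => E ((ζ 2 - p.1) / p.2)) C C'
        (Fr (lam a M) ρ p.2 (lam_pos h.one h.M0) hρ hκ C) (ctr p.1 C) := by
  obtain ⟨J, hJs, hJ⟩ := exists_inv h.one
  obtain ⟨Q, hQ, hw⟩ := cw_unif h hJs N T
  refine ⟨Q + 1, by linarith, ?_⟩
  intro p hp hκ ρ ρ' τ hρ hρ' hτ C C' hC
  have hρ'0 : 0 < ρ' := lt_of_lt_of_le hρ hρ'
  refine ⟨cwE J (lam a M) E ((τ * ρ ^ 2, ρ'⁻¹ • (C - C')), (ρ / ρ', p)), ?_, ?_⟩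
  · refine (hw _ ?_ _ ?_ _ (by positivity) ?_ _ hp).mono le_rfl (by linarith)
    · rw [abs_mul, abs_of_nonneg (by positivity : (0:ℝ) ≤ ρ ^ 2)]
      exact hτ
    · rw [norm_smul, Real.norm_eq_abs, abs_of_pos (inv_pos.2 hρ'0), inv_mul_le_iff₀ hρ'0]
      linarith
    · rw [div_le_one hρ'0]; exact hρ'
  · intro ζ
    exact cw_id h hJ hp hκ hρ hρ'0 C C' τ ζ

/-! ### the kernel -/

/-- the kernel of the pair of caps. -/
noncomputable def Kn (e : E3 → ℂ) (ρ ρ' τ : ℝ) (C C' : E2) : E3 → ℂ :=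
  𝓕⁻ (fun ζ => Crest.Agent.R138.Wpk685.cap win C' ρ' (slp ζ) *
    (Crest.Agent.R138.Wpk685.cap fat C ρ (slp ζ) * e ζ) * ee (τ * hc ζ))

/-- modulation is translation. -/
theorem fourierInv_mod (f : E3 → ℂ) (v x : E3) :
    𝓕⁻ (fun ζ => f ζ * ee (inner ℝ v ζ)) x = 𝓕⁻ f (x + v) := by
  rw [fourierInv_eq_int, fourierInv_eq_int]
  congr 1
  ext ζ
  rw [inner_add_left, ee_add]
  ring

section Pc

variable {N : ℕ} {Q ρ ρ' τ : ℝ} {e : E3 → ℂ} {C C' : E2} {B : E3 ≃L[ℝ] E3} {c : E3}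

theorem Pc.kn (h : Pc N Q ρ ρ' τ e C C' B c) : ∃ a, Win N Q a ∧
    (∀ x, Kn e ρ ρ' τ C C' x = 𝓕⁻ (CWp480.cap a c B) (x + τ • vel C)) ∧
    ∀ ζ, Crest.Agent.R138.Wpk685.cap win C' ρ' (slp ζ) *
      (Crest.Agent.R138.Wpk685.cap fat C ρ (slp ζ) * e ζ) * ee (τ * hc ζ) =
      CWp480.cap a c B ζ * ee (inner ℝ (τ • vel C) ζ) := by
  obtain ⟨a, ha, hid⟩ := h.wn
  refine ⟨a, ha, fun x => ?_, hid⟩
  unfold Kn
  have e1 : (fun ζ => Crest.Agent.R138.Wpk685.cap win C' ρ' (slp ζ) *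
      (Crest.Agent.R138.Wpk685.cap fat C ρ (slp ζ) * e ζ) * ee (τ * hc ζ)) =
      fun ζ => CWp480.cap a c B ζ * ee (inner ℝ (τ • vel C) ζ) := funext hid
  rw [e1, fourierInv_mod]


/-- the composite window is integrable against bounded functions. -/
theorem Pc.int_bdd (h : Pc N Q ρ ρ' τ e C C' B c) {F : E3 → ℂ} (hF : AEStronglyMeasurable F)
    {K : ℝ} (hb : ∀ ζ, ‖F ζ‖ ≤ K) :
    Integrable (fun ζ => Crest.Agent.R138.Wpk685.cap win C' ρ' (slp ζ) *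
      (Crest.Agent.R138.Wpk685.cap fat C ρ (slp ζ) * e ζ) * ee (τ * hc ζ) * F ζ) := by
  obtain ⟨a, ha, _, hid⟩ := h.kn
  have h3 : Integrable (fun ζ => CWp480.cap a c B ζ * (ee (inner ℝ (τ • vel C) ζ) * F ζ)) := by
    refine (cap_int ha c B).mul_bdd (c := K) ((mod_cont _).aestronglyMeasurable.mul hF) ?_
    refine Filter.Eventually.of_forall fun ζ => ?_
    rw [norm_mul, Crest.Agent.R138.Wpk685.norm_ee, one_mul]
    exact hb ζ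
  refine h3.congr (Filter.Eventually.of_forall fun ζ => ?_)
  simp only
  rw [hid ζ]
  ring

theorem Pc.int_mul (h : Pc N Q ρ ρ' τ e C C' B c) {F : E3 → ℂ} (hF : Integrable F) (x : E3) :
    ∫ ζ, Crest.Agent.R138.Wpk685.cap win C' ρ' (slp ζ) *
      (Crest.Agent.R138.Wpk685.cap fat C ρ (slp ζ) * e ζ) * ee (τ * hc ζ) * F ζ *
        ee (inner ℝ x ζ) = ∫ y, 𝓕⁻ F y * Kn e ρ ρ' τ C C' (x - y) := by
  obtain ⟨a, ha, hk, hid⟩ := h.kn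
  have h3 := rep_mul (contDiff_cap ha.smooth c B).continuous (cap_int ha c B) (Kf_int ha c B)
    (Kf_int' ha c B) hF (x + τ • vel C)
  have e1 : ∀ y, Kn e ρ ρ' τ C C' (x - y) = 𝓕⁻ (CWp480.cap a c B) (x + τ • vel C - y) := by
    intro y
    rw [hk, show x - y + τ • vel C = x + τ • vel C - y by abel]
  simp only [e1]
  rw [← h3, fourierInv_eq_int]
  congr 1
  ext ζ
  rw [hid ζ, inner_add_left, ee_add]
  ring

theorem Pc.int_ind (h : Pc N Q ρ ρ' τ e C C' B c) {v : E3 → ℂ} (hv : Integrable v) (x : E3) :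
    ∫ ζ, Crest.Agent.R138.Wpk685.cap win C' ρ' (slp ζ) *
      (Crest.Agent.R138.Wpk685.cap fat C ρ (slp ζ) * e ζ) * ee (τ * hc ζ) * 𝓕 v ζ *
        ee (inner ℝ x ζ) = ∫ y, v y * Kn e ρ ρ' τ C C' (x - y) := by
  obtain ⟨a, ha, hk, hid⟩ := h.kn
  have h3 := rep_ind (cap_int ha c B) hv (x + τ • vel C)
  have e1 : ∀ y, Kn e ρ ρ' τ C C' (x - y) = 𝓕⁻ (CWp480.cap a c B) (x + τ • vel C - y) := by
    intro y
    rw [hk, show x - y + τ • vel C = x + τ • vel C - y by abel]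
  simp only [e1]
  rw [← h3, fourierInv_eq_int]
  congr 1
  ext ζ
  rw [hid ζ, inner_add_left, ee_add]
  ring

end Pc

/-! ### bounds of the kernel -/

theorem Kn_bound {a M : ℝ} {E : ℝ → ℂ} {P : Set (ℝ × ℝ)} (h : EW a M E P) (N : ℕ) (T : ℝ) :
    ∃ K : ℝ, 0 ≤ K ∧ ∀ p ∈ P, 0 < p.2 → ∀ (ρ ρ' τ : ℝ), 0 < ρ → ρ ≤ ρ' → |τ| * ρ ^ 2 ≤ T →
      ∀ C C' : E2, ‖C - C'‖ ≤ 3 * ρ' → ∀ x,
      ‖Kn (fun ζ => E ((ζ 2 - p.1) / p.2)) ρ ρ' τ C C' x‖ ≤ K * kc N ρ p.2 C (x + τ • vel C) := by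
  obtain ⟨Q, hQ, hp⟩ := exists_pc h N T
  obtain ⟨c, hc, hk⟩ := Kf_bound E3 N
  have hl := lam_pos h.one h.M0
  refine ⟨c * Q * lam a M ^ 3, by positivity, ?_⟩
  intro p hpP hκ ρ ρ' τ hρ hρ' hτ C C' hC x
  obtain ⟨b, hb, hkn, _⟩ := (hp p hpP hκ ρ ρ' τ hρ hρ' hτ C C' hC).kn
  rw [hkn]
  refine (hk Q b hb _ _ _).trans ?_
  have h1 : adet (Fr (lam a M) ρ p.2 hl hρ hκ C : E3 →L[ℝ] E3) = lam a M ^ 3 * (ρ ^ 2 * p.2) := by
    unfold Fr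
    rw [adet_Pl]
    ring
  have h2 : 1 ≤ lam a M := by unfold lam; linarith [h.one, h.M0]
  have h3 : ‖Pl ρ p.2 hρ hκ C (x + τ • vel C)‖ ≤
      ‖Fr (lam a M) ρ p.2 hl hρ hκ C (x + τ • vel C)‖ := by
    rw [norm_Fr]
    exact le_mul_of_one_le_left (norm_nonneg _) h2
  rw [h1, kc_eq N hρ hκ, adet_Pl]
  calc c * Q * (lam a M ^ 3 * (ρ ^ 2 * p.2)) *
        ((1 + ‖Fr (lam a M) ρ p.2 hl hρ hκ C (x + τ • vel C)‖) ^ N)⁻¹
      ≤ c * Q * (lam a M ^ 3 * (ρ ^ 2 * p.2)) *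
        ((1 + ‖Pl ρ p.2 hρ hκ C (x + τ • vel C)‖) ^ N)⁻¹ := by gcongr
    _ = _ := by ring

/-! ### the two instances -/

theorem kn_sliced {a : ℝ} (ha : 1 ≤ a) (N : ℕ) (T : ℝ) :
    ∃ Q K : ℝ, 0 ≤ K ∧ ∀ (η0 κ : ℝ), a⁻¹ ≤ η0 → η0 ≤ a → ∀ (hκ : 0 < κ), κ ≤ (4 * a)⁻¹ →
      ∀ (ρ ρ' τ : ℝ) (hρ : 0 < ρ), ρ ≤ ρ' → |τ| * ρ ^ 2 ≤ T → ∀ C C' : E2, ‖C - C'‖ ≤ 3 * ρ' →
      Pc N Q ρ ρ' τ (etw η0 κ) C C'
        (Fr (lam (2 * a) 2) ρ κ (lam_pos (by linarith) (by norm_num)) hρ hκ C) (ctr η0 C) ∧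
      ∀ x, ‖Kn (etw η0 κ) ρ ρ' τ C C' x‖ ≤ K * kc N ρ κ C (x + τ • vel C) := by
  obtain ⟨K, hK, hb⟩ := Kn_bound (ew_sliced ha) N T
  obtain ⟨Q, hQ, hp⟩ := exists_pc (ew_sliced ha) N T
  refine ⟨Q, K, hK, ?_⟩
  intro η0 κ h1 h2 hκ h3 ρ ρ' τ hρ hρ' hτ C C' hC
  exact ⟨hp (η0, κ) ⟨⟨h1, h2⟩, hκ.le, h3⟩ hκ ρ ρ' τ hρ hρ' hτ C C' hC,
    hb (η0, κ) ⟨⟨h1, h2⟩, hκ.le, h3⟩ hκ ρ ρ' τ hρ hρ' hτ C C' hC⟩


end Crest.Agent.R116.F1c124
end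

-- ▼ part R116/F1c2_124

/-!
# R116 (S0155): (F1) in `l^1` form for the cone packets, part 2 (helper124)

* `f1_root_eq` / `f1_root` : packets of level `ρ' ≥ ρ` in the frame `z` from the packets of level
  `ρ` at time `0` (sliced `g`), `f1_root_u` (unsliced `g`, `κ = 1`).
* `f1_sel_eq` / `f1_sel` : the same for a selected wave `selc η0 κ ρ g S` (only the selection on the
  right hand side).
-/

set_option autoImplicit false
set_option linter.unusedSectionVars false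

open MeasureTheory FourierTransform
open scoped ContDiff ENNReal

namespace Crest.Agent.R116.F1c124

open Crest.Agent.R138.Wf448
open Crest.Agent.R138.Defs (E2 ee)
open Crest.Agent.R138.Wpk685 (win fat cen caps)
open Crest.Agent.R138.Loc878 (Near nearL mem_nearL capwin_prod)
open Crest.Agent.R116.CWp480 Crest.Agent.R116.CDef480 Crest.Agent.R116.CWc480
open Crest.Agent.R116.CWd480

/-! ### qualitative facts -/

theorem measurable_capc {b : E2 → ℂ} (hb : Continuous b) (C : E2) (ρ : ℝ) :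
    Measurable (fun ζ : E3 => Crest.Agent.R138.Wpk685.cap b C ρ (slp ζ)) := by
  unfold Crest.Agent.R138.Wpk685.cap
  exact hb.measurable.comp ((measurable_slp.sub_const C).const_smul ρ⁻¹)

theorem norm_cap_win_le (C : E2) (ρ : ℝ) (ξ : E2) :
    ‖Crest.Agent.R138.Wpk685.cap win C ρ ξ‖ ≤ 1 := Crest.Agent.R138.Wpk685.norm_win_le _

theorem capc_mul_int {g : E3 → ℂ} (hg : Integrable g) (ρ : ℝ) (m : ℤ × ℤ) :
    Integrable (fun ζ => capc ρ m ζ * g ζ) :=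
  hg.bdd_mul (c := 1) (measurable_capc Crest.Agent.R138.Wpk685.win_contDiff.continuous
    (cen ρ m) ρ).aestronglyMeasurable
    (Filter.Eventually.of_forall fun _ => norm_cap_win_le _ _ _)

theorem trc_int {g : E3 → ℂ} (hg : Integrable g) (z : E3 × ℝ) : Integrable (trc z g) := by
  unfold trc
  refine hg.mul_bdd (c := 1) ?_ (Filter.Eventually.of_forall fun _ =>
    (Crest.Agent.R138.Wpk685.norm_ee _).le)
  exact (continuous_ee'.measurable.comp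
    ((continuous_const.inner continuous_id).measurable.add
      (measurable_hc.const_mul z.2))).aestronglyMeasurable

theorem umc_cont {g : E3 → ℂ} (hg : Integrable g) (ρ : ℝ) (m : ℤ × ℤ) :
    Continuous (umc ρ g m) := fourierInv_continuous (capc_mul_int hg ρ m)

theorem umc_norm_le {g : E3 → ℂ} (ρ : ℝ) (m : ℤ × ℤ) (y : E3) :
    ‖umc ρ g m y‖ ≤ ∫ ζ, ‖capc ρ m ζ * g ζ‖ := by
  unfold umc
  rw [fourierInv_eq_int]
  refine (norm_integral_le_integral_norm _).trans (le_of_eq ?_)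
  congr 1
  ext ζ
  rw [norm_mul, Crest.Agent.R138.Wpk685.norm_ee, mul_one]

/-- the indicator of a bounded measurable set times a packet is integrable. -/
theorem ind_int {g : E3 → ℂ} (hg : Integrable g) (ρ : ℝ) (m : ℤ × ℤ) {S : Set E3}
    (hS : MeasurableSet S) (hb : Bornology.IsBounded S) :
    Integrable (S.indicator (umc ρ g m)) := by
  rw [integrable_indicator_iff hS]
  exact IntegrableOn.of_bound hb.measure_lt_top (umc_cont hg ρ m).aestronglyMeasurable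
    (∫ ζ, ‖capc ρ m ζ * g ζ‖) (Filter.Eventually.of_forall fun y => umc_norm_le ρ m y)

theorem capfat_supp {ρ : ℝ} (hρ : 0 < ρ) (C : E2) (ξ : E2)
    (h : Crest.Agent.R138.Wpk685.cap fat C ρ ξ ≠ 0) : ‖ξ - C‖ ≤ 3/2 * ρ := by
  by_contra hc
  push Not at hc
  apply h
  unfold Crest.Agent.R138.Wpk685.cap
  apply Crest.Agent.R138.Wpk685.fat_zero
  rw [norm_smul, Real.norm_eq_abs, abs_of_pos (inv_pos.2 hρ), le_inv_mul_iff₀ hρ]
  linarith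

theorem capfat_one {ρ : ℝ} (hρ : 0 < ρ) (C : E2) (ξ : E2)
    (h : ‖ξ - C‖ ≤ 71/50 * ρ) : Crest.Agent.R138.Wpk685.cap fat C ρ ξ = 1 := by
  unfold Crest.Agent.R138.Wpk685.cap
  apply Crest.Agent.R138.Wpk685.fat_one
  rw [norm_smul, Real.norm_eq_abs, abs_of_pos (inv_pos.2 hρ), inv_mul_le_iff₀ hρ]
  linarith

theorem capwin_fat_far {ρ ρ' : ℝ} (hρ : 0 < ρ) (hρ' : ρ ≤ ρ') {m m' : ℤ × ℤ}
    (hm : ¬ Near ρ ρ' m' m) (ξ : E2) : Crest.Agent.R138.Wpk685.cap win (cen ρ' m') ρ' ξ *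
      Crest.Agent.R138.Wpk685.cap fat (cen ρ m) ρ ξ = 0 := by
  by_contra hne
  have h1 := capfat_supp hρ _ ξ (right_ne_zero_of_mul hne)
  have h2 := Crest.Agent.R138.Wpk685.capwin_supp (lt_of_lt_of_le hρ hρ') m' ξ
    (left_ne_zero_of_mul hne)
  apply hm
  unfold Near
  have h3 : ‖cen ρ m - cen ρ' m'‖ ≤ ‖ξ - cen ρ m‖ + ‖ξ - cen ρ' m'‖ := by
    have : cen ρ m - cen ρ' m' = -(ξ - cen ρ m) + (ξ - cen ρ' m') := by abel
    rw [this]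
    exact (norm_add_le _ _).trans (by rw [norm_neg])
  have h4 : 0 < ρ' := lt_of_lt_of_le hρ hρ'
  linarith

/-! ### exact formulas -/

/-- **(F1), root form**: exact formula. The scalar window `e` is one on the support of `g`. -/
theorem f1_root_eq {N : ℕ} {Q ρ ρ' : ℝ} (hρ : 0 < ρ) (hρ' : ρ ≤ ρ') {e : E3 → ℂ}
    {z : E3 × ℝ} {m' : ℤ × ℤ} {B : ℤ × ℤ → E3 ≃L[ℝ] E3} {c : ℤ × ℤ → E3}
    (hP : ∀ m ∈ nearL ρ ρ' m', Pc N Q ρ ρ' z.2 e (cen ρ m) (cen ρ' m') (B m) (c m))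
    {g : E3 → ℂ} (hg : Integrable g) (hs : ∀ ζ, g ζ ≠ 0 → e ζ = 1 ∧ ‖slp ζ‖ ≤ 2) (X : E3) :
    umc ρ' (trc z g) m' X = ∑ m ∈ nearL ρ ρ' m', ∫ y, umc ρ g m y *
      Kn e ρ ρ' z.2 (cen ρ m) (cen ρ' m') (X + z.1 - y) := by
  classical
  have hρ'0 : 0 < ρ' := lt_of_lt_of_le hρ hρ'
  have hterm : ∀ m ∈ nearL ρ ρ' m', ∫ y, umc ρ g m y *
      Kn e ρ ρ' z.2 (cen ρ m) (cen ρ' m') (X + z.1 - y) =
      ∫ ζ, capc ρ m ζ * ((capc ρ' m' ζ * trc z g ζ) * ee (inner ℝ X ζ)) := by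
    intro m hm
    have h1 := (hP m hm).int_mul (capc_mul_int hg ρ m) (X + z.1)
    refine h1.symm.trans ?_
    congr 1
    ext ζ
    by_cases hne : capc ρ m ζ * g ζ = 0
    · have e1 : capc ρ m ζ * ((capc ρ' m' ζ * trc z g ζ) * ee (inner ℝ X ζ)) =
          (capc ρ m ζ * g ζ) * (capc ρ' m' ζ * ee (inner ℝ z.1 ζ + z.2 * hc ζ) *
            ee (inner ℝ X ζ)) := by unfold trc; ring
      rw [e1, hne, mul_zero, zero_mul, zero_mul]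
    · have h3 : capc ρ m ζ ≠ 0 := left_ne_zero_of_mul hne
      have h4 := hs ζ (right_ne_zero_of_mul hne)
      have h5 : Crest.Agent.R138.Wpk685.cap fat (cen ρ m) ρ (slp ζ) = 1 :=
        capfat_one hρ _ _ (Crest.Agent.R138.Wpk685.capwin_supp hρ m _ h3)
      rw [h5, h4.1, inner_add_left, ee_add]
      unfold trc capc
      rw [ee_add]
      ring
  rw [Finset.sum_congr rfl hterm]
  have hi : Integrable (fun ζ => (capc ρ' m' ζ * trc z g ζ) * ee (inner ℝ X ζ)) :=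
    mod_integrable (capc_mul_int (trc_int hg z) ρ' m') X
  rw [← integral_finsetSum _ (fun m _ => capc_mul_int hi ρ m)]
  unfold umc
  rw [fourierInv_eq_int]
  congr 1
  ext ζ
  rw [← Finset.sum_mul]
  by_cases h0 : capc ρ' m' ζ * trc z g ζ = 0
  · rw [h0, zero_mul, mul_zero]
  · have h3 : g ζ ≠ 0 := by
      intro hc
      apply h0
      unfold trc
      rw [hc, zero_mul, mul_zero]
    have h4 := (hs ζ h3).2
    have h5 : ∑ m ∈ nearL ρ ρ' m', capc ρ m ζ = 1 := by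
      rw [← Crest.Agent.R138.Wpk685.cap_win_sum hρ h4]
      unfold nearL
      rw [Finset.sum_filter_of_ne]
      · rfl
      intro m _ hne
      by_contra hc
      have h6 := capwin_prod hρ hρ' hc (slp ζ)
      rcases mul_eq_zero.1 h6 with h7 | h7
      · exact hne h7
      · exact (left_ne_zero_of_mul h0) h7
    rw [h5, one_mul]

/-- **(F1), selected form**: exact formula. -/
theorem f1_sel_eq {N : ℕ} {Q ρ ρ' κ η0 : ℝ} (hρ : 0 < ρ) (hρ' : ρ ≤ ρ')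
    {z : E3 × ℝ} {m' : ℤ × ℤ} {B : ℤ × ℤ → E3 ≃L[ℝ] E3} {c : ℤ × ℤ → E3}
    (hP : ∀ m ∈ nearL ρ ρ' m', Pc N Q ρ ρ' z.2 (etw η0 κ) (cen ρ m) (cen ρ' m') (B m) (c m))
    {g : E3 → ℂ} {S : ℤ × ℤ → Set E3}
    (hS : ∀ m ∈ caps ρ, Integrable ((S m).indicator (umc ρ g m))) (X : E3) :
    umc ρ' (trc z (selc η0 κ ρ g S)) m' X = ∑ m ∈ nearL ρ ρ' m',
      ∫ y, (S m).indicator (umc ρ g m) y *
        Kn (etw η0 κ) ρ ρ' z.2 (cen ρ m) (cen ρ' m') (X + z.1 - y) := by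
  classical
  have hρ'0 : 0 < ρ' := lt_of_lt_of_le hρ hρ'
  have hsc : ∀ m ∈ nearL ρ ρ' m', m ∈ caps ρ := fun m hm => (mem_nearL.1 hm).1
  have hterm : ∀ m ∈ nearL ρ ρ' m', ∫ y, (S m).indicator (umc ρ g m) y *
      Kn (etw η0 κ) ρ ρ' z.2 (cen ρ m) (cen ρ' m') (X + z.1 - y) =
      ∫ ζ, Crest.Agent.R138.Wpk685.cap win (cen ρ' m') ρ' (slp ζ) *
      (Crest.Agent.R138.Wpk685.cap fat (cen ρ m) ρ (slp ζ) * etw η0 κ ζ) * ee (z.2 * hc ζ) *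
        𝓕 ((S m).indicator (umc ρ g m)) ζ * ee (inner ℝ (X + z.1) ζ) := fun m hm =>
    ((hP m hm).int_ind (hS m (hsc m hm)) (X + z.1)).symm
  have hint : ∀ m ∈ nearL ρ ρ' m', Integrable (fun ζ =>
      Crest.Agent.R138.Wpk685.cap win (cen ρ' m') ρ' (slp ζ) *
      (Crest.Agent.R138.Wpk685.cap fat (cen ρ m) ρ (slp ζ) * etw η0 κ ζ) * ee (z.2 * hc ζ) *
        𝓕 ((S m).indicator (umc ρ g m)) ζ * ee (inner ℝ (X + z.1) ζ)) := by
    intro m hm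
    refine mod_integrable ((hP m hm).int_bdd (K := ∫ y, ‖(S m).indicator (umc ρ g m) y‖) ?_ ?_) _
    · exact (VectorFourier.fourierIntegral_continuous Real.continuous_fourierChar
        (by exact continuous_inner) (hS m (hsc m hm))).aestronglyMeasurable
    · intro ζ
      exact VectorFourier.norm_fourierIntegral_le_integral_norm _ _ _ _ _
  rw [Finset.sum_congr rfl hterm, ← integral_finsetSum _ hint]
  change 𝓕⁻ (fun ζ => capc ρ' m' ζ * trc z (selc η0 κ ρ g S) ζ) X = _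
  rw [fourierInv_eq_int]
  congr 1
  ext ζ
  have e1 : trc z (selc η0 κ ρ g S) ζ = ∑ m ∈ caps ρ,
      fatc ρ m ζ * etw η0 κ ζ * 𝓕 ((S m).indicator (umc ρ g m)) ζ *
        ee (inner ℝ z.1 ζ + z.2 * hc ζ) := by
    unfold trc selc piecec
    rw [Finset.sum_mul]
  rw [e1, Finset.mul_sum, Finset.sum_mul]
  unfold nearL
  rw [Finset.sum_filter_of_ne]
  · refine Finset.sum_congr rfl fun m _ => ?_
    have e2 : ee (inner ℝ (X + z.1) ζ) * ee (z.2 * hc ζ) =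
        ee (inner ℝ X ζ) * ee (inner ℝ z.1 ζ + z.2 * hc ζ) := by
      rw [inner_add_left, ee_add, ee_add, mul_assoc]
    have e3 : capc ρ' m' ζ = Crest.Agent.R138.Wpk685.cap win (cen ρ' m') ρ' (slp ζ) := rfl
    have e4 : fatc ρ m ζ = Crest.Agent.R138.Wpk685.cap fat (cen ρ m) ρ (slp ζ) := rfl
    rw [e3, e4]
    calc _ = Crest.Agent.R138.Wpk685.cap win (cen ρ' m') ρ' (slp ζ) *
          (Crest.Agent.R138.Wpk685.cap fat (cen ρ m) ρ (slp ζ) * etw η0 κ ζ) *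
          𝓕 ((S m).indicator (umc ρ g m)) ζ *
          (ee (inner ℝ X ζ) * ee (inner ℝ z.1 ζ + z.2 * hc ζ)) := by ring
      _ = _ := by rw [← e2]; ring
  · intro m _ hne
    by_contra hc
    have h6 := capwin_fat_far hρ hρ' hc (slp ζ)
    apply hne
    rw [← mul_assoc (Crest.Agent.R138.Wpk685.cap win (cen ρ' m') ρ' (slp ζ)), h6]
    ring

/-! ### the `l¹` bounds -/

/-- enorm bound of an integral against the kernel. -/
theorem enorm_conv_le {K : ℝ} {v k : E3 → ℂ} {b : E3 → ℝ} (hb : ∀ x, ‖k x‖ ≤ K * b x)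
    (hK : 0 ≤ K) (X : E3) :
    ‖∫ y, v y * k (X - y)‖ₑ ≤
      ENNReal.ofReal K * ∫⁻ y, ENNReal.ofReal (b (X - y)) * ‖v y‖ₑ := by
  refine (enorm_integral_le_lintegral_enorm _).trans ?_
  rw [← lintegral_const_mul' _ _ ENNReal.ofReal_ne_top]
  refine lintegral_mono fun y => ?_
  rw [enorm_mul, ← mul_assoc, ← ENNReal.ofReal_mul hK, mul_comm]
  refine mul_le_mul_left ?_ _
  rw [← ofReal_norm]
  exact ENNReal.ofReal_le_ofReal (hb _)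

theorem enorm_sum_conv {ι : Type*} (s : Finset ι) {K : ℝ} (hK : 0 ≤ K) {v k : ι → E3 → ℂ}
    {b : ι → E3 → ℝ} (hb : ∀ m ∈ s, ∀ x, ‖k m x‖ ≤ K * b m x) (X : E3) :
    ‖∑ m ∈ s, ∫ y, v m y * k m (X - y)‖ₑ ≤ ENNReal.ofReal K *
      ∑ m ∈ s, ∫⁻ y, ENNReal.ofReal (b m (X - y)) * ‖v m y‖ₑ := by
  refine (enorm_sum_le _ _).trans ?_
  rw [Finset.mul_sum]
  exact Finset.sum_le_sum fun m hm => enorm_conv_le (hb m hm) hK X

/-- **(F1-l1), root form**, sliced functions. -/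
theorem f1_root {a : ℝ} (ha : 1 ≤ a) (N : ℕ) (T : ℝ) : ∃ K : ℝ, 0 ≤ K ∧
    ∀ (ρ ρ' κ η0 : ℝ), 0 < ρ → ρ ≤ ρ' → 0 < κ → κ ≤ (4 * a)⁻¹ → a⁻¹ ≤ η0 → η0 ≤ a →
    ∀ g : E3 → ℂ, Integrable g → (∀ ζ, g ζ ≠ 0 → |ζ 2 - η0| ≤ 3/2 * κ ∧ ‖slp ζ‖ ≤ 2) →
    ∀ z : E3 × ℝ, |z.2| * ρ ^ 2 ≤ T → ∀ (m' : ℤ × ℤ) (X : E3),
    ‖umc ρ' (trc z g) m' X‖ₑ ≤ ENNReal.ofReal K * ∑ m ∈ nearL ρ ρ' m', ∫⁻ y,
      ENNReal.ofReal (kc N ρ κ (cen ρ m) (X + z.1 + z.2 • vel (cen ρ m) - y)) *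
        ‖umc ρ g m y‖ₑ := by
  obtain ⟨Q, K, hK, hb⟩ := kn_sliced ha N T
  refine ⟨K, hK, ?_⟩
  intro ρ ρ' κ η0 hρ hρ' hκ hκ2 h1 h2 g hg hs z hz m' X
  have hb' := fun m (hm : m ∈ nearL ρ ρ' m') =>
    hb η0 κ h1 h2 hκ hκ2 ρ ρ' z.2 hρ hρ' hz (cen ρ m) (cen ρ' m') (mem_nearL.1 hm).2.le
  rw [f1_root_eq hρ hρ' (fun m hm => (hb' m hm).1) hg (fun ζ hζ => ⟨?_, (hs ζ hζ).2⟩) X]
  · refine (enorm_sum_conv _ hK (b := fun m x => kc N ρ κ (cen ρ m) (x + z.2 • vel (cen ρ m)))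
      (fun m hm x => (hb' m hm).2 x) (X + z.1)).trans (le_of_eq ?_)
    congr 1
    refine Finset.sum_congr rfl fun m _ => ?_
    refine lintegral_congr fun y => ?_
    rw [show X + z.1 - y + z.2 • vel (cen ρ m) = X + z.1 + z.2 • vel (cen ρ m) - y by abel]
  · rw [etw_eq]
    apply bt_one
    rw [abs_div, abs_of_pos hκ, div_le_iff₀ hκ]
    exact (hs ζ hζ).1


/-- **(F1-l1), selected form**. -/
theorem f1_sel {a : ℝ} (ha : 1 ≤ a) (N : ℕ) (T : ℝ) : ∃ K : ℝ, 0 ≤ K ∧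
    ∀ (ρ ρ' κ η0 : ℝ), 0 < ρ → ρ ≤ ρ' → 0 < κ → κ ≤ (4 * a)⁻¹ → a⁻¹ ≤ η0 → η0 ≤ a →
    ∀ (g : E3 → ℂ) (S : ℤ × ℤ → Set E3), Integrable g → (∀ m ∈ caps ρ, MeasurableSet (S m)) →
    (∀ m ∈ caps ρ, Bornology.IsBounded (S m)) →
    ∀ z : E3 × ℝ, |z.2| * ρ ^ 2 ≤ T → ∀ (m' : ℤ × ℤ) (X : E3),
    ‖umc ρ' (trc z (selc η0 κ ρ g S)) m' X‖ₑ ≤ ENNReal.ofReal K *
      ∑ m ∈ nearL ρ ρ' m', ∫⁻ y in S m,
        ENNReal.ofReal (kc N ρ κ (cen ρ m) (X + z.1 + z.2 • vel (cen ρ m) - y)) *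
          ‖umc ρ g m y‖ₑ := by
  obtain ⟨Q, K, hK, hb⟩ := kn_sliced ha N T
  refine ⟨K, hK, ?_⟩
  intro ρ ρ' κ η0 hρ hρ' hκ hκ2 h1 h2 g S hg hS hSb z hz m' X
  have hb' := fun m (hm : m ∈ nearL ρ ρ' m') =>
    hb η0 κ h1 h2 hκ hκ2 ρ ρ' z.2 hρ hρ' hz (cen ρ m) (cen ρ' m') (mem_nearL.1 hm).2.le
  rw [f1_sel_eq hρ hρ' (fun m hm => (hb' m hm).1)
    (fun m hm => ind_int hg ρ m (hS m hm) (hSb m hm)) X]
  refine (enorm_sum_conv _ hK (b := fun m x => kc N ρ κ (cen ρ m) (x + z.2 • vel (cen ρ m)))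
      (fun m hm x => (hb' m hm).2 x) (X + z.1)).trans (le_of_eq ?_)
  congr 1
  refine Finset.sum_congr rfl fun m hm => ?_
  rw [← lintegral_indicator (hS m (mem_nearL.1 hm).1)]
  refine lintegral_congr fun y => ?_
  rw [show X + z.1 - y + z.2 • vel (cen ρ m) = X + z.1 + z.2 • vel (cen ρ m) - y by abel]
  by_cases hy : y ∈ S m
  · rw [Set.indicator_of_mem hy, Set.indicator_of_mem hy]
  · rw [Set.indicator_of_notMem hy, Set.indicator_of_notMem hy]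
    simp

end Crest.Agent.R116.F1c124
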