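import Crest.Agent.R116.WDefC_188
import Crest.Agent.R116.DeG1_295
import Crest.Agent.R116.F1c2_124
import Crest.Agent.R116.CWd2_480
import Crest.Agent.R138.Loc1_878
import Crest.Agent.R116.Ba2_449
import Crest.Agent.R116.Bas1_367
import Crest.Agent.R116.Cov2_369
import Crest.Agent.R116.Sup0_858

-- ▼ part R116/Ba3_449
section

/-!
# R116 (S0155), wave side, TRIV2, part 1: extension of a member from the level `r` to the level `R`
(helper449)

A member of level `r` in the frame `z` (same aperture, same slab) is a member of level `R` of the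
main frame with the class constant `3 (R/r) M`, and its phase points go (transport along the ray,
error of one packet dilated by `lam`) to the member dilated by `25 M A² lam²`.
-/

set_option autoImplicit false

open MeasureTheory

namespace Crest.Agent.R116.Ba449

open Crest.Agent.R138.Defs (E2)
open Crest.Agent.R138.Wpk685 (cen caps)
open Crest.Agent.R116.CDef480
open Crest.Agent.R116.LZg725 (Cf)
open Crest.Agent.R116.WC188
open Crest.Agent.R116.De295 (FF SF)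

/-! ### the thin side -/

theorem sq_le_TT (κ s R : ℝ) : s ^ 2 ≤ TT κ s R := le_max_left _ _

theorem inv_le_TT (κ s R : ℝ) : (κ * R)⁻¹ ≤ TT κ s R := le_max_right _ _

theorem inv_le_TT_mul {κ s R : ℝ} (hR : 0 < R) : κ⁻¹ ≤ TT κ s R * R := by
  have h := mul_le_mul_of_nonneg_right (inv_le_TT κ s R) hR.le
  rwa [mul_inv, mul_assoc, inv_mul_cancel₀ hR.ne', mul_one] at h

theorem TT_anti {κ s r R : ℝ} (hκ : 0 < κ) (hr : 0 < r) (h : r ≤ R) : TT κ s R ≤ TT κ s r := by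
  unfold TT
  refine max_le_max le_rfl ?_
  exact inv_anti₀ (by positivity) (by gcongr)

theorem TT_mul_mono {κ s r R : ℝ} (hκ : 0 < κ) (hr : 0 < r) (h : r ≤ R) :
    TT κ s r * r ≤ TT κ s R * R := by
  have hR : 0 < R := hr.trans_le h
  have e : ∀ x : ℝ, 0 < x → TT κ s x * x = max (s ^ 2 * x) κ⁻¹ := by
    intro x hx
    unfold TT
    rw [max_mul_of_nonneg _ _ hx.le]
    congr 1
    rw [mul_inv, mul_assoc, inv_mul_cancel₀ hx.ne', mul_one]
  rw [e r hr, e R hR]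
  exact max_le_max (by gcongr) le_rfl

theorem TT_pos' {κ s R : ℝ} (hs : 0 < s) : 0 < TT κ s R := lt_of_lt_of_le (by positivity) (sq_le_TT κ s R)

/-- the elementary facts of 295 on the sides. -/
theorem sf_of {κ r s1 s2 : ℝ} (hκ : 0 < κ) (hr : 1 ≤ r) (h : Sd r s1 s2) :
    SF κ s1 s2 (TT κ s2 r) r :=
  ⟨hr, hκ, h.lo, h.le, sq_le_TT _ _ _, inv_le_TT_mul (by linarith)⟩

theorem ff_of {M κ s1 s2 T r : ℝ} {c : E2} {X0 : E3} {f : Cf E2} (h : Adm M κ s1 s2 T r c X0 f) :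
    FF M κ s1 s2 T r f := ⟨h.disc, h.ny, h.cmp⟩

/-! ### values of an affine function outside the interval -/

theorem ny_far {f : Cf E2} {r K t : ℝ} (hr : 0 < r) (h : ∀ s : ℝ, |s| ≤ r → |f.ny s| ≤ K) :
    |f.ny t| ≤ (1 + |t| / r) * K := by
  have h0 := h 0 (by rw [abs_zero]; exact hr.le)
  have h1 := h r (by rw [abs_of_pos hr])
  have h2 := h (-r) (by rw [abs_neg, abs_of_pos hr])
  have e : f.ny (-r) - f.ny r = 4 * f.d * r := by unfold Cf.ny; ring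
  have h3 : |4 * f.d * r| ≤ |f.ny (-r)| + |f.ny r| := by rw [← e]; exact abs_sub _ _
  rw [abs_mul, abs_mul, abs_of_pos hr, abs_of_pos (by norm_num : (0:ℝ) < 4)] at h3
  have h4 : 2 * |f.d| * r ≤ K := by linarith
  have e2 : f.ny t = f.ny 0 - 2 * f.d * t := by unfold Cf.ny; ring
  rw [e2]
  refine (abs_sub _ _).trans ?_
  rw [abs_mul, abs_mul, abs_of_pos (by norm_num : (0:ℝ) < 2)]
  have h5 : 2 * |f.d| * |t| ≤ |t| / r * K := by
    calc 2 * |f.d| * |t| = |t| / r * (2 * |f.d| * r) := by field_simp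
      _ ≤ |t| / r * K := mul_le_mul_of_nonneg_left h4 (by positivity)
  linarith

/-! ### the transported member -/

/-- the conformal function in the main frame. -/
noncomputable def fz (z : E3 × ℝ) (f : Cf E2) : Cf E2 := Cf.tr (-(lat z.1)) (-(z.1 2)) (-z.2) f

/-- the base point in the main frame, transported to time `0`. -/
noncomputable def Xz (z : E3 × ℝ) (c : E2) (X : E3) : E3 := X + z.1 + z.2 • vel c

theorem lat_vel (c : E2) : lat (vel c) = c := by unfold vel; rw [lat_pt]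

theorem vel_two (c : E2) : vel c 2 = -‖c‖ ^ 2 / 2 := by unfold vel; rw [pt_two]

theorem lat_Xz (z : E3 × ℝ) (c : E2) (X : E3) : lat (Xz z c X) = lat X + lat z.1 + z.2 • c := by
  unfold Xz
  rw [lat_add, lat_add, lat_smul, lat_vel]

theorem Xz_two (z : E3 × ℝ) (c : E2) (X : E3) :
    (Xz z c X) 2 = X 2 + z.1 2 + z.2 * (-‖c‖ ^ 2 / 2) := by
  unfold Xz
  simp only [PiLp.add_apply, PiLp.smul_apply, smul_eq_mul]
  rw [vel_two]

theorem fz_ev (z : E3 × ℝ) (f : Cf E2) (x : E2) (y s : ℝ) :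
    (fz z f).ev x y s = f.ev (x - lat z.1) (y - z.1 2) (s - z.2) := by
  unfold fz
  rw [Cf.ev_tr, ← sub_eq_add_neg, ← sub_eq_add_neg, ← sub_eq_add_neg]

theorem fz_ld (z : E3 × ℝ) (f : Cf E2) (C x : E2) (y s : ℝ) :
    (fz z f).ld C x y s = f.ld C (x - lat z.1) (y - z.1 2) (s - z.2) := by
  unfold fz
  rw [Cf.ld_tr, ← sub_eq_add_neg, ← sub_eq_add_neg, ← sub_eq_add_neg]

theorem fz_ny (z : E3 × ℝ) (f : Cf E2) (s : ℝ) : (fz z f).ny s = f.ny (s - z.2) := by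
  unfold fz
  rw [Cf.ny_tr, ← sub_eq_add_neg]

/-- values along the ray, in the variables of the transport. -/
theorem ev_back (f : Cf E2) (C x : E2) (y t : ℝ) :
    f.ev (x + t • C) (y + t * (-‖C‖ ^ 2 / 2)) (-t) = f.ev x y 0 - t * f.ld C x y 0 := by
  have h := f.ev_along C x y 0 (-t)
  have e1 : x - (-t) • C = x + t • C := by module
  have e2 : y + (-t) * ‖C‖ ^ 2 / 2 = y + t * (-‖C‖ ^ 2 / 2) := by ring
  have e3 : (0 : ℝ) + -t = -t := by ring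
  rw [e1, e2, e3] at h
  rw [h]; ring

theorem nrm_back (C x : E2) (y t : ℝ) :
    LZg725.nrm C (x + t • C) (y + t * (-‖C‖ ^ 2 / 2)) (-t) = LZg725.nrm C x y 0 := by
  unfold LZg725.nrm
  rw [inner_add_right, real_inner_smul_right, real_inner_self_eq_norm_sq]
  ring

theorem ld_back (f : Cf E2) (C x : E2) (y t : ℝ) :
    f.ld C (x + t • C) (y + t * (-‖C‖ ^ 2 / 2)) (-t) = f.ld C x y 0 := by
  have h := f.ld_move C x (x + t • C) y (y + t * (-‖C‖ ^ 2 / 2)) 0 (-t)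
  rw [h, nrm_back]; ring

theorem gr_back (f : Cf E2) (C x : E2) (t : ℝ) : f.gr C (x + t • C) (-t) = f.gr C x 0 := by
  have h := f.gr_move C x (x + t • C) 0 (-t)
  rw [h]
  have e : (x + t • C - x) + ((-t : ℝ) - 0) • C = 0 := by module
  rw [e, smul_zero, add_zero]

variable {M κ s1 s2 r R A lam : ℝ} {c : E2} {X0 : E3} {f : Cf E2} {z : E3 × ℝ}

/-- **extension of the class**. -/
theorem adm_ext (hM : 1 ≤ M) (hκ : 0 < κ) (hr : 1 ≤ r) (hrR : r ≤ R) (hS : Sd r s1 s2)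
    (hz : z ∈ cylc R) (h : Adm M κ s1 s2 (TT κ s2 r) r c X0 f) :
    Adm (3 * (R / r) * M) κ s1 s2 (TT κ s2 R) R c (Xz z c X0) (fz z f) := by
  have hr0 : 0 < r := by linarith
  have hR0 : 0 < R := by linarith
  have hB : 1 ≤ R / r := (one_le_div hr0).2 hrR
  have hSF := sf_of hκ hr hS
  have hs1 := hSF.s10
  have hs2 := hSF.s20
  have hz2 : |z.2| ≤ R := hz.2
  have hTr : 0 < TT κ s2 r := TT_pos' hs2
  have hTR : 0 < TT κ s2 R := TT_pos' hs2
  have hfar : ∀ s : ℝ, |s| ≤ R → 1 + |s - z.2| / r ≤ 3 * (R / r) := by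
    intro s hs
    have h1 : |s - z.2| ≤ 2 * R := (abs_sub _ _).trans (by linarith)
    have h2 : |s - z.2| / r ≤ 2 * (R / r) := by
      calc |s - z.2| / r ≤ 2 * R / r := by gcongr
        _ = 2 * (R / r) := by ring
    linarith
  refine ⟨?_, ?_, ?_, ?_, ?_⟩
  · unfold fz
    rw [Cf.disc_tr]; exact h.disc
  · intro s hs
    rw [fz_ny]
    refine (ny_far hr0 h.ny).trans ?_
    calc (1 + |s - z.2| / r) * (M * s2 / TT κ s2 r) ≤ (3 * (R / r)) * (M * s2 / TT κ s2 R) := by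
          have h3 := TT_anti (s := s2) hκ hr0 hrR
          have h4 := hfar s hs
          gcongr
      _ = 3 * (R / r) * M * s2 / TT κ s2 R := by ring
  · intro s hs
    rw [fz_ny]
    refine (ny_far hr0 h.cmp).trans ?_
    calc (1 + |s - z.2| / r) * (M * (κ * s1 * r)) ≤ (3 * (R / r)) * (M * (κ * s1 * r)) := by
          have h4 := hfar s hs
          gcongr
      _ ≤ (3 * (R / r)) * (M * (κ * s1 * R)) := by gcongr
      _ = 3 * (R / r) * M * (κ * s1 * R) := by ring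
  · rw [fz_ld, lat_Xz, Xz_two]
    have e1 : lat X0 + lat z.1 + z.2 • c - lat z.1 = lat X0 + z.2 • c := by abel
    have e2 : X0 2 + z.1 2 + z.2 * (-‖c‖ ^ 2 / 2) - z.1 2 = X0 2 + z.2 * (-‖c‖ ^ 2 / 2) := by ring
    rw [e1, e2, zero_sub, ld_back]
    refine h.ld.trans ?_
    have : M ≤ 3 * (R / r) * M := by nlinarith
    exact mul_le_mul_of_nonneg_right this hs2.le
  · rw [fz_ev, lat_Xz, Xz_two]
    have e1 : lat X0 + lat z.1 + z.2 • c - lat z.1 = lat X0 + z.2 • c := by abel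
    have e2 : X0 2 + z.1 2 + z.2 * (-‖c‖ ^ 2 / 2) - z.1 2 = X0 2 + z.2 * (-‖c‖ ^ 2 / 2) := by ring
    rw [e1, e2, zero_sub, ev_back]
    refine (abs_sub _ _).trans ?_
    rw [abs_mul]
    have h1 := h.ev
    have h2 := h.ld
    have h3 : |z.2| * |f.ld c (lat X0) (X0 2) 0| ≤ R * (M * s2) := by gcongr
    have h4 : M * s2 * r ≤ M * s2 * R := by gcongr
    have h5 : 2 * (M * s2 * R) ≤ 3 * (R / r) * M * s2 * R := by
      have : 0 ≤ M * s2 * R := by positivity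
      nlinarith
    linarith

set_option maxHeartbeats 1000000 in
/-- **values of `f` at a transported phase point**. -/
theorem val_ext (hM : 1 ≤ M) (hA : 1 ≤ A) (hlam : 1 ≤ lam) (hκ : 0 < κ) (hκ1 : κ ≤ 1) (hr : 1 ≤ r)
    (hrR : r ≤ R) (hS : Sd r s1 s2) (hz : |z.2| ≤ R) (h : FF M κ s1 s2 (TT κ s2 r) r f)
    {C C' : E2} {x w : E2} {y v : ℝ}
    (hev : |f.ev x y 0| ≤ A * s1 * r) (hld : |f.ld C' x y 0| ≤ A * s1)
    (hC : ‖C - C'‖ ≤ 3 * r ^ (-(1/2) : ℝ)) (hw : ‖w‖ ≤ lam * R ^ (1/2 : ℝ))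
    (hv : |v + inner ℝ C w| ≤ lam * κ⁻¹) :
    |f.ev (x + z.2 • C - w) (y + z.2 * (-‖C‖ ^ 2 / 2) - v) (-z.2)| ≤
        25 * M * A * lam ^ 2 * s1 * R ∧
      |f.ld C (x + z.2 • C - w) (y + z.2 * (-‖C‖ ^ 2 / 2) - v) (-z.2)| ≤ 16 * M * A * lam * s1 := by
  have hr0 : 0 < r := by linarith
  have hR0 : 0 < R := by linarith
  have hSF := sf_of hκ hr hS
  have hs1 := hSF.s10
  have hs2 := hSF.s20
  have hT := hSF.T0
  have hρ := hSF.rho0
  have hMA : 1 ≤ M * A := by nlinarith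
  have hM0 : 0 ≤ M := by linarith
  have hlam0 : 0 ≤ lam := by linarith
  -- gradient
  have hSF' : SF κ (A * s1) (A * s2) (A ^ 2 * TT κ s2 r) r := by
    refine ⟨hr, hκ, ?_, ?_, ?_, ?_⟩
    · have := hSF.lo; nlinarith
    · have := hSF.le; gcongr
    · have := hSF.T1
      calc (A * s2) ^ 2 = A ^ 2 * s2 ^ 2 := by ring
        _ ≤ A ^ 2 * TT κ s2 r := by gcongr
    · have h1 := hSF.T2
      have h2 : 1 ≤ A ^ 2 := by nlinarith
      have h3 : 0 ≤ TT κ s2 r * r := by positivity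
      nlinarith
  have hFF' : FF (M * A) κ (A * s1) (A * s2) (A ^ 2 * TT κ s2 r) r f := by
    refine ⟨h.disc, ?_, ?_⟩
    · intro s hs
      refine (h.ny s hs).trans (le_of_eq ?_)
      field_simp
    · intro s hs
      refine (h.cmp s hs).trans ?_
      have h0 : 0 ≤ M * (κ * s1 * r) := by positivity
      have h1 : 1 ≤ A ^ 2 := by nlinarith
      calc M * (κ * s1 * r) ≤ A ^ 2 * (M * (κ * s1 * r)) := by nlinarith
        _ = M * A * (κ * (A * s1) * r) := by ring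
  have hgr : ‖f.gr C' x 0‖ ≤ 3 * (M * A) := by
    have := hFF'.gr_le hSF' (C := C') (x := x) (y := y) hev hld
    linarith
  have hny0 := h.ny_le hSF
  have hnyρ : |f.ny 0| * r ^ (-(1/2) : ℝ) ≤ M := by
    refine le_trans ?_ hny0
    have := hSF.lo.trans hSF.le; gcongr
  have hd' := h.d_le' hSF
  have hCs : ‖C - C'‖ ≤ 3 * s1 := hC.trans (by have := hSF.lo; gcongr)
  -- derivative at the slope `C`
  have hldC : |f.ld C x y 0| ≤ 15 * (M * A) * s1 := by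
    rw [f.ld_dir C' C x y 0]
    have t1 : |inner ℝ (f.gr C' x 0) (C - C')| ≤ 3 * (M * A) * (3 * s1) :=
      (abs_real_inner_le_norm _ _).trans (by gcongr)
    have t2 : |f.ny 0 * ‖C - C'‖ ^ 2 / 2| ≤ 9 / 2 * (M * s1) := by
      rw [abs_div, abs_mul, abs_of_nonneg (sq_nonneg ‖C - C'‖),
        abs_of_pos (by norm_num : (0:ℝ) < 2)]
      calc |f.ny 0| * ‖C - C'‖ ^ 2 / 2 = |f.ny 0| * (‖C - C'‖ * ‖C - C'‖) / 2 := by ring
        _ ≤ |f.ny 0| * ((3 * r ^ (-(1/2) : ℝ)) * (3 * s1)) / 2 := by gcongr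
        _ = 9 / 2 * ((|f.ny 0| * r ^ (-(1/2) : ℝ)) * s1) := by ring
        _ ≤ 9 / 2 * (M * s1) := by gcongr
    have e : f.ld C' x y 0 - inner ℝ (f.gr C' x 0) (C - C') + f.ny 0 * ‖C - C'‖ ^ 2 / 2 =
        f.ld C' x y 0 + -(inner ℝ (f.gr C' x 0) (C - C')) + f.ny 0 * ‖C - C'‖ ^ 2 / 2 := by ring
    rw [e]
    rw [← abs_neg] at t1
    refine (abs_add_le _ _).trans ((add_le_add ((abs_add_le _ _).trans (add_le_add hld t1)) t2).trans
      ?_)
    have h1 : A * s1 ≤ M * A * s1 := by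
      have : 0 ≤ A * s1 := by positivity
      nlinarith
    have h2 : M * s1 ≤ M * A * s1 := by
      have : 0 ≤ M * s1 := by positivity
      nlinarith
    have h3 : 0 ≤ M * A * s1 := by positivity
    linarith
  -- the point on the ray
  have hevX : |f.ev (x + z.2 • C) (y + z.2 * (-‖C‖ ^ 2 / 2)) (-z.2)| ≤ 16 * (M * A) * s1 * R := by
    rw [ev_back]
    refine (abs_sub _ _).trans ?_
    rw [abs_mul]
    have h1 : |z.2| * |f.ld C x y 0| ≤ R * (15 * (M * A) * s1) := by gcongr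
    have h2 : A * s1 * r ≤ (M * A) * s1 * R := by
      have : A ≤ M * A := by nlinarith
      gcongr
    linarith
  have hgrX : ‖f.gr C (x + z.2 • C) (-z.2)‖ ≤ 6 * (M * A) := by
    rw [gr_back, f.gr_dir C' C x 0]
    refine (norm_sub_le _ _).trans ?_
    rw [norm_smul, Real.norm_eq_abs]
    have h1 : |f.ny 0| * ‖C - C'‖ ≤ 3 * M := by
      calc |f.ny 0| * ‖C - C'‖ ≤ |f.ny 0| * (3 * r ^ (-(1/2) : ℝ)) := by gcongr
        _ = 3 * (|f.ny 0| * r ^ (-(1/2) : ℝ)) := by ring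
        _ ≤ 3 * M := by gcongr
    have h2 : M ≤ M * A := by nlinarith
    linarith
  have hldX : f.ld C (x + z.2 • C) (y + z.2 * (-‖C‖ ^ 2 / 2)) (-z.2) = f.ld C x y 0 :=
    ld_back f C x y z.2
  -- normal displacement
  have hn : LZg725.nrm C (x + z.2 • C - w) (y + z.2 * (-‖C‖ ^ 2 / 2) - v) (-z.2) -
      LZg725.nrm C (x + z.2 • C) (y + z.2 * (-‖C‖ ^ 2 / 2)) (-z.2) = -(v + inner ℝ C w) := by
    unfold LZg725.nrm
    rw [inner_sub_right]
    ring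
  have hRhalf : R ^ (1/2 : ℝ) ≤ s1 * R := by
    have e1 : R ^ (1/2 : ℝ) = R ^ (-(1/2) : ℝ) * R := by
      conv_rhs => rw [← Real.rpow_one R, ← Real.rpow_mul hR0.le]
      rw [← Real.rpow_add hR0]
      norm_num
    rw [e1]
    refine mul_le_mul_of_nonneg_right ?_ hR0.le
    refine le_trans ?_ hSF.lo
    exact Real.rpow_le_rpow_of_nonpos hr0 hrR (by norm_num)
  have hRsq : R ^ (1/2 : ℝ) * R ^ (1/2 : ℝ) = R := by
    rw [← Real.rpow_add hR0]; norm_num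
  have hnyz : |f.ny (-z.2)| ≤ 2 * (M * (κ * s1 * R)) := by
    refine (ny_far (t := -z.2) hr0 h.cmp).trans ?_
    rw [abs_neg]
    have h1 : |z.2| / r ≤ R / r := by gcongr
    have hB : 1 ≤ R / r := (one_le_div hr0).2 hrR
    calc (1 + |z.2| / r) * (M * (κ * s1 * r)) ≤ (2 * (R / r)) * (M * (κ * s1 * r)) := by
          have : 1 + |z.2| / r ≤ 2 * (R / r) := by linarith
          gcongr
      _ = 2 * (M * (κ * s1 * R)) := by field_simp
  have hll : lam ≤ lam ^ 2 := by nlinarith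
  have h1l : 1 ≤ lam ^ 2 := by nlinarith
  have hsR : 0 ≤ s1 * R := by positivity
  have hMA' : M ≤ M * A := by nlinarith
  constructor
  · have hexp := f.ev_expand C (x + z.2 • C) (y + z.2 * (-‖C‖ ^ 2 / 2)) (-z.2)
      (x + z.2 • C - w) (y + z.2 * (-‖C‖ ^ 2 / 2) - v) (-z.2)
    rw [hn, sub_self, zero_smul, add_zero] at hexp
    have e0 : x + z.2 • C - w - (x + z.2 • C) = -w := by abel
    rw [e0] at hexp
    have t1 : |inner ℝ (f.gr C (x + z.2 • C) (-z.2)) (-w)| ≤ 6 * (M * A) * lam * (s1 * R) := by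
      refine (abs_real_inner_le_norm _ _).trans ?_
      rw [norm_neg]
      calc ‖f.gr C (x + z.2 • C) (-z.2)‖ * ‖w‖ ≤ (6 * (M * A)) * (lam * R ^ (1/2 : ℝ)) := by gcongr
        _ ≤ (6 * (M * A)) * (lam * (s1 * R)) := by gcongr
        _ = _ := by ring
    have t2 : |f.ny (-z.2) * -(v + inner ℝ C w)| ≤ 2 * M * lam * (s1 * R) := by
      rw [abs_mul, abs_neg]
      calc |f.ny (-z.2)| * |v + inner ℝ C w| ≤ (2 * (M * (κ * s1 * R))) * (lam * κ⁻¹) := by gcongr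
        _ = 2 * M * lam * (s1 * R) := by field_simp
    have t3 : |f.d * (‖-w‖ ^ 2 - 2 * 0 * -(v + inner ℝ C w))| ≤ M / 2 * lam ^ 2 * (s1 * R) := by
      rw [abs_mul, norm_neg, mul_zero, zero_mul, sub_zero, abs_of_nonneg (sq_nonneg ‖w‖)]
      calc |f.d| * ‖w‖ ^ 2 ≤ (M * (κ * s1) / 2) * (lam * R ^ (1/2 : ℝ)) ^ 2 := by gcongr
        _ = (M * (κ * s1) / 2) * lam ^ 2 * R := by
            rw [mul_pow, sq (R ^ (1/2 : ℝ)), hRsq]; ring
        _ ≤ (M * (1 * s1) / 2) * lam ^ 2 * R := by gcongr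
        _ = _ := by ring
    rw [hexp]
    refine (abs_add_le _ _).trans ((add_le_add ((abs_add_le _ _).trans (add_le_add
      ((abs_add_le _ _).trans (add_le_add (abs_add_le _ _) t1)) t2)) t3).trans ?_)
    rw [mul_zero, abs_zero, add_zero]
    have h3 : |f.ev (x + z.2 • C) (y + z.2 * (-‖C‖ ^ 2 / 2)) (-z.2)| ≤
        16 * (M * A) * lam ^ 2 * (s1 * R) := by
      refine hevX.trans ?_
      have : 16 * (M * A) * s1 * R = 16 * (M * A) * 1 * (s1 * R) := by ring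
      rw [this]
      gcongr
    have h4 : 6 * (M * A) * lam * (s1 * R) ≤ 6 * (M * A) * lam ^ 2 * (s1 * R) := by gcongr
    have h5 : 2 * M * lam * (s1 * R) ≤ 2 * (M * A) * lam ^ 2 * (s1 * R) := by gcongr
    have h6 : M / 2 * lam ^ 2 * (s1 * R) ≤ (M * A) / 2 * lam ^ 2 * (s1 * R) := by gcongr
    have h7 : 0 ≤ (M * A) * lam ^ 2 * (s1 * R) := by positivity
    linarith
  · have e1 : f.ld C (x + z.2 • C - w) (y + z.2 * (-‖C‖ ^ 2 / 2) - v) (-z.2) =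
        f.ld C x y 0 - 2 * f.d * -(v + inner ℝ C w) := by
      rw [f.ld_move C (x + z.2 • C) (x + z.2 • C - w) (y + z.2 * (-‖C‖ ^ 2 / 2))
        (y + z.2 * (-‖C‖ ^ 2 / 2) - v) (-z.2) (-z.2), hn, hldX]
    rw [e1]
    refine (abs_sub _ _).trans ?_
    have t1 : |2 * f.d * -(v + inner ℝ C w)| ≤ M * lam * s1 := by
      rw [abs_mul, abs_mul, abs_neg, abs_of_pos (by norm_num : (0:ℝ) < 2)]
      calc 2 * |f.d| * |v + inner ℝ C w| ≤ 2 * (M * (κ * s1) / 2) * (lam * κ⁻¹) := by gcongr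
        _ = M * lam * s1 := by field_simp
    have h2 : 15 * (M * A) * s1 ≤ 15 * (M * A) * lam * s1 := by
      have : 15 * (M * A) * s1 = 15 * (M * A) * 1 * s1 := by ring
      rw [this]; gcongr
    have h3 : M * lam * s1 ≤ M * A * lam * s1 := by gcongr
    linarith

set_option maxHeartbeats 1000000 in
/-- **extension of the phase points**. -/
theorem pbx_ext (hM : 1 ≤ M) (hA : 1 ≤ A) (hlam : 1 ≤ lam) (hκ : 0 < κ) (hκ1 : κ ≤ 1) (hr : 1 ≤ r)
    (hrR : r ≤ R) (hS : Sd r s1 s2) (hz : z ∈ cylc R)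
    (h : Adm M κ s1 s2 (TT κ s2 r) r c X0 f) {m m' : ℤ × ℤ} {X W : E3}
    (hX : X ∈ pbx κ A r s1 s2 c X0 f m')
    (hC : ‖cen (R ^ (-(1/2) : ℝ)) m - cen (r ^ (-(1/2) : ℝ)) m'‖ ≤ 3 * r ^ (-(1/2) : ℝ))
    (hw : ‖lat W‖ ≤ lam * R ^ (1/2 : ℝ))
    (hv : |W 2 + inner ℝ (cen (R ^ (-(1/2) : ℝ)) m) (lat W)| ≤ lam * κ⁻¹) :
    X + z.1 + z.2 • vel (cen (R ^ (-(1/2) : ℝ)) m) - W ∈
      pbx κ (25 * M * A ^ 2 * lam ^ 2) R s1 s2 c (Xz z c X0) (fz z f) m := by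
  obtain ⟨x1, x2, x3, x4, x5⟩ := hX
  set C := cen (R ^ (-(1/2) : ℝ)) m with hCd
  set C' := cen (r ^ (-(1/2) : ℝ)) m' with hCd'
  have hr0 : 0 < r := by linarith
  have hR0 : 0 < R := by linarith
  have hSF := sf_of hκ hr hS
  have hs1 := hSF.s10
  have hs2 := hSF.s20
  have hT := hSF.T0
  have hz2 : |z.2| ≤ R := hz.2
  have hM0 : 0 ≤ M := by linarith
  have hA0 : 0 ≤ A := by linarith
  have hlam0 : 0 ≤ lam := by linarith
  have hll : lam ≤ lam ^ 2 := le_self_pow₀ hlam (by norm_num)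
  have h1l : 1 ≤ lam ^ 2 := one_le_pow₀ hlam
  have hAA : A ≤ A ^ 2 := le_self_pow₀ hA (by norm_num)
  have h1A : 1 ≤ A ^ 2 := one_le_pow₀ hA
  have hq0 : 0 ≤ A ^ 2 * lam ^ 2 := by positivity
  have hbig : A ^ 2 * lam ^ 2 ≤ M * A ^ 2 * lam ^ 2 := by
    rw [mul_assoc]; exact le_mul_of_one_le_left hq0 hM
  have hA2 : A ^ 2 ≤ A ^ 2 * lam ^ 2 := le_mul_of_one_le_right (by positivity) h1l
  have hl2 : lam ^ 2 ≤ A ^ 2 * lam ^ 2 := le_mul_of_one_le_left (by positivity) h1A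
  have hAl' : A * lam ≤ A ^ 2 * lam ^ 2 := by gcongr
  have hval := val_ext (z := z) hM hA hlam hκ hκ1 hr hrR hS hz2 (ff_of h) (C := C) (C' := C')
    (x := lat X) (w := lat W) (y := X 2) (v := W 2) x4 x5 hC hw hv
  -- coordinates of the point
  have elat : lat (X + z.1 + z.2 • vel C - W) - lat z.1 = lat X + z.2 • C - lat W := by
    rw [lat_sub, lat_add, lat_add, lat_smul, lat_vel]; abel
  have etwo : (X + z.1 + z.2 • vel C - W) 2 - z.1 2 = X 2 + z.2 * (-‖C‖ ^ 2 / 2) - W 2 := by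
    simp only [PiLp.sub_apply, PiLp.add_apply, PiLp.smul_apply, smul_eq_mul]
    rw [vel_two]; ring
  have hRhalf : R ^ (1/2 : ℝ) ≤ s1 * R := by
    have e1 : R ^ (1/2 : ℝ) = R ^ (-(1/2) : ℝ) * R := by
      conv_rhs => rw [← Real.rpow_one R, ← Real.rpow_mul hR0.le]
      rw [← Real.rpow_add hR0]
      norm_num
    rw [e1]
    refine mul_le_mul_of_nonneg_right ?_ hR0.le
    refine le_trans ?_ hSF.lo
    exact Real.rpow_le_rpow_of_nonpos hr0 hrR (by norm_num)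
  have hRhalf2 : R ^ (1/2 : ℝ) ≤ s2 * R := hRhalf.trans (by have := hSF.le; gcongr)
  have hCc : ‖C - c‖ ≤ 4 * A * s2 := by
    have e : C - c = (C - C') + (C' - c) := by abel
    rw [e]
    refine (norm_add_le _ _).trans ?_
    have h1 : 3 * r ^ (-(1/2) : ℝ) ≤ 3 * s2 := by
      have := hSF.lo.trans hSF.le; gcongr
    nlinarith
  refine ⟨?_, ?_, ?_, ?_, ?_⟩
  · refine hCc.trans ?_
    have : 4 * A ≤ 25 * M * A ^ 2 * lam ^ 2 := by linarith
    exact mul_le_mul_of_nonneg_right this hs2.le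
  · have e : lat (X + z.1 + z.2 • vel C - W) - lat (Xz z c X0) =
        (lat X - lat X0) + z.2 • (C - c) - lat W := by
      rw [lat_sub, lat_add, lat_add, lat_smul, lat_vel, lat_Xz]; module
    rw [e]
    refine (norm_sub_le _ _).trans ((add_le_add (norm_add_le _ _) le_rfl).trans ?_)
    rw [norm_smul, Real.norm_eq_abs]
    have h1 : |z.2| * ‖C - c‖ ≤ R * (4 * A * s2) := by gcongr
    have h2 : A * s2 * r ≤ A * s2 * R := by gcongr
    have h3 : lam * R ^ (1/2 : ℝ) ≤ lam * (s2 * R) := by gcongr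
    have h4 : 5 * A + lam ≤ 25 * M * A ^ 2 * lam ^ 2 := by linarith
    have h5 : 0 ≤ s2 * R := by positivity
    calc ‖lat X - lat X0‖ + |z.2| * ‖C - c‖ + ‖lat W‖ ≤
          A * s2 * R + R * (4 * A * s2) + lam * (s2 * R) := by linarith
      _ = (5 * A + lam) * (s2 * R) := by ring
      _ ≤ (25 * M * A ^ 2 * lam ^ 2) * (s2 * R) := mul_le_mul_of_nonneg_right h4 h5
      _ = _ := by ring
  · have e : nrm c (X + z.1 + z.2 • vel C - W) 0 - nrm c (Xz z c X0) 0 =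
        (nrm c X 0 - nrm c X0 0) - z.2 * (‖C - c‖ ^ 2 / 2) -
          ((W 2 + inner ℝ C (lat W)) - inner ℝ (C - c) (lat W)) := by
      unfold nrm
      rw [lat_sub, lat_add, lat_add, lat_smul, lat_vel, lat_Xz, Xz_two]
      simp only [PiLp.sub_apply, PiLp.add_apply, PiLp.smul_apply, smul_eq_mul]
      rw [vel_two, norm_sub_sq_real, inner_sub_right, inner_add_right, inner_add_right,
        inner_add_right, inner_add_right, real_inner_smul_right, real_inner_smul_right,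
        real_inner_self_eq_norm_sq, inner_sub_left, real_inner_comm C c]
      ring
    rw [e]
    refine (abs_sub _ _).trans ((add_le_add (abs_sub _ _) (abs_sub _ _)).trans ?_)
    rw [abs_mul, abs_of_nonneg (a := ‖C - c‖ ^ 2 / 2) (by positivity)]
    have hTR : 0 < TT κ s2 R := TT_pos' hs2
    have h1 : A * TT κ s2 r * r ≤ A * (TT κ s2 R * R) := by
      have := TT_mul_mono (s := s2) hκ hr0 hrR
      calc A * TT κ s2 r * r = A * (TT κ s2 r * r) := by ring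
        _ ≤ A * (TT κ s2 R * R) := by gcongr
    have hsT : s2 ^ 2 * R ≤ TT κ s2 R * R := by
      have := sq_le_TT κ s2 R
      gcongr
    have h2 : |z.2| * (‖C - c‖ ^ 2 / 2) ≤ 8 * A ^ 2 * (TT κ s2 R * R) := by
      calc |z.2| * (‖C - c‖ ^ 2 / 2) ≤ R * ((4 * A * s2) ^ 2 / 2) := by gcongr
        _ = 8 * A ^ 2 * (s2 ^ 2 * R) := by ring
        _ ≤ 8 * A ^ 2 * (TT κ s2 R * R) := by gcongr
    have h3 : |W 2 + inner ℝ C (lat W)| ≤ lam * (TT κ s2 R * R) := by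
      refine hv.trans ?_
      have := inv_le_TT_mul (κ := κ) (s := s2) hR0
      gcongr
    have h4 : |inner ℝ (C - c) (lat W)| ≤ 4 * A * lam * (TT κ s2 R * R) := by
      refine (abs_real_inner_le_norm _ _).trans ?_
      calc ‖C - c‖ * ‖lat W‖ ≤ (4 * A * s2) * (lam * (s2 * R)) := by
            have : ‖lat W‖ ≤ lam * (s2 * R) := hw.trans (by gcongr)
            gcongr
        _ = 4 * A * lam * (s2 ^ 2 * R) := by ring
        _ ≤ 4 * A * lam * (TT κ s2 R * R) := by gcongr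
    have h5 : A + 8 * A ^ 2 + lam + 4 * A * lam ≤ 25 * M * A ^ 2 * lam ^ 2 := by linarith
    have h6 : 0 ≤ TT κ s2 R * R := by positivity
    calc |nrm c X 0 - nrm c X0 0| + |z.2| * (‖C - c‖ ^ 2 / 2) +
          (|W 2 + inner ℝ C (lat W)| + |inner ℝ (C - c) (lat W)|) ≤
          A * (TT κ s2 R * R) + 8 * A ^ 2 * (TT κ s2 R * R) + (lam * (TT κ s2 R * R) +
            4 * A * lam * (TT κ s2 R * R)) := by linarith
      _ = (A + 8 * A ^ 2 + lam + 4 * A * lam) * (TT κ s2 R * R) := by ring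
      _ ≤ (25 * M * A ^ 2 * lam ^ 2) * (TT κ s2 R * R) := mul_le_mul_of_nonneg_right h5 h6
      _ = _ := by ring
  · rw [fz_ev, elat, etwo, zero_sub]
    refine hval.1.trans ?_
    have h0 : 0 ≤ s1 * R := by positivity
    have h1 : 25 * M * A * lam ^ 2 ≤ 25 * M * A ^ 2 * lam ^ 2 := by gcongr
    calc 25 * M * A * lam ^ 2 * s1 * R = (25 * M * A * lam ^ 2) * (s1 * R) := by ring
      _ ≤ (25 * M * A ^ 2 * lam ^ 2) * (s1 * R) := mul_le_mul_of_nonneg_right h1 h0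
      _ = _ := by ring
  · rw [fz_ld, elat, etwo, zero_sub]
    refine hval.2.trans ?_
    have h1 : 16 * M * A * lam ≤ 25 * M * A ^ 2 * lam ^ 2 := by
      have h2 : M * (A * lam) ≤ M * (A ^ 2 * lam ^ 2) := by gcongr
      have h3 : 0 ≤ M * (A ^ 2 * lam ^ 2) := by positivity
      linarith
    exact mul_le_mul_of_nonneg_right h1 hs1.le

end Crest.Agent.R116.Ba449
end

-- ▼ part R116/Ba4_449
section

/-!
# R116 (S0155), wave side, TRIV2, part 2: level change with dyadic shells (helper449)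

`enc_level` : if the packets of level `ρ'` in the frame `z` are bounded in `l¹` form by the packets
of level `ρ ≤ ρ'` and the `2^j`-dilated plates through the selection `S` lie in `E j`, then
`enc ρ' (trc z g) S ≤ C (ρ'/ρ)² ∑ j 2^(-n j) enc ρ g (E j)`.
-/

set_option autoImplicit false

open MeasureTheory
open scoped ENNReal

namespace Crest.Agent.R116.Ba449

open Crest.Agent.R138.Wf448
open Crest.Agent.R138.Defs (E2)
open Crest.Agent.R138.Wpk685 (cen caps)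
open Crest.Agent.R138.Loc878 (Near nearL mem_nearL sum_near_le)
open Crest.Agent.R116.CDef480 Crest.Agent.R116.CWp480 Crest.Agent.R116.CWc480
open Crest.Agent.R116.F1c124 (kc kc_eq kc_nonneg adet_Pl)

theorem dd_E3 : dd E3 = 4 := by unfold dd; simp

theorem continuous_kc (N : ℕ) {ρ κ : ℝ} (hρ : 0 < ρ) (hκ : 0 < κ) (C : E2) :
    Continuous (kc N ρ κ C) := by
  have e : kc N ρ κ C = fun x => adet (Pl ρ κ hρ hκ C : E3 →L[ℝ] E3) *
      ((1 + ‖Pl ρ κ hρ hκ C x‖) ^ N)⁻¹ := by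
    funext x; exact kc_eq N hρ hκ C x
  rw [e]
  have h1 : Continuous fun x : E3 => (1 + ‖Pl ρ κ hρ hκ C x‖) ^ N :=
    (continuous_const.add (Pl ρ κ hρ hκ C).continuous.norm).pow N
  exact continuous_const.mul (h1.inv₀ fun x => by positivity)

theorem kc_le_dec {N : ℕ} (hN : 4 ≤ N) {ρ κ : ℝ} (hρ : 0 < ρ) (hκ : 0 < κ) (C : E2) (x : E3) :
    ENNReal.ofReal (kc N ρ κ C x) ≤
      ENNReal.ofReal (adet (Pl ρ κ hρ hκ C : E3 →L[ℝ] E3)) * dec3 (Pl ρ κ hρ hκ C x) := by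
  rw [kc_eq N hρ hκ, ENNReal.ofReal_mul (adet0 _).le]
  refine mul_le_mul' le_rfl ?_
  unfold dec3
  rw [dd_E3]
  refine ENNReal.ofReal_le_ofReal ?_
  refine inv_anti₀ (by positivity) ?_
  exact pow_le_pow_right₀ (by linarith [norm_nonneg (Pl ρ κ hρ hκ C x)]) hN

/-- mass of the kernel, second variable. -/
theorem kc_mass {N : ℕ} (hN : 4 ≤ N) {ρ κ : ℝ} (hρ : 0 < ρ) (hκ : 0 < κ) (C : E2) (x : E3) :
    ∫⁻ y, ENNReal.ofReal (kc N ρ κ C (x - y)) ≤ ENNReal.ofReal (cd3 E3) := by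
  have had := adet0 (Pl ρ κ hρ hκ C)
  calc ∫⁻ y, ENNReal.ofReal (kc N ρ κ C (x - y)) ≤
      ∫⁻ y, ENNReal.ofReal (adet (Pl ρ κ hρ hκ C : E3 →L[ℝ] E3)) *
        dec3 (Pl ρ κ hρ hκ C (x - y)) := lintegral_mono fun y => kc_le_dec hN hρ hκ C _
    _ = ENNReal.ofReal (cd3 E3) := by
        rw [lintegral_const_mul' _ _ ENNReal.ofReal_ne_top,
          lintegral_scale (Pl ρ κ hρ hκ C) (fun y => dec3 y) x, lintegral_dec3, ← mul_assoc,
          ← ENNReal.ofReal_mul had.le, mul_inv_cancel₀ had.ne', ENNReal.ofReal_one, one_mul]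

/-- mass of the kernel, first variable. -/
theorem kc_mass' {N : ℕ} (hN : 4 ≤ N) {ρ κ : ℝ} (hρ : 0 < ρ) (hκ : 0 < κ) (C : E2) (v y : E3) :
    ∫⁻ x, ENNReal.ofReal (kc N ρ κ C (x + v - y)) ≤ ENNReal.ofReal (cd3 E3) := by
  have had := adet0 (Pl ρ κ hρ hκ C)
  calc ∫⁻ x, ENNReal.ofReal (kc N ρ κ C (x + v - y)) ≤
      ∫⁻ x, ENNReal.ofReal (adet (Pl ρ κ hρ hκ C : E3 →L[ℝ] E3)) *
        dec3 (Pl ρ κ hρ hκ C (x - (y - v))) := by
        refine lintegral_mono fun x => ?_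
        have e : x + v - y = x - (y - v) := by abel
        rw [e]
        exact kc_le_dec hN hρ hκ C _
    _ = ENNReal.ofReal (cd3 E3) := by
        rw [lintegral_const_mul' _ _ ENNReal.ofReal_ne_top,
          lintegral_scale' (Pl ρ κ hρ hκ C) (fun y => dec3 y) (y - v), lintegral_dec3, ← mul_assoc,
          ← ENNReal.ofReal_mul had.le, mul_inv_cancel₀ had.ne', ENNReal.ofReal_one, one_mul]

/-- dyadic shells. -/
theorem kc_shell (n : ℕ) {ρ κ : ℝ} (hρ : 0 < ρ) (hκ : 0 < κ) (C : E2) (W : E3) :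
    ∃ j : ℕ, ‖Pl ρ κ hρ hκ C W‖ ≤ 2 ^ j ∧
      kc (4 + n) ρ κ C W ≤ (2 ^ n * ((2 : ℝ) ^ (n * j))⁻¹) * kc 4 ρ κ C W := by
  have had := adet0 (Pl ρ κ hρ hκ C)
  have key : ∀ j : ℕ, ‖Pl ρ κ hρ hκ C W‖ ≤ 2 ^ j → (2 : ℝ) ^ j ≤ 2 * (1 + ‖Pl ρ κ hρ hκ C W‖) →
      kc (4 + n) ρ κ C W ≤ (2 ^ n * ((2 : ℝ) ^ (n * j))⁻¹) * kc 4 ρ κ C W := by
    intro j _ h2
    rw [kc_eq (4 + n) hρ hκ, kc_eq 4 hρ hκ]
    set t := ‖Pl ρ κ hρ hκ C W‖ with ht
    have ht0 : 0 ≤ t := norm_nonneg _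
    have h3 : ((1 + t) ^ n)⁻¹ ≤ 2 ^ n * ((2 : ℝ) ^ (n * j))⁻¹ := by
      have h4 : (2 : ℝ) ^ (n * j) ≤ 2 ^ n * (1 + t) ^ n := by
        rw [mul_comm n j, pow_mul, ← mul_pow]
        exact pow_le_pow_left₀ (by positivity) h2 n
      rw [← div_eq_mul_inv, le_div_iff₀ (by positivity), inv_mul_le_iff₀ (by positivity)]
      linarith
    have e : ((1 + t) ^ (4 + n))⁻¹ = ((1 + t) ^ n)⁻¹ * ((1 + t) ^ 4)⁻¹ := by
      rw [pow_add, mul_inv]; ring
    rw [e]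
    calc adet (Pl ρ κ hρ hκ C : E3 →L[ℝ] E3) * (((1 + t) ^ n)⁻¹ * ((1 + t) ^ 4)⁻¹) =
        ((1 + t) ^ n)⁻¹ * (adet (Pl ρ κ hρ hκ C : E3 →L[ℝ] E3) * ((1 + t) ^ 4)⁻¹) := by ring
      _ ≤ _ := by gcongr
  rcases le_total ‖Pl ρ κ hρ hκ C W‖ 1 with h | h
  · refine ⟨0, by simpa using h, key 0 (by simpa using h) ?_⟩
    have := norm_nonneg (Pl ρ κ hρ hκ C W)
    rw [pow_zero]; linarith
  · obtain ⟨i, h1, h2⟩ := exists_nat_pow_near h (by norm_num : (1:ℝ) < 2)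
    refine ⟨i + 1, h2.le, key _ h2.le ?_⟩
    rw [pow_succ]; linarith

/-- number of near caps. -/
theorem card_nearL {ρ ρ' : ℝ} (hρ : 0 < ρ) (hρ' : ρ ≤ ρ') (m' : ℤ × ℤ) :
    ((nearL ρ ρ' m').card : ℝ) ≤ 49 * (ρ' / ρ) ^ 2 := by
  have hρ0' : 0 < ρ' := hρ.trans_le hρ'
  have h1 := CWd480.card_cen hρ (r := 3 * (ρ' / ρ)) (by positivity) (caps ρ) (cen ρ' m')
  have h2 : ((nearL ρ ρ' m' : Finset (ℤ × ℤ)) : Set (ℤ × ℤ)) ⊆
      {m | m ∈ caps ρ ∧ ‖cen ρ m - cen ρ' m'‖ ≤ 3 * (ρ' / ρ) * ρ} := by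
    intro m hm
    obtain ⟨h3, h4⟩ := mem_nearL.1 (Finset.mem_coe.1 hm)
    refine ⟨h3, ?_⟩
    have e : 3 * (ρ' / ρ) * ρ = 3 * ρ' := by field_simp
    rw [e]
    exact le_of_lt h4
  have h3 := Set.ncard_le_ncard h2 ((caps ρ).finite_toSet.subset fun m hm => hm.1)
  rw [Set.ncard_coe_finset] at h3
  have h4 : 1 ≤ ρ' / ρ := (one_le_div hρ).2 hρ'
  calc ((nearL ρ ρ' m').card : ℝ) ≤
        (Set.ncard {m | m ∈ caps ρ ∧ ‖cen ρ m - cen ρ' m'‖ ≤ 3 * (ρ' / ρ) * ρ} : ℝ) := by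
        exact_mod_cast h3
    _ ≤ (2 * (3 * (ρ' / ρ)) + 1) ^ 2 := h1
    _ ≤ (7 * (ρ' / ρ)) ^ 2 := by gcongr; linarith
    _ = _ := by ring

theorem sum_sq_le' {ι : Type*} (s : Finset ι) (a : ι → ℝ≥0∞) :
    (∑ i ∈ s, a i) ^ 2 ≤ s.card * ∑ i ∈ s, a i ^ 2 := by
  have h := ENNReal.rpow_sum_le_const_mul_sum_rpow s a (p := 2) (by norm_num)
  have e1 : (2 : ℝ) - 1 = 1 := by norm_num
  rw [e1, ENNReal.rpow_one] at h
  simpa only [ENNReal.rpow_two] using h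

/-- abstract shell integration. -/
theorem shell_abs {k k4 u : E3 → ℝ≥0∞} (hk4 : Measurable k4) (hu : Measurable u) {c : ℕ → ℝ≥0∞}
    {S' : Set E3} (hS : MeasurableSet S') {E : ℕ → Set E3} (hEm : ∀ j, MeasurableSet (E j)) {v : E3}
    {q : ℝ≥0∞} (hq : ∀ y, ∫⁻ X, k4 (X + v - y) ≤ q)
    (h : ∀ X ∈ S', ∀ y, ∃ j, y ∈ E j ∧ k (X + v - y) ≤ c j * k4 (X + v - y)) :
    ∫⁻ X in S', ∫⁻ y, k (X + v - y) * u y ≤ ∑' j : ℕ, c j * (q * ∫⁻ y in E j, u y) := by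
  obtain ⟨F, hFd⟩ : ∃ F : ℕ → E3 × E3 → ℝ≥0∞, F = fun j p =>
      c j * (k4 (p.1 + v - p.2) * (E j).indicator u p.2) := ⟨_, rfl⟩
  have hF : ∀ j, Measurable (F j) := by
    intro j
    rw [hFd]
    have h1 : Measurable fun p : E3 × E3 => k4 (p.1 + v - p.2) :=
      hk4.comp ((measurable_fst.add_const v).sub measurable_snd)
    have h2 : Measurable fun p : E3 × E3 => (E j).indicator u p.2 :=
      (hu.indicator (hEm j)).comp measurable_snd
    exact (h1.mul h2).const_mul _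
  have e : ∫⁻ X, ∫⁻ y, ∑' j, F j (X, y) = ∑' j, ∫⁻ X, ∫⁻ y, F j (X, y) := by
    calc ∫⁻ X, ∫⁻ y, ∑' j, F j (X, y) = ∫⁻ p, ∑' j, F j p ∂(volume.prod volume) :=
          (lintegral_prod (fun p => ∑' j, F j p) (Measurable.ennreal_tsum hF).aemeasurable).symm
      _ = ∑' j, ∫⁻ p, F j p ∂(volume.prod volume) := lintegral_tsum fun j => (hF j).aemeasurable
      _ = ∑' j, ∫⁻ X, ∫⁻ y, F j (X, y) :=
          tsum_congr fun j => lintegral_prod (F j) (hF j).aemeasurable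
  have hpt : ∀ X ∈ S', ∀ y, k (X + v - y) * u y ≤ ∑' j, F j (X, y) := by
    intro X hX y
    obtain ⟨j, hj1, hj2⟩ := h X hX y
    refine le_trans ?_ (ENNReal.le_tsum j)
    rw [hFd]
    simp only
    rw [Set.indicator_of_mem hj1, ← mul_assoc]
    exact mul_le_mul' hj2 le_rfl
  calc ∫⁻ X in S', ∫⁻ y, k (X + v - y) * u y ≤ ∫⁻ X in S', ∫⁻ y, ∑' j, F j (X, y) :=
        setLIntegral_mono' hS fun X hX => lintegral_mono fun y => hpt X hX y
    _ ≤ ∫⁻ X, ∫⁻ y, ∑' j, F j (X, y) := setLIntegral_le_lintegral _ _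
    _ = ∑' j, ∫⁻ X, ∫⁻ y, F j (X, y) := e
    _ ≤ _ := by
        refine ENNReal.tsum_le_tsum fun j => ?_
        rw [lintegral_lintegral_swap (f := fun X y => F j (X, y)) (hF j).aemeasurable]
        have h3 : ∀ y, ∫⁻ X, F j (X, y) ≤ c j * (q * (E j).indicator u y) := by
          intro y
          have h4 : Measurable fun X : E3 => k4 (X + v - y) :=
            hk4.comp ((measurable_id.add_const v).sub_const y)
          have h5 : ∀ X, F j (X, y) = c j * (E j).indicator u y * k4 (X + v - y) := by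
            intro X; rw [hFd]; ring
          simp_rw [h5]
          rw [lintegral_const_mul _ h4]
          calc c j * (E j).indicator u y * ∫⁻ X, k4 (X + v - y) ≤
                c j * (E j).indicator u y * q := mul_le_mul' le_rfl (hq y)
            _ = _ := by ring
        refine (lintegral_mono h3).trans (le_of_eq ?_)
        rw [← lintegral_indicator (hEm j)]
        have h6 : Measurable ((E j).indicator u) := hu.indicator (hEm j)
        rw [lintegral_const_mul _ (h6.const_mul q), lintegral_const_mul _ h6]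

/-- step A. -/
theorem sq_bound {ρ ρ' κ : ℝ} (hρ : 0 < ρ) (hρ' : ρ ≤ ρ') (hκ : 0 < κ) {N : ℕ} (hN : 4 ≤ N)
    {K : ℝ} (hK : 0 ≤ K) {u : ℤ × ℤ → E3 → ℝ≥0∞} (hu : ∀ m, Measurable (u m)) {m' : ℤ × ℤ}
    {w : ℤ × ℤ → E3} {x : ℝ≥0∞} (h : x ≤ ENNReal.ofReal K * ∑ m ∈ nearL ρ ρ' m', ∫⁻ y,
      ENNReal.ofReal (kc N ρ κ (cen ρ m) (w m - y)) * u m y) :
    x ^ 2 ≤ ENNReal.ofReal (K ^ 2 * (49 * (ρ' / ρ) ^ 2) * cd3 E3) * ∑ m ∈ nearL ρ ρ' m',
        ∫⁻ y, ENNReal.ofReal (kc N ρ κ (cen ρ m) (w m - y)) * u m y ^ 2 := by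
  have hρ0' : 0 < ρ' := hρ.trans_le hρ'
  have hcd : 0 ≤ cd3 E3 := cd3_nonneg
  calc x ^ 2 ≤ (ENNReal.ofReal K * ∑ m ∈ nearL ρ ρ' m', ∫⁻ y,
        ENNReal.ofReal (kc N ρ κ (cen ρ m) (w m - y)) * u m y) ^ 2 := pow_le_pow_left₀ zero_le h 2
    _ ≤ ENNReal.ofReal (K ^ 2) * (ENNReal.ofReal (49 * (ρ' / ρ) ^ 2) *
        ∑ m ∈ nearL ρ ρ' m', (∫⁻ y,
          ENNReal.ofReal (kc N ρ κ (cen ρ m) (w m - y)) * u m y) ^ 2) := by
        rw [mul_pow, ← ENNReal.ofReal_pow hK]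
        refine mul_le_mul' le_rfl ((sum_sq_le' _ _).trans (mul_le_mul' ?_ le_rfl))
        rw [← ENNReal.ofReal_natCast]
        exact ENNReal.ofReal_le_ofReal (card_nearL hρ hρ' m')
    _ ≤ ENNReal.ofReal (K ^ 2) * (ENNReal.ofReal (49 * (ρ' / ρ) ^ 2) *
        ∑ m ∈ nearL ρ ρ' m', (ENNReal.ofReal (cd3 E3) * ∫⁻ y,
          ENNReal.ofReal (kc N ρ κ (cen ρ m) (w m - y)) * u m y ^ 2)) := by
        refine mul_le_mul' le_rfl (mul_le_mul' le_rfl (Finset.sum_le_sum fun m _ => ?_))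
        have hk1 : Measurable fun y => ENNReal.ofReal (kc N ρ κ (cen ρ m) (w m - y)) :=
          ((continuous_kc N hρ hκ (cen ρ m)).comp
            (continuous_const.sub continuous_id)).measurable.ennreal_ofReal
        have h1 := lint_sq_le (V := E3) (hu m).aemeasurable hk1.aemeasurable
        simp_rw [mul_comm (ENNReal.ofReal (kc N ρ κ (cen ρ m) _))]
        exact h1.trans (mul_le_mul' (kc_mass hN hρ hκ _ _) le_rfl)
    _ = _ := by
        rw [← Finset.mul_sum, ← mul_assoc, ← mul_assoc, ← ENNReal.ofReal_mul (by positivity),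
          ← ENNReal.ofReal_mul (by positivity)]

/-- **level change with dyadic shells**. -/
theorem enc_level {ρ ρ' κ : ℝ} (hρ : 0 < ρ) (hρ' : ρ ≤ ρ') (hκ : 0 < κ) {n : ℕ} {K : ℝ}
    (hK : 0 ≤ K) {g : E3 → ℂ} (hu : ∀ m, Continuous (umc ρ g m)) {z : E3 × ℝ}
    (hF : ∀ (m' : ℤ × ℤ) (X : E3), ‖umc ρ' (trc z g) m' X‖ₑ ≤ ENNReal.ofReal K *
      ∑ m ∈ nearL ρ ρ' m', ∫⁻ y, ENNReal.ofReal
        (kc (4 + n) ρ κ (cen ρ m) (X + z.1 + z.2 • vel (cen ρ m) - y)) * ‖umc ρ g m y‖ₑ)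
    {S : ℤ × ℤ → Set E3} (hS : ∀ m, MeasurableSet (S m)) {E : ℕ → ℤ × ℤ → Set E3}
    (hEm : ∀ j m, MeasurableSet (E j m))
    (hE : ∀ m', ∀ m ∈ nearL ρ ρ' m', ∀ X ∈ S m', ∀ (W : E3) (j : ℕ),
      ‖Pl ρ κ hρ hκ (cen ρ m) W‖ ≤ 2 ^ j → X + z.1 + z.2 • vel (cen ρ m) - W ∈ E j m) :
    enc ρ' (trc z g) S ≤
      ENNReal.ofReal (K ^ 2 * (49 * (ρ' / ρ) ^ 2) * cd3 E3 ^ 2 * 2 ^ n * 36) *
        ∑' j : ℕ, ENNReal.ofReal (((2 : ℝ) ^ (n * j))⁻¹) * enc ρ g (E j) := by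
  have hρ0' : 0 < ρ' := hρ.trans_le hρ'
  have hcd : 0 ≤ cd3 E3 := cd3_nonneg
  have h4n : 4 ≤ 4 + n := Nat.le_add_right _ _
  have hum : ∀ m, Measurable fun y => ‖umc ρ g m y‖ₑ := fun m => (hu m).measurable.enorm
  have hkm : ∀ (N : ℕ) (m : ℤ × ℤ), Measurable fun x : E3 =>
      ENNReal.ofReal (kc N ρ κ (cen ρ m) x) := fun N m =>
    (continuous_kc N hρ hκ (cen ρ m)).measurable.ennreal_ofReal
  -- the transport vector
  obtain ⟨v, hv⟩ : ∃ v : ℤ × ℤ → E3, v = fun m => z.1 + z.2 • vel (cen ρ m) := ⟨_, rfl⟩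
  have hXv : ∀ (X : E3) (m : ℤ × ℤ), X + z.1 + z.2 • vel (cen ρ m) = X + v m := by
    intro X m; rw [hv, add_assoc]
  simp_rw [hXv] at hF hE
  -- step A
  have hA : ∀ (m' : ℤ × ℤ) (X : E3), ‖umc ρ' (trc z g) m' X‖ₑ ^ 2 ≤
      ENNReal.ofReal (K ^ 2 * (49 * (ρ' / ρ) ^ 2) * cd3 E3) * ∑ m ∈ nearL ρ ρ' m',
        ∫⁻ y, ENNReal.ofReal (kc (4 + n) ρ κ (cen ρ m) (X + v m - y)) * ‖umc ρ g m y‖ₑ ^ 2 :=
    fun m' X => sq_bound hρ hρ' hκ h4n hK hum (w := fun m => X + v m) (hF m' X)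
  -- step B
  have hB : ∀ m', ∀ m ∈ nearL ρ ρ' m', ∫⁻ X in S m', ∫⁻ y,
      ENNReal.ofReal (kc (4 + n) ρ κ (cen ρ m) (X + v m - y)) * ‖umc ρ g m y‖ₑ ^ 2 ≤
      ∑' j : ℕ, ENNReal.ofReal (2 ^ n * ((2 : ℝ) ^ (n * j))⁻¹) * (ENNReal.ofReal (cd3 E3) *
        ∫⁻ y in E j m, ‖umc ρ g m y‖ₑ ^ 2) := by
    intro m' m hm
    refine shell_abs (k := fun x => ENNReal.ofReal (kc (4 + n) ρ κ (cen ρ m) x))
      (k4 := fun x => ENNReal.ofReal (kc 4 ρ κ (cen ρ m) x)) (hkm 4 m) ((hum m).pow_const 2)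
      (hS m') (fun j => hEm j m) (fun y => kc_mass' le_rfl hρ hκ _ _ _) ?_
    intro X hX y
    obtain ⟨j, hj1, hj2⟩ := kc_shell n hρ hκ (cen ρ m) (X + v m - y)
    refine ⟨j, ?_, ?_⟩
    · have := hE m' m hm X hX (X + v m - y) j hj1
      rwa [sub_sub_cancel] at this
    · rw [← ENNReal.ofReal_mul (by positivity)]
      exact ENNReal.ofReal_le_ofReal hj2
  -- step C
  unfold enc
  have hC1 : ∀ m', ∫⁻ X in S m', ‖umc ρ' (trc z g) m' X‖ₑ ^ 2 ≤
      ENNReal.ofReal (K ^ 2 * (49 * (ρ' / ρ) ^ 2) * cd3 E3) *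
        ∑ m ∈ nearL ρ ρ' m', ∑' j : ℕ, ENNReal.ofReal (2 ^ n * ((2 : ℝ) ^ (n * j))⁻¹) *
          (ENNReal.ofReal (cd3 E3) * ∫⁻ y in E j m, ‖umc ρ g m y‖ₑ ^ 2) := by
    intro m'
    refine (lintegral_mono fun X => hA m' X).trans ?_
    rw [lintegral_const_mul' _ _ ENNReal.ofReal_ne_top]
    refine mul_le_mul' le_rfl ?_
    rw [lintegral_finsetSum]
    · exact Finset.sum_le_sum fun m hm => hB m' m hm
    · intro m _
      have h1 : Measurable fun p : E3 × E3 =>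
          ENNReal.ofReal (kc (4 + n) ρ κ (cen ρ m) (p.1 + v m - p.2)) *
            ‖umc ρ g m p.2‖ₑ ^ 2 :=
        ((hkm (4 + n) m).comp ((measurable_fst.add_const (v m)).sub measurable_snd)).mul
          (((hum m).pow_const 2).comp measurable_snd)
      exact h1.lintegral_prod_right'
  have e36 : (36 : ℝ≥0∞) = ENNReal.ofReal 36 := by norm_num
  have e3 : ∑ m ∈ caps ρ, ∑' j : ℕ, ENNReal.ofReal (2 ^ n * ((2 : ℝ) ^ (n * j))⁻¹) *
      (ENNReal.ofReal (cd3 E3) * ∫⁻ y in E j m, ‖umc ρ g m y‖ₑ ^ 2) =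
      ENNReal.ofReal (2 ^ n * cd3 E3) * ∑' j : ℕ, ENNReal.ofReal (((2 : ℝ) ^ (n * j))⁻¹) *
        ∑ m ∈ caps ρ, ∫⁻ y in E j m, ‖umc ρ g m y‖ₑ ^ 2 := by
    rw [← Summable.tsum_finsetSum (fun i _ => ENNReal.summable), ← ENNReal.tsum_mul_left]
    refine tsum_congr fun j => ?_
    rw [Finset.mul_sum, Finset.mul_sum]
    refine Finset.sum_congr rfl fun m _ => ?_
    rw [← mul_assoc, ← mul_assoc, ← ENNReal.ofReal_mul (by positivity),
      ← ENNReal.ofReal_mul (by positivity)]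
    congr 2
    ring
  refine (Finset.sum_le_sum fun m' _ => hC1 m').trans ?_
  rw [← Finset.mul_sum]
  refine (mul_le_mul' le_rfl (sum_near_le hρ0' _)).trans (le_of_eq ?_)
  rw [e3, e36, ← mul_assoc, ← mul_assoc, ← ENNReal.ofReal_mul (by positivity),
    ← ENNReal.ofReal_mul (by positivity)]
  congr 2
  ring

end Crest.Agent.R116.Ba449
end

-- ▼ part R116/Ba5_449
section

/-!
# R116 (S0155), wave side, TRIV2, part 3: one plate (helper449)

`plate_le` : energy of a plate of level `r` in the frame `z` from the box bound of level `R`.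
-/

set_option autoImplicit false

open MeasureTheory
open scoped ENNReal

namespace Crest.Agent.R116.Ba449

open Crest.Agent.R138.Wf448
open Crest.Agent.R138.Defs (E2)
open Crest.Agent.R138.Wpk685 (cen caps)
open Crest.Agent.R138.Loc878 (Near nearL mem_nearL)
open Crest.Agent.R116.CDef480 Crest.Agent.R116.CWp480 Crest.Agent.R116.CWc480
open Crest.Agent.R116.F1c124 (kc f1_root)
open Crest.Agent.R116.LZg725 (Cf)
open Crest.Agent.R116.WC188

/-- functions of the wave side with slices of width `2κ`. -/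
structure Fs (a η0 κ : ℝ) (g : E3 → ℂ) : Prop where
  meas : Measurable g
  bdd : ∃ L : ℝ, ∀ ζ, ‖g ζ‖ ≤ L
  supp : ∀ ζ, g ζ ≠ 0 → a⁻¹ ≤ ζ 2 ∧ ζ 2 ≤ a ∧ ‖slp ζ‖ ≤ 2
  slc : Slc η0 (2 * κ) g

theorem Fs.gd {a η0 κ : ℝ} {g : E3 → ℂ} (ha : 1 ≤ a) (h : Fs a η0 κ g) : Gd (3 * a) g := by
  refine ⟨h.meas, h.bdd, fun ζ hz => ?_, fun ζ hz => (h.supp ζ hz).2.2⟩
  obtain ⟨h1, h2, h3⟩ := h.supp ζ hz
  have ha0 : 0 < a := by linarith
  have hζ : 0 < ζ 2 := lt_of_lt_of_le (inv_pos.2 ha0) h1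
  have h4 : ‖lat ζ‖ ≤ 2 * a := by
    rw [lat_slp hζ.ne', norm_smul, Real.norm_eq_abs, abs_of_pos hζ]
    calc ζ 2 * ‖slp ζ‖ ≤ a * 2 := by gcongr
      _ = 2 * a := by ring
  have h5 : ‖ζ‖ ^ 2 ≤ (3 * a) ^ 2 := by
    rw [normsq3]
    have h6 : ‖lat ζ‖ ^ 2 ≤ (2 * a) ^ 2 := pow_le_pow_left₀ (norm_nonneg _) h4 2
    have h7 : ζ 2 ^ 2 ≤ a ^ 2 := pow_le_pow_left₀ hζ.le h2 2
    nlinarith
  exact (sq_le_sq₀ (norm_nonneg _) (by linarith)).1 h5

theorem meas_pbx (κ A r s1 s2 : ℝ) (c : E2) (X0 : E3) (f : Cf E2) (m : ℤ × ℤ) :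
    MeasurableSet (pbx κ A r s1 s2 c X0 f m) := by
  unfold pbx
  generalize cen (r ^ (-(1/2) : ℝ)) m = C
  generalize A * s2 = sg
  generalize A * TT κ s2 r = T
  generalize A * s1 = w
  have hl : Continuous fun X : E3 => lat X := latL.continuous
  have h2 : Continuous fun X : E3 => X 2 := by fun_prop
  have e1 : Continuous fun X : E3 => ‖lat X - lat X0‖ := (hl.sub continuous_const).norm
  have e2 : Continuous fun X : E3 => |nrm c X 0 - nrm c X0 0| := by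
    unfold nrm
    exact (((h2.add (continuous_const.inner hl)).add continuous_const).sub continuous_const).abs
  have e3 : Continuous fun X : E3 => |f.ev (lat X) (X 2) 0| := by
    unfold Cf.ev
    exact ((((continuous_const.add continuous_const).add (continuous_const.inner hl)).add
      (continuous_const.mul h2)).add (continuous_const.mul ((hl.norm.pow 2).sub
      (continuous_const.mul h2)))).abs
  have e4 : Continuous fun X : E3 => |f.ld C (lat X) (X 2) 0| := by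
    unfold Cf.ld
    exact (((continuous_const.sub (continuous_const.mul h2)).sub
      (Continuous.inner (continuous_const.add (hl.const_smul (2 * f.d))) continuous_const)).add
      continuous_const).abs
  have : mset sg T r w c X0 f C = {X | ‖C - c‖ ≤ sg} ∩ ({X | ‖lat X - lat X0‖ ≤ sg * r} ∩
      ({X | |nrm c X 0 - nrm c X0 0| ≤ T * r} ∩ ({X | |f.ev (lat X) (X 2) 0| ≤ w * r} ∩
      {X | |f.ld C (lat X) (X 2) 0| ≤ w}))) := rfl
  rw [this]
  exact (MeasurableSet.const _).inter ((measurableSet_le e1.measurable measurable_const).inter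
    ((measurableSet_le e2.measurable measurable_const).inter
    ((measurableSet_le e3.measurable measurable_const).inter
    (measurableSet_le e4.measurable measurable_const))))

theorem scost_nn {κ s1 s2 r : ℝ} (hs1 : 0 < s1) (hs2 : 0 < s2) (hr : 0 < r) :
    0 < scost κ s1 s2 r := by
  have := TT_pos' (κ := κ) (R := r) hs2
  unfold scost; positivity

theorem scost_up {κ s1 s2 r R : ℝ} (hκ : 0 < κ) (hs1 : 0 < s1) (hs2 : 0 < s2) (hr : 0 < r)
    (h : r ≤ R) : scost κ s1 s2 R ≤ (R / r) ^ 3 * scost κ s1 s2 r := by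
  have hR : 0 < R := hr.trans_le h
  have h1 := TT_anti (s := s2) hκ hr h
  unfold scost
  have h2 := TT_pos' (κ := κ) (R := R) hs2
  calc s1 * s2 * TT κ s2 R * R ^ 3 ≤ s1 * s2 * TT κ s2 r * R ^ 3 := by gcongr
    _ = (R / r) ^ 3 * (s1 * s2 * TT κ s2 r * r ^ 3) := by field_simp

/-- norm of the frame map. -/
theorem Pl_bd {ρ κ l : ℝ} (hρ : 0 < ρ) (hκ : 0 < κ) {C : E2} {W : E3}
    (h : ‖Pl ρ κ hρ hκ C W‖ ≤ l) :
    ‖lat W‖ ≤ l * ρ⁻¹ ∧ |W 2 + inner ℝ C (lat W)| ≤ l * κ⁻¹ := by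
  rw [Pl_apply] at h
  have hl : 0 ≤ l := (norm_nonneg _).trans h
  have h1 := normsq3 (pt (ρ • lat W) (κ * (W 2 + inner ℝ C (lat W))))
  rw [lat_pt, pt_two] at h1
  have h2 : ‖pt (ρ • lat W) (κ * (W 2 + inner ℝ C (lat W)))‖ ^ 2 ≤ l ^ 2 :=
    pow_le_pow_left₀ (norm_nonneg _) h 2
  constructor
  · have h3 : ‖ρ • lat W‖ ^ 2 ≤ l ^ 2 := by nlinarith [sq_nonneg (κ * (W 2 + inner ℝ C (lat W)))]
    have h4 := (sq_le_sq₀ (norm_nonneg _) hl).1 h3
    rw [norm_smul, Real.norm_eq_abs, abs_of_pos hρ] at h4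
    rw [← div_eq_mul_inv, le_div_iff₀ hρ]
    linarith
  · have h3 : |κ * (W 2 + inner ℝ C (lat W))| ^ 2 ≤ l ^ 2 := by
      rw [sq_abs]; nlinarith [sq_nonneg ‖ρ • lat W‖]
    have h4 := (sq_le_sq₀ (abs_nonneg _) hl).1 h3
    rw [abs_mul, abs_of_pos hκ] at h4
    rw [← div_eq_mul_inv, le_div_iff₀ hκ]
    linarith

/-- a geometric sum. -/
theorem tsum_half {T : ℝ} (hT : 0 ≤ T) :
    ∑' j : ℕ, ENNReal.ofReal (T * (1 / 2 : ℝ) ^ j) = ENNReal.ofReal (T * 2) := by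
  rw [← ENNReal.ofReal_tsum_of_nonneg (fun j => by positivity)
    (summable_geometric_two.mul_left T), tsum_mul_left, tsum_geometric_two]

/-- **one plate**. -/
theorem plate_le {M q : ℝ} (hM : 1 ≤ M) (hq : 0 ≤ q) {a A : ℝ} (ha : 1 ≤ a) (hA : 1 ≤ A) :
    ∃ Cp : ℝ, 0 ≤ Cp ∧ ∀ (κ η0 : ℝ) (g : E3 → ℂ) (R D r s1 s2 : ℝ) (z : E3 × ℝ) (c : E2) (X0 : E3)
      (f : Cf E2) (S : ℤ × ℤ → Set E3), 0 < κ → 8 * a * κ ≤ 1 → 1 ≤ r → r ≤ R → Fs a η0 κ g →
      0 ≤ D → PBx M κ q R g D → Sd r s1 s2 → z ∈ cylc R → Adm M κ s1 s2 (TT κ s2 r) r c X0 f →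
      (∀ m, MeasurableSet (S m)) → (∀ m, S m ⊆ pbx κ A r s1 s2 c X0 f m) →
      enc (r ^ (-(1/2) : ℝ)) (trc z g) S ≤
        ENNReal.ofReal (Cp * (R / r) ^ 25 * D * s2 ^ q * scost κ s1 s2 r) := by
  have ha' : 1 ≤ 4 * a / 3 := by linarith
  obtain ⟨K, hK, hF1⟩ := f1_root ha' (4 + 43) 1
  have hcd : 0 ≤ cd3 E3 := cd3_nonneg
  refine ⟨(K ^ 2 * 49 * cd3 E3 ^ 2 * 2 ^ 43 * 36) * (11 ^ 5 * (75 * M ^ 2 * A ^ 2) ^ 21 * 2),
    by positivity, ?_⟩
  intro κ η0 g R D r s1 s2 z c X0 f S hκ hκa hr hrR hg hD hP hSd hz hadm hSm hSp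
  have hr0 : 0 < r := by linarith
  have hR0 : 0 < R := by linarith
  have hR1 : 1 ≤ R := by linarith
  have ha0 : 0 < a := by linarith
  have hκ1 : κ ≤ 1 := by nlinarith
  have hρ0 : 0 < R ^ (-(1/2) : ℝ) := Real.rpow_pos_of_pos hR0 _
  have hs1 : 0 < s1 := lt_of_lt_of_le (Real.rpow_pos_of_pos hr0 _) hSd.lo
  have hs2 : 0 < s2 := hs1.trans_le hSd.le
  have hsc := scost_nn (κ := κ) hs1 hs2 hr0
  have hsq : 0 ≤ s2 ^ q := Real.rpow_nonneg hs2.le _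
  have hB1 : 1 ≤ R / r := (one_le_div hr0).2 hrR
  by_cases hne : ∃ ζ, g ζ ≠ 0
  swap
  · push Not at hne
    have e : trc z g = fun _ => 0 := by
      funext ζ; unfold trc; rw [hne ζ, zero_mul]
    rw [e]
    have e2 : enc (r ^ (-(1/2) : ℝ)) (fun _ : E3 => (0 : ℂ)) S = 0 := by
      unfold enc
      simp [Bas367.umc_zero]
    rw [e2]
    exact zero_le
  obtain ⟨ζ0, hζ0⟩ := hne
  -- range of `η0`
  obtain ⟨z1, z2, -⟩ := hg.supp ζ0 hζ0
  have hsl := hg.slc ζ0 hζ0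
  have h2κ : 2 * κ ≤ (4 * a)⁻¹ := by
    rw [le_inv_comm₀ (by positivity) (by positivity), ← one_div, le_div_iff₀ (by positivity)]
    linarith
  have ei : a⁻¹ = 4 * (4 * a)⁻¹ := by
    rw [mul_inv]; field_simp
  have hη1 : (4 * a / 3)⁻¹ ≤ η0 := by
    have e1 : (4 * a / 3)⁻¹ = 3 * (4 * a)⁻¹ := by rw [div_eq_mul_inv, mul_inv, inv_inv]; ring
    rw [e1]
    have h5 := (abs_le.1 hsl).2
    linarith
  have hη2 : η0 ≤ 4 * a / 3 := by
    have h5 := (abs_le.1 hsl).1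
    have h6 : (4 * a)⁻¹ ≤ a / 4 := by
      rw [inv_le_comm₀ (by positivity) (by positivity), ← one_div, div_le_iff₀ (by positivity)]
      nlinarith
    linarith
  have hκ' : 0 < 4 * κ / 3 := by positivity
  have hκ'2 : 4 * κ / 3 ≤ (4 * (4 * a / 3))⁻¹ := by
    rw [le_inv_comm₀ (by positivity) (by positivity), ← one_div, le_div_iff₀ (by positivity)]
    nlinarith
  have hρ' : R ^ (-(1/2) : ℝ) ≤ r ^ (-(1/2) : ℝ) :=
    Real.rpow_le_rpow_of_nonpos hr0 hrR (by norm_num)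
  have hρsq : (R ^ (-(1/2) : ℝ)) ^ 2 = R⁻¹ := by
    rw [← Real.rpow_natCast, ← Real.rpow_mul hR0.le]
    norm_num
    exact Real.rpow_neg_one R
  have hρinv : (R ^ (-(1/2) : ℝ))⁻¹ = R ^ (1/2 : ℝ) := by
    rw [← Real.rpow_neg hR0.le]; norm_num
  have hratio : (r ^ (-(1/2) : ℝ) / R ^ (-(1/2) : ℝ)) ^ 2 = R / r := by
    rw [← Real.div_rpow hr0.le hR0.le, ← Real.rpow_natCast, ← Real.rpow_mul (by positivity)]
    norm_num
    rw [Real.rpow_neg_one, inv_div]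
  have hzT : |z.2| * (R ^ (-(1/2) : ℝ)) ^ 2 ≤ 1 := by
    rw [hρsq, ← div_eq_mul_inv, div_le_one hR0]
    exact hz.2
  have hgd := hg.gd ha
  have hF := fun (m' : ℤ × ℤ) (X : E3) => hF1 (R ^ (-(1/2) : ℝ)) (r ^ (-(1/2) : ℝ)) (4 * κ / 3) η0
    hρ0 hρ' hκ' hκ'2 hη1 hη2 g hgd.int (fun ζ hζ => ⟨by
      refine (hg.slc ζ hζ).trans (le_of_eq ?_); ring, (hg.supp ζ hζ).2.2⟩) z hzT m' X
  have hlev := enc_level hρ0 hρ' hκ' (n := 43) hK (fun m => Bas367.umc_cont hgd.int _ m) hF hSm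
    (E := fun j => pbx κ (25 * M * A ^ 2 * (2 ^ j) ^ 2) R s1 s2 c (Xz z c X0) (fz z f))
    (fun j m => meas_pbx _ _ _ _ _ _ _ _ _) (by
      intro m' m hm X hX W j hW
      obtain ⟨hw1, hw2⟩ := Pl_bd hρ0 hκ' hW
      have hlam : (1 : ℝ) ≤ 2 ^ j := one_le_pow₀ (by norm_num)
      refine pbx_ext (m' := m') hM hA hlam hκ hκ1 hr hrR hSd hz hadm (hSp m' hX)
        (le_of_lt (mem_nearL.1 hm).2) ?_ ?_
      · rw [← hρinv]; exact hw1
      · refine hw2.trans ?_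
        have : (4 * κ / 3)⁻¹ ≤ κ⁻¹ := inv_anti₀ hκ (by linarith)
        gcongr)
  have hadmR := adm_ext hM hκ hr hrR hSd hz hadm
  have hSdR : Sd R s1 s2 := ⟨hρ'.trans hSd.lo, hSd.le, hSd.hi⟩
  have hM' : 1 ≤ 3 * (R / r) * M := by nlinarith
  have hstab : ∀ j : ℕ, enc (R ^ (-(1/2) : ℝ)) g
      (pbx κ (25 * M * A ^ 2 * (2 ^ j) ^ 2) R s1 s2 c (Xz z c X0) (fz z f)) ≤
      ENNReal.ofReal (11 ^ 5 * ((25 * M * A ^ 2 * (2 ^ j) ^ 2) * (3 * (R / r) * M)) ^ 21 * D *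
        s2 ^ q * scost κ s1 s2 R) := by
    intro j
    have hA' : 1 ≤ 25 * M * A ^ 2 * (2 ^ j) ^ 2 := by
      have h1 : (1 : ℝ) ≤ (2 ^ j) ^ 2 := one_le_pow₀ (one_le_pow₀ (by norm_num))
      have h2 : 1 ≤ A ^ 2 := one_le_pow₀ hA
      have h3 : 1 ≤ M * A ^ 2 := one_le_mul_of_one_le_of_one_le hM h2
      have h4 : 1 ≤ M * A ^ 2 * (2 ^ j) ^ 2 := one_le_mul_of_one_le_of_one_le h3 h1
      linarith
    have h := Cov369.stab_core hq hκ hκ1 hR1 hA' hM' hD (Cov369.pbx_one hM hκ hR1 hP) hSdR hadmR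
    simpa only [Set.univ_inter] using h
  set T : ℝ := 11 ^ 5 * (75 * M ^ 2 * A ^ 2 * (R / r)) ^ 21 * D * s2 ^ q * scost κ s1 s2 R with hT
  have hscR : 0 < scost κ s1 s2 R := scost_nn hs1 hs2 hR0
  have hT0 : 0 ≤ T := by rw [hT]; positivity
  have hsum : ∑' j : ℕ, ENNReal.ofReal (((2 : ℝ) ^ (43 * j))⁻¹) * enc (R ^ (-(1/2) : ℝ)) g
      (pbx κ (25 * M * A ^ 2 * (2 ^ j) ^ 2) R s1 s2 c (Xz z c X0) (fz z f)) ≤
      ENNReal.ofReal (T * 2) := by
    rw [← tsum_half hT0]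
    refine ENNReal.tsum_le_tsum fun j => ?_
    refine (mul_le_mul' le_rfl (hstab j)).trans ?_
    rw [← ENNReal.ofReal_mul (by positivity)]
    refine ENNReal.ofReal_le_ofReal (le_of_eq ?_)
    rw [hT]
    have e1 : ((25 * M * A ^ 2 * (2 ^ j) ^ 2) * (3 * (R / r) * M)) ^ 21 =
        (75 * M ^ 2 * A ^ 2 * (R / r)) ^ 21 * (2 : ℝ) ^ (42 * j) := by
      rw [show (25 * M * A ^ 2 * (2 ^ j) ^ 2) * (3 * (R / r) * M) =
        (75 * M ^ 2 * A ^ 2 * (R / r)) * (2 ^ j) ^ 2 by ring, mul_pow, ← pow_mul, ← pow_mul]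
      congr 2
      ring
    have e2 : ((2 : ℝ) ^ (43 * j))⁻¹ * (2 : ℝ) ^ (42 * j) = (1 / 2 : ℝ) ^ j := by
      rw [show 43 * j = 42 * j + j by ring, pow_add, mul_inv, one_div, inv_pow]
      field_simp
    rw [e1]
    calc ((2 : ℝ) ^ (43 * j))⁻¹ * (11 ^ 5 * ((75 * M ^ 2 * A ^ 2 * (R / r)) ^ 21 *
          (2 : ℝ) ^ (42 * j)) * D * s2 ^ q * scost κ s1 s2 R) =
        (11 ^ 5 * (75 * M ^ 2 * A ^ 2 * (R / r)) ^ 21 * D * s2 ^ q * scost κ s1 s2 R) *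
          (((2 : ℝ) ^ (43 * j))⁻¹ * (2 : ℝ) ^ (42 * j)) := by ring
      _ = _ := by rw [e2]
  refine hlev.trans ((mul_le_mul' le_rfl hsum).trans ?_)
  rw [← ENNReal.ofReal_mul (by positivity), hratio]
  refine ENNReal.ofReal_le_ofReal ?_
  have hup := scost_up hκ hs1 hs2 hr0 hrR
  set B : ℝ := R / r with hB
  have hB0 : 0 ≤ B := by linarith
  rw [hT]
  calc K ^ 2 * (49 * B) * cd3 E3 ^ 2 * 2 ^ 43 * 36 *
        (11 ^ 5 * (75 * M ^ 2 * A ^ 2 * B) ^ 21 * D * s2 ^ q * scost κ s1 s2 R * 2) ≤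
      K ^ 2 * (49 * B) * cd3 E3 ^ 2 * 2 ^ 43 * 36 *
        (11 ^ 5 * (75 * M ^ 2 * A ^ 2 * B) ^ 21 * D * s2 ^ q * (B ^ 3 * scost κ s1 s2 r) * 2) := by
        gcongr
    _ = K ^ 2 * 49 * cd3 E3 ^ 2 * 2 ^ 43 * 36 * (11 ^ 5 * (75 * M ^ 2 * A ^ 2) ^ 21 * 2) *
        B ^ 25 * D * s2 ^ q * scost κ s1 s2 r := by
        rw [mul_pow (75 * M ^ 2 * A ^ 2) B 21]
        ring

end Crest.Agent.R116.Ba449
end

-- ▼ part R116/Ba6_449

/-!
# R116 (S0155), wave side, TRIV2 (helper449): the leaves `TRIV2s` and `TRIV2`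

`SIG ≤ C (R/r)^16 s2^(q/2) SS` : extension of the boxes (`plate_le`) + energy count (`card_net`).
-/

set_option autoImplicit false

open MeasureTheory
open scoped ENNReal

namespace Crest.Agent.R116.Ba449

open Crest.Agent.R138.Defs (E2)
open Crest.Agent.R138.Wpk685 (cen caps)
open Crest.Agent.R116.CDef480
open Crest.Agent.R116.LZg725 (Cf)
open Crest.Agent.R116.WC188

theorem pow_three_half' (x : ℝ≥0∞) : x ^ (3 / 2 : ℝ) = x ^ (1 / 2 : ℝ) * x := by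
  have h : (3 / 2 : ℝ) = 1 / 2 + 1 := by norm_num
  rw [h, ENNReal.rpow_add_of_nonneg _ _ (by norm_num) (by norm_num), ENNReal.rpow_one]

/-- total energy of a plate system. -/
theorem sum_enc_le {M κ A r s1 s2 R L : ℝ} {I : Finset ℕ} {P : ℕ → Plate} {g : E3 → ℂ}
    (hg : Gd L g) (hr : 1 ≤ r) (hrR : r ≤ R) (hP : Plates M κ A r s1 s2 R I P) :
    ∑ i ∈ I, enc (r ^ (-(1/2) : ℝ)) (trc (P i).z g) (P i).S ≤
      ENNReal.ofReal (256 * (R / r) ^ 4 * Enc g) := by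
  classical
  have hr0 : 0 < r := by linarith
  have hρ : 0 < r ^ (-(1/2) : ℝ) := Real.rpow_pos_of_pos hr0 _
  set Z : Finset (E3 × ℝ) := I.image fun i => (P i).z with hZ
  have hnet : Net r R Z := by
    refine ⟨?_, ?_⟩
    · intro z hz
      obtain ⟨i, hi, rfl⟩ := Finset.mem_image.1 hz
      exact hP.mem i hi
    · intro z hz z' hz'
      obtain ⟨i, hi, rfl⟩ := Finset.mem_image.1 hz
      obtain ⟨j, hj, rfl⟩ := Finset.mem_image.1 hz'
      exact hP.sep i hi j hj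
  have hcard := card_net hr0 hrR hnet
  have h1 : ∑ i ∈ I, enc (r ^ (-(1/2) : ℝ)) (trc (P i).z g) (P i).S =
      ∑ z ∈ Z, ∑ i ∈ I with (P i).z = z, enc (r ^ (-(1/2) : ℝ)) (trc (P i).z g) (P i).S :=
    (Finset.sum_fiberwise_of_maps_to (fun i hi => Finset.mem_image_of_mem _ hi) _).symm
  rw [h1]
  have h2 : ∀ z ∈ Z, ∑ i ∈ I with (P i).z = z,
      enc (r ^ (-(1/2) : ℝ)) (trc (P i).z g) (P i).S ≤ ENNReal.ofReal (Enc g) := by
    intro z _
    have h3 : ∑ i ∈ I with (P i).z = z, enc (r ^ (-(1/2) : ℝ)) (trc (P i).z g) (P i).S =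
        ∑ i ∈ I with (P i).z = z, enc (r ^ (-(1/2) : ℝ)) (trc z g) (P i).S :=
      Finset.sum_congr rfl fun i hi => by rw [(Finset.mem_filter.1 hi).2]
    rw [h3]
    refine (Bas367.enc_union _ (fun i => (P i).S) (fun _ => Set.univ) ?_ ?_ ?_).trans ?_
    · intro i hi m
      exact hP.meas i (Finset.mem_filter.1 hi).1 m
    · intro i hi j hj hij m
      obtain ⟨hi1, hi2⟩ := Finset.mem_filter.1 hi
      obtain ⟨hj1, hj2⟩ := Finset.mem_filter.1 hj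
      exact hP.disj i hi1 j hj1 hij (hi2.trans hj2.symm) m
    · intro i _ m
      exact Set.subset_univ _
    · have h4 := enc_le (hg.trc z) hρ (fun _ => Set.univ)
      rwa [Enc_trc] at h4
  refine (Finset.sum_le_sum h2).trans ?_
  rw [Finset.sum_const, nsmul_eq_mul]
  refine (mul_le_mul' hcard le_rfl).trans (le_of_eq ?_)
  rw [← ENNReal.ofReal_mul (by positivity)]

/-- **core**: value of a plate system. -/
theorem val_core {M q : ℝ} (hM : 1 ≤ M) (hq : 0 ≤ q) {a A : ℝ} (ha : 1 ≤ a) (hA : 1 ≤ A) :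
    ∃ Cv : ℝ, 0 ≤ Cv ∧ ∀ (κ η0 : ℝ) (g : E3 → ℂ) (R D r s1 s2 : ℝ), 0 < κ → 8 * a * κ ≤ 1 →
      1 ≤ r → r ≤ R → Fs a η0 κ g → 0 ≤ D → PBx M κ q R g D → Sd r s1 s2 →
      ENNReal.ofReal (s2 ^ (-q / 2)) * SIG M κ A r s1 s2 g R ≤
        ENNReal.ofReal (Cv * (R / r) ^ 16 * SS g R D) := by
  obtain ⟨C, hC, hpl⟩ := plate_le hM hq ha hA
  refine ⟨256 * Real.sqrt C, by positivity, ?_⟩
  intro κ η0 g R D r s1 s2 hκ hκa hr hrR hg hD hP hSd
  have hr0 : 0 < r := by linarith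
  have hR0 : 0 < R := by linarith
  have hs1 : 0 < s1 := lt_of_lt_of_le (Real.rpow_pos_of_pos hr0 _) hSd.lo
  have hs2 : 0 < s2 := hs1.trans_le hSd.le
  have hsc := scost_nn (κ := κ) hs1 hs2 hr0
  have hgd := hg.gd ha
  have hE := Enc_nonneg g
  have hB1 : 1 ≤ R / r := (one_le_div hr0).2 hrR
  -- one system
  have hval : ∀ (I : Finset ℕ) (P : ℕ → Plate), Plates M κ A r s1 s2 R I P →
      val κ g r s1 s2 I P ≤ ENNReal.ofReal (Real.sqrt (C * (R / r) ^ 25 * D * s2 ^ q) *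
        (r * (256 * (R / r) ^ 4 * Enc g))) := by
    intro I P hPl
    have hterm : ∀ i ∈ I, ENNReal.ofReal ((r * scost κ s1 s2 r) ^ (-(1/2) : ℝ)) *
        (ENNReal.ofReal r * enc (r ^ (-(1/2) : ℝ)) (trc (P i).z g) (P i).S) ^ (3 / 2 : ℝ) ≤
        ENNReal.ofReal (Real.sqrt (C * (R / r) ^ 25 * D * s2 ^ q) * r) *
          enc (r ^ (-(1/2) : ℝ)) (trc (P i).z g) (P i).S := by
      intro i hi
      have h1 := hpl κ η0 g R D r s1 s2 (P i).z (P i).c (P i).X0 (P i).f (P i).S hκ hκa hr hrR hg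
        hD hP hSd (hPl.mem i hi) (hPl.adm i hi) (hPl.meas i hi) (hPl.box i hi)
      set T : ℝ := C * (R / r) ^ 25 * D * s2 ^ q with hT
      have hT0 : 0 ≤ T := by rw [hT]; positivity
      set e : ℝ≥0∞ := enc (r ^ (-(1/2) : ℝ)) (trc (P i).z g) (P i).S with he
      have h2 : (ENNReal.ofReal r * e) ^ (1 / 2 : ℝ) ≤
          ENNReal.ofReal ((r * (T * scost κ s1 s2 r)) ^ (1 / 2 : ℝ)) := by
        rw [← ENNReal.ofReal_rpow_of_nonneg (by positivity) (by norm_num)]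
        refine ENNReal.rpow_le_rpow ?_ (by norm_num)
        rw [ENNReal.ofReal_mul hr0.le]
        exact mul_le_mul' le_rfl h1
      rw [pow_three_half']
      calc ENNReal.ofReal ((r * scost κ s1 s2 r) ^ (-(1/2) : ℝ)) *
            ((ENNReal.ofReal r * e) ^ (1 / 2 : ℝ) * (ENNReal.ofReal r * e)) ≤
          ENNReal.ofReal ((r * scost κ s1 s2 r) ^ (-(1/2) : ℝ)) *
            (ENNReal.ofReal ((r * (T * scost κ s1 s2 r)) ^ (1 / 2 : ℝ)) *
              (ENNReal.ofReal r * e)) := by gcongr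
        _ = ENNReal.ofReal (Real.sqrt T * r) * e := by
            rw [← mul_assoc, ← mul_assoc, ← ENNReal.ofReal_mul (by positivity),
              ← ENNReal.ofReal_mul (by positivity)]
            congr 2
            have e1 : (r * (T * scost κ s1 s2 r)) ^ (1 / 2 : ℝ) =
                Real.sqrt T * (r * scost κ s1 s2 r) ^ (1 / 2 : ℝ) := by
              rw [show r * (T * scost κ s1 s2 r) = T * (r * scost κ s1 s2 r) by ring,
                Real.mul_rpow hT0 (by positivity), Real.sqrt_eq_rpow]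
            have e2 : (r * scost κ s1 s2 r) ^ (-(1/2) : ℝ) * (r * scost κ s1 s2 r) ^ (1 / 2 : ℝ) =
                1 := by
              rw [← Real.rpow_add (by positivity)]; norm_num
            rw [e1]
            calc (r * scost κ s1 s2 r) ^ (-(1/2) : ℝ) *
                  (Real.sqrt T * (r * scost κ s1 s2 r) ^ (1 / 2 : ℝ)) * r =
                (r * scost κ s1 s2 r) ^ (-(1/2) : ℝ) * (r * scost κ s1 s2 r) ^ (1 / 2 : ℝ) *
                  (Real.sqrt T * r) := by ring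
              _ = _ := by rw [e2, one_mul]
    unfold val
    refine (Finset.sum_le_sum hterm).trans ?_
    rw [← Finset.mul_sum]
    refine (mul_le_mul' le_rfl (sum_enc_le hgd hr hrR hPl)).trans (le_of_eq ?_)
    rw [← ENNReal.ofReal_mul (by positivity)]
    congr 1
    ring
  have hSIG : SIG M κ A r s1 s2 g R ≤
      ENNReal.ofReal (Real.sqrt (C * (R / r) ^ 25 * D * s2 ^ q) *
        (r * (256 * (R / r) ^ 4 * Enc g))) := by
    unfold SIG
    exact iSup_le fun I => iSup_le fun P => iSup_le fun h => hval I P h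
  refine (mul_le_mul' le_rfl hSIG).trans ?_
  rw [← ENNReal.ofReal_mul (by positivity)]
  refine ENNReal.ofReal_le_ofReal ?_
  -- arithmetic
  have e1 : Real.sqrt (C * (R / r) ^ 25 * D * s2 ^ q) =
      Real.sqrt C * Real.sqrt ((R / r) ^ 25) * Real.sqrt D * s2 ^ (q / 2) := by
    have h0 : 0 ≤ C * (R / r) ^ 25 * D := by positivity
    rw [Real.sqrt_mul h0, Real.sqrt_mul (by positivity), Real.sqrt_mul hC]
    congr 1
    rw [Real.sqrt_eq_rpow, ← Real.rpow_mul hs2.le]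
    congr 1
    ring
  have e2 : s2 ^ (-q / 2) * s2 ^ (q / 2) = 1 := by
    rw [← Real.rpow_add hs2]
    have : -q / 2 + q / 2 = 0 := by ring
    rw [this, Real.rpow_zero]
  have h3 : Real.sqrt ((R / r) ^ 25) ≤ (R / r) ^ 13 := by
    rw [Real.sqrt_le_left (by positivity), ← pow_mul]
    exact pow_le_pow_right₀ hB1 (by norm_num)
  have h4 : r * (R / r) ^ 4 = R * (R / r) ^ 3 := by field_simp
  unfold SS
  rw [e1]
  calc s2 ^ (-q / 2) * (Real.sqrt C * Real.sqrt ((R / r) ^ 25) * Real.sqrt D * s2 ^ (q / 2) *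
        (r * (256 * (R / r) ^ 4 * Enc g))) =
      (s2 ^ (-q / 2) * s2 ^ (q / 2)) * (256 * Real.sqrt C * Real.sqrt ((R / r) ^ 25) *
        Real.sqrt D * Enc g * (r * (R / r) ^ 4)) := by ring
    _ = 256 * Real.sqrt C * Real.sqrt ((R / r) ^ 25) * Real.sqrt D * Enc g *
        (R * (R / r) ^ 3) := by rw [e2, h4, one_mul]
    _ ≤ 256 * Real.sqrt C * (R / r) ^ 13 * Real.sqrt D * Enc g * (R * (R / r) ^ 3) := by gcongr
    _ = 256 * Real.sqrt C * (R / r) ^ 16 * (R * Enc g * Real.sqrt D) := by ring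

/-- **TRIV2s** (858). -/
theorem triv2s_holds {M q : ℝ} (hM : 1 ≤ M) (hq : 0 ≤ q) : Sup858.TRIV2s M q := by
  refine ⟨16, by norm_num, ?_⟩
  intro a b A ε M0 ha _ hb2 hA hε
  obtain ⟨C, hC, h⟩ := val_core hM hq ha hA
  refine ⟨C, hC, ?_⟩
  intro κ η0 C0 σ g R D hκ hκa _ hSt hSlc r s1 s2 hrl hrR hSd
  have hR1 := hSt.R1
  have hr : 1 ≤ r := (Real.one_le_rpow hR1 (by norm_num)).trans hrl
  have hfs : Fs a η0 κ g := ⟨hSt.meas, hSt.bdd, fun ζ hζ => ⟨(hSt.supp ζ hζ).1, (hSt.supp ζ hζ).2.1,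
    (hSt.supp ζ hζ).2.2.1.trans hb2.le⟩, hSlc⟩
  refine (h κ η0 g R D r s1 s2 hκ hκa hr hrR hfs hSt.D0 hSt.box hSd).trans ?_
  refine ENNReal.ofReal_le_ofReal ?_
  have hE := Enc_nonneg g
  have hSS : 0 ≤ SS g R D := by unfold SS; positivity
  have h1 : 1 ≤ R ^ ε := Real.one_le_rpow hR1 hε.le
  have h2 : (R / r) ^ 16 = (R / r) ^ (16 : ℝ) := by
    rw [show (16 : ℝ) = ((16 : ℕ) : ℝ) by norm_num, Real.rpow_natCast]
  have h3 : 0 ≤ C * (R / r) ^ (16 : ℝ) * SS g R D := by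
    have : 0 ≤ R / r := div_nonneg (by linarith) (by linarith)
    positivity
  rw [h2]
  calc C * (R / r) ^ (16 : ℝ) * SS g R D = 1 * (C * (R / r) ^ (16 : ℝ) * SS g R D) := (one_mul _).symm
    _ ≤ R ^ ε * (C * (R / r) ^ (16 : ℝ) * SS g R D) := mul_le_mul_of_nonneg_right h1 h3
    _ = _ := by ring

/-- **TRIV2** (the leaf of `WDefC_188` v3). -/
theorem triv2_holds {M q : ℝ} (hM : 1 ≤ M) (hq : 0 ≤ q) : TRIV2 M q := by
  refine ⟨16, by norm_num, ?_⟩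
  intro a b A ε M0 ha _ hb2 hA hε
  obtain ⟨C, hC, h⟩ := val_core hM hq ha hA
  refine ⟨C, hC, ?_⟩
  intro κ η0 C0 σ g R D hκ hκa _ hSt r s1 s2 hrl hrR hSd
  have hR1 := hSt.R1
  have hr : 1 ≤ r := (Real.one_le_rpow hR1 (by norm_num)).trans hrl
  have hfs : Fs a η0 κ g := ⟨hSt.meas, hSt.bdd, fun ζ hζ => ⟨(hSt.supp ζ hζ).1, (hSt.supp ζ hζ).2.1,
    (hSt.supp ζ hζ).2.2.1.trans hb2.le⟩, fun ζ hζ => (hSt.slc ζ hζ).trans (by linarith)⟩
  refine (h κ η0 g R D r s1 s2 hκ hκa hr hrR hfs hSt.D0 hSt.box hSd).trans ?_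
  refine ENNReal.ofReal_le_ofReal ?_
  have hE := Enc_nonneg g
  have hSS : 0 ≤ SS g R D := by unfold SS; positivity
  have h1 : 1 ≤ R ^ ε := Real.one_le_rpow hR1 hε.le
  have h2 : (R / r) ^ 16 = (R / r) ^ (16 : ℝ) := by
    rw [show (16 : ℝ) = ((16 : ℕ) : ℝ) by norm_num, Real.rpow_natCast]
  have h3 : 0 ≤ C * (R / r) ^ (16 : ℝ) * SS g R D := by
    have : 0 ≤ R / r := div_nonneg (by linarith) (by linarith)
    positivity
  rw [h2]
  calc C * (R / r) ^ (16 : ℝ) * SS g R D = 1 * (C * (R / r) ^ (16 : ℝ) * SS g R D) := (one_mul _).symm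
    _ ≤ R ^ ε * (C * (R / r) ^ (16 : ℝ) * SS g R D) := mul_le_mul_of_nonneg_right h1 h3
    _ = _ := by ring

end Crest.Agent.R116.Ba449
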