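import Crest.Agent.R116.SmC2_339
import Crest.Agent.R116.AlD_339
import Crest.Agent.R116.AlG3_339
import Crest.Agent.R116.PDf2_299
import Crest.Agent.R116.StepC1_367
import Crest.Agent.R116.CWd3_480
import Crest.Agent.R116.UpC5_448
import Crest.Agent.R116.Ba1_449
import Crest.Agent.R116.Ba6_449

-- ▼ part R116/SmC3_339
section

/-!
# R116 (S0155), wave side, AL-CONE (helper339): SUPM-C, part 3

Many frames, many caps.
-/

set_option autoImplicit false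

open MeasureTheory
open scoped ENNReal

namespace Crest.Agent.R116.SmC339

variable {E : Type} [NormedAddCommGroup E] [InnerProductSpace ℝ E] [FiniteDimensional ℝ E]
  [MeasurableSpace E] [BorelSpace E]

open Classical in
/-- **SUPM-C, many frames.**  Child plates `i` in the frames `z i` with labels `lab i` (the caps of
the parent densities `G`); isotropic cells `q m`; `W` = section volume of the plates, `Lam` =
enlargement by the cells. -/
theorem frames_mult {M I K : Type} [Fintype M] [Fintype I] [Fintype K] {k : M → E → ℝ≥0∞}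
    {v : M → E} {U : E × ℝ → M → E → ℝ≥0∞} {z : I → E × ℝ} {S : I → M → Set E} {lab : I → K}
    (hS : ∀ i m, MeasurableSet (S i m)) (hk : ∀ m, Measurable (k m))
    (hU : ∀ ζ m, Measurable (U ζ m)) {q : M → Set E} (hq : ∀ m, MeasurableSet (q m))
    {c0 Vq W Lam Mu τ CQ CG : ℝ} (hc0 : 0 < c0) (hVq : 0 < Vq) (hW : 0 < W) (hLam : 0 < Lam)
    (hMu : 0 ≤ Mu) (hτ : 0 ≤ τ) (hCQ : 0 ≤ CQ) (hCG : 0 ≤ CG)
    (hqk : ∀ m, ∀ u ∈ q m, ENNReal.ofReal c0 ≤ k m u)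
    (hqV : ∀ m, ENNReal.ofReal Vq ≤ volume (q m))
    (hQ : ∀ m, ∫⁻ u, k m u ≤ ENNReal.ofReal (CQ * Vq)) {r K0 R : ℝ} (hr : 0 < r) (hK0 : 0 ≤ K0)
    (hR0 : K0 * r ≤ R) (hz : ∀ i, z i ∈ (cy R : Set (E × ℝ)))
    (hsep : ∀ i j, z i ≠ z j → r ≤ dist (z i) (z j))
    (Rg : I → ℝ → Set E) (hRm : ∀ i t, |t| ≤ r → MeasurableSet (Rg i t))
    (hR : ∀ i t, |t| ≤ r → ∀ m, ∀ y ∈ S i m, ∀ u ∈ q m, y - t • v m - u ∈ Rg i t)
    (hRV : ∀ i t, |t| ≤ r → volume (Rg i t) ≤ ENNReal.ofReal (Lam * W))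
    (hRb : ∀ i t, |t| ≤ r → ∀ x ∈ Rg i t, ‖x‖ ≤ K0 * r) (hK1 : 1 ≤ K0)
    (G : K → E × ℝ → ℝ≥0∞) (hG : ∀ κ, Measurable (G κ))
    (hH : ∀ i t, |t| ≤ r → ∀ x ∈ Rg i t, seK k v (U (z i)) (S i) x t ≤
      ENNReal.ofReal Vq * (ENNReal.ofReal (Mu / Lam) * G (lab i) ((x, t) + z i) +
        ENNReal.ofReal τ))
    (hsum : ∀ κ ζ x t, |t| ≤ r → ∑ i with lab i = κ ∧ z i = ζ, seK k v (U ζ) (S i) x t ≤
      ENNReal.ofReal (CG * Vq) * G κ ((x, t) + ζ)) :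
    ∑ i, ENNReal.ofReal (r * W ^ (-(1/2) : ℝ)) * enK (U (z i)) (S i) ^ (3 / 2 : ℝ) ≤
      ENNReal.ofReal (c0 ^ (-(3/2) : ℝ) * CG * (2 * K0 + 2) ^ (Module.finrank ℝ (E × ℝ)) *
          Mu ^ (1 / 2 : ℝ)) * (∑ κ, ∫⁻ p in cy (2 * R), G κ p ^ (3 / 2 : ℝ)) +
        ENNReal.ofReal (2 * c0 ^ (-(3/2) : ℝ) * CQ * (Lam * τ) ^ (1 / 2 : ℝ)) *
          (ENNReal.ofReal r * ∑ i, enK (U (z i)) (S i)) := by
  have hc1 : 0 ≤ c0 ^ (-(3/2) : ℝ) := (Real.rpow_pos_of_pos hc0 _).le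
  set D : ℝ := (2 * K0 + 2) ^ (Module.finrank ℝ (E × ℝ)) with hD
  have hD0 : 0 ≤ D := by positivity
  set Q1 : ℝ := c0 ^ (-(3/2) : ℝ) * CG * Mu ^ (1 / 2 : ℝ) with hQ1
  set Q2 : ℝ := 2 * c0 ^ (-(3/2) : ℝ) * CQ * (Lam * τ) ^ (1 / 2 : ℝ) with hQ2
  have hQ10 : 0 ≤ Q1 := by positivity
  have hQ20 : 0 ≤ Q2 := by positivity
  have hreg : MeasurableSet (reg K0 r : Set (E × ℝ)) := Metric.isClosed_closedBall.measurableSet
  -- sums over a class
  have hJ : ∀ (κ : K) (ζ : E × ℝ) (f : I → ℝ≥0∞), ∑ i : {i : I // lab i = κ ∧ z i = ζ}, f i.1 =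
      ∑ i with lab i = κ ∧ z i = ζ, f i := by
    intro κ ζ f
    symm
    refine Finset.sum_subtype _ ?_ f
    intro i
    simp only [Finset.mem_filter, Finset.mem_univ, true_and]
  -- one frame and one cap
  have hone : ∀ (κ : K) (ζ : E × ℝ),
      ∑ i with lab i = κ ∧ z i = ζ,
        ENNReal.ofReal (r * W ^ (-(1/2) : ℝ)) * enK (U (z i)) (S i) ^ (3 / 2 : ℝ) ≤
      ENNReal.ofReal Q1 * (∫⁻ p in reg K0 r, G κ (p + ζ) ^ (3 / 2 : ℝ)) +
        ENNReal.ofReal Q2 * (ENNReal.ofReal r *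
          ∑ i with lab i = κ ∧ z i = ζ, enK (U (z i)) (S i)) := by
    intro κ ζ
    have h2 := frame_mult (I := {i : I // lab i = κ ∧ z i = ζ}) (k := k) (v := v) (U := U ζ)
      (S := fun i => S i.1) (fun i => hS i.1) hk (hU ζ) hq hc0 hVq hW hLam hMu hτ hCQ hCG hqk hqV
      hQ hr (fun i => Rg i.1) (fun i => hRm i.1) (fun i => hR i.1) (fun i => hRV i.1)
      (fun p => G κ (p + ζ)) ((hG κ).comp (measurable_id.add_const ζ))
      (by
        intro i t ht x hx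
        have h3 := hH i.1 t ht x hx
        rw [i.2.1, i.2.2] at h3
        exact h3)
      (by
        intro x t ht
        refine le_trans (le_of_eq ?_) (hsum κ ζ x t ht)
        exact hJ κ ζ fun i => seK k v (U ζ) (S i) x t)
      (reg K0 r) hreg
      (by
        intro i t ht x hx
        rw [reg, mem_closedBall_zero_iff, Prod.norm_def, max_le_iff]
        refine ⟨hRb i.1 t ht x hx, ?_⟩
        calc ‖((x, t) : E × ℝ).2‖ = |t| := rfl
          _ ≤ r := ht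
          _ ≤ K0 * r := by nlinarith)
    have e1 : ∀ f : ℝ≥0∞ → ℝ≥0∞, ∑ i with lab i = κ ∧ z i = ζ, f (enK (U (z i)) (S i)) =
        ∑ i : {i : I // lab i = κ ∧ z i = ζ}, f (enK (U ζ) (S i.1)) := by
      intro f
      rw [hJ κ ζ fun i => f (enK (U ζ) (S i))]
      refine Finset.sum_congr rfl fun i hi => ?_
      rw [(Finset.mem_filter.1 hi).2.2]
    have e2 := e1 fun x => ENNReal.ofReal (r * W ^ (-(1/2) : ℝ)) * x ^ (3 / 2 : ℝ)
    have e3 := e1 fun x => x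
    rw [e2, e3]
    exact h2
  -- sum over the frames and caps
  set Z : Finset (E × ℝ) := Finset.univ.image z with hZ
  have hsplit : ∀ f : I → ℝ≥0∞, ∑ i, f i =
      ∑ κ : K, ∑ ζ ∈ Z, ∑ i with lab i = κ ∧ z i = ζ, f i := by
    intro f
    rw [← Finset.sum_fiberwise Finset.univ lab f]
    refine Finset.sum_congr rfl fun κ _ => ?_
    have h3 := Finset.sum_fiberwise_of_maps_to (s := Finset.univ.filter fun i => lab i = κ) (t := Z)
      (g := z) (fun i _ => Finset.mem_image_of_mem z (Finset.mem_univ i)) f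
    rw [← h3]
    refine Finset.sum_congr rfl fun ζ _ => ?_
    rw [Finset.filter_filter]
  rw [hsplit fun i => ENNReal.ofReal (r * W ^ (-(1/2) : ℝ)) * enK (U (z i)) (S i) ^ (3 / 2 : ℝ),
    hsplit fun i => enK (U (z i)) (S i)]
  have hfr : ∀ κ : K, ∑ ζ ∈ Z, ∫⁻ p in reg K0 r, G κ (p + ζ) ^ (3 / 2 : ℝ) ≤
      ENNReal.ofReal D * ∫⁻ p in cy (2 * R), G κ p ^ (3 / 2 : ℝ) := by
    intro κ
    refine sum_framesG hr hK0 hR0 Z ?_ ?_ (fun p => G κ p ^ (3 / 2 : ℝ)) ((hG κ).pow_const _)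
    · intro x hx y hy hxy
      obtain ⟨i, -, rfl⟩ := Finset.mem_image.1 hx
      obtain ⟨j, -, rfl⟩ := Finset.mem_image.1 hy
      exact hsep i j hxy
    · intro x hx
      obtain ⟨i, -, rfl⟩ := Finset.mem_image.1 hx
      exact hz i
  calc ∑ κ : K, ∑ ζ ∈ Z, ∑ i with lab i = κ ∧ z i = ζ,
        ENNReal.ofReal (r * W ^ (-(1/2) : ℝ)) * enK (U (z i)) (S i) ^ (3 / 2 : ℝ)
      ≤ ∑ κ : K, ∑ ζ ∈ Z, (ENNReal.ofReal Q1 *
          (∫⁻ p in reg K0 r, G κ (p + ζ) ^ (3 / 2 : ℝ)) +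
        ENNReal.ofReal Q2 * (ENNReal.ofReal r *
          ∑ i with lab i = κ ∧ z i = ζ, enK (U (z i)) (S i))) :=
        Finset.sum_le_sum fun κ _ => Finset.sum_le_sum fun ζ _ => hone κ ζ
    _ = ENNReal.ofReal Q1 * (∑ κ : K, ∑ ζ ∈ Z, ∫⁻ p in reg K0 r, G κ (p + ζ) ^ (3 / 2 : ℝ)) +
        ENNReal.ofReal Q2 * (ENNReal.ofReal r *
          ∑ κ : K, ∑ ζ ∈ Z, ∑ i with lab i = κ ∧ z i = ζ, enK (U (z i)) (S i)) := by
        simp only [Finset.sum_add_distrib, Finset.mul_sum]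
    _ ≤ ENNReal.ofReal Q1 * (∑ κ : K, ENNReal.ofReal D *
            ∫⁻ p in cy (2 * R), G κ p ^ (3 / 2 : ℝ)) +
        ENNReal.ofReal Q2 * (ENNReal.ofReal r *
          ∑ κ : K, ∑ ζ ∈ Z, ∑ i with lab i = κ ∧ z i = ζ, enK (U (z i)) (S i)) := by
        gcongr with κ _
        exact hfr κ
    _ = _ := by
        rw [← Finset.mul_sum, ← mul_assoc, ← ENNReal.ofReal_mul (by positivity)]
        congr 3
        rw [hQ1]; ring

end Crest.Agent.R116.SmC339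
end

-- ▼ part R116/AlS1_299
section

/-!
# R116 (S0155), wave side, AL-CONE (helper299): `SumC`, part 1

Kernel facts, numbers (`Num`), geometry of the child plates, tail, for `frames_mult`.
-/

set_option autoImplicit false

open MeasureTheory FourierTransform
open scoped ENNReal

namespace Crest.Agent.R116.AlS299

open Crest.Agent.R138.Defs (E2 ee)
open Crest.Agent.R138.Wpk685 (cen caps)
open Crest.Agent.R116.CDef480
open Crest.Agent.R116.LZg725 (Cf)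
open Crest.Agent.R116.Cad538 (frc wt Acc W0 W0_lt det_frc lint_wt wt_anti wt_cont)
open Crest.Agent.R116.WC188
open Crest.Agent.R116.PC299
open Crest.Agent.R116.AlC339 (KmC SumC HH seC Fam labc Num rgn plt_of_adm mem_rgn rgn_vol rgn_norm)

/-! ### the kernel -/

theorem ker_ge {θ κ : ℝ} {C : E2} {N : ℕ} {u : E3} (h : ‖frc θ κ C u‖ ≤ 1) :
    ((2:ℝ) ^ N)⁻¹ ≤ wt (frc θ κ C) N u := by
  unfold wt
  exact inv_anti₀ (by positivity) (pow_le_pow_left₀ (by positivity) (by linarith) N)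

/-- the isotropic cell. -/
def cell (θ κ : ℝ) (C : E2) : Set E3 := {u | ‖frc θ κ C u‖ ≤ 1}

theorem cell_meas (θ κ : ℝ) (C : E2) : MeasurableSet (cell θ κ C) :=
  (isClosed_le (f := fun u : E3 => ‖frc θ κ C u‖) (by fun_prop) continuous_const).measurableSet

/-- volume of the unit ball. -/
noncomputable def V1 : ℝ := (volume (Metric.closedBall (0:E3) 1)).toReal

theorem V1_pos : 0 < V1 :=
  ENNReal.toReal_pos (Metric.measure_closedBall_pos _ _ one_pos).ne' measure_closedBall_lt_top.ne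

theorem ofReal_V1 : ENNReal.ofReal V1 = volume (Metric.closedBall (0:E3) 1) :=
  ENNReal.ofReal_toReal measure_closedBall_lt_top.ne

theorem cell_vol {θ κ : ℝ} (hθ : 0 < θ) (hκ : 0 < κ) (C : E2) :
    volume (cell θ κ C) = ENNReal.ofReal (V1 * (θ ^ 2 * κ)⁻¹) := by
  have e : cell θ κ C = (frc θ κ C : E3 →ₗ[ℝ] E3) ⁻¹' Metric.closedBall (0:E3) 1 := by
    ext u
    simp only [cell, Set.mem_ofPred_eq, Set.mem_preimage, mem_closedBall_zero_iff,
      ContinuousLinearMap.coe_coe]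
  have hd : LinearMap.det (frc θ κ C : E3 →ₗ[ℝ] E3) ≠ 0 := by
    rw [det_frc]; positivity
  rw [e, Measure.addHaar_preimage_linearMap _ hd, det_frc, ← ofReal_V1,
    ← ENNReal.ofReal_mul (abs_nonneg _), abs_of_pos (by positivity), mul_comm]

theorem ker_mass {θ κ : ℝ} (hθ : 0 < θ) (hκ : 0 < κ) (C : E2) {N : ℕ} (hN : 4 ≤ N) :
    ∫⁻ u, ENNReal.ofReal (wt (frc θ κ C) N u) ≤
      ENNReal.ofReal (W0.toReal / V1 * (V1 * (θ ^ 2 * κ)⁻¹)) := by
  have hd : LinearMap.det (frc θ κ C : E3 →ₗ[ℝ] E3) ≠ 0 := by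
    rw [det_frc]; positivity
  have h1 := lint_wt (frc θ κ C) hd 0
  rw [lintegral_sub_left_eq_self (fun x => ENNReal.ofReal (wt (frc θ κ C) 4 x)) 0, det_frc,
    abs_of_pos (by positivity)] at h1
  calc ∫⁻ u, ENNReal.ofReal (wt (frc θ κ C) N u)
      ≤ ∫⁻ u, ENNReal.ofReal (wt (frc θ κ C) 4 u) :=
        lintegral_mono fun u => ENNReal.ofReal_le_ofReal (wt_anti _ hN u)
    _ = ENNReal.ofReal ((θ ^ 2 * κ)⁻¹) * W0 := h1
    _ = ENNReal.ofReal ((θ ^ 2 * κ)⁻¹) * ENNReal.ofReal W0.toReal := by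
        rw [ENNReal.ofReal_toReal W0_lt.ne]
    _ = ENNReal.ofReal ((θ ^ 2 * κ)⁻¹ * W0.toReal) := by
        rw [← ENNReal.ofReal_mul (by positivity)]
    _ ≤ _ := by
        refine ENNReal.ofReal_le_ofReal (le_of_eq ?_)
        have := V1_pos.ne'
        field_simp

/-! ### numbers -/

section ctx

variable {M q a b A d0 G c0 κ η0 : ℝ} {g : E3 → ℂ} {r1 dl Y Gm s1' s2' s1 s2 D : ℝ}
  {I1 : Finset ℕ} {P1 : ℕ → Plate} {I : Finset ℕ} {P : ℕ → Plate}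

/-- `θ'² r = 1`. -/
theorem thr (h : Ctx M q a b A d0 G c0 κ η0 g r1 dl Y Gm s1' s2' s1 s2 D I1 P1 I P) :
    an (dl * r1) ^ 2 * (dl * r1) = 1 := by rw [mul_comm]; exact mul_an_sq h.rj0

theorem num_of (h : Ctx M q a b A d0 G c0 κ η0 g r1 dl Y Gm s1' s2' s1 s2 D I1 P1 I P)
    (hM : 1 ≤ M) (hA : 1 ≤ A) (h01 : d0 ≤ 1) (hG : 2 ≤ G)
    (hd : 64 * M * A * d0 ^ (1/2 : ℝ) ≤ 1) :
    Num M A κ (an r1) (an (dl * r1)) (dl ^ (1/2 : ℝ)) s1 s2 (dl * r1) Gm 1 := by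
  have hdl := h.dlpos
  have hdl1 := h.dl1 h01
  have hr := h.r10
  have hrj := h.rj0
  have hθ := an_pos hr
  have hθ' := an_pos hrj
  have hGm := h.Gm1
  have hs2 := Sd.s20 h.sd hrj
  have hd0 : 0 < d0 := hdl.trans_le h.dlle
  have hd2 : 0 < d0 ^ (1/2 : ℝ) := Real.rpow_pos_of_pos hd0 _
  have hMA : 0 < M * A := by positivity
  have hx : 0 < dl ^ (1/2 : ℝ) := Real.rpow_pos_of_pos hdl _
  have e1 : dl ^ (1/2 : ℝ) * an (dl * r1) = an r1 := dl_an hdl hr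
  have e2 : dl ^ (1/2 : ℝ) * dl ^ (1/2 : ℝ) = dl := by
    rw [← Real.rpow_add hdl]; norm_num
  have hwide : dl ^ (-(2:ℝ)) * an (dl * r1) ≤ s2 := by
    refine le_trans (mul_le_mul_of_nonneg_right ?_ hθ'.le) h.wide
    exact Real.rpow_le_rpow_of_exponent_ge hdl hdl1 (by linarith)
  have e3 : dl ^ (-(2:ℝ)) = (dl ^ 2)⁻¹ := by
    rw [Real.rpow_neg hdl.le]; norm_num
  rw [e3] at hwide
  refine ⟨hM, hA, h.kpos, hθ, an_le_an hdl hdl1 hr, hx,
    Real.rpow_le_one hdl.le hdl1 (by norm_num), Sd.s10 h.sd hrj, hs2, hrj, hGm, le_rfl, ?_, ?_,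
    ?_, e1.le, ?_⟩
  · have := h.w3 h01 (by linarith) (K := 32 * M * A) (by positivity) (by
      have : 32 * M * A * d0 ^ (1/2 : ℝ) ≤ 64 * M * A * d0 ^ (1/2 : ℝ) := by
        have : 0 < M * A * d0 ^ (1/2 : ℝ) := by positivity
        nlinarith
      linarith)
    exact this
  · calc an (dl * r1) * (s1 * (dl * r1)) ≤ an (dl * r1) * (Gm * an (dl * r1) * (dl * r1)) := by
          have := h.thin
          gcongr
      _ = Gm * (an (dl * r1) ^ 2 * (dl * r1)) := by ring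
      _ = Gm := by rw [thr h, mul_one]
  · have e4 : dl * r1 * an r1 ^ 2 = dl := by
      rw [mul_assoc, mul_an_sq hr, mul_one]
    calc an (dl * r1) ≤ dl⁻¹ * an (dl * r1) :=
          le_mul_of_one_le_left hθ'.le ((one_le_inv₀ hdl).2 hdl1)
      _ = (dl ^ 2)⁻¹ * an (dl * r1) * dl := by field_simp
      _ ≤ s2 * dl := by gcongr
      _ = s2 * (dl * r1 * an r1 ^ 2) := by rw [e4]
      _ = _ := by ring
  · -- 64 M ≤ δ θ s2 r
    have e5 : dl ^ (1/2 : ℝ) * (an r1 * ((dl ^ 2)⁻¹ * an (dl * r1) * (dl * r1))) = dl⁻¹ := by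
      calc dl ^ (1/2 : ℝ) * (an r1 * ((dl ^ 2)⁻¹ * an (dl * r1) * (dl * r1)))
          = an r1 * ((dl ^ 2)⁻¹ * (dl * r1)) * (dl ^ (1/2 : ℝ) * an (dl * r1)) := by ring
        _ = an r1 * ((dl ^ 2)⁻¹ * (dl * r1)) * an r1 := by rw [e1]
        _ = (dl ^ 2)⁻¹ * dl * (r1 * an r1 ^ 2) := by ring
        _ = (dl ^ 2)⁻¹ * dl := by rw [mul_an_sq hr, mul_one]
        _ = dl⁻¹ := by field_simp
    have h6 : 64 * M * dl ≤ 1 := by
      have g1 : dl ≤ dl ^ (1/2 : ℝ) := by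
        calc dl = dl ^ (1 : ℝ) := (Real.rpow_one _).symm
          _ ≤ _ := Real.rpow_le_rpow_of_exponent_ge hdl hdl1 (by norm_num)
      have g2 : dl ^ (1/2 : ℝ) ≤ d0 ^ (1/2 : ℝ) := Real.rpow_le_rpow hdl.le h.dlle (by norm_num)
      calc 64 * M * dl ≤ 64 * M * A * d0 ^ (1/2 : ℝ) := by
            have : 64 * M * dl ≤ 64 * M * (A * d0 ^ (1/2 : ℝ)) := by
              refine mul_le_mul_of_nonneg_left ?_ (by positivity)
              calc dl ≤ d0 ^ (1/2 : ℝ) := g1.trans g2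
                _ ≤ A * d0 ^ (1/2 : ℝ) := le_mul_of_one_le_left hd2.le hA
            linarith
        _ ≤ 1 := hd
    calc 64 * M * 1 ≤ dl⁻¹ := by
          rw [mul_one, ← one_div, le_div_iff₀ hdl]; exact h6
      _ = dl ^ (1/2 : ℝ) * (an r1 * ((dl ^ 2)⁻¹ * an (dl * r1) * (dl * r1))) := e5.symm
      _ ≤ _ := by gcongr

theorem Gm_th (h : Ctx M q a b A d0 G c0 κ η0 g r1 dl Y Gm s1' s2' s1 s2 D I1 P1 I P)
    (h01 : d0 ≤ 1) : Gm * an r1 ≤ an (dl * r1) := by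
  rw [an_dl h.dlpos h.r10]
  refine mul_le_mul_of_nonneg_right (h.Gm2.trans ?_) (an_pos h.r10).le
  exact Real.rpow_le_rpow_of_exponent_ge h.dlpos (h.dl1 h01) (by norm_num)

theorem TT_le_one (h : Ctx M q a b A d0 G c0 κ η0 g r1 dl Y Gm s1' s2' s1 s2 D I1 P1 I P)
    (ha : 1 ≤ a) : TT κ s2 (dl * r1) ≤ 1 := by
  have hs2 := Sd.s20 h.sd h.rj0
  refine max_le (pow_le_one₀ hs2.le h.sd.hi) ?_
  have h1 := h.rj_ge
  have h2 := h.k8 ha
  have hk := h.kpos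
  have hr := h.rj0
  have h3 : 1 ≤ κ * (dl * r1) := by
    have h4 : κ ^ 4 * (dl * r1) ≤ κ * (dl * r1) := by
      refine mul_le_mul_of_nonneg_right ?_ hr.le
      calc κ ^ 4 = κ * κ ^ 3 := by ring
        _ ≤ κ * 1 := mul_le_mul_of_nonneg_left (pow_le_one₀ hk.le (by linarith)) hk.le
        _ = κ := mul_one _
    linarith
  exact inv_le_one_of_one_le₀ h3

/-- the phase points of the plate at time `t` and the cells lie in the region. -/
theorem cell_rgn (h : Ctx M q a b A d0 G c0 κ η0 g r1 dl Y Gm s1' s2' s1 s2 D I1 P1 I P)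
    (hM : 1 ≤ M) (hA : 1 ≤ A) (h01 : d0 ≤ 1) (hG : 2 ≤ G)
    (hd : 64 * M * A * d0 ^ (1/2 : ℝ) ≤ 1) {i : ℕ} (hi : i ∈ I) {t : ℝ} (ht : |t| ≤ dl * r1)
    {m : ℤ × ℤ} {y : E3} (hy : y ∈ (P i).S m) {u : E3}
    (hu : u ∈ cell (an r1) κ (cen (an (dl * r1)) m)) :
    y - t • vel (cen (an (dl * r1)) m) - u ∈
      rgn M A (an r1) s2 (TT κ s2 (dl * r1)) (dl * r1) (P i).c (P i).X0 (P i).f t := by
  have hn := num_of h hM hA h01 hG hd
  have hs2 := Sd.s20 h.sd h.rj0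
  exact mem_rgn hn (Gm_th h h01) (plt_of_adm (by linarith) hs2 (h.pl.adm i hi)) (le_max_left _ _)
    (le_max_right _ _) ht (h.pl.box i hi m hy) hu

end ctx

end Crest.Agent.R116.AlS299
end

-- ▼ part R116/AlS2_299
section

/-!
# R116 (S0155), wave side, AL-CONE (helper299): `SumC`, part 2

The tail: total energy of the child plates.
-/

set_option autoImplicit false

open MeasureTheory FourierTransform
open scoped ENNReal

namespace Crest.Agent.R116.AlS299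

open Crest.Agent.R138.Defs (E2 ee)
open Crest.Agent.R138.Wpk685 (cen caps)
open Crest.Agent.R116.CDef480
open Crest.Agent.R116.LZg725 (Cf)
open Crest.Agent.R116.WC188
open Crest.Agent.R116.PC299

section

variable {M q a b A d0 G c0 κ η0 : ℝ} {g : E3 → ℂ} {r1 dl Y Gm s1' s2' s1 s2 D : ℝ}
  {I1 : Finset ℕ} {P1 : ℕ → Plate} {I : Finset ℕ} {P : ℕ → Plate}

/-- `θ ≤ d0^(1/2)`. -/
theorem an_le_d0 (h : Ctx M q a b A d0 G c0 κ η0 g r1 dl Y Gm s1' s2' s1 s2 D I1 P1 I P)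
    (h01 : d0 ≤ 1) (hG : 1 ≤ G) : an r1 ≤ d0 ^ (1/2 : ℝ) := by
  have hdl := h.dlpos
  have h1 : dl⁻¹ ≤ r1 := by
    refine le_trans ?_ h.r1ge
    rw [← Real.rpow_neg_one]
    exact Real.rpow_le_rpow_of_exponent_ge hdl (h.dl1 h01) (by linarith)
  have h2 : an r1 ≤ dl ^ (1/2 : ℝ) := by
    calc an r1 ≤ (dl⁻¹) ^ (-(1/2) : ℝ) :=
          Real.rpow_le_rpow_of_nonpos (inv_pos.2 hdl) h1 (by norm_num)
      _ = _ := by rw [Real.inv_rpow hdl.le, Real.rpow_neg hdl.le, inv_inv]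
  exact h2.trans (Real.rpow_le_rpow hdl.le h.dlle (by norm_num))

/-- the parent wave is a good function (both packages). -/
theorem gd1 (h : Ctx M q a b A d0 G c0 κ η0 g r1 dl Y Gm s1' s2' s1 s2 D I1 P1 I P)
    (ha : 1 ≤ a) (h01 : d0 ≤ 1) (hG : 1 ≤ G) (hd : 3 * d0 ^ (1/2 : ℝ) ≤ 2 - b) :
    Bas367.Gd (selc η0 κ (an r1) g (uS I1 P1)) ∧
      Ba449.Gd (6 * a) (selc η0 κ (an r1) g (uS I1 P1)) := by
  have ha0 : 0 < a := by linarith
  have hk := h.kpos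
  have hka := h.ka
  have hθ := an_pos h.r10
  have hg : Bas367.Gd g := StepC367.par_gd ha0 h.par
  have hk3 : 3 * κ ≤ a⁻¹ := by
    rw [← one_div, le_div_iff₀ ha0]
    nlinarith [mul_pos ha0 hk]
  have hgd : Bas367.Gd (selc η0 κ (an r1) g (uS I1 P1)) :=
    Bas367.selc_gd' hk hk3 hθ hg.int h.par.slc (fun ζ hζ => (h.par.gs ζ hζ).1)
      (StepC367.par_Bsc h.par)
  have hsup : ∀ ζ, selc η0 κ (an r1) g (uS I1 P1) ζ ≠ 0 →
      (2 * a)⁻¹ ≤ ζ 2 ∧ ζ 2 ≤ 2 * a ∧ ‖slp ζ‖ ≤ 2 := by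
    intro ζ hζ
    obtain ⟨e1, e2, e3, -⟩ := Bas367.selc_supp (b := b) (σ := b) (C0 := 0) ha hk
      (by nlinarith [mul_pos ha0 hk]) hθ h.par.slc (fun ζ hζ => by
        obtain ⟨f1, f2, f3⟩ := h.par.gs ζ hζ
        exact ⟨f1, f2, f3, by rwa [sub_zero]⟩) hζ
    refine ⟨e1, e2, e3.trans ?_⟩
    have := an_le_d0 h h01 hG
    linarith
  refine ⟨hgd, hgd.meas, hgd.bdd, fun ζ hζ => ?_, fun ζ hζ => (hsup ζ hζ).2.2⟩
  obtain ⟨e1, e2, e3⟩ := hsup ζ hζ
  have hζ2 : 0 < ζ 2 := lt_of_lt_of_le (by positivity) e1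
  have h4 : ‖lat ζ‖ ≤ 2 * a * 2 := by
    rw [lat_slp hζ2.ne', norm_smul, Real.norm_eq_abs, abs_of_pos hζ2]
    exact mul_le_mul e2 e3 (norm_nonneg _) (by positivity)
  have h5 := Bas367.norm_le_of h4 (show |ζ 2| ≤ 2 * a by rw [abs_of_pos hζ2]; exact e2)
  linarith

/-- **tail**: total energy of the child plates. -/
theorem tail {a b : ℝ} (ha : 1 ≤ a) : ∃ C : ℝ, 0 ≤ C ∧
    ∀ {M q A d0 G c0 κ η0 : ℝ} {g : E3 → ℂ} {r1 dl Y Gm s1' s2' s1 s2 D : ℝ}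
      {I1 : Finset ℕ} {P1 : ℕ → Plate} {I : Finset ℕ} {P : ℕ → Plate},
      Ctx M q a b A d0 G c0 κ η0 g r1 dl Y Gm s1' s2' s1 s2 D I1 P1 I P → b ≤ 2 → d0 ≤ 1 →
      1 ≤ G → 3 * d0 ^ (1/2 : ℝ) ≤ 2 - b →
      ∑ i ∈ I, enc (an (dl * r1)) (trc (P i).z (selc η0 κ (an r1) g (uS I1 P1))) (P i).S ≤
        ENNReal.ofReal (C * (dl⁻¹) ^ 4) * ENNReal.ofReal (Enc g) := by
  obtain ⟨Ce, hCe, hen⟩ := Crest.Agent.R116.CWd480.Enc_selc_le (a := 2 * a) (by linarith)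
  refine ⟨256 * Ce, by positivity, ?_⟩
  intro M q A d0 G c0 κ η0 g r1 dl Y Gm s1' s2' s1 s2 D I1 P1 I P h hb h01 hG hd
  have ha0 : 0 < a := by linarith
  have hk := h.kpos
  have hka := h.ka
  have hθ := an_pos h.r10
  have hdl := h.dlpos
  have hr := h.r10
  obtain ⟨hgd, hgd2⟩ := gd1 h ha h01 hG hd
  have hg : Bas367.Gd g := StepC367.par_gd ha0 h.par
  have hrj : dl * r1 ≤ r1 := mul_le_of_le_one_left hr.le (h.dl1 h01)
  have h1 := Ba449.sum_enc_le hgd2 (h.rj1 ha) hrj h.pl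
  have e1 : r1 / (dl * r1) = dl⁻¹ := by field_simp
  rw [e1] at h1
  -- energy of the parent wave
  have h2 : ENNReal.ofReal (Enc (selc η0 κ (an r1) g (uS I1 P1))) ≤
      ENNReal.ofReal Ce * ENNReal.ofReal (Enc g) := by
    by_cases h0 : ∃ ζ, g ζ ≠ 0
    · obtain ⟨hη, hη2⟩ := UpC448.eta0_range ha hka (fun ζ hζ =>
        ⟨(h.par.gs ζ hζ).1, (h.par.gs ζ hζ).2.1⟩) h.par.slc h0
      have h3 := hen (an r1) κ η0 hθ hk (by
          refine le_trans ?_ hη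
          rw [← one_div, div_le_div_iff₀ (by positivity) (by positivity)]
          linarith) hη2 (by
          rw [← one_div, le_div_iff₀ (by positivity)]
          linarith) g (uS I1 P1) hg.int
          (fun m _ => StepC367.par_uS_meas h.par m) (StepC367.par_Bsc h.par).bdd
      refine h3.trans (mul_le_mul' le_rfl ?_)
      have hgg : Ba449.Gd (6 * a) g := by
        refine ⟨hg.meas, hg.bdd, fun ζ hζ => ?_, fun ζ hζ => (h.par.gs ζ hζ).2.2.trans hb⟩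
        obtain ⟨f1, f2, f3⟩ := h.par.gs ζ hζ
        have hζ2 : 0 < ζ 2 := lt_of_lt_of_le (inv_pos.2 ha0) f1
        have h4 : ‖lat ζ‖ ≤ a * 2 := by
          rw [lat_slp hζ2.ne', norm_smul, Real.norm_eq_abs, abs_of_pos hζ2]
          exact mul_le_mul f2 (f3.trans hb) (norm_nonneg _) (by positivity)
        have h5 := Bas367.norm_le_of h4 (show |ζ 2| ≤ a by rw [abs_of_pos hζ2]; exact f2)
        linarith
      exact Ba449.enc_le hgg hθ _
    · push Not at h0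
      have e : selc η0 κ (an r1) g (uS I1 P1) = fun _ => 0 := by
        funext ζ
        by_contra hζ
        obtain ⟨-, ξ, hξ, -⟩ := Bas367.selc_near hk hθ hζ
        exact hξ (h0 ξ)
      rw [e]
      have : Enc (fun _ : E3 => (0 : ℂ)) = 0 := by unfold Enc; simp
      rw [this, ENNReal.ofReal_zero]
      exact zero_le
  refine h1.trans ?_
  have hd4 : (0:ℝ) ≤ 256 * dl⁻¹ ^ 4 := by positivity
  rw [ENNReal.ofReal_mul hd4]
  calc ENNReal.ofReal (256 * dl⁻¹ ^ 4) * ENNReal.ofReal (Enc (selc η0 κ (an r1) g (uS I1 P1)))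
      ≤ ENNReal.ofReal (256 * dl⁻¹ ^ 4) * (ENNReal.ofReal Ce * ENNReal.ofReal (Enc g)) := by
        gcongr
    _ = _ := by
        rw [← mul_assoc, ← ENNReal.ofReal_mul hd4]
        congr 2
        ring

end

end Crest.Agent.R116.AlS299
end

-- ▼ part R116/AlS3_299
section


/-!
# R116 (S0155), wave side, AL-CONE (helper299): `SumC`, part 3 (assembly)

`sumC : 1 ≤ M → 0 ≤ q → q ≤ 4 → KmC M q → SumC M q`.
-/

set_option autoImplicit false

open MeasureTheory FourierTransform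
open scoped ENNReal

namespace Crest.Agent.R116.AlS299

open Crest.Agent.R138.Defs (E2 ee)
open Crest.Agent.R138.Wpk685 (cen caps)
open Crest.Agent.R116.CDef480
open Crest.Agent.R116.LZg725 (Cf)
open Crest.Agent.R116.Cad538 (frc wt Acc Den_meas2 W0 W0_lt wt_cont)
open Crest.Agent.R116.WC188
open Crest.Agent.R116.PC299
open Crest.Agent.R116.SmC339 (seK enK frames_mult cy)
open Crest.Agent.R116.AlC339 (KmC SumC HH seC Fam labc Num rgn rgn_vol rgn_norm)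

/-! ### translation to the kernels of `frames_mult` -/

/-- the kernel. -/
noncomputable def kk (N : ℕ) (θ θ' κ : ℝ) (m : {m // m ∈ caps θ'}) (u : E3) : ℝ≥0∞ :=
  ENNReal.ofReal (wt (frc θ κ (cen θ' m.1)) N u)

/-- the velocities. -/
noncomputable def vv (θ' : ℝ) (m : {m // m ∈ caps θ'}) : E3 := vel (cen θ' m.1)

/-- the energies. -/
noncomputable def uu (θ' : ℝ) (g1 : E3 → ℂ) (ζ : E3 × ℝ) (m : {m // m ∈ caps θ'}) (y : E3) :
    ℝ≥0∞ := ‖umc θ' (trc ζ g1) m.1 y‖ₑ ^ 2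

theorem seK_eq (N : ℕ) (θ θ' κ : ℝ) (g1 : E3 → ℂ) (P : Plate) (x : E3) (t : ℝ) :
    seK (kk N θ θ' κ) (vv θ') (uu θ' g1 P.z) (fun m => P.S m.1) x t =
      seC N θ θ' κ g1 P x t := by
  unfold seK seC kk vv uu
  exact Finset.sum_coe_sort (caps θ') fun m => ∫⁻ y in P.S m,
    ENNReal.ofReal (wt (frc θ κ (cen θ' m)) N (y - (x + t • vel (cen θ' m)))) *
      ‖umc θ' (trc P.z g1) m y‖ₑ ^ 2

theorem enK_eq (θ' : ℝ) (g1 : E3 → ℂ) (P : Plate) :
    enK (uu θ' g1 P.z) (fun m => P.S m.1) = enc θ' (trc P.z g1) P.S := by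
  unfold enK uu enc
  exact Finset.sum_coe_sort (caps θ') fun m => ∫⁻ y in P.S m, ‖umc θ' (trc P.z g1) m y‖ₑ ^ 2

/-- one term of `val`. -/
theorem term_eq {r W : ℝ} (hr : 0 < r) (hW : 0 < W) (x : ℝ≥0∞) :
    ENNReal.ofReal ((r * W) ^ (-(1/2) : ℝ)) * (ENNReal.ofReal r * x) ^ (3 / 2 : ℝ) =
      ENNReal.ofReal (r * W ^ (-(1/2) : ℝ)) * x ^ (3 / 2 : ℝ) := by
  rw [ENNReal.mul_rpow_of_nonneg _ _ (by norm_num), ENNReal.ofReal_rpow_of_pos hr, ← mul_assoc,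
    ← ENNReal.ofReal_mul (by positivity)]
  congr 2
  rw [Real.mul_rpow hr.le hW.le]
  have e : r ^ (-(1/2) : ℝ) * r ^ (3 / 2 : ℝ) = r := by
    rw [← Real.rpow_add hr]; norm_num
  calc r ^ (-(1/2) : ℝ) * W ^ (-(1/2) : ℝ) * r ^ (3 / 2 : ℝ) =
        (r ^ (-(1/2) : ℝ) * r ^ (3 / 2 : ℝ)) * W ^ (-(1/2) : ℝ) := by ring
    _ = _ := by rw [e]

section

variable {M q a b A d0 G c0 κ η0 : ℝ} {g : E3 → ℂ} {r1 dl Y Gm s1' s2' s1 s2 D : ℝ}
  {I1 : Finset ℕ} {P1 : ℕ → Plate} {I : Finset ℕ} {P : ℕ → Plate}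

theorem fam_sub (A θ s : ℝ) (k : ℤ × ℤ) : Fam A θ s k ⊆ caps θ := by
  classical
  unfold Fam
  exact Finset.filter_subset _ _

theorem fam_near {A θ s : ℝ} {k m : ℤ × ℤ} (h : m ∈ Fam A θ s k) :
    ‖cen θ m - cen s k‖ ≤ (A + 2) * s := by
  classical
  unfold Fam at h
  exact (Finset.mem_filter.1 h).2

theorem sep_dist (h : Ctx M q a b A d0 G c0 κ η0 g r1 dl Y Gm s1' s2' s1 s2 D I1 P1 I P)
    {i j : ℕ} (hi : i ∈ I) (hj : j ∈ I) (hij : (P i).z ≠ (P j).z) :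
    dl * r1 ≤ dist (P i).z (P j).z := by
  rw [Prod.dist_eq]
  rcases h.pl.sep i hi j hj with h1 | h1 | h1
  · exact absurd h1 hij
  · exact le_max_of_le_left (by rw [dist_eq_norm]; exact h1)
  · exact le_max_of_le_right (by rw [Real.dist_eq]; exact h1)

/-- constant of the volume of the regions. -/
noncomputable def L0 (M A : ℝ) : ℝ := 5376 * (4 * A + 2 * M) * A ^ 3

theorem L0_pos (hM : 1 ≤ M) (hA : 1 ≤ A) : 0 < L0 M A := by
  unfold L0; positivity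

/-- **frames_mult** for the child plates. -/
theorem frames (h : Ctx M q a b A d0 G c0 κ η0 g r1 dl Y Gm s1' s2' s1 s2 D I1 P1 I P)
    (hM : 1 ≤ M) (hA : 1 ≤ A) (ha : 1 ≤ a) (h01 : d0 ≤ 1) (hG : 2 ≤ G)
    (hd : 64 * M * A * d0 ^ (1/2 : ℝ) ≤ 1) (hd2 : 3 * d0 ^ (1/2 : ℝ) ≤ 2 - b)
    {N n : ℕ} (hN : 4 ≤ N) {Mu τ Ch : ℝ} (hMu : 0 ≤ Mu) (hτ : 0 ≤ τ) (hCh : 0 ≤ Ch)
    (hH : HH N n A κ η0 g r1 dl s2 I1 P1 I P Mu τ)
    (hsum : ∀ (k : ℤ × ℤ) (ζ : E3 × ℝ) (x : E3) (t : ℝ), |t| ≤ dl * r1 →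
      ∑ i ∈ I with labc s2 (P i).c = k ∧ (P i).z = ζ,
        seC N (an r1) (an (dl * r1)) κ (selc η0 κ (an r1) g (uS I1 P1)) (P i) x t ≤
        ENNReal.ofReal (Ch * (an r1 ^ 2 * κ)⁻¹) * Acc n (an r1) κ (an r1) g (uS I1 P1)
          (Fam A (an r1) s2 k) (ζ.1 + x) (ζ.2 + t)) :
    val κ (selc η0 κ (an r1) g (uS I1 P1)) (dl * r1) s1 s2 I P ≤
      ENNReal.ofReal ((((2:ℝ) ^ N)⁻¹) ^ (-(3/2) : ℝ) * (Ch / V1) *
          (2 * (17 * A ^ 2) + 2) ^ (Module.finrank ℝ (E3 × ℝ)) *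
          (V1⁻¹ * L0 M A * Mu) ^ (1 / 2 : ℝ)) *
        (∑ k ∈ I.image (fun i => labc s2 (P i).c), ∫⁻ p in (cylc (34 * A ^ 2 * r1) : Set (E3 × ℝ)),
          Acc n (an r1) κ (an r1) g (uS I1 P1) (Fam A (an r1) s2 k) p.1 p.2 ^ (3 / 2 : ℝ)) +
      ENNReal.ofReal (2 * (((2:ℝ) ^ N)⁻¹) ^ (-(3/2) : ℝ) * (W0.toReal / V1) *
          (L0 M A * (an (dl * r1) / an r1) * (V1⁻¹ * τ)) ^ (1 / 2 : ℝ)) *
        (ENNReal.ofReal (dl * r1) * ∑ i ∈ I, enc (an (dl * r1))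
          (trc (P i).z (selc η0 κ (an r1) g (uS I1 P1))) (P i).S) := by
  classical
  have hdl := h.dlpos
  have hr1 := h.r10
  have hr := h.rj0
  have hk := h.kpos
  have hθ := an_pos hr1
  have hθ' := an_pos hr
  have hs2 := Sd.s20 h.sd hr
  have hs1 := Sd.s10 h.sd hr
  have hV := V1_pos
  have hL := L0_pos hM hA
  set g1 := selc η0 κ (an r1) g (uS I1 P1) with hg1
  obtain ⟨hgd, -⟩ := gd1 h ha h01 (by linarith) hd2
  rw [← hg1] at hgd
  have hgi : ∀ ζ, Integrable (trc ζ g1) := fun ζ => Bas367.trc_int hgd.int ζ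
  have hW : 0 < scost κ s1 s2 (dl * r1) := by
    unfold scost
    have : 0 < TT κ s2 (dl * r1) := lt_of_lt_of_le (by positivity) (le_max_left _ _)
    positivity
  have hvq : 0 < V1 * (an r1 ^ 2 * κ)⁻¹ := by positivity
  have hratio : 0 < an (dl * r1) / an r1 := by positivity
  set lab : {i // i ∈ I} → {k // k ∈ I.image fun i => labc s2 (P i).c} := fun i =>
    ⟨labc s2 (P i.1).c, Finset.mem_image_of_mem _ i.2⟩ with hlab
  have hgm : Integrable g := (StepC367.par_gd (by linarith) h.par).int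
  have hAm : ∀ k : ℤ × ℤ, Measurable fun p : E3 × ℝ =>
      Acc n (an r1) κ (an r1) g (uS I1 P1) (Fam A (an r1) s2 k) p.1 p.2 := fun k =>
    Den_meas2 fun m _ => Bas367.umc_meas_sq hgm _ m
  have main := frames_mult (E := E3) (M := {m // m ∈ caps (an (dl * r1))}) (I := {i // i ∈ I})
    (K := {k // k ∈ I.image fun i => labc s2 (P i).c})
    (k := kk N (an r1) (an (dl * r1)) κ) (v := vv (an (dl * r1)))
    (U := uu (an (dl * r1)) g1) (z := fun i => (P i.1).z) (S := fun i m => (P i.1).S m.1)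
    (lab := lab) (fun i m => h.pl.meas i.1 i.2 m.1)
    (fun m => ENNReal.measurable_ofReal.comp (wt_cont _ N).measurable)
    (fun ζ m => Bas367.umc_meas_sq (hgi ζ) _ m.1)
    (q := fun m => cell (an r1) κ (cen (an (dl * r1)) m.1)) (fun m => cell_meas _ _ _)
    (c0 := ((2:ℝ) ^ N)⁻¹) (Vq := V1 * (an r1 ^ 2 * κ)⁻¹) (W := scost κ s1 s2 (dl * r1))
    (Lam := L0 M A * (an (dl * r1) / an r1)) (Mu := V1⁻¹ * L0 M A * Mu) (τ := V1⁻¹ * τ)
    (CQ := W0.toReal / V1) (CG := Ch / V1) (by positivity) hvq hW (by positivity) (by positivity)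
    (by positivity) (by positivity) (by positivity)
    (fun m u hu => ENNReal.ofReal_le_ofReal (ker_ge hu))
    (fun m => (cell_vol hθ hk _).ge)
    (fun m => ker_mass hθ hk _ hN)
    (r := dl * r1) (K0 := 17 * A ^ 2) (R := 17 * A ^ 2 * r1) hr (by positivity)
    (by
      have : dl * r1 ≤ r1 := mul_le_of_le_one_left hr1.le (h.dl1 h01)
      gcongr)
    (fun i => by
      have h1 := h.pl.mem i.1 i.2
      have h2 : r1 ≤ 17 * A ^ 2 * r1 := by
        have : 1 ≤ 17 * A ^ 2 := by nlinarith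
        exact le_mul_of_one_le_left hr1.le this
      exact ⟨h1.1.trans h2, h1.2.trans h2⟩)
    (fun i j hij => sep_dist h i.2 j.2 hij)
    (fun i t => rgn M A (an r1) s2 (TT κ s2 (dl * r1)) (dl * r1) (P i.1).c (P i.1).X0 (P i.1).f t)
    (fun i t _ => (Crest.Agent.R116.AlV339.regC_closed _ _ _ _ _ _ _ _ _).measurableSet)
    (fun i t ht m y hy u hu => cell_rgn h hM hA h01 hG hd i.2 ht hy hu)
    (fun i t _ => by
      have h1 := rgn_vol (M := M) (A := A) (θ := an r1) (θ' := an (dl * r1)) (s1 := s1) (s2 := s2)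
        (T := TT κ s2 (dl * r1)) (r := dl * r1) hA hM hθ hs2 hr (le_max_left _ _) h.sd.lo hθ'
        (thr h).ge (P i.1).c (P i.1).X0 (P i.1).f t
      refine h1.trans (ENNReal.ofReal_le_ofReal (le_of_eq ?_))
      unfold L0 scost
      ring)
    (fun i t ht x hx => rgn_norm hA hr h.sd.hi (TT_le_one h ha) (h.pl.X0 i.1 i.2) (h.pl.c i.1 i.2)
      ht hx)
    (by nlinarith)
    (fun k p => Acc n (an r1) κ (an r1) g (uS I1 P1) (Fam A (an r1) s2 k.1) p.1 p.2)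
    (fun k => hAm k.1)
    (fun i t ht x _ => by
      rw [seK_eq]
      refine (hH i.1 i.2 x t ht).trans (le_of_eq ?_)
      have e1 : V1⁻¹ * L0 M A * Mu / (L0 M A * (an (dl * r1) / an r1)) =
          V1⁻¹ * (Mu * (an r1 / an (dl * r1))) := by
        field_simp
      have e2 : ((x, t) + (P i.1).z : E3 × ℝ).1 = (P i.1).z.1 + x := by
        rw [Prod.fst_add, add_comm]
      have e3 : ((x, t) + (P i.1).z : E3 × ℝ).2 = (P i.1).z.2 + t := by
        rw [Prod.snd_add, add_comm]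
      rw [e1, e2, e3, ENNReal.ofReal_mul (p := V1) hV.le,
        ENNReal.ofReal_mul (p := V1⁻¹) (by positivity), ENNReal.ofReal_mul (p := V1⁻¹)
          (by positivity), mul_assoc (ENNReal.ofReal V1⁻¹), ← mul_add (ENNReal.ofReal V1⁻¹)]
      have e4 : ENNReal.ofReal V1 * ENNReal.ofReal V1⁻¹ = 1 := by
        rw [← ENNReal.ofReal_mul hV.le, mul_inv_cancel₀ hV.ne', ENNReal.ofReal_one]
      calc _ = (ENNReal.ofReal V1 * ENNReal.ofReal V1⁻¹) * (ENNReal.ofReal ((an r1 ^ 2 * κ)⁻¹) *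
            (ENNReal.ofReal (Mu * (an r1 / an (dl * r1))) *
          Acc n (an r1) κ (an r1) g (uS I1 P1) (Fam A (an r1) s2 (labc s2 (P i.1).c))
            ((P i.1).z.1 + x) ((P i.1).z.2 + t) + ENNReal.ofReal τ)) := by rw [e4, one_mul]
        _ = _ := by ring)
    (fun k ζ x t ht => by
      have e1 : Ch / V1 * (V1 * (an r1 ^ 2 * κ)⁻¹) = Ch * (an r1 ^ 2 * κ)⁻¹ := by
        field_simp
      have e2 : ((x, t) + ζ : E3 × ℝ).1 = ζ.1 + x := by rw [Prod.fst_add, add_comm]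
      have e3 : ((x, t) + ζ : E3 × ℝ).2 = ζ.2 + t := by rw [Prod.snd_add, add_comm]
      rw [e1, e2, e3]
      refine le_trans (le_of_eq ?_) (hsum k.1 ζ x t ht)
      rw [Finset.sum_filter, Finset.sum_filter, ← Finset.sum_coe_sort I]
      refine Finset.sum_congr rfl fun i _ => ?_
      have e4 : (lab i = k ∧ (P i.1).z = ζ) ↔ (labc s2 (P i.1).c = k.1 ∧ (P i.1).z = ζ) := by
        rw [hlab, Subtype.ext_iff]
      by_cases hc : labc s2 (P i.1).c = k.1 ∧ (P i.1).z = ζ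
      · rw [if_pos (e4.2 hc), if_pos hc, ← seK_eq, hc.2]
      · rw [if_neg fun hh => hc (e4.1 hh), if_neg hc])
  -- translation
  have t1 : val κ g1 (dl * r1) s1 s2 I P = ∑ i : {i // i ∈ I},
      ENNReal.ofReal (dl * r1 * scost κ s1 s2 (dl * r1) ^ (-(1/2) : ℝ)) *
        enK (uu (an (dl * r1)) g1 (P i.1).z) (fun m => (P i.1).S m.1) ^ (3 / 2 : ℝ) := by
    unfold val
    rw [← Finset.sum_coe_sort I]
    refine Finset.sum_congr rfl fun i _ => ?_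
    rw [enK_eq, term_eq hr hW]
  have t2 : ∑ i : {i // i ∈ I}, enK (uu (an (dl * r1)) g1 (P i.1).z) (fun m => (P i.1).S m.1) =
      ∑ i ∈ I, enc (an (dl * r1)) (trc (P i).z g1) (P i).S := by
    rw [← Finset.sum_coe_sort I]
    exact Finset.sum_congr rfl fun i _ => enK_eq _ _ _
  have t3 : ∑ k : {k // k ∈ I.image fun i => labc s2 (P i).c},
      ∫⁻ p in cy (2 * (17 * A ^ 2 * r1)),
        Acc n (an r1) κ (an r1) g (uS I1 P1) (Fam A (an r1) s2 k.1) p.1 p.2 ^ (3 / 2 : ℝ) =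
      ∑ k ∈ I.image (fun i => labc s2 (P i).c), ∫⁻ p in (cylc (34 * A ^ 2 * r1) : Set (E3 × ℝ)),
          Acc n (an r1) κ (an r1) g (uS I1 P1) (Fam A (an r1) s2 k) p.1 p.2 ^ (3 / 2 : ℝ) := by
    rw [← Finset.sum_coe_sort (I.image fun i => labc s2 (P i).c)]
    refine Finset.sum_congr rfl fun k _ => ?_
    have e5 : 2 * (17 * A ^ 2 * r1) = 34 * A ^ 2 * r1 := by ring
    rw [e5]
    rfl
  rw [t1]
  refine main.trans (le_of_eq ?_)
  rw [t2, t3]

end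

end Crest.Agent.R116.AlS299
end

-- ▼ part R116/AlS0_883

/-!
# R116 (S0155), wave side, AL-CONE: the orthogonality row of `SumC` (helper883)

`hsum_C` : the energies (seen from `(x, t)`) of the child plates of one frame and one label are
bounded by the parent density in the caps near the label.  This is the hypothesis `hsum` of
`SmC339.frames_mult`.
-/

set_option autoImplicit false

open MeasureTheory
open scoped ENNReal

namespace Crest.Agent.R116.AlS883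

open Crest.Agent.R138.Defs (E2)
open Crest.Agent.R138.Wpk685 (cen caps)
open Crest.Agent.R138.Loc878 (nearL mem_nearL Near)
open Crest.Agent.R116.CDef480
open Crest.Agent.R116.LZg725 (Cf)
open Crest.Agent.R116.Cad538 (frc wt Acc Den_anti)
open Crest.Agent.R116.AlB888 (Adc Adc_row sum_Adc_le)
open Crest.Agent.R116.WC188
open Crest.Agent.R116.PC299
open Crest.Agent.R116.AlC339

/-- the label of a slope is a nearest lattice point. -/
theorem norm_sub_labc {s : ℝ} (hs : 0 < s) (c : E2) : ‖c - cen s (labc s c)‖ ≤ s := by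
  have key : ∀ j : Fin 2, |c j - (cen s (labc s c)) j| ≤ s / 2 := by
    intro j
    have h : ∀ u : ℝ, |u - s * (round (u / s) : ℝ)| ≤ s / 2 := by
      intro u
      have h1 := abs_sub_round (u / s)
      have e : u - s * (round (u / s) : ℝ) = s * (u / s - round (u / s)) := by
        field_simp
      rw [e, abs_mul, abs_of_pos hs]
      nlinarith
    fin_cases j
    · simpa [cen, labc] using h (c 0)
    · simpa [cen, labc] using h (c 1)
  have h2 : ‖c - cen s (labc s c)‖ ^ 2 ≤ s ^ 2 := by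
    rw [EuclideanSpace.norm_sq_eq, Fin.sum_univ_two]
    have h0 := key 0
    have h1 := key 1
    have e0 : ‖(c - cen s (labc s c)) 0‖ = |c 0 - (cen s (labc s c)) 0| := rfl
    have e1 : ‖(c - cen s (labc s c)) 1‖ = |c 1 - (cen s (labc s c)) 1| := rfl
    rw [e0, e1]
    have g0 := pow_le_pow_left₀ (abs_nonneg _) h0 2
    have g1 := pow_le_pow_left₀ (abs_nonneg _) h1 2
    nlinarith [sq_nonneg s]
  exact (sq_le_sq₀ (norm_nonneg _) hs.le).1 h2

open Classical in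
/-- sum over disjoint sets. -/
theorem sum_setLIntegral_le {ι : Type} (F : Finset ι) {S : ι → Set E3}
    (hm : ∀ i ∈ F, MeasurableSet (S i)) (hd : ∀ i ∈ F, ∀ j ∈ F, i ≠ j → Disjoint (S i) (S j))
    (f : E3 → ℝ≥0∞) : ∑ i ∈ F, ∫⁻ y in S i, f y ≤ ∫⁻ y, f y := by
  rw [← lintegral_biUnion_finset (fun i hi j hj hij => hd i hi j hj hij) hm]
  exact setLIntegral_le_lintegral _ _

open Classical in
/-- **orthogonality row**, one frame and one label. -/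
theorem hsum_C (a b : ℝ) (ha : 1 ≤ a) (n N : ℕ) (hnN : n ≤ N) :
    ∃ C : ℝ, 0 ≤ C ∧ ∀ (M q A : ℝ), 1 ≤ A →
    ∀ (d0 G c0 κ η0 : ℝ) (g : E3 → ℂ) (r1 dl Y Gm s1' s2' s1 s2 D : ℝ)
      (I1 : Finset ℕ) (P1 : ℕ → Plate) (I : Finset ℕ) (P : ℕ → Plate),
    Ctx M q a b A d0 G c0 κ η0 g r1 dl Y Gm s1' s2' s1 s2 D I1 P1 I P → d0 ≤ 1 → 1 ≤ G →
    3 * d0 ^ (1/2 : ℝ) ≤ 1 →
    ∀ (k : ℤ × ℤ) (ζ : E3 × ℝ), ∀ F ⊆ I, (∀ i ∈ F, labc s2 (P i).c = k ∧ (P i).z = ζ) →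
    ∀ (x : E3) (t : ℝ), |t| ≤ dl * r1 →
      ∑ i ∈ F, seC N (an r1) (an (dl * r1)) κ (selc η0 κ (an r1) g (uS I1 P1)) (P i) x t ≤
        ENNReal.ofReal (C * (an r1 ^ 2 * κ)⁻¹) *
          Acc n (an r1) κ (an r1) g (uS I1 P1) (Fam A (an r1) s2 k) (ζ.1 + x) (ζ.2 + t) := by
  obtain ⟨C1, hC1, hiso⟩ := UpC448.isoC_448 a b ha N
  refine ⟨C1 * 201 ^ N * 36, by positivity, ?_⟩
  intro M q A hA d0 G c0 κ η0 g r1 dl Y Gm s1' s2' s1 s2 D I1 P1 I P hX h01 hG h3 k ζ F hF hlab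
    x t ht
  rcases F.eq_empty_or_nonempty with hFe | ⟨i0, hi0⟩
  · subst hFe
    simp
  have hr0 := hX.r10
  have hrj := hX.rj0
  have hd := hX.dlpos
  have hd1 := hX.dl1 h01
  have hr1 := hX.r11 h01 ha
  have hrj1 := hX.rj1 ha
  have hκ := hX.kpos
  set θ := an r1 with hθd
  set θ' := an (dl * r1) with hθ'd
  have hθ : 0 < θ := an_pos hr0
  have hθ' : 0 < θ' := an_pos hrj
  have hθθ' : θ ≤ θ' := an_le_an hd hd1 hr0
  have hθ'1 : θ' ≤ 1 := an_le_one hrj1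
  have hst := hX.st1' h01
  have hs20 : 0 < s2 := Sd.s20 hX.sd hrj
  have hw : 3 * θ' ≤ s2 := by
    have h4 := hX.w1 (K := 3) h01 hG (by norm_num) h3
    have h5 : θ' ≤ Gm * θ' := le_mul_of_one_le_left hθ'.le hX.Gm1
    linarith
  -- the frame
  have hζ : ζ ∈ cylc r1 := by
    have := hX.pl.mem i0 (hF hi0)
    rwa [(hlab i0 hi0).2] at this
  have hζ2 : |ζ.2| * θ ^ 2 ≤ 1 := by
    rw [hθd, an_sq hr0, ← div_eq_mul_inv, div_le_one hr0]
    exact hζ.2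
  set S := uS I1 P1 with hS
  have hSm : ∀ m, MeasurableSet (S m) := fun m =>
    Finset.measurableSet_biUnion _ fun i hi => hX.par.meas i hi m
  have hSb : ∀ m, Bornology.IsBounded (S m) := fun m =>
    Metric.isBounded_closedBall.subset (hX.par.bd m)
  -- the active caps
  set T : Finset (ℤ × ℤ) := (caps θ').filter fun m => ∃ i ∈ F, ((P i).S m).Nonempty with hT
  set w : ℤ × ℤ → E3 → ℝ≥0∞ := fun m y =>
    ENNReal.ofReal (wt (frc θ κ (cen θ' m)) N (y - (x + t • vel (cen θ' m)))) *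
      ‖umc θ' (trc ζ (selc η0 κ θ g S)) m y‖ₑ ^ 2 with hwd
  have e1 : ∑ i ∈ F, seC N θ θ' κ (selc η0 κ θ g S) (P i) x t =
      ∑ m ∈ caps θ', ∑ i ∈ F, ∫⁻ y in (P i).S m, w m y := by
    unfold seC
    rw [Finset.sum_comm]
    refine Finset.sum_congr rfl fun m _ => Finset.sum_congr rfl fun i hi => ?_
    rw [(hlab i hi).2]
  have e2 : ∑ m ∈ caps θ', ∑ i ∈ F, ∫⁻ y in (P i).S m, w m y =
      ∑ m ∈ T, ∑ i ∈ F, ∫⁻ y in (P i).S m, w m y := by
    symm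
    refine Finset.sum_subset (Finset.filter_subset _ _) fun m hm hmT => ?_
    refine Finset.sum_eq_zero fun i hi => ?_
    have hemp : (P i).S m = ∅ := by
      by_contra hne
      exact hmT (Finset.mem_filter.2 ⟨hm, i, hi, Set.nonempty_iff_ne_empty.2 hne⟩)
    rw [hemp, Measure.restrict_empty, lintegral_zero_measure]
  have e3 : ∀ m ∈ T, ∑ i ∈ F, ∫⁻ y in (P i).S m, w m y ≤
      ENNReal.ofReal (C1 * 201 ^ N * (θ ^ 2 * κ)⁻¹) *
        Adc N θ κ θ' g S m (ζ.1 + x) (ζ.2 + t) := by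
    intro m hm
    have h1 : ∑ i ∈ F, ∫⁻ y in (P i).S m, w m y ≤ ∫⁻ y, w m y := by
      refine sum_setLIntegral_le F (fun i hi => hX.pl.meas i (hF hi) m) (fun i hi j hj hij => ?_) _
      exact hX.pl.disj i (hF hi) j (hF hj) hij (by rw [(hlab i hi).2, (hlab j hj).2]) m
    have h2 := hiso κ η0 θ θ' g S ζ m (x + t • vel (cen θ' m)) hκ hX.ka hθ hθθ' hθ'1 hst
      hX.par.gm hX.par.gb hX.par.gs hX.par.slc hSm hSb hζ2
    have h3' := Adc_row (n := N) (g := g) (S := S) (j := m) (C' := cen θ' m) (th := θ) (th1 := θ')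
      (th2 := θ') (kp := κ) (s := t) (X := ζ.1 + x) (Y := ζ.1 + (x + t • vel (cen θ' m)))
      (t := ζ.2) (δ := 0) hθ le_rfl hκ.le hst
      (by
        have : θ * θ' ≤ (dl * r1)⁻¹ := by
          have h5 : θ' * θ' = (dl * r1)⁻¹ := an_mul_an hrj
          nlinarith
        calc |t| * (θ * θ') ≤ (dl * r1) * (dl * r1)⁻¹ :=
              mul_le_mul ht this (by positivity) hrj.le
          _ = 1 := mul_inv_cancel₀ hrj.ne')
      (by
        have h5 : θ' ^ 2 = (dl * r1)⁻¹ := an_sq hrj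
        have h6 : κ ≤ 1 := by
          have := hX.k8 ha
          linarith
        calc |t| * (κ * θ' ^ 2) ≤ (dl * r1) * (1 * (dl * r1)⁻¹) := by
              rw [h5]
              gcongr
          _ = 1 := by rw [one_mul, mul_inv_cancel₀ hrj.ne'])
      (by rw [sub_self, norm_zero]; positivity) le_rfl
      (by
        have : ζ.1 + (x + t • vel (cen θ' m)) - (ζ.1 + x) - t • vel (cen θ' m) = 0 := by abel
        rw [this, map_zero, norm_zero])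
    have h4 : (1 + (21 * (0:ℝ) + 200)) ^ N = 201 ^ N := by norm_num
    rw [h4] at h3'
    calc _ ≤ ∫⁻ y, w m y := h1
      _ ≤ ENNReal.ofReal (C1 * (θ ^ 2 * κ)⁻¹) *
          Adc N θ κ θ' g S m (ζ.1 + (x + t • vel (cen θ' m))) ζ.2 := h2
      _ ≤ ENNReal.ofReal (C1 * (θ ^ 2 * κ)⁻¹) * (ENNReal.ofReal (201 ^ N) *
          Adc N θ κ θ' g S m (ζ.1 + x) (ζ.2 + t)) := mul_le_mul' le_rfl h3'
      _ = _ := by
          rw [← mul_assoc, ← ENNReal.ofReal_mul (by positivity)]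
          congr 2
          ring
  -- near caps are in the family
  have hfam : ∀ m ∈ T, nearL θ θ' m ⊆ Fam A θ s2 k := by
    intro m hm j hj
    obtain ⟨-, i, hi, y, hy⟩ := Finset.mem_filter.1 hm
    obtain ⟨j1, j2⟩ := mem_nearL.1 hj
    unfold Fam
    refine Finset.mem_filter.2 ⟨j1, ?_⟩
    have h5 : ‖cen θ' m - (P i).c‖ ≤ A * s2 := pbx_cen (hX.pl.box i (hF hi) m hy)
    have h6 : ‖(P i).c - cen s2 k‖ ≤ s2 := by
      rw [← (hlab i hi).1]; exact norm_sub_labc hs20 _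
    have h7 : ‖cen θ j - cen θ' m‖ < 3 * θ' := j2
    have e : cen θ j - cen s2 k = (cen θ j - cen θ' m) + (cen θ' m - (P i).c) +
        ((P i).c - cen s2 k) := by abel
    rw [e]
    refine (norm_add_le _ _).trans ?_
    have h8 := norm_add_le (cen θ j - cen θ' m) (cen θ' m - (P i).c)
    nlinarith
  rw [e1, e2]
  calc _ ≤ ∑ m ∈ T, ENNReal.ofReal (C1 * 201 ^ N * (θ ^ 2 * κ)⁻¹) *
        Adc N θ κ θ' g S m (ζ.1 + x) (ζ.2 + t) := Finset.sum_le_sum e3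
    _ = ENNReal.ofReal (C1 * 201 ^ N * (θ ^ 2 * κ)⁻¹) *
        ∑ m ∈ T, Adc N θ κ θ' g S m (ζ.1 + x) (ζ.2 + t) := by rw [Finset.mul_sum]
    _ ≤ ENNReal.ofReal (C1 * 201 ^ N * (θ ^ 2 * κ)⁻¹) *
        (36 * Acc N θ κ θ g S (Fam A θ s2 k) (ζ.1 + x) (ζ.2 + t)) :=
        mul_le_mul' le_rfl (sum_Adc_le hθ' (Finset.filter_subset _ _) hfam _ _)
    _ ≤ ENNReal.ofReal (C1 * 201 ^ N * (θ ^ 2 * κ)⁻¹) *
        (36 * Acc n θ κ θ g S (Fam A θ s2 k) (ζ.1 + x) (ζ.2 + t)) := by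
        refine mul_le_mul' le_rfl (mul_le_mul' le_rfl ?_)
        exact Den_anti hnN _ _
    _ = _ := by
        rw [← mul_assoc]
        congr 1
        have e36 : (36 : ℝ≥0∞) = ENNReal.ofReal 36 := by norm_num
        rw [e36, ← ENNReal.ofReal_mul (by positivity)]
        congr 1
        ring

open Classical in
/-- **orthogonality row** (299's literal). -/
theorem hsum (a b : ℝ) (ha : 1 ≤ a) {n N : ℕ} (hnN : n ≤ N) : ∃ C : ℝ, 0 ≤ C ∧
    ∀ {M q A d0 G c0 κ η0 : ℝ} {g : E3 → ℂ} {r1 dl Y Gm s1' s2' s1 s2 D : ℝ}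
      {I1 : Finset ℕ} {P1 : ℕ → Plate} {I : Finset ℕ} {P : ℕ → Plate},
    1 ≤ A → d0 ≤ 1 → 3 * d0 ^ (1/2 : ℝ) ≤ 1 → 1 ≤ G →
    Ctx M q a b A d0 G c0 κ η0 g r1 dl Y Gm s1' s2' s1 s2 D I1 P1 I P →
    ∀ (k : ℤ × ℤ) (ζ : E3 × ℝ) (x : E3) (t : ℝ), |t| ≤ dl * r1 →
      ∑ i ∈ I with labc s2 (P i).c = k ∧ (P i).z = ζ,
        seC N (an r1) (an (dl * r1)) κ (selc η0 κ (an r1) g (uS I1 P1)) (P i) x t ≤
        ENNReal.ofReal (C * (an r1 ^ 2 * κ)⁻¹) *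
          Acc n (an r1) κ (an r1) g (uS I1 P1) (Fam A (an r1) s2 k) (ζ.1 + x) (ζ.2 + t) := by
  obtain ⟨C, hC, h⟩ := hsum_C a b ha n N hnN
  refine ⟨C, hC, ?_⟩
  intro M q A d0 G c0 κ η0 g r1 dl Y Gm s1' s2' s1 s2 D I1 P1 I P hA h01 h3 hG hX k ζ x t ht
  exact h M q A hA d0 G c0 κ η0 g r1 dl Y Gm s1' s2' s1 s2 D I1 P1 I P hX h01 hG h3 k ζ _
    (Finset.filter_subset _ _) (fun i hi => (Finset.mem_filter.1 hi).2) x t ht

end Crest.Agent.R116.AlS883
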