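import Crest.Agent.R116.AlG3_339
import Crest.Agent.R116.AlB3_888
import Crest.Agent.R116.PDefC_299
import Crest.Agent.R116.Bas2_367
import Crest.Agent.R116.AlD_339
import Crest.Agent.R116.UpC5_448
import Crest.Agent.R116.En_387
import Crest.Agent.R116.Tr1_126

-- ▼ part R116/AlH1_339
section

/-!
# R116 (S0155), wave side, AL-CONE (helper339): covering of a strip by cells

Cells `1/θ' (N) × 1/θ (u) × 1/κ` with centres on the line through the source in direction `N`.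
-/

set_option autoImplicit false

open MeasureTheory
open scoped ENNReal

namespace Crest.Agent.R116.AlC339

open Crest.Agent.R138.Defs (E2)
open Crest.Agent.R116.CDef480 Crest.Agent.R116.Ckm538 Crest.Agent.R116.Cad538

/-- weight of the cell `1/θ' (N) × 1/θ (u) × 1/κ`. -/
noncomputable def wcell (θ θ' κ : ℝ) (N u C : E2) (n : ℕ) (x : E3) : ℝ :=
  ((1 + (θ' * inner ℝ N (lat x)) ^ 2 + (θ * inner ℝ u (lat x)) ^ 2 + (κ * nrm C x 0) ^ 2) ^ n)⁻¹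

/-- the orthogonal direction. -/
noncomputable def perp (N : E2) : E2 := !₂[-(N 1), N 0]

theorem perp_norm (N : E2) : ‖perp N‖ = ‖N‖ := by
  have h : ‖perp N‖ ^ 2 = ‖N‖ ^ 2 := by
    rw [normsq2, normsq2]
    show (-(N 1)) ^ 2 + (N 0) ^ 2 = _
    ring
  exact (pow_left_inj₀ (norm_nonneg _) (norm_nonneg _) (by norm_num)).1 h

theorem inner_perp (N : E2) : inner ℝ N (perp N) = 0 := by
  rw [CDef480.inner2]
  show N 0 * (-(N 1)) + N 1 * N 0 = 0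
  ring

theorem inner_perp_sq {N : E2} (hN : ‖N‖ = 1) (w : E2) :
    (inner ℝ N w) ^ 2 + (inner ℝ (perp N) w) ^ 2 = ‖w‖ ^ 2 := by
  have h : N 0 ^ 2 + N 1 ^ 2 = 1 := by rw [← normsq2, hN]; norm_num
  rw [CDef480.inner2, CDef480.inner2, normsq2]
  show (N 0 * w 0 + N 1 * w 1) ^ 2 + (-(N 1) * w 0 + N 0 * w 1) ^ 2 = _
  have : (N 0 * w 0 + N 1 * w 1) ^ 2 + (-(N 1) * w 0 + N 0 * w 1) ^ 2 =
      (N 0 ^ 2 + N 1 ^ 2) * (w 0 ^ 2 + w 1 ^ 2) := by ring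
  rw [this, h, one_mul]

/-- the direction `N` inside the plates of slope `C`. -/
noncomputable def tl (C N : E2) : E3 := pt N (-(inner ℝ C N))

theorem lat_tl (C N : E2) : lat (tl C N) = N := by unfold tl; rw [lat_pt]

theorem nrm_tl (C N : E2) : nrm C (tl C N) 0 = 0 := by
  unfold nrm tl
  rw [lat_pt, pt_two]
  ring

/-- centre of the cell number `l`. -/
noncomputable def ctr (θ' : ℝ) (C N : E2) (c y0 : E3) (l : ℤ) : E3 :=
  c + (inner ℝ N (lat (y0 - c)) + l / θ') • tl C N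

theorem wcell_pos (θ θ' κ : ℝ) (N u C : E2) (n : ℕ) (x : E3) : 0 < wcell θ θ' κ N u C n x := by
  unfold wcell; positivity

theorem wcell_cont (θ θ' κ : ℝ) (N u C : E2) (n : ℕ) : Continuous (wcell θ θ' κ N u C n) := by
  have h1 : Continuous lat := latL.continuous
  have h2 := AlV339.nrm_cont C 0
  unfold wcell
  refine Continuous.inv₀ (by fun_prop) fun x => ?_
  positivity

theorem wcell_meas (θ θ' κ : ℝ) (N u C : E2) (n : ℕ) (c : E3) :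
    Measurable fun y => ENNReal.ofReal (wcell θ θ' κ N u C n (y - c)) :=
  ENNReal.measurable_ofReal.comp
    ((wcell_cont θ θ' κ N u C n).measurable.comp (measurable_id.sub_const c))

/-- **one cell** carries the isotropic weight. -/
theorem wt_le_cell {θ θ' κ : ℝ} (hθ' : 0 < θ') {C N : E2} (hN : ‖N‖ = 1)
    (n : ℕ) {c y0 y : E3} {L0 : ℝ} (h : |θ' * inner ℝ N (lat (y - y0))| ≤ L0) :
    wt (frc θ κ C) (2 * n) (y - c) ≤ 2 ^ n *
      ∑ l ∈ Finset.Icc (-⌈L0⌉ - 1) (⌈L0⌉ + 1),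
        wcell θ θ' κ N (perp N) C n (y - ctr θ' C N c y0 l) := by
  set s : ℝ := θ' * inner ℝ N (lat (y - y0)) with hs
  set l : ℤ := round s with hl
  have hls : |s - l| ≤ 1 / 2 := abs_sub_round s
  have hmem : l ∈ Finset.Icc (-⌈L0⌉ - 1) (⌈L0⌉ + 1) := by
    have h1 := abs_le.1 h
    have h2 := abs_le.1 hls
    have h3 := Int.le_ceil L0
    rw [Finset.mem_Icc]
    constructor
    · have : ((-⌈L0⌉ - 1 : ℤ) : ℝ) ≤ l := by push_cast; linarith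
      exact_mod_cast this
    · have : (l : ℝ) ≤ ((⌈L0⌉ + 1 : ℤ) : ℝ) := by push_cast; linarith
      exact_mod_cast this
  have hone : wt (frc θ κ C) (2 * n) (y - c) ≤ 2 ^ n *
      wcell θ θ' κ N (perp N) C n (y - ctr θ' C N c y0 l) := by
    have e0 : y - ctr θ' C N c y0 l = (y - c) - (inner ℝ N (lat (y0 - c)) + l / θ') • tl C N := by
      unfold ctr; abel
    have e1 : inner ℝ N (lat (y - ctr θ' C N c y0 l)) = inner ℝ N (lat (y - y0)) - l / θ' := by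
      rw [e0, lat_sub, lat_smul, lat_tl, inner_sub_right, real_inner_smul_right,
        real_inner_self_eq_norm_sq, hN]
      have : lat (y - c) = lat (y - y0) + lat (y0 - c) := by
        rw [← lat_add]; congr 1; abel
      rw [this, inner_add_right]
      ring
    have e2 : inner ℝ (perp N) (lat (y - ctr θ' C N c y0 l)) = inner ℝ (perp N) (lat (y - c)) := by
      have h0 : inner ℝ (perp N) N = 0 := by rw [real_inner_comm]; exact inner_perp N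
      rw [e0, lat_sub, lat_smul, lat_tl, inner_sub_right, real_inner_smul_right, h0, mul_zero,
        sub_zero]
    have e3 : nrm C (y - ctr θ' C N c y0 l) 0 = nrm C (y - c) 0 := by
      rw [e0, nrm_sub2, nrm_smul0, nrm_tl, mul_zero, sub_zero]
    unfold wt wcell
    rw [e1, e2, e3, ← div_eq_mul_inv, inv_eq_one_div, div_le_div_iff₀ (by positivity)
      (by positivity), one_mul, pow_mul, ← mul_pow]
    refine pow_le_pow_left₀ (by positivity) ?_ n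
    have h5 : θ' * (inner ℝ N (lat (y - y0)) - l / θ') = s - l := by
      rw [hs]; field_simp
    rw [h5]
    have h6 : (s - l) ^ 2 ≤ 1 := by
      rw [← sq_abs]
      nlinarith [abs_nonneg (s - l)]
    have h7 := norm_frc_sq θ κ C (y - c)
    have h8 : (θ * inner ℝ (perp N) (lat (y - c))) ^ 2 ≤ (θ * ‖lat (y - c)‖) ^ 2 := by
      rw [mul_pow, mul_pow]
      have := inner_perp_sq hN (lat (y - c))
      have h9 := sq_nonneg (inner ℝ N (lat (y - c)))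
      refine mul_le_mul_of_nonneg_left ?_ (sq_nonneg _)
      linarith
    have h10 := norm_nonneg (frc θ κ C (y - c))
    nlinarith
  refine hone.trans (mul_le_mul_of_nonneg_left ?_ (by positivity))
  exact Finset.single_le_sum (f := fun l => wcell θ θ' κ N (perp N) C n (y - ctr θ' C N c y0 l))
    (fun l _ => (wcell_pos _ _ _ _ _ _ _ _).le) hmem

/-- number of cells. -/
theorem card_cells {L0 : ℝ} (hL : 1 ≤ L0) :
    ((Finset.Icc (-⌈L0⌉ - 1) (⌈L0⌉ + 1)).card : ℝ) ≤ 7 * L0 := by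
  rw [Int.card_Icc]
  have h1 := (Int.ceil_lt_add_one L0).le
  have h2 : 0 ≤ ⌈L0⌉ := Int.ceil_nonneg (by linarith)
  have e : ((⌈L0⌉ + 1 + 1 - (-⌈L0⌉ - 1)).toNat : ℝ) = 2 * ⌈L0⌉ + 3 := by
    have : ((⌈L0⌉ + 1 + 1 - (-⌈L0⌉ - 1)).toNat : ℤ) = 2 * ⌈L0⌉ + 3 := by
      rw [Int.toNat_of_nonneg (by omega)]; ring
    exact_mod_cast this
  rw [e]
  linarith

/-- **covering.** `U` = the wave, `V ν` = the aligned waves. -/
theorem cell_sum {θ θ' κ : ℝ} (hθ' : 0 < θ') {C : E2} (n : ℕ) {c y0 : E3} {L0 Y : ℝ}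
    {W : Finset E2} (hW : ∀ ν ∈ W, ‖ν‖ = 1) {S' : Set E3} (hS' : MeasurableSet S')
    {U : E3 → ℝ≥0∞} {V : E2 → E3 → ℝ≥0∞} (hV : ∀ ν ∈ W, Measurable (V ν))
    (hUV : ∀ y ∈ S', ‖frc θ κ C (y - c)‖ ≤ Y → ∃ ν ∈ W,
      |θ' * inner ℝ ν (lat (y - y0))| ≤ L0 ∧ U y ≤ 4 * V ν y) {Bd : ℝ≥0∞}
    (hBd : ∀ ν ∈ W, ∀ l ∈ Finset.Icc (-⌈L0⌉ - 1) (⌈L0⌉ + 1),
      ∫⁻ y, ENNReal.ofReal (wcell θ θ' κ ν (perp ν) C n (y - ctr θ' C ν c y0 l)) * V ν y ≤ Bd) :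
    ∫⁻ y in S' ∩ {y | ‖frc θ κ C (y - c)‖ ≤ Y},
        ENNReal.ofReal (wt (frc θ κ C) (2 * n) (y - c)) * U y ≤
      ENNReal.ofReal (4 * 2 ^ n) * (W.card * ((Finset.Icc (-⌈L0⌉ - 1) (⌈L0⌉ + 1)).card * Bd)) := by
  have hm : MeasurableSet {y : E3 | ‖frc θ κ C (y - c)‖ ≤ Y} := by
    refine (isClosed_le (f := fun y : E3 => ‖frc θ κ C (y - c)‖) ?_ continuous_const).measurableSet
    fun_prop
  have hpt : ∀ y ∈ S' ∩ {y | ‖frc θ κ C (y - c)‖ ≤ Y},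
      ENNReal.ofReal (wt (frc θ κ C) (2 * n) (y - c)) * U y ≤ ENNReal.ofReal (4 * 2 ^ n) *
        ∑ ν ∈ W, ∑ l ∈ Finset.Icc (-⌈L0⌉ - 1) (⌈L0⌉ + 1),
          ENNReal.ofReal (wcell θ θ' κ ν (perp ν) C n (y - ctr θ' C ν c y0 l)) * V ν y := by
    rintro y ⟨h1, h2⟩
    obtain ⟨ν, hν, h3, h4⟩ := hUV y h1 h2
    have h5 := wt_le_cell (θ := θ) (κ := κ) (C := C) hθ' (hW ν hν) n (c := c) h3
    have h6 : ENNReal.ofReal (wt (frc θ κ C) (2 * n) (y - c)) ≤ ENNReal.ofReal (2 ^ n) *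
        ∑ l ∈ Finset.Icc (-⌈L0⌉ - 1) (⌈L0⌉ + 1),
          ENNReal.ofReal (wcell θ θ' κ ν (perp ν) C n (y - ctr θ' C ν c y0 l)) := by
      rw [← ENNReal.ofReal_sum_of_nonneg fun l _ => (wcell_pos _ _ _ _ _ _ _ _).le,
        ← ENNReal.ofReal_mul (by positivity)]
      exact ENNReal.ofReal_le_ofReal h5
    calc ENNReal.ofReal (wt (frc θ κ C) (2 * n) (y - c)) * U y
        ≤ (ENNReal.ofReal (2 ^ n) * ∑ l ∈ Finset.Icc (-⌈L0⌉ - 1) (⌈L0⌉ + 1),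
          ENNReal.ofReal (wcell θ θ' κ ν (perp ν) C n (y - ctr θ' C ν c y0 l))) *
            (4 * V ν y) := mul_le_mul' h6 h4
      _ = ENNReal.ofReal (4 * 2 ^ n) * ∑ l ∈ Finset.Icc (-⌈L0⌉ - 1) (⌈L0⌉ + 1),
          ENNReal.ofReal (wcell θ θ' κ ν (perp ν) C n (y - ctr θ' C ν c y0 l)) * V ν y := by
          rw [← Finset.sum_mul, ENNReal.ofReal_mul (by norm_num : (0:ℝ) ≤ 4),
            show ENNReal.ofReal 4 = 4 by norm_num]
          ring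
      _ ≤ _ := by
          refine mul_le_mul' le_rfl ?_
          exact Finset.single_le_sum (f := fun ν => ∑ l ∈ Finset.Icc (-⌈L0⌉ - 1) (⌈L0⌉ + 1),
            ENNReal.ofReal (wcell θ θ' κ ν (perp ν) C n (y - ctr θ' C ν c y0 l)) * V ν y)
            (fun _ _ => zero_le) hν
  refine (setLIntegral_mono' (hS'.inter hm) hpt).trans ?_
  refine (setLIntegral_le_lintegral _ _).trans ?_
  rw [lintegral_const_mul' _ _ ENNReal.ofReal_ne_top]
  refine mul_le_mul' le_rfl ?_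
  rw [lintegral_finsetSum']
  · calc ∑ ν ∈ W, ∫⁻ y, ∑ l ∈ Finset.Icc (-⌈L0⌉ - 1) (⌈L0⌉ + 1),
          ENNReal.ofReal (wcell θ θ' κ ν (perp ν) C n (y - ctr θ' C ν c y0 l)) * V ν y
        ≤ ∑ ν ∈ W, ((Finset.Icc (-⌈L0⌉ - 1) (⌈L0⌉ + 1)).card * Bd : ℝ≥0∞) := by
          refine Finset.sum_le_sum fun ν hν => ?_
          rw [lintegral_finsetSum']
          · rw [← nsmul_eq_mul]
            exact Finset.sum_le_card_nsmul _ _ _ fun l hl => hBd ν hν l hl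
          · intro l _
            exact ((wcell_meas _ _ _ _ _ _ _ _).mul (hV ν hν)).aemeasurable
      _ = _ := by rw [Finset.sum_const, nsmul_eq_mul]
  · intro ν hν
    refine (Finset.measurable_fun_sum _ fun l _ => ?_).aemeasurable
    exact (wcell_meas _ _ _ _ _ _ _ _).mul (hV ν hν)

end Crest.Agent.R116.AlC339
end

-- ▼ part R116/AlB4_888
section

/-!
# R116, wave side, slab step: LOWER over the literals of PDefC_299 (helper888)

`adm_ny`, `adm_d` = numbers of an admissible member; `ctx_nums` = the numbers of the slab step from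
`Ctx` (one margin `G ≥ 1` is enough); **`lower_C`** = LOWER row for the plate `i` of the child class.
The exponents do not depend on `a, b, A`.
-/

set_option autoImplicit false

open MeasureTheory
open scoped ENNReal

namespace Crest.Agent.R116.AlB888

open Crest.Agent.R138.Defs (E2)
open Crest.Agent.R138.Wpk685 (cen caps)
open Crest.Agent.R138.Loc878 (nearL mem_nearL Near)
open Crest.Agent.R116.CDef480 Crest.Agent.R116.Ckm538 Crest.Agent.R116.Cad538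
open Crest.Agent.R116.LZg725 (Cf)
open Crest.Agent.R116.Gc192 (un norm_un un_sub crs)
open Crest.Agent.R116.WC188 Crest.Agent.R116.PC299

/-! ### an admissible member -/

section adm

variable {M κ s1 s2 r : ℝ} {c : E2} {X0 : E3} {f : Cf E2}

theorem adm_ny (h : Adm M κ s1 s2 (TT κ s2 r) r c X0 f) (hM : 0 ≤ M) (hs2 : 0 < s2) {s : ℝ}
    (hs : |s| ≤ r) : |f.ny s| * s2 ≤ M := by
  have hT : s2 ^ 2 ≤ TT κ s2 r := le_max_left _ _
  have hT0 : 0 < TT κ s2 r := lt_of_lt_of_le (by positivity) hT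
  have h1 := h.ny s hs
  rw [le_div_iff₀ hT0] at h1
  have h2 : |f.ny s| * s2 ^ 2 ≤ M * s2 :=
    (mul_le_mul_of_nonneg_left hT (abs_nonneg _)).trans h1
  have h3 : (|f.ny s| * s2) * s2 ≤ M * s2 := by
    calc (|f.ny s| * s2) * s2 = |f.ny s| * s2 ^ 2 := by ring
      _ ≤ M * s2 := h2
  exact le_of_mul_le_mul_right h3 hs2

theorem adm_d (h : Adm M κ s1 s2 (TT κ s2 r) r c X0 f) (hr : 0 < r) :
    |f.d| ≤ M * κ * s1 / 2 := by
  have h1 := h.cmp r (by rw [abs_of_pos hr])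
  have h2 := h.cmp (-r) (by rw [abs_neg, abs_of_pos hr])
  have e : 4 * f.d * r = f.ny (-r) - f.ny r := by unfold Cf.ny; ring
  have h3 : |4 * f.d * r| ≤ 2 * (M * (κ * s1 * r)) := by
    rw [e]
    exact (abs_sub _ _).trans (by linarith)
  rw [abs_mul, abs_mul, abs_of_pos hr, abs_of_pos (by norm_num : (0:ℝ) < 4)] at h3
  have h4 : (4 * |f.d|) * r ≤ (2 * (M * κ * s1)) * r := by
    calc (4 * |f.d|) * r ≤ 2 * (M * (κ * s1 * r)) := h3
      _ = _ := by ring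
  have h5 := le_of_mul_le_mul_right h4 hr
  linarith

theorem pbx_box {A : ℝ} {m : ℤ × ℤ} {y : E3} (hy : y ∈ pbx κ A r s1 s2 c X0 f m) :
    |f.ev (lat y) (y 2) 0| ≤ A * s1 * r ∧ |f.ld (cen (an r) m) (lat y) (y 2) 0| ≤ A * s1 :=
  ⟨hy.2.2.2.1, hy.2.2.2.2⟩

end adm

/-! ### strip count of UPPER -/

/-- the orthogonal part in the frame `(N, u)`. -/
theorem norm_orth_perp {N u : E2} (hN : ‖N‖ = 1) (hu : ‖u‖ = 1) (h : inner ℝ N u = 0) (w : E2) :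
    ‖Crest.Agent.R138.Rect779.orth N w‖ = |(inner ℝ u w : ℝ)| := by
  rw [norm_orth_crs hN]
  have h1 : N 0 ^ 2 + N 1 ^ 2 = 1 := by rw [← normsq2, hN]; norm_num
  have h2 : u 0 ^ 2 + u 1 ^ 2 = 1 := by rw [← normsq2, hu]; norm_num
  have h3 : N 0 * u 0 + N 1 * u 1 = 0 := by rw [← CDef480.inner2]; exact h
  have h4 : crs N w = crs N u * inner ℝ u w := by
    unfold crs
    rw [CDef480.inner2]
    have e : N 0 * w 1 - N 1 * w 0 = (u 0 ^ 2 + u 1 ^ 2) * (N 0 * w 1 - N 1 * w 0) := by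
      rw [h2, one_mul]
    rw [e]
    linear_combination (u 0 * w 1 - u 1 * w 0) * h3
  have h5 : (crs N u) ^ 2 = 1 := by
    unfold crs
    have e : (N 0 * u 1 - N 1 * u 0) ^ 2 = (N 0 ^ 2 + N 1 ^ 2) * (u 0 ^ 2 + u 1 ^ 2) -
        (N 0 * u 0 + N 1 * u 1) ^ 2 := by ring
    rw [e, h1, h2, h3]
    norm_num
  have h6 : |crs N u| = 1 := by
    rw [← sq_abs] at h5
    have := abs_nonneg (crs N u)
    nlinarith
  rw [h4, abs_mul, h6, one_mul]

/-- **strip count** of UPPER over the literal `Coh` of PDefC_299. -/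
theorem strip_count_C {θ θ' κ δ Y T pp : ℝ} {I1 : Finset ℕ} {P1 : ℕ → Plate} (hpp : 0 ≤ pp)
    (h01 : θ ≤ θ') (hθ : 0 ≤ θ) (hcoh : Coh θ θ' κ δ Y T I1 P1 pp) {N u : E2} (hN : ‖N‖ = 1)
    (hu : ‖u‖ = 1) (h : inner ℝ N u = 0) (x : E3) {t : ℝ} (ht : |t| ≤ T) (m' : ℤ × ℤ) (j : ℤ) :
    (Set.ncard {m | m ∈ nearL θ θ' m' ∧ (∃ y ∈ Sal δ θ N I1 P1 m,
      ‖frc θ κ (cen θ m) (y - t • vel (cen θ m) - x)‖ ≤ Y) ∧
      |(inner ℝ u (cen θ m) : ℝ) - j * θ| ≤ θ} : ℝ) ≤ pp :=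
  strip_countc hpp h01 hθ (act := fun m => ∃ y ∈ Sal δ θ N I1 P1 m,
      ‖frc θ κ (cen θ m) (y - t • vel (cen θ m) - x)‖ ≤ Y) (N := N) (u := u)
    (fun w => (norm_orth_perp hN hu h w).le) (fun c M hM => hcoh N c x t hN ht M hM) m' j

/-! ### numbers -/

/-- the numbers of the slab step. -/
theorem wide_nums {M A Gm Y κ dl G th1 th2 s2 : ℝ} (hM : 1 ≤ M) (hA : 1 ≤ A) (hdl : 0 < dl)
    (hdl0 : dl ≤ ((3584 * M * A) ^ 2)⁻¹) (hG : 1 ≤ G) (hGm : 1 ≤ Gm)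
    (hGm2 : Gm ≤ dl ^ (-(1/4) : ℝ)) (hY : 1 ≤ Y) (hY2 : Y ≤ dl ^ (-(1/4) : ℝ)) (hκ : 0 < κ)
    (hκ2 : κ ≤ dl ^ (4 : ℕ)) (hth1 : 0 < th1) (e12 : dl ^ (1/2 : ℝ) * th2 = th1)
    (hw : dl ^ (-G) * th1 ≤ s2) :
    8 * (M * A * Gm ^ 2 * Y * κ) ≤ dl ∧ 3584 * (M * th2) ≤ s2 ∧ 8 * (M * A * Gm * th1) ≤ s2 := by
  have hMA : 1 ≤ M * A := one_le_mul_of_one_le_of_one_le hM hA
  have hM0 : 0 < M := by linarith
  have hA0 : 0 < A := by linarith
  have hP : (1:ℝ) ≤ 3584 * M * A := by nlinarith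
  have hdl1 : dl ≤ 1 := hdl0.trans (inv_le_one_of_one_le₀ (one_le_pow₀ hP))
  obtain ⟨e, he⟩ : ∃ e : ℝ, e = dl ^ (1/4 : ℝ) := ⟨_, rfl⟩
  have he0 : 0 < e := by rw [he]; exact Real.rpow_pos_of_pos hdl _
  have he1 : e ≤ 1 := by rw [he]; exact Real.rpow_le_one hdl.le hdl1 (by norm_num)
  have e4 : e ^ 4 = dl := by
    rw [he, ← Real.rpow_natCast, ← Real.rpow_mul hdl.le]; norm_num
  have e2 : dl ^ (1/2 : ℝ) = e ^ 2 := by
    rw [he, ← Real.rpow_natCast, ← Real.rpow_mul hdl.le]; norm_num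
  have ei : dl ^ (-(1/4) : ℝ) = e⁻¹ := by rw [he, Real.rpow_neg hdl.le]
  rw [ei] at hGm2 hY2
  rw [e2] at e12
  have g1 : Gm * e ≤ 1 := by
    calc Gm * e ≤ e⁻¹ * e := by gcongr
      _ = 1 := inv_mul_cancel₀ he0.ne'
  have y1 : Y * e ≤ 1 := by
    calc Y * e ≤ e⁻¹ * e := by gcongr
      _ = 1 := inv_mul_cancel₀ he0.ne'
  -- `3584 M A e² ≤ 1`
  have k1 : 3584 * M * A * e ^ 2 ≤ 1 := by
    have h1 : (3584 * M * A * e ^ 2) ^ 2 ≤ 1 ^ 2 := by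
      have h2 : (3584 * M * A * e ^ 2) ^ 2 = (3584 * M * A) ^ 2 * dl := by rw [← e4]; ring
      rw [h2, one_pow]
      calc (3584 * M * A) ^ 2 * dl ≤ (3584 * M * A) ^ 2 * ((3584 * M * A) ^ 2)⁻¹ := by gcongr
        _ = 1 := mul_inv_cancel₀ (by positivity)
    exact (pow_le_pow_iff_left₀ (by positivity) (by norm_num) (by norm_num)).1 h1
  -- `th2 ≤ s2 e²`
  have w1 : dl⁻¹ * th1 ≤ s2 := by
    refine le_trans ?_ hw
    have : dl⁻¹ ≤ dl ^ (-G) := by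
      rw [← Real.rpow_neg_one]
      exact Real.rpow_le_rpow_of_exponent_ge hdl hdl1 (by linarith)
    gcongr
  have w2 : th2 ≤ s2 * e ^ 2 := by
    have h1 : dl * (dl⁻¹ * th1) ≤ dl * s2 := by gcongr
    rw [mul_inv_cancel_left₀ hdl.ne', ← e12, ← e4] at h1
    have h2 : e ^ 2 * th2 ≤ e ^ 2 * (s2 * e ^ 2) := by
      calc e ^ 2 * th2 ≤ e ^ 4 * s2 := h1
        _ = _ := by ring
    exact le_of_mul_le_mul_left h2 (by positivity)
  have hth2 : 0 < th2 := by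
    by_contra hc
    push Not at hc
    have : e ^ 2 * th2 ≤ 0 := mul_nonpos_of_nonneg_of_nonpos (by positivity) hc
    linarith
  have hs2 : 0 < s2 := by
    by_contra hc
    push Not at hc
    have : s2 * e ^ 2 ≤ 0 := mul_nonpos_of_nonpos_of_nonneg hc (by positivity)
    linarith
  refine ⟨?_, ?_, ?_⟩
  · have h1 : M * A * Gm ^ 2 * Y * κ ≤ M * A * Gm ^ 2 * Y * dl ^ (4 : ℕ) := by gcongr
    have h2 : M * A * Gm ^ 2 * Y * dl ^ (4 : ℕ) =
        (M * A * e ^ 2) * ((Gm * e) ^ 2 * (Y * e)) * e ^ 11 := by rw [← e4]; ring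
    have h3 : (Gm * e) ^ 2 * (Y * e) ≤ 1 := by
      have : (Gm * e) ^ 2 ≤ 1 := pow_le_one₀ (by positivity) g1
      exact mul_le_one₀ this (by positivity) y1
    have h4 : e ^ 11 ≤ e ^ 4 := pow_le_pow_of_le_one he0.le he1 (by norm_num)
    have h5 : (M * A * e ^ 2) * ((Gm * e) ^ 2 * (Y * e)) * e ^ 11 ≤ (M * A * e ^ 2) * 1 * e ^ 4 := by
      gcongr
    have h6 : 8 * (M * A * e ^ 2) ≤ 1 := by nlinarith [mul_pos (mul_pos hM0 hA0) (pow_pos he0 2)]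
    calc 8 * (M * A * Gm ^ 2 * Y * κ) ≤ 8 * ((M * A * e ^ 2) * 1 * e ^ 4) := by linarith
      _ = (8 * (M * A * e ^ 2)) * e ^ 4 := by ring
      _ ≤ 1 * e ^ 4 := by gcongr
      _ = dl := by rw [one_mul, e4]
  · have h1 : 3584 * (M * th2) ≤ 3584 * (M * (s2 * e ^ 2)) := by gcongr
    have h2 : 3584 * (M * (s2 * e ^ 2)) ≤ (3584 * M * A * e ^ 2) * s2 := by
      have h3 : M * 1 ≤ M * A := by gcongr
      calc 3584 * (M * (s2 * e ^ 2)) = 3584 * (M * 1) * (e ^ 2 * s2) := by ring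
        _ ≤ 3584 * (M * A) * (e ^ 2 * s2) := by gcongr
        _ = _ := by ring
    calc 3584 * (M * th2) ≤ (3584 * M * A * e ^ 2) * s2 := h1.trans h2
      _ ≤ 1 * s2 := by gcongr
      _ = s2 := one_mul _
  · have h1 : 8 * (M * A * Gm * th1) ≤ 8 * (M * A * Gm * (e ^ 2 * (s2 * e ^ 2))) := by
      rw [← e12]; gcongr
    have h2 : 8 * (M * A * Gm * (e ^ 2 * (s2 * e ^ 2))) =
        (8 * (M * A * e ^ 2)) * ((Gm * e) * e) * s2 := by ring
    have h6 : 8 * (M * A * e ^ 2) ≤ 1 := by nlinarith [mul_pos (mul_pos hM0 hA0) (pow_pos he0 2)]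
    have h7 : (Gm * e) * e ≤ 1 := mul_le_one₀ g1 he0.le he1
    calc 8 * (M * A * Gm * th1) ≤ (8 * (M * A * e ^ 2)) * ((Gm * e) * e) * s2 := h1.trans h2.le
      _ ≤ 1 * 1 * s2 := by gcongr
      _ = s2 := by ring

/-- division by the coherence count. -/
theorem ennreal_div_p {p B : ℝ} {X Z : ℝ≥0∞} (hp : 0 < p) (hB : 0 ≤ B)
    (h : ENNReal.ofReal p * X ≤ ENNReal.ofReal B * Z) : X ≤ ENNReal.ofReal (B / p) * Z := by
  have h1 : ENNReal.ofReal p⁻¹ * (ENNReal.ofReal p * X) ≤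
      ENNReal.ofReal p⁻¹ * (ENNReal.ofReal B * Z) := mul_le_mul' le_rfl h
  rw [← mul_assoc, ← mul_assoc, ← ENNReal.ofReal_mul (by positivity),
    ← ENNReal.ofReal_mul (by positivity), inv_mul_cancel₀ hp.ne', ENNReal.ofReal_one, one_mul] at h1
  refine h1.trans (le_of_eq ?_)
  congr 2
  rw [div_eq_mul_inv, mul_comm]

/-- **LOWER** over the literals of PDefC_299: for the child plate `i`, the active child caps `T` at the
point `(x, t)` of its frame and every family `Ms` which contains the parent caps near them.  The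
margin `G = 1` is enough. -/
theorem lower_C {M A : ℝ} (hM : 1 ≤ M) (hA : 1 ≤ A) (n : ℕ) {q a b G c0 κ η0 K0 d1 : ℝ} {g : E3 → ℂ}
    {r1 dl Y Gm s1' s2' s1 s2 D α p : ℝ} {S : ℤ × ℤ → Set E3} {I1 : Finset ℕ} {P1 : ℕ → Plate}
    {I : Finset ℕ} {P : ℕ → Plate}
    (hctx : Ctx M q a b A d1 G c0 κ η0 g r1 dl Y Gm s1' s2' s1 s2 D I1 P1 I P)
    (hd0 : dl ≤ ((3584 * M * A) ^ 2)⁻¹) (hG : 1 ≤ G) (hα : 0 ≤ α) (hp : 1 ≤ p) (hK0 : 1 ≤ K0)
    (hchi : Chi n K0 κ g dl r1 α p S I P) {i : ℕ} (hi : i ∈ I) (x : E3) {t : ℝ}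
    (ht : |t| ≤ dl * r1) (T : Finset (ℤ × ℤ))
    (hT : ∀ m ∈ T, ∃ y ∈ (P i).S m, ‖frc (an r1) κ (cen (an (dl * r1)) m)
      (y - x - t • vel (cen (an (dl * r1)) m))‖ ≤ Y)
    {Ms : Finset (ℤ × ℤ)} (hMs : ∀ m ∈ caps (an r1), (∃ m' ∈ T,
      ‖cen (an r1) m - cen (an (dl * r1)) m'‖ ≤
        16 * an (dl * (dl * r1)) + 3 * an (dl * r1)) → m ∈ Ms) :
    ∑ m ∈ T, Adc n (an r1) κ (an (dl * r1)) g S m ((P i).z.1 + x) ((P i).z.2 + t) ≤
      ENNReal.ofReal (4000000000 * 222 ^ (2 * n) * (M * A) ^ 2 * K0 * Gm ^ 2 *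
        Y ^ (2 * n + 2) / p) *
        Cad538.Acc n (an r1) κ (an r1) g S Ms ((P i).z.1 + x) ((P i).z.2 + t) := by
  have hdl := hctx.dlpos
  have hMA : (1:ℝ) ≤ 3584 * M * A := by nlinarith
  have hdl1 : dl ≤ 1 := hd0.trans (inv_le_one_of_one_le₀ (one_le_pow₀ hMA))
  have hr1 : 0 < r1 := lt_of_lt_of_le (Real.rpow_pos_of_pos hdl _) hctx.r1ge
  have hdr : 0 < dl * r1 := mul_pos hdl hr1
  have hddr : 0 < dl * (dl * r1) := mul_pos hdl hdr
  have p0 : 0 < an r1 := an_pos hr1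
  have p1 : 0 < an (dl * r1) := an_pos hdr
  have p2 : 0 < an (dl * (dl * r1)) := an_pos hddr
  have e01 : dl ^ (1/2 : ℝ) * an (dl * r1) = an r1 := an_step hr1 hdl
  have e12 : dl ^ (1/2 : ℝ) * an (dl * (dl * r1)) = an (dl * r1) := an_step hdr hdl
  have e1 : an (dl * r1) ^ 2 * (dl * r1) = 1 := an_sq hdr
  obtain ⟨k1, k2, k3⟩ := wide_nums hM hA hdl hd0 hG hctx.Gm1 hctx.Gm2 hctx.Y1 hctx.Y2 hctx.kpos
    hctx.khi p1 e12 hctx.wide
  have hs10 : 0 ≤ s1 := p1.le.trans hctx.sd.lo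
  have hs20 : 0 < s2 := p1.trans_le (hctx.sd.lo.trans hctx.sd.le)
  have hadm := hctx.pl.adm i hi
  have hgr : ∀ m, ∀ y ∈ (P i).S m, 7 / 10 ≤ ‖(P i).f.gr (cen (an (dl * r1)) m) (lat y) 0‖ := by
    intro m y hy
    obtain ⟨b1, b2⟩ := pbx_box (hctx.pl.box i hi m hy)
    have hdδ : dl ≤ dl ^ (1/2 : ℝ) := by
      conv_lhs => rw [← Real.rpow_one dl]
      exact Real.rpow_le_rpow_of_exponent_ge hdl hdl1 (by norm_num)
    obtain ⟨c1, c2, -⟩ := nums_strip hM hA hctx.Gm1 hctx.Y1 hctx.kpos k1 hdl1 hdr p1 hdδ e01 e1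
      hs10 hs20 hctx.thin k3
    refine gr_lower (Mn := M / s2) (d0 := M * κ * s1 / 2) hadm.disc ?_ (adm_d hadm hdr) b2 b1 c1 c2
    rw [le_div_iff₀ hs20]
    exact adm_ny hadm (by linarith) hs20 (by rw [abs_zero]; exact hdr.le)
  have key := row_al_c (n := n) (g := g) (S := S) (f := (P i).f) (M := M) (A := A) (Gm := Gm)
    (K0 := K0) (Y := Y) (a := α) (r := dl * r1) (dl := dl) (s1 := s1) (s2 := s2) (δ := 0) (pp := p)
    p0 p2 hctx.kpos hdl hdl1 hdr hM hA hctx.Gm1 hctx.Y1 hα hK0 e01 e12 e1 k1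
    (Real.rpow_nonneg hdl.le _) hs10 hs20 hctx.thin k2 k3 hadm.disc
    (fun s hs => adm_ny hadm (by linarith) hs20 hs) (adm_d hadm hdr) (z := (P i).z)
    (S' := (P i).S) (N := fun m y => nP (an (dl * r1)) (P i).f m y)
    (fun m y hy => pbx_box (hctx.pl.box i hi m hy)) (fun m y hy => hchi.lo i hi m y hy)
    (fun m y hy => hchi.hi i hi m y hy)
    (fun m y hy => norm_un (k := 7 / 10) (by norm_num) (hgr m y hy))
    (fun m y _ => by
      left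
      show ‖un (P i).f (cen (an (dl * r1)) m) (lat y) 0 -
        un (P i).f (cen (an (dl * r1)) m) (lat y) 0‖ ≤ 0
      rw [sub_self, norm_zero])
    (fun m y hy => hchi.pot i hi m y hy) x ht T hT hMs
  have h9 := ennreal_div_p (by linarith : 0 < p) (by
    have := hctx.Gm1
    have := hctx.Y1
    positivity) key
  refine h9.trans (le_of_eq ?_)
  congr 2
  ring

end Crest.Agent.R116.AlB888
end

-- ▼ part R116/IsM1_883
section

/-!
# R116, WAVE side (W13): rounding of directions, aligned / misaligned selections, measurability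
(helper883)

Over `PDefC_299`.
* (R1) `rnd_err : ‖rnd δ e - e‖ ≤ δ / 8`, `norm_rnd : ‖rnd δ e‖ = 1`, `norm_rnd_le` (every `e`).
* (R2) `rnd_fin` : the roundings of the unit vectors `e` with `‖e - N‖ ≤ δ / 8` lie in a finite set of
  at most `81` unit vectors at distance `≤ δ / 4` of `N`.
* `Sal`, `Smis`: contained in `uS`, union `= uS`, disjoint, measurable, bounded.
* (R3) `nP`, `crs`, `rdx`, `rnd` measurable in the position; the sets of aligned / misaligned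
  phase points are measurable, and a phase point is aligned or misaligned.
-/

set_option autoImplicit false

open MeasureTheory
open scoped ENNReal

namespace Crest.Agent.R116.IsM883

open Crest.Agent.R138.Defs (E2)
open Crest.Agent.R138.Wpk685 (cen caps)
open Crest.Agent.R116.CDef480
open Crest.Agent.R116.LZg725 (Cf)
open Crest.Agent.R116.Gc192 (un crs)
open Crest.Agent.R116.WC188
open Crest.Agent.R116.Bas367
open Crest.Agent.R116.PC299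

/-! ### rounding -/



/-- normalising a vector close to a unit vector. -/
theorem norm_sub_unit {w e : E2} {t : ℝ} (he : ‖e‖ = 1) (h : ‖w - e‖ ≤ t) :
    ‖‖w‖⁻¹ • w - e‖ ≤ 2 * t ∨ w = 0 := by
  by_cases hw : w = 0
  · exact Or.inr hw
  · left
    have hw0 : ‖w‖ ≠ 0 := norm_ne_zero_iff.2 hw
    have h1 : ‖‖w‖⁻¹ • w - w‖ = |1 - ‖w‖| := by
      have : ‖w‖⁻¹ • w - w = (‖w‖⁻¹ - 1) • w := by rw [sub_smul, one_smul]
      rw [this, norm_smul, Real.norm_eq_abs]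
      nth_rewrite 2 [← abs_norm w]
      rw [← abs_mul]
      congr 1
      field_simp
    have h2 : |1 - ‖w‖| ≤ t := by
      have := abs_norm_sub_norm_le w e
      rw [he] at this
      rw [abs_sub_comm]
      exact this.trans h
    calc ‖‖w‖⁻¹ • w - e‖ = ‖(‖w‖⁻¹ • w - w) + (w - e)‖ := by congr 1; abel
      _ ≤ ‖‖w‖⁻¹ • w - w‖ + ‖w - e‖ := norm_add_le _ _
      _ ≤ t + t := by rw [h1]; exact add_le_add h2 h
      _ = 2 * t := by ring

/-- `rnd` written with the lattice point itself. -/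
theorem rnd_eq {δ : ℝ} (hδ : 0 < δ) (e : E2) {w : E2}
    (hw : w = (δ / 32) • (WithLp.toLp 2 ![((rdx δ e).1 : ℝ), ((rdx δ e).2 : ℝ)] : E2)) :
    rnd δ e = ‖w‖⁻¹ • w := by
  have h32 : (0 : ℝ) < δ / 32 := by positivity
  unfold rnd lv
  rw [hw, norm_smul, Real.norm_eq_abs, abs_of_pos h32, smul_smul, mul_inv]
  congr 1
  field_simp

theorem lattice_near {δ : ℝ} (hδ : 0 < δ) (e : E2) :
    ‖(δ / 32) • (WithLp.toLp 2 ![((rdx δ e).1 : ℝ), ((rdx δ e).2 : ℝ)] : E2) - e‖ ≤ δ / 16 := by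
  have h32 : (0 : ℝ) < δ / 32 := by positivity
  have key : ∀ x : ℝ, |(δ / 32) * (⌊x / (δ / 32)⌋ : ℝ) - x| ≤ δ / 32 := by
    intro x
    have h1 := Int.floor_le (x / (δ / 32))
    have h2 := Int.lt_floor_add_one (x / (δ / 32))
    rw [le_div_iff₀ h32] at h1
    rw [div_lt_iff₀ h32] at h2
    rw [abs_le]
    constructor <;> nlinarith
  have h0 := key (e 0)
  have h1 := key (e 1)
  set w : E2 := (δ / 32) • (WithLp.toLp 2 ![((rdx δ e).1 : ℝ), ((rdx δ e).2 : ℝ)] : E2) - e with hw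
  have e0 : w 0 = (δ / 32) * (⌊e 0 / (δ / 32)⌋ : ℝ) - e 0 := by
    simp [hw, rdx]
  have e1 : w 1 = (δ / 32) * (⌊e 1 / (δ / 32)⌋ : ℝ) - e 1 := by
    simp [hw, rdx]
  have hn : ‖w‖ ^ 2 = w 0 ^ 2 + w 1 ^ 2 := Gc192.norm_sq2 w
  have s0 : w 0 ^ 2 ≤ (δ / 32) ^ 2 := by
    rw [e0]; exact sq_le_sq.2 (h0.trans (le_abs_self _))
  have s1 : w 1 ^ 2 ≤ (δ / 32) ^ 2 := by
    rw [e1]; exact sq_le_sq.2 (h1.trans (le_abs_self _))
  refine le_of_sq_le_sq ?_ (by positivity)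
  rw [hn]
  nlinarith

theorem lattice_ne {δ : ℝ} (hδ : 0 < δ) (hδ1 : δ ≤ 1) {e : E2} (he : ‖e‖ = 1) :
    (δ / 32) • (WithLp.toLp 2 ![((rdx δ e).1 : ℝ), ((rdx δ e).2 : ℝ)] : E2) ≠ 0 := by
  intro h
  have := lattice_near hδ e
  rw [h, zero_sub, norm_neg, he] at this
  linarith

/-- **(R1)** -/
theorem rnd_err {δ : ℝ} (hδ : 0 < δ) (hδ1 : δ ≤ 1) {e : E2} (he : ‖e‖ = 1) :
    ‖rnd δ e - e‖ ≤ δ / 8 := by
  rw [rnd_eq hδ e rfl]
  rcases norm_sub_unit he (lattice_near hδ e) with h | h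
  · linarith
  · exact absurd h (lattice_ne hδ hδ1 he)

/-- **(R1)** -/
theorem norm_rnd {δ : ℝ} (hδ : 0 < δ) (hδ1 : δ ≤ 1) {e : E2} (he : ‖e‖ = 1) :
    ‖rnd δ e‖ = 1 := by
  rw [rnd_eq hδ e rfl, norm_smul, norm_inv, norm_norm]
  exact inv_mul_cancel₀ (norm_ne_zero_iff.2 (lattice_ne hδ hδ1 he))

/-- **(R2)**: near a unit vector only `81` roundings occur. -/
theorem rnd_fin {δ : ℝ} (hδ : 0 < δ) (hδ1 : δ ≤ 1) (N : E2) :
    ∃ F : Finset E2, F.card ≤ 81 ∧ (∀ w ∈ F, ‖w‖ = 1 ∧ ‖w - N‖ ≤ δ / 4) ∧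
      ∀ e : E2, ‖e‖ = 1 → ‖e - N‖ ≤ δ / 8 → rnd δ e ∈ F := by
  classical
  have h32 : (0 : ℝ) < δ / 32 := by positivity
  set x : ℤ := ⌊N 0 / (δ / 32)⌋ with hx
  set y : ℤ := ⌊N 1 / (δ / 32)⌋ with hy
  refine ⟨((Finset.Icc (x - 4) (x + 4) ×ˢ Finset.Icc (y - 4) (y + 4)).image lv).filter
    (fun w => ‖w‖ = 1 ∧ ‖w - N‖ ≤ δ / 4), ?_, ?_, ?_⟩
  · refine (Finset.card_filter_le _ _).trans (Finset.card_image_le.trans ?_)
    rw [Finset.card_product, Int.card_Icc, Int.card_Icc]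
    have a1 : (x + 4 + 1 - (x - 4)).toNat = 9 := by
      have : x + 4 + 1 - (x - 4) = 9 := by ring
      rw [this]; rfl
    have a2 : (y + 4 + 1 - (y - 4)).toNat = 9 := by
      have : y + 4 + 1 - (y - 4) = 9 := by ring
      rw [this]; rfl
    rw [a1, a2]
  · intro w hw
    exact (Finset.mem_filter.1 hw).2
  · intro e he hN
    have key : ∀ u v : ℝ, |u - v| ≤ δ / 8 →
        ⌊u / (δ / 32)⌋ ∈ Finset.Icc (⌊v / (δ / 32)⌋ - 4) (⌊v / (δ / 32)⌋ + 4) := by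
      intro u v h
      rw [abs_le] at h
      have h1 : v / (δ / 32) - 4 ≤ u / (δ / 32) := by
        rw [sub_le_iff_le_add, div_le_iff₀ h32, add_mul, div_mul_cancel₀ _ h32.ne']
        linarith
      have h2 : u / (δ / 32) ≤ v / (δ / 32) + 4 := by
        rw [div_le_iff₀ h32, add_mul, div_mul_cancel₀ _ h32.ne']
        linarith
      rw [Finset.mem_Icc]
      constructor
      · have := Int.floor_le_floor h1
        have h3 : ⌊v / (δ / 32) - 4⌋ = ⌊v / (δ / 32)⌋ - 4 := by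
          simp
        rwa [h3] at this
      · have := Int.floor_le_floor h2
        have h3 : ⌊v / (δ / 32) + 4⌋ = ⌊v / (δ / 32)⌋ + 4 := by
          simp
        rwa [h3] at this
    have c0 : |e 0 - N 0| ≤ δ / 8 := by
      have := (PiLp.norm_apply_le (e - N) 0).trans hN
      simpa using this
    have c1 : |e 1 - N 1| ≤ δ / 8 := by
      have := (PiLp.norm_apply_le (e - N) 1).trans hN
      simpa using this
    refine Finset.mem_filter.2 ⟨Finset.mem_image.2 ⟨rdx δ e, ?_, rfl⟩, norm_rnd hδ hδ1 he, ?_⟩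
    · exact Finset.mem_product.2 ⟨key _ _ c0, key _ _ c1⟩
    · calc ‖rnd δ e - N‖ = ‖(rnd δ e - e) + (e - N)‖ := by congr 1; abel
        _ ≤ ‖rnd δ e - e‖ + ‖e - N‖ := norm_add_le _ _
        _ ≤ δ / 8 + δ / 8 := add_le_add (rnd_err hδ hδ1 he) hN
        _ = δ / 4 := by ring


/-! ### the aligned and the misaligned selection -/







section sel

variable {δ θ : ℝ} {N : E2} {I1 : Finset ℕ} {P1 : ℕ → Plate} {m : ℤ × ℤ}

theorem mem_uS {I : Finset ℕ} {P : ℕ → Plate} {m : ℤ × ℤ} {y : E3} :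
    y ∈ uS I P m ↔ ∃ i ∈ I, y ∈ (P i).S m := by
  simp [uS]

theorem Sal_sub (δ θ : ℝ) (N : E2) (I1 : Finset ℕ) (P1 : ℕ → Plate) (m : ℤ × ℤ) :
    Sal δ θ N I1 P1 m ⊆ uS I1 P1 m := by
  rintro y ⟨i, hi, _, hy⟩
  exact mem_uS.2 ⟨i, hi, hy⟩







end sel

/-! ### measurability -/

theorem measurable_lat : Measurable (lat : E3 → E2) := by
  have : Continuous (lat : E3 → E2) := by
    unfold lat
    fun_prop
  exact this.measurable

theorem measurable_nP (th : ℝ) (f : Cf E2) (m : ℤ × ℤ) : Measurable (nP th f m) := by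
  have h : Measurable fun y : E3 => f.gr (cen th m) (lat y) 0 := by
    unfold Cf.gr
    exact ((measurable_lat.const_smul (2 * f.d)).const_add f.be).sub_const _
  unfold nP un
  exact (h.norm.inv).smul h

theorem measurable_crs_left (N : E2) : Measurable fun u : E2 => crs u N := by
  have : Continuous fun u : E2 => crs u N := by
    unfold crs
    fun_prop
  exact this.measurable




theorem measurableSet_Sal {δ θ : ℝ} {N : E2} {I1 : Finset ℕ} {P1 : ℕ → Plate} {m : ℤ × ℤ}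
    (hm : ∀ i ∈ I1, MeasurableSet ((P1 i).S m)) : MeasurableSet (Sal δ θ N I1 P1 m) := by
  have : Sal δ θ N I1 P1 m =
      ⋃ i ∈ I1, ({y | |crs (nP θ (P1 i).f m y) N| ≤ δ} ∩ (P1 i).S m) := by
    ext y; simp only [Sal, Set.mem_setOf_eq, Set.mem_iUnion, Set.mem_inter_iff, exists_prop]
  rw [this]
  refine Finset.measurableSet_biUnion _ fun i hi => MeasurableSet.inter ?_ (hm i hi)
  exact measurableSet_le (((measurable_crs_left N).comp (measurable_nP θ _ m)).abs) measurable_const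


theorem measurableSet_uS {I1 : Finset ℕ} {P1 : ℕ → Plate} {m : ℤ × ℤ}
    (hm : ∀ i ∈ I1, MeasurableSet ((P1 i).S m)) : MeasurableSet (uS I1 P1 m) := by
  unfold uS
  exact Finset.measurableSet_biUnion _ fun i hi => hm i hi

/-- bounded measurable selections. -/
theorem Bsc_uS {ρ B : ℝ} {I1 : Finset ℕ} {P1 : ℕ → Plate}
    (hm : ∀ i ∈ I1, ∀ m, MeasurableSet ((P1 i).S m))
    (hb : ∀ m, uS I1 P1 m ⊆ Metric.closedBall 0 B) : Bsc ρ (uS I1 P1) :=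
  Bsc.of_ball (fun m => measurableSet_uS fun i hi => hm i hi m) hb

theorem Bsc_Sal {ρ B δ θ : ℝ} {N : E2} {I1 : Finset ℕ} {P1 : ℕ → Plate}
    (hm : ∀ i ∈ I1, ∀ m, MeasurableSet ((P1 i).S m))
    (hb : ∀ m, uS I1 P1 m ⊆ Metric.closedBall 0 B) : Bsc ρ (Sal δ θ N I1 P1) :=
  Bsc.of_ball (fun m => measurableSet_Sal fun i hi => hm i hi m)
    (fun m => (Sal_sub _ _ _ _ _ m).trans (hb m))





section fields

variable {η0 κ ρ ρ' B δ θ th : ℝ} {g : E3 → ℂ} {I1 : Finset ℕ} {P1 : ℕ → Plate}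




end fields



section pts

variable {δ κ η0 : ℝ} {g : E3 → ℂ} {dl r1 B : ℝ} {I1 : Finset ℕ} {P1 : ℕ → Plate}
  {I : Finset ℕ} {P : ℕ → Plate}
















end pts

end Crest.Agent.R116.IsM883
end

-- ▼ part R116/AlH2_339
section

/-!
# R116 (S0155), wave side, AL-CONE (helper339): UPPER for one active cap

`cap_near` = the part of the plate energy of one child cap inside the plate cell of size `Y` around
the point; `cap_far` = the part outside.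
-/

set_option autoImplicit false

open MeasureTheory
open scoped ENNReal

namespace Crest.Agent.R116.AlC339

open Crest.Agent.R138.Defs (E2)
open Crest.Agent.R138.Wpk685 (cen caps)
open Crest.Agent.R138.Loc878 (nearL mem_nearL)
open Crest.Agent.R116.CDef480 Crest.Agent.R116.Ckm538 Crest.Agent.R116.Cad538
open Crest.Agent.R116.LZg725 (Cf)
open Crest.Agent.R116.Gc192 (un norm_un un_sub)
open Crest.Agent.R116.AlB888 (Adc Adc_mono Adc_row lat_vel)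
open Crest.Agent.R116.WC188 Crest.Agent.R116.PC299
open Crest.Agent.R116.IsM883 (rnd_fin Sal_sub measurableSet_Sal Bsc_Sal Bsc_uS)

/-- size of the centre of a cell. -/
theorem ctr_near {θ θ' κ : ℝ} (hθ : 0 < θ) (hθ' : 0 < θ') (hκ : 0 < κ) {C N : E2} (hN : ‖N‖ = 1)
    {c y1 : E3} {L0 Y R : ℝ} (hy : ‖frc θ κ C (y1 - c)‖ ≤ Y) {l : ℤ}
    (hl : l ∈ Finset.Icc (-⌈L0⌉ - 1) (⌈L0⌉ + 1)) (hR : θ / θ' * (L0 + 2) ≤ R) :
    ‖frc θ κ C (ctr θ' C N c y1 l - c)‖ ≤ Y + R := by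
  have e0 : ctr θ' C N c y1 l - c = (inner ℝ N (lat (y1 - c)) + l / θ') • tl C N := by
    unfold ctr; abel
  rw [e0, map_smul, norm_smul, Real.norm_eq_abs]
  have h1 : ‖frc θ κ C (tl C N)‖ ≤ θ := by
    refine (norm_frc_le hθ.le hκ.le C _).trans (le_of_eq ?_)
    rw [lat_tl, nrm_tl, hN, abs_zero, mul_one, mul_zero, add_zero]
  have h2 : |(inner ℝ N (lat (y1 - c)) : ℝ)| ≤ Y / θ := by
    refine (abs_real_inner_le_norm _ _).trans ?_
    rw [hN, one_mul, le_div_iff₀ hθ, mul_comm]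
    exact (lat_le_frc hθ.le C _).trans hy
  have h3 : |(l : ℝ)| ≤ L0 + 2 := by
    rw [Finset.mem_Icc] at hl
    have a1 : ((-⌈L0⌉ - 1 : ℤ) : ℝ) ≤ l := by exact_mod_cast hl.1
    have a2 : (l : ℝ) ≤ ((⌈L0⌉ + 1 : ℤ) : ℝ) := by exact_mod_cast hl.2
    push_cast at a1 a2
    have a3 := (Int.ceil_lt_add_one L0).le
    rw [abs_le]
    constructor <;> linarith
  have h4 : |(inner ℝ N (lat (y1 - c)) : ℝ) + l / θ'| ≤ Y / θ + (L0 + 2) / θ' := by
    refine (abs_add_le _ _).trans (add_le_add h2 ?_)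
    rw [abs_div, abs_of_pos hθ']
    gcongr
  have hY0 : 0 ≤ Y := (norm_nonneg _).trans hy
  calc |(inner ℝ N (lat (y1 - c)) : ℝ) + l / θ'| * ‖frc θ κ C (tl C N)‖
      ≤ (Y / θ + (L0 + 2) / θ') * θ := mul_le_mul h4 h1 (norm_nonneg _) ((abs_nonneg _).trans h4)
    _ = Y + θ / θ' * (L0 + 2) := by field_simp
    _ ≤ Y + R := by linarith

set_option maxHeartbeats 1000000 in
/-- **UPPER for one cap**, near part. -/
theorem cap_near {M A : ℝ} (hM : 1 ≤ M) (hA : 1 ≤ A) (a b : ℝ) (ha : 1 ≤ a) (n k : ℕ) :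
    ∃ C0 : ℝ, 0 ≤ C0 ∧ ∀ (κ η0 θ θ' δ s1 s2 r Gm Y T pp : ℝ) (g : E3 → ℂ) (I1 : Finset ℕ)
      (P1 : ℕ → Plate) (z : E3 × ℝ) (f : Cf E2) (m : ℤ × ℤ) (S' : Set E3) (x : E3) (t B : ℝ),
    Num M A κ θ θ' δ s1 s2 r Gm Y → Gm * θ ≤ θ' → θ' ≤ 1 → κ * θ' ≤ θ → θ' ^ 2 * r ≤ 1 → κ ≤ 1 →
    8 * a * κ ≤ 1 → Gd a b η0 κ g → (∀ i ∈ I1, ∀ m, MeasurableSet ((P1 i).S m)) →
    (∀ m, uS I1 P1 m ⊆ Metric.closedBall 0 B) → |z.2| * θ ^ 2 ≤ 1 → |z.2| ≤ T →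
    Coh θ θ' κ δ Y T I1 P1 pp → 0 ≤ pp → Plt M κ s1 s2 r f → MeasurableSet S' →
    (∀ y ∈ S', Src A s1 r f (cen θ' m) y) →
    (∀ y ∈ S', ‖umc θ' (trc z (selc η0 κ θ g (uS I1 P1))) m y‖ ≤
      2 * ‖umc θ' (trc z (selc η0 κ θ g
        (Sal δ θ (rnd δ (un f (cen θ' m) (lat y) 0)) I1 P1))) m y‖) →
    |t| ≤ r →
    ∫⁻ y in S' ∩ {y | ‖frc θ κ (cen θ' m) (y - (x + t • vel (cen θ' m)))‖ ≤ Y},
      ENNReal.ofReal (wt (frc θ κ (cen θ' m)) (2 * (n + k + 4))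
        (y - (x + t • vel (cen θ' m)))) *
        ‖umc θ' (trc z (selc η0 κ θ g (uS I1 P1))) m y‖ₑ ^ 2 ≤
      ENNReal.ofReal (C0 * (Gm * Y ^ (2 * n + 2)) * (θ / θ') * (θ ^ 2 * κ)⁻¹ *
        (pp + (caps θ).card * ((1 + Y) ^ k)⁻¹)) *
        Adc n θ κ θ' g (uS I1 P1) m (z.1 + x) (z.2 + t) := by
  obtain ⟨C1, hC1, hU⟩ := UpC448.upC_448 a b ha n k
  set c1 : ℝ := 6 * A + 5 * M with hc1
  have hc11 : 1 ≤ c1 := by linarith
  refine ⟨4 * 2 ^ (n + k + 4) * (81 * (7 * c1)) * C1 * (21 * (c1 + 3) + 201) ^ n,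
    by positivity, ?_⟩
  intro κ η0 θ θ' δ s1 s2 r Gm Y T pp g I1 P1 z f m S' x t B hn hG hθ'1 hκθ hθr hκ1 haκ hg hm1 hb1
    hz hzT hcoh hpp hp hS' hsrc hal ht
  have hθ := hn.t0
  have hθθ' := hn.tt
  have hθ' : 0 < θ' := hθ.trans_le hθθ'
  have hκ := hn.k0
  have hY := hn.Y1
  have hGm := hn.Gm1
  set C := cen θ' m with hC
  set c : E3 := x + t • vel C with hc
  have hyc : ∀ y : E3, y - c = y - t • vel C - x := fun y => by rw [hc]; abel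
  by_cases hne : ∃ y1 ∈ S', ‖frc θ κ C (y1 - c)‖ ≤ Y
  swap
  · have he : S' ∩ {y | ‖frc θ κ C (y - c)‖ ≤ Y} = ∅ := by
      ext y
      simp only [Set.mem_inter_iff, Set.mem_setOf_eq, Set.mem_empty_iff_false, iff_false]
      exact fun h => hne ⟨y, h.1, h.2⟩
    rw [he]
    simp
  obtain ⟨y1, hy1, hy1Y⟩ := hne
  have hy1Y' : ‖frc θ κ C (y1 - t • vel C - x)‖ ≤ Y := by rw [← hyc]; exact hy1Y
  obtain ⟨gs1, gs2⟩ := gr_size hn hp (hsrc y1 hy1) hy1Y'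
  have hun : ‖un f C (lat x) t‖ = 1 := norm_un (k := 3/4) (by norm_num) gs1
  obtain ⟨F, hF1, hF2, hF3⟩ := rnd_fin hn.d0 hn.d1 (un f C (lat x) t)
  set L0 : ℝ := c1 * Gm * Y ^ 2 with hL0
  have hL01 : 1 ≤ L0 := by
    have h1 : 1 ≤ Y ^ 2 := one_le_pow₀ hY
    have h2 : 1 ≤ c1 * Gm := one_le_mul_of_one_le_of_one_le hc11 hGm
    exact one_le_mul_of_one_le_of_one_le h2 h1
  set Q : ℝ := pp + (caps θ).card * ((1 + Y) ^ k)⁻¹ with hQ
  have hQ0 : 0 ≤ Q := by positivity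
  set Ad := Adc n θ κ θ' g (uS I1 P1) m (z.1 + x) (z.2 + t) with hAd
  set Bd : ℝ≥0∞ := ENNReal.ofReal (C1 * (θ / θ') * (θ ^ 2 * κ)⁻¹ * Q) *
    (ENNReal.ofReal ((21 * (c1 + 3) + 201) ^ n * Y ^ (2 * n)) * Ad) with hBd
  -- integrability
  have hgi : Integrable g := (Bas367.gd_of_supp (a := a) (b := b) hg.gm hg.gb (fun ζ hζ =>
    ⟨(inv_pos.2 (by linarith)).trans_le (hg.gs ζ hζ).1, (hg.gs ζ hζ).2.1, (hg.gs ζ hζ).2.2⟩)).int
  have hVm : ∀ ν : E2, Measurable fun y => ‖umc θ' (trc z (selc η0 κ θ g (Sal δ θ ν I1 P1))) m y‖ₑ ^ 2 := by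
    intro ν
    have h1 := (Bas367.selc_int (η0 := η0) hκ hθ hgi (Bsc_Sal (ρ := θ) (δ := δ) (θ := θ) (N := ν) hm1 hb1)).1
    exact (Bas367.umc_cont (Bas367.trc_int h1 z) θ' m).measurable.enorm.pow_const 2
  have key := cell_sum (θ := θ) (θ' := θ') (κ := κ) hθ' (C := C) (n + k + 4) (c := c) (y0 := y1)
    (L0 := L0) (Y := Y) (W := F) (fun ν hν => (hF2 ν hν).1) hS'
    (U := fun y => ‖umc θ' (trc z (selc η0 κ θ g (uS I1 P1))) m y‖ₑ ^ 2)
    (V := fun ν y => ‖umc θ' (trc z (selc η0 κ θ g (Sal δ θ ν I1 P1))) m y‖ₑ ^ 2)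
    (fun ν _ => hVm ν)
    (by
      intro y hy hyY
      have hyY' : ‖frc θ κ C (y - t • vel C - x)‖ ≤ Y := by rw [← hyc]; exact hyY
      have hnorm := norm_of_sq ((hsrc y hy).gr_sq hp hn.r0 hn.p2 (by linarith [hn.M1]) hn.hsm)
      have hu1 : ‖un f C (lat y) 0‖ = 1 := norm_un (k := 7/8) (by norm_num) hnorm.1
      have hnear := un_near hn hp (hsrc y hy) hyY'
      have hδ := hn.d0
      have hmem := hF3 (un f C (lat y) 0) hu1 (hnear.trans (by linarith))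
      refine ⟨rnd δ (un f C (lat y) 0), hmem, ?_, ?_⟩
      · exact strip_nu hn hp (hsrc y hy) (hsrc y1 hy1) ht hyY' hy1Y' (hF2 _ hmem).2
      · have h1 := hal y hy
        have h2 : ‖umc θ' (trc z (selc η0 κ θ g (uS I1 P1))) m y‖ₑ ≤
            2 * ‖umc θ' (trc z (selc η0 κ θ g
              (Sal δ θ (rnd δ (un f C (lat y) 0)) I1 P1))) m y‖ₑ := by
          rw [← ofReal_norm, ← ofReal_norm, show (2:ℝ≥0∞) = ENNReal.ofReal 2 by norm_num,
            ← ENNReal.ofReal_mul (by norm_num)]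
          exact ENNReal.ofReal_le_ofReal h1
        calc ‖umc θ' (trc z (selc η0 κ θ g (uS I1 P1))) m y‖ₑ ^ 2
            ≤ (2 * ‖umc θ' (trc z (selc η0 κ θ g
              (Sal δ θ (rnd δ (un f C (lat y) 0)) I1 P1))) m y‖ₑ) ^ 2 := by gcongr
          _ = _ := by rw [mul_pow]; norm_num)
    (Bd := Bd)
    (by
      intro ν hν l hl
      have hν1 := (hF2 ν hν).1
      have h1 := hU κ η0 θ θ' g (Sal δ θ ν I1 P1) z ν (perp ν) m (ctr θ' C ν c y1 l) Y pp hκ haκ hθ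
        hθθ' hθ'1 hκθ hg.gm hg.gb hg.gs hg.slc
        (fun m => measurableSet_Sal fun i hi => hm1 i hi m)
        (fun m => Metric.isBounded_closedBall.subset ((Sal_sub _ _ _ _ _ m).trans (hb1 m))) hz hν1
        (by rw [perp_norm, hν1]) (inner_perp ν) (by linarith) hpp
        (fun j => AlB888.strip_count_C hpp hθθ' hθ.le hcoh hν1 (by rw [perp_norm, hν1])
          (inner_perp ν) (z.1 + ctr θ' C ν c y1 l) hzT m j)
      refine le_trans h1 (mul_le_mul' le_rfl ?_)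
      refine (Adc_mono (fun m => Sal_sub _ _ _ _ _ m) _ _).trans ?_
      have hfr : ‖frc θ κ C (ctr θ' C ν c y1 l - c)‖ ≤ (c1 + 3) * Y ^ 2 := by
        refine (ctr_near hθ hθ' hκ hν1 hy1Y hl (R := (c1 + 2) * Y ^ 2) ?_).trans ?_
        · have h2 : θ / θ' * Gm ≤ 1 := by
            rw [div_mul_eq_mul_div, div_le_one hθ', mul_comm]; exact hG
          have h3 : θ / θ' ≤ 1 := (div_le_one hθ').2 hθθ'
          have h4 : 1 ≤ Y ^ 2 := one_le_pow₀ hY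
          calc θ / θ' * (L0 + 2) = c1 * Y ^ 2 * (θ / θ' * Gm) + θ / θ' * 2 := by rw [hL0]; ring
            _ ≤ c1 * Y ^ 2 * 1 + 1 * 2 := by gcongr
            _ ≤ _ := by nlinarith
        · have : Y ≤ Y ^ 2 := by nlinarith
          nlinarith
      have h5 := Adc_row (n := n) (g := g) (S := uS I1 P1) (th := θ) (kp := κ) (th1 := θ')
        (th2 := θ') (j := m) (C' := C) hθ le_rfl hκ.le hκθ (s := t)
        (by
          have hr0 := hn.r0.le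
          have : |t| * (θ * θ') ≤ r * (θ' * θ') := by gcongr
          linarith [hθr, (by ring : r * (θ' * θ') = θ' ^ 2 * r)])
        (by
          have hr0 := hn.r0.le
          have h6 : |t| * (κ * θ' ^ 2) ≤ r * (1 * θ' ^ 2) := by gcongr
          linarith [hθr, (by ring : r * (1 * θ' ^ 2) = θ' ^ 2 * r)])
        (by rw [← hC, sub_self, norm_zero]; positivity) (X := z.1 + x)
        (Y := z.1 + ctr θ' C ν c y1 l) (t := z.2) (δ := (c1 + 3) * Y ^ 2) (by positivity) (by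
          have e : z.1 + ctr θ' C ν c y1 l - (z.1 + x) - t • vel C = ctr θ' C ν c y1 l - c := by
            rw [hc]; abel
          rw [e]; exact hfr)
      refine h5.trans (mul_le_mul' (ENNReal.ofReal_le_ofReal ?_) le_rfl)
      rw [pow_mul, ← mul_pow]
      refine pow_le_pow_left₀ (by positivity) ?_ n
      have h4 : 1 ≤ Y ^ 2 := one_le_pow₀ hY
      nlinarith)
  refine key.trans ?_
  have hcardF : (F.card : ℝ≥0∞) ≤ ENNReal.ofReal 81 := by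
    rw [← ENNReal.ofReal_natCast]
    exact ENNReal.ofReal_le_ofReal (by exact_mod_cast hF1)
  have hcardL : ((Finset.Icc (-⌈L0⌉ - 1) (⌈L0⌉ + 1)).card : ℝ≥0∞) ≤ ENNReal.ofReal (7 * L0) := by
    rw [← ENNReal.ofReal_natCast]
    exact ENNReal.ofReal_le_ofReal (card_cells hL01)
  calc ENNReal.ofReal (4 * 2 ^ (n + k + 4)) *
        (F.card * ((Finset.Icc (-⌈L0⌉ - 1) (⌈L0⌉ + 1)).card * Bd))
      ≤ ENNReal.ofReal (4 * 2 ^ (n + k + 4)) *
        (ENNReal.ofReal 81 * (ENNReal.ofReal (7 * L0) * Bd)) := by gcongr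
    _ = _ := by
        rw [hBd, ← mul_assoc (ENNReal.ofReal (C1 * _ * _ * _)), ← ENNReal.ofReal_mul (by positivity),
          ← mul_assoc, ← mul_assoc, ← mul_assoc, ← ENNReal.ofReal_mul (by positivity),
          ← ENNReal.ofReal_mul (by positivity), ← ENNReal.ofReal_mul (by positivity)]
        congr 2
        rw [hL0, pow_add Y]
        ring

/-- **far part** of one cap. -/
theorem cap_far {θ κ Y : ℝ} {N : ℕ} {C : E2} {S' : Set E3} (hS' : MeasurableSet S') (hY : 0 ≤ Y)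
    (c : E3) (U : E3 → ℝ≥0∞) :
    ∫⁻ y in S' ∩ {y | ¬ ‖frc θ κ C (y - c)‖ ≤ Y},
        ENNReal.ofReal (wt (frc θ κ C) N (y - c)) * U y ≤
      ENNReal.ofReal (((1 + Y) ^ N)⁻¹) * ∫⁻ y in S', U y := by
  have hm : MeasurableSet {y : E3 | ¬ ‖frc θ κ C (y - c)‖ ≤ Y} := by
    refine MeasurableSet.compl (isClosed_le (f := fun y : E3 => ‖frc θ κ C (y - c)‖) ?_
      continuous_const).measurableSet
    fun_prop
  calc ∫⁻ y in S' ∩ {y | ¬ ‖frc θ κ C (y - c)‖ ≤ Y},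
        ENNReal.ofReal (wt (frc θ κ C) N (y - c)) * U y
      ≤ ∫⁻ y in S' ∩ {y | ¬ ‖frc θ κ C (y - c)‖ ≤ Y}, ENNReal.ofReal (((1 + Y) ^ N)⁻¹) * U y := by
        refine setLIntegral_mono' (hS'.inter hm) fun y hy => mul_le_mul' ?_ le_rfl
        refine ENNReal.ofReal_le_ofReal ?_
        have h1 : Y < ‖frc θ κ C (y - c)‖ := not_le.1 hy.2
        unfold wt
        refine inv_anti₀ (by positivity) (pow_le_pow_left₀ (by positivity) (by linarith) N)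
    _ ≤ ∫⁻ y in S', ENNReal.ofReal (((1 + Y) ^ N)⁻¹) * U y := lintegral_mono_set Set.inter_subset_left
    _ = _ := lintegral_const_mul' _ _ ENNReal.ofReal_ne_top

end Crest.Agent.R116.AlC339
end

-- ▼ part R116/AlH3_339
section

/-!
# R116 (S0155), wave side, AL-CONE (helper339): the bound (H) for every child plate

`ctx_num` = the numbers of the slab step from `Ctx` (`G ≥ 2`); `fam_ok` = the family of parent caps;
**`hh`** = the Prop `HH` of `AlD_339`.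
-/

set_option autoImplicit false

open MeasureTheory
open scoped ENNReal

namespace Crest.Agent.R116.AlC339

open Crest.Agent.R138.Defs (E2)
open Crest.Agent.R138.Wpk685 (cen caps)
open Crest.Agent.R138.Loc878 (nearL mem_nearL)
open Crest.Agent.R116.CDef480 Crest.Agent.R116.Ckm538 Crest.Agent.R116.Cad538
open Crest.Agent.R116.LZg725 (Cf)
open Crest.Agent.R116.Gc192 (un norm_un un_sub)
open Crest.Agent.R116.AlB888 (Adc Adc_mono Adc_row lat_vel sum_Adc_le wide_nums lower_C an_step an_sq an_pos)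
open Crest.Agent.R116.WC188 Crest.Agent.R116.PC299

/-- numbers of `dl`, in terms of `e = dl ^ (1/4)`. -/
theorem e_num {M A dl G Gm Y : ℝ} (hM : 1 ≤ M) (hA : 1 ≤ A) (hdl : 0 < dl)
    (hdl0 : dl ≤ ((3584 * M * A) ^ 2)⁻¹) (hG : 2 ≤ G)
    (hGm2 : Gm ≤ dl ^ (-(1/4) : ℝ)) (hY2 : Y ≤ dl ^ (-(1/4) : ℝ)) (hGm : 1 ≤ Gm) (hY : 1 ≤ Y) :
    ∃ e : ℝ, 0 < e ∧ e ≤ 1 ∧ e ^ 4 = dl ∧ e ^ 2 = dl ^ (1/2 : ℝ) ∧ Gm * e ≤ 1 ∧ Y * e ≤ 1 ∧
      3584 * (M * A) * e ^ 2 ≤ 1 ∧ (dl * dl)⁻¹ ≤ dl ^ (-G) := by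
  have hMA : 1 ≤ M * A := one_le_mul_of_one_le_of_one_le hM hA
  have hP : (1:ℝ) ≤ 3584 * M * A := by nlinarith
  have hdl1 : dl ≤ 1 := hdl0.trans (inv_le_one_of_one_le₀ (one_le_pow₀ hP))
  obtain ⟨e, he⟩ : ∃ e : ℝ, e = dl ^ (1/4 : ℝ) := ⟨_, rfl⟩
  have he0 : 0 < e := by rw [he]; exact Real.rpow_pos_of_pos hdl _
  have he1 : e ≤ 1 := by rw [he]; exact Real.rpow_le_one hdl.le hdl1 (by norm_num)
  have e4 : e ^ 4 = dl := by
    rw [he, ← Real.rpow_natCast, ← Real.rpow_mul hdl.le]; norm_num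
  have e2 : e ^ 2 = dl ^ (1/2 : ℝ) := by
    rw [he, ← Real.rpow_natCast, ← Real.rpow_mul hdl.le]; norm_num
  have ei : dl ^ (-(1/4) : ℝ) = e⁻¹ := by rw [he, Real.rpow_neg hdl.le]
  rw [ei] at hGm2 hY2
  refine ⟨e, he0, he1, e4, e2, ?_, ?_, ?_, ?_⟩
  · calc Gm * e ≤ e⁻¹ * e := by gcongr
      _ = 1 := inv_mul_cancel₀ he0.ne'
  · calc Y * e ≤ e⁻¹ * e := by gcongr
      _ = 1 := inv_mul_cancel₀ he0.ne'
  · have h1 : (3584 * (M * A) * e ^ 2) ^ 2 ≤ 1 ^ 2 := by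
      have h2 : (3584 * (M * A) * e ^ 2) ^ 2 = (3584 * M * A) ^ 2 * dl := by rw [← e4]; ring
      rw [h2, one_pow]
      calc (3584 * M * A) ^ 2 * dl ≤ (3584 * M * A) ^ 2 * ((3584 * M * A) ^ 2)⁻¹ := by gcongr
        _ = 1 := mul_inv_cancel₀ (by positivity)
    exact (pow_le_pow_iff_left₀ (by positivity) (by norm_num) (by norm_num)).1 h1
  · have h1 : (dl * dl)⁻¹ = dl ^ (-2 : ℝ) := by
      rw [Real.rpow_neg hdl.le, Real.rpow_two, sq]
    rw [h1]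
    exact Real.rpow_le_rpow_of_exponent_ge hdl hdl1 (by linarith)

/-- the numbers of the slab step. -/
theorem num_of {M A κ r1 dl s1 s2 G Gm Y : ℝ} (hM : 1 ≤ M) (hA : 1 ≤ A) (hκ : 0 < κ)
    (hdl : 0 < dl) (hdl0 : dl ≤ ((3584 * M * A) ^ 2)⁻¹) (hG : 2 ≤ G) (hr1 : 0 < r1)
    (hGm2 : Gm ≤ dl ^ (-(1/4) : ℝ)) (hY2 : Y ≤ dl ^ (-(1/4) : ℝ)) (hGm : 1 ≤ Gm) (hY : 1 ≤ Y)
    (hlo : an (dl * r1) ≤ s1) (hle : s1 ≤ s2) (hthin : s1 ≤ Gm * an (dl * r1))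
    (hwide : dl ^ (-G) * an (dl * r1) ≤ s2) :
    Num M A κ (an r1) (an (dl * r1)) (dl ^ (1/2 : ℝ)) s1 s2 (dl * r1) Gm Y := by
  obtain ⟨e, he0, he1, e4, e2, g1, y1, k1, w⟩ := e_num hM hA hdl hdl0 hG hGm2 hY2 hGm hY
  have hdr : 0 < dl * r1 := mul_pos hdl hr1
  have p0 : 0 < an r1 := an_pos hr1
  have p1 : 0 < an (dl * r1) := an_pos hdr
  have e01 : dl ^ (1/2 : ℝ) * an (dl * r1) = an r1 := an_step hr1 hdl
  have e1 : an (dl * r1) ^ 2 * (dl * r1) = 1 := an_sq hdr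
  have e0 : an r1 ^ 2 * r1 = 1 := an_sq hr1
  have hs1 : 0 < s1 := p1.trans_le hlo
  have hs2 : 0 < s2 := hs1.trans_le hle
  have w1 : (dl * dl)⁻¹ * an (dl * r1) ≤ s2 := le_trans (by gcongr) hwide
  have w2 : an (dl * r1) ≤ dl * dl * s2 := by
    have h1 : (dl * dl) * ((dl * dl)⁻¹ * an (dl * r1)) ≤ (dl * dl) * s2 := by gcongr
    rwa [mul_inv_cancel_left₀ (by positivity)] at h1
  have hMA : 1 ≤ M * A := one_le_mul_of_one_le_of_one_le hM hA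
  have hdl1 : dl ≤ 1 := by rw [← e4]; exact pow_le_one₀ he0.le he1
  have hδ1 : dl ^ (1/2 : ℝ) ≤ 1 := by rw [← e2]; exact pow_le_one₀ he0.le he1
  have w3 : an (dl * r1) ≤ dl * s2 := by
    refine w2.trans ?_
    have : dl * dl ≤ 1 * dl := by gcongr
    nlinarith
  refine ⟨hM, hA, hκ, p0, ?_, Real.rpow_pos_of_pos hdl _, hδ1, hs1, hs2, hdr, hGm, hY, ?_, ?_, ?_,
    e01.le, ?_⟩
  · rw [← e01]
    exact mul_le_of_le_one_left p1.le hδ1
  · -- `32 M A s1 ≤ s2`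
    have h1 : 32 * M * A * s1 ≤ 32 * M * A * (Gm * (dl * s2)) := by
      have : s1 ≤ Gm * (dl * s2) := hthin.trans (by gcongr)
      gcongr
    refine h1.trans ?_
    have h2 : 32 * M * A * (Gm * (dl * s2)) = (32 * (M * A) * e ^ 2) * (Gm * e) * e * s2 := by
      rw [← e4]; ring
    rw [h2]
    have h3 : 32 * (M * A) * e ^ 2 ≤ 1 := by
      have : 0 ≤ M * A * e ^ 2 := by positivity
      nlinarith
    calc (32 * (M * A) * e ^ 2) * (Gm * e) * e * s2 ≤ 1 * 1 * 1 * s2 := by gcongr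
      _ = s2 := by ring
  · -- thin
    calc an (dl * r1) * (s1 * (dl * r1)) ≤ an (dl * r1) * ((Gm * an (dl * r1)) * (dl * r1)) := by
          gcongr
      _ = Gm * (an (dl * r1) ^ 2 * (dl * r1)) := by ring
      _ = Gm := by rw [e1, mul_one]
  · -- cur
    calc an (dl * r1) ≤ dl * s2 := w3
      _ = s2 * dl * (an r1 ^ 2 * r1) := by rw [e0]; ring
      _ = _ := by ring
  · -- var
    have h1 : dl ^ (1/2 : ℝ) * (an r1 * (s2 * (dl * r1))) * (an r1 * an (dl * r1)) =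
        (dl ^ (1/2 : ℝ) * an (dl * r1)) * (dl * s2) * (an r1 ^ 2 * r1) := by ring
    rw [e0, e01, mul_one] at h1
    -- so `... * an (dl r1) = dl s2`
    have h2 : dl ^ (1/2 : ℝ) * (an r1 * (s2 * (dl * r1))) * an (dl * r1) = dl * s2 := by
      have : an r1 * (dl ^ (1/2 : ℝ) * (an r1 * (s2 * (dl * r1))) * an (dl * r1)) =
          an r1 * (dl * s2) := by rw [← h1]; ring
      exact mul_left_cancel₀ p0.ne' this
    have h3 : 64 * M * Y * an (dl * r1) ≤ dl * s2 := by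
      calc 64 * M * Y * an (dl * r1) ≤ 64 * M * Y * (dl * dl * s2) := by gcongr
        _ = (64 * M * e ^ 2) * (Y * e) * e * (dl * s2) := by
            conv_lhs => rw [← e4]
            conv_rhs => rw [← e4]
            ring
        _ ≤ 1 * 1 * 1 * (dl * s2) := by
            have : 64 * M * e ^ 2 ≤ 1 := by
              have h5 : M * 1 ≤ M * A := by gcongr
              have h6 : M * 1 * e ^ 2 ≤ M * A * e ^ 2 := by gcongr
              nlinarith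
            gcongr
        _ = _ := by ring
    refine le_of_mul_le_mul_right ?_ p1
    rw [h2]
    exact h3

theorem ctx_num {M q a b A d1 G c0 κ η0 : ℝ} {g : E3 → ℂ}
    {r1 dl Y Gm s1' s2' s1 s2 D : ℝ} {I1 : Finset ℕ} {P1 : ℕ → Plate} {I : Finset ℕ}
    {P : ℕ → Plate} (hM : 1 ≤ M) (hA : 1 ≤ A)
    (h : Ctx M q a b A d1 G c0 κ η0 g r1 dl Y Gm s1' s2' s1 s2 D I1 P1 I P)
    (hdl0 : dl ≤ ((3584 * M * A) ^ 2)⁻¹) (hG : 2 ≤ G) :
    Num M A κ (an r1) (an (dl * r1)) (dl ^ (1/2 : ℝ)) s1 s2 (dl * r1) Gm Y :=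
  num_of hM hA h.kpos h.dlpos hdl0 hG
    (lt_of_lt_of_le (Real.rpow_pos_of_pos h.dlpos _) h.r1ge) h.Gm2 h.Y2 h.Gm1 h.Y1 h.sd.lo h.sd.le
    h.thin h.wide

/-- the label is close. -/
theorem labc_near {s : ℝ} (hs : 0 < s) (c : E2) : ‖c - cen s (labc s c)‖ ≤ s := by
  have h0 : |c 0 - s * round (c 0 / s)| ≤ s / 2 := by
    have h1 := abs_sub_round (c 0 / s)
    have e : c 0 - s * round (c 0 / s) = s * (c 0 / s - round (c 0 / s)) := by
      rw [mul_sub, mul_div_cancel₀ _ hs.ne']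
    rw [e, abs_mul, abs_of_pos hs]
    nlinarith
  have h1 : |c 1 - s * round (c 1 / s)| ≤ s / 2 := by
    have h1 := abs_sub_round (c 1 / s)
    have e : c 1 - s * round (c 1 / s) = s * (c 1 / s - round (c 1 / s)) := by
      rw [mul_sub, mul_div_cancel₀ _ hs.ne']
    rw [e, abs_mul, abs_of_pos hs]
    nlinarith
  have h2 : ‖c - cen s (labc s c)‖ ^ 2 ≤ s ^ 2 := by
    rw [normsq2]
    have e0 : (c - cen s (labc s c)) 0 = c 0 - s * round (c 0 / s) := rfl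
    have e1 : (c - cen s (labc s c)) 1 = c 1 - s * round (c 1 / s) := rfl
    rw [e0, e1]
    have a0 := sq_le_sq' (abs_le.1 h0).1 (abs_le.1 h0).2
    have a1 := sq_le_sq' (abs_le.1 h1).1 (abs_le.1 h1).2
    nlinarith
  exact (pow_le_pow_iff_left₀ (norm_nonneg _) hs.le (by norm_num)).1 h2

/-- the family contains the parent caps near the caps of the plate. -/
theorem fam_ok {A θ θ' θ'' s : ℝ} (hs : 0 < s) (hA : 1 ≤ A) (h1 : 16 * θ'' + 3 * θ' ≤ s)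
    {c : E2} {m m' : ℤ × ℤ} (hm : m ∈ caps θ) (hc : ‖cen θ' m' - c‖ ≤ A * s)
    (h : ‖cen θ m - cen θ' m'‖ ≤ 16 * θ'' + 3 * θ') : m ∈ Fam A θ s (labc s c) := by
  classical
  unfold Fam
  rw [Finset.mem_filter]
  refine ⟨hm, ?_⟩
  have e : cen θ m - cen s (labc s c) = (cen θ m - cen θ' m') + (cen θ' m' - c) +
      (c - cen s (labc s c)) := by abel
  rw [e]
  have h2 := labc_near hs c
  calc _ ≤ ‖cen θ m - cen θ' m'‖ + ‖cen θ' m' - c‖ + ‖c - cen s (labc s c)‖ :=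
        (norm_add_le _ _).trans (add_le_add (norm_add_le _ _) le_rfl)
    _ ≤ s + A * s + s := by linarith
    _ = (A + 2) * s := by ring

end Crest.Agent.R116.AlC339
end

-- ▼ part R116/AlH4_339
section

/-!
# R116 (S0155), wave side, AL-CONE (helper339): the bound (H), part 2

**`hh`** = the Prop `HH` of `AlD_339` from `Ctx`, `Coh`, `Chi`, `IsAl`.
-/

set_option autoImplicit false

open MeasureTheory
open scoped ENNReal

namespace Crest.Agent.R116.AlC339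

open Crest.Agent.R138.Defs (E2)
open Crest.Agent.R138.Wpk685 (cen caps)
open Crest.Agent.R138.Loc878 (nearL mem_nearL)
open Crest.Agent.R116.CDef480 Crest.Agent.R116.Ckm538 Crest.Agent.R116.Cad538
open Crest.Agent.R116.LZg725 (Cf)
open Crest.Agent.R116.Gc192 (un norm_un un_sub)
open Crest.Agent.R116.AlB888 (Adc Adc_mono Adc_row lat_vel sum_Adc_le wide_nums lower_C an_step an_sq
  an_pos)
open Crest.Agent.R116.WC188 Crest.Agent.R116.PC299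

/-- total energies. -/
theorem en_tot : ∃ C : ℝ, 0 ≤ C ∧ ∀ (η0 κ θ θ' B : ℝ) (g : E3 → ℂ) (I1 : Finset ℕ)
    (P1 : ℕ → Plate) (z : E3 × ℝ), 0 < κ → 0 < θ → θ ≤ 1 → 0 < θ' → θ' ≤ 1 → Bas367.Gd g →
    (∀ i ∈ I1, ∀ m, MeasurableSet ((P1 i).S m)) → (∀ m, uS I1 P1 m ⊆ Metric.closedBall 0 B) →
    (∀ S : ℤ × ℤ → Set E3, enc θ g S ≤ ENNReal.ofReal (C * Enc g)) ∧
    ∀ S : ℤ × ℤ → Set E3, enc θ' (trc z (selc η0 κ θ g (uS I1 P1))) S ≤
      ENNReal.ofReal (C * Enc g) := by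
  obtain ⟨C1, hC1, h1⟩ := En387.en1c
  obtain ⟨C2, hC2, h2⟩ := En387.en2c
  refine ⟨C2 + C2 * (C1 * C2), by positivity, ?_⟩
  intro η0 κ θ θ' B g I1 P1 z hκ hθ hθ1 hθ' hθ'1 hg hm hb
  have hE : 0 ≤ Enc g := integral_nonneg fun _ => by positivity
  have hi := hg.int
  have hl := hg.memLp 2
  have hB := IsM883.Bsc_uS (ρ := θ) hm hb
  have hs := Bas367.selc_int (η0 := η0) hκ hθ hi hB
  refine ⟨fun S => (h2 θ hθ hθ1 g hi hl S).trans (ENNReal.ofReal_le_ofReal ?_), fun S => ?_⟩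
  · have : 0 ≤ C2 * (C1 * C2) := by positivity
    nlinarith
  · refine (h2 θ' hθ' hθ'1 _ (Bas367.trc_int hs.1 z) (Bas367.trc_l2 hs.2 z) S).trans ?_
    rw [Bas367.Enc_trc, ENNReal.ofReal_mul hC2]
    calc ENNReal.ofReal C2 * ENNReal.ofReal (Enc (selc η0 κ θ g (uS I1 P1)))
        ≤ ENNReal.ofReal C2 * (ENNReal.ofReal C1 * ENNReal.ofReal (C2 * Enc g)) :=
          mul_le_mul' le_rfl ((h1 η0 κ θ hκ hθ hθ1 g hi hl _ hB).trans
            (mul_le_mul' le_rfl (h2 θ hθ hθ1 g hi hl _)))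
      _ = ENNReal.ofReal (C2 * (C1 * (C2 * Enc g))) := by
          rw [← ENNReal.ofReal_mul hC1, ← ENNReal.ofReal_mul hC2]
      _ ≤ _ := by
          refine ENNReal.ofReal_le_ofReal ?_
          nlinarith

/-- the set of the active points. -/
theorem lint_split {S' : Set E3} (N : Set E3) (F : E3 → ℝ≥0∞) :
    ∫⁻ y in S', F y ≤ (∫⁻ y in S' ∩ N, F y) + ∫⁻ y in S' ∩ {y | ¬ y ∈ N}, F y := by
  have e : S' = (S' ∩ N) ∪ (S' ∩ {y | ¬ y ∈ N}) := by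
    ext y
    simp only [Set.mem_union, Set.mem_inter_iff, Set.mem_ofPred_eq]
    tauto
  conv_lhs => rw [e]
  exact lintegral_union_le _ _ _

set_option maxHeartbeats 1000000 in
/-- **(H)**. -/
theorem hh {M A a : ℝ} (hM : 1 ≤ M) (hA : 1 ≤ A) (ha : 1 ≤ a) (b : ℝ) (n Mt : ℕ) :
    ∃ C : ℝ, 0 ≤ C ∧ ∀ (q d1 G c0 κ η0 K0 : ℝ) (g : E3 → ℂ)
      (r1 dl Y Gm s1' s2' s1 s2 D α p pp : ℝ) (I1 : Finset ℕ) (P1 : ℕ → Plate) (I : Finset ℕ)
      (P : ℕ → Plate),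
    Ctx M q a b A d1 G c0 κ η0 g r1 dl Y Gm s1' s2' s1 s2 D I1 P1 I P →
    dl ≤ ((3584 * M * A) ^ 2)⁻¹ → 2 ≤ G →
    Coh (an r1) (an (dl * r1)) κ (dl ^ (1/2 : ℝ)) Y (2 * r1) I1 P1 pp → 1 ≤ pp → 0 ≤ α → 1 ≤ p →
    1 ≤ K0 → Chi n K0 κ g dl r1 α p (uS I1 P1) I P →
    IsAl (dl ^ (1/2 : ℝ)) κ η0 g dl r1 I1 P1 I P →
    HH (2 * (n + (2 * Mt + (2 * n + 2)) + 4)) n A κ η0 g r1 dl s2 I1 P1 I P
      (C * K0 * Gm ^ 3 * Y ^ (4 * n + 4) * (pp / p)) (C * r1 * (Y ^ (2 * Mt))⁻¹ * Enc g) := by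
  set k : ℕ := 2 * Mt + (2 * n + 2) with hk
  obtain ⟨C0, hC0, hnear⟩ := cap_near hM hA a b ha n k
  obtain ⟨Ce, hCe, hen⟩ := en_tot
  set c2 : ℝ := 4000000000 * 222 ^ (2 * n) * (M * A) ^ 2 with hc2
  refine ⟨C0 * c2 + (C0 * 81 * 36 * Ce + Ce), by positivity, ?_⟩
  intro q d1 G c0 κ η0 K0 g r1 dl Y Gm s1' s2' s1 s2 D α p pp I1 P1 I P hctx hdl0 hG hcoh hpp hα hp
    hK0 hchi hal i hi x t ht
  have hn := ctx_num hM hA hctx hdl0 hG
  have hdl := hctx.dlpos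
  have hr1 : 0 < r1 := lt_of_lt_of_le (Real.rpow_pos_of_pos hdl _) hctx.r1ge
  have hdr : 0 < dl * r1 := mul_pos hdl hr1
  obtain ⟨e, he0, he1, e4, e2, g1, y1, k1, w⟩ := e_num hM hA hdl hdl0 hG hctx.Gm2 hctx.Y2 hctx.Gm1
    hctx.Y1
  have hdl1 : dl ≤ 1 := by rw [← e4]; exact pow_le_one₀ he0.le he1
  have hdr1 : 1 ≤ dl * r1 := by
    have h1 : (dl * dl)⁻¹ ≤ r1 := w.trans hctx.r1ge
    have h2 : 1 ≤ (dl * dl) * r1 := by
      have := mul_le_mul_of_nonneg_left h1 (by positivity : 0 ≤ dl * dl)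
      rwa [mul_inv_cancel₀ (by positivity)] at this
    have h3 : (dl * dl) * r1 ≤ dl * r1 := by
      have : dl * dl ≤ 1 * dl := by gcongr
      nlinarith
    linarith
  have hr11 : 1 ≤ r1 := by nlinarith
  set θ := an r1 with hθd
  set θ' := an (dl * r1) with hθ'd
  have hθ : 0 < θ := an_pos hr1
  have hθ' : 0 < θ' := an_pos hdr
  have e01 : dl ^ (1/2 : ℝ) * θ' = θ := an_step hr1 hdl
  have sq0 : θ ^ 2 * r1 = 1 := an_sq hr1
  have sq1 : θ' ^ 2 * (dl * r1) = 1 := an_sq hdr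
  have hθ'1 : θ' ≤ 1 := by
    by_contra hc
    push Not at hc
    have : 1 < θ' ^ 2 := by nlinarith
    nlinarith
  have hθ1 : θ ≤ 1 := hn.tt.trans hθ'1
  have hκ := hctx.kpos
  have hd4 : dl ^ (4 : ℕ) ≤ 1 := pow_le_one₀ hdl.le hdl1
  have hκ1 : κ ≤ 1 := hctx.khi.trans hd4
  have hκθ : κ * θ' ≤ θ := by
    rw [← e01]
    refine mul_le_mul_of_nonneg_right ?_ hθ'.le
    rw [← e2]
    refine hctx.khi.trans ?_
    rw [← e4, ← pow_mul]
    exact pow_le_pow_of_le_one he0.le he1 (by norm_num)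
  have hGθ : Gm * θ ≤ θ' := by
    have h1 : Gm * e ^ 2 ≤ 1 := by
      have : Gm * e ^ 2 = (Gm * e) * e := by ring
      rw [this]
      exact mul_le_one₀ g1 he0.le he1
    calc Gm * θ = (Gm * e ^ 2) * θ' := by rw [← e01, ← e2]; ring
      _ ≤ 1 * θ' := by gcongr
      _ = θ' := one_mul _
  have hgd : Gd a b η0 κ g := ⟨hctx.par.gm, hctx.par.gb, hctx.par.gs, hctx.par.slc⟩
  have hgd' : Bas367.Gd g := Bas367.gd_of_supp (a := a) (b := b) hgd.gm hgd.gb (fun ζ hζ =>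
    ⟨(inv_pos.2 (by linarith)).trans_le (hgd.gs ζ hζ).1, (hgd.gs ζ hζ).2.1, (hgd.gs ζ hζ).2.2⟩)
  obtain ⟨en1, en2⟩ := hen η0 κ θ θ' (A * r1) g I1 P1 (P i).z hκ hθ hθ1 hθ' hθ'1 hgd'
    hctx.par.meas hctx.par.bd
  have hE : 0 ≤ Enc g := integral_nonneg fun _ => by positivity
  have hz : |(P i).z.2| ≤ r1 := (hctx.pl.mem i hi).2
  have hY := hctx.Y1
  have hGm := hctx.Gm1
  have hs2 := hn.p2
  have hadm := hctx.pl.adm i hi
  have hplt : Plt M κ s1 s2 (dl * r1) (P i).f := plt_of_adm (by linarith) hs2 hadm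
  obtain ⟨-, kk, -⟩ := wide_nums hM hA hdl hdl0 (by linarith : (1:ℝ) ≤ G) hctx.Gm1 hctx.Gm2 hctx.Y1
    hctx.Y2 hctx.kpos hctx.khi hθ' (an_step hdr hdl) hctx.wide
  set θ'' := an (dl * (dl * r1)) with hθ''d
  have hθ'' : 0 < θ'' := an_pos (mul_pos hdl hdr)
  have e12 : dl ^ (1/2 : ℝ) * θ'' = θ' := an_step hdr hdl
  have hle'' : θ' ≤ θ'' := by
    rw [← e12]
    exact mul_le_of_le_one_left hθ''.le (by rw [← e2]; exact pow_le_one₀ he0.le he1)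
  have hfam : 16 * θ'' + 3 * θ' ≤ s2 := by nlinarith
  set g1 := selc η0 κ θ g (uS I1 P1) with hg1
  set U : ℤ × ℤ → E3 → ℝ≥0∞ := fun m y => ‖umc θ' (trc (P i).z g1) m y‖ₑ ^ 2 with hU
  set N : ℕ := 2 * (n + k + 4) with hN
  set Nr : ℤ × ℤ → Set E3 := fun m =>
    {y | ‖frc θ κ (cen θ' m) (y - (x + t • vel (cen θ' m)))‖ ≤ Y} with hNr
  set wU : ℤ × ℤ → E3 → ℝ≥0∞ := fun m y =>
    ENNReal.ofReal (wt (frc θ κ (cen θ' m)) N (y - (x + t • vel (cen θ' m)))) * U m y with hwU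
  set tk : ℝ := (caps θ).card * ((1 + Y) ^ k)⁻¹ with htk
  have htk0 : 0 ≤ tk := by positivity
  set K1 : ℝ := C0 * (Gm * Y ^ (2 * n + 2)) * (θ / θ') * (θ ^ 2 * κ)⁻¹ with hK1
  have hK10 : 0 ≤ K1 := by positivity
  classical
  set T : Finset (ℤ × ℤ) := (caps θ').filter fun m => ∃ y ∈ (P i).S m, y ∈ Nr m with hT
  have hTc : T ⊆ caps θ' := Finset.filter_subset _ _
  set Ad : ℤ × ℤ → ℝ≥0∞ := fun m =>
    Adc n θ κ θ' g (uS I1 P1) m ((P i).z.1 + x) ((P i).z.2 + t) with hAd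
  -- near part
  have hne : ∀ m ∈ caps θ', ∫⁻ y in (P i).S m ∩ Nr m, wU m y ≤
      if m ∈ T then ENNReal.ofReal (K1 * (pp + tk)) * Ad m else 0 := by
    intro m hm
    split_ifs with hmT
    · refine (hnear κ η0 θ θ' (dl ^ (1/2 : ℝ)) s1 s2 (dl * r1) Gm Y (2 * r1) pp g I1 P1 (P i).z
        (P i).f m ((P i).S m) x t (A * r1) hn hGθ hθ'1 hκθ sq1.le hκ1 hctx.ka hgd hctx.par.meas
        hctx.par.bd ?_ (by linarith) hcoh (by linarith) hplt (hctx.pl.meas i hi m)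
        (fun y hy => src_of_mset (hctx.pl.box i hi m hy)) (fun y hy => hal i hi m y hy) ht).trans
        (le_of_eq ?_)
      · calc |(P i).z.2| * θ ^ 2 ≤ r1 * θ ^ 2 := by gcongr
          _ = 1 := by rw [mul_comm]; exact sq0
      · rw [hK1, htk, hAd]
    · have he : (P i).S m ∩ Nr m = ∅ := by
        ext y
        simp only [Set.mem_inter_iff, Set.mem_empty_iff_false, iff_false]
        intro h
        exact hmT (Finset.mem_filter.2 ⟨hm, y, h.1, h.2⟩)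
      rw [he]
      simp
  -- far part
  have hfa : ∀ m ∈ caps θ', ∫⁻ y in (P i).S m ∩ {y | ¬ y ∈ Nr m}, wU m y ≤
      ENNReal.ofReal (((1 + Y) ^ N)⁻¹) * ∫⁻ y in (P i).S m, U m y := by
    intro m _
    exact cap_far (hctx.pl.meas i hi m) (by linarith) _ _
  have hsum : seC N θ θ' κ g1 (P i) x t ≤
      ENNReal.ofReal (K1 * (pp + tk)) * ∑ m ∈ T, Ad m +
        ENNReal.ofReal (((1 + Y) ^ N)⁻¹) * enc θ' (trc (P i).z g1) (P i).S := by
    unfold seC enc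
    rw [Finset.mul_sum, Finset.mul_sum]
    calc ∑ m ∈ caps θ', ∫⁻ y in (P i).S m, wU m y
        ≤ ∑ m ∈ caps θ', ((if m ∈ T then ENNReal.ofReal (K1 * (pp + tk)) * Ad m else 0) +
            ENNReal.ofReal (((1 + Y) ^ N)⁻¹) * ∫⁻ y in (P i).S m, U m y) := by
          refine Finset.sum_le_sum fun m hm => ?_
          exact (lint_split (Nr m) _).trans (add_le_add (hne m hm) (hfa m hm))
      _ = _ := by
          rw [Finset.sum_add_distrib]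
          congr 1
          rw [← Finset.sum_filter]
          refine Finset.sum_congr ?_ fun _ _ => rfl
          ext m
          simp only [Finset.mem_filter]
          exact ⟨fun h => h.2, fun h => ⟨hTc h, h⟩⟩
  -- LOWER
  have hlow := lower_C hM hA n hctx hdl0 (by linarith) hα hp hK0 hchi hi x ht T
    (by
      intro m hm
      obtain ⟨-, y, hy1, hy2⟩ := Finset.mem_filter.1 hm
      refine ⟨y, hy1, ?_⟩
      have e5 : y - x - t • vel (cen θ' m) = y - (x + t • vel (cen θ' m)) := by abel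
      rw [e5]
      exact hy2)
    (Ms := Fam A θ s2 (labc s2 (P i).c))
    (by
      rintro m hm ⟨m', hm', h3⟩
      obtain ⟨-, y, hy1, -⟩ := Finset.mem_filter.1 hm'
      exact fam_ok hs2 hA hfam hm (hctx.pl.box i hi m' hy1).1 h3)
  -- total density
  have htot : ∑ m ∈ T, Ad m ≤ ENNReal.ofReal (36 * (θ ^ 2 * κ) * (Ce * Enc g)) := by
    refine (sum_Adc_le (M := caps θ) hθ' hTc (fun m _ => Finset.filter_subset _ _) _ _).trans ?_
    have h1 : Cad538.Acc n θ κ θ g (uS I1 P1) (caps θ) ((P i).z.1 + x) ((P i).z.2 + t) ≤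
        ENNReal.ofReal (θ ^ 2 * κ) * enc θ g (uS I1 P1) := Den_le _ _
    refine (mul_le_mul' le_rfl (h1.trans (mul_le_mul' le_rfl (en1 _)))).trans (le_of_eq ?_)
    rw [← ENNReal.ofReal_mul (by positivity), show (36:ℝ≥0∞) = ENNReal.ofReal 36 by norm_num,
      ← ENNReal.ofReal_mul (by norm_num)]
    congr 1; ring
  set AC := Acc n θ κ θ g (uS I1 P1) (Fam A θ s2 (labc s2 (P i).c)) ((P i).z.1 + x)
    ((P i).z.2 + t) with hAC
  have hq0 : 0 < θ ^ 2 * κ := by positivity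
  -- numbers
  set Cc : ℝ := C0 * c2 + (C0 * 81 * 36 * Ce + Ce) with hCc
  have hmain : K1 * pp * (c2 * K0 * Gm ^ 2 * Y ^ (2 * n + 2) / p) ≤
      (θ ^ 2 * κ)⁻¹ * ((Cc * K0 * Gm ^ 3 * Y ^ (4 * n + 4) * (pp / p)) * (θ / θ')) := by
    have h1 : K1 * pp * (c2 * K0 * Gm ^ 2 * Y ^ (2 * n + 2) / p) =
        (θ ^ 2 * κ)⁻¹ * (((C0 * c2) * K0 * Gm ^ 3 * Y ^ (4 * n + 4) * (pp / p)) * (θ / θ')) := by
      rw [hK1, show 4 * n + 4 = (2 * n + 2) + (2 * n + 2) by ring, pow_add Y (2 * n + 2)]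
      field_simp
    rw [h1]
    have h2 : C0 * c2 ≤ Cc := by rw [hCc]; linarith [(by positivity : 0 ≤ C0 * 81 * 36 * Ce + Ce)]
    have hp0 : 0 < p := by linarith
    gcongr
  have hYp : Y ^ (2 * n + 2) * ((1 + Y) ^ k)⁻¹ ≤ (Y ^ (2 * Mt))⁻¹ := by
    have h1 : Y ^ k ≤ (1 + Y) ^ k := pow_le_pow_left₀ (by linarith) (by linarith) k
    have h2 : ((1 + Y) ^ k)⁻¹ ≤ (Y ^ k)⁻¹ := inv_anti₀ (by positivity) h1
    calc Y ^ (2 * n + 2) * ((1 + Y) ^ k)⁻¹ ≤ Y ^ (2 * n + 2) * (Y ^ k)⁻¹ := by gcongr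
      _ = _ := by rw [hk, pow_add Y (2 * Mt)]; field_simp
  have hYN : ((1 + Y) ^ N)⁻¹ ≤ (Y ^ (2 * Mt))⁻¹ := by
    refine inv_anti₀ (by positivity) ?_
    calc Y ^ (2 * Mt) ≤ Y ^ N := pow_le_pow_right₀ hY (by rw [hN, hk]; omega)
      _ ≤ _ := pow_le_pow_left₀ (by linarith) (by linarith) N
  have htk1 : tk ≤ 81 * r1 * ((1 + Y) ^ k)⁻¹ := by
    have h1 := Tr126.card_caps hθ hθ1
    have h2 : (θ⁻¹) ^ 2 = r1 := by
      rw [inv_pow]
      field_simp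
      linarith
    rw [h2] at h1
    rw [htk]
    gcongr
  have htail1 : K1 * tk * (36 * (θ ^ 2 * κ) * (Ce * Enc g)) ≤
      (θ ^ 2 * κ)⁻¹ * ((C0 * 81 * 36 * Ce) * r1 * (Y ^ (2 * Mt))⁻¹ * Enc g) := by
    have h1 : Gm * (θ / θ') ≤ 1 := by
      rw [mul_div_assoc', div_le_one hθ']; exact hGθ
    have h2 : θ ^ 2 * κ ≤ 1 := mul_le_one₀ (pow_le_one₀ hθ.le hθ1) hκ.le hκ1
    calc K1 * tk * (36 * (θ ^ 2 * κ) * (Ce * Enc g))
        ≤ K1 * (81 * r1 * ((1 + Y) ^ k)⁻¹) * (36 * (θ ^ 2 * κ) * (Ce * Enc g)) := by gcongr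
      _ = (θ ^ 2 * κ)⁻¹ * ((C0 * 81 * 36 * Ce) * r1 * (Y ^ (2 * n + 2) * ((1 + Y) ^ k)⁻¹) * Enc g *
            ((Gm * (θ / θ')) * (θ ^ 2 * κ))) := by rw [hK1]; ring
      _ ≤ (θ ^ 2 * κ)⁻¹ * ((C0 * 81 * 36 * Ce) * r1 * (Y ^ (2 * Mt))⁻¹ * Enc g * (1 * 1)) := by
          gcongr
      _ = _ := by ring
  have htail2 : ((1 + Y) ^ N)⁻¹ * (Ce * Enc g) ≤
      (θ ^ 2 * κ)⁻¹ * (Ce * r1 * (Y ^ (2 * Mt))⁻¹ * Enc g) := by
    have h2 : θ ^ 2 * κ ≤ 1 := mul_le_one₀ (pow_le_one₀ hθ.le hθ1) hκ.le hκ1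
    have h3 : 1 ≤ (θ ^ 2 * κ)⁻¹ := (one_le_inv₀ hq0).2 h2
    calc ((1 + Y) ^ N)⁻¹ * (Ce * Enc g) ≤ (Y ^ (2 * Mt))⁻¹ * (Ce * Enc g) := by gcongr
      _ = 1 * (Ce * 1 * (Y ^ (2 * Mt))⁻¹ * Enc g) := by ring
      _ ≤ (θ ^ 2 * κ)⁻¹ * (Ce * r1 * (Y ^ (2 * Mt))⁻¹ * Enc g) := by gcongr
  have hall : seC N θ θ' κ g1 (P i) x t ≤
      ENNReal.ofReal (K1 * pp * (c2 * K0 * Gm ^ 2 * Y ^ (2 * n + 2) / p)) * AC +
      (ENNReal.ofReal (K1 * tk * (36 * (θ ^ 2 * κ) * (Ce * Enc g))) +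
        ENNReal.ofReal (((1 + Y) ^ N)⁻¹ * (Ce * Enc g))) := by
    refine hsum.trans ?_
    rw [← add_assoc]
    refine add_le_add ?_ ?_
    · rw [mul_add, ENNReal.ofReal_add (by positivity) (by positivity), add_mul]
      refine add_le_add ?_ ?_
      · have e7 : ENNReal.ofReal (K1 * pp * (c2 * K0 * Gm ^ 2 * Y ^ (2 * n + 2) / p)) =
            ENNReal.ofReal (K1 * pp) * ENNReal.ofReal (c2 * K0 * Gm ^ 2 * Y ^ (2 * n + 2) / p) :=
          ENNReal.ofReal_mul (by positivity)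
        rw [e7, mul_assoc (ENNReal.ofReal (K1 * pp))]
        exact mul_le_mul' le_rfl hlow
      · have e7 : ENNReal.ofReal (K1 * tk * (36 * (θ ^ 2 * κ) * (Ce * Enc g))) =
            ENNReal.ofReal (K1 * tk) * ENNReal.ofReal (36 * (θ ^ 2 * κ) * (Ce * Enc g)) :=
          ENNReal.ofReal_mul (by positivity)
        rw [e7]
        exact mul_le_mul' le_rfl htot
    · have e7 : ENNReal.ofReal (((1 + Y) ^ N)⁻¹ * (Ce * Enc g)) =
          ENNReal.ofReal (((1 + Y) ^ N)⁻¹) * ENNReal.ofReal (Ce * Enc g) :=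
        ENNReal.ofReal_mul (by positivity)
      rw [e7]
      exact mul_le_mul' le_rfl (en2 _)
  refine hall.trans ?_
  have hp0 : 0 < p := by linarith
  have e8 : ENNReal.ofReal ((θ ^ 2 * κ)⁻¹) *
      (ENNReal.ofReal ((Cc * K0 * Gm ^ 3 * Y ^ (4 * n + 4) * (pp / p)) * (θ / θ')) * AC +
        ENNReal.ofReal (Cc * r1 * (Y ^ (2 * Mt))⁻¹ * Enc g)) =
      ENNReal.ofReal ((θ ^ 2 * κ)⁻¹ * ((Cc * K0 * Gm ^ 3 * Y ^ (4 * n + 4) * (pp / p)) *
        (θ / θ'))) * AC +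
      ENNReal.ofReal ((θ ^ 2 * κ)⁻¹ * (Cc * r1 * (Y ^ (2 * Mt))⁻¹ * Enc g)) := by
    rw [mul_add, ← mul_assoc]
    congr 1
    · rw [ENNReal.ofReal_mul (by positivity) (p := (θ ^ 2 * κ)⁻¹)]
    · exact (ENNReal.ofReal_mul (by positivity)).symm
  refine le_trans ?_ (le_of_eq e8.symm)
  refine add_le_add (mul_le_mul' (ENNReal.ofReal_le_ofReal hmain) le_rfl) ?_
  rw [← ENNReal.ofReal_add (by positivity) (by positivity)]
  refine ENNReal.ofReal_le_ofReal ((add_le_add htail1 htail2).trans ?_)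
  rw [← mul_add]
  refine mul_le_mul_of_nonneg_left ?_ (by positivity)
  have h5 : (C0 * 81 * 36 * Ce) * r1 * (Y ^ (2 * Mt))⁻¹ * Enc g +
      Ce * r1 * (Y ^ (2 * Mt))⁻¹ * Enc g =
      (C0 * 81 * 36 * Ce + Ce) * r1 * (Y ^ (2 * Mt))⁻¹ * Enc g := by ring
  rw [h5]
  have h6 : C0 * 81 * 36 * Ce + Ce ≤ Cc := by rw [hCc]; linarith [(by positivity : 0 ≤ C0 * c2)]
  gcongr

end Crest.Agent.R116.AlC339
end

-- ▼ part R116/Al_339

/-!
# R116 (S0155), wave side, AL-CONE (helper339): assembly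

**`al_of_sum`** : `SumC M q → AL_C M q` (the exponents `G = 2`, `G' = 2 n + 2`).
-/

set_option autoImplicit false

open MeasureTheory
open scoped ENNReal

namespace Crest.Agent.R116.AlC339

open Crest.Agent.R116.CDef480
open Crest.Agent.R116.WC188 Crest.Agent.R116.PC299

/-- monotonicity of `Ctx` in the threshold. -/
theorem ctx_mono {M q a b A d0 d1 G c0 κ η0 : ℝ} {g : E3 → ℂ}
    {r1 dl Y Gm s1' s2' s1 s2 D : ℝ} {I1 : Finset ℕ} {P1 : ℕ → Plate} {I : Finset ℕ}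
    {P : ℕ → Plate} (h : Ctx M q a b A d0 G c0 κ η0 g r1 dl Y Gm s1' s2' s1 s2 D I1 P1 I P)
    (h1 : dl ≤ d1) : Ctx M q a b A d1 G c0 κ η0 g r1 dl Y Gm s1' s2' s1 s2 D I1 P1 I P :=
  ⟨h.par, h.c0pos, h.c0le, h.dlpos, h1, h.r1ge, h.kpos, h.klo, h.khi, h.ka, h.Gm1, h.Gm2, h.Y1,
    h.Y2, h.sd, h.pl, h.cp, h.thin', h.thin, h.wide⟩

/-- the main term. -/
theorem main_num {C K0 Gm Y pp p : ℝ} (hC : 0 ≤ C) (hK0 : 1 ≤ K0) (hGm : 1 ≤ Gm) (hY : 1 ≤ Y)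
    (hpp : 0 ≤ pp) (hp : 0 < p) (n : ℕ) :
    (C * K0 * Gm ^ 3 * Y ^ (4 * n + 4) * (pp / p)) ^ (1/2 : ℝ) ≤
      (C + 1) * (Y * K0) ^ ((2 * n + 2 : ℕ) : ℝ) * Gm ^ (2 : ℝ) * (pp / p) ^ (1/2 : ℝ) := by
  have hq : 0 ≤ pp / p := by positivity
  have e1 : (C * K0 * Gm ^ 3 * Y ^ (4 * n + 4) * (pp / p)) ^ (1/2 : ℝ) =
      (C * K0 * Gm ^ 3) ^ (1/2 : ℝ) * Y ^ (2 * n + 2) * (pp / p) ^ (1/2 : ℝ) := by
    rw [Real.mul_rpow (by positivity) hq, Real.mul_rpow (by positivity) (by positivity)]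
    congr 2
    rw [← Real.rpow_natCast, ← Real.rpow_mul (by linarith), ← Real.rpow_natCast]
    congr 1
    push_cast
    ring
  have e2 : (C * K0 * Gm ^ 3) ^ (1/2 : ℝ) ≤ (C + 1) * K0 * Gm ^ 2 := by
    have h1 : C * K0 * Gm ^ 3 ≤ ((C + 1) * K0 * Gm ^ 2) ^ 2 := by
      have a1 : C ≤ (C + 1) ^ 2 := by nlinarith
      have a2 : K0 ≤ K0 ^ 2 := by nlinarith
      have a3 : Gm ^ 3 ≤ (Gm ^ 2) ^ 2 := by
        rw [← pow_mul]; exact pow_le_pow_right₀ hGm (by norm_num)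
      calc C * K0 * Gm ^ 3 ≤ (C + 1) ^ 2 * K0 ^ 2 * (Gm ^ 2) ^ 2 := by gcongr
        _ = _ := by ring
    calc (C * K0 * Gm ^ 3) ^ (1/2 : ℝ) ≤ (((C + 1) * K0 * Gm ^ 2) ^ 2) ^ (1/2 : ℝ) :=
          Real.rpow_le_rpow (by positivity) h1 (by norm_num)
      _ = (C + 1) * K0 * Gm ^ 2 := by
          rw [← Real.sqrt_eq_rpow, Real.sqrt_sq (by positivity)]
  have e3 : K0 ≤ K0 ^ (2 * n + 2) := by
    calc K0 = K0 ^ 1 := (pow_one _).symm
      _ ≤ _ := pow_le_pow_right₀ hK0 (by omega)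
  rw [e1, Real.rpow_natCast, Real.rpow_two, mul_pow]
  refine mul_le_mul_of_nonneg_right ?_ (by positivity)
  calc (C * K0 * Gm ^ 3) ^ (1/2 : ℝ) * Y ^ (2 * n + 2)
      ≤ ((C + 1) * K0 * Gm ^ 2) * Y ^ (2 * n + 2) := by gcongr
    _ ≤ ((C + 1) * K0 ^ (2 * n + 2) * Gm ^ 2) * Y ^ (2 * n + 2) := by gcongr
    _ = _ := by ring

/-- the tail. -/
theorem tail_num {CS C K0 G' Y E r1 : ℝ} (hCS : 0 ≤ CS) (hC : 0 ≤ C) (hK0 : 1 ≤ K0) (hG' : 0 ≤ G')
    (hY : 1 ≤ Y) (hE : 0 ≤ E) (hr1 : 1 ≤ r1) (Mt : ℕ) :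
    ENNReal.ofReal (CS * r1 ^ (10 : ℕ) * (C * r1 * (Y ^ (2 * Mt))⁻¹ * E) ^ (1/2 : ℝ)) *
        ENNReal.ofReal E ≤
      ENNReal.ofReal ((CS * (C + 1)) * K0 ^ G' * r1 ^ (20 : ℕ) * (Y ^ Mt)⁻¹) *
        (ENNReal.ofReal E) ^ (3/2 : ℝ) := by
  have hY0 : 0 < Y := by linarith
  have e1 : (C * r1 * (Y ^ (2 * Mt))⁻¹ * E) ^ (1/2 : ℝ) =
      (C * r1) ^ (1/2 : ℝ) * (Y ^ Mt)⁻¹ * E ^ (1/2 : ℝ) := by
    rw [Real.mul_rpow (by positivity) hE, Real.mul_rpow (by positivity) (by positivity)]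
    congr 2
    have : (Y ^ (2 * Mt))⁻¹ = ((Y ^ Mt)⁻¹) ^ 2 := by
      rw [inv_pow, ← pow_mul, mul_comm]
    rw [this, ← Real.sqrt_eq_rpow, Real.sqrt_sq (by positivity)]
  have e2 : (C * r1) ^ (1/2 : ℝ) ≤ (C + 1) * r1 := by
    have h1 : C * r1 ≤ ((C + 1) * r1) ^ 2 := by
      have a1 : C ≤ (C + 1) ^ 2 := by nlinarith
      have a2 : r1 ≤ r1 ^ 2 := by nlinarith
      calc C * r1 ≤ (C + 1) ^ 2 * r1 ^ 2 := by gcongr
        _ = _ := by ring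
    calc (C * r1) ^ (1/2 : ℝ) ≤ (((C + 1) * r1) ^ 2) ^ (1/2 : ℝ) :=
          Real.rpow_le_rpow (by positivity) h1 (by norm_num)
      _ = _ := by rw [← Real.sqrt_eq_rpow, Real.sqrt_sq (by positivity)]
  have e3 : 1 ≤ K0 ^ G' := Real.one_le_rpow hK0 hG'
  have e4 : ENNReal.ofReal (E ^ (1/2 : ℝ)) * ENNReal.ofReal E = (ENNReal.ofReal E) ^ (3/2 : ℝ) := by
    rw [← ENNReal.ofReal_rpow_of_nonneg hE (by norm_num)]
    conv_lhs => rw [← ENNReal.rpow_one (ENNReal.ofReal E), ← ENNReal.rpow_mul]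
    rw [← ENNReal.rpow_add_of_nonneg _ _ (by norm_num) (by norm_num)]
    norm_num
  calc ENNReal.ofReal (CS * r1 ^ (10 : ℕ) * (C * r1 * (Y ^ (2 * Mt))⁻¹ * E) ^ (1/2 : ℝ)) *
        ENNReal.ofReal E
      = ENNReal.ofReal (CS * r1 ^ (10 : ℕ) * ((C * r1) ^ (1/2 : ℝ) * (Y ^ Mt)⁻¹)) *
          (ENNReal.ofReal (E ^ (1/2 : ℝ)) * ENNReal.ofReal E) := by
        have e5 : ENNReal.ofReal (CS * r1 ^ (10 : ℕ) *
            ((C * r1) ^ (1/2 : ℝ) * (Y ^ Mt)⁻¹ * E ^ (1/2 : ℝ))) =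
            ENNReal.ofReal (CS * r1 ^ (10 : ℕ) * ((C * r1) ^ (1/2 : ℝ) * (Y ^ Mt)⁻¹)) *
              ENNReal.ofReal (E ^ (1/2 : ℝ)) := by
          rw [← ENNReal.ofReal_mul (by positivity)]
          congr 1
          ring
        rw [e1, e5, mul_assoc (ENNReal.ofReal _) (ENNReal.ofReal (E ^ (1/2 : ℝ)))]
    _ ≤ _ := by
        rw [e4]
        refine mul_le_mul' (ENNReal.ofReal_le_ofReal ?_) le_rfl
        have h5 : r1 ^ (10 : ℕ) * r1 ≤ r1 ^ (20 : ℕ) := by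
          rw [← pow_succ]; exact pow_le_pow_right₀ hr1 (by norm_num)
        calc CS * r1 ^ (10 : ℕ) * ((C * r1) ^ (1/2 : ℝ) * (Y ^ Mt)⁻¹)
            ≤ CS * r1 ^ (10 : ℕ) * (((C + 1) * r1) * (Y ^ Mt)⁻¹) := by gcongr
          _ = CS * (C + 1) * 1 * (r1 ^ (10 : ℕ) * r1) * (Y ^ Mt)⁻¹ := by ring
          _ ≤ CS * (C + 1) * K0 ^ G' * r1 ^ (20 : ℕ) * (Y ^ Mt)⁻¹ := by gcongr

/-- **AL_C** from the summation over the plates. -/
theorem al_of_sum {M q : ℝ} (hM : 1 ≤ M) (hS : SumC M q) : AL_C M q := by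
  refine ⟨2, by norm_num, ?_⟩
  intro ε hε
  obtain ⟨n0, hn0⟩ := hS ε hε
  refine ⟨n0, ?_⟩
  intro n hn
  refine ⟨((2 * n + 2 : ℕ) : ℝ), Nat.cast_nonneg _, ?_⟩
  intro a b A ha hb hb2 hA
  obtain ⟨dS, hdS, hdS1, hS2⟩ := hn0 n hn a b A ha hb hb2 hA
  refine ⟨min dS (((3584 * M * A) ^ 2)⁻¹), lt_min hdS (by positivity), (min_le_left _ _).trans hdS1,
    ?_⟩
  intro Mt
  obtain ⟨CS, hCS, hsum⟩ := hS2 (2 * (n + (2 * Mt + (2 * n + 2)) + 4)) (by omega) (by omega)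
  obtain ⟨CH, hCH, hH⟩ := hh hM hA ha b n Mt
  refine ⟨CS * (CH + 1), by positivity, ?_⟩
  intro c0 κ η0 K0 g r1 dl Y Gm s1' s2' s1 s2 D α p pp I1 P1 I P hctx hcoh hpp hα hp hK0 hchi hal
  have hd1 : dl ≤ dS := hctx.dlle.trans (min_le_left _ _)
  have hd2 : dl ≤ ((3584 * M * A) ^ 2)⁻¹ := hctx.dlle.trans (min_le_right _ _)
  have hE : 0 ≤ Enc g := integral_nonneg fun _ => by positivity
  have hdl1 : dl ≤ 1 := hd1.trans hdS1
  have hr1 : 1 ≤ r1 := by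
    refine le_trans ?_ hctx.r1ge
    exact Real.one_le_rpow_of_pos_of_le_one_of_nonpos hctx.dlpos hdl1 (by norm_num)
  have hHH := hH q _ 2 c0 κ η0 K0 g r1 dl Y Gm s1' s2' s1 s2 D α p pp I1 P1 I P hctx hd2 le_rfl hcoh
    hpp hα hp hK0 hchi hal
  have hp0 : 0 < p := by linarith
  have hY := hctx.Y1
  have hGm := hctx.Gm1
  have key := hsum 2 c0 κ η0 g r1 dl Y Gm s1' s2' s1 s2 D
    (CH * K0 * Gm ^ 3 * Y ^ (4 * n + 4) * (pp / p)) (CH * r1 * (Y ^ (2 * Mt))⁻¹ * Enc g)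
    I1 P1 I P (ctx_mono hctx hd1) le_rfl (by positivity) (by positivity) hHH
  refine key.trans (add_le_add ?_ ?_)
  · refine mul_le_mul' (ENNReal.ofReal_le_ofReal ?_) le_rfl
    have h1 := main_num hCH hK0 hGm hY (by linarith : 0 ≤ pp) hp0 n
    calc CS * r1 ^ ε * (CH * K0 * Gm ^ 3 * Y ^ (4 * n + 4) * (pp / p)) ^ (1/2 : ℝ)
        ≤ CS * r1 ^ ε * ((CH + 1) * (Y * K0) ^ ((2 * n + 2 : ℕ) : ℝ) * Gm ^ (2 : ℝ) *
          (pp / p) ^ (1/2 : ℝ)) := by gcongr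
      _ = _ := by ring
  · exact tail_num hCS hCH hK0 (Nat.cast_nonneg _) hY hE hr1 Mt

end Crest.Agent.R116.AlC339
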