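import Crest.Agent.R116.PL2_504

/-!
# R116, [II0] + [II1] of K-TEXT II-c (helper504): natural boxes, D-max value, own facts

Everything from `Lq196.ExtQ` over `monL`, as statements on real variables.

* `nb w0 sa sb v a b = eL (w0 + v) (sa + a) (sb + b)` : natural box of height `v`, velocity `a`,
  slope `b`; `nb_add` (affine), `nb_wall` (ALL walls are equalities), `nb_leg` (legality).
* `DN g s q0 q1 θa θb v a b` : the D-max exponent, `fN` : the D-max value; `fN_le`, `fN_rec`,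
  `fN_le_of` (points finer than a natural box).
* `own_inc` : own increments; `own_tied` : a tied slot beyond the record costs.
-/

set_option autoImplicit false
set_option linter.unusedVariables false

open Finset Filter Topology

namespace Crest.Agent.R116.PL504

open Crest.Agent.R138.Ex926 (Base U QProf)
open Crest.Agent.R136.Net191
open Crest.Agent.R136.Lq196
open Crest.Agent.R116.ChL222

/-! ### natural boxes -/

/-- natural box of height `v`, velocity `a`, slope of the slab `b` (relative to the shifts) -/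
def nb (w0 sa sb v a b : ℝ) : Fin 12 → ℝ := eL (w0 + v) (sa + a) (sb + b)

variable {w0 sa sb v a b : ℝ}

theorem nb_z : nb w0 sa sb v a b 0 = w0 + v := rfl

/-- the natural boxes are an affine family -/
theorem nb_add (w0 sa sb v a b v' a' b' : ℝ) :
    nb w0 sa sb (v + v') (a + a') (b + b') = nb w0 sa sb v a b + eL v' a' b' := by
  funext k
  rw [Pi.add_apply]
  fin_cases k <;> simp [nb, eL] <;> ring

theorem eL_smul (t v a b : ℝ) : eL (t * v) (t * a) (t * b) = t • eL v a b := by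
  funext k
  rw [Pi.smul_apply, smul_eq_mul]
  fin_cases k <;> simp [eL] <;> ring

theorem eL_add (v a b v' a' b' : ℝ) : eL (v + v') (a + a') (b + b') = eL v a b + eL v' a' b' := by
  funext k
  rw [Pi.add_apply]
  fin_cases k <;> simp [eL] <;> ring

/-- the record path is the natural box of `(v, θa (1 - v), θb (1 - v))` -/
theorem rL_nb (θa θb w0 sa sb v : ℝ) :
    rL θa θb w0 sa sb v = nb w0 sa sb v (θa * (1 - v)) (θb * (1 - v)) := by
  unfold rL nb
  rw [add_comm (θa * (1 - v)) sa, add_comm (θb * (1 - v)) sb]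

/-- **all walls are active on the natural boxes** -/
theorem eL_wall (z c p : ℝ) (k : Fin 12) {e : Fin 12 → ℕ} (he : e ∈ monL.mon k) :
    ∑ s, (e s : ℝ) * eL z c p s = eL z c p k := by
  have hs : ∀ e : Fin 12 → ℕ, ∑ s, (e s : ℝ) * eL z c p s =
      e 0 * z + e 1 * (p - 2 * c - z) + e 2 * (p - 2 * c) + e 3 * c + e 4 * c +
      e 5 * (z + c) + e 6 * (z + c) + e 7 * (p - c) + e 8 * (p - c) + e 9 * (z + 2 * c) +
      e 10 * p + e 11 * (z + p) := by
    intro e
    simp [Fin.sum_univ_succ, eL]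
    ring
  rw [hs]
  change e ∈ mfL k at he
  fin_cases k <;> simp [mfL] at he
  · subst he; simp [eL]
  · subst he; simp [eL]
  · subst he; simp [eL]
  · rcases he with rfl | rfl <;> simp [eL] <;> ring
  · rcases he with rfl | rfl <;> simp [eL] <;> ring
  · rcases he with rfl | rfl | rfl | rfl <;> simp [eL] <;> ring
  · rcases he with rfl | rfl | rfl | rfl | rfl | rfl | rfl <;> simp [eL] <;> ring
  · rcases he with rfl | rfl | rfl | rfl | rfl | rfl | rfl | rfl | rfl | rfl | rfl | rfl | rfl <;>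
      simp [eL] <;> ring


/-- legal natural boxes -/
theorem nb_leg {R : ℝ} : nb w0 sa sb v a b ∈ Leg monL R ↔
    0 ≤ w0 + v ∧ 0 ≤ sa + a ∧ 0 ≤ (sb + b) - 2 * (sa + a) - (w0 + v) ∧
      (w0 + v) + (sb + b) ≤ R := by
  constructor
  · intro h
    exact ⟨h.1.nonneg 0, h.1.nonneg 3, h.1.nonneg 1, h.2 11⟩
  · rintro ⟨h1, h2, h3, h4⟩
    exact ⟨eL_legal h1 h2 h3, fun k => eL_le h1 h2 h3 h4 k⟩


/-! ### the D-max exponent and the D-max value -/

/-- exponent of the D-max count of the natural box `(v, a, b)`, relative to the record box of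
level `0` -/
def DN (g s q0 q1 θa θb v a b : ℝ) : ℝ :=
  (g - (1 - s)) * v - (3 * v + (3 + q0) * (a - θa) + (1 + q1) * (b - θb))

/-- its value on the record -/
theorem DN_rec (g s q0 q1 θa θb v : ℝ) : DN g s q0 q1 θa θb v (θa * (1 - v)) (θb * (1 - v)) =
    (g - (1 - s)) * v - (3 - (3 + q0) * θa - (1 + q1) * θb) * v := by
  unfold DN
  ring

/-- the D-max value: `≤ 0` on the admissible natural boxes, `= 0` on the record -/
def fN (ν : (Fin 12 → ℝ) → ℝ) (c₀ w0 sa sb g s q0 q1 θa θb v a b : ℝ) : ℝ :=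
  ν (nb w0 sa sb v a b) - c₀ - DN g s q0 q1 θa θb v a b

section ext

variable {B : Base} {I0 I : ℕ → Finset (ℕ × ℝ)} {co : ∀ n : ℕ, ℕ × ℝ → ℕ × ℝ → Fin 12 → ℝ}
  {C R s g q0 q1 θa θb c₀ : ℝ} {PD : Set (Fin 12 → ℝ)} {D : (Fin 12 → ℝ) → ℝ}
  {o : ℝ → Fin 12 → ℝ} {E : ℝ → ℝ} {T : Fin 12 → Prop} {ν own : (Fin 12 → ℝ) → ℝ}





variable {m : ℕ} {M : Mons m} {kz : Fin m} {co' : ∀ n : ℕ, ℕ × ℝ → ℕ × ℝ → Fin m → ℝ}
  {PD' : Set (Fin m → ℝ)} {D' : (Fin m → ℝ) → ℝ} {r' o' : ℝ → Fin m → ℝ} {T' : Fin m → Prop}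
  {ν' own' : (Fin m → ℝ) → ℝ}

/-- **own increments** (any chart): from a box not finer than the own exponents to a finer box of
height `v'` -/
theorem own_inc (h : ExtQ B I0 I co' M C R kz w0 s PD' D' r' o' E T' ν' own' c₀)
    {p q : Fin m → ℝ} (hp : p ∈ Leg M R) (hq : q ∈ Leg M R) (hpq : p ≤ q) {v v' : ℝ}
    (hv0 : 0 ≤ v) (hv1 : v ≤ 1) (hv0' : 0 ≤ v') (hv1' : v' ≤ 1) (hpz : p kz = w0 + v)
    (hqz : q kz = w0 + v') (hpo : ∀ k, p k ≤ o' v k) : (1 - s) * (v' - v) ≤ ν' p - ν' q := by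
  have h1 := h.own_le p hp q hq hpq
  have h2 := h.own_rot p hp v hv0 hv1 hpz hpo
  have h3 := h.own_up q hq v' hv0' hv1' hqz
  have : (1 - s) * (v' - v) = (1 - s) * (1 - v) - (1 - s) * (1 - v') := by ring
  linarith

/-- **own increments between two scales**: the box `p` of height `v` is covered by the own box of
level `u ≥ v` -/
theorem own_inc' (h : ExtQ B I0 I co' M C R kz w0 s PD' D' r' o' E T' ν' own' c₀)
    {p q p' : Fin m → ℝ} (hp : p ∈ Leg M R) (hq : q ∈ Leg M R) (hp' : p' ∈ Leg M R)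
    (hpq : p ≤ q) (hpp : p ≤ p') {u v' : ℝ} (hu0 : 0 ≤ u) (hu1 : u ≤ 1) (hv0' : 0 ≤ v')
    (hv1' : v' ≤ 1) (hpz : p' kz = w0 + u) (hqz : q kz = w0 + v') (hpo : ∀ k, p' k ≤ o' u k)
    (hanti : own' p' ≤ own' p) : (1 - s) * (v' - u) ≤ ν' p - ν' q := by
  have h1 := h.own_le p hp q hq hpq
  have h2 := h.own_rot p' hp' u hu0 hu1 hpz hpo
  have h3 := h.own_up q hq v' hv0' hv1' hqz
  have : (1 - s) * (v' - u) = (1 - s) * (1 - u) - (1 - s) * (1 - v') := by ring
  linarith



end ext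


end Crest.Agent.R116.PL504
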