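import Crest.Agent.R138.Qf2_926
import Crest.Agent.R136.Lq6_196
import Crest.Agent.R116.Gd6_222
import Crest.Agent.R116.PL2_504
import Crest.Agent.R116.EvL1_504

-- ▼ part R116/Sd1_369
section

/-!
# R116 (S0155), K side, STRONG D-MAX (helper369), part 1: abstract form

`QProf.sd` : if for every `ε > 0` the union of the `p`-classes which meet the `q`-class of `i` has at
most `d^(-(t + ε))` points, then `ν p + ν q - ν (p ⊔ q) ≤ t`.
-/

set_option autoImplicit false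
set_option linter.unusedSectionVars false

open Filter Topology

namespace Crest.Agent.R116.Sd369

open Finset
open Crest.Agent.R138.Ex926

section finite

variable {ι κ κ' : Type*} [DecidableEq ι] [DecidableEq κ] [DecidableEq κ']

/-- the reciprocals of the class sizes sum up to the number of classes -/
theorem sum_inv_cls (A : Finset ι) (f : ι → κ) :
    ∑ x ∈ A, ((cls A f x).card : ℝ)⁻¹ = (A.image f).card := by
  classical
  rw [← sum_fiberwise_of_maps_to (g := f) (t := A.image f)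
    (fun x hx => mem_image_of_mem f hx)]
  have h1 : ∀ b ∈ A.image f, ∑ x ∈ A with f x = b, ((cls A f x).card : ℝ)⁻¹ = 1 := by
    intro b hb
    obtain ⟨y, hy, rfl⟩ := mem_image.1 hb
    have h2 : ∀ x ∈ A.filter (fun x => f x = f y),
        ((cls A f x).card : ℝ)⁻¹ = ((A.filter fun x => f x = f y).card : ℝ)⁻¹ := by
      intro x hx
      have h3 : cls A f x = A.filter fun x => f x = f y := by
        ext z
        rw [mem_cls, mem_filter, (mem_filter.1 hx).2]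
      rw [h3]
    rw [sum_congr rfl h2, sum_const, nsmul_eq_mul, mul_inv_cancel₀]
    have : 0 < (A.filter fun x => f x = f y).card :=
      card_pos.2 ⟨y, mem_filter.2 ⟨hy, rfl⟩⟩
    positivity
  rw [sum_congr rfl h1, sum_const, nsmul_eq_mul, mul_one]

/-- the pairs (point of the `fq`-class of `i`, point of its `fp`-class) -/
theorem sum_cls_le (A : Finset ι) (fp : ι → κ) (fq : ι → κ') {S T : ℝ} (hS : 0 ≤ S)
    (h1 : ∀ i ∈ A, ((cls A fp i ∩ cls A fq i).card : ℝ) ≤ S)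
    (h2 : ∀ i ∈ A, ((two A fq fp i).card : ℝ) ≤ T) {i : ι} (hi : i ∈ A) :
    ∑ x ∈ cls A fq i, ((cls A fp x).card : ℝ) ≤ T * S := by
  classical
  have e1 : ∑ x ∈ cls A fq i, ((cls A fp x).card : ℝ) =
      ∑ x ∈ cls A fq i, ∑ k ∈ two A fq fp i, (if fp k = fp x then (1:ℝ) else 0) := by
    refine sum_congr rfl fun x hx => ?_
    rw [sum_boole]
    congr 2
    ext k
    rw [mem_cls, mem_filter, mem_two]
    constructor
    · rintro ⟨a, b⟩
      exact ⟨⟨a, x, (mem_cls.1 hx).1, (mem_cls.1 hx).2, b⟩, b⟩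
    · rintro ⟨⟨a, -⟩, b⟩
      exact ⟨a, b⟩
  rw [e1, sum_comm]
  have e2 : ∀ k ∈ two A fq fp i,
      ∑ x ∈ cls A fq i, (if fp k = fp x then (1:ℝ) else 0) ≤ S := by
    intro k _
    rw [sum_boole]
    rcases (filter (fun x => fp k = fp x) (cls A fq i)).eq_empty_or_nonempty with h | ⟨x0, hx0⟩
    · rw [h]; simpa using hS
    · have hx := mem_filter.1 hx0
      have hx1 := mem_cls.1 hx.1
      refine le_trans ?_ (h1 x0 hx1.1)
      have : filter (fun x => fp k = fp x) (cls A fq i) ⊆ cls A fp x0 ∩ cls A fq x0 := by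
        intro y hy
        obtain ⟨y1, y2⟩ := mem_filter.1 hy
        obtain ⟨y3, y4⟩ := mem_cls.1 y1
        exact mem_inter.2 ⟨mem_cls.2 ⟨y3, by rw [← y2, hx.2]⟩, mem_cls.2 ⟨y3, by rw [y4, hx1.2]⟩⟩
      exact_mod_cast card_le_card this
  calc _ ≤ ∑ _k ∈ two A fq fp i, S := sum_le_sum e2
    _ = (two A fq fp i).card * S := by rw [sum_const, nsmul_eq_mul]
    _ ≤ T * S := mul_le_mul_of_nonneg_right (h2 i hi) hS

/-- **finite form**: `|A|² ≤ #(p-labels) #(q-labels) S T`. -/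
theorem finite_sd (A : Finset ι) (fp : ι → κ) (fq : ι → κ') {S T : ℝ} (hS : 0 ≤ S)
    (h1 : ∀ i ∈ A, ((cls A fp i ∩ cls A fq i).card : ℝ) ≤ S)
    (h2 : ∀ i ∈ A, ((two A fq fp i).card : ℝ) ≤ T) :
    (A.card : ℝ) ^ 2 ≤ (A.image fp).card * ((A.image fq).card * (T * S)) := by
  classical
  have hpos : ∀ x ∈ A, (0:ℝ) < (cls A fp x).card := by
    intro x hx
    have : 0 < (cls A fp x).card := card_pos.2 ⟨x, mem_cls.2 ⟨hx, rfl⟩⟩
    exact_mod_cast this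
  have cs := sum_mul_sq_le_sq_mul_sq A (fun x => Real.sqrt ((cls A fp x).card : ℝ)⁻¹)
    (fun x => Real.sqrt ((cls A fp x).card : ℝ))
  have e0 : ∑ x ∈ A, Real.sqrt ((cls A fp x).card : ℝ)⁻¹ * Real.sqrt ((cls A fp x).card : ℝ) =
      A.card := by
    have : ∀ x ∈ A, Real.sqrt ((cls A fp x).card : ℝ)⁻¹ * Real.sqrt ((cls A fp x).card : ℝ) = 1 := by
      intro x hx
      rw [← Real.sqrt_mul (inv_nonneg.2 (hpos x hx).le), inv_mul_cancel₀ (hpos x hx).ne',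
        Real.sqrt_one]
    rw [sum_congr rfl this, sum_const, nsmul_eq_mul, mul_one]
  have e1 : ∑ x ∈ A, Real.sqrt ((cls A fp x).card : ℝ)⁻¹ ^ 2 = (A.image fp).card := by
    rw [← sum_inv_cls A fp]
    exact sum_congr rfl fun x hx => Real.sq_sqrt (inv_nonneg.2 (hpos x hx).le)
  have e2 : ∑ x ∈ A, Real.sqrt ((cls A fp x).card : ℝ) ^ 2 = ∑ x ∈ A, ((cls A fp x).card : ℝ) :=
    sum_congr rfl fun x hx => Real.sq_sqrt (hpos x hx).le
  rw [e0, e1, e2] at cs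
  refine cs.trans (mul_le_mul_of_nonneg_left ?_ (Nat.cast_nonneg _))
  rw [← sum_fiberwise_of_maps_to (g := fq) (t := A.image fq)
    (fun x hx => mem_image_of_mem fq hx)]
  calc _ ≤ ∑ _b ∈ A.image fq, T * S := by
        refine sum_le_sum fun b hb => ?_
        obtain ⟨i, hi, rfl⟩ := mem_image.1 hb
        exact sum_cls_le A fp fq hS h1 h2 hi
    _ = (A.image fq).card * (T * S) := by rw [sum_const, nsmul_eq_mul]

end finite

variable {B : Base} {ι κ : ℕ → Type*} [∀ n, DecidableEq (ι n)] [∀ n, DecidableEq (κ n)] {m : ℕ}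

/-- **strong D-max, abstract form**. -/
theorem sd_core {I : ∀ n, Finset (ι n)} {f : ∀ n, (Fin m → ℝ) → ι n → κ n}
    {P : Set (Fin m → ℝ)} {ν : (Fin m → ℝ) → ℝ} (hν : QProf B I f P ν) (hJ : QJoin B I f P)
    (hne : ∀ᶠ n in (U : Filter ℕ), (I n).Nonempty) {p q : Fin m → ℝ} (hp : p ∈ P) (hq : q ∈ P)
    (hr : p ⊔ q ∈ P) {t : ℝ}
    (ht : ∀ ε : ℝ, 0 < ε → ∀ᶠ n in (U : Filter ℕ), ∀ i ∈ I n,
      ((two (I n) (f n q) (f n p) i).card : ℝ) ≤ B.d n ^ (-(t + ε))) :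
    ν p + ν q - ν (p ⊔ q) ≤ t := by
  classical
  refine le_of_forall_pos_le_add fun ε hε => ?_
  obtain ⟨N, hN, hj⟩ := hJ
  have hε5 : 0 < ε / 5 := by positivity
  obtain ⟨n, h0, h1, h2, h3, h4, h5⟩ := ((hne.and ((hν.root _ hε5).and ((hν.up _ hε5).and
    ((ht _ hε5).and (hj.and (hN.ev_le hε5)))))).exists)
  have hL := B.L_pos n
  have hpos : ∀ t : ℝ, 0 < B.d n ^ t := fun t => Real.rpow_pos_of_pos (B.pos n) t
  have hI : (0:ℝ) < (I n).card := by exact_mod_cast card_pos.2 h0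
  -- pair classes
  have c1 : ∀ i ∈ I n, ((cls (I n) (f n p) i ∩ cls (I n) (f n q) i).card : ℝ) ≤
      B.d n ^ (-(ν (p ⊔ q) + ε / 5)) * N n := by
    intro i hi
    set A := cls (I n) (f n p) i ∩ cls (I n) (f n q) i with hA
    have := le_count_mul A (fun _ => (1 : ℝ)) (f n (p ⊔ q))
      (m := B.d n ^ (-(ν (p ⊔ q) + ε / 5))) (fun x hx => by
        rw [sum_const, nsmul_eq_mul, mul_one]
        refine le_trans ?_ (h2 _ hr x (mem_cls.1 (mem_inter.1 hx).1).1)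
        have hs : A ⊆ I n := fun y hy => (mem_cls.1 (mem_inter.1 hy).1).1
        exact_mod_cast card_le_card (cls_mono hs _ _))
    rw [sum_const, nsmul_eq_mul, mul_one] at this
    exact this.trans (mul_le_mul_of_nonneg_left (h4 p hp q hq i hi) (hpos _).le)
  have hN0 : 0 < N n := h5.1
  have c2 := finite_sd (I n) (f n p) (f n q) (S := B.d n ^ (-(ν (p ⊔ q) + ε / 5)) * N n)
    (T := B.d n ^ (-(t + ε / 5))) (mul_nonneg (hpos _).le hN0.le) c1 h3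
  have c3 := h1 p hp
  have c4 := h1 q hq
  have c5 : ((I n).card : ℝ) ^ 2 ≤ ((I n).card * B.d n ^ (ν p - ε / 5)) *
      (((I n).card * B.d n ^ (ν q - ε / 5)) *
        (B.d n ^ (-(t + ε / 5)) * (B.d n ^ (-(ν (p ⊔ q) + ε / 5)) * N n))) := by
    refine c2.trans ?_
    have a1 : 0 ≤ B.d n ^ (-(t + ε / 5)) * (B.d n ^ (-(ν (p ⊔ q) + ε / 5)) * N n) :=
      mul_nonneg (hpos _).le (mul_nonneg (hpos _).le hN0.le)
    exact mul_le_mul c3 (mul_le_mul_of_nonneg_right c4 a1)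
      (mul_nonneg (Nat.cast_nonneg _) a1) (mul_nonneg hI.le (hpos _).le)
  have c6 : (1:ℝ) ≤ B.d n ^ (ν p - ε / 5) * (B.d n ^ (ν q - ε / 5) *
      (B.d n ^ (-(t + ε / 5)) * (B.d n ^ (-(ν (p ⊔ q) + ε / 5)) * N n))) := by
    have e : ((I n).card * B.d n ^ (ν p - ε / 5)) *
      (((I n).card * B.d n ^ (ν q - ε / 5)) *
        (B.d n ^ (-(t + ε / 5)) * (B.d n ^ (-(ν (p ⊔ q) + ε / 5)) * N n))) =
      ((I n).card : ℝ) ^ 2 * (B.d n ^ (ν p - ε / 5) * (B.d n ^ (ν q - ε / 5) *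
      (B.d n ^ (-(t + ε / 5)) * (B.d n ^ (-(ν (p ⊔ q) + ε / 5)) * N n)))) := by ring
    rw [e] at c5
    have hI2 : (0:ℝ) < ((I n).card : ℝ) ^ 2 := by positivity
    exact le_of_mul_le_mul_left (by rw [mul_one]; exact c5) hI2
  have c7 : B.d n ^ (ν p - ε / 5) * (B.d n ^ (ν q - ε / 5) *
      (B.d n ^ (-(t + ε / 5)) * (B.d n ^ (-(ν (p ⊔ q) + ε / 5)) * N n))) =
      B.d n ^ (-(-(ν p + ν q - ν (p ⊔ q) - t - 4 * (ε / 5)))) * N n := by
    have hd := B.pos n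
    rw [← mul_assoc (B.d n ^ (-(t + ε / 5))), ← Real.rpow_add hd, ← mul_assoc (B.d n ^ (ν q - ε / 5)),
      ← Real.rpow_add hd, ← mul_assoc, ← Real.rpow_add hd]
    congr 2
    ring
  rw [c7] at c6
  have c8 := Real.log_le_log one_pos c6
  rw [Real.log_one, Real.log_mul (hpos _).ne' hN0.ne', Real.log_rpow (B.pos n), B.log_d] at c8
  have h6 := h5.2
  have : (ν p + ν q - ν (p ⊔ q)) * B.L n ≤ (t + ε) * B.L n := by nlinarith
  exact le_of_mul_le_mul_right this hL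

end Crest.Agent.R116.Sd369
end

-- ▼ part R116/Sd2_369

/-!
# R116 (S0155), K side, STRONG D-MAX (helper369), part 2: the sample and the light chart

* `sd_gen` : from `ExtQ` + `CombQ` (both from 196's `l15Qc`) and the count of the points near `x` in
  the slots `V` only: `ν p + ν q - ν (p ⊔ q) ≤ c₀ + t` for all legal `p, q`, `q ≤ p` on `V`.
* `comp_vf` : the composition of the light chart in the slots `z, C, X, N, P, F` only uses the flags of
  the first pair.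
* `sd_light` : the instance for 504's `coN`, with the hypothesis = 222's `gDS_T`.
-/

set_option autoImplicit false
set_option linter.unusedVariables false
set_option linter.unusedSectionVars false

open Finset Filter Topology

namespace Crest.Agent.R116.Sd369

open Crest.Agent.R138.Ex926
open Crest.Agent.R138.Mk163 (zc zl rho alive)
open Crest.Agent.R138.MkRef627 (lc kc)
open Crest.Agent.R138.Dp76 (dpow_pos dpow_add dpow_le)
open Crest.Agent.R136.MkA627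
open Crest.Agent.R136.Net191
open Crest.Agent.R136.Lq196

section gen

variable {m : ℕ} {B : Base} {I0 I' : ℕ → Finset (ℕ × ℝ)}
    {co : ∀ n : ℕ, ℕ × ℝ → ℕ × ℝ → Fin m → ℝ} {M : Mons m} {C R : ℝ} {kz : Fin m} {w0 s : ℝ}
    {PD : Set (Fin m → ℝ)} {D : (Fin m → ℝ) → ℝ} {r o : ℝ → Fin m → ℝ} {E : ℝ → ℝ}
    {T : Fin m → Prop} {ν own : (Fin m → ℝ) → ℝ} {c₀ : ℝ} {lev : ℕ → ℚ → ℕ} {N0 : ℕ → ℝ}

set_option maxHeartbeats 1000000 in
open Classical in
/-- **strong D-max on the sample, any chart** -/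
theorem sd_gen (hx : ExtQ B I0 I' co M C R kz w0 s PD D r o E T ν own c₀) (hR : 0 ≤ R)
    (hc : CombQ B I0 I' lev co M C R N0 c₀) (V : Fin m → Prop) {p q : Fin m → ℝ}
    (hp : p ∈ Leg M R) (hq : q ∈ Leg M R) (hpq : ∀ k, V k → q k ≤ p k)
    (hcomp : ∀ K : ℝ, 1 ≤ K → ∃ K' : ℝ, 1 ≤ K' ∧ ∀ n, ∀ i ∈ I0 n, ∀ j ∈ I0 n, ∀ l ∈ I0 n,
      Near (co n) (B.d n) q K i j → (∀ k, V k → |co n j l k| ≤ K * B.d n ^ q k) →
        ∀ k, V k → |co n i l k| ≤ K' * B.d n ^ q k) {t : ℝ}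
    (hcount : ∀ K : ℝ, 1 ≤ K → ∀ ε : ℝ, 0 < ε → ∀ᶠ n in (U : Filter ℕ), ∀ x ∈ I0 n,
      (((I0 n).filter fun y => ∀ k, V k → |co n x y k| ≤ K * B.d n ^ q k).card : ℝ) ≤
        N0 n * B.d n ^ (-(t + ε))) :
    ν p + ν q - ν (p ⊔ q) ≤ c₀ + t := by
  have hC : 0 ≤ C := (hx.chart 0).C0
  have hK0 : 1 ≤ cK0 M C := cK0_one hC
  have hT1 : cK0 M C ≤ triC M C (cK0 M C) := triC_ge hC hK0
  have hT : 1 ≤ triC M C (cK0 M C) := hK0.trans hT1
  obtain ⟨K', hK', hK2⟩ := hcomp _ hT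
  have hsub := hx.sub
  have hJ : QJoin B I' (nlab B I0 co M C) (Leg M R) :=
    (net_QJoin hx.chart (fun p hp => hp.1)).mono (Eventually.of_forall hsub) Set.Subset.rfl
  refine sd_core hx.prof hJ hx.ne hp hq (Leg.sup hp hq) fun ε hε => ?_
  obtain ⟨K, hKa, hKb, -⟩ := hc
  have hε3 : 0 < ε / 3 := by positivity
  filter_upwards [hKa _ hε3, hKb, hcount K' hK' _ hε3, B.ev_const_log (Real.log 16) hε3]
    with n a1 a2 a3 a4 i hi
  obtain ⟨k0, k1, -⟩ := a1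
  have hKn : (0:ℝ) < K n := by exact_mod_cast k0
  have hd := B.pos n
  have hd1 := (B.lt n).le
  have hiI := hsub n hi
  have b1 := a2 (two (I' n) (nlab B I0 co M C n q) (nlab B I0 co M C n p) i)
    (filter_subset _ _)
    ((I0 n).filter fun y => ∀ k, V k → |co n i y k| ≤ K' * B.d n ^ q k) (filter_subset _ _)
    (fun x hxx y hy hxy _ => by
      obtain ⟨x1, j, j1, j2, j3⟩ := mem_two.1 hxx
      rw [mem_filter]
      refine ⟨hy, ?_⟩
      have hjI := hsub n j1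
      have hxI := hsub n x1
      -- i ~ j at q
      have e1 := near_of_nlab hx.chart hq.1 hiI hjI j2.symm
      -- j ~ x at p
      have e2 := near_of_nlab hx.chart hp.1 hjI hxI j3.symm
      -- x ~ y at the top
      have e3 := near_of_nlab hx.chart (top_Leg M hR).1 hxI hy hxy.symm
      have e4 := e3.anti hd hd1 (by linarith) (p := p) hp.2
      have e5 := (hx.chart n).tri hp.1 hd hd1 hK0 hjI hxI hy e2 e4
      refine hK2 n i hiI j hjI y hy (e1.mono hd hT1) fun k hk => ?_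
      refine (e5 k).trans (mul_le_mul_of_nonneg_left ?_ (by linarith))
      exact Real.rpow_le_rpow_of_exponent_ge hd hd1 (hpq k hk))
  have b2 : (K n : ℝ) * ((two (I' n) (nlab B I0 co M C n q) (nlab B I0 co M C n p) i).card : ℝ) ≤
      16 * (((I0 n).filter fun y => ∀ k, V k → |co n i y k| ≤ K' * B.d n ^ q k).card : ℝ) := by
    exact_mod_cast b1
  have b3 := a3 i hiI
  have h16 : (16 : ℝ) ≤ B.d n ^ (-(ε / 3)) := by
    rw [← B.exp_eq, ← Real.log_le_iff_le_exp (by norm_num)]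
    exact a4
  have dp := fun a => dpow_pos B n a
  have b4 : (K n : ℝ) * ((two (I' n) (nlab B I0 co M C n q) (nlab B I0 co M C n p) i).card : ℝ) ≤
      K n * B.d n ^ (-(c₀ + t + ε)) := by
    calc _ ≤ 16 * (((I0 n).filter fun y => ∀ k, V k → |co n i y k| ≤
          K' * B.d n ^ q k).card : ℝ) := b2
      _ ≤ B.d n ^ (-(ε / 3)) * (N0 n * B.d n ^ (-(t + ε / 3))) :=
          mul_le_mul h16 b3 (Nat.cast_nonneg _) (dp _).le
      _ ≤ B.d n ^ (-(ε / 3)) * ((K n * B.d n ^ (-(c₀ + ε / 3))) * B.d n ^ (-(t + ε / 3))) :=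
          mul_le_mul_of_nonneg_left (mul_le_mul_of_nonneg_right k1 (dp _).le) (dp _).le
      _ = K n * (B.d n ^ (-(ε / 3)) * B.d n ^ (-(c₀ + ε / 3)) * B.d n ^ (-(t + ε / 3))) := by ring
      _ = K n * B.d n ^ (-(c₀ + t + ε)) := by
          rw [← dpow_add, ← dpow_add]
          congr 2
          ring
  exact le_of_mul_le_mul_left b4 hKn

end gen

/-! ### the light chart -/

section light

open Crest.Agent.R116.ChL222
open Crest.Agent.R116.PL504 (uL cN coN)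
open Crest.Agent.R116.EvL504
open Crest.Agent.R116.LZg725
open Crest.Agent.R116.Gd222 (Vf NearS TSet)

variable {d K : ℝ}

theorem mo1 (hd : 0 < d) (hd1 : d ≤ 1) (hK : 1 ≤ K) {x α γ : ℝ} (hx : |x| ≤ K * d ^ α)
    (h : γ ≤ α) : |x| ≤ K ^ 4 * d ^ γ := by
  refine hx.trans (mul_le_mul ?_ (Real.rpow_le_rpow_of_exponent_ge hd hd1 h)
    (Real.rpow_nonneg hd.le _) (by positivity))
  calc K = K ^ 1 := (pow_one K).symm
    _ ≤ K ^ 4 := pow_le_pow_right₀ hK (by norm_num)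

theorem mo2 (hd : 0 < d) (hd1 : d ≤ 1) (hK : 1 ≤ K) {x y α β γ : ℝ} (hx : |x| ≤ K * d ^ α)
    (hy : |y| ≤ K * d ^ β) (h : γ ≤ α + β) : |x * y| ≤ K ^ 4 * d ^ γ := by
  rw [abs_mul]
  calc |x| * |y| ≤ (K * d ^ α) * (K * d ^ β) :=
        mul_le_mul hx hy (abs_nonneg _) ((abs_nonneg _).trans hx)
    _ = K ^ 2 * d ^ (α + β) := by rw [Real.rpow_add hd]; ring
    _ ≤ K ^ 4 * d ^ γ := mul_le_mul (pow_le_pow_right₀ hK (by norm_num))
        (Real.rpow_le_rpow_of_exponent_ge hd hd1 h) (Real.rpow_nonneg hd.le _) (by positivity)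

theorem mo3 (hd : 0 < d) (hd1 : d ≤ 1) (hK : 1 ≤ K) {x y z α β δ γ : ℝ} (hx : |x| ≤ K * d ^ α)
    (hy : |y| ≤ K * d ^ β) (hz : |z| ≤ K * d ^ δ) (h : γ ≤ α + β + δ) :
    |x * (y * z)| ≤ K ^ 4 * d ^ γ := by
  rw [abs_mul, abs_mul]
  calc |x| * (|y| * |z|) ≤ (K * d ^ α) * ((K * d ^ β) * (K * d ^ δ)) :=
        mul_le_mul hx (mul_le_mul hy hz (abs_nonneg _) ((abs_nonneg _).trans hy)) (by positivity)
          ((abs_nonneg _).trans hx)
    _ = K ^ 3 * d ^ (α + β + δ) := by rw [Real.rpow_add hd, Real.rpow_add hd]; ring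
    _ ≤ K ^ 4 * d ^ γ := mul_le_mul (pow_le_pow_right₀ hK (by norm_num))
        (Real.rpow_le_rpow_of_exponent_ge hd hd1 h) (Real.rpow_nonneg hd.le _) (by positivity)

theorem mo4 (hd : 0 < d) (hd1 : d ≤ 1) (hK : 1 ≤ K) {w x y z α β δ ζ γ : ℝ}
    (hw : |w| ≤ K * d ^ ζ) (hx : |x| ≤ K * d ^ α)
    (hy : |y| ≤ K * d ^ β) (hz : |z| ≤ K * d ^ δ) (h : γ ≤ ζ + (α + (β + δ))) :
    |w * (x * (y * z))| ≤ K ^ 4 * d ^ γ := by
  rw [abs_mul, abs_mul, abs_mul]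
  calc |w| * (|x| * (|y| * |z|)) ≤ (K * d ^ ζ) * ((K * d ^ α) * ((K * d ^ β) * (K * d ^ δ))) :=
        mul_le_mul hw (mul_le_mul hx (mul_le_mul hy hz (abs_nonneg _) ((abs_nonneg _).trans hy))
          (by positivity) ((abs_nonneg _).trans hx)) (by positivity) ((abs_nonneg _).trans hw)
    _ = K ^ 4 * d ^ (ζ + (α + (β + δ))) := by
        rw [Real.rpow_add hd, Real.rpow_add hd, Real.rpow_add hd]; ring
    _ ≤ K ^ 4 * d ^ γ := mul_le_mul_of_nonneg_left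
        (Real.rpow_le_rpow_of_exponent_ge hd hd1 h) (by positivity)

set_option maxHeartbeats 1000000 in
/-- **the composition law in the visible slots uses only the flags of the first pair** -/
theorem comp_vf (hd : 0 < d) (hd1 : d ≤ 1) (hK : 1 ≤ K) {q : Fin 12 → ℝ} (hq : Legal monL q)
    {a c : Fin 12 → ℝ} (ha : ∀ k, |a k| ≤ K * d ^ q k) (hc : ∀ k, Vf k → |c k| ≤ K * d ^ q k) :
    ∀ k, Vf k → |comp a c k| ≤ 20 * K ^ 4 * d ^ q k := by
  obtain ⟨hn, w2, w5, w6, w7, w7', w8, w8', w9, w9', w10, w10', w10'', w11, w11', w11'', w11'''⟩ :=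
    legalL_iff.1 hq
  have c0 := hc 0 (by decide)
  have c3 := hc 3 (by decide)
  have c4 := hc 4 (by decide)
  have c5 := hc 5 (by decide)
  have c6 := hc 6 (by decide)
  have c9 := hc 9 (by decide)
  have c10 := hc 10 (by decide)
  have c11 := hc 11 (by decide)
  have hP : ∀ k, 0 ≤ K ^ 4 * d ^ q k := fun k => by positivity
  intro k hk
  have M1 := fun {x α γ : ℝ} (hx : |x| ≤ K * d ^ α) (h : γ ≤ α) => abs_le.1 (mo1 hd hd1 hK hx h)
  have M2 := fun {x y α β γ : ℝ} (hx : |x| ≤ K * d ^ α) (hy : |y| ≤ K * d ^ β)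
    (h : γ ≤ α + β) => abs_le.1 (mo2 hd hd1 hK hx hy h)
  have M3 := fun {x y z α β δ γ : ℝ} (hx : |x| ≤ K * d ^ α) (hy : |y| ≤ K * d ^ β)
    (hz : |z| ≤ K * d ^ δ) (h : γ ≤ α + β + δ) => abs_le.1 (mo3 hd hd1 hK hx hy hz h)
  have M4 := fun {w x y z α β δ ζ γ : ℝ} (hw : |w| ≤ K * d ^ ζ) (hx : |x| ≤ K * d ^ α)
    (hy : |y| ≤ K * d ^ β) (hz : |z| ≤ K * d ^ δ) (h : γ ≤ ζ + (α + (β + δ))) =>
    abs_le.1 (mo4 hd hd1 hK hw hx hy hz h)
  fin_cases k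
  · have e : comp a c 0 = a 0 + c 0 := rfl
    show |comp a c 0| ≤ 20 * K ^ 4 * d ^ q 0
    rw [e, mul_assoc]
    have t1 := M1 (ha 0) le_rfl
    have t2 := M1 c0 le_rfl
    have := hP 0
    rw [abs_le]; constructor <;> linarith [t1.1, t1.2, t2.1, t2.2]
  · exact absurd rfl hk.1
  · exact absurd rfl hk.2.1
  · have e : comp a c 3 = a 3 + c 3 := rfl
    show |comp a c 3| ≤ 20 * K ^ 4 * d ^ q 3
    rw [e, mul_assoc]
    have t1 := M1 (ha 3) le_rfl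
    have t2 := M1 c3 le_rfl
    have := hP 3
    rw [abs_le]; constructor <;> linarith [t1.1, t1.2, t2.1, t2.2]
  · have e : comp a c 4 = a 4 + c 4 := rfl
    show |comp a c 4| ≤ 20 * K ^ 4 * d ^ q 4
    rw [e, mul_assoc]
    have t1 := M1 (ha 4) le_rfl
    have t2 := M1 c4 le_rfl
    have := hP 4
    rw [abs_le]; constructor <;> linarith [t1.1, t1.2, t2.1, t2.2]
  · have e : comp a c 5 = a 5 + c 5 - a 0 * c 3 := rfl
    show |comp a c 5| ≤ 20 * K ^ 4 * d ^ q 5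
    rw [e, mul_assoc]
    have t1 := M1 (ha 5) le_rfl
    have t2 := M1 c5 le_rfl
    have t3 := M2 (ha 0) c3 w5
    have := hP 5
    rw [abs_le]; constructor <;> linarith [t1.1, t1.2, t2.1, t2.2, t3.1, t3.2]
  · have e : comp a c 6 = a 6 + c 6 - a 0 * c 4 := rfl
    show |comp a c 6| ≤ 20 * K ^ 4 * d ^ q 6
    rw [e, mul_assoc]
    have t1 := M1 (ha 6) le_rfl
    have t2 := M1 c6 le_rfl
    have t3 := M2 (ha 0) c4 w6
    have := hP 6
    rw [abs_le]; constructor <;> linarith [t1.1, t1.2, t2.1, t2.2, t3.1, t3.2]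
  · exact absurd rfl hk.2.2.1
  · exact absurd rfl hk.2.2.2
  · have e : comp a c 9 = a 9 + c 9 - 1 / 2 * (a 0 * (c 3 * c 3)) - 1 / 2 * (a 0 * (c 4 * c 4)) +
        a 3 * c 5 - a 3 * (a 0 * c 3) + a 4 * c 6 - a 4 * (a 0 * c 4) := by
      show a 9 + c 9 - a 0 * ((c 3 ^ 2 + c 4 ^ 2) / 2) + a 3 * (c 5 - a 0 * c 3) +
        a 4 * (c 6 - a 0 * c 4) = _
      ring
    show |comp a c 9| ≤ 20 * K ^ 4 * d ^ q 9
    rw [e, mul_assoc]
    have t1 := M1 (ha 9) le_rfl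
    have t2 := M1 c9 le_rfl
    have t3 := M3 (γ := q 9) (ha 0) c3 c3 (by linarith)
    have t4 := M3 (γ := q 9) (ha 0) c4 c4 (by linarith)
    have t5 := M2 (γ := q 9) (ha 3) c5 (by linarith)
    have t6 := M3 (γ := q 9) (ha 3) (ha 0) c3 (by linarith)
    have t7 := M2 (γ := q 9) (ha 4) c6 (by linarith)
    have t8 := M3 (γ := q 9) (ha 4) (ha 0) c4 (by linarith)
    have := hP 9
    rw [abs_le]
    constructor <;> linarith [t1.1, t1.2, t2.1, t2.2, t3.1, t3.2, t4.1, t4.2, t5.1, t5.2, t6.1,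
      t6.2, t7.1, t7.2, t8.1, t8.2]
  · have e : comp a c 10 = a 10 + c 10 - a 7 * c 3 - a 8 * c 4 - 1 / 2 * (a 2 * (c 3 * c 3)) -
        1 / 2 * (a 2 * (c 4 * c 4)) - 2 * (a 1 * (c 5 * c 3)) - 2 * (a 1 * (c 6 * c 4)) +
        2 * (a 1 * c 9) := by
      show a 10 + c 10 - a 7 * c 3 - a 8 * c 4 - a 2 * ((c 3 ^ 2 + c 4 ^ 2) / 2) -
        2 * (a 1 * (c 5 * c 3 + c 6 * c 4 - c 9)) = _
      ring
    show |comp a c 10| ≤ 20 * K ^ 4 * d ^ q 10
    rw [e, mul_assoc]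
    have t1 := M1 (ha 10) le_rfl
    have t2 := M1 c10 le_rfl
    have t3 := M2 (γ := q 10) (ha 7) c3 (by linarith)
    have t4 := M2 (γ := q 10) (ha 8) c4 (by linarith)
    have t5 := M3 (γ := q 10) (ha 2) c3 c3 (by linarith)
    have t6 := M3 (γ := q 10) (ha 2) c4 c4 (by linarith)
    have t7 := M3 (γ := q 10) (ha 1) c5 c3 (by linarith)
    have t8 := M3 (γ := q 10) (ha 1) c6 c4 (by linarith)
    have t9 := M2 (γ := q 10) (ha 1) c9 (by linarith)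
    have := hP 10
    rw [abs_le]
    constructor <;> linarith [t1.1, t1.2, t2.1, t2.2, t3.1, t3.2, t4.1, t4.2, t5.1, t5.2, t6.1,
      t6.2, t7.1, t7.2, t8.1, t8.2, t9.1, t9.2]
  · have e : comp a c 11 = a 11 + c 11 - a 0 * c 10 - a 7 * c 5 + a 7 * (a 0 * c 3) - a 8 * c 6 +
        a 8 * (a 0 * c 4) - a 2 * c 9 + 1 / 2 * (a 2 * (a 0 * (c 3 * c 3))) +
        1 / 2 * (a 2 * (a 0 * (c 4 * c 4))) - a 1 * (c 5 * c 5) - a 1 * (c 6 * c 6) +
        2 * (a 1 * (a 0 * (c 5 * c 3))) + 2 * (a 1 * (a 0 * (c 6 * c 4))) -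
        2 * (a 1 * (a 0 * c 9)) := by
      show a 11 + c 11 - a 0 * c 10 - a 7 * (c 5 - a 0 * c 3) - a 8 * (c 6 - a 0 * c 4) -
        a 2 * (c 9 - a 0 * ((c 3 ^ 2 + c 4 ^ 2) / 2)) -
        a 1 * (c 5 ^ 2 + c 6 ^ 2 - 2 * (a 0 * (c 5 * c 3 + c 6 * c 4 - c 9))) = _
      ring
    show |comp a c 11| ≤ 20 * K ^ 4 * d ^ q 11
    rw [e, mul_assoc]
    have t1 := M1 (ha 11) le_rfl
    have t2 := M1 c11 le_rfl
    have t3 := M2 (γ := q 11) (ha 0) c10 (by linarith)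
    have t4 := M2 (γ := q 11) (ha 7) c5 (by linarith)
    have t5 := M3 (γ := q 11) (ha 7) (ha 0) c3 (by linarith)
    have t6 := M2 (γ := q 11) (ha 8) c6 (by linarith)
    have t7 := M3 (γ := q 11) (ha 8) (ha 0) c4 (by linarith)
    have t8 := M2 (γ := q 11) (ha 2) c9 (by linarith)
    have t9 := M4 (γ := q 11) (ha 2) (ha 0) c3 c3 (by linarith)
    have t10 := M4 (γ := q 11) (ha 2) (ha 0) c4 c4 (by linarith)
    have t11 := M3 (γ := q 11) (ha 1) c5 c5 (by linarith)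
    have t12 := M3 (γ := q 11) (ha 1) c6 c6 (by linarith)
    have t13 := M4 (γ := q 11) (ha 1) (ha 0) c5 c3 (by linarith)
    have t14 := M4 (γ := q 11) (ha 1) (ha 0) c6 c4 (by linarith)
    have t15 := M3 (γ := q 11) (ha 1) (ha 0) c9 (by linarith)
    have := hP 11
    rw [abs_le]
    constructor <;> linarith [t1.1, t1.2, t2.1, t2.2, t3.1, t3.2, t4.1, t4.2, t5.1, t5.2, t6.1,
      t6.2, t7.1, t7.2, t8.1, t8.2, t9.1, t9.2, t10.1, t10.2, t11.1, t11.2, t12.1, t12.2, t13.1,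
      t13.2, t14.1, t14.2, t15.1, t15.2]

/-- 504's normalised chart satisfies the composition law -/
theorem coc_N (B : Base) (lev : ℕ → ℚ → ℕ) (w : Fin 2 → ℕ → ℚ → ℝ) (w0 sa sb : ℝ)
    (fl : ℕ → ℕ × ℝ → LInc) (n : ℕ) : Coc (coN B lev w w0 sa sb fl n) := by
  have h1 : (2:ℝ) ^ lev n 0 * B.d n ^ w0 ≠ 0 := (mul_pos (by positivity) (dpow_pos B n _)).ne'
  have h2 : B.d n ^ sa / PL504.ps (w 0 n 1 / rho (lev n 1)) ≠ 0 :=
    (div_pos (dpow_pos B n _) (PL504.ps_pos _)).ne'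
  exact (Coc.coL (fl n)).unit _ h1 h2

variable {B : Base} {I0 I' : ℕ → Finset (ℕ × ℝ)} {lev : ℕ → ℚ → ℕ} {w : Fin 2 → ℕ → ℚ → ℝ}
    {w0 sa sb : ℝ} {fl : ℕ → ℕ × ℝ → LInc} {C R w0' s s' : ℝ} {kz : Fin 12}
    {PD : Set (Fin 12 → ℝ)} {D : (Fin 12 → ℝ) → ℝ} {r o : ℝ → Fin 12 → ℝ} {E : ℝ → ℝ}
    {T : Fin 12 → Prop} {ν own : (Fin 12 → ℝ) → ℝ} {c₀ : ℝ} {N0 : ℕ → ℝ}

open Classical in
/-- **STRONG D-MAX of the light chart** (120's (SD), 878's geometric D-max) : `hcount` = 222's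
`gDS_T`. -/
theorem sd_light
    (hx : ExtQ B I0 I' (coN B lev w w0 sa sb fl) monL C R kz w0' s PD D r o E T ν own c₀)
    (hR : 0 ≤ R) (hc : CombQ B I0 I' lev (coN B lev w w0 sa sb fl) monL C R N0 c₀)
    {p q : Fin 12 → ℝ} (hp : p ∈ Leg monL R) (hq : q ∈ Leg monL R) (hpq : ∀ k, Vf k → q k ≤ p k)
    {t : ℝ} (hcount : ∀ K : ℝ, 1 ≤ K → ∀ ε : ℝ, 0 < ε → ∀ᶠ n in (U : Filter ℕ), ∀ x ∈ I0 n,
      (((I0 n).filter fun y => NearS (coN B lev w w0 sa sb fl n) (B.d n) q K x y).card : ℝ) ≤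
        N0 n * B.d n ^ (-(t + ε))) :
    ν p + ν q - ν (p ⊔ q) ≤ c₀ + t := by
  refine sd_gen hx hR hc Vf hp hq hpq (fun K hK => ⟨20 * K ^ 4, ?_, ?_⟩) fun K hK ε hε => ?_
  · have : (1:ℝ) ≤ K ^ 4 := one_le_pow₀ hK
    linarith
  · intro n i _ j _ l _ h1 h2 k hk
    rw [(coc_N B lev w w0 sa sb fl n).add i j l]
    exact comp_vf (B.pos n) (B.lt n).le hK hq.1 h1 h2 k hk
  · filter_upwards [hcount K hK ε hε] with n hn x hxn
    convert hn x hxn
    rfl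

/-- **STRONG D-MAX of the light chart**, all inputs plugged: `hM`, `h`, `hwid`, `hk` are the
hypotheses of 222's `gDS_T` (on the family `I` of the window), `hx`, `hc` = 196's `l15Qc`. -/
theorem sd_T {I : ℕ → Finset (ℕ × ℝ)} {G : Geo TSet (Fin 2)} {A : ℕ → ℝ} {g : ℝ} {θ : Fin 2 → ℝ}
    {f : ℕ → ℚ → ℕ → ℤ → ℕ} {b : ℕ → ℚ → ℕ → TSet} {vm : ℕ → ℚ → ℝ} {qv : Fin 2 → ℝ}
    {M0 c0 Rg ϑ : ℝ}
    (hM : MkA B I G lev A (fun v => g * v) (fun v => s * v) (fun j v => θ j * (1 - v)) f b vm w)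
    (h : Gd222.LData B I G lev fl (Gd222.sN lev w) qv M0 c0 Rg ϑ)
    (hwid : ∀ j (t : TSet), G.wid j t = (1 / 2 : ℝ) ^ t.1 j) {k0 : ℝ}
    (hk : ∀ ε : ℝ, 0 < ε → ∀ᶠ n in (U : Filter ℕ),
      Gd222.sN lev w 1 n ≤ Gd222.sN lev w 0 n * B.d n ^ (k0 - ε))
    (hsub : ∀ n, I0 n ⊆ I n)
    (hx : ExtQ B I0 I' (coN B lev w w0 sa sb fl) monL C R kz w0' s' PD D r o E T ν own c₀)
    (hR : 0 ≤ R) (hc : CombQ B I0 I' lev (coN B lev w w0 sa sb fl) monL C R
      (fun n => A n * vm n 0 * B.d n ^ (-(1 - s))) c₀)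
    {p q : Fin 12 → ℝ} (hp : p ∈ Leg monL R) (hq : q ∈ Leg monL R)
    (hqD : q ∈ Gd222.PDS w0 sa sb Rg ϑ k0) (hpq : ∀ k, Vf k → q k ≤ p k) :
    ν p + ν q - ν (p ⊔ q) ≤ c₀ + Gd222.DT g s qv θ w0 sa sb q := by
  classical
  refine sd_light hx hR hc hp hq hpq fun K hK ε hε => ?_
  filter_upwards [Gd222.gDS_T hM h hwid hk w0 sa sb q hqD K hK ε hε] with n hn x hxn
  refine le_trans (Nat.cast_le.2 (Finset.card_le_card ?_)) (hn x (hsub n hxn))
  exact Finset.filter_subset_filter _ (hsub n)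

end light

end Crest.Agent.R116.Sd369
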