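import Crest.Agent.R116.KF3_439
import Crest.Agent.R138.ArgM1_163
import Crest.Agent.R138.NatTw_76
import Crest.Agent.R116.KF2_439
import Crest.Agent.R138.Ps2s_627
import Crest.Agent.R116.Bm3_903
import Crest.Agent.R116.Gd1_222

-- ▼ part R116/KF4_439
section

/-!
# R116 (K side), K7 FLAG-L, part 4 (helper439): closeness of the marks of different levels

* `prN_cmp` : precisions of two levels; `prN_pos`.
* `tilt_norm` : thin marks, tilt up to sign + axis ⊢ the sign-normalised functions are close.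
* `triv_close` : round marks, the same with trivial bounds.
* `mesh` : chain over a mesh of levels; `EndClose` : in every flag slot the function of level `v` is
  close to the one of the end level (`1` if the rate is positive, `0` otherwise).
-/

set_option autoImplicit false
set_option linter.unusedVariables false

open Finset Filter Topology

namespace Crest.Agent.R116.KF439

open Crest.Agent.R138.Defs (E2)
open Crest.Agent.R138.Ex926
open Crest.Agent.R138.Dp76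
open Crest.Agent.R138.Ps926 (dpow_small)
open Crest.Agent.R138.Mk163 (zc zl rho alive own Negl)
open Crest.Agent.R138.MkRef627 (lc kc mem_alive)
open Crest.Agent.R138.NatTw76 (exists_avoid)
open Crest.Agent.R136.MkA627
open Crest.Agent.R136.Net191 (Mons Chart)
open Crest.Agent.R136.TD627
open Crest.Agent.R116.LZg725
open Crest.Agent.R116.ChL222
open Crest.Agent.R116.Bm903
open Crest.Agent.R116.KI439
open Crest.Agent.R116.PL504

/-! ### one slot -/

/-- distance of two functions in the flag slot `k` on the ray `r`, at the height `z`. -/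
noncomputable def slt (k : Fin 12) (p q : Cf E2) (r : LRay) (z : ℝ) : ℝ :=
  if k = 1 then |(dif p q).d| else if k = 2 then |(dif p q).ny z| else ‖grr (dif p q) r‖


theorem slt_self (k : Fin 12) (p : Cf E2) (r : LRay) (z : ℝ) : slt k p p r z = 0 := by
  unfold slt
  rw [dif_d, dif_ny, dif_grr, sub_self, sub_self, sub_self, abs_zero, norm_zero]
  split_ifs <;> rfl

theorem slt_symm (k : Fin 12) (p q : Cf E2) (r : LRay) (z : ℝ) : slt k q p r z = slt k p q r z := by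
  unfold slt
  rw [dif_d, dif_ny, dif_grr, dif_d, dif_ny, dif_grr, abs_sub_comm q.d, abs_sub_comm (q.ny z),
    norm_sub_rev (grr q r)]

theorem slt_tri (k : Fin 12) (p q o : Cf E2) (r : LRay) (z : ℝ) :
    slt k p o r z ≤ slt k p q r z + slt k q o r z := by
  unfold slt
  simp only [dif_d, dif_ny, dif_grr]
  split_ifs
  · exact abs_sub_le _ _ _
  · exact abs_sub_le _ _ _
  · exact norm_sub_le_norm_sub_add_norm_sub _ _ _

/-- the flag slots -/
def FS (k : Fin 12) : Prop := k = 1 ∨ k = 2 ∨ k = 7 ∨ k = 8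

section seq

variable {σ : Type*} {B : Base} {I : ℕ → Finset (ℕ × ℝ)} {G : Geo σ (Fin 2)} {lev : ℕ → ℚ → ℕ}
    {A : ℕ → ℝ} {g s : ℝ} {θ : Fin 2 → ℝ} {f : ℕ → ℚ → ℕ → ℤ → ℕ} {b : ℕ → ℚ → ℕ → σ}
    {vm : ℕ → ℚ → ℝ} {w : Fin 2 → ℕ → ℚ → ℝ}

theorem prN_pos {n : ℕ} {v : ℚ} (h0 : 0 < w 0 n v) (h1 : 0 < w 1 n v) (k : Fin 12) :
    0 < prN lev w k n v :=
  uL_pos (rho_pos _) (div_pos h0 (rho_pos _)) (div_pos h1 (rho_pos _)) k

theorem ev_prN_pos (h : MkA B I G lev A (fun v => g * v) (fun v => s * v)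
    (fun j v => θ j * (1 - v)) f b vm w) {v : ℚ} (h0 : 0 ≤ v) (h1 : v ≤ 1) :
    ∀ᶠ n in (U : Filter ℕ), ∀ k, 0 < prN lev w k n v := by
  filter_upwards [h.wpos 0 v h0 h1, h.wpos 1 v h0 h1] with n a b k using prN_pos a b k

/-- **comparison of the precisions of two levels** -/
theorem prN_cmp (h : MkA B I G lev A (fun v => g * v) (fun v => s * v)
    (fun j v => θ j * (1 - v)) f b vm w) {u v : ℚ} (hu0 : 0 ≤ u) (hu1 : u ≤ 1) (hv0 : 0 ≤ v)
    (hv1 : v ≤ 1) {ε : ℝ} (hε : 0 < ε) : ∀ᶠ n in (U : Filter ℕ), ∀ k,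
      prN lev w k n u ≤ prN lev w k n v * B.d n ^ (βL (θ 0) (θ 1) k * ((u : ℝ) - v) - ε) := by
  filter_upwards [cN_pr h 0 0 0 hu0 hu1 (half_pos hε), cN_pr h 0 0 0 hv0 hv1 (half_pos hε)]
    with n a1 a2 k
  have hc := cN_pos B lev w 0 0 0 n k
  have b1 := (a1 k).2
  have b2 := (a2 k).1
  rw [rL_lin] at b1 b2
  have e : rL (θ 0) (θ 1) 0 0 0 0 k + βL (θ 0) (θ 1) k * (u : ℝ) - ε / 2 =
      (rL (θ 0) (θ 1) 0 0 0 0 k + βL (θ 0) (θ 1) k * (v : ℝ) + ε / 2) +
        (βL (θ 0) (θ 1) k * ((u : ℝ) - v) - ε) := by ring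
  rw [e, dpow_add] at b1
  have b3 := b1.trans (mul_le_mul_of_nonneg_right b2 (dpow_pos B n _).le)
  rw [mul_assoc] at b3
  exact le_of_mul_le_mul_left b3 hc

/-- the precision of an end level is at most the one of level `v`. -/
theorem prN_end (h : MkA B I G lev A (fun v => g * v) (fun v => s * v)
    (fun j v => θ j * (1 - v)) f b vm w) {k : Fin 12} {u v : ℚ} (hu0 : 0 ≤ u) (hu1 : u ≤ 1)
    (hv0 : 0 ≤ v) (hv1 : v ≤ 1) (hk : 0 ≤ βL (θ 0) (θ 1) k * ((u : ℝ) - v)) {ε : ℝ} (hε : 0 < ε) :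
    ∀ᶠ n in (U : Filter ℕ), prN lev w k n u ≤ prN lev w k n v * B.d n ^ (-ε) := by
  filter_upwards [prN_cmp h hu0 hu1 hv0 hv1 hε, ev_prN_pos h hv0 hv1] with n a1 a2
  refine (a1 k).trans (mul_le_mul_of_nonneg_left (dpow_le B n ?_) (a2 k).le)
  linarith

end seq

/-! ### chain over a mesh -/

/-- **mesh chain** -/
theorem mesh {X : Type*} {B : Base} {J : ℕ → X → Prop} {S : ℕ → ℚ → ℚ → X → ℝ}
    {pr : ℕ → ℚ → ℝ} {C : ℝ} (hself : ∀ n u x, S n u u x = 0)
    (htri : ∀ n u v o x, S n u o x ≤ S n u v x + S n v o x)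
    (hS : ∀ u v : ℚ, 0 ≤ u → u < v → v ≤ 1 → ∀ ε : ℝ, 0 < ε → ∀ᶠ n in (U : Filter ℕ), ∀ x, J n x →
      S n u v x ≤ pr n v * B.d n ^ (-(C * ((v : ℝ) - u)) - ε))
    {a c : ℚ} (ha : 0 ≤ a) (hac : a ≤ c) (hc : c ≤ 1) {T : ℕ → ℝ}
    (hT : ∀ᶠ n in (U : Filter ℕ), 0 ≤ T n)
    (hm : ∀ v : ℚ, a ≤ v → v ≤ c → ∀ ε : ℝ, 0 < ε →
      ∀ᶠ n in (U : Filter ℕ), pr n v ≤ T n * B.d n ^ (-ε)) {ε : ℝ} (hε : 0 < ε) :
    ∀ᶠ n in (U : Filter ℕ), ∀ x, J n x → S n a c x ≤ T n * B.d n ^ (-ε) := by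
  rcases hac.eq_or_lt with rfl | hlt
  · filter_upwards [hT] with n hn x hx
    rw [hself]
    exact mul_nonneg hn (dpow_pos B n _).le
  -- the number of steps
  obtain ⟨K, hK⟩ := exists_nat_gt (4 * (|C| * 1) / ε)
  have hK0 : (0 : ℝ) < K := by
    refine lt_of_le_of_lt ?_ hK
    positivity
  have hKpos : 0 < K := by exact_mod_cast hK0
  have hKq : (0 : ℚ) < K := by exact_mod_cast hKpos
  set v : ℕ → ℚ := fun i => a + (i : ℚ) * ((c - a) / K) with hv
  have hstep : 0 < (c - a) / K := div_pos (by linarith) hKq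
  have hv0 : v 0 = a := by simp [hv]
  have hvK : v K = c := by
    simp only [hv]
    field_simp
    ring
  have hlt' : ∀ i, v i < v (i + 1) := by
    intro i
    simp only [hv]
    push_cast
    nlinarith
  have hva : ∀ i, a ≤ v i := by
    intro i
    simp only [hv]
    have : (0 : ℚ) ≤ (i : ℚ) * ((c - a) / K) := mul_nonneg (Nat.cast_nonneg _) hstep.le
    linarith
  have hvc : ∀ i, i ≤ K → v i ≤ c := by
    intro i hi
    rw [← hvK]
    simp only [hv]
    have h1 : (i : ℚ) ≤ K := by exact_mod_cast hi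
    have := mul_le_mul_of_nonneg_right h1 hstep.le
    linarith
  have hdiff : ∀ i, ((v (i + 1) : ℚ) : ℝ) - v i ≤ 1 / K := by
    intro i
    have e1 : v (i + 1) - v i = (c - a) / K := by simp only [hv]; push_cast; ring
    have e2 : ((v (i + 1) : ℚ) : ℝ) - v i = (((c - a) / K : ℚ) : ℝ) := by rw [← e1]; push_cast; ring
    rw [e2]
    push_cast
    refine div_le_div_of_nonneg_right ?_ hK0.le
    have h1 : ((c : ℚ) : ℝ) ≤ 1 := by exact_mod_cast hc
    have h2 : (0 : ℝ) ≤ a := by exact_mod_cast ha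
    linarith
  have hCK : |C| * (1 / K) ≤ ε / 4 := by
    rw [div_lt_iff₀ hε] at hK
    rw [mul_one_div, div_le_iff₀ hK0]
    linarith
  have hall : ∀ᶠ n in (U : Filter ℕ), ∀ i ∈ range K, ∀ x, J n x →
      S n (v i) (v (i + 1)) x ≤ T n * B.d n ^ (-(3 * ε / 4)) := by
    rw [Filter.eventually_all_finset]
    intro i hi
    have hiK : i + 1 ≤ K := Nat.succ_le_of_lt (mem_range.1 hi)
    filter_upwards [hS (v i) (v (i + 1)) (ha.trans (hva i)) (hlt' i) ((hvc _ hiK).trans hc) (ε / 4)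
      (by positivity), hm (v (i + 1)) (hva _) (hvc _ hiK) (ε / 4) (by positivity), hT]
      with n a1 a2 a3 x hx
    refine (a1 x hx).trans ?_
    have hd0 : 0 ≤ ((v (i + 1) : ℚ) : ℝ) - v i := by
      have : ((v i : ℚ) : ℝ) ≤ v (i + 1) := by exact_mod_cast (hlt' i).le
      linarith
    have h1 : C * (((v (i + 1) : ℚ) : ℝ) - v i) ≤ ε / 4 := by
      calc C * (((v (i + 1) : ℚ) : ℝ) - v i) ≤ |C| * (((v (i + 1) : ℚ) : ℝ) - v i) :=
            mul_le_mul_of_nonneg_right (le_abs_self C) hd0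
        _ ≤ |C| * (1 / K) := mul_le_mul_of_nonneg_left (hdiff i) (abs_nonneg C)
        _ ≤ ε / 4 := hCK
    calc pr n (v (i + 1)) * B.d n ^ (-(C * (((v (i + 1) : ℚ) : ℝ) - v i)) - ε / 4)
        ≤ (T n * B.d n ^ (-(ε / 4))) * B.d n ^ (-(C * (((v (i + 1) : ℚ) : ℝ) - v i)) - ε / 4) :=
          mul_le_mul_of_nonneg_right a2 (dpow_pos B n _).le
      _ = T n * B.d n ^ (-(ε / 4) + (-(C * (((v (i + 1) : ℚ) : ℝ) - v i)) - ε / 4)) := by
          rw [mul_assoc, ← dpow_add]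
      _ ≤ _ := by
          refine mul_le_mul_of_nonneg_left (dpow_le B n ?_) a3
          linarith
  filter_upwards [hall, hT, dpow_small B (show 0 < ε / 4 by positivity) (ε := 1 / K)
    (by positivity)] with n a1 a2 a3 x hx
  have hsum : ∀ i, i ≤ K → S n a (v i) x ≤ (i : ℝ) * (T n * B.d n ^ (-(3 * ε / 4))) := by
    intro i
    induction i with
    | zero => intro _; rw [hv0, hself]; simp
    | succ i ih =>
      intro hi
      have h1 := ih (Nat.le_of_succ_le hi)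
      have h2 := a1 i (mem_range.2 hi) x hx
      have h3 := htri n a (v i) (v (i + 1)) x
      push_cast
      linarith
  have h4 := hsum K le_rfl
  rw [hvK] at h4
  refine h4.trans ?_
  have h5 : (K : ℝ) * B.d n ^ (ε / 4) ≤ 1 := by
    have := mul_le_mul_of_nonneg_left a3.le hK0.le
    rwa [mul_one_div_cancel hK0.ne'] at this
  have e5 : B.d n ^ (-(3 * ε / 4)) = B.d n ^ (ε / 4) * B.d n ^ (-ε) := by
    rw [← dpow_add]; congr 1; ring
  rw [e5]
  have h6 := dpow_pos B n (-ε)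
  calc (K : ℝ) * (T n * (B.d n ^ (ε / 4) * B.d n ^ (-ε)))
      = (K * B.d n ^ (ε / 4)) * (T n * B.d n ^ (-ε)) := by ring
    _ ≤ 1 * (T n * B.d n ^ (-ε)) := mul_le_mul_of_nonneg_right h5 (mul_nonneg a2 h6.le)
    _ = _ := one_mul _

end Crest.Agent.R116.KF439
end

-- ▼ part R116/KF5_439
section

/-!
# R116 (K side), K7 FLAG-L, part 5 (helper439): from the tilt to the end levels

* `tilt_norm` : thin marks, tilt up to sign + axis of level `1` ⊢ on a dense part the sign-normalised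
  functions of the marks of two levels are close.
* `EndClose` : in every flag slot the function of level `v` is close, up to the precision of level
  `v`, to the one of the end level of the slot.
-/

set_option autoImplicit false
set_option linter.unusedVariables false

open Finset Filter Topology

namespace Crest.Agent.R116.KF439

open Crest.Agent.R138.Defs (E2)
open Crest.Agent.R138.Ex926
open Crest.Agent.R138.Dp76
open Crest.Agent.R138.Ps926 (dpow_small)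
open Crest.Agent.R138.Mk163 (zc zl rho alive own Negl)
open Crest.Agent.R138.MkRef627 (lc kc mem_alive)
open Crest.Agent.R138.NatTw76 (exists_avoid)
open Crest.Agent.R136.MkA627
open Crest.Agent.R136.Net191 (Mons Chart)
open Crest.Agent.R136.TD627
open Crest.Agent.R116.LZg725
open Crest.Agent.R116.ChL222
open Crest.Agent.R116.Bm903
open Crest.Agent.R116.KI439
open Crest.Agent.R116.PL504

section tilt

variable {r : ℕ → ℝ} {L : ℕ → ℕ → LRay} {B : Base} {I : ℕ → Finset (ℕ × ℝ)}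
    {G : Geo SL (Fin 2)} {lev : ℕ → ℚ → ℕ} {A : ℕ → ℝ} {c Λ : ℝ → ℝ} {τ : Fin 2 → ℝ → ℝ}
    {f : ℕ → ℚ → ℕ → ℤ → ℕ} {b : ℕ → ℚ → ℕ → SL} {vm : ℕ → ℚ → ℝ} {w : Fin 2 → ℕ → ℚ → ℝ}

/-- the tilt of a dense part, eventually for every incidence -/
theorem tilt_dense (h : MkA B I G lev A c Λ τ f b vm w) {C : ℝ} (hT : TiltL B I L lev f b w C)
    (hpos : ∀ v : ℚ, 0 ≤ v → v ≤ 1 → ∀ᶠ n in (U : Filter ℕ), 0 < w 1 n v) :
    ∃ J : ℕ → Finset (ℕ × ℝ), (∀ n, J n ⊆ I n) ∧ Dense B J I ∧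
      ∀ u v : ℚ, 0 ≤ u → u < v → v ≤ 1 → ∀ ε : ℝ, 0 < ε → ∀ᶠ n in (U : Filter ℕ), ∀ x ∈ J n,
        ∃ σ : ℝ, Sg σ ∧
          dsc (w 0 n v) (rho (lev n v)) (mkL lev f b n u x).phi (sm σ (mkL lev f b n v x).phi)
            (L n x.1) x.2 ≤ w 1 n v * B.d n ^ (-(C * ((v : ℝ) - u)) - ε) := by
  set T : Type := {p : ℚ × ℚ × ℕ // 0 ≤ p.1 ∧ p.1 < p.2.1 ∧ p.2.1 ≤ 1} with hTd
  have hTc : Countable T := by rw [hTd]; infer_instance
  have hTn : Nonempty T := ⟨⟨(0, 1, 0), le_rfl, by norm_num, le_rfl⟩⟩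
  obtain ⟨en, hen⟩ := exists_surjective_nat T
  obtain ⟨J, hJI, hJd, hJ⟩ := exists_avoid (B := B) (I := I)
    (fun j n x => ∀ σ : ℝ, Sg σ →
      w 1 n (en j).1.2.1 * B.d n ^ (-(C * (((en j).1.2.1 : ℝ) - (en j).1.1)) -
        1 / (((en j).1.2.2 : ℝ) + 1)) ≤
        dsc (w 0 n (en j).1.2.1) (rho (lev n (en j).1.2.1)) (mkL lev f b n (en j).1.1 x).phi
          (sm σ (mkL lev f b n (en j).1.2.1 x).phi) (L n x.1) x.2)
    (fun j => hT (en j).1.1 (en j).1.2.1 (en j).2.1 (en j).2.2.1 (en j).2.2.2 _ (by positivity))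
  refine ⟨J, hJI, hJd, fun u v h0 huv h1 ε hε => ?_⟩
  obtain ⟨k, hk⟩ := exists_nat_one_div_lt hε
  obtain ⟨j, hj⟩ := hen ⟨(u, v, k), h0, huv, h1⟩
  have h2 := hJ j
  rw [hj] at h2
  filter_upwards [h2, hpos v (h0.trans huv.le) h1] with n hn hw x hx
  have h3 := hn x hx
  push Not at h3
  obtain ⟨σ, hσ, h4⟩ := h3
  refine ⟨σ, hσ, h4.le.trans (mul_le_mul_of_nonneg_left (dpow_le B n ?_) hw.le)⟩
  linarith

/-- **the normalised tilt** -/
theorem tilt_norm (h : MkA B I G lev A c Λ τ f b vm w) (hG : IsL G L r) {C : ℝ}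
    (hT : TiltL B I L lev f b w C) (hThin : Thin B w) {a : Fin 2}
    (hax : ∀ᶠ n in (U : Filter ℕ), ∀ x ∈ I n, 6 / 10 ≤ |grr (mkL lev f b n 1 x).phi (L n x.1) a|) :
    ∃ J : ℕ → Finset (ℕ × ℝ), (∀ n, J n ⊆ I n) ∧ Dense B J I ∧
      (∀ v : ℚ, 0 ≤ v → v ≤ 1 → ∀ᶠ n in (U : Filter ℕ), ∀ x ∈ J n,
        59 / 100 ≤ |grr (mkL lev f b n v x).phi (L n x.1) a|) ∧
      ∀ u v : ℚ, 0 ≤ u → u < v → v ≤ 1 → ∀ ε : ℝ, 0 < ε → ∀ᶠ n in (U : Filter ℕ), ∀ x ∈ J n,
        dsc (w 0 n v) (rho (lev n v)) (psi lev f b a n u x) (psi lev f b a n v x) (L n x.1) x.2 ≤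
          w 1 n v * B.d n ^ (-(C * ((v : ℝ) - u)) - ε) := by
  have hpos : ∀ v : ℚ, 0 ≤ v → v ≤ 1 → ∀ᶠ n in (U : Filter ℕ), 0 < w 1 n v :=
    fun v h0 h1 => h.wpos 1 v h0 h1
  have hpos0 : ∀ v : ℚ, 0 ≤ v → v ≤ 1 → ∀ᶠ n in (U : Filter ℕ), 0 < w 0 n v :=
    fun v h0 h1 => h.wpos 0 v h0 h1
  obtain ⟨J, hJI, hJd, hJ⟩ := tilt_dense h hT hpos
  -- up to sign the functions are close
  have hclose : ∀ u v : ℚ, 0 ≤ u → u < v → v ≤ 1 → ∀ ε : ℝ, 0 < ε → ∀ᶠ n in (U : Filter ℕ),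
      ∀ x ∈ J n, ∃ σ : ℝ, Sg σ ∧
        dsc (w 0 n v) (rho (lev n v)) (mkL lev f b n u x).phi (sm σ (mkL lev f b n v x).phi)
          (L n x.1) x.2 ≤ w 1 n v * B.d n ^ (-(C * ((v : ℝ) - u)) - ε) ∧
        ‖grr (dif (mkL lev f b n u x).phi (sm σ (mkL lev f b n v x).phi)) (L n x.1)‖ ≤ 1 / 100 := by
    intro u v h0 huv h1 ε hε
    have hv0 : 0 ≤ v := h0.trans huv.le
    filter_upwards [hJ u v h0 huv h1 ε hε, hpos v hv0 h1, hpos0 v hv0 h1,
      hThin (1 + (C * ((v : ℝ) - u)) + ε) v hv0 h1,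
      dpow_small B one_pos (ε := 1 / 100) (by norm_num)] with n a1 a2 a3 a4 a5 x hx
    obtain ⟨σ, hσ, h4⟩ := a1 x hx
    refine ⟨σ, hσ, h4, ?_⟩
    have h5 := (slots_of_dsc a3 (rho_pos' _) h4).1
    refine h5.trans ?_
    rw [div_le_iff₀ a3]
    have h6 : w 1 n v * B.d n ^ (-(C * ((v : ℝ) - u)) - ε) ≤
        (B.d n ^ (1 + (C * ((v : ℝ) - u)) + ε) * w 0 n v) *
          B.d n ^ (-(C * ((v : ℝ) - u)) - ε) :=
      mul_le_mul_of_nonneg_right a4 (dpow_pos B n _).le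
    have e6 : (B.d n ^ (1 + (C * ((v : ℝ) - u)) + ε) * w 0 n v) *
        B.d n ^ (-(C * ((v : ℝ) - u)) - ε) = B.d n ^ (1 : ℝ) * w 0 n v := by
      have : B.d n ^ (1 : ℝ) = B.d n ^ (1 + (C * ((v : ℝ) - u)) + ε) *
          B.d n ^ (-(C * ((v : ℝ) - u)) - ε) := by
        rw [← dpow_add]; congr 1; ring
      rw [this]; ring
    rw [e6] at h6
    exact h6.trans (mul_le_mul_of_nonneg_right a5.le a3.le)
  -- the component of every level is large
  have hlarge : ∀ v : ℚ, 0 ≤ v → v ≤ 1 → ∀ᶠ n in (U : Filter ℕ), ∀ x ∈ J n,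
      59 / 100 ≤ |grr (mkL lev f b n v x).phi (L n x.1) a| := by
    intro v h0 h1
    rcases h1.eq_or_lt with rfl | hlt
    · filter_upwards [hax] with n hn x hx
      have := hn x (hJI n hx)
      linarith
    · filter_upwards [hax, hclose v 1 h0 hlt le_rfl 1 one_pos] with n hn h2 x hx
      have h3 := hn x (hJI n hx)
      obtain ⟨σ, hσ, -, h4⟩ := h2 x hx
      rw [dif_grr, sm_grr] at h4
      have h5 : |(grr (mkL lev f b n v x).phi (L n x.1) -
          σ • grr (mkL lev f b n 1 x).phi (L n x.1)) a| ≤ 1 / 100 := by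
        refine le_trans ?_ h4
        fin_cases a
        · exact abs0_le _
        · exact abs1_le _
      rw [PiLp.sub_apply, PiLp.smul_apply, smul_eq_mul] at h5
      have h6 := abs_sub_abs_le_abs_sub (σ * grr (mkL lev f b n 1 x).phi (L n x.1) a)
        (grr (mkL lev f b n v x).phi (L n x.1) a)
      rw [abs_mul, hσ.abs, one_mul, abs_sub_comm] at h6
      linarith
  refine ⟨J, hJI, hJd, hlarge, ?_⟩
  intro u v h0 huv h1 ε hε
  have hv0 : 0 ≤ v := h0.trans huv.le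
  have hu1 : u ≤ 1 := huv.le.trans h1
  filter_upwards [hclose u v h0 huv h1 ε hε, hlarge u h0 hu1, mark_L h hG h0 hu1,
    mark_L h hG hv0 h1] with n a1 a2 a3 a4 x hx
  obtain ⟨σ, hσ, h4, h5⟩ := a1 x hx
  have b2 := a2 x hx
  have m1 := a3 x (hJI n hx)
  have m2 := a4 x (hJI n hx)
  have hM : kM0 = 1 / 100 := rfl
  have key := sgn_cons m1.ok m2.ok (bray_mem m1.ray) (bray_mem m2.ray) m1.ray m2.ray hσ h5
    (a := a) (by rw [hM]; linarith) (by linarith)
  unfold psi psm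
  rw [key]
  set t := nsg a (mkL lev f b n v x).phi (bray (mkL lev f b n v x)) with ht
  have ht' : Sg t := nsg_sg _ _ _
  have e1 : sm t (mkL lev f b n v x).phi = sm (t * σ) (sm σ (mkL lev f b n v x).phi) := by
    rw [sm_sm, mul_assoc, hσ.sq, mul_one]
  rw [e1, dsc_sm (ht'.mul hσ)]
  exact h4

end tilt

/-! ### closeness to the end level -/

section ends

variable {r : ℕ → ℝ} {L : ℕ → ℕ → LRay} {B : Base} {I : ℕ → Finset (ℕ × ℝ)}
    {G : Geo SL (Fin 2)} {lev : ℕ → ℚ → ℕ} {A : ℕ → ℝ} {g s : ℝ} {θ : Fin 2 → ℝ}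
    {f : ℕ → ℚ → ℕ → ℤ → ℕ} {b : ℕ → ℚ → ℕ → SL} {vm : ℕ → ℚ → ℝ} {w : Fin 2 → ℕ → ℚ → ℝ}

/-- **closeness to the end level** -/
def EndClose (I : ℕ → Finset (ℕ × ℝ)) (B : Base) (L : ℕ → ℕ → LRay) (lev : ℕ → ℚ → ℕ)
    (f : ℕ → ℚ → ℕ → ℤ → ℕ) (b : ℕ → ℚ → ℕ → SL) (w : Fin 2 → ℕ → ℚ → ℝ) (θ : Fin 2 → ℝ)
    (a : Fin 2) : Prop :=
  ∀ k : Fin 12, FS k → ∀ v : ℚ, 0 ≤ v → v ≤ 1 → ∀ ε : ℝ, 0 < ε → ∀ᶠ n in (U : Filter ℕ),
    ∀ x ∈ I n, slt k (psi lev f b a n (lvl (βL (θ 0) (θ 1) k)) x) (psi lev f b a n v x)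
      (L n x.1) x.2 ≤ prN lev w k n v * B.d n ^ (-ε)

/-- the three slots from the distance, against the precision -/
theorem slt_le {W T ρ e : ℝ} (hW : 0 < W) (hρ : 0 < ρ) {p q : Cf E2} {r : LRay} {z : ℝ}
    (h : dsc W ρ p q r z ≤ T * e) {k : Fin 12} (hk : FS k) :
    slt k p q r z ≤ uL ρ (W / ρ) (T / ρ) k * e := by
  obtain ⟨h1, h2, h3⟩ := slots_of_dsc hW hρ h
  rcases hk with rfl | rfl | rfl | rfl
  · show |(dif p q).d| ≤ (T / ρ) / ((W / ρ) ^ 2 * ρ) * e
    refine h3.trans (le_of_eq ?_)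
    field_simp
  · show |(dif p q).ny z| ≤ (T / ρ) / (W / ρ) ^ 2 * e
    refine h2.trans (le_of_eq ?_)
    field_simp
  · show ‖grr (dif p q) r‖ ≤ (T / ρ) / (W / ρ) * e
    refine h1.trans (le_of_eq ?_)
    field_simp
  · show ‖grr (dif p q) r‖ ≤ (T / ρ) / (W / ρ) * e
    refine h1.trans (le_of_eq ?_)
    field_simp

theorem lvl_mem (t : ℝ) : 0 ≤ lvl t ∧ lvl t ≤ 1 := by
  unfold lvl
  split_ifs
  · exact ⟨zero_le_one, le_rfl⟩
  · exact ⟨le_rfl, zero_le_one⟩

/-- **thin marks** -/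
theorem endClose (h : MkA B I G lev A (fun v => g * v) (fun v => s * v)
    (fun j v => θ j * (1 - v)) f b vm w) {a : Fin 2} {C : ℝ} {J : ℕ → Finset (ℕ × ℝ)}
    (hT : ∀ u v : ℚ, 0 ≤ u → u < v → v ≤ 1 → ∀ ε : ℝ, 0 < ε → ∀ᶠ n in (U : Filter ℕ), ∀ x ∈ J n,
        dsc (w 0 n v) (rho (lev n v)) (psi lev f b a n u x) (psi lev f b a n v x) (L n x.1) x.2 ≤
          w 1 n v * B.d n ^ (-(C * ((v : ℝ) - u)) - ε)) :
    EndClose J B L lev f b w θ a := by
  intro k hk v h0 h1 ε hε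
  set S : ℕ → ℚ → ℚ → ℕ × ℝ → ℝ := fun n u v x =>
    slt k (psi lev f b a n u x) (psi lev f b a n v x) (L n x.1) x.2 with hS
  have hstep : ∀ u v : ℚ, 0 ≤ u → u < v → v ≤ 1 → ∀ ε : ℝ, 0 < ε → ∀ᶠ n in (U : Filter ℕ), ∀ x,
      x ∈ J n → S n u v x ≤ prN lev w k n v * B.d n ^ (-(C * ((v : ℝ) - u)) - ε) := by
    intro u v hu huv hv ε hε
    filter_upwards [hT u v hu huv hv ε hε, h.wpos 0 v (hu.trans huv.le) hv] with n a1 a2 x hx
    exact slt_le a2 (rho_pos' _) (a1 x hx) hk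
  have hTpos : ∀ᶠ n in (U : Filter ℕ), 0 ≤ prN lev w k n v := by
    filter_upwards [ev_prN_pos h h0 h1] with n hn using (hn k).le
  unfold lvl
  split_ifs with hβ
  · -- from `v` to `1`
    have key := mesh (B := B) (J := fun n x => x ∈ J n) (S := S) (pr := fun n u => prN lev w k n u)
      (C := C) (fun n u x => slt_self _ _ _ _) (fun n u v o x => slt_tri _ _ _ _ _ _) hstep
      h0 h1 le_rfl hTpos (fun u hu hu1 δ hδ => prN_end h (h0.trans hu) hu1 h0 h1
        (mul_nonneg hβ.le (by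
          have : (v : ℝ) ≤ u := by exact_mod_cast hu
          linarith)) hδ) hε
    filter_upwards [key] with n hn x hx
    rw [slt_symm]
    exact hn x hx
  · -- from `0` to `v`
    have key := mesh (B := B) (J := fun n x => x ∈ J n) (S := S) (pr := fun n u => prN lev w k n u)
      (C := C) (fun n u x => slt_self _ _ _ _) (fun n u v o x => slt_tri _ _ _ _ _ _) hstep
      le_rfl h0 h1 hTpos (fun u hu hu1 δ hδ => prN_end h hu (hu1.trans h1) h0 h1
        (mul_nonneg_of_nonpos_of_nonpos (not_lt.1 hβ) (by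
          have : (u : ℝ) ≤ v := by exact_mod_cast hu1
          linarith)) hδ) hε
    filter_upwards [key] with n hn x hx using hn x hx

end ends

end Crest.Agent.R116.KF439
end

-- ▼ part R116/KF6_439
section

/-!
# R116 (K side), K7 FLAG-L, part 6 (helper439): `TSys` over the light-ray chart

* `spN`, `scN` : precisions of one level, made positive; walls, rates.
* `tsys_mk` : closeness in all slots ⊢ `TSys PL G g s θ (βL (θ 0) (θ 1)) B J lev A f b vm w fr prN fl scN`.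
* `tsys_thin` : composite flags (thin marks, tilt).
* `tsys_thick` : flat flags (round marks, no tilt).
* `inv_thin`, `inv_thick` : slots of rate `≤ 0` are constant along the lines.
-/

set_option autoImplicit false
set_option linter.unusedVariables false

open Finset Filter Topology

namespace Crest.Agent.R116.KF439

open Crest.Agent.R138.Defs (E2)
open Crest.Agent.R138.Ex926
open Crest.Agent.R138.Dp76
open Crest.Agent.R138.Ps926 (dpow_small)
open Crest.Agent.R138.Mk163 (zc zl rho alive own Negl)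
open Crest.Agent.R138.MkRef627 (lc kc mem_alive)
open Crest.Agent.R136.MkA627
open Crest.Agent.R136.Net191 (Mons Chart)
open Crest.Agent.R136.TD627 (TDist TSys InvT NearE WallE)
open Crest.Agent.R116.LZg725
open Crest.Agent.R116.ChL222
open Crest.Agent.R116.Bm903
open Crest.Agent.R116.KI439
open Crest.Agent.R116.PL504

/-! ### precisions of one level, made positive -/

/-- precision of level `v`, made positive -/
noncomputable def spN (lev : ℕ → ℚ → ℕ) (w : Fin 2 → ℕ → ℚ → ℝ) (v : ℚ) (k : Fin 12) (n : ℕ) : ℝ :=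
  uL (rho (lev n v)) (ps (w 0 n v / rho (lev n v))) (ps (w 1 n v / rho (lev n v))) k

theorem spN_pos (lev : ℕ → ℚ → ℕ) (w : Fin 2 → ℕ → ℚ → ℝ) (v : ℚ) (k : Fin 12) (n : ℕ) :
    0 < spN lev w v k n := uL_pos (rho_pos _) (ps_pos _) (ps_pos _) k

theorem spN_eq {lev : ℕ → ℚ → ℕ} {w : Fin 2 → ℕ → ℚ → ℝ} {v : ℚ} {n : ℕ} (h0 : 0 < w 0 n v)
    (h1 : 0 < w 1 n v) (k : Fin 12) : spN lev w v k n = prN lev w k n v := by
  unfold spN prN
  rw [ps_eq (div_pos h0 (rho_pos _)), ps_eq (div_pos h1 (rho_pos _))]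

/-- scales of the system: the precisions of level `0` -/
noncomputable def scN (lev : ℕ → ℚ → ℕ) (w : Fin 2 → ℕ → ℚ → ℝ) (k : Fin 12) (n : ℕ) : ℝ :=
  spN lev w 0 k n

theorem dpow_neg_ge (B : Base) (n : ℕ) {ε : ℝ} (hε : 0 ≤ ε) : 1 ≤ B.d n ^ (-ε) := by
  have h := dpow_le B n (a := -ε) (b := 0) (by linarith)
  rwa [Real.rpow_zero] at h

/-- the walls of one level -/
theorem spN_wall (B : Base) (lev : ℕ → ℚ → ℕ) (w : Fin 2 → ℕ → ℚ → ℝ) (v : ℚ) :
    WallE PL B (spN lev w v) (fun _ => 0) := by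
  intro j a ha ε hε
  refine Eventually.of_forall fun n => ?_
  simp only [Real.rpow_zero, mul_one, zero_sub]
  have e : ∏ t, spN lev w v t n ^ a t = spN lev w v j n :=
    uL_mon (rho_pos _) (ps_pos _) (ps_pos _) j ha
  rw [e]
  exact le_mul_of_one_le_right (spN_pos lev w v j n).le (dpow_neg_ge B n hε.le)

section sys

variable {L : ℕ → ℕ → LRay} {B : Base} {I J : ℕ → Finset (ℕ × ℝ)}
    {G : Geo SL (Fin 2)} {lev : ℕ → ℚ → ℕ} {A : ℕ → ℝ} {g s : ℝ} {θ : Fin 2 → ℝ}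
    {f : ℕ → ℚ → ℕ → ℤ → ℕ} {b : ℕ → ℚ → ℕ → SL} {vm : ℕ → ℚ → ℝ} {w : Fin 2 → ℕ → ℚ → ℝ}
    {fr : ℕ → ℚ → ℕ × ℝ → LInc} {fl : ℕ → ℕ × ℝ → LInc}

/-- rates of the precisions -/
theorem prN_rate (h : MkA B J G lev A (fun v => g * v) (fun v => s * v)
    (fun j v => θ j * (1 - v)) f b vm w) (k : Fin 12) {v : ℚ} (h0 : 0 ≤ v) (h1 : v ≤ 1) :
    Tendsto (fun n => Real.log (scN lev w k n / prN lev w k n v) / B.L n) U
      (𝓝 (βL (θ 0) (θ 1) k * v)) := by
  rw [Metric.tendsto_nhds]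
  intro ε hε
  filter_upwards [prN_cmp h le_rfl zero_le_one h0 h1 (half_pos hε),
    prN_cmp h h0 h1 le_rfl zero_le_one (half_pos hε), ev_prN_pos h h0 h1,
    ev_prN_pos h le_rfl zero_le_one, h.wpos 0 0 le_rfl zero_le_one,
    h.wpos 1 0 le_rfl zero_le_one] with n a1 a2 a3 a4 a5 a6
  have b1 := a1 k
  have b2 := a2 k
  have p3 := a3 k
  have p4 := a4 k
  have hL := B.L_pos n
  unfold scN
  rw [spN_eq a5 a6, Real.log_div p4.ne' p3.ne', Real.dist_eq]
  have c1 := Real.log_le_log p4 b1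
  have c2 := Real.log_le_log p3 b2
  rw [Real.log_mul p3.ne' (dpow_pos B n _).ne', Crest.Agent.R138.ArgM163.log_dpow] at c1
  rw [Real.log_mul p4.ne' (dpow_pos B n _).ne', Crest.Agent.R138.ArgM163.log_dpow] at c2
  rw [Rat.cast_zero] at c1 c2
  rw [abs_lt]
  constructor
  · rw [lt_sub_iff_add_lt, lt_div_iff₀ hL]
    nlinarith
  · rw [sub_lt_iff_lt_add, div_lt_iff₀ hL]
    nlinarith

/-- **assembly** -/
theorem tsys_mk (h : MkA B J G lev A (fun v => g * v) (fun v => s * v)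
    (fun j v => θ j * (1 - v)) f b vm w)
    (hfr : ∀ n v x y, kc (lev n v) (f n v) y = kc (lev n v) (f n v) x → fr n v y = fr n v x)
    (hclose : ∀ k : Fin 12, ∀ v : ℚ, 0 ≤ v → v ≤ 1 → ∀ ε : ℝ, 0 < ε → ∀ᶠ n in (U : Filter ℕ),
      ∀ x ∈ J n, |coL (fl n x) (fr n v x) k| ≤ prN lev w k n v * B.d n ^ (-ε)) :
    TSys PL G g s θ (βL (θ 0) (θ 1)) B J lev A f b vm w fr (prN lev w) fl (scN lev w) where
  mka := h
  scpos := fun k n => spN_pos lev w 0 k n
  prpos := fun k v h0 h1 => by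
    filter_upwards [ev_prN_pos h h0 h1] with n hn using hn k
  prc := fun k v h0 h1 => prN_rate h k h0 h1
  cell := fun k v h0 h1 ε hε => by
    filter_upwards [ev_prN_pos h h0 h1] with n hn x hx y hy hxy hz
    have e : fr n v y = fr n v x := hfr n v x y (by
      show (f n v y.1 (zc (lev n v) y.2), zc (lev n v) y.2) =
        (f n v x.1 (zc (lev n v) x.2), zc (lev n v) x.2)
      rw [hxy, hz])
    rw [e, PL_d, coL_self, abs_zero]
    exact mul_nonneg (hn k).le (dpow_pos B n _).le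
  close := fun k v h0 h1 ε hε => by
    filter_upwards [hclose k v h0 h1 ε hε] with n hn x hx
    rw [PL_d]
    exact hn x hx
  wpr := fun k a ha v h0 h1 ε hε => by
    filter_upwards [h.wpos 0 v h0 h1, h.wpos 1 v h0 h1] with n a0 a1
    have e : ∏ t, prN lev w t n v ^ a t = prN lev w k n v :=
      uL_mon (rho_pos _) (div_pos a0 (rho_pos _)) (div_pos a1 (rho_pos _)) k ha
    rw [e]
    exact le_mul_of_one_le_right (prN_pos a0 a1 k).le (dpow_neg_ge B n hε.le)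

/-- from closeness through an intermediate flag -/
theorem close_trans (h : MkA B J G lev A (fun v => g * v) (fun v => s * v)
    (fun j v => θ j * (1 - v)) f b vm w) {v : ℚ} (h0 : 0 ≤ v) (h1 : v ≤ 1)
    {p q o : ℕ → ℕ × ℝ → LInc}
    (hpq : ∀ k : Fin 12, ∀ ε : ℝ, 0 < ε → ∀ᶠ n in (U : Filter ℕ),
      ∀ x ∈ J n, |coL (p n x) (q n x) k| ≤ prN lev w k n v * B.d n ^ (-ε))
    (hqo : ∀ k : Fin 12, ∀ ε : ℝ, 0 < ε → ∀ᶠ n in (U : Filter ℕ),
      ∀ x ∈ J n, |coL (q n x) (o n x) k| ≤ prN lev w k n v * B.d n ^ (-ε))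
    (k : Fin 12) {ε : ℝ} (hε : 0 < ε) : ∀ᶠ n in (U : Filter ℕ),
      ∀ x ∈ J n, |coL (p n x) (o n x) k| ≤ prN lev w k n v * B.d n ^ (-ε) := by
  have n1 : NearE PL B (spN lev w v) (fun _ => 0) (fun n x => x ∈ J n) p q := by
    intro k ε hε
    filter_upwards [hpq k ε hε, h.wpos 0 v h0 h1, h.wpos 1 v h0 h1] with n hn a0 a1 x hx
    rw [PL_d, spN_eq a0 a1, zero_sub]
    exact hn x hx
  have n2 : NearE PL B (spN lev w v) (fun _ => 0) (fun n x => x ∈ J n) q o := by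
    intro k ε hε
    filter_upwards [hqo k ε hε, h.wpos 0 v h0 h1, h.wpos 1 v h0 h1] with n hn a0 a1 x hx
    rw [PL_d, spN_eq a0 a1, zero_sub]
    exact hn x hx
  have n3 := n1.trans (spN_wall B lev w v) (fun k n => spN_pos lev w v k n) n2
  filter_upwards [n3 k ε hε, h.wpos 0 v h0 h1, h.wpos 1 v h0 h1] with n hn a0 a1 x hx
  have := hn x hx
  rwa [PL_d, spN_eq a0 a1, zero_sub] at this

end sys

/-! ### composite flags -/

section thin

variable {r : ℕ → ℝ} {L : ℕ → ℕ → LRay} {B : Base} {I J : ℕ → Finset (ℕ × ℝ)}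
    {G : Geo SL (Fin 2)} {lev : ℕ → ℚ → ℕ} {A : ℕ → ℝ} {g s : ℝ} {θ : Fin 2 → ℝ}
    {f : ℕ → ℚ → ℕ → ℤ → ℕ} {b : ℕ → ℚ → ℕ → SL} {vm : ℕ → ℚ → ℝ} {w : Fin 2 → ℕ → ℚ → ℝ}
    {a : Fin 2}

/-- the composite flags of the system -/
noncomputable def flT (lev : ℕ → ℚ → ℕ) (f : ℕ → ℚ → ℕ → ℤ → ℕ) (b : ℕ → ℚ → ℕ → SL) (a : Fin 2)
    (θ : Fin 2 → ℝ) (L : ℕ → ℕ → LRay) : ℕ → ℕ × ℝ → LInc :=
  flL lev f b a L (βL (θ 0) (θ 1) 7) (βL (θ 0) (θ 1) 2) (βL (θ 0) (θ 1) 1)

theorem close_thin (h : MkA B J G lev A (fun v => g * v) (fun v => s * v)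
    (fun j v => θ j * (1 - v)) f b vm w) (hG : IsL G L r)
    (hE : EndClose J B L lev f b w θ a) (k : Fin 12) (v : ℚ) (h0 : 0 ≤ v) (h1 : v ≤ 1) (ε : ℝ)
    (hε : 0 < ε) : ∀ᶠ n in (U : Filter ℕ), ∀ x ∈ J n,
      |coL (flT lev f b a θ L n x) (frL lev f b a n v x) k| ≤ prN lev w k n v * B.d n ^ (-ε) := by
  refine close_trans h h0 h1 (q := fun n x => toL (L n x.1) x.2 (psi lev f b a n v x)) ?_ ?_ k hε
  · intro k ε hε
    filter_upwards [hE 1 (Or.inl rfl) v h0 h1 ε hε, hE 2 (Or.inr (Or.inl rfl)) v h0 h1 ε hε,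
      hE 7 (Or.inr (Or.inr (Or.inl rfl))) v h0 h1 ε hε, ev_prN_pos h h0 h1] with n a1 a2 a7 a0 x hx
    have c1 := a1 x hx
    have c2 := a2 x hx
    have c7 := a7 x hx
    have key := comp_close (r := L n x.1) (z := x.2) (p := psi lev f b a n v x) c7 c2 c1 k
    refine key.trans ?_
    have hp := dpow_pos B n (-ε)
    have hk : ∀ k, 0 ≤ prN lev w k n v * B.d n ^ (-ε) := fun k => mul_nonneg (a0 k).le hp.le
    have e8 : prN lev w 8 n v = prN lev w 7 n v := rfl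
    fin_cases k
    · exact hk 0
    · exact le_rfl
    · exact le_rfl
    · exact hk 3
    · exact hk 4
    · exact hk 5
    · exact hk 6
    · exact le_rfl
    · exact le_of_eq (by rw [← e8]; rfl)
    · exact hk 9
    · exact hk 10
    · exact hk 11
  · intro k ε hε
    filter_upwards [mark_L h hG h0 h1, ev_prN_pos h h0 h1,
      dpow_small B hε (ε := 1 / 4) (by norm_num)] with n a1 a2 a3 x hx
    have c1 := base_close (ax := a) (a1 x hx) k
    refine c1.trans ?_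
    have hp := dpow_pos B n ε
    have h4 : 4 ≤ B.d n ^ (-ε) := by
      rw [Real.rpow_neg (B.pos n).le, le_inv_comm₀ (by norm_num) hp]
      linarith
    have := mul_le_mul_of_nonneg_left h4 (a2 k).le
    linarith

/-- **`TSys` with composite flags** -/
theorem tsys_thin (h : MkA B J G lev A (fun v => g * v) (fun v => s * v)
    (fun j v => θ j * (1 - v)) f b vm w) (hG : IsL G L r)
    (hE : EndClose J B L lev f b w θ a) :
    TSys PL G g s θ (βL (θ 0) (θ 1)) B J lev A f b vm w (frL lev f b a) (prN lev w)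
      (flT lev f b a θ L) (scN lev w) :=
  tsys_mk h (fun n v x y hxy => frL_kc lev f b a n v x y hxy) fun k v h0 h1 ε hε =>
    close_thin h hG hE k v h0 h1 ε hε

theorem ny_move (p : Cf E2) (z z' : ℝ) : p.ny z' - p.ny z + 2 * p.d * (z' - z) = 0 := by
  unfold Cf.ny; ring

/-- the ray slots vanish on a line -/
theorem comp_line {r : LRay} {z z' : ℝ} {pB pE pD pB' pE' pD' : Cf E2} {k : Fin 12}
    (h0 : k ≠ 0) (h1 : k = 1 → pD' = pD) (h2 : k = 2 → pE' = pE ∧ pD = pE)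
    (h7 : k = 7 ∨ k = 8 → pB' = pB) :
    coL (comp r z pB pE pD) (comp r z' pB' pE' pD') k = 0 := by
  fin_cases k
  · exact absurd rfl h0
  · have := h1 rfl
    subst this
    simp [coL, comp]
  · obtain ⟨e1, e2⟩ := h2 rfl
    rw [e1, e2]
    have := ny_move pE z z'
    simpa [coL, comp] using this
  · simp [coL, comp]
  · simp [coL, comp]
  · simp [coL, comp, LInc.p1, LInc.p2]
  · simp [coL, comp, LInc.p1, LInc.p2]
  · have := h7 (Or.inl rfl)
    subst this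
    simp [coL, comp, LInc.p1, LInc.p2]
  · have := h7 (Or.inr rfl)
    subst this
    simp [coL, comp, LInc.p1, LInc.p2]
  · simp [coL, comp, nuL, LInc.p1, LInc.p2, LInc.ph]
  · simp [coL, comp, nuL, LInc.p1, LInc.p2, LInc.ph]
  · simp [coL, comp, nuL, LInc.p1, LInc.p2, LInc.ph]

theorem lvl_zero {t : ℝ} (h : t ≤ 0) : lvl t = 0 := if_neg (not_lt.2 h)

theorem βL_one (θa θb : ℝ) : βL θa θb 1 = βL θa θb 2 - 1 := by
  show (-θb) - 2 * (-θa) - 1 = (-θb) - 2 * (-θa) - 1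
  rfl

/-- **slots of rate at most `0` are constant along the lines** -/
theorem inv_thin (h : MkA B J G lev A (fun v => g * v) (fun v => s * v)
    (fun j v => θ j * (1 - v)) f b vm w) (k : Fin 12) (hk : k ≠ 0)
    (hβ : FS k → βL (θ 0) (θ 1) k ≤ 0) (sc : ℕ → ℝ) (hsc : ∀ n, 0 < sc n) :
    InvT PL B J k (flT lev f b a θ L) sc := by
  intro M
  filter_upwards [h.cell0] with n hn x hx y hy hxy
  have hz := hn y hy x hx
  have e0 : psi lev f b a n 0 y = psi lev f b a n 0 x := by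
    unfold psi mkL
    rw [hxy, hz]
  have key : coL (flT lev f b a θ L n x) (flT lev f b a θ L n y) k = 0 := by
    unfold flT flL
    rw [hxy]
    refine comp_line hk (fun e => ?_) (fun e => ?_) fun e => ?_
    · subst e
      rw [lvl_zero (hβ (Or.inl rfl)), e0]
    · subst e
      have h2 := hβ (Or.inr (Or.inl rfl))
      have h1 : βL (θ 0) (θ 1) 1 ≤ 0 := by rw [βL_one]; linarith
      rw [lvl_zero h2, lvl_zero h1, e0]
      exact ⟨rfl, rfl⟩
    · have h7 : βL (θ 0) (θ 1) 7 ≤ 0 := by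
        rcases e with e | e
        · subst e
          exact hβ (Or.inr (Or.inr (Or.inl rfl)))
        · subst e
          exact hβ (Or.inr (Or.inr (Or.inr rfl)))
      rw [lvl_zero h7, e0]
  rw [PL_d, key, abs_zero]
  exact mul_nonneg (hsc n).le (dpow_pos B n _).le

end thin

end Crest.Agent.R116.KF439
end

-- ▼ part R116/KFx_126
section

/-!
# R116 (K side), K7: the axis of the flags (helper126)

`axis` (KF-AX of 439): after passing to a dense part one fixed component of the gradient of the top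
mark is at least `6/10` on the ray of every incidence. `axis_at` : the same at any rational level.
-/

set_option autoImplicit false
set_option linter.unusedVariables false

open Finset Filter Topology

namespace Crest.Agent.R116.KFx126

open Crest.Agent.R138.Defs (E2)
open Crest.Agent.R138.Ex926
open Crest.Agent.R138.Dp76
open Crest.Agent.R138.Mk163 (zc zl rho alive own Negl)
open Crest.Agent.R136.MkA627
open Crest.Agent.R116.CDef480 (E3 lat pt normsq2 inner2)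
open Crest.Agent.R116.LZg725
open Crest.Agent.R116.ChL222
open Crest.Agent.R116.Bm903
open Crest.Agent.R116.KI439
open Crest.Agent.R116.KF439

/-- one component of the gradient is large. -/
theorem comp_large {m : Mem} {r : LRay} (h : m.Ok kM0 0) (hr : r ∈ m.rays 0) :
    6 / 10 ≤ |grr m.phi r 0| ∨ 6 / 10 ≤ |grr m.phi r 1| := by
  have h1 := (abs_le.1 (gr_sq h hr)).1
  have h2 : kM0 = 1 / 100 := rfl
  rw [h2, normsq2] at h1
  by_contra hc
  push Not at hc
  have e0 := sq_abs (grr m.phi r 0)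
  have e1 := sq_abs (grr m.phi r 1)
  have f0 := abs_nonneg (grr m.phi r 0)
  have f1 := abs_nonneg (grr m.phi r 1)
  nlinarith [hc.1, hc.2]

section

variable {r : ℕ → ℝ} {L : ℕ → ℕ → LRay} {B : Base} {I : ℕ → Finset (ℕ × ℝ)}
    {G : Geo SL (Fin 2)} {lev : ℕ → ℚ → ℕ} {A : ℕ → ℝ} {c Λ : ℝ → ℝ} {τ : Fin 2 → ℝ → ℝ}
    {f : ℕ → ℚ → ℕ → ℤ → ℕ} {b : ℕ → ℚ → ℕ → SL} {vm : ℕ → ℚ → ℝ} {w : Fin 2 → ℕ → ℚ → ℝ}

open Classical in
/-- a finite cover of the incidences by two properties: one of them holds on a dense part. -/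
theorem dense_or {P Q : ℕ → ℕ × ℝ → Prop}
    (h : ∀ᶠ n in (U : Filter ℕ), ∀ x ∈ I n, P n x ∨ Q n x) :
    (∃ J : ℕ → Finset (ℕ × ℝ), Dense B J I ∧ ∀ n, ∀ x ∈ J n, P n x) ∨
    (∃ J : ℕ → Finset (ℕ × ℝ), Dense B J I ∧ ∀ n, ∀ x ∈ J n, Q n x) := by
  have h1 : ∀ᶠ n in (U : Filter ℕ),
      ((I n).card : ℝ) ≤ 2 * (((I n).filter (P n)).card : ℝ) ∨
      ((I n).card : ℝ) ≤ 2 * (((I n).filter (Q n)).card : ℝ) := by
    filter_upwards [h] with n hn
    have h2 : I n ⊆ (I n).filter (P n) ∪ (I n).filter (Q n) := by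
      intro x hx
      rw [Finset.mem_union, Finset.mem_filter, Finset.mem_filter]
      rcases hn x hx with h3 | h3
      · exact Or.inl ⟨hx, h3⟩
      · exact Or.inr ⟨hx, h3⟩
    have h3 : ((I n).card : ℝ) ≤ ((I n).filter (P n)).card + ((I n).filter (Q n)).card := by
      exact_mod_cast (Finset.card_le_card h2).trans (Finset.card_union_le _ _)
    by_contra hc
    push Not at hc
    linarith [hc.1, hc.2]
  rcases Ultrafilter.eventually_or.1 h1 with h2 | h2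
  · exact Or.inl ⟨fun n => (I n).filter (P n), Crest.Agent.R138.Ps627.dense_of_half
      (h2.mono fun n hn => ⟨Finset.filter_subset _ _, hn⟩),
      fun n x hx => (Finset.mem_filter.1 hx).2⟩
  · exact Or.inr ⟨fun n => (I n).filter (Q n), Crest.Agent.R138.Ps627.dense_of_half
      (h2.mono fun n hn => ⟨Finset.filter_subset _ _, hn⟩),
      fun n x hx => (Finset.mem_filter.1 hx).2⟩

/-- the axis of the flags of one level. -/
theorem axis_at (h : MkA B I G lev A c Λ τ f b vm w) (hG : IsL G L r) {v : ℚ} (h0 : 0 ≤ v)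
    (h1 : v ≤ 1) : ∃ (a : Fin 2) (J : ℕ → Finset (ℕ × ℝ)), Dense B J I ∧
      ∀ n, ∀ x ∈ J n, 6 / 10 ≤ |grr (mkL lev f b n v x).phi (L n x.1) a| := by
  have h2 : ∀ᶠ n in (U : Filter ℕ), ∀ x ∈ I n,
      6 / 10 ≤ |grr (mkL lev f b n v x).phi (L n x.1) 0| ∨
      6 / 10 ≤ |grr (mkL lev f b n v x).phi (L n x.1) 1| := by
    filter_upwards [mark_L h hG h0 h1] with n hn x hx
    exact comp_large (hn x hx).ok (hn x hx).ray
  rcases dense_or (B := B) h2 with ⟨J, hJ, hx⟩ | ⟨J, hJ, hx⟩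
  · exact ⟨0, J, hJ, hx⟩
  · exact ⟨1, J, hJ, hx⟩

/-- **KF-AX**. -/
theorem axis (h : MkA B I G lev A c Λ τ f b vm w) (hG : IsL G L r) :
    ∃ (a : Fin 2) (J : ℕ → Finset (ℕ × ℝ)), Dense B J I ∧
      ∀ᶠ n in (U : Filter ℕ), ∀ x ∈ J n, 6 / 10 ≤ |grr (mkL lev f b n 1 x).phi (L n x.1) a| := by
  obtain ⟨a, J, hJ, hx⟩ := axis_at h hG (v := 1) zero_le_one le_rfl
  exact ⟨a, J, hJ, Filter.Eventually.of_forall hx⟩

end

end Crest.Agent.R116.KFx126
end

-- ▼ part R116/Bm4_903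
section

/-!
# R116, K side (helper903), part 4: `toL` and the incidences of the chart as primary objects

`rayL_toL`, `toL_rayL` : `LInc` = (ray, height, frame data of a flag); every incidence `i` is
`toL (rayL i) i.z (cfL i)`.  `slots_toL` : the flag slots of `i` relative to a conformal function
`q` read on the ray of `i` at the height of `i`.  `FlI q i eB eE eD` : the flag of `i` is close to
`q`.  `mem_boxI_base`, `mem_boxI_unit` : `mem_box` for incidences.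
-/

set_option autoImplicit false

namespace Crest.Agent.R116.Bm903

open Crest.Agent.R138.Defs (E2)
open Crest.Agent.R116.CDef480 (E3 lat pt normsq2 inner2)
open Crest.Agent.R116.LZg725
open Crest.Agent.R116.ChL222
open Crest.Agent.R116.Gd222 (rayL cfL vc vx vb mk0 memL)

theorem rayL_toL (r : E2 × E2 × ℝ) (z : ℝ) (p : Cf E2) : rayL (toL r z p) = r := by
  obtain ⟨C, a, k⟩ := r
  unfold rayL
  refine Prod.ext ?_ (Prod.ext ?_ rfl)
  · ext l
    fin_cases l <;> simp [vc, toL]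
  · ext l
    fin_cases l <;> simp [vx, LInc.p1, LInc.p2, toL]

/-- the incidence with the given ray, height and frame data. -/
theorem grr_cfL (i : LInc) : grr (cfL i) (rayL i) = vb i := by
  have h := grr_eq (cfL i) (rayL i) i.z
  rw [Gd222.rx_rayL] at h
  rw [← h]
  exact Gd222.mk0_gr ..



theorem ny_cfL (i : LInc) : (cfL i).ny i.z = i.et := by
  rw [Gd222.cfL_ny]; ring


/-- the flag of `i` is close to the conformal function `q`, slot by slot (this is
`coL (toL (rayL i) i.z q) i` at the slots `7, 8, 2, 1`). -/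
structure FlI (q : Cf E2) (i : LInc) (eB eE eD : ℝ) : Prop where
  b1 : |i.b1 - grr q (rayL i) 0| ≤ eB
  b2 : |i.b2 - grr q (rayL i) 1| ≤ eB
  et : |i.et - q.ny i.z| ≤ eE
  d : |i.d - q.d| ≤ eD



theorem FlI.flN {q : Cf E2} {i : LInc} {eB eE eD : ℝ} (h : FlI q i eB eE eD) :
    FlN q (cfL i) (rayL i) i.z (2 * eB) eE eD := by
  refine ⟨?_, ?_, ?_⟩
  · rw [dif_grr, grr_cfL]
    refine norm_le_of (a := eB) (b := eB) ?_ ?_ (by linarith)
    · rw [PiLp.sub_apply]; exact h.b1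
    · rw [PiLp.sub_apply]; exact h.b2
  · rw [dif_ny, ny_cfL]; exact h.et
  · rw [dif_d]; exact h.d




end Crest.Agent.R116.Bm903
end

-- ▼ part R116/KF7_439

/-!
# R116 (K side), K7 FLAG-L, part 7 (helper439): results

* `flF`, `frF` : flat flags; `close_flat`, `tsys_thick`, `inv_flat`.
* `FlagD` : what the consumers use of the flags; `flagD_thin`, `flagD_flat`.
* **`thin_sys`** : `MkA` (linear) + `IsL` + `TiltL` + `Thin` ⊢ `TSys` with composite flags.
* **`thick_sys`** : `MkA` (linear) + `IsL` + `Thick` ⊢ `TSys` with flat flags.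
-/

set_option autoImplicit false
set_option linter.unusedVariables false

open Finset Filter Topology

namespace Crest.Agent.R116.KF439

open Crest.Agent.R138.Defs (E2)
open Crest.Agent.R138.Ex926
open Crest.Agent.R138.Dp76
open Crest.Agent.R138.Ps926 (dpow_small)
open Crest.Agent.R138.Mk163 (zc zl rho alive own Negl)
open Crest.Agent.R138.MkRef627 (lc kc mem_alive)
open Crest.Agent.R136.MkA627
open Crest.Agent.R136.Net191 (Mons Chart)
open Crest.Agent.R136.TD627 (TDist TSys InvT NearE WallE)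
open Crest.Agent.R116.LZg725
open Crest.Agent.R116.ChL222
open Crest.Agent.R116.Bm903
open Crest.Agent.R116.KI439
open Crest.Agent.R116.PL504
open Crest.Agent.R116.Gd222 (rayL vb)

/-! ### flat flags -/

/-- the lateral coordinate `a` -/
noncomputable def flatc (a : Fin 2) : Cf E2 := ⟨0, 0, EuclideanSpace.single a 1, 0, 0⟩

theorem flatc_grr (a : Fin 2) (r : LRay) : grr (flatc a) r = EuclideanSpace.single a 1 := by
  unfold grr Cf.gr Cf.ny flatc
  simp

theorem flatc_ny (a : Fin 2) (z : ℝ) : (flatc a).ny z = 0 := by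
  unfold Cf.ny flatc
  simp

theorem flatc_d (a : Fin 2) : (flatc a).d = 0 := rfl

/-- flat flags of the incidences -/
noncomputable def flF (a : Fin 2) (L : ℕ → ℕ → LRay) (n : ℕ) (x : ℕ × ℝ) : LInc :=
  toL (L n x.1) x.2 (flatc a)

/-- flat flags of the marks -/
noncomputable def frF (lev : ℕ → ℚ → ℕ) (f : ℕ → ℚ → ℕ → ℤ → ℕ) (b : ℕ → ℚ → ℕ → SL) (a : Fin 2)
    (n : ℕ) (v : ℚ) (x : ℕ × ℝ) : LInc :=
  toL (bray (mkL lev f b n v x)) (mkL lev f b n v x).s0 (flatc a)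

theorem frF_kc (lev : ℕ → ℚ → ℕ) (f : ℕ → ℚ → ℕ → ℤ → ℕ) (b : ℕ → ℚ → ℕ → SL) (a : Fin 2)
    (n : ℕ) (v : ℚ) (x y : ℕ × ℝ) (h : kc (lev n v) (f n v) y = kc (lev n v) (f n v) x) :
    frF lev f b a n v y = frF lev f b a n v x := by
  have : f n v y.1 (zc (lev n v) y.2) = f n v x.1 (zc (lev n v) x.2) := (Prod.mk.inj h).1
  unfold frF mkL
  rw [this]

theorem gr_le_two {m : Mem} {r : LRay} (h : m.Ok kM0 0) (hr : r ∈ m.rays 0) :
    ‖grr m.phi r‖ ≤ 11 / 10 := by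
  have h1 := (abs_le.1 (gr_sq h hr)).2
  have h2 : kM0 = 1 / 100 := rfl
  rw [h2] at h1
  nlinarith [norm_nonneg (grr m.phi r)]

/-- the flat function is as good as the function of a round member -/
theorem flN_flat {m : Mem} {r : LRay} {z κ : ℝ} (h : m.Ok kM0 0) (hr : r ∈ m.rays 0)
    (hz : |z - m.s0| ≤ m.R) (a : Fin 2) (hκ : 3 * m.sg ≤ κ * m.s1) :
    FlN m.phi (flatc a) r z (κ * (m.s1 / m.sg)) (κ * (m.s1 / m.sg ^ 2))
      (κ * (m.s1 / (m.sg ^ 2 * m.R))) := by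
  have hsg := sg_pos h
  have hR := h.hR
  have hM : kM0 = 1 / 100 := rfl
  have h1 := gr_le_two h hr
  have h2 := ny_le h hz
  have h3 := d_le h
  rw [hM] at h2 h3
  refine ⟨?_, ?_, ?_⟩
  · rw [dif_grr, flatc_grr, ← mul_div_assoc, le_div_iff₀ hsg]
    have h4 : ‖EuclideanSpace.single a (1 : ℝ) - grr m.phi r‖ ≤ 3 := by
      refine (norm_sub_le _ _).trans ?_
      rw [PiLp.norm_single, norm_one]
      linarith
    exact (mul_le_mul_of_nonneg_right h4 hsg.le).trans hκ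
  · rw [dif_ny, flatc_ny, zero_sub, abs_neg, ← mul_div_assoc, le_div_iff₀ (by positivity)]
    nlinarith
  · rw [dif_d, flatc_d, zero_sub, abs_neg, ← mul_div_assoc, le_div_iff₀ (by positivity)]
    have e : |m.phi.d| * (m.sg ^ 2 * m.R) = (|m.phi.d| * (m.sg * m.R)) * m.sg := by ring
    rw [e]
    nlinarith

section flat

variable {r : ℕ → ℝ} {L : ℕ → ℕ → LRay} {B : Base} {I J : ℕ → Finset (ℕ × ℝ)}
    {G : Geo SL (Fin 2)} {lev : ℕ → ℚ → ℕ} {A : ℕ → ℝ} {g s : ℝ} {θ : Fin 2 → ℝ}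
    {f : ℕ → ℚ → ℕ → ℤ → ℕ} {b : ℕ → ℚ → ℕ → SL} {vm : ℕ → ℚ → ℝ} {w : Fin 2 → ℕ → ℚ → ℝ}
    {a : Fin 2}

theorem close_flat (h : MkA B J G lev A (fun v => g * v) (fun v => s * v)
    (fun j v => θ j * (1 - v)) f b vm w) (hG : IsL G L r) (hT : Thick B w) (a : Fin 2)
    (k : Fin 12) (v : ℚ) (h0 : 0 ≤ v) (h1 : v ≤ 1) (ε : ℝ) (hε : 0 < ε) :
    ∀ᶠ n in (U : Filter ℕ), ∀ x ∈ J n,
      |coL (flF a L n x) (frF lev f b a n v x) k| ≤ prN lev w k n v * B.d n ^ (-ε) := by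
  filter_upwards [mark_L h hG h0 h1, ev_prN_pos h h0 h1, hT (ε / 2) (by positivity) v h0 h1,
    dpow_small B (show 0 < ε / 2 by positivity) (ε := 1 / 64) (by norm_num)] with n a1 a2 a3 a4 x hx
  have m1 := a1 x hx
  set m := mkL lev f b n v x with hm
  have hok := m1.ok
  have hsg := sg_pos hok
  have hR := hok.hR
  have hp := dpow_pos B n (ε / 2)
  have hq := dpow_pos B n (-(ε / 2))
  have epq : B.d n ^ (-(ε / 2)) * B.d n ^ (ε / 2) = 1 := by
    rw [← dpow_add, neg_add_cancel, Real.rpow_zero]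
  have hthick : m.sg ≤ B.d n ^ (-(ε / 2)) * m.s1 := by
    rw [← m1.wide, ← m1.thin] at a3
    have h5 : B.d n ^ (ε / 2) * m.sg ≤ m.s1 := by
      have : (B.d n ^ (ε / 2) * m.sg) * m.R ≤ m.s1 * m.R := by linarith
      exact le_of_mul_le_mul_right this hR
    calc m.sg = (B.d n ^ (-(ε / 2)) * B.d n ^ (ε / 2)) * m.sg := by rw [epq, one_mul]
      _ = B.d n ^ (-(ε / 2)) * (B.d n ^ (ε / 2) * m.sg) := by ring
      _ ≤ _ := mul_le_mul_of_nonneg_left h5 hq.le
  have hκ : 3 * m.sg ≤ (3 * B.d n ^ (-(ε / 2))) * m.s1 := by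
    have := mul_le_mul_of_nonneg_left hthick (show (0 : ℝ) ≤ 3 by norm_num)
    linarith
  have hT1 : m.T 0 ≤ 1 * m.sg ^ 2 := by rw [T0, one_mul]
  have key := mem_box_unit (m := m) (B := 0) hR hok.hs1 hsg le_rfl hT1 m1.ray (bray_mem m1.ray)
    m1.z (self_s0 hok) (κ := 3 * B.d n ^ (-(ε / 2))) (by positivity)
    (flN_flat hok m1.ray m1.z a hκ) (flN_flat hok (bray_mem m1.ray) (self_s0 hok) a hκ) k
  show |coL (toL (L n x.1) x.2 (flatc a)) (toL (bray m) m.s0 (flatc a)) k| ≤ _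
  refine key.trans ?_
  rw [un_eq]
  have e3 : w 0 n v / rho (lev n v) = m.sg := by
    rw [← m1.wide, ← m1.R]; field_simp
  have e4 : w 1 n v / rho (lev n v) = m.s1 := by
    rw [← m1.thin, ← m1.R]; field_simp
  have e5 : uL m.R m.sg m.s1 k = prN lev w k n v := by
    unfold prN; rw [e3, e4, ← m1.R]
  rw [e5]
  have h64 : 64 ≤ B.d n ^ (-(ε / 2)) := by
    rw [Real.rpow_neg (B.pos n).le, le_inv_comm₀ (by norm_num) hp]
    linarith
  have e6 : B.d n ^ (-ε) = B.d n ^ (-(ε / 2)) * B.d n ^ (-(ε / 2)) := by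
    rw [← dpow_add]; congr 1; ring
  rw [e6]
  have h7 : 1 * (4 + 20 * (3 * B.d n ^ (-(ε / 2)))) ≤ B.d n ^ (-(ε / 2)) * B.d n ^ (-(ε / 2)) := by
    nlinarith
  calc 1 * (4 + 20 * (3 * B.d n ^ (-(ε / 2)))) * prN lev w k n v
      ≤ (B.d n ^ (-(ε / 2)) * B.d n ^ (-(ε / 2))) * prN lev w k n v :=
        mul_le_mul_of_nonneg_right h7 (a2 k).le
    _ = _ := by ring

/-- **`TSys` with flat flags** -/
theorem tsys_flat (h : MkA B J G lev A (fun v => g * v) (fun v => s * v)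
    (fun j v => θ j * (1 - v)) f b vm w) (hG : IsL G L r) (hT : Thick B w) (a : Fin 2) :
    TSys PL G g s θ (βL (θ 0) (θ 1)) B J lev A f b vm w (frF lev f b a) (prN lev w)
      (flF a L) (scN lev w) :=
  tsys_mk h (fun n v x y hxy => frF_kc lev f b a n v x y hxy) fun k v h0 h1 ε hε =>
    close_flat h hG hT a k v h0 h1 ε hε

/-- all slots but the height are constant along the lines -/
theorem inv_flat (k : Fin 12) (hk : k ≠ 0) (sc : ℕ → ℝ) (hsc : ∀ n, 0 < sc n) :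
    InvT PL B J k (flF a L) sc := by
  intro M
  refine Eventually.of_forall fun n x hx y hy hxy => ?_
  have key : coL (flF a L n x) (flF a L n y) k = 0 := by
    unfold flF
    rw [hxy, ← comp_self, ← comp_self]
    exact comp_line hk (fun _ => rfl) (fun _ => ⟨rfl, rfl⟩) fun _ => rfl
  rw [PL_d, key, abs_zero]
  exact mul_nonneg (hsc n).le (dpow_pos B n _).le

end flat

/-! ### what the consumers use of the flags -/

/-- ray, height, size of the flags of the incidences, the flags of the marks are functions of the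
marked class. -/
structure FlagD (I : ℕ → Finset (ℕ × ℝ)) (L : ℕ → ℕ → LRay) (lev : ℕ → ℚ → ℕ)
    (f : ℕ → ℚ → ℕ → ℤ → ℕ) (fr : ℕ → ℚ → ℕ × ℝ → LInc) (fl : ℕ → ℕ × ℝ → LInc) : Prop where
  ray : ∀ n x, rayL (fl n x) = L n x.1
  z : ∀ n x, (fl n x).z = x.2
  kc : ∀ n v x y, kc (lev n v) (f n v) y = kc (lev n v) (f n v) x → fr n v y = fr n v x
  vb : ∀ᶠ n in (U : Filter ℕ), ∀ x ∈ I n, 1 / 2 ≤ ‖vb (fl n x)‖


theorem comp_rayL (r : LRay) (z : ℝ) (pB pE pD : Cf E2) : rayL (comp r z pB pE pD) = r := by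
  have h := rayL_toL r z pB
  exact h

theorem le_norm2 (x : E2) (a : Fin 2) : |x a| ≤ ‖x‖ := by
  fin_cases a
  · exact abs0_le _
  · exact abs1_le _

section results

variable {r : ℕ → ℝ} {L : ℕ → ℕ → LRay} {B : Base} {I J : ℕ → Finset (ℕ × ℝ)}
    {G : Geo SL (Fin 2)} {lev : ℕ → ℚ → ℕ} {A : ℕ → ℝ} {g s : ℝ} {θ : Fin 2 → ℝ} {c Λ : ℝ → ℝ}
    {τ : Fin 2 → ℝ → ℝ}
    {f : ℕ → ℚ → ℕ → ℤ → ℕ} {b : ℕ → ℚ → ℕ → SL} {vm : ℕ → ℚ → ℝ} {w : Fin 2 → ℕ → ℚ → ℝ}




/-- axis of the composite flags -/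
theorem vb_thin {a : Fin 2} {θ : Fin 2 → ℝ}
    (hl : ∀ v : ℚ, 0 ≤ v → v ≤ 1 → ∀ᶠ n in (U : Filter ℕ), ∀ x ∈ J n,
      59 / 100 ≤ |grr (mkL lev f b n v x).phi (L n x.1) a|) :
    ∀ᶠ n in (U : Filter ℕ), ∀ x ∈ J n, 1 / 2 ≤ ‖vb (flT lev f b a θ L n x)‖ := by
  obtain ⟨l0, l1⟩ := lvl_mem (βL (θ 0) (θ 1) 7)
  filter_upwards [hl _ l0 l1] with n hn x hx
  have h1 := hn x hx
  have e1 : vb (flT lev f b a θ L n x) =
      grr (psi lev f b a n (lvl (βL (θ 0) (θ 1) 7)) x) (L n x.1) := by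
    ext i
    fin_cases i <;> rfl
  rw [e1]
  refine le_trans ?_ (le_norm2 _ a)
  unfold psi psm
  have hσ : Sg (nsg a (mkL lev f b n (lvl (βL (θ 0) (θ 1) 7)) x).phi
    (bray (mkL lev f b n (lvl (βL (θ 0) (θ 1) 7)) x))) := nsg_sg _ _ _
  rw [sm_grr, PiLp.smul_apply, smul_eq_mul, abs_mul, hσ.abs, one_mul]
  linarith

theorem βL_zero (θa θb : ℝ) : βL θa θb 0 = 1 := rfl

/-- the tilt passes to dense parts -/
theorem TiltL.dense {C : ℝ} (h : TiltL B I L lev f b w C) (hd : Dense B J I) :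
    TiltL B J L lev f b w C := fun u v h0 huv h1 ε hε =>
  Crest.Agent.R138.Mk163.Negl.dense (h u v h0 huv h1 ε hε) hd


/-- **RESULT, round marks**: flat flags. -/
theorem thick_sys (h : MkA B I G lev A (fun v => g * v) (fun v => s * v)
    (fun j v => θ j * (1 - v)) f b vm w) (hG : IsL G L r) (hT : Thick B w) (a : Fin 2) :
    TSys PL G g s θ (βL (θ 0) (θ 1)) B I lev A f b vm w (frF lev f b a) (prN lev w)
        (flF a L) (scN lev w) ∧
      FlagD I L lev f (frF lev f b a) (flF a L) ∧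
      (∀ n x, (flF a L n x).et = 0 ∧ (flF a L n x).d = 0) ∧
      (∀ k, k ≠ 0 → InvT PL B I k (flF a L) (scN lev w k)) ∧
      ∀ k, InvT PL B I k (flF a L) (scN lev w k) ∨ 0 < βL (θ 0) (θ 1) k := by
  have hinv : ∀ k, k ≠ 0 → InvT PL B I k (flF a L) (scN lev w k) := fun k hk =>
    inv_flat k hk _ fun n => spN_pos lev w 0 k n
  refine ⟨tsys_flat h hG hT a, ⟨fun n x => rayL_toL _ _ _, fun n x => rfl,
    fun n v x y hxy => frF_kc lev f b a n v x y hxy, Eventually.of_forall fun n x hx => ?_⟩,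
    fun n x => ⟨flatc_ny a x.2, flatc_d a⟩, hinv, fun k => ?_⟩
  · have e1 : vb (flF a L n x) = grr (flatc a) (L n x.1) := by
      ext i
      fin_cases i <;> rfl
    rw [e1, flatc_grr]
    refine le_trans ?_ (le_norm2 _ a)
    simp
    norm_num
  · by_cases hk : k = 0
    · subst hk
      exact Or.inr (by rw [βL_zero]; exact one_pos)
    · exact Or.inl (hinv k hk)

end results

end Crest.Agent.R116.KF439
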