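import Crest.Agent.R136.PqG2_464
import Crest.Agent.R116.KIDef_439
import Crest.Agent.R136.TD3_627
import Crest.Agent.R116.Gd6_222
import Crest.Agent.R116.KF3_439
import Crest.Agent.R116.Rl5_899
import Crest.Agent.R116.Bd1_369
import Crest.Agent.R116.KF7_439

-- ▼ part R116/Tw1_468
section

/-!
# R116, K10 (helper468), part 1: the field `gH` of `PreQ` for the light-ray test sets

* `valW q ρ x` : value of a test set over a cell of length `ρ`, absolute widths `x 0` (wide), `x 1`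
  (thin).
* `vm_eqW`, `valW_mono` : the values of the marks are monomials in the widths.
* `gH_L` : the field `gH`, normalisation `N0 n = A n * vm n 0 * d^(-(1-s))`, exponent `EL`.
* `geoL_val` : 794's `geo` over 439's `TSL` has these values.
-/

set_option autoImplicit false
set_option linter.unusedVariables false

open Finset Filter Topology

namespace Crest.Agent.R116.Tw468

open Crest.Agent.R138
open Crest.Agent.R138.Ex926 (Base U)
open Crest.Agent.R138.Mk163 (zc zl rho alive)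
open Crest.Agent.R138.MkRef627 (mem_alive)
open Crest.Agent.R136
open Crest.Agent.R136.MkA627
open Crest.Agent.R136.ArgA163 (monoW)
open Crest.Agent.R136.PqG464 (gH_mono N0_pos)
open Crest.Agent.R116.KI439
open Crest.Agent.R116.Xa794 (TS geo)

/-- value of a test set over a cell of length `ρ` with absolute widths `x`: `W³ a / ρ` times the
rewards. -/
noncomputable def valW (q : Fin 2 → ℝ) (ρ : ℝ) (x : Fin 2 → ℝ) : ℝ :=
  x 1 * x 0 ^ 3 / ρ * ((x 0 / ρ) ^ q 0 * (x 1 / ρ) ^ q 1)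

/-- exponents of the widths in `valW` -/
noncomputable def axL (q : Fin 2 → ℝ) : Fin 2 → ℝ := ![3 + q 0, 1 + q 1]

/-- exponent of `ρ` in `valW` -/
noncomputable def arL (q : Fin 2 → ℝ) : ℝ := -(1 + q 0 + q 1)

/-- exponent of the number of incidences in the marked classes -/
noncomputable def EL (θ : Fin 2 → ℝ) (g s : ℝ) (q : Fin 2 → ℝ) (u : ℝ) : ℝ :=
  (g - (1 - s)) * u - (3 - (3 + q 0) * θ 0 - (1 + q 1) * θ 1) * u

theorem valW_eq (q : Fin 2 → ℝ) {ρ : ℝ} (hρ : 0 < ρ) {x : Fin 2 → ℝ} (hx : ∀ k, 0 < x k) :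
    valW q ρ x = (∏ k, x k ^ axL q k) * ρ ^ arL q := by
  have h0 := hx 0
  have h1 := hx 1
  rw [Fin.prod_univ_two]
  simp only [axL, arL, valW, Matrix.cons_val_zero, Matrix.cons_val_one]
  rw [Real.div_rpow h0.le hρ.le, Real.div_rpow h1.le hρ.le, Real.rpow_add h0, Real.rpow_add h1,
    Real.rpow_neg hρ.le, Real.rpow_add hρ, Real.rpow_add hρ, Real.rpow_one, Real.rpow_one]
  have h3 : x 0 ^ (3 : ℝ) = x 0 ^ 3 := by
    rw [← Real.rpow_natCast]; norm_num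
  rw [h3]
  have p0 : 0 < ρ ^ q 0 := Real.rpow_pos_of_pos hρ _
  have p1 : 0 < ρ ^ q 1 := Real.rpow_pos_of_pos hρ _
  field_simp

variable {σ : Type*} {B : Base} {I : ℕ → Finset (ℕ × ℝ)} {G : Geo σ (Fin 2)} {lev : ℕ → ℚ → ℕ}
    {A : ℕ → ℝ} {g s : ℝ} {θ : Fin 2 → ℝ} {f : ℕ → ℚ → ℕ → ℤ → ℕ} {b : ℕ → ℚ → ℕ → σ}
    {vm : ℕ → ℚ → ℝ} {w : Fin 2 → ℕ → ℚ → ℝ} {q : Fin 2 → ℝ}

/-- the values of the marks -/
theorem vm_eqW {c Λ : ℝ → ℝ} {τ : Fin 2 → ℝ → ℝ} (h : MkA B I G lev A c Λ τ f b vm w)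
    (hval : ∀ n i J t, G.adm n i J t → G.val n i J t = valW q (rho i) fun k => G.wid k t) {v : ℚ}
    (h0 : 0 ≤ v) (h1 : v ≤ 1) :
    ∀ᶠ n in (U : Filter ℕ), vm n v = valW q (rho (lev n v)) fun k => w k n v := by
  filter_upwards [h.mark v h0 h1, h.ne] with n hn hne
  obtain ⟨x, hx⟩ := hne
  have hal : x.1 ∈ alive (I n) (lev n v) (zc (lev n v) x.2) := mem_alive.2 ⟨x, hx, rfl, rfl⟩
  obtain ⟨h2, h3, h4, h5⟩ := hn _ _ hal
  rw [← h4, hval _ _ _ _ h3]
  congr 1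
  funext k
  exact h5 k

/-- ... are monomials in the widths -/
theorem vm_monoW {c Λ : ℝ → ℝ} {τ : Fin 2 → ℝ → ℝ} (h : MkA B I G lev A c Λ τ f b vm w)
    (hval : ∀ n i J t, G.adm n i J t → G.val n i J t = valW q (rho i) fun k => G.wid k t) (v : ℚ)
    (h0 : 0 ≤ v) (h1 : v ≤ 1) :
    ∀ᶠ n in (U : Filter ℕ), vm n v = monoW lev w (axL q) (arL q) n v := by
  filter_upwards [vm_eqW h hval h0 h1, Filter.eventually_all.2 fun k => h.wpos k v h0 h1]
    with n h2 h3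
  rw [h2, valW_eq q (by unfold rho; positivity) h3]
  rfl

/-- **the field `gH`** of the light-ray chart. -/
theorem gH_L
    (h : MkA B I G lev A (fun v => g * v) (fun v => s * v) (fun j v => θ j * (1 - v)) f b vm w)
    (hval : ∀ n i J t, G.adm n i J t → G.val n i J t = valW q (rho i) fun k => G.wid k t) (u : ℚ)
    (h0 : 0 ≤ u) (h1 : u ≤ 1) :
    Tendsto (fun n => Real.log
      (ampA B A (fun v => g * v) n u * vm n u * B.d n ^ (-((1 - s) * (1 - u))) /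
        (A n * vm n 0 * B.d n ^ (-(1 - s)))) / B.L n) U (𝓝 (EL θ g s q u)) := by
  have h2 := gH_mono h (a := axL q) (a₀ := arL q) (vm_monoW h hval) u h0 h1
  have e1 : (g - (1 - s)) * (u : ℝ) - (∑ k, axL q k * (1 - θ k) + arL q) * u = EL θ g s q u := by
    rw [Fin.sum_univ_two]
    simp only [axL, arL, EL, Matrix.cons_val_zero, Matrix.cons_val_one]
    ring
  rw [e1] at h2
  exact h2

/-- the normalisation is positive -/
theorem N0_L
    (h : MkA B I G lev A (fun v => g * v) (fun v => s * v) (fun j v => θ j * (1 - v)) f b vm w) :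
    ∀ᶠ n in (U : Filter ℕ), 0 < A n * vm n 0 * B.d n ^ (-(1 - s)) :=
  N0_pos h (V := fun n => vm n 0) (h.vpos 0 le_rfl zero_le_one)


end Crest.Agent.R116.Tw468
end

-- ▼ part R116/Tw2_468
section

/-!
# R116, K10 (helper468), part 2: properties of the marks which survive all windows

The windows of 627's second zoom (`NatT`) are diagonal: facts of the form "for every rational level,
eventually in `n`" do not pass to them, except the fields of `MkA`.  Trick: the test sets get a Boolean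
label, the test sets labelled `true` (the marks) have to be good (`Gd`), those labelled `false` are
arbitrary; so D-max is still known for all test sets, and the marks of every window are good.

* `flagG`, `mka_flag`, `mka_unflag`, `tsys_flag`, `tsys_unflag`.
* `NatG` = `NatT` + good marks, `natG_of`.
-/

set_option autoImplicit false
set_option linter.unusedVariables false

open Finset Filter Topology

namespace Crest.Agent.R116.Tw468

open Crest.Agent.R138.Ex926 (Base U)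
open Crest.Agent.R138.Mk163 (zc zl rho alive)
open Crest.Agent.R136.MkA627
open Crest.Agent.R136.TD627

variable {σ κ φ : Type*} {m : ℕ}

/-- test sets with a label; the test sets labelled `true` are good. -/
def flagG (G : Geo σ κ) (Gd : ℕ → ℕ → ℤ → σ → Prop) : Geo (Bool × σ) κ where
  mem := fun n i J s t => G.mem n i J s.2 t
  adm := fun n i J s => G.adm n i J s.2 ∧ (s.1 = true → Gd n i J s.2)
  val := fun n i J s => G.val n i J s.2
  wid := fun k s => G.wid k s.2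

section mka

variable {B : Base} {I : ℕ → Finset (ℕ × ℝ)} {G : Geo σ κ} {lev : ℕ → ℚ → ℕ}
    {A : ℕ → ℝ} {c Λ : ℝ → ℝ} {τ : κ → ℝ → ℝ} {f : ℕ → ℚ → ℕ → ℤ → ℕ}
    {b : ℕ → ℚ → ℕ → σ} {vm : ℕ → ℚ → ℝ} {w : κ → ℕ → ℚ → ℝ} {Gd : ℕ → ℕ → ℤ → σ → Prop}

/-- all marks are good -/
def GoodM (I : ℕ → Finset (ℕ × ℝ)) (lev : ℕ → ℚ → ℕ) (f : ℕ → ℚ → ℕ → ℤ → ℕ)
    (b : ℕ → ℚ → ℕ → σ) (Gd : ℕ → ℕ → ℤ → σ → Prop) : Prop :=
  ∀ v : ℚ, 0 ≤ v → v ≤ 1 → ∀ᶠ n in (U : Filter ℕ), ∀ J : ℤ, ∀ t ∈ alive (I n) (lev n v) J,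
    Gd n (lev n v) J (b n v (f n v t J))

theorem mka_flag (h : MkA B I G lev A c Λ τ f b vm w) (hg : GoodM I lev f b Gd) :
    MkA B I (flagG G Gd) lev A c Λ τ f (fun n v a => (true, b n v a)) vm w where
  ne := h.ne
  card := h.card
  Apos := h.Apos
  c0 := h.c0
  lam0 := h.lam0
  lam := h.lam
  tau1 := h.tau1
  lev_mono := h.lev_mono
  lev_lim := h.lev_lim
  cell0 := h.cell0
  one := h.one
  own := h.own
  dmax := fun v h0 h1 ε hε => by
    filter_upwards [h.dmax v h0 h1 ε hε] with n hn J s hs using hn J s.2 hs.1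
  mark := fun v h0 h1 => by
    filter_upwards [h.mark v h0 h1, hg v h0 h1] with n hn hn2 J t ht
    obtain ⟨a1, a2, a3, a4⟩ := hn J t ht
    exact ⟨a1, ⟨a2, fun _ => hn2 J t ht⟩, a3, a4⟩
  near := h.near
  vpos := h.vpos
  wpos := h.wpos
  tau := h.tau

theorem mka_unflag
    (h : MkA B I (flagG G Gd) lev A c Λ τ f (fun n v a => (true, b n v a)) vm w) :
    MkA B I G lev A c Λ τ f b vm w where
  ne := h.ne
  card := h.card
  Apos := h.Apos
  c0 := h.c0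
  lam0 := h.lam0
  lam := h.lam
  tau1 := h.tau1
  lev_mono := h.lev_mono
  lev_lim := h.lev_lim
  cell0 := h.cell0
  one := h.one
  own := h.own
  dmax := fun v h0 h1 ε hε => by
    filter_upwards [h.dmax v h0 h1 ε hε] with n hn J s hs
    exact hn J (false, s) ⟨hs, fun h => absurd h (by simp)⟩
  mark := fun v h0 h1 => by
    filter_upwards [h.mark v h0 h1] with n hn J t ht
    obtain ⟨a1, a2, a3, a4⟩ := hn J t ht
    exact ⟨a1, a2.1, a3, a4⟩
  near := h.near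
  vpos := h.vpos
  wpos := h.wpos
  tau := h.tau

theorem goodM_unflag
    (h : MkA B I (flagG G Gd) lev A c Λ τ f (fun n v a => (true, b n v a)) vm w) :
    GoodM I lev f b Gd := by
  intro v h0 h1
  filter_upwards [h.mark v h0 h1] with n hn J t ht
  exact (hn J t ht).2.1.2 rfl

end mka

section tsys

variable {P : TDist φ m} {G : Geo σ κ} {g s : ℝ} {θ : κ → ℝ} {β C0 : Fin m → ℝ}
    {B : Base} {I : ℕ → Finset (ℕ × ℝ)} {lev : ℕ → ℚ → ℕ} {A : ℕ → ℝ}
    {f : ℕ → ℚ → ℕ → ℤ → ℕ} {b : ℕ → ℚ → ℕ → σ} {vm : ℕ → ℚ → ℝ} {w : κ → ℕ → ℚ → ℝ}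
    {fr : ℕ → ℚ → ℕ × ℝ → φ} {pr : Fin m → ℕ → ℚ → ℝ} {fl : ℕ → ℕ × ℝ → φ} {sc : Fin m → ℕ → ℝ}
    {Gd : ℕ → ℕ → ℤ → σ → Prop}

theorem tsys_flag (h : TSys P G g s θ β B I lev A f b vm w fr pr fl sc)
    (hg : GoodM I lev f b Gd) :
    TSys P (flagG G Gd) g s θ β B I lev A f (fun n v a => (true, b n v a)) vm w fr pr fl sc where
  mka := mka_flag h.mka hg
  scpos := h.scpos
  prpos := h.prpos
  prc := h.prc
  cell := h.cell
  close := h.close
  wpr := h.wpr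

theorem tsys_unflag
    (h : TSys P (flagG G Gd) g s θ β B I lev A f (fun n v a => (true, b n v a)) vm w fr pr fl
      sc) : TSys P G g s θ β B I lev A f b vm w fr pr fl sc where
  mka := mka_unflag h.mka
  scpos := h.scpos
  prpos := h.prpos
  prc := h.prc
  cell := h.cell
  close := h.close
  wpr := h.wpr




end tsys

end Crest.Agent.R116.Tw468
end

-- ▼ part R116/Tw3_468
section

/-!
# R116, K10 (helper468), part 3: static range of the test sets, range and thinness in the windows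

* `InW X Lo K n a` : the dyadic absolute widths `a` are within `e^(±K Lo)` of `X`.
* `AdmS G X Lo l0 l1 K` : every member of constant `2 kD` in the range, over a cell of level in
  `[l0 n, l1 n]`, is admissible (`admS_of`).
* `goodM_init` : the marks of a sequence are in the range (constant `|θ| + 3`).
* **`admR_of_static`** : 222's `AdmR` in every window of a sequence with good marks.
* `STh`, `thin_of_static` : thinness in every window.
-/

set_option autoImplicit false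
set_option linter.unusedVariables false

open Finset Filter Topology

namespace Crest.Agent.R116.Tw468

open Crest.Agent.R138.Ex926 (Base U)
open Crest.Agent.R138.Mk163 (zc zl rho alive own)
open Crest.Agent.R138.MkRef627 (lc kc mem_alive)
open Crest.Agent.R138.Dp76 (dpow_pos dpow_add dpow_le)
open Crest.Agent.R138.ArgM163 (log_dpow)
open Crest.Agent.R136.MkA627
open Crest.Agent.R116.LZg725
open Crest.Agent.R116.ChL222
open Crest.Agent.R116.PL504 (ev_len ev_ang ps ps_pos ps_eq)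
open Crest.Agent.R116.Gd222 (TSet AdmR sN sN_pos)
open Crest.Agent.R116.KI439
open Crest.Agent.R116.KF439 (Thin Thick)

/-! ### logarithms -/

theorem rho_pos3 (i : ℕ) : 0 < rho i := by unfold rho; positivity

/-- two-sided bound of a logarithm -/
theorem abs_log_le (B : Base) {n : ℕ} {x a b C : ℝ} (hx : 0 < x) (h1 : B.d n ^ a ≤ x)
    (h2 : x ≤ B.d n ^ b) (ha : a ≤ C) (hb : -C ≤ b) : |Real.log x| ≤ C * B.L n := by
  have hL := B.L_pos n
  have e1 := Real.log_le_log (dpow_pos B n a) h1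
  have e2 := Real.log_le_log hx h2
  rw [log_dpow] at e1 e2
  rw [abs_le]
  constructor
  · nlinarith
  · nlinarith

/-- the converse -/
theorem of_abs_log (B : Base) {n : ℕ} {x y K R : ℝ} (hx : 0 < x) (hy : 0 < y) (hK : K ≤ R)
    (h : |Real.log (y / x)| ≤ K * B.L n) : B.d n ^ R * x ≤ y ∧ y ≤ B.d n ^ (-R) * x := by
  have hL := B.L_pos n
  rw [abs_le] at h
  have h1 : K * B.L n ≤ R * B.L n := mul_le_mul_of_nonneg_right hK hL.le
  constructor
  · rw [← le_div_iff₀ hx, ← Real.log_le_log_iff (dpow_pos B n _) (div_pos hy hx), log_dpow]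
    linarith [h.1]
  · rw [← div_le_iff₀ hx, ← Real.log_le_log_iff (div_pos hy hx) (dpow_pos B n _), log_dpow]
    linarith [h.2]

/-! ### the static range -/

/-- dyadic absolute widths within `e^(±K Lo)` of `X` -/
def InW (X : Fin 2 → ℕ → ℝ) (Lo : ℕ → ℝ) (K : ℝ) (n : ℕ) (a : Fin 2 → ℕ) : Prop :=
  ∀ j, |Real.log ((1 / 2 : ℝ) ^ a j / X j n)| ≤ K * Lo n

/-- good marks: level and widths in the range -/
def GdW (X : Fin 2 → ℕ → ℝ) (Lo : ℕ → ℝ) (l0 l1 : ℕ → ℕ) (K : ℝ) (n i : ℕ) (J : ℤ) (s : TSet) :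
    Prop :=
  (l0 n ≤ i ∧ i ≤ l1 n) ∧ InW X Lo K n s.1

/-- **the static class**: every member of constant `2 kD` in the range is admissible -/
def AdmS (G : Geo TSet (Fin 2)) (X : Fin 2 → ℕ → ℝ) (Lo : ℕ → ℝ) (l0 l1 : ℕ → ℕ) (K : ℝ) : Prop :=
  ∀ᶠ n in (U : Filter ℕ), ∀ i : ℕ, l0 n ≤ i → i ≤ l1 n → ∀ (J : ℤ) (a : Fin 2 → ℕ) (m : Mem),
    m.Ok (2 * kD) 0 → m.R = rho i → m.s0 = ((J : ℝ) + 1 / 2) * rho i → m.sg ≤ 1 →
    m.sg * m.R = (1 / 2 : ℝ) ^ a 0 → m.s1 * m.R = (1 / 2 : ℝ) ^ a 1 → InW X Lo K n a →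
    G.adm n i J (a, m)

/-- the range is thin -/
def STh (X : Fin 2 → ℕ → ℝ) (Lo : ℕ → ℝ) : Prop :=
  ∀ M : ℝ, ∀ᶠ n in (U : Filter ℕ), X 1 n ≤ Real.exp (-(M * Lo n)) * X 0 n

theorem InW.mono {X : Fin 2 → ℕ → ℝ} {Lo : ℕ → ℝ} {K K' : ℝ} {n : ℕ} {a : Fin 2 → ℕ}
    (h : InW X Lo K n a) (hK : K ≤ K') (hL : 0 ≤ Lo n) : InW X Lo K' n a := fun j =>
  (h j).trans (mul_le_mul_of_nonneg_right hK hL)

/-- monotonicity in the class constant -/
theorem ok_mono {M M' B : ℝ} {m : Mem} (h : m.Ok M B) (hM : M ≤ M') : m.Ok M' B := by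
  have h0 : 0 ≤ m.sg := h.hs1.le.trans h.hsg
  obtain ⟨h1, h2, h3, h4⟩ := h.adm
  refine ⟨h.hR, h.hs1, h.hsg, h1, fun s hs => (h2 s hs).trans ?_, h3.trans ?_, h4.trans ?_⟩
  · exact mul_le_mul_of_nonneg_right hM h0
  · exact mul_le_mul_of_nonneg_right hM h0
  · exact mul_le_mul_of_nonneg_right (mul_le_mul_of_nonneg_right hM h0) h.hR.le

/-- **`AdmL` from `Ok (2 kD) 0`** -/
theorem admL_of {r : ℝ} {i : ℕ} {J : ℤ} {a : Fin 2 → ℕ} {m : Mem} (hok : m.Ok (2 * kD) 0)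
    (hR : m.R = (1 / 2 : ℝ) ^ i) (hs0 : m.s0 = ((J : ℝ) + 1 / 2) * (1 / 2 : ℝ) ^ i)
    (hsg : m.sg ≤ 1) (h0 : m.sg * m.R = (1 / 2 : ℝ) ^ (a 0))
    (h1 : m.s1 * m.R = (1 / 2 : ℝ) ^ (a 1)) (hr : r ≤ m.s1 * m.R) : AdmL r i J a m := by
  have hs : 0 < m.sg := hok.hs1.trans_le hok.hsg
  have hRp := hok.hR
  have hT : m.T 0 = m.sg ^ 2 := by
    unfold Mem.T
    rw [zero_div]
    exact max_eq_left (sq_nonneg _)
  refine ⟨ok_mono hok (by unfold kD kM0; norm_num), hR, hs0, hsg, h0, h1, hr, ?_, ?_⟩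
  · have h2 := d_le_of_ny (T := m.T 0) hRp.le (by rw [hT]; positivity) hok.adm.ny
    rw [hT] at h2
    have e : 2 * |m.phi.d| * (m.sg ^ 2 * m.R) = (2 * (|m.phi.d| * (m.sg * m.R))) * m.sg := by ring
    rw [e] at h2
    have := le_of_mul_le_mul_right h2 hs
    linarith
  · have h2 := hok.adm.ny m.s0 (by rw [sub_self, abs_zero]; exact hRp.le)
    rw [hT] at h2
    have e : |m.phi.ny m.s0| * m.sg ^ 2 = (|m.phi.ny m.s0| * m.sg) * m.sg := by ring
    rw [e] at h2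
    exact le_of_mul_le_mul_right h2 hs


section mk

variable {B : Base} {I : ℕ → Finset (ℕ × ℝ)} {G : Geo TSet (Fin 2)} {lev : ℕ → ℚ → ℕ}
    {A : ℕ → ℝ} {g s : ℝ} {θ : Fin 2 → ℝ} {f : ℕ → ℚ → ℕ → ℤ → ℕ} {b : ℕ → ℚ → ℕ → TSet}
    {vm : ℕ → ℚ → ℝ} {w : Fin 2 → ℕ → ℚ → ℝ}

/-- lengths of the cells -/
theorem ev_rho (h : MkA B I G lev A (fun v => g * v) (fun v => s * v)
    (fun j v => θ j * (1 - v)) f b vm w) {u : ℚ} (h0 : 0 ≤ u) (h1 : u ≤ 1) :
    ∀ᶠ n in (U : Filter ℕ), |Real.log (rho (lev n u) / rho (lev n 1))| ≤ 2 * B.L n := by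
  have h0' : (0 : ℝ) ≤ u := by exact_mod_cast h0
  have h1' : (u : ℝ) ≤ 1 := by exact_mod_cast h1
  filter_upwards [ev_len h h0 h1 one_half_pos, ev_len h zero_le_one le_rfl one_half_pos]
    with n a1 a2
  rw [Rat.cast_one] at a2
  have r1 := rho_pos3 (lev n 1)
  have ru := rho_pos3 (lev n u)
  have p : (0 : ℝ) < 2 ^ lev n 0 := by positivity
  have dp := fun a => dpow_pos B n a
  have e : rho (lev n u) / rho (lev n 1) =
      ((2 : ℝ) ^ lev n 0 * rho (lev n u)) / ((2 : ℝ) ^ lev n 0 * rho (lev n 1)) := by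
    field_simp
  rw [e]
  have q1 : 0 < (2 : ℝ) ^ lev n 0 * rho (lev n u) := by positivity
  have q2 : 0 < (2 : ℝ) ^ lev n 0 * rho (lev n 1) := by positivity
  refine abs_log_le B (a := u) (b := u - 2) (div_pos q1 q2) ?_ ?_ (by linarith) (by linarith)
  · rw [le_div_iff₀ q2]
    refine le_trans (mul_le_mul_of_nonneg_left a2.2 (dp _).le) ?_
    rw [← dpow_add]
    refine le_trans (le_of_eq ?_) a1.1
    congr 1; ring
  · rw [div_le_iff₀ q2]
    refine le_trans a1.2 ?_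
    refine le_trans (le_of_eq ?_) (mul_le_mul_of_nonneg_left a2.1 (dp _).le)
    rw [← dpow_add]
    congr 1; ring

/-- widths of the marks against those of level `1` -/
theorem ev_wid (h : MkA B I G lev A (fun v => g * v) (fun v => s * v)
    (fun j v => θ j * (1 - v)) f b vm w) (j : Fin 2) {u : ℚ} (h0 : 0 ≤ u) (h1 : u ≤ 1) :
    ∀ᶠ n in (U : Filter ℕ), |Real.log (w j n u / w j n 1)| ≤ (|θ j| + 3) * B.L n := by
  have h0' : (0 : ℝ) ≤ u := by exact_mod_cast h0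
  have h1' : (u : ℝ) ≤ 1 := by exact_mod_cast h1
  filter_upwards [ev_ang h j h0 h1 one_pos, ev_rho h h0 h1, h.wpos j u h0 h1,
    h.wpos j 1 zero_le_one le_rfl] with n a1 a2 p1 p2
  have r1 := rho_pos3 (lev n 1)
  have ru := rho_pos3 (lev n u)
  have hL := B.L_pos n
  rw [ps_eq (div_pos p2 r1)] at a1
  have q1 : 0 < w j n u / rho (lev n u) := div_pos p1 ru
  have q2 : 0 < w j n 1 / rho (lev n 1) := div_pos p2 r1
  have e : w j n u / w j n 1 = (w j n u / rho (lev n u)) / (w j n 1 / rho (lev n 1)) *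
      (rho (lev n u) / rho (lev n 1)) := by field_simp
  rw [e, Real.log_mul (div_pos q1 q2).ne' (div_pos ru r1).ne']
  refine (abs_add_le _ _).trans ?_
  have b1 : |Real.log (w j n u / rho (lev n u) / (w j n 1 / rho (lev n 1)))| ≤
      (|θ j| + 1) * B.L n := by
    have c1 : |θ j * (1 - (u : ℝ))| ≤ |θ j| := by
      rw [abs_mul, abs_of_nonneg (by linarith : (0 : ℝ) ≤ 1 - u)]
      exact mul_le_of_le_one_right (abs_nonneg _) (by linarith)
    have c2 := abs_le.1 c1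
    exact abs_log_le B (div_pos q1 q2) a1.1 a1.2 (by linarith [c2.2]) (by linarith [c2.1])
  linarith

/-- **the marks of a sequence are in the range** -/
theorem goodM_init (h : MkA B I G lev A (fun v => g * v) (fun v => s * v)
    (fun j v => θ j * (1 - v)) f b vm w)
    (hwid : ∀ j (t : TSet), G.wid j t = (1 / 2 : ℝ) ^ t.1 j) {Kw : ℝ} (hK : ∀ j, |θ j| + 3 ≤ Kw) :
    GoodM I lev f b (GdW (fun j n => w j n 1) B.L (fun n => lev n 0) (fun n => lev n 1) Kw) := by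
  intro v h0 h1
  filter_upwards [h.mark v h0 h1, Filter.eventually_all.2 fun j => ev_wid h j h0 h1,
    h.lev_mono 0 v le_rfl h0 h1, h.lev_mono v 1 h0 h1 le_rfl]
    with n a1 a2 a3 a4 J t ht
  refine ⟨⟨a3, a4⟩, fun j => ?_⟩
  obtain ⟨-, -, -, b4⟩ := a1 J t ht
  have e : (1 / 2 : ℝ) ^ (b n v (f n v t J)).1 j = w j n v := by rw [← hwid, b4]
  show |Real.log ((1 / 2 : ℝ) ^ (b n v (f n v t J)).1 j / w j n 1)| ≤ Kw * B.L n
  rw [e]
  exact (a2 j).trans (mul_le_mul_of_nonneg_right (hK j) (B.L_pos n).le)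

/-- good marks: the common widths and the level -/
theorem goodM_wid (h : MkA B I G lev A (fun v => g * v) (fun v => s * v)
    (fun j v => θ j * (1 - v)) f b vm w)
    (hwid : ∀ j (t : TSet), G.wid j t = (1 / 2 : ℝ) ^ t.1 j) {X : Fin 2 → ℕ → ℝ} {Lo : ℕ → ℝ}
    {l0 l1 : ℕ → ℕ} {Kw : ℝ} (hgood : GoodM I lev f b (GdW X Lo l0 l1 Kw)) {v : ℚ} (h0 : 0 ≤ v)
    (h1 : v ≤ 1) :
    ∀ᶠ n in (U : Filter ℕ), (l0 n ≤ lev n v ∧ lev n v ≤ l1 n) ∧
      ∀ j, |Real.log (w j n v / X j n)| ≤ Kw * Lo n := by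
  filter_upwards [h.ne, h.mark v h0 h1, hgood v h0 h1] with n a1 a2 a3
  obtain ⟨x, hx⟩ := a1
  have hal : x.1 ∈ alive (I n) (lev n v) (zc (lev n v) x.2) := mem_alive.2 ⟨x, hx, rfl, rfl⟩
  obtain ⟨-, -, -, b4⟩ := a2 _ _ hal
  obtain ⟨b6, b7⟩ := a3 _ _ hal
  refine ⟨b6, fun j => ?_⟩
  have b5 := b7 j
  rw [← hwid, b4] at b5
  exact b5

/-- **222's `AdmR` from the static range, in every window.** -/
theorem admR_of_static (h : MkA B I G lev A (fun v => g * v) (fun v => s * v)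
    (fun j v => θ j * (1 - v)) f b vm w)
    (hwid : ∀ j (t : TSet), G.wid j t = (1 / 2 : ℝ) ^ t.1 j) {X : Fin 2 → ℕ → ℝ} {Lo : ℕ → ℝ}
    {l0 l1 : ℕ → ℕ} {K Kw Rg : ℝ} (hS : AdmS G X Lo l0 l1 K)
    (hgood : GoodM I lev f b (GdW X Lo l0 l1 Kw))
    (hLo : ∀ᶠ n in (U : Filter ℕ), B.L n ≤ Lo n) (hRg : 0 ≤ Rg) (hK : Rg + Kw + 2 ≤ K) :
    AdmR B G lev (sN lev w) (2 * kD) 1 Rg := by
  intro u hu0 hu1
  filter_upwards [hS, goodM_wid h hwid hgood zero_le_one le_rfl, ev_rho h hu0 hu1, hLo,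
    h.wpos 0 1 zero_le_one le_rfl, h.wpos 1 1 zero_le_one le_rfl, goodM_wid h hwid hgood hu0 hu1]
    with n a1 a2' a3 a4 p0 p1 a5 J a m hok hR hs0 hsg e0 e1 l1 l2 l3 l4
  have a2 := a2'.2
  refine a1 (lev n u) a5.1.1 a5.1.2 J a m hok hR hs0 hsg e0 e1 ?_
  have hL := B.L_pos n
  have hLo0 : 0 < Lo n := hL.trans_le a4
  have r1 := rho_pos3 (lev n 1)
  have ru := rho_pos3 (lev n u)
  have dp := fun a => dpow_pos B n a
  have key : ∀ (j : Fin 2) (t : ℝ), 0 < w j n 1 → t * m.R = (1 / 2 : ℝ) ^ a j →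
      B.d n ^ Rg * sN lev w j n ≤ t → t ≤ B.d n ^ (-Rg) * sN lev w j n →
      |Real.log ((1 / 2 : ℝ) ^ a j / X j n)| ≤ K * Lo n := by
    intro j t hw ht k1 k2
    have hKp : 0 ≤ K * Lo n := by
      have := (abs_nonneg _).trans (a2 j)
      nlinarith
    have es : sN lev w j n = w j n 1 / rho (lev n 1) := by
      unfold sN; rw [ps_eq (div_pos hw r1)]
    have hs := sN_pos lev w j n
    have ht0 : 0 < t := lt_of_lt_of_le (mul_pos (dp _) hs) k1
    by_cases hX : X j n = 0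
    · rw [hX, div_zero, Real.log_zero, abs_zero]; exact hKp
    · have e : (1 / 2 : ℝ) ^ a j / X j n =
          (t / sN lev w j n) * (w j n 1 / X j n) * (rho (lev n u) / rho (lev n 1)) := by
        rw [← ht, hR, es]
        field_simp
      have n1 : t / sN lev w j n ≠ 0 := (div_pos ht0 hs).ne'
      have n2 : w j n 1 / X j n ≠ 0 := div_ne_zero hw.ne' hX
      rw [e, Real.log_mul (mul_ne_zero n1 n2) (div_pos ru r1).ne', Real.log_mul n1 n2]
      have b1 : |Real.log (t / sN lev w j n)| ≤ Rg * B.L n :=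
        abs_log_le B (a := Rg) (b := -Rg) (div_pos ht0 hs) (by rw [le_div_iff₀ hs]; exact k1)
          (by rw [div_le_iff₀ hs]; exact k2) le_rfl le_rfl
      have b2 := a2 j
      have b3 := abs_add_le (Real.log (t / sN lev w j n) + Real.log (w j n 1 / X j n))
        (Real.log (rho (lev n u) / rho (lev n 1)))
      have b4 := abs_add_le (Real.log (t / sN lev w j n)) (Real.log (w j n 1 / X j n))
      have b5 : Rg * B.L n ≤ Rg * Lo n := mul_le_mul_of_nonneg_left a4 hRg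
      nlinarith
  intro j
  fin_cases j
  · exact key 0 m.sg p0 e0 l1 l2
  · exact key 1 m.s1 p1 e1 l3 l4

/-- **thinness in every window** -/
theorem thin_of_static (h : MkA B I G lev A (fun v => g * v) (fun v => s * v)
    (fun j v => θ j * (1 - v)) f b vm w)
    (hwid : ∀ j (t : TSet), G.wid j t = (1 / 2 : ℝ) ^ t.1 j) {X : Fin 2 → ℕ → ℝ} {Lo : ℕ → ℝ}
    {l0 l1 : ℕ → ℕ} {Kw : ℝ} (hX : ∀ j, ∀ᶠ n in (U : Filter ℕ), 0 < X j n) (hth : STh X Lo)
    (hgood : GoodM I lev f b (GdW X Lo l0 l1 Kw))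
    (hLo : ∀ᶠ n in (U : Filter ℕ), B.L n ≤ Lo n) : Thin B w := by
  intro M v h0 h1
  filter_upwards [goodM_wid h hwid hgood h0 h1, hth (2 * Kw + |M|), hX 0, hX 1, hLo,
    h.wpos 0 v h0 h1, h.wpos 1 v h0 h1] with n a1 a2 x0 x1 a3 p0 p1
  have hL := B.L_pos n
  have b0 := (abs_le.1 (a1.2 0)).1
  have b1 := (abs_le.1 (a1.2 1)).2
  have c2 := Real.log_le_log x1 a2
  rw [Real.log_mul (Real.exp_pos _).ne' x0.ne', Real.log_exp] at c2
  rw [Real.log_div p0.ne' x0.ne'] at b0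
  rw [Real.log_div p1.ne' x1.ne'] at b1
  rw [← Real.log_le_log_iff p1 (mul_pos (dpow_pos B n M) p0),
    Real.log_mul (dpow_pos B n M).ne' p0.ne', log_dpow]
  have d1 : M * B.L n ≤ |M| * Lo n :=
    (mul_le_mul_of_nonneg_right (le_abs_self M) hL.le).trans
      (mul_le_mul_of_nonneg_left a3 (abs_nonneg M))
  have e : (2 * Kw + |M|) * Lo n = 2 * (Kw * Lo n) + |M| * Lo n := by ring
  rw [e] at c2
  linarith

/-- the static thinness of a thin sequence -/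
theorem sth_of_thin (h : Thin B w) : STh (fun j n => w j n 1) B.L := by
  intro M
  filter_upwards [h M 1 zero_le_one le_rfl] with n hn
  have e : Real.exp (-(M * B.L n)) = B.d n ^ M := by
    rw [Real.rpow_def_of_pos (B.pos n)]
    congr 1
    unfold Base.L
    ring
  rw [e]
  exact hn

end mk

end Crest.Agent.R116.Tw468
end

-- ▼ part R116/Tw4_468
section

/-!
# R116, K10 (helper468), part 4: one window of the light-ray chart

* `he_of` : the slot `E` of the flags is `≤ d^(-ε) / σ0` (closeness to the marks of level `1`).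
* `frL_fact` : the flags of the marks of level `1`.
* **`LWin`** : one window: 627's `TSys` in 504's units, 222's `LData` (`ϑ = 0`), `s1 ≤ sg`.
* **`LWin.preQ`** : the literal `PreQ` of 196, `N0 n = A n * vm n 0 * d^(-(1-s))`, `PD = PDL`,
  `D = DT`, `E u = D (r u)`.
-/

set_option autoImplicit false
set_option linter.unusedVariables false

open Finset Filter Topology

namespace Crest.Agent.R116.Tw468

open Crest.Agent.R138.Ex926 (Base U)
open Crest.Agent.R138.Mk163 (zc zl rho alive own)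
open Crest.Agent.R138.MkRef627 (lc kc mem_alive)
open Crest.Agent.R138.Dp76 (dpow_pos dpow_add dpow_le)
open Crest.Agent.R138.ArgM163 (log_dpow)
open Crest.Agent.R136.MkA627
open Crest.Agent.R136.Net191
open Crest.Agent.R136.TD627
open Crest.Agent.R136.Lq196
open Crest.Agent.R136.PqG464 (ev_const)
open Crest.Agent.R116.LZg725
open Crest.Agent.R116.ChL222
open Crest.Agent.R116.PL504 (ev_len ev_ang ps ps_pos ps_eq prN βL eL rL oL Shift uL preL_of eL_legal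
  eL_le)
open Crest.Agent.R116.Gd222 (TSet AdmR LData sN sN_pos vb rayL PDL DT gD_T DT_rL own_thin dflat
  LData_of)
open Crest.Agent.R116.KI439
open Crest.Agent.R116.KF439 (IsL ValL Thin Thick PL PL_d frL frL_kc flM psm mark_L MkFact mkL)

/-! ### the slot `E` of the flags -/

section he

variable {B : Base} {I : ℕ → Finset (ℕ × ℝ)} {G : Geo TSet (Fin 2)} {lev : ℕ → ℚ → ℕ}
    {A : ℕ → ℝ} {g s : ℝ} {θ : Fin 2 → ℝ} {β : Fin 12 → ℝ} {f : ℕ → ℚ → ℕ → ℤ → ℕ}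
    {b : ℕ → ℚ → ℕ → TSet} {vm : ℕ → ℚ → ℝ} {w : Fin 2 → ℕ → ℚ → ℝ}
    {fr : ℕ → ℚ → ℕ × ℝ → LInc} {fl : ℕ → ℕ × ℝ → LInc} {sc : Fin 12 → ℕ → ℝ}

/-- **the slots `E` (and `D`) of the flags from the closeness to the marks of level `1`.** -/
theorem he_of (h : TSys PL G g s θ β B I lev A f b vm w fr (fun k n v => prN lev w k n v) fl sc)
    (hz : ∀ n x, (fl n x).z = x.2)
    (hs1 : ∀ᶠ n in (U : Filter ℕ), sN lev w 1 n ≤ sN lev w 0 n)
    (hfr : ∀ᶠ n in (U : Filter ℕ), ∀ x ∈ I n, |(fr n 1 x).et| * sN lev w 0 n ≤ 1 ∧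
      |(fr n 1 x).d| * (sN lev w 0 n * rho (lev n 1)) ≤ 1 ∧ |(fr n 1 x).z - x.2| ≤ rho (lev n 1))
    {ε : ℝ} (hε : 0 < ε) :
    ∀ᶠ n in (U : Filter ℕ), ∀ x ∈ I n, |(fl n x).et| * sN lev w 0 n ≤ B.d n ^ (-ε) := by
  have hε2 : 0 < ε / 2 := half_pos hε
  filter_upwards [h.close 1 1 zero_le_one le_rfl _ hε2, h.close 2 1 zero_le_one le_rfl _ hε2, hs1,
    hfr, ev_const B (c := 6) (by norm_num) hε2, h.mka.wpos 0 1 zero_le_one le_rfl,
    h.mka.wpos 1 1 zero_le_one le_rfl] with n c1 c2 s10 hf h6 p0 p1 x hx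
  obtain ⟨f1, f2, f3⟩ := hf x hx
  have g1 := c1 x hx
  have g2 := c2 x hx
  rw [PL_d] at g1 g2
  have e1 : coL (fl n x) (fr n 1 x) 1 = (fr n 1 x).d - (fl n x).d := rfl
  have e2 : coL (fl n x) (fr n 1 x) 2 =
      (fr n 1 x).et - (fl n x).et + 2 * (fl n x).d * ((fr n 1 x).z - (fl n x).z) := rfl
  rw [e1] at g1
  rw [e2, hz] at g2
  have r1 := rho_pos3 (lev n 1)
  have hs0 := sN_pos lev w 0 n
  have hs1' := sN_pos lev w 1 n
  have dp := fun a => dpow_pos B n a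
  have q1 : prN lev w 1 n 1 = sN lev w 1 n / (sN lev w 0 n ^ 2 * rho (lev n 1)) := by
    unfold sN
    rw [ps_eq (div_pos p0 r1), ps_eq (div_pos p1 r1)]
    rfl
  have q2 : prN lev w 2 n 1 = sN lev w 1 n / sN lev w 0 n ^ 2 := by
    unfold sN
    rw [ps_eq (div_pos p0 r1), ps_eq (div_pos p1 r1)]
    rfl
  rw [q1] at g1
  rw [q2] at g2
  set σ := sN lev w 0 n with hσ
  set σ1 := sN lev w 1 n with hσ1
  set ρ := rho (lev n 1) with hρ
  set P := B.d n ^ (-(ε / 2)) with hP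
  have hP1 : 1 ≤ P := Real.one_le_rpow_of_pos_of_le_one_of_nonpos (B.pos n) (B.lt n).le (by linarith)
  have hq : σ1 / σ ≤ 1 := by rw [div_le_one hs0]; exact s10
  have hPp : 0 < P := dp _
  -- `|d| σ ρ ≤ 2 P`
  have d1 : |(fl n x).d| * (σ * ρ) ≤ 2 * P := by
    have a1 : |(fl n x).d| ≤ |(fr n 1 x).d| + |(fr n 1 x).d - (fl n x).d| := by
      have := abs_sub_abs_le_abs_sub (fl n x).d (fr n 1 x).d
      rw [abs_sub_comm] at this
      linarith
    have a2 : |(fr n 1 x).d - (fl n x).d| * (σ * ρ) ≤ P := by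
      have := mul_le_mul_of_nonneg_right g1 (mul_pos hs0 r1).le
      refine this.trans ?_
      have e : σ1 / (σ ^ 2 * ρ) * P * (σ * ρ) = (σ1 / σ) * P := by field_simp
      rw [e]
      exact mul_le_of_le_one_left hPp.le hq
    have a3 := mul_le_mul_of_nonneg_right a1 (mul_pos hs0 r1).le
    rw [add_mul] at a3
    linarith
  -- the slot `E`
  have e3 : (fl n x).et = (fr n 1 x).et + 2 * (fl n x).d * ((fr n 1 x).z - x.2) -
      ((fr n 1 x).et - (fl n x).et + 2 * (fl n x).d * ((fr n 1 x).z - x.2)) := by ring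
  have a4 : |(fl n x).et| ≤ |(fr n 1 x).et| + 2 * |(fl n x).d| * ρ + σ1 / σ ^ 2 * P := by
    rw [e3]
    refine (abs_sub _ _).trans ?_
    refine add_le_add ((abs_add_le _ _).trans (add_le_add le_rfl ?_)) ?_
    · rw [abs_mul, abs_mul, abs_two]
      exact mul_le_mul_of_nonneg_left f3 (by positivity)
    · exact g2
  have a5 : σ1 / σ ^ 2 * P * σ ≤ P := by
    have e : σ1 / σ ^ 2 * P * σ = (σ1 / σ) * P := by field_simp
    rw [e]
    exact mul_le_of_le_one_left hPp.le hq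
  have a6 := mul_le_mul_of_nonneg_right a4 hs0.le
  have a7 : |(fl n x).et| * σ ≤ 6 * P := by
    have e : (|(fr n 1 x).et| + 2 * |(fl n x).d| * ρ + σ1 / σ ^ 2 * P) * σ =
      |(fr n 1 x).et| * σ + 2 * (|(fl n x).d| * (σ * ρ)) + σ1 / σ ^ 2 * P * σ := by ring
    rw [e] at a6
    linarith
  refine a7.trans ?_
  have e4 : B.d n ^ (-ε) = B.d n ^ (-(ε / 2)) * B.d n ^ (-(ε / 2)) := by
    rw [← dpow_add]; congr 1; ring
  have e5 : B.d n ^ (ε / 2) * B.d n ^ (-(ε / 2)) = 1 := by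
    rw [← dpow_add, add_neg_cancel, Real.rpow_zero]
  rw [e4, ← hP]
  have h7 : 6 ≤ P := by
    have := mul_le_mul_of_nonneg_right h6 hPp.le
    rw [mul_assoc, hP, e5, mul_one, one_mul] at this
    exact this
  exact mul_le_mul_of_nonneg_right h7 hPp.le

end he

/-! ### flags of the marks of level `1` -/

section fr

variable {r : ℕ → ℝ} {L : ℕ → ℕ → LRay} {B : Base} {I : ℕ → Finset (ℕ × ℝ)}
    {G : Geo TSet (Fin 2)} {lev : ℕ → ℚ → ℕ} {A : ℕ → ℝ} {c Λ : ℝ → ℝ} {τ : Fin 2 → ℝ → ℝ}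
    {f : ℕ → ℚ → ℕ → ℤ → ℕ} {b : ℕ → ℚ → ℕ → TSet} {vm : ℕ → ℚ → ℝ} {w : Fin 2 → ℕ → ℚ → ℝ}

/-- relative widths of the marks of level `1` -/
theorem sN_fact (h : MkA B I G lev A c Λ τ f b vm w) (hG : IsL G L r) :
    ∀ᶠ n in (U : Filter ℕ), sN lev w 1 n ≤ sN lev w 0 n ∧ sN lev w 0 n ≤ 1 := by
  filter_upwards [mark_L h hG zero_le_one le_rfl, h.ne, h.wpos 0 1 zero_le_one le_rfl,
    h.wpos 1 1 zero_le_one le_rfl] with n a1 a2 p0 p1
  obtain ⟨x, hx⟩ := a2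
  obtain ⟨-, b2, b3⟩ := (a1 x hx).le
  have r1 := rho_pos3 (lev n 1)
  unfold sN
  rw [ps_eq (div_pos p0 r1), ps_eq (div_pos p1 r1)]
  exact ⟨div_le_div_of_nonneg_right b2 r1.le, by rw [div_le_one r1]; exact b3⟩

/-- the flag of the mark of level `1` -/
theorem frL_fact (ax : Fin 2) (h : MkA B I G lev A c Λ τ f b vm w) (hG : IsL G L r) :
    ∀ᶠ n in (U : Filter ℕ), ∀ x ∈ I n, |(frL lev f b ax n 1 x).et| * sN lev w 0 n ≤ 1 ∧
      |(frL lev f b ax n 1 x).d| * (sN lev w 0 n * rho (lev n 1)) ≤ 1 ∧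
      |(frL lev f b ax n 1 x).z - x.2| ≤ rho (lev n 1) := by
  filter_upwards [mark_L h hG zero_le_one le_rfl, h.wpos 0 1 zero_le_one le_rfl]
    with n a1 p0 x hx
  have hm := a1 x hx
  have hok := hm.ok
  have r1 := rho_pos3 (lev n 1)
  set m := mkL lev f b n 1 x with hmd
  have es : sN lev w 0 n = m.sg := by
    unfold sN
    rw [ps_eq (div_pos p0 r1), ← hm.wide, ← hm.R]
    have := hok.hR
    field_simp
  have hsg : KF439.Sg (KF439.nsg ax m.phi (KF439.bray m)) := KF439.nsg_sg _ _ _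
  have e1 : (frL lev f b ax n 1 x).et = KF439.nsg ax m.phi (KF439.bray m) * m.phi.ny m.s0 := by
    show (psm ax m).ny m.s0 = _
    unfold psm
    rw [KF439.sm_ny]
  have e2 : (frL lev f b ax n 1 x).d = KF439.nsg ax m.phi (KF439.bray m) * m.phi.d := rfl
  have e3 : (frL lev f b ax n 1 x).z = m.s0 := rfl
  have kM : kM0 ≤ 1 := by unfold kM0; norm_num
  refine ⟨?_, ?_, ?_⟩
  · rw [e1, abs_mul, hsg.abs, one_mul, es]
    exact (KF439.ny_le hok (KF439.self_s0 hok)).trans kM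
  · rw [e2, abs_mul, hsg.abs, one_mul, es, ← hm.R]
    have h1 := KF439.d_le hok
    have h2 : 0 ≤ |m.phi.d| * (m.sg * m.R) := by
      have := KF439.sg_pos hok
      have := hok.hR
      positivity
    nlinarith
  · rw [e3, abs_sub_comm, ← hm.R]
    exact hm.z

end fr

/-! ### one window -/

section win

/-- **one window of the light-ray chart** -/
structure LWin (G : Geo TSet (Fin 2)) (L : ℕ → ℕ → LRay) (r : ℕ → ℝ) (g s : ℝ)
    (θ q : Fin 2 → ℝ) (Rg : ℝ) (B : Base) (I : ℕ → Finset (ℕ × ℝ)) (lev : ℕ → ℚ → ℕ) (A : ℕ → ℝ)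
    (f : ℕ → ℚ → ℕ → ℤ → ℕ) (b : ℕ → ℚ → ℕ → TSet) (vm : ℕ → ℚ → ℝ) (w : Fin 2 → ℕ → ℚ → ℝ)
    (fr : ℕ → ℚ → ℕ × ℝ → LInc) (fl : ℕ → ℕ × ℝ → LInc) (sc : Fin 12 → ℕ → ℝ) : Prop where
  sys : TSys PL G g s θ (βL (θ 0) (θ 1)) B I lev A f b vm w fr (fun k n v => prN lev w k n v) fl sc
  hfr : ∀ n v x y, kc (lev n v) (f n v) y = kc (lev n v) (f n v) x → fr n v y = fr n v x
  isL : IsL G L r
  val : ValL G q
  hz : ∀ n x, (fl n x).z = x.2
  ray : ∀ n x, rayL (fl n x) = L n x.1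
  /-- 222's interface, no wall (`ϑ = 0`) -/
  dat : LData B I G lev fl (sN lev w) q (2 * kD) 1 Rg 0
  s10 : ∀ᶠ n in (U : Filter ℕ), sN lev w 1 n ≤ sN lev w 0 n

/-- relative thinness of the marks of level `1`: `s1 ≤ sg d^k0` -/
def HK (B : Base) (lev : ℕ → ℚ → ℕ) (w : Fin 2 → ℕ → ℚ → ℝ) (k0 : ℝ) : Prop :=
  ∀ ε : ℝ, 0 < ε → ∀ᶠ n in (U : Filter ℕ), sN lev w 1 n ≤ sN lev w 0 n * B.d n ^ (k0 - ε)

variable {G : Geo TSet (Fin 2)} {L : ℕ → ℕ → LRay} {r : ℕ → ℝ} {g s : ℝ} {θ q : Fin 2 → ℝ}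
    {Rg : ℝ} {B : Base} {I : ℕ → Finset (ℕ × ℝ)} {lev : ℕ → ℚ → ℕ} {A : ℕ → ℝ}
    {f : ℕ → ℚ → ℕ → ℤ → ℕ} {b : ℕ → ℚ → ℕ → TSet} {vm : ℕ → ℚ → ℝ} {w : Fin 2 → ℕ → ℚ → ℝ}
    {fr : ℕ → ℚ → ℕ × ℝ → LInc} {fl : ℕ → ℕ × ℝ → LInc} {sc : Fin 12 → ℕ → ℝ}

theorem LWin.hk0 (h : LWin G L r g s θ q Rg B I lev A f b vm w fr fl sc) : HK B lev w 0 := by
  intro ε hε
  filter_upwards [h.s10] with n hn
  have h1 : (1 : ℝ) ≤ B.d n ^ (0 - ε) :=
    Real.one_le_rpow_of_pos_of_le_one_of_nonpos (B.pos n) (B.lt n).le (by linarith)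
  have h2 := mul_le_mul_of_nonneg_left h1 (sN_pos lev w 0 n).le
  linarith

theorem hk_thin {c Λ : ℝ → ℝ} {τ : Fin 2 → ℝ → ℝ} (h : MkA B I G lev A c Λ τ f b vm w)
    (ht : Thin B w) (k0 : ℝ) : HK B lev w k0 := by
  intro ε hε
  filter_upwards [ht (k0 - ε) 1 zero_le_one le_rfl, h.wpos 0 1 zero_le_one le_rfl,
    h.wpos 1 1 zero_le_one le_rfl] with n a1 p0 p1
  have r1 := rho_pos3 (lev n 1)
  unfold sN
  rw [ps_eq (div_pos p0 r1), ps_eq (div_pos p1 r1), div_le_iff₀ r1]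
  have e : w 0 n 1 / rho (lev n 1) * B.d n ^ (k0 - ε) * rho (lev n 1) =
    B.d n ^ (k0 - ε) * w 0 n 1 := by field_simp
  rw [e]
  exact a1

/-- the values of the test sets -/
theorem val_of (hG : IsL G L r) (hv : ValL G q) (n i : ℕ) (J : ℤ) (t : TSet) :
    G.val n i J t = valW q (rho i) fun k => G.wid k t := by
  have e : G.val n i J t = Gd222.valL q i t.1 := by
    rw [hv, Gd222.valL_eq]
    rfl
  rw [e]
  unfold Gd222.valL valW
  simp only [hG.wid]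

/-- the points of the D-max hypothesis -/
theorem PDL_ne {θa θb w0 sa sb δ R Rg k0 : ℝ} (sh : Shift θa θb w0 sa sb δ R) (hRg : 0 < Rg)
    (hk0 : 0 ≤ k0) : (PDL w0 sa sb Rg 0 k0 R).Nonempty := by
  obtain ⟨t, ht0, ht1, ht2⟩ : ∃ t : ℝ, 0 < t ∧ t < Rg ∧ t ≤ 1 :=
    ⟨min 1 Rg / 2, by positivity, by
      have := min_le_right 1 Rg
      have : 0 < min 1 Rg := lt_min one_pos hRg
      linarith, by
      have := min_le_left 1 Rg
      linarith⟩
  have hz := sh.z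
  have hc := sh.c1
  have hD := sh.D1
  have hR := sh.R1
  have hδ := sh.d0
  refine ⟨eL (w0 + (1 - t)) (sa + t) (sb + t), ⟨eL_legal (by linarith) (by linarith)
    (by linarith), fun k => eL_le (by linarith) (by linarith) (by linarith) (by linarith) k⟩,
    ?_⟩
  have e0 : eL (w0 + (1 - t)) (sa + t) (sb + t) 0 = w0 + (1 - t) := rfl
  have e3 : eL (w0 + (1 - t)) (sa + t) (sb + t) 3 = sa + t := rfl
  have e4 : eL (w0 + (1 - t)) (sa + t) (sb + t) 4 = sa + t := rfl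
  have e5 : eL (w0 + (1 - t)) (sa + t) (sb + t) 5 = w0 + (1 - t) + (sa + t) := rfl
  have e6 : eL (w0 + (1 - t)) (sa + t) (sb + t) 6 = w0 + (1 - t) + (sa + t) := rfl
  have e9 : eL (w0 + (1 - t)) (sa + t) (sb + t) 9 = w0 + (1 - t) + 2 * (sa + t) := rfl
  have e10 : eL (w0 + (1 - t)) (sa + t) (sb + t) 10 = sb + t := rfl
  have e11 : eL (w0 + (1 - t)) (sa + t) (sb + t) 11 = w0 + (1 - t) + (sb + t) := rfl
  rw [e0, e3, e4, e5, e6, e9, e10, e11]
  refine ⟨by linarith, by linarith, by linarith, by linarith, by linarith, ?_, by linarith,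
    le_rfl, le_rfl, le_rfl, le_rfl, le_rfl⟩
  rw [abs_of_pos (by linarith)]
  linarith

/-- the exponent of the number of incidences is the D-max exponent on the record path -/
theorem EL_eq (g s : ℝ) (q θ : Fin 2 → ℝ) (w0 sa sb v : ℝ) :
    EL θ g s q v = DT g s q θ w0 sa sb (rL (θ 0) (θ 1) w0 sa sb v) := by
  rw [DT_rL]
  rfl

/-- **the input of L15 for one window of the light-ray chart.** -/
theorem LWin.preQ (h : LWin G L r g s θ q Rg B I lev A f b vm w fr fl sc) (hRg : 0 < Rg)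
    {k0 : ℝ} (hk0 : 0 ≤ k0) (hk : HK B lev w k0) {w0 sa sb δ R : ℝ}
    (sh : Shift (θ 0) (θ 1) w0 sa sb δ R) {Vis Td : Fin 12 → Prop}
    (hinv : ∀ k, ¬ Vis k → InvT PL B I k fl (sc k))
    (htd : ∀ k, Td k → Vis k ∧ 0 < βL (θ 0) (θ 1) k ∧ ∃ C0 : ℝ, βL (θ 0) (θ 1) k ≤ C0 ∧
      RotT PL B I lev k fl (sc k) C0 (fun u => βL (θ 0) (θ 1) k * u)) :
    PreQ B I G lev A g s (fun j v => θ j * (1 - v)) f b vm w
      (Crest.Agent.R116.PL504.coN B lev w w0 sa sb fl) monL 2 R 0 w0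
      (fun n => A n * vm n 0 * B.d n ^ (-(1 - s))) (PDL w0 sa sb Rg 0 k0 R)
      (DT g s q θ w0 sa sb) (rL (θ 0) (θ 1) w0 sa sb) (oL (θ 0) (θ 1) w0 sa sb R Vis)
      (EL θ g s q) Td := by
  refine preL_of (fun k n a b => PL_d k n a b) sh h.sys (fun _ _ _ => rfl) (fun n x => h.hz n x)
    h.hfr hinv htd (N0_L h.sys.mka) (PDL_ne sh hRg hk0) (fun p hp => hp.1) ?_ ?_ ?_
  · exact gD_T h.sys.mka h.dat h.isL.wid hk w0 sa sb R
  · refine ⟨|(g - (1 - s)) - (3 - (3 + q 0) * θ 0 - (1 + q 1) * θ 1)|, fun u v _ huv _ => ?_⟩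
    have e : EL θ g s q v - EL θ g s q u =
        ((g - (1 - s)) - (3 - (3 + q 0) * θ 0 - (1 + q 1) * θ 1)) * (v - u) := by
      unfold EL; ring
    rw [e, abs_mul, abs_of_nonneg (by linarith : 0 ≤ v - u)]
  · intro u h0 h1
    exact gH_L h.sys.mka (fun n i J t _ => val_of h.isL h.val n i J t) u h0 h1

end win

end Crest.Agent.R116.Tw468
end

-- ▼ part R116/Bd2_369

/-!
# R116, [B-DIM] of K-TEXT II-c (helper369), part 2: `FlagN` for 439's flags, in every window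

* `gr_sq_sharp` : `||grad|² - 1| sg ≤ 4 M s1` on the rays of a member.
* **`flagN_of`** : `TSys` over the flags `frL` of the marks gives `FlagN B I fl (sN lev w)`.
-/

set_option autoImplicit false
set_option linter.unusedVariables false

open Finset Filter Topology

namespace Crest.Agent.R116.Bd369

open Crest.Agent.R138.Ex926 (Base U)
open Crest.Agent.R138.Mk163 (zc zl rho alive own)
open Crest.Agent.R138.MkRef627 (lc kc mem_alive)
open Crest.Agent.R138.Dp76 (dpow_pos dpow_add dpow_le)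
open Crest.Agent.R136.MkA627
open Crest.Agent.R136.Net191
open Crest.Agent.R136.TD627
open Crest.Agent.R136.PqG464 (ev_const)
open Crest.Agent.R138.Defs (E2)
open Crest.Agent.R116.LZg725
open Crest.Agent.R116.Bm903
open Crest.Agent.R116.ChL222
open Crest.Agent.R116.PL504 (ps ps_pos ps_eq prN βL eL uL)
open Crest.Agent.R116.Gd222 (TSet AdmR LData sN sN_pos vb rayL)
open Crest.Agent.R116.KI439
open Crest.Agent.R116.KF439 (IsL ValL Thin Thick PL PL_d frL frL_kc flM psm mark_L MkFact mkL)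
open Crest.Agent.R116.Xd954
open Crest.Agent.R116.Tw468

/-- the gradient has length `1` up to `4 M s1 / sg` on the rays. -/
theorem gr_sq_sharp {M : ℝ} {m : Mem} {r : LRay} (h : m.Ok M 0) (hr : r ∈ m.rays 0) :
    |‖grr m.phi r‖ ^ 2 - 1| * m.sg ≤ 4 * M * m.s1 := by
  have h0 := KF439.self_s0 h
  have hs := KF439.sg_pos h
  have hR := h.hR
  have e := Cf.norm_gr_sq m.phi r.1 (rx r.1 r.2.1 m.s0) (ry r.1 r.2.2 m.s0) m.s0
  rw [grr_eq, slr_eq, h.adm.disc] at e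
  have e2 : ‖grr m.phi r‖ ^ 2 - 1 = 2 * m.phi.ny m.s0 * slr m.phi r +
      4 * m.phi.d * evr m.phi r m.s0 := by
    rw [e]; unfold evr; ring
  rw [e2]
  have h1 := KF439.ny_le h h0
  have h2 := KF439.d_le h
  have h3 := ray_slr h.hR hr
  have h4 := ray_val hr h0
  have hM := KF439.M_nonneg h
  have a1 : |2 * m.phi.ny m.s0 * slr m.phi r| * m.sg ≤ 2 * M * m.s1 := by
    rw [abs_mul, abs_mul, abs_two]
    have : (|m.phi.ny m.s0| * m.sg) * |slr m.phi r| ≤ M * m.s1 :=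
      mul_le_mul h1 h3 (abs_nonneg _) hM
    linarith
  have a2 : |4 * m.phi.d * evr m.phi r m.s0| * m.sg ≤ 2 * M * m.s1 := by
    rw [abs_mul, abs_mul, abs_of_pos (by norm_num : (0:ℝ) < 4)]
    have : (4 * |m.phi.d| * m.sg) * |evr m.phi r m.s0| ≤ (4 * |m.phi.d| * m.sg) * (m.s1 * m.R) :=
      mul_le_mul_of_nonneg_left h4 (by positivity)
    have h5 : (2 * |m.phi.d| * (m.sg * m.R)) * (2 * m.s1) ≤ M * (2 * m.s1) :=
      mul_le_mul_of_nonneg_right h2 (by have := h.hs1; positivity)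
    linarith
  calc |2 * m.phi.ny m.s0 * slr m.phi r + 4 * m.phi.d * evr m.phi r m.s0| * m.sg
      ≤ (|2 * m.phi.ny m.s0 * slr m.phi r| + |4 * m.phi.d * evr m.phi r m.s0|) * m.sg :=
        mul_le_mul_of_nonneg_right (abs_add_le _ _) hs.le
    _ ≤ 4 * M * m.s1 := by rw [add_mul]; linarith

theorem vb_toL (r : LRay) (z : ℝ) (p : Cf E2) : vb (toL r z p) = grr p r := by
  ext i
  fin_cases i <;> rfl

theorem vb_flM_sq (ax : Fin 2) (m : Mem) :
    ‖vb (flM ax m)‖ ^ 2 = ‖grr m.phi (KF439.bray m)‖ ^ 2 := by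
  have hσ : KF439.Sg (KF439.nsg ax m.phi (KF439.bray m)) := KF439.nsg_sg _ _ _
  unfold flM psm
  rw [vb_toL, KF439.sm_grr, norm_smul, Real.norm_eq_abs, hσ.abs, one_mul]

/-- the Klein form, from the side of the second flag -/
theorem bb_sq_eq (i j : LInc) :
    bb i 0 ^ 2 + bb i 1 ^ 2 - 1 = (bb j 0 ^ 2 + bb j 1 ^ 2 - 1) -
      2 * (bb j 0 * coL i j 7 + bb j 1 * coL i j 8) +
      (coL i j 7 ^ 2 + coL i j 8 ^ 2) - 2 * (i.et * coL i j 10) - 4 * (i.d * coL i j 11) := by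
  have key := bb_sq_sub i j
  have b0 := coL_B i j 0
  have b1 := coL_B i j 1
  have c0 : cs 0 = 3 := rfl
  have c1 : cs 1 = 4 := rfl
  have x0 : xs 0 = 5 := rfl
  have x1 : xs 1 = 6 := rfl
  have s0 : bs 0 = 7 := rfl
  have s1 : bs 1 = 8 := rfl
  rw [c0, x0, s0] at b0
  rw [c1, x1, s1] at b1
  have e0 : bb i 0 + i.et * coL i j 3 + 2 * i.d * coL i j 5 = bb j 0 - coL i j 7 := by linarith
  have e1 : bb i 1 + i.et * coL i j 4 + 2 * i.d * coL i j 6 = bb j 1 - coL i j 8 := by linarith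
  rw [e0, e1] at key
  linarith

theorem two_of {u v : ℝ} (h : u ^ 2 + v ^ 2 ≤ 4) : |u| ≤ 2 := by
  rw [abs_le]; constructor <;> nlinarith [sq_nonneg v]

/-- the slot `D` -/
theorem d_real {σ σ1 ρ P dj d : ℝ} (hσ : 0 < σ) (hρ : 0 < ρ) (hP1 : 1 ≤ P)
    (hq : σ1 ≤ σ) (f2 : |dj| * (σ * ρ) ≤ 1) (g1 : |dj - d| ≤ σ1 / (σ ^ 2 * ρ) * P) :
    |d| * (σ * ρ) ≤ 2 * P := by
  have hPp : 0 < P := by linarith
  have hq' : σ1 / σ ≤ 1 := by rw [div_le_one hσ]; exact hq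
  have a1 : |d| ≤ |dj| + |dj - d| := by
    have := abs_sub_abs_le_abs_sub d dj
    rw [abs_sub_comm] at this
    linarith
  have a2 : |dj - d| * (σ * ρ) ≤ P := by
    refine (mul_le_mul_of_nonneg_right g1 (mul_pos hσ hρ).le).trans ?_
    have e : σ1 / (σ ^ 2 * ρ) * P * (σ * ρ) = (σ1 / σ) * P := by field_simp
    rw [e]
    exact (mul_le_mul_of_nonneg_right hq' hPp.le).trans (one_mul P).le
  have a3 := mul_le_mul_of_nonneg_right a1 (mul_pos hσ hρ).le
  rw [add_mul] at a3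
  linarith

/-- the sum of the error terms -/
theorem core_real {σ σ1 ρ P N b0 b1 c7 c8 c10 c11 et d : ℝ} (hσ : 0 < σ) (hσ1 : 0 < σ1)
    (hρ : 0 < ρ) (hP : 30 ≤ P) (hq : σ1 ≤ σ) (hN : |N| * σ ≤ σ1) (hb0 : |b0| ≤ 2)
    (hb1 : |b1| ≤ 2) (g7 : |c7| ≤ σ1 / σ * P) (g8 : |c8| ≤ σ1 / σ * P) (g10 : |c10| ≤ σ1 * P)
    (g11 : |c11| ≤ ρ * σ1 * P) (he : |et| * σ ≤ P) (hd : |d| * (σ * ρ) ≤ 2 * P) :
    |N - 2 * (b0 * c7 + b1 * c8) + (c7 ^ 2 + c8 ^ 2) - 2 * (et * c10) - 4 * (d * c11)| * σ ≤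
      σ1 * (P * P * P * P) := by
  have hPp : 0 < P := by linarith
  have hq' : σ1 / σ ≤ 1 := by rw [div_le_one hσ]; exact hq
  have lin : ∀ {u c : ℝ}, |u| ≤ 2 → |c| ≤ σ1 / σ * P → |u * c| * σ ≤ 2 * (σ1 * P) := by
    intro u c hu hc
    rw [abs_mul]
    have h1 : |u| * |c| ≤ 2 * (σ1 / σ * P) := mul_le_mul hu hc (abs_nonneg _) (by norm_num)
    refine (mul_le_mul_of_nonneg_right h1 hσ.le).trans (le_of_eq ?_)
    field_simp
  have sq' : ∀ {c : ℝ}, |c| ≤ σ1 / σ * P → c ^ 2 * σ ≤ σ1 * (P * P) := by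
    intro c hc
    have h1 : c ^ 2 ≤ (σ1 / σ * P) * (σ1 / σ * P) := by
      rw [← sq_abs, sq]
      exact mul_le_mul hc hc (abs_nonneg _) ((abs_nonneg _).trans hc)
    refine (mul_le_mul_of_nonneg_right h1 hσ.le).trans ?_
    have e : (σ1 / σ * P) * (σ1 / σ * P) * σ = (σ1 / σ) * (σ1 * (P * P)) := by
      field_simp
    rw [e]
    exact (mul_le_mul_of_nonneg_right hq' (by positivity)).trans (one_mul _).le
  have u7 := lin hb0 g7
  have u8 := lin hb1 g8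
  have v7 := sq' g7
  have v8 := sq' g8
  have v10 : |et * c10| * σ ≤ σ1 * (P * P) := by
    rw [abs_mul]
    calc |et| * |c10| * σ = (|et| * σ) * |c10| := by ring
      _ ≤ P * (σ1 * P) := mul_le_mul he g10 (abs_nonneg _) hPp.le
      _ = σ1 * (P * P) := by ring
  have v11 : |d * c11| * σ ≤ 2 * (σ1 * (P * P)) := by
    rw [abs_mul]
    have h1 : |d| * |c11| ≤ |d| * (ρ * σ1 * P) := mul_le_mul_of_nonneg_left g11 (abs_nonneg _)
    calc |d| * |c11| * σ ≤ |d| * (ρ * σ1 * P) * σ := mul_le_mul_of_nonneg_right h1 hσ.le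
      _ = (|d| * (σ * ρ)) * (σ1 * P) := by ring
      _ ≤ (2 * P) * (σ1 * P) := mul_le_mul_of_nonneg_right hd (by positivity)
      _ = 2 * (σ1 * (P * P)) := by ring
  have tri : |N - 2 * (b0 * c7 + b1 * c8) + (c7 ^ 2 + c8 ^ 2) - 2 * (et * c10) -
      4 * (d * c11)| ≤ |N| + 2 * (|b0 * c7| + |b1 * c8|) + (c7 ^ 2 + c8 ^ 2) +
        2 * |et * c10| + 4 * |d * c11| := by
    have w0 := abs_le.1 (le_refl |N|)
    have w1 := abs_le.1 (le_refl |b0 * c7|)
    have w2 := abs_le.1 (le_refl |b1 * c8|)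
    have w3 := abs_le.1 (le_refl |et * c10|)
    have w4 := abs_le.1 (le_refl |d * c11|)
    have w5 := sq_nonneg c7
    have w6 := sq_nonneg c8
    rw [abs_le]
    constructor <;> linarith [w0.1, w0.2, w1.1, w1.2, w2.1, w2.2, w3.1, w3.2, w4.1, w4.2]
  refine (mul_le_mul_of_nonneg_right tri hσ.le).trans ?_
  have ex : (|N| + 2 * (|b0 * c7| + |b1 * c8|) + (c7 ^ 2 + c8 ^ 2) + 2 * |et * c10| +
      4 * |d * c11|) * σ = |N| * σ + 2 * (|b0 * c7| * σ + |b1 * c8| * σ) +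
      (c7 ^ 2 * σ + c8 ^ 2 * σ) + 2 * (|et * c10| * σ) + 4 * (|d * c11| * σ) := by ring
  rw [ex]
  have hPP : P ≤ P * P := by nlinarith
  have hPP1 : 1 ≤ P * P := by nlinarith
  have z1 : σ1 * 1 ≤ σ1 * (P * P) := mul_le_mul_of_nonneg_left hPP1 hσ1.le
  have z2 : σ1 * P ≤ σ1 * (P * P) := mul_le_mul_of_nonneg_left hPP hσ1.le
  have z3 : σ1 * (30 * (P * P)) ≤ σ1 * (P * P * P * P) := by
    refine mul_le_mul_of_nonneg_left ?_ hσ1.le
    have h1 : 30 ≤ P * P := by nlinarith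
    calc 30 * (P * P) ≤ (P * P) * (P * P) := mul_le_mul_of_nonneg_right h1 (by positivity)
      _ = P * P * P * P := by ring
  have z0 : 0 < σ1 * (P * P) := by positivity
  linarith

section flags

variable {r : ℕ → ℝ} {B : Base} {I : ℕ → Finset (ℕ × ℝ)} {G : Geo TSet (Fin 2)}
    {L : ℕ → ℕ → LRay} {lev : ℕ → ℚ → ℕ}
    {A : ℕ → ℝ} {g s : ℝ} {θ : Fin 2 → ℝ} {β : Fin 12 → ℝ} {f : ℕ → ℚ → ℕ → ℤ → ℕ}
    {b : ℕ → ℚ → ℕ → TSet} {vm : ℕ → ℚ → ℝ} {w : Fin 2 → ℕ → ℚ → ℝ}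
    {fl : ℕ → ℕ × ℝ → LInc} {sc : Fin 12 → ℕ → ℝ}

/-- **the gradients of the flags have length `1` up to `d^(-ε) σ₁ / σ₀`** -/
theorem flagN_of (a : Fin 2)
    (h : TSys PL G g s θ β B I lev A f b vm w (frL lev f b a) (fun k n v => prN lev w k n v) fl sc)
    (hG : IsL G L r) (hz : ∀ n x, (fl n x).z = x.2) : FlagN B I fl (sN lev w) := by
  have hsf := sN_fact h.mka hG
  intro ε hε
  have hε4 : 0 < ε / 4 := by positivity
  filter_upwards [h.close 1 1 zero_le_one le_rfl _ hε4, h.close 7 1 zero_le_one le_rfl _ hε4,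
    h.close 8 1 zero_le_one le_rfl _ hε4, h.close 10 1 zero_le_one le_rfl _ hε4,
    h.close 11 1 zero_le_one le_rfl _ hε4, hsf, frL_fact a h.mka hG,
    he_of h hz (hsf.mono fun n hn => hn.1) (frL_fact a h.mka hG) hε4,
    ev_const B (c := 30) (by norm_num) hε4, h.mka.wpos 0 1 zero_le_one le_rfl,
    h.mka.wpos 1 1 zero_le_one le_rfl, mark_L h.mka hG zero_le_one le_rfl]
    with n c1 c7 c8 c10 c11 hs hf he h30 p0 p1 hmk x hx
  have g1 := c1 x hx
  have g7 := c7 x hx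
  have g8 := c8 x hx
  have g10 := c10 x hx
  have g11 := c11 x hx
  rw [PL_d] at g1 g7 g8 g10 g11
  obtain ⟨f1, f2, f3⟩ := hf x hx
  have hex := he x hx
  obtain ⟨s10, s01⟩ := hs
  have r1 := rho_pos3 (lev n 1)
  have hs0 := sN_pos lev w 0 n
  have hs1' := sN_pos lev w 1 n
  have dp := fun a => dpow_pos B n a
  have q1 : prN lev w 1 n 1 = sN lev w 1 n / (sN lev w 0 n ^ 2 * rho (lev n 1)) := by
    unfold sN
    rw [ps_eq (div_pos p0 r1), ps_eq (div_pos p1 r1)]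
    rfl
  have q7 : prN lev w 7 n 1 = sN lev w 1 n / sN lev w 0 n := by
    unfold sN
    rw [ps_eq (div_pos p0 r1), ps_eq (div_pos p1 r1)]
    rfl
  have q8 : prN lev w 8 n 1 = sN lev w 1 n / sN lev w 0 n := q7
  have q10 : prN lev w 10 n 1 = sN lev w 1 n := by
    unfold sN
    rw [ps_eq (div_pos p1 r1)]
    rfl
  have q11 : prN lev w 11 n 1 = rho (lev n 1) * sN lev w 1 n := by
    unfold sN
    rw [ps_eq (div_pos p1 r1)]
    rfl
  rw [q1] at g1
  rw [q7] at g7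
  rw [q8] at g8
  rw [q10] at g10
  rw [q11] at g11
  -- the mark
  have hm := hmk x hx
  have hok := hm.ok
  set m := mkL lev f b n 1 x with hmd
  have es : sN lev w 0 n = m.sg := by
    unfold sN
    rw [ps_eq (div_pos p0 r1), ← hm.wide, ← hm.R]
    have := hok.hR
    field_simp
  have es1 : sN lev w 1 n = m.s1 := by
    unfold sN
    rw [ps_eq (div_pos p1 r1), ← hm.thin, ← hm.R]
    have := hok.hR
    field_simp
  have ej : bb (frL lev f b a n 1 x) 0 ^ 2 + bb (frL lev f b a n 1 x) 1 ^ 2 =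
      ‖grr m.phi (KF439.bray m)‖ ^ 2 := by
    rw [bb_sq]
    exact vb_flM_sq a m
  have hbr : KF439.bray m ∈ m.rays 0 := KF439.bray_mem hm.ray
  have t0 : |bb (frL lev f b a n 1 x) 0 ^ 2 + bb (frL lev f b a n 1 x) 1 ^ 2 - 1| * sN lev w 0 n ≤
      sN lev w 1 n := by
    rw [ej, es, es1]
    have := gr_sq_sharp hok hbr
    have hM : kM0 = 1 / 100 := rfl
    rw [hM] at this
    have := hok.hs1
    linarith
  have hbb : bb (frL lev f b a n 1 x) 0 ^ 2 + bb (frL lev f b a n 1 x) 1 ^ 2 ≤ 4 := by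
    rw [ej]
    have := (abs_le.1 (KF439.gr_sq hok hbr)).2
    have hM : kM0 = 1 / 100 := rfl
    rw [hM] at this
    linarith
  have hb0 : |bb (frL lev f b a n 1 x) 0| ≤ 2 := two_of hbb
  have hb1 : |bb (frL lev f b a n 1 x) 1| ≤ 2 := two_of (by rw [add_comm]; exact hbb)
  have hP30 : 30 ≤ B.d n ^ (-(ε / 4)) := by
    rw [Real.rpow_neg (B.pos n).le, le_inv_comm₀ (by norm_num) (dp _)]
    linarith
  have hPε : B.d n ^ (-ε) = B.d n ^ (-(ε / 4)) * B.d n ^ (-(ε / 4)) * B.d n ^ (-(ε / 4)) *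
      B.d n ^ (-(ε / 4)) := by
    rw [← dpow_add, ← dpow_add, ← dpow_add]; congr 1; ring
  have e1 : coL (fl n x) (frL lev f b a n 1 x) 1 = (frL lev f b a n 1 x).d - (fl n x).d := rfl
  rw [e1] at g1
  have d1 := d_real hs0 r1 (by linarith) s10 f2 g1
  rw [bb_sq_eq (fl n x) (frL lev f b a n 1 x), hPε]
  exact core_real hs0 hs1' r1 hP30 s10 t0 hb0 hb1 g7 g8 g10 g11 hex d1


end flags

end Crest.Agent.R116.Bd369
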