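import Crest.Agent.R116.LZg4_725
import Crest.Agent.R116.ChL1_222

-- ▼ part R116/Bm1_903
section

/-!
# R116, K side: boxes of the light-ray chart and members of the class `SS` (helper903), part 1

`toL r z φ : LInc` = incidence of the ray `r = (C', a, k)` (725's sign, velocity `-C'`) and the
height `z`, with the flag of the conformal function `φ` read in the frame of the ray.
`evr φ r s` value of `φ` on the ray at time `s`, `slr φ r` its slope, `grr φ r` the lateral gradient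
in the frame of the ray (constant along the ray).
`co_*` : the twelve relative coordinates of `coL (toL r z φ) (toL r' z' φ')` in these terms:
`D, E, B` = coefficients of `φ' - φ` in the frame of `r'` at the height `z'`,
`P, F` = slope / value of `φ` on `r'` minus those on `r`, at the height `z`.
`mv` : change of height.  `box_mem` : chart box => ray of a member.
-/

set_option autoImplicit false

namespace Crest.Agent.R116.Bm903

open Crest.Agent.R138.Defs (E2)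
open Crest.Agent.R116.CDef480 (E3 lat pt normsq2 inner2)
open Crest.Agent.R116.LZg725
open Crest.Agent.R116.ChL222

/-- the value of a conformal function on a ray. -/
noncomputable def evr (p : Cf E2) (r : E2 × E2 × ℝ) (s : ℝ) : ℝ :=
  p.ev (rx r.1 r.2.1 s) (ry r.1 r.2.2 s) s

/-- the slope of a conformal function along a ray. -/
noncomputable def slr (p : Cf E2) (r : E2 × E2 × ℝ) : ℝ := p.rB r.1 r.2.1 r.2.2

/-- the lateral gradient in the frame of a ray. -/
noncomputable def grr (p : Cf E2) (r : E2 × E2 × ℝ) : E2 := p.gr r.1 r.2.1 0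

/-- the null normal of slope `r.1` along the ray `r'`. -/
noncomputable def nur (r r' : E2 × E2 × ℝ) (s : ℝ) : ℝ :=
  nrm r.1 (rx r'.1 r'.2.1 s) (ry r'.1 r'.2.2 s) s - nrm r.1 (rx r.1 r.2.1 s) (ry r.1 r.2.2 s) s


/-- affine along the rays. -/
theorem evr_move (p : Cf E2) (r : E2 × E2 × ℝ) (s t : ℝ) :
    evr p r t = evr p r s + (t - s) * slr p r := by
  unfold evr slr
  rw [Cf.ev_ray, Cf.ev_ray]
  ring

theorem grr_eq (p : Cf E2) (r : E2 × E2 × ℝ) (s : ℝ) :
    p.gr r.1 (rx r.1 r.2.1 s) s = grr p r := by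
  unfold grr Cf.gr Cf.ny rx
  module

theorem slr_eq (p : Cf E2) (r : E2 × E2 × ℝ) (s : ℝ) :
    p.ld r.1 (rx r.1 r.2.1 s) (ry r.1 r.2.2 s) s = slr p r := Cf.ld_ray p _ _ _ _

/-- `N` moves linearly, with speed `|ΔC|²/2`. -/
theorem nur_move (r r' : E2 × E2 × ℝ) (s t : ℝ) :
    nur r r' t = nur r r' s + (t - s) * (‖r'.1 - r.1‖ ^ 2 / 2) := by
  unfold nur
  rw [nrm_ray', nrm_ray', nrm_ray', nrm_ray']
  simp only [sub_self, norm_zero]
  ring

theorem rx_move (r r' : E2 × E2 × ℝ) (s t : ℝ) :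
    rx r'.1 r'.2.1 t - rx r.1 r.2.1 t =
      (rx r'.1 r'.2.1 s - rx r.1 r.2.1 s) - (t - s) • (r'.1 - r.1) := by
  unfold rx
  module

/-! ### frame formulas -/

/-- value on another ray, from the frame of the first. -/
theorem evr_frame (p : Cf E2) (r r' : E2 × E2 × ℝ) (s : ℝ) :
    evr p r' s = evr p r s + inner ℝ (grr p r) (rx r'.1 r'.2.1 s - rx r.1 r.2.1 s) +
      p.ny s * nur r r' s + p.d * ‖rx r'.1 r'.2.1 s - rx r.1 r.2.1 s‖ ^ 2 := by
  have h := Cf.ev_expand p r.1 (rx r.1 r.2.1 s) (ry r.1 r.2.2 s) s (rx r'.1 r'.2.1 s)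
    (ry r'.1 r'.2.2 s) s
  rw [grr_eq] at h
  unfold evr nur
  rw [h]
  simp only [sub_self, zero_smul, add_zero, mul_zero, zero_mul, sub_zero]

/-- gradient on another ray, from the frame of the first. -/
theorem grr_frame (p : Cf E2) (r r' : E2 × E2 × ℝ) (s : ℝ) :
    grr p r' = grr p r - (p.ny s) • (r'.1 - r.1) +
      (2 * p.d) • (rx r'.1 r'.2.1 s - rx r.1 r.2.1 s) := by
  rw [← grr_eq p r s, ← grr_eq p r' s]
  unfold Cf.gr
  module

/-- slope on another ray, from the frame of the first. -/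
theorem slr_frame (p : Cf E2) (r r' : E2 × E2 × ℝ) (s : ℝ) :
    slr p r' = slr p r - inner ℝ (grr p r) (r'.1 - r.1) + p.ny s * (‖r'.1 - r.1‖ ^ 2 / 2) -
      2 * p.d * (inner ℝ (rx r'.1 r'.2.1 s - rx r.1 r.2.1 s) (r'.1 - r.1) + nur r r' s) := by
  have e1 := evr_frame p r r' (s + 1)
  have e0 := evr_frame p r r' s
  rw [evr_move p r s (s + 1), evr_move p r' s (s + 1), rx_move r r' s (s + 1),
    nur_move r r' s (s + 1)] at e1
  have e2 : p.ny (s + 1) = p.ny s - 2 * p.d := by unfold Cf.ny; ring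
  rw [e2, add_sub_cancel_left] at e1
  generalize rx r'.1 r'.2.1 s - rx r.1 r.2.1 s = w at *
  generalize r'.1 - r.1 = v at *
  rw [one_smul, norm_sub_sq_real, inner_sub_right] at e1
  linarith



theorem evr_add (p q : Cf E2) (r : E2 × E2 × ℝ) (s : ℝ) :
    evr (Cf.add p q) r s = evr p r s + evr q r s := Cf.ev_add p q _ _ _

theorem slr_add (p q : Cf E2) (r : E2 × E2 × ℝ) : slr (Cf.add p q) r = slr p r + slr q r := by
  have h1 := evr_move (Cf.add p q) r 0 1
  have h2 := evr_move p r 0 1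
  have h3 := evr_move q r 0 1
  rw [evr_add, evr_add] at h1
  linarith

/-- difference of two conformal functions. -/
noncomputable def dif (p q : Cf E2) : Cf E2 :=
  ⟨p.a0 - q.a0, p.a1 - q.a1, p.be - q.be, p.g - q.g, p.d - q.d⟩

theorem add_dif (p q : Cf E2) : Cf.add q (dif p q) = p := by
  unfold Cf.add dif
  ext1 <;> simp

theorem dif_d (p q : Cf E2) : (dif p q).d = p.d - q.d := rfl

theorem dif_ny (p q : Cf E2) (s : ℝ) : (dif p q).ny s = p.ny s - q.ny s := by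
  unfold Cf.ny dif; ring

theorem dif_grr (p q : Cf E2) (r : E2 × E2 × ℝ) : grr (dif p q) r = grr p r - grr q r := by
  unfold grr Cf.gr Cf.ny dif
  module

theorem dif_evr (p q : Cf E2) (r : E2 × E2 × ℝ) (s : ℝ) :
    evr (dif p q) r s = evr p r s - evr q r s := by
  have h := evr_add q (dif p q) r s
  rw [add_dif] at h
  linarith

theorem dif_slr (p q : Cf E2) (r : E2 × E2 × ℝ) : slr (dif p q) r = slr p r - slr q r := by
  have h := slr_add q (dif p q) r
  rw [add_dif] at h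
  linarith

/-! ### the incidence of the chart -/

/-- incidence (ray, height, conformal function). -/
noncomputable def toL (r : E2 × E2 × ℝ) (z : ℝ) (p : Cf E2) : LInc where
  c1 := -(r.1 0)
  c2 := -(r.1 1)
  x1 := r.2.1 0
  x2 := r.2.1 1
  h := r.2.2
  z := z
  b1 := grr p r 0
  b2 := grr p r 1
  et := p.ny z
  d := p.d


section toL

variable (r r' : E2 × E2 × ℝ) (z z' : ℝ) (p p' : Cf E2)

theorem toL_p1 (s : ℝ) : (toL r z p).p1 s = rx r.1 r.2.1 s 0 := by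
  unfold LInc.p1 toL rx
  simp only [PiLp.sub_apply, PiLp.smul_apply, smul_eq_mul]
  ring

theorem toL_p2 (s : ℝ) : (toL r z p).p2 s = rx r.1 r.2.1 s 1 := by
  unfold LInc.p2 toL rx
  simp only [PiLp.sub_apply, PiLp.smul_apply, smul_eq_mul]
  ring

theorem toL_ph (s : ℝ) : (toL r z p).ph s = ry r.1 r.2.2 s := by
  unfold LInc.ph toL ry
  rw [normsq2]
  simp only []
  ring

theorem toL_nu (s : ℝ) : nuL (toL r z p) (toL r' z' p') s = nur r r' s := by
  unfold nuL nur nrm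
  rw [toL_ph, toL_ph, toL_p1, toL_p1, toL_p2, toL_p2, inner2, inner2]
  unfold toL
  simp only []
  ring

theorem co0 : coL (toL r z p) (toL r' z' p') 0 = z' - z := rfl

theorem co1 : coL (toL r z p) (toL r' z' p') 1 = (dif p' p).d := rfl

theorem co2 : coL (toL r z p) (toL r' z' p') 2 = (dif p' p).ny z' := by
  show p'.ny z' - p.ny z + 2 * p.d * (z' - z) = _
  unfold dif Cf.ny
  ring

theorem co3 : coL (toL r z p) (toL r' z' p') 3 = -((r'.1 - r.1) 0) := by
  show -(r'.1 0) - -(r.1 0) = _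
  rw [PiLp.sub_apply]; ring

theorem co4 : coL (toL r z p) (toL r' z' p') 4 = -((r'.1 - r.1) 1) := by
  show -(r'.1 1) - -(r.1 1) = _
  rw [PiLp.sub_apply]; ring

theorem co5 : coL (toL r z p) (toL r' z' p') 5 = (rx r'.1 r'.2.1 z - rx r.1 r.2.1 z) 0 := by
  show (toL r' z' p').p1 z - (toL r z p).p1 z = _
  rw [toL_p1, toL_p1, PiLp.sub_apply]

theorem co6 : coL (toL r z p) (toL r' z' p') 6 = (rx r'.1 r'.2.1 z - rx r.1 r.2.1 z) 1 := by
  show (toL r' z' p').p2 z - (toL r z p).p2 z = _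
  rw [toL_p2, toL_p2, PiLp.sub_apply]

theorem co7 : coL (toL r z p) (toL r' z' p') 7 = grr (dif p' p) r' 0 := by
  show grr p' r' 0 - (grr p r 0 + p.ny z * (-(r'.1 0) - -(r.1 0)) +
    2 * p.d * ((toL r' z' p').p1 z - (toL r z p).p1 z)) = _
  rw [toL_p1, toL_p1, dif_grr, grr_frame p r r' z]
  simp only [PiLp.sub_apply, PiLp.add_apply, PiLp.smul_apply, smul_eq_mul]
  ring

theorem co8 : coL (toL r z p) (toL r' z' p') 8 = grr (dif p' p) r' 1 := by
  show grr p' r' 1 - (grr p r 1 + p.ny z * (-(r'.1 1) - -(r.1 1)) +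
    2 * p.d * ((toL r' z' p').p2 z - (toL r z p).p2 z)) = _
  rw [toL_p2, toL_p2, dif_grr, grr_frame p r r' z]
  simp only [PiLp.sub_apply, PiLp.add_apply, PiLp.smul_apply, smul_eq_mul]
  ring

theorem co9 : coL (toL r z p) (toL r' z' p') 9 = nur r r' z := toL_nu r r' z z' p p' z

theorem co10 : coL (toL r z p) (toL r' z' p') 10 = slr p r' - slr p r := by
  show grr p r 0 * (-(r'.1 0) - -(r.1 0)) + grr p r 1 * (-(r'.1 1) - -(r.1 1)) +
      p.ny z * (((-(r'.1 0) - -(r.1 0)) ^ 2 + (-(r'.1 1) - -(r.1 1)) ^ 2) / 2) +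
      2 * p.d * (((toL r' z' p').p1 z - (toL r z p).p1 z) * (-(r'.1 0) - -(r.1 0)) +
        ((toL r' z' p').p2 z - (toL r z p).p2 z) * (-(r'.1 1) - -(r.1 1)) -
        nuL (toL r z p) (toL r' z' p') z) = _
  rw [toL_p1, toL_p1, toL_p2, toL_p2, toL_nu, slr_frame p r r' z, normsq2, inner2, inner2]
  simp only [PiLp.sub_apply]
  ring

theorem co11 : coL (toL r z p) (toL r' z' p') 11 = evr p r' z - evr p r z := by
  show grr p r 0 * ((toL r' z' p').p1 z - (toL r z p).p1 z) +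
      grr p r 1 * ((toL r' z' p').p2 z - (toL r z p).p2 z) +
      p.ny z * nuL (toL r z p) (toL r' z' p') z +
      p.d * (((toL r' z' p').p1 z - (toL r z p).p1 z) ^ 2 +
        ((toL r' z' p').p2 z - (toL r z p).p2 z) ^ 2) = _
  rw [toL_p1, toL_p1, toL_p2, toL_p2, toL_nu, evr_frame p r r' z, normsq2, inner2]
  simp only [PiLp.sub_apply]
  ring

end toL

/-! ### norms against coordinates -/

theorem norm_le_of {v : E2} {a b K : ℝ} (h0 : |v 0| ≤ a) (h1 : |v 1| ≤ b) (hK : a + b ≤ K) :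
    ‖v‖ ≤ K := by
  have ha : 0 ≤ a := (abs_nonneg _).trans h0
  have hb : 0 ≤ b := (abs_nonneg _).trans h1
  have e := normsq2 v
  have h2 : v 0 ^ 2 ≤ a ^ 2 := by rw [← sq_abs]; exact pow_le_pow_left₀ (abs_nonneg _) h0 2
  have h3 : v 1 ^ 2 ≤ b ^ 2 := by rw [← sq_abs]; exact pow_le_pow_left₀ (abs_nonneg _) h1 2
  have h4 : ‖v‖ ^ 2 ≤ (a + b) ^ 2 := by nlinarith
  exact ((sq_le_sq₀ (norm_nonneg _) (by linarith)).1 h4).trans hK

theorem abs0_le (v : E2) : |v 0| ≤ ‖v‖ := by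
  have e := normsq2 v
  have h4 : |v 0| ^ 2 ≤ ‖v‖ ^ 2 := by rw [sq_abs]; nlinarith [sq_nonneg (v 1)]
  exact (sq_le_sq₀ (abs_nonneg _) (norm_nonneg _)).1 h4

theorem abs1_le (v : E2) : |v 1| ≤ ‖v‖ := by
  have e := normsq2 v
  have h4 : |v 1| ^ 2 ≤ ‖v‖ ^ 2 := by rw [sq_abs]; nlinarith [sq_nonneg (v 0)]
  exact (sq_le_sq₀ (abs_nonneg _) (norm_nonneg _)).1 h4

/-! ### change of height -/



/-- an incidence of the chart moved to the height `t` on its ray. -/
def mv (i : LInc) (t : ℝ) : LInc := { i with z := t, et := i.et - 2 * i.d * (t - i.z) }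




end Crest.Agent.R116.Bm903
end

-- ▼ part R116/Bm2_903

/-!
# R116, K side: boxes of the light-ray chart and members of the class `SS` (helper903), part 2

`FlN q p r z eB eE eD` : the flag `p` is close to `q` in the frame of the ray `r` at the height `z`
(lateral gradient `eB`, null derivative `eE`, quadratic coefficient `eD`).
`mem_box` : two rays of one member, heights in its cell, flags close to the function of the member
=> bounds of the twelve coordinates.  `mem_box_unit` : the same in units of the member.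
`own_box`, `own_iff` : one ray, two heights, two flags.
-/

set_option autoImplicit false

namespace Crest.Agent.R116.Bm903

open Crest.Agent.R138.Defs (E2)
open Crest.Agent.R116.CDef480 (E3 lat pt normsq2 inner2)
open Crest.Agent.R116.LZg725
open Crest.Agent.R116.ChL222

/-- the flag `p` is close to `q` in the frame of the ray `r`, at the height `z`. -/
structure FlN (q p : Cf E2) (r : E2 × E2 × ℝ) (z eB eE eD : ℝ) : Prop where
  gr : ‖grr (dif p q) r‖ ≤ eB
  ny : |(dif p q).ny z| ≤ eE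
  d : |(dif p q).d| ≤ eD

theorem FlN.mono {q p : Cf E2} {r : E2 × E2 × ℝ} {z eB eE eD eB' eE' eD' : ℝ}
    (h : FlN q p r z eB eE eD) (hB : eB ≤ eB') (hE : eE ≤ eE') (hD : eD ≤ eD') :
    FlN q p r z eB' eE' eD' := ⟨h.gr.trans hB, h.ny.trans hE, h.d.trans hD⟩

theorem FlN.refl (q : Cf E2) (r : E2 × E2 × ℝ) (z : ℝ) : FlN q q r z 0 0 0 := by
  refine ⟨?_, ?_, ?_⟩
  · rw [dif_grr, sub_self, norm_zero]
  · rw [dif_ny, sub_self, abs_zero]
  · rw [dif_d, sub_self, abs_zero]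

theorem FlN.symm {q p : Cf E2} {r : E2 × E2 × ℝ} {z eB eE eD : ℝ} (h : FlN q p r z eB eE eD) :
    FlN p q r z eB eE eD := by
  obtain ⟨h1, h2, h3⟩ := h
  rw [dif_grr] at h1
  rw [dif_ny] at h2
  rw [dif_d] at h3
  refine ⟨?_, ?_, ?_⟩
  · rw [dif_grr, norm_sub_rev]; exact h1
  · rw [dif_ny, abs_sub_comm]; exact h2
  · rw [dif_d, abs_sub_comm]; exact h3

theorem FlN.trans {q p o : Cf E2} {r : E2 × E2 × ℝ} {z eB eE eD eB' eE' eD' : ℝ}
    (h : FlN q p r z eB eE eD) (h' : FlN p o r z eB' eE' eD') :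
    FlN q o r z (eB + eB') (eE + eE') (eD + eD') := by
  obtain ⟨h1, h2, h3⟩ := h
  obtain ⟨h4, h5, h6⟩ := h'
  rw [dif_grr] at h1 h4
  rw [dif_ny] at h2 h5
  rw [dif_d] at h3 h6
  refine ⟨?_, ?_, ?_⟩
  · rw [dif_grr, show grr o r - grr q r = (grr p r - grr q r) + (grr o r - grr p r) by abel]
    exact (norm_add_le _ _).trans (add_le_add h1 h4)
  · rw [dif_ny, show o.ny z - q.ny z = (p.ny z - q.ny z) + (o.ny z - p.ny z) by ring]
    exact (abs_add_le _ _).trans (add_le_add h2 h5)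
  · rw [dif_d, show o.d - q.d = (p.d - q.d) + (o.d - p.d) by ring]
    exact (abs_add_le _ _).trans (add_le_add h3 h6)

theorem abs_ny_move (p : Cf E2) (z z' : ℝ) : |p.ny z'| ≤ |p.ny z| + 2 * |p.d| * |z' - z| := by
  have e : p.ny z' = p.ny z + -(2 * p.d * (z' - z)) := by unfold Cf.ny; ring
  rw [e]
  refine (abs_add_le _ _).trans ?_
  rw [abs_neg, abs_mul, abs_mul, abs_two]

/-- the flag closeness at another height of the ray. -/
theorem FlN.height {q p : Cf E2} {r : E2 × E2 × ℝ} {z eB eE eD : ℝ} (h : FlN q p r z eB eE eD)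
    (z' : ℝ) : FlN q p r z' eB (eE + 2 * eD * |z' - z|) eD := by
  refine ⟨h.gr, (abs_ny_move _ z z').trans ?_, h.d⟩
  have h1 := mul_le_mul_of_nonneg_right h.d (abs_nonneg (z' - z))
  have h2 := h.ny
  nlinarith

theorem norm_grr_frame (p : Cf E2) (r r' : E2 × E2 × ℝ) (z : ℝ) :
    ‖grr p r'‖ ≤ ‖grr p r‖ + |p.ny z| * ‖r'.1 - r.1‖ +
      2 * |p.d| * ‖rx r'.1 r'.2.1 z - rx r.1 r.2.1 z‖ := by
  rw [grr_frame p r r' z]
  refine (norm_add_le _ _).trans ?_
  rw [norm_smul, Real.norm_eq_abs, abs_mul, abs_two]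
  refine add_le_add ((norm_sub_le _ _).trans ?_) le_rfl
  rw [norm_smul, Real.norm_eq_abs]

/-- the flag closeness on another ray. -/
theorem FlN.ray {q p : Cf E2} {r : E2 × E2 × ℝ} {z eB eE eD : ℝ} (h : FlN q p r z eB eE eD)
    {r' : E2 × E2 × ℝ} {a b : ℝ} (ha : ‖r'.1 - r.1‖ ≤ a)
    (hb : ‖rx r'.1 r'.2.1 z - rx r.1 r.2.1 z‖ ≤ b) :
    FlN q p r' z (eB + eE * a + 2 * eD * b) eE eD := by
  refine ⟨(norm_grr_frame _ r r' z).trans ?_, h.ny, h.d⟩
  have h1 := mul_le_mul h.ny ha (norm_nonneg _) ((abs_nonneg _).trans h.ny)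
  have h2 := mul_le_mul h.d hb (norm_nonneg _) ((abs_nonneg _).trans h.d)
  have h3 := h.gr
  nlinarith

/-! ### two rays in the frame of a function -/

theorem abs_evr_frame (p : Cf E2) (r r' : E2 × E2 × ℝ) (z : ℝ) :
    |evr p r' z - evr p r z| ≤ ‖grr p r‖ * ‖rx r'.1 r'.2.1 z - rx r.1 r.2.1 z‖ +
      |p.ny z| * |nur r r' z| + |p.d| * ‖rx r'.1 r'.2.1 z - rx r.1 r.2.1 z‖ ^ 2 := by
  rw [evr_frame p r r' z]
  generalize rx r'.1 r'.2.1 z - rx r.1 r.2.1 z = w
  have e : evr p r z + inner ℝ (grr p r) w + p.ny z * nur r r' z + p.d * ‖w‖ ^ 2 - evr p r z =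
      inner ℝ (grr p r) w + p.ny z * nur r r' z + p.d * ‖w‖ ^ 2 := by ring
  rw [e]
  refine (abs_add_le _ _).trans (add_le_add ((abs_add_le _ _).trans (add_le_add ?_ ?_)) ?_)
  · exact abs_real_inner_le_norm _ _
  · rw [abs_mul]
  · rw [abs_mul, abs_of_nonneg (sq_nonneg ‖w‖)]

theorem abs_slr_frame (p : Cf E2) (r r' : E2 × E2 × ℝ) (z : ℝ) :
    |slr p r' - slr p r| ≤ ‖grr p r‖ * ‖r'.1 - r.1‖ + |p.ny z| * (‖r'.1 - r.1‖ ^ 2 / 2) +
      2 * |p.d| * (‖rx r'.1 r'.2.1 z - rx r.1 r.2.1 z‖ * ‖r'.1 - r.1‖ + |nur r r' z|) := by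
  rw [slr_frame p r r' z]
  generalize rx r'.1 r'.2.1 z - rx r.1 r.2.1 z = w
  generalize r'.1 - r.1 = v
  have e : slr p r - inner ℝ (grr p r) v + p.ny z * (‖v‖ ^ 2 / 2) -
      2 * p.d * (inner ℝ w v + nur r r' z) - slr p r =
      -inner ℝ (grr p r) v + p.ny z * (‖v‖ ^ 2 / 2) + -(2 * p.d * (inner ℝ w v + nur r r' z)) := by
    ring
  rw [e]
  refine (abs_add_le _ _).trans (add_le_add ((abs_add_le _ _).trans (add_le_add ?_ ?_)) ?_)
  · rw [abs_neg]; exact abs_real_inner_le_norm _ _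
  · rw [abs_mul, abs_of_nonneg (by positivity : 0 ≤ ‖v‖ ^ 2 / 2)]
  · rw [abs_neg, abs_mul, abs_mul, abs_two]
    refine mul_le_mul_of_nonneg_left ((abs_add_le _ _).trans (add_le_add ?_ le_rfl)) (by positivity)
    exact abs_real_inner_le_norm _ _

/-! ### two rays of one member -/

section member

variable {B : ℝ} {m : Mem} {r r' : E2 × E2 × ℝ}

/-- the data of a ray of a member. -/
theorem ray_slope (hr : r ∈ m.rays B) : ‖r.1 - m.c‖ ≤ m.sg := hr.1

theorem ray_lat (hr : r ∈ m.rays B) {s : ℝ} (hs : |s - m.s0| ≤ m.R) :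
    ‖(rx r.1 r.2.1 s - lat m.X0) + (s - m.s0) • m.c‖ ≤ m.sg * m.R :=
  (((Mem.mem_rays.1 hr).2 s hs).1).2.1

theorem ray_nrm (hr : r ∈ m.rays B) {s : ℝ} (hs : |s - m.s0| ≤ m.R) :
    |nrm m.c (rx r.1 r.2.1 s) (ry r.1 r.2.2 s) s - nrm m.c (lat m.X0) (m.X0 2) m.s0| ≤
      m.T B * m.R :=
  (((Mem.mem_rays.1 hr).2 s hs).1).2.2

theorem ray_val (hr : r ∈ m.rays B) {s : ℝ} (hs : |s - m.s0| ≤ m.R) :
    |evr m.phi r s| ≤ m.s1 * m.R := ((Mem.mem_rays.1 hr).2 s hs).2

theorem ray_slr (hR : 0 < m.R) (hr : r ∈ m.rays B) : |slr m.phi r| ≤ m.s1 := by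
  have h1 := ray_val hr (s := m.s0 + m.R) (by rw [add_sub_cancel_left, abs_of_pos hR])
  have h2 := ray_val hr (s := m.s0 - m.R) (by rw [sub_sub_cancel_left, abs_neg, abs_of_pos hR])
  have h3 := evr_move m.phi r (m.s0 - m.R) (m.s0 + m.R)
  have e : 2 * m.R * slr m.phi r = evr m.phi r (m.s0 + m.R) - evr m.phi r (m.s0 - m.R) := by
    rw [h3]; ring
  have h4 : |2 * m.R * slr m.phi r| ≤ 2 * m.R * m.s1 := by
    rw [e]
    refine (abs_sub _ _).trans ?_
    linarith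
  rw [abs_mul, abs_of_pos (by positivity)] at h4
  exact le_of_mul_le_mul_left h4 (by positivity)

theorem two_slope (hr : r ∈ m.rays B) (hr' : r' ∈ m.rays B) : ‖r'.1 - r.1‖ ≤ 2 * m.sg := by
  have h1 := ray_slope hr
  have h2 := ray_slope hr'
  have e : r'.1 - r.1 = (r'.1 - m.c) - (r.1 - m.c) := by abel
  rw [e]
  refine (norm_sub_le _ _).trans ?_
  linarith

theorem two_lat (hr : r ∈ m.rays B) (hr' : r' ∈ m.rays B) {s : ℝ} (hs : |s - m.s0| ≤ m.R) :
    ‖rx r'.1 r'.2.1 s - rx r.1 r.2.1 s‖ ≤ 2 * (m.sg * m.R) := by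
  have h1 := ray_lat hr hs
  have h2 := ray_lat hr' hs
  have e : rx r'.1 r'.2.1 s - rx r.1 r.2.1 s =
      (rx r'.1 r'.2.1 s - lat m.X0 + (s - m.s0) • m.c) -
      (rx r.1 r.2.1 s - lat m.X0 + (s - m.s0) • m.c) := by abel
  rw [e]
  refine (norm_sub_le _ _).trans ?_
  linarith

/-- the null normal of a direction `C` between two points at one time. -/
theorem nrm_two (C c x x' : E2) (y y' s : ℝ) :
    nrm C x' y' s - nrm C x y s = (nrm c x' y' s - nrm c x y s) + inner ℝ (C - c) (x' - x) := by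
  unfold nrm
  rw [inner_sub_left, inner_sub_right, inner_sub_right]
  ring

theorem two_nur (hr : r ∈ m.rays B) (hr' : r' ∈ m.rays B) {s : ℝ} (hs : |s - m.s0| ≤ m.R) :
    |nur r r' s| ≤ 2 * (m.T B * m.R) + 2 * (m.sg ^ 2 * m.R) := by
  have h1 := ray_nrm hr hs
  have h2 := ray_nrm hr' hs
  have h3 := two_lat hr hr' hs
  have h4 := ray_slope hr
  have hsg : 0 ≤ m.sg := (norm_nonneg _).trans h4
  unfold nur
  rw [nrm_two r.1 m.c]
  have e : nrm m.c (rx r'.1 r'.2.1 s) (ry r'.1 r'.2.2 s) s -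
      nrm m.c (rx r.1 r.2.1 s) (ry r.1 r.2.2 s) s =
      (nrm m.c (rx r'.1 r'.2.1 s) (ry r'.1 r'.2.2 s) s - nrm m.c (lat m.X0) (m.X0 2) m.s0) -
      (nrm m.c (rx r.1 r.2.1 s) (ry r.1 r.2.2 s) s - nrm m.c (lat m.X0) (m.X0 2) m.s0) := by ring
  rw [e]
  refine (abs_add_le _ _).trans (add_le_add ((abs_sub _ _).trans ?_) ?_)
  · linarith
  · refine (abs_real_inner_le_norm _ _).trans ?_
    have h5 := mul_le_mul h4 h3 (norm_nonneg _) hsg
    nlinarith

/-- **two rays of one member, flags close to its function: the coordinates of the chart.** -/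
theorem mem_box (hR : 0 < m.R) (hr : r ∈ m.rays B) (hr' : r' ∈ m.rays B) {z z' : ℝ}
    (hz : |z - m.s0| ≤ m.R) (hz' : |z' - m.s0| ≤ m.R) {p p' : Cf E2} {eB eE eD : ℝ}
    (hp : FlN m.phi p r z eB eE eD) (hp' : FlN m.phi p' r' z' eB eE eD) :
    |coL (toL r z p) (toL r' z' p') 0| ≤ 2 * m.R ∧
    |coL (toL r z p) (toL r' z' p') 1| ≤ 2 * eD ∧
    |coL (toL r z p) (toL r' z' p') 2| ≤ 2 * eE + 4 * (m.R * eD) ∧
    |coL (toL r z p) (toL r' z' p') 3| ≤ 2 * m.sg ∧
    |coL (toL r z p) (toL r' z' p') 4| ≤ 2 * m.sg ∧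
    |coL (toL r z p) (toL r' z' p') 5| ≤ 2 * (m.sg * m.R) ∧
    |coL (toL r z p) (toL r' z' p') 6| ≤ 2 * (m.sg * m.R) ∧
    |coL (toL r z p) (toL r' z' p') 7| ≤ 2 * eB + 2 * (m.sg * eE) + 4 * (m.sg * m.R * eD) ∧
    |coL (toL r z p) (toL r' z' p') 8| ≤ 2 * eB + 2 * (m.sg * eE) + 4 * (m.sg * m.R * eD) ∧
    |coL (toL r z p) (toL r' z' p') 9| ≤ 2 * (m.T B * m.R) + 2 * (m.sg ^ 2 * m.R) ∧
    |coL (toL r z p) (toL r' z' p') 10| ≤ 2 * m.s1 + 2 * (m.sg * eB) + 2 * (m.sg ^ 2 * eE) +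
      (4 * (m.T B * m.R) + 12 * (m.sg ^ 2 * m.R)) * eD ∧
    |coL (toL r z p) (toL r' z' p') 11| ≤ 2 * (m.s1 * m.R) + 2 * (m.sg * m.R * eB) +
      (2 * (m.T B * m.R) + 2 * (m.sg ^ 2 * m.R)) * eE + 4 * ((m.sg * m.R) ^ 2 * eD) := by
  have hsg : 0 ≤ m.sg := (norm_nonneg _).trans (ray_slope hr)
  have hV := two_slope hr hr'
  have hW := two_lat hr hr' hz
  have hN := two_nur hr hr' hz
  have hzz : |z' - z| ≤ 2 * m.R := by
    have e : z' - z = (z' - m.s0) - (z - m.s0) := by ring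
    rw [e]
    refine (abs_sub _ _).trans ?_
    linarith
  have heB : 0 ≤ eB := (norm_nonneg _).trans hp.gr
  have heE : 0 ≤ eE := (abs_nonneg _).trans hp.ny
  have heD : 0 ≤ eD := (abs_nonneg _).trans hp.d
  have hT : 0 ≤ m.T B * m.R := (abs_nonneg _).trans (ray_nrm hr hz)
  -- the difference `p' - p` in the frame of `r'`
  have hq := (hp.ray hV hW).symm.height z'
  have hq' := hq.trans hp'
  have h2 : 2 * eD * |z' - z| ≤ 4 * (m.R * eD) := by
    have := mul_le_mul_of_nonneg_left hzz (by positivity : 0 ≤ 2 * eD)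
    linarith
  refine ⟨?_, ?_, ?_, ?_, ?_, ?_, ?_, ?_, ?_, ?_, ?_, ?_⟩
  · rw [co0]; exact hzz
  · rw [co1]; exact hq'.d.trans (by linarith)
  · rw [co2]; exact hq'.ny.trans (by linarith)
  · rw [co3, abs_neg]; exact (abs0_le _).trans hV
  · rw [co4, abs_neg]; exact (abs1_le _).trans hV
  · rw [co5]; exact (abs0_le _).trans hW
  · rw [co6]; exact (abs1_le _).trans hW
  · rw [co7]; exact (abs0_le _).trans (hq'.gr.trans (by nlinarith))
  · rw [co8]; exact (abs1_le _).trans (hq'.gr.trans (by nlinarith))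
  · rw [co9]; exact hN
  · rw [co10]
    have e : slr p r' - slr p r = (slr m.phi r' - slr m.phi r) +
        (slr (dif p m.phi) r' - slr (dif p m.phi) r) := by
      rw [dif_slr, dif_slr]; ring
    rw [e]
    have h3 : |slr m.phi r' - slr m.phi r| ≤ 2 * m.s1 := by
      refine (abs_sub _ _).trans ?_
      have h4 := ray_slr hR hr
      have h5 := ray_slr hR hr'
      linarith
    have h4 := abs_slr_frame (dif p m.phi) r r' z
    have h5 : ‖grr (dif p m.phi) r‖ * ‖r'.1 - r.1‖ ≤ eB * (2 * m.sg) :=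
      mul_le_mul hp.gr hV (norm_nonneg _) heB
    have h6 : ‖r'.1 - r.1‖ ^ 2 ≤ (2 * m.sg) ^ 2 := pow_le_pow_left₀ (norm_nonneg _) hV 2
    have h7 : |(dif p m.phi).ny z| * (‖r'.1 - r.1‖ ^ 2 / 2) ≤ eE * (2 * m.sg ^ 2) :=
      mul_le_mul hp.ny (by linarith) (by positivity) heE
    have h8 : ‖rx r'.1 r'.2.1 z - rx r.1 r.2.1 z‖ * ‖r'.1 - r.1‖ ≤
        (2 * (m.sg * m.R)) * (2 * m.sg) := mul_le_mul hW hV (norm_nonneg _) (by positivity)
    have h9 : 2 * |(dif p m.phi).d| * (‖rx r'.1 r'.2.1 z - rx r.1 r.2.1 z‖ * ‖r'.1 - r.1‖ +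
        |nur r r' z|) ≤ 2 * eD * (6 * (m.sg ^ 2 * m.R) + 2 * (m.T B * m.R)) := by
      refine mul_le_mul (mul_le_mul_of_nonneg_left hp.d zero_le_two) ?_ (by positivity)
        (by positivity)
      nlinarith
    refine (abs_add_le _ _).trans ?_
    nlinarith
  · rw [co11]
    have e : evr p r' z - evr p r z = (evr m.phi r' z - evr m.phi r z) +
        (evr (dif p m.phi) r' z - evr (dif p m.phi) r z) := by
      rw [dif_evr, dif_evr]; ring
    rw [e]
    have h3 : |evr m.phi r' z - evr m.phi r z| ≤ 2 * (m.s1 * m.R) := by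
      refine (abs_sub _ _).trans ?_
      have h4 := ray_val hr hz
      have h5 := ray_val hr' hz
      linarith
    have h4 := abs_evr_frame (dif p m.phi) r r' z
    have h5 : ‖grr (dif p m.phi) r‖ * ‖rx r'.1 r'.2.1 z - rx r.1 r.2.1 z‖ ≤
        eB * (2 * (m.sg * m.R)) := mul_le_mul hp.gr hW (norm_nonneg _) heB
    have h6 : ‖rx r'.1 r'.2.1 z - rx r.1 r.2.1 z‖ ^ 2 ≤ (2 * (m.sg * m.R)) ^ 2 :=
      pow_le_pow_left₀ (norm_nonneg _) hW 2
    have h7 : |(dif p m.phi).ny z| * |nur r r' z| ≤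
        eE * (2 * (m.T B * m.R) + 2 * (m.sg ^ 2 * m.R)) :=
      mul_le_mul hp.ny hN (abs_nonneg _) heE
    have h8 : |(dif p m.phi).d| * ‖rx r'.1 r'.2.1 z - rx r.1 r.2.1 z‖ ^ 2 ≤
        eD * (2 * (m.sg * m.R)) ^ 2 := mul_le_mul hp.d h6 (sq_nonneg _) heD
    refine (abs_add_le _ _).trans ?_
    nlinarith

end member

/-! ### units of a member -/

/-- the units of the chart for a box of aperture `sg`, thin side `s1` (relative), length `R`. -/
noncomputable def un (sg s1 R : ℝ) : Fin 12 → ℝ :=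
  ![R, s1 / (sg ^ 2 * R), s1 / sg ^ 2, sg, sg, sg * R, sg * R, s1 / sg, s1 / sg, sg ^ 2 * R, s1,
    s1 * R]

/-- **two rays of one member, in units of the member**: `κ` = closeness of the flags in units. -/
theorem mem_box_unit {B : ℝ} {m : Mem} {r r' : E2 × E2 × ℝ} (hR : 0 < m.R) (hs1 : 0 < m.s1)
    (hsg : 0 < m.sg) {K : ℝ} (hK : 1 ≤ K) (hT : m.T B ≤ K * m.sg ^ 2)
    (hr : r ∈ m.rays B) (hr' : r' ∈ m.rays B) {z z' : ℝ}
    (hz : |z - m.s0| ≤ m.R) (hz' : |z' - m.s0| ≤ m.R) {p p' : Cf E2} {κ : ℝ} (hκ : 0 ≤ κ)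
    (hp : FlN m.phi p r z (κ * (m.s1 / m.sg)) (κ * (m.s1 / m.sg ^ 2))
      (κ * (m.s1 / (m.sg ^ 2 * m.R))))
    (hp' : FlN m.phi p' r' z' (κ * (m.s1 / m.sg)) (κ * (m.s1 / m.sg ^ 2))
      (κ * (m.s1 / (m.sg ^ 2 * m.R)))) (k : Fin 12) :
    |coL (toL r z p) (toL r' z' p') k| ≤ K * (4 + 20 * κ) * un m.sg m.s1 m.R k := by
  obtain ⟨h0, h1, h2, h3, h4, h5, h6, h7, h8, h9, h10, h11⟩ := mem_box hR hr hr' hz hz' hp hp'
  have hTR : m.T B * m.R ≤ K * (m.sg ^ 2 * m.R) := by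
    have := mul_le_mul_of_nonneg_right hT hR.le
    linarith
  have hKκ : κ ≤ K * κ := le_mul_of_one_le_left hκ hK
  have hsR : 0 < m.sg ^ 2 * m.R := by positivity
  have e1 : m.R * (κ * (m.s1 / (m.sg ^ 2 * m.R))) = κ * (m.s1 / m.sg ^ 2) := by field_simp
  have e2 : m.sg * (κ * (m.s1 / m.sg ^ 2)) = κ * (m.s1 / m.sg) := by field_simp
  have e3 : m.sg * m.R * (κ * (m.s1 / (m.sg ^ 2 * m.R))) = κ * (m.s1 / m.sg) := by field_simp
  have e4 : m.sg * (κ * (m.s1 / m.sg)) = κ * m.s1 := by field_simp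
  have e5 : m.sg ^ 2 * (κ * (m.s1 / m.sg ^ 2)) = κ * m.s1 := by field_simp
  have e6 : m.sg ^ 2 * m.R * (κ * (m.s1 / (m.sg ^ 2 * m.R))) = κ * m.s1 := by field_simp
  have e7 : m.sg * m.R * (κ * (m.s1 / m.sg)) = κ * (m.s1 * m.R) := by field_simp
  have e8 : m.sg ^ 2 * m.R * (κ * (m.s1 / m.sg ^ 2)) = κ * (m.s1 * m.R) := by field_simp
  have e9 : (m.sg * m.R) ^ 2 * (κ * (m.s1 / (m.sg ^ 2 * m.R))) = κ * (m.s1 * m.R) := by
    field_simp
  have mono : ∀ {a b u : ℝ}, 0 ≤ u → a ≤ b → a * u ≤ b * u := fun hu hab =>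
    mul_le_mul_of_nonneg_right hab hu
  have hKp : (0:ℝ) ≤ K * κ := hκ.trans hKκ
  have eK : K * (4 + 20 * κ) = 4 * K + 20 * (K * κ) := by ring
  have c1 : 2 ≤ K * (4 + 20 * κ) := by rw [eK]; linarith
  have c2 : 2 * κ ≤ K * (4 + 20 * κ) := by rw [eK]; linarith
  have c3 : 6 * κ ≤ K * (4 + 20 * κ) := by rw [eK]; linarith
  have c4 : 8 * κ ≤ K * (4 + 20 * κ) := by rw [eK]; linarith
  have c5 : 2 * K + 2 ≤ K * (4 + 20 * κ) := by rw [eK]; linarith
  have c6 : 2 + 4 * κ + (4 * K + 12) * κ ≤ K * (4 + 20 * κ) := by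
    have e : (4 * K + 12) * κ = 4 * (K * κ) + 12 * κ := by ring
    rw [eK, e]; linarith
  have c7 : 2 + 2 * κ + (2 * K + 2) * κ + 4 * κ ≤ K * (4 + 20 * κ) := by
    have e : (2 * K + 2) * κ = 2 * (K * κ) + 2 * κ := by ring
    rw [eK, e]; linarith
  fin_cases k
  · exact h0.trans (mono hR.le c1)
  · refine h1.trans ?_
    have := mono (u := m.s1 / (m.sg ^ 2 * m.R)) (by positivity) c2
    refine le_trans (le_of_eq ?_) this
    ring
  · refine h2.trans ?_
    rw [e1]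
    have := mono (u := m.s1 / m.sg ^ 2) (by positivity) c3
    refine le_trans (le_of_eq ?_) this
    ring
  · exact h3.trans (mono hsg.le c1)
  · exact h4.trans (mono hsg.le c1)
  · exact h5.trans (mono (by positivity) c1)
  · exact h6.trans (mono (by positivity) c1)
  · refine h7.trans ?_
    rw [e2, e3]
    have := mono (u := m.s1 / m.sg) (by positivity) c4
    refine le_trans (le_of_eq ?_) this
    ring
  · refine h8.trans ?_
    rw [e2, e3]
    have := mono (u := m.s1 / m.sg) (by positivity) c4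
    refine le_trans (le_of_eq ?_) this
    ring
  · refine h9.trans ?_
    have := mono (u := m.sg ^ 2 * m.R) hsR.le c5
    refine le_trans ?_ this
    linarith
  · refine h10.trans ?_
    rw [e4, e5]
    have h12 : (4 * (m.T B * m.R) + 12 * (m.sg ^ 2 * m.R)) * (κ * (m.s1 / (m.sg ^ 2 * m.R))) ≤
        (4 * K + 12) * κ * m.s1 := by
      have h13 : (4 * (m.T B * m.R) + 12 * (m.sg ^ 2 * m.R)) ≤
          (4 * K + 12) * (m.sg ^ 2 * m.R) := by linarith
      refine (mul_le_mul_of_nonneg_right h13 (by positivity)).trans (le_of_eq ?_)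
      rw [mul_assoc, e6]; ring
    have := mono (u := m.s1) hs1.le c6
    refine le_trans ?_ this
    linarith
  · refine h11.trans ?_
    rw [e7, e9]
    have h12 : (2 * (m.T B * m.R) + 2 * (m.sg ^ 2 * m.R)) * (κ * (m.s1 / m.sg ^ 2)) ≤
        (2 * K + 2) * κ * (m.s1 * m.R) := by
      have h13 : (2 * (m.T B * m.R) + 2 * (m.sg ^ 2 * m.R)) ≤
          (2 * K + 2) * (m.sg ^ 2 * m.R) := by linarith
      refine (mul_le_mul_of_nonneg_right h13 (by positivity)).trans (le_of_eq ?_)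
      rw [mul_assoc, e8]; ring
    have := mono (u := m.s1 * m.R) (by positivity) c7
    refine le_trans ?_ this
    linarith

/-! ### one ray, two heights, two flags -/




end Crest.Agent.R116.Bm903
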