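import Crest.Agent.R116.Br1_430
import Crest.Agent.R116.LZg3_725
import Crest.Agent.R116.LZg6_725
import Crest.Agent.R116.LKMDef_299

-- ▼ part R116/Br3_430
section

/-!
# R116 (S0155), bridge K side -> wave side, part 3: counting lattice points near quadratic curves
(helper430)
-/

set_option autoImplicit false

namespace Crest.Agent.R116.Br430

open Crest.Agent.R138.Tub70 (Lat nr norm_sub_nr)

/-- integers with small pairwise differences. -/
theorem card_le_of_diff {s : Finset ℤ} {D : ℝ} (hD : 0 ≤ D)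
    (H : ∀ i ∈ s, ∀ j ∈ s, i ≤ j → (j : ℝ) - i ≤ D) : (s.card : ℝ) ≤ D + 1 := by
  rcases s.eq_empty_or_nonempty with rfl | hne
  · simp only [Finset.card_empty, Nat.cast_zero]; linarith
  · have h1 := H _ (s.min'_mem hne) _ (s.max'_mem hne) (s.min'_le _ (s.max'_mem hne))
    have h2 : s ⊆ Finset.Icc (s.min' hne) (s.max' hne) := fun i hi =>
      Finset.mem_Icc.mpr ⟨s.min'_le _ hi, s.le_max' _ hi⟩
    have h3 := Finset.card_le_card h2
    rw [Int.card_Icc] at h3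
    have h4 : (s.card : ℝ) ≤ ((s.max' hne + 1 - s.min' hne).toNat : ℝ) := by exact_mod_cast h3
    refine h4.trans ?_
    have h5 : 0 ≤ s.max' hne + 1 - s.min' hne := by
      have := s.min'_le _ (s.max'_mem hne); linarith
    have h6 : ((s.max' hne + 1 - s.min' hne).toNat : ℝ) =
        ((s.max' hne + 1 - s.min' hne : ℤ) : ℝ) := by exact_mod_cast Int.toNat_of_nonneg h5
    rw [h6]; push_cast; linarith

open Classical in
/-- **one-dimensional count**: a quadratic polynomial is small and steep at few lattice points. -/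
theorem card_quad {h : ℝ} (hh : 0 < h) {t : ℝ} (ht : h ≤ t) (S : Finset ℤ) (α β d : ℝ) :
    ((S.filter fun j : ℤ => |α + β * (h * j) + d * (h * j) ^ 2| ≤ t ∧
      1 / 4 ≤ |β + 2 * d * (h * j)|).card : ℝ) ≤ 18 * (t / h) := by
  have h1 : 1 ≤ t / h := by rw [le_div_iff₀ hh]; linarith
  have hsub : (S.filter fun j : ℤ => |α + β * (h * j) + d * (h * j) ^ 2| ≤ t ∧
      1 / 4 ≤ |β + 2 * d * (h * j)|) ⊆
      (S.filter fun j : ℤ => |α + β * (h * j) + d * (h * j) ^ 2| ≤ t ∧ 1 / 4 ≤ β + 2 * d * (h * j)) ∪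
      (S.filter fun j : ℤ => |α + β * (h * j) + d * (h * j) ^ 2| ≤ t ∧
        1 / 4 ≤ -(β + 2 * d * (h * j))) := by
    intro j hj
    rw [Finset.mem_filter] at hj
    rw [Finset.mem_union, Finset.mem_filter, Finset.mem_filter]
    rcases le_abs.mp hj.2.2 with h' | h'
    · exact Or.inl ⟨hj.1, hj.2.1, h'⟩
    · exact Or.inr ⟨hj.1, hj.2.1, h'⟩
  have hp : ((S.filter fun j : ℤ => |α + β * (h * j) + d * (h * j) ^ 2| ≤ t ∧
      1 / 4 ≤ β + 2 * d * (h * j)).card : ℝ) ≤ 8 * (t / h) + 1 := by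
    refine card_le_of_diff (by positivity) fun i hi j hj hij => ?_
    rw [Finset.mem_filter] at hi hj
    obtain ⟨-, hi1, hi2⟩ := hi
    obtain ⟨-, hj1, hj2⟩ := hj
    have hij' : (i : ℝ) ≤ j := by exact_mod_cast hij
    have e : (α + β * (h * j) + d * (h * j) ^ 2) - (α + β * (h * i) + d * (h * i) ^ 2) =
        ((β + 2 * d * (h * j)) + (β + 2 * d * (h * i))) / 2 * (h * (j - i)) := by ring
    have h2 := (abs_le.mp hj1).2
    have h3 := (abs_le.mp hi1).1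
    have h4 : 1 / 4 * (h * ((j : ℝ) - i)) ≤ 2 * t := by
      calc 1 / 4 * (h * ((j : ℝ) - i)) ≤
          ((β + 2 * d * (h * j)) + (β + 2 * d * (h * i))) / 2 * (h * (j - i)) := by
            have : 0 ≤ h * ((j : ℝ) - i) := mul_nonneg hh.le (by linarith)
            apply mul_le_mul_of_nonneg_right _ this
            linarith
        _ ≤ 2 * t := by rw [← e]; linarith
    have : (j : ℝ) - i = (h * ((j : ℝ) - i)) / h := by field_simp
    rw [this, ← mul_div_assoc, div_le_div_iff_of_pos_right hh]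
    linarith
  have hm : ((S.filter fun j : ℤ => |α + β * (h * j) + d * (h * j) ^ 2| ≤ t ∧
      1 / 4 ≤ -(β + 2 * d * (h * j))).card : ℝ) ≤ 8 * (t / h) + 1 := by
    refine card_le_of_diff (by positivity) fun i hi j hj hij => ?_
    rw [Finset.mem_filter] at hi hj
    obtain ⟨-, hi1, hi2⟩ := hi
    obtain ⟨-, hj1, hj2⟩ := hj
    have hij' : (i : ℝ) ≤ j := by exact_mod_cast hij
    have e : (α + β * (h * i) + d * (h * i) ^ 2) - (α + β * (h * j) + d * (h * j) ^ 2) =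
        (-(β + 2 * d * (h * j)) + -(β + 2 * d * (h * i))) / 2 * (h * (j - i)) := by ring
    have h2 := (abs_le.mp hi1).2
    have h3 := (abs_le.mp hj1).1
    have h4 : 1 / 4 * (h * ((j : ℝ) - i)) ≤ 2 * t := by
      calc 1 / 4 * (h * ((j : ℝ) - i)) ≤
          (-(β + 2 * d * (h * j)) + -(β + 2 * d * (h * i))) / 2 * (h * (j - i)) := by
            have : 0 ≤ h * ((j : ℝ) - i) := mul_nonneg hh.le (by linarith)
            apply mul_le_mul_of_nonneg_right _ this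
            linarith
        _ ≤ 2 * t := by rw [← e]; linarith
    have : (j : ℝ) - i = (h * ((j : ℝ) - i)) / h := by field_simp
    rw [this, ← mul_div_assoc, div_le_div_iff_of_pos_right hh]
    linarith
  have h5 := (Finset.card_le_card hsub).trans (Finset.card_union_le _ _)
  have h6 : ((S.filter fun j : ℤ => |α + β * (h * j) + d * (h * j) ^ 2| ≤ t ∧
      1 / 4 ≤ |β + 2 * d * (h * j)|).card : ℝ) ≤
      ((S.filter fun j : ℤ => |α + β * (h * j) + d * (h * j) ^ 2| ≤ t ∧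
        1 / 4 ≤ β + 2 * d * (h * j)).card : ℝ) +
      ((S.filter fun j : ℤ => |α + β * (h * j) + d * (h * j) ^ 2| ≤ t ∧
        1 / 4 ≤ -(β + 2 * d * (h * j))).card : ℝ) := by exact_mod_cast h5
  linarith

/-- a vector of norm `≥ 1/2` has a coordinate of size `≥ 1/4`. -/
theorem coord_of_norm {v : E2} (hv : 1 / 2 ≤ ‖v‖) : 1 / 4 ≤ |v 0| ∨ 1 / 4 ≤ |v 1| := by
  by_contra hn
  push Not at hn
  have h1 : ‖v‖ ^ 2 = v 0 ^ 2 + v 1 ^ 2 := by
    rw [EuclideanSpace.norm_eq, Real.sq_sqrt (by positivity), Fin.sum_univ_two]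
    simp
  have h2 : v 0 ^ 2 < 1 / 16 := by
    rw [← sq_abs]; nlinarith [abs_nonneg (v 0)]
  have h3 : v 1 ^ 2 < 1 / 16 := by
    rw [← sq_abs]; nlinarith [abs_nonneg (v 1)]
  nlinarith

open Classical in
/-- **two-dimensional count**: lattice points of a square near a quadratic curve. -/
theorem card_curve {h : ℝ} (hh : 0 < h) {t ℓ : ℝ} (ht : h ≤ t) (hℓ : h ≤ ℓ) (x0 : E2)
    (α : ℝ) (β : E2) (d : ℝ) :
    (((SQ h x0 ℓ).filter fun k => |α + inner ℝ β (Lat h k) + d * ‖Lat h k‖ ^ 2| ≤ t ∧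
      1 / 2 ≤ ‖β + (2 * d) • Lat h k‖).card : ℝ) ≤ 108 * ((ℓ / h) * (t / h)) := by
  have h1 : 1 ≤ ℓ / h := by rw [le_div_iff₀ hh]; linarith
  have hq : ∀ k : ℤ × ℤ, α + inner ℝ β (Lat h k) + d * ‖Lat h k‖ ^ 2 =
      α + β 0 * (h * k.1) + β 1 * (h * k.2) + d * ((h * k.1) ^ 2 + (h * k.2) ^ 2) := by
    intro k
    have e1 : inner ℝ β (Lat h k) = β 0 * (h * k.1) + β 1 * (h * k.2) := by
      simp only [PiLp.inner_apply, Fin.sum_univ_two, RCLike.inner_apply, conj_trivial,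
        Crest.Agent.R138.Tub70.Lat_zero_coord, Crest.Agent.R138.Tub70.Lat_one_coord]
      ring
    have e2 : ‖Lat h k‖ ^ 2 = (h * k.1) ^ 2 + (h * k.2) ^ 2 := by
      rw [EuclideanSpace.norm_eq, Real.sq_sqrt (by positivity), Fin.sum_univ_two]
      simp only [Real.norm_eq_abs, sq_abs, Crest.Agent.R138.Tub70.Lat_zero_coord,
        Crest.Agent.R138.Tub70.Lat_one_coord]
    rw [e1, e2]; ring
  have hc : ∀ (k : ℤ × ℤ), (β + (2 * d) • Lat h k) 0 = β 0 + 2 * d * (h * k.1) ∧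
      (β + (2 * d) • Lat h k) 1 = β 1 + 2 * d * (h * k.2) := by
    intro k
    constructor <;> simp
  set P := (SQ h x0 ℓ).filter fun k => |α + inner ℝ β (Lat h k) + d * ‖Lat h k‖ ^ 2| ≤ t ∧
      1 / 2 ≤ ‖β + (2 * d) • Lat h k‖ with hP
  set P0 := (IS h (x0 1) ℓ).biUnion fun k2 => ((IS h (x0 0) ℓ).filter fun j : ℤ =>
    |(α + β 1 * (h * k2) + d * (h * k2) ^ 2) + β 0 * (h * j) + d * (h * j) ^ 2| ≤ t ∧
      1 / 4 ≤ |β 0 + 2 * d * (h * j)|).image fun j => (j, k2) with hP0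
  set P1 := (IS h (x0 0) ℓ).biUnion fun k1 => ((IS h (x0 1) ℓ).filter fun j : ℤ =>
    |(α + β 0 * (h * k1) + d * (h * k1) ^ 2) + β 1 * (h * j) + d * (h * j) ^ 2| ≤ t ∧
      1 / 4 ≤ |β 1 + 2 * d * (h * j)|).image fun j => (k1, j) with hP1
  have hsub : P ⊆ P0 ∪ P1 := by
    intro k hk
    rw [hP, Finset.mem_filter] at hk
    obtain ⟨hk0, hk1, hk2⟩ := hk
    unfold SQ at hk0
    rw [Finset.mem_product] at hk0
    rw [hq] at hk1
    rw [Finset.mem_union]
    rcases coord_of_norm hk2 with h' | h'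
    · left
      rw [hP0, Finset.mem_biUnion]
      refine ⟨k.2, hk0.2, ?_⟩
      rw [Finset.mem_image]
      refine ⟨k.1, ?_, rfl⟩
      rw [Finset.mem_filter]
      refine ⟨hk0.1, ?_, ?_⟩
      · refine le_of_eq_of_le ?_ hk1; congr 1; ring
      · rwa [(hc k).1] at h'
    · right
      rw [hP1, Finset.mem_biUnion]
      refine ⟨k.1, hk0.1, ?_⟩
      rw [Finset.mem_image]
      refine ⟨k.2, ?_, rfl⟩
      rw [Finset.mem_filter]
      refine ⟨hk0.2, ?_, ?_⟩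
      · refine le_of_eq_of_le ?_ hk1; congr 1; ring
      · rwa [(hc k).2] at h'
  have hIS : ∀ y : ℝ, ((IS h y ℓ).card : ℝ) ≤ 3 * (ℓ / h) := by
    intro y
    refine (card_IS_le hh (hh.le.trans hℓ)).trans ?_
    have : 2 * ℓ / h = 2 * (ℓ / h) := by ring
    rw [this]; linarith
  have c0 : (P0.card : ℝ) ≤ 3 * (ℓ / h) * (18 * (t / h)) := by
    calc (P0.card : ℝ) ≤ ((∑ k2 ∈ IS h (x0 1) ℓ, (((IS h (x0 0) ℓ).filter fun j : ℤ =>
        |(α + β 1 * (h * k2) + d * (h * k2) ^ 2) + β 0 * (h * j) + d * (h * j) ^ 2| ≤ t ∧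
        1 / 4 ≤ |β 0 + 2 * d * (h * j)|).image fun j => (j, k2)).card : ℕ) : ℝ) :=
          Nat.cast_le.mpr Finset.card_biUnion_le
      _ = ∑ k2 ∈ IS h (x0 1) ℓ, ((((IS h (x0 0) ℓ).filter fun j : ℤ =>
        |(α + β 1 * (h * k2) + d * (h * k2) ^ 2) + β 0 * (h * j) + d * (h * j) ^ 2| ≤ t ∧
        1 / 4 ≤ |β 0 + 2 * d * (h * j)|).image fun j => (j, k2)).card : ℝ) := by push_cast; rfl
      _ ≤ ∑ _k2 ∈ IS h (x0 1) ℓ, 18 * (t / h) := Finset.sum_le_sum fun k2 _ =>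
          (Nat.cast_le.mpr Finset.card_image_le).trans (card_quad hh ht _ _ _ _)
      _ = ((IS h (x0 1) ℓ).card : ℝ) * (18 * (t / h)) := by rw [Finset.sum_const, nsmul_eq_mul]
      _ ≤ 3 * (ℓ / h) * (18 * (t / h)) := by
          have : 0 ≤ t / h := by have := hh.le.trans ht; positivity
          gcongr
          exact hIS _
  have c1 : (P1.card : ℝ) ≤ 3 * (ℓ / h) * (18 * (t / h)) := by
    calc (P1.card : ℝ) ≤ ((∑ k1 ∈ IS h (x0 0) ℓ, (((IS h (x0 1) ℓ).filter fun j : ℤ =>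
        |(α + β 0 * (h * k1) + d * (h * k1) ^ 2) + β 1 * (h * j) + d * (h * j) ^ 2| ≤ t ∧
        1 / 4 ≤ |β 1 + 2 * d * (h * j)|).image fun j => (k1, j)).card : ℕ) : ℝ) :=
          Nat.cast_le.mpr Finset.card_biUnion_le
      _ = ∑ k1 ∈ IS h (x0 0) ℓ, ((((IS h (x0 1) ℓ).filter fun j : ℤ =>
        |(α + β 0 * (h * k1) + d * (h * k1) ^ 2) + β 1 * (h * j) + d * (h * j) ^ 2| ≤ t ∧
        1 / 4 ≤ |β 1 + 2 * d * (h * j)|).image fun j => (k1, j)).card : ℝ) := by push_cast; rfl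
      _ ≤ ∑ _k1 ∈ IS h (x0 0) ℓ, 18 * (t / h) := Finset.sum_le_sum fun k1 _ =>
          (Nat.cast_le.mpr Finset.card_image_le).trans (card_quad hh ht _ _ _ _)
      _ = ((IS h (x0 0) ℓ).card : ℝ) * (18 * (t / h)) := by rw [Finset.sum_const, nsmul_eq_mul]
      _ ≤ 3 * (ℓ / h) * (18 * (t / h)) := by
          have : 0 ≤ t / h := by have := hh.le.trans ht; positivity
          gcongr
          exact hIS _
  have h5 := (Finset.card_le_card hsub).trans (Finset.card_union_le _ _)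
  have h6 : (P.card : ℝ) ≤ (P0.card : ℝ) + (P1.card : ℝ) := by exact_mod_cast h5
  linarith

open Classical in
/-- the elements of `S` with the property `P` (fixed decidability). -/
noncomputable def filt {α : Type*} (P : α → Prop) (S : Finset α) : Finset α := S.filter P

open Classical in
theorem mem_filt {α : Type*} {P : α → Prop} {S : Finset α} {x : α} :
    x ∈ filt P S ↔ x ∈ S ∧ P x := by
  unfold filt
  rw [Finset.mem_filter]

open Classical in
theorem card_filt_le {α : Type*} (P : α → Prop) (S : Finset α) :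
    ((filt P S).card : ℝ) ≤ (S.card : ℝ) := by
  unfold filt
  exact Nat.cast_le.mpr (Finset.card_filter_le _ _)

theorem card_filt_mono {α : Type*} {P : α → Prop} {S T : Finset α} (h : ∀ x ∈ S, P x → x ∈ T) :
    ((filt P S).card : ℝ) ≤ (T.card : ℝ) :=
  Nat.cast_le.mpr (Finset.card_le_card fun x hx => by
    rw [mem_filt] at hx
    exact h x hx.1 hx.2)

open Classical in
/-- fibre count over a triple product. -/
theorem card_fib {α β γ : Type*} {S1 : Finset α} {S2 : Finset β} {S3 : Finset γ}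
    (P : α × β × γ → Prop) {n1 n2 n3 : ℝ} (h2 : 0 ≤ n2) (h3 : 0 ≤ n3) (A1 : Finset α)
    (A3 : α → Finset γ) (A2 : α → γ → Finset β)
    (hA : ∀ k1 ∈ S1, ∀ k2 ∈ S2, ∀ k3 ∈ S3, P (k1, k2, k3) → k1 ∈ A1 ∧ k3 ∈ A3 k1 ∧
      k2 ∈ A2 k1 k3)
    (H1 : (A1.card : ℝ) ≤ n1) (H3 : ∀ k1, ((A3 k1).card : ℝ) ≤ n3)
    (H2 : ∀ k1 k3, ((A2 k1 k3).card : ℝ) ≤ n2) :
    ((filt P (S1 ×ˢ S2 ×ˢ S3)).card : ℝ) ≤ n1 * (n3 * n2) := by
  have hsub : filt P (S1 ×ˢ S2 ×ˢ S3) ⊆ A1.biUnion fun k1 => (A3 k1).biUnion fun k3 =>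
      (A2 k1 k3).image fun k2 => (k1, k2, k3) := by
    rintro ⟨k1, k2, k3⟩ hk
    rw [mem_filt, Finset.mem_product, Finset.mem_product] at hk
    obtain ⟨⟨m1, m2, m3⟩, hP⟩ := hk
    simp only at m1 m2 m3
    obtain ⟨a1, a3, a2⟩ := hA k1 m1 k2 m2 k3 m3 hP
    rw [Finset.mem_biUnion]
    refine ⟨k1, a1, ?_⟩
    rw [Finset.mem_biUnion]
    refine ⟨k3, a3, ?_⟩
    rw [Finset.mem_image]
    exact ⟨k2, a2, rfl⟩
  have e1 : ∀ k1, (((A3 k1).biUnion fun k3 =>
      (A2 k1 k3).image fun k2 => (k1, k2, k3)).card : ℝ) ≤ n3 * n2 := by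
    intro k1
    calc _ ≤ ((∑ k3 ∈ A3 k1, ((A2 k1 k3).image fun k2 => (k1, k2, k3)).card : ℕ) : ℝ) :=
          Nat.cast_le.mpr Finset.card_biUnion_le
      _ = ∑ k3 ∈ A3 k1, (((A2 k1 k3).image fun k2 => (k1, k2, k3)).card : ℝ) := by
            push_cast; rfl
      _ ≤ ∑ _k3 ∈ A3 k1, n2 :=
          Finset.sum_le_sum fun k3 _ => (Nat.cast_le.mpr Finset.card_image_le).trans (H2 k1 k3)
      _ = ((A3 k1).card : ℝ) * n2 := by rw [Finset.sum_const, nsmul_eq_mul]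
      _ ≤ n3 * n2 := mul_le_mul_of_nonneg_right (H3 k1) h2
  calc ((filt P (S1 ×ˢ S2 ×ˢ S3)).card : ℝ) ≤ _ := Nat.cast_le.mpr (Finset.card_le_card hsub)
    _ ≤ ((∑ k1 ∈ A1, ((A3 k1).biUnion fun k3 =>
          (A2 k1 k3).image fun k2 => (k1, k2, k3)).card : ℕ) : ℝ) :=
        Nat.cast_le.mpr Finset.card_biUnion_le
    _ = ∑ k1 ∈ A1, (((A3 k1).biUnion fun k3 =>
          (A2 k1 k3).image fun k2 => (k1, k2, k3)).card : ℝ) := by
            push_cast; rfl
    _ ≤ ∑ _k1 ∈ A1, n3 * n2 := Finset.sum_le_sum fun k1 _ => e1 k1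
    _ = (A1.card : ℝ) * (n3 * n2) := by rw [Finset.sum_const, nsmul_eq_mul]
    _ ≤ n1 * (n3 * n2) := mul_le_mul_of_nonneg_right H1 (mul_nonneg h3 h2)

end Crest.Agent.R116.Br430
end

-- ▼ part R116/Br4_430
section

/-!
# R116 (S0155), bridge K side -> wave side, part 4: the share lemma (helper430)

How many rays of the phase box of a plank lie in a conformal slab of width `s1`?
-/

set_option autoImplicit false

namespace Crest.Agent.R116.Br430

open Crest.Agent.R116.LZg725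
open Crest.Agent.R138.Tub70 (Lat nr norm_sub_nr)


/-! ### facts on one ray -/

section one

variable {c x0 : E2} {sg T y0 s1 : ℝ} {p : Cf E2} {C a : E2} {k : ℝ}

theorem ray_facts (h : RayIn c sg T 1 x0 y0 0 p s1 C a k) :
    ‖C - c‖ ≤ sg ∧ ‖a - x0‖ ≤ sg ∧ |p.ev a k 0| ≤ s1 ∧ |p.ld C a k 0| ≤ s1 := by
  obtain ⟨h1, h2⟩ := h
  have e0 := h2 0 (by simp)
  have e1 := (h2 1 (by simp)).2
  have e2 := (h2 (-1) (by simp)).2
  have r0 : rx C a 0 = a := by unfold rx; simp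
  have r1 : ry C k 0 = k := by unfold ry; simp
  refine ⟨h1, ?_, ?_, ?_⟩
  · have := e0.1.2.1
    rw [r0] at this
    simpa using this
  · have := e0.2
    rwa [r0, r1] at this
  · rw [Cf.ev_ray] at e1 e2
    have e3 := Cf.ld_ray p C a k 0
    rw [r0, r1] at e3
    rw [e3]
    rw [abs_le] at e1 e2 ⊢
    constructor <;> linarith [e1.1, e1.2, e2.1, e2.2]

theorem ray_gr {M : ℝ} (hM : 0 ≤ M) (hsg : 0 < sg) (hs1 : 0 ≤ s1) (hT : sg ^ 2 ≤ T)
    (adm : Adm M c sg T 1 x0 y0 0 p) (h : RayIn c sg T 1 x0 y0 0 p s1 C a k) :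
    |‖p.gr C a 0‖ ^ 2 - 1| ≤ 4 * (M * (s1 / sg)) := by
  obtain ⟨h1, h2, h3, h4⟩ := ray_facts h
  have e : s1 / sg * sg = s1 := by field_simp
  refine gr_sq_near (R := 1) (T := T) (sg := sg) zero_lt_one hsg hT hM (by positivity) adm.disc
    (y := k) (adm.ny 0 (by simp)) (adm.d_le zero_le_one ((sq_nonneg _).trans hT)) ?_ ?_
  · rw [e]; exact h4
  · rw [e, mul_one]; exact h3

/-- the gradient is not small when the slab is much thinner than the box. -/
theorem ray_gr_ge {M : ℝ} (hM : 0 ≤ M) (hsg : 0 < sg) (hs1 : 0 ≤ s1) (hT : sg ^ 2 ≤ T)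
    (adm : Adm M c sg T 1 x0 y0 0 p) (h : RayIn c sg T 1 x0 y0 0 p s1 C a k)
    (hthin : 6 * M * s1 ≤ sg) : 1 / 2 ≤ ‖p.gr C a 0‖ := by
  have h1 := ray_gr hM hsg hs1 hT adm h
  have h2 : M * (s1 / sg) ≤ 1 / 6 := by
    rw [← mul_div_assoc, div_le_iff₀ hsg]; linarith
  have h3 := (abs_le.mp h1).1
  by_contra hn
  push Not at hn
  have : ‖p.gr C a 0‖ ^ 2 < 1 / 4 := by nlinarith [norm_nonneg (p.gr C a 0)]
  linarith

theorem ray_gr_le {M : ℝ} (hM : 1 ≤ M) (hsg : 0 < sg) (hs1 : 0 ≤ s1) (hT : sg ^ 2 ≤ T)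
    (hle : s1 ≤ sg) (adm : Adm M c sg T 1 x0 y0 0 p) (h : RayIn c sg T 1 x0 y0 0 p s1 C a k) :
    ‖p.gr C a 0‖ ≤ 3 * M := by
  have h1 := ray_gr (by linarith) hsg hs1 hT adm h
  have h2 : s1 / sg ≤ 1 := by rw [div_le_one hsg]; exact hle
  have h3 := norm_le_of_sq_near (K := M * (s1 / sg)) (by positivity) h1
  have h4 : M * (s1 / sg) ≤ M * 1 := by gcongr
  linarith

/-- shift inside the null plane. -/
theorem ev_shear (p : Cf E2) (C a v : E2) (k n : ℝ) :
    p.ev (a + v) (k - inner ℝ C v + n) 0 =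
      p.ev a (k + n) 0 + inner ℝ (p.gr C a 0) v + p.d * ‖v‖ ^ 2 := by
  unfold Cf.ev Cf.gr Cf.ny
  simp only [inner_add_right, inner_add_left, inner_sub_left, real_inner_smul_left,
    norm_add_sq_real]
  ring

theorem gr_shear (p : Cf E2) (C a v : E2) : p.gr C (a + v) 0 = p.gr C a 0 + (2 * p.d) • v := by
  unfold Cf.gr Cf.ny
  module

theorem ld_shear (p : Cf E2) (C a v : E2) (k n : ℝ) :
    p.ld C (a + v) (k - inner ℝ C v + n) 0 = p.ld C a k 0 - 2 * p.d * n := by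
  have h := Cf.ld_move p C a (a + v) k (k - inner ℝ C v + n) 0 0
  rw [h]
  unfold nrm
  rw [inner_add_right]
  ring

end one

/-! ### the counts -/

section count

variable {c x0 : E2} {sg T y0 s1 M h h3 w ρ : ℝ} {p : Cf E2} {C a : E2} {k0 : ℝ}

/-- the ray of label `k` lies in the member. -/
def InM (c : E2) (sg T : ℝ) (x0 : E2) (y0 : ℝ) (p : Cf E2) (s1 h h3 : ℝ) (C a : E2) (k0 : ℝ)
    (k : RI) : Prop :=
  RayIn c sg T 1 x0 y0 0 p s1 (bC h C k) (ba h a k) (bc h h3 C k0 k)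

/-- number of positions, steep case. -/
theorem count2 (hh : 0 < h) (hM : 0 ≤ M) (hsg : 0 < sg) (hs1 : h ≤ s1) (hT : sg ^ 2 ≤ T)
    (adm : Adm M c sg T 1 x0 y0 0 p) (hthin : 6 * M * s1 ≤ sg) {ℓ : ℝ} (hℓ : h ≤ ℓ) (z : E2)
    (k1 : ℤ × ℤ) (k3 : ℤ) :
    ((filt (fun k2 => InM c sg T x0 y0 p s1 h h3 C a k0 (k1, k2, k3)) (SQ h z ℓ)).card : ℝ) ≤
      108 * ((ℓ / h) * (s1 / h)) := by
  refine le_trans ?_ (card_curve hh hs1 hℓ z (p.ev a (k0 + h3 * k3) 0)
    (p.gr (C + Lat h k1) a 0) p.d)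
  refine card_filt_mono fun k2 m hR => ?_
  rw [Finset.mem_filter]
  refine ⟨m, ?_, ?_⟩
  · have := (ray_facts hR).2.2.1
    unfold ba bc bC at this
    simp only at this
    rwa [ev_shear] at this
  · have := ray_gr_ge hM hsg (hh.le.trans hs1) hT adm hR hthin
    unfold bC ba at this
    simp only at this
    rwa [gr_shear] at this

/-- number of positions in the phase box. -/
theorem count2_box (hh : 0 < h) (hhw : 2 * h ≤ w) (hM : 0 ≤ M) (hsg : 0 < sg) (hs1 : h ≤ s1)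
    (hT : sg ^ 2 ≤ T) (adm : Adm M c sg T 1 x0 y0 0 p) (hthin : 6 * M * s1 ≤ sg)
    (k1 : ℤ × ℤ) (k3 : ℤ) :
    ((filt (fun k2 => InM c sg T x0 y0 p s1 h h3 C a k0 (k1, k2, k3))
      (SQ h 0 (3 * w))).card : ℝ) ≤ 324 * ((w / h) * (s1 / h)) := by
  refine (count2 hh hM hsg hs1 hT adm hthin (ℓ := 3 * w) (by linarith) 0 k1 k3).trans
    (le_of_eq ?_)
  ring

/-- directions, small aperture. -/
theorem dir_small (hh : 0 < h) {k : RI} (hR : InM c sg T x0 y0 p s1 h h3 C a k0 k) :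
    k.1 ∈ SQ h (c - C) sg := by
  have := (ray_facts hR).1
  unfold bC at this
  refine mem_SQ_of_norm hh (le_trans (le_of_eq ?_) this)
  congr 1; abel

/-- positions, small aperture. -/
theorem pos_small (hh : 0 < h) {k : RI} (hR : InM c sg T x0 y0 p s1 h h3 C a k0 k) :
    k.2.1 ∈ SQ h (x0 - a) sg := by
  have := (ray_facts hR).2.1
  unfold ba at this
  refine mem_SQ_of_norm hh (le_trans (le_of_eq ?_) this)
  congr 1; abel

/-- number of positions, small aperture. -/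
theorem count2_small (hh : 0 < h) (hM : 1 ≤ M) (hsg : h ≤ sg) (hs1 : h ≤ s1)
    (hT : sg ^ 2 ≤ T) (adm : Adm M c sg T 1 x0 y0 0 p) (k1 : ℤ × ℤ) (k3 : ℤ) :
    ((filt (fun k2 => InM c sg T x0 y0 p s1 h h3 C a k0 (k1, k2, k3))
      (SQ h (x0 - a) sg)).card : ℝ) ≤ 108 * M * ((sg / h) * (s1 / h)) := by
  have hsg0 : 0 < sg := hh.trans_le hsg
  have hs10 : 0 < s1 := hh.trans_le hs1
  rcases le_total (6 * M * s1) sg with hthin | hthick
  · refine (count2 hh (by linarith) hsg0 hs1 hT adm hthin hsg (x0 - a) k1 k3).trans ?_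
    have : 0 ≤ (sg / h) * (s1 / h) := by positivity
    nlinarith
  · refine (card_filt_le _ _).trans ?_
    refine (card_SQ_le hh (x0 - a) hsg).trans ?_
    have h1 : sg / h ≤ 6 * M * (s1 / h) := by
      rw [← mul_div_assoc]; gcongr
    calc 9 * (sg / h) ^ 2 = 9 * ((sg / h) * (sg / h)) := by ring
      _ ≤ 9 * ((sg / h) * (6 * M * (s1 / h))) := by gcongr
      _ ≤ 108 * M * ((sg / h) * (s1 / h)) := by
        have : 0 ≤ M * ((sg / h) * (s1 / h)) := by positivity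
        nlinarith

theorem card_nor (hh3 : 0 < h3) (hρ : h3 ≤ ρ) : ((IS h3 0 (5 * ρ)).card : ℝ) ≤ 11 * (ρ / h3) := by
  have h1 : 1 ≤ ρ / h3 := by rw [le_div_iff₀ hh3]; linarith
  refine (card_IS_le hh3 (by linarith)).trans ?_
  have : 2 * (5 * ρ) / h3 = 10 * (ρ / h3) := by ring
  rw [this]; linarith

/-- **share, small aperture**. -/
theorem share_small (hh : 0 < h) (hh3 : 0 < h3) (hρ : h3 ≤ ρ) (hM : 1 ≤ M) (hsg : h ≤ sg)
    (hs1 : h ≤ s1) (hT : sg ^ 2 ≤ T) (adm : Adm M c sg T 1 x0 y0 0 p) :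
    ((filt (InM c sg T x0 y0 p s1 h h3 C a k0) (bx h h3 w ρ)).card : ℝ) ≤
      10692 * M * ((sg / h) ^ 3 * (s1 / h) * (ρ / h3)) := by
  have hsg0 : 0 < sg := hh.trans_le hsg
  have hs10 : 0 < s1 := hh.trans_le hs1
  have hρ0 : 0 < ρ := hh3.trans_le hρ
  refine (card_fib (InM c sg T x0 y0 p s1 h h3 C a k0) (n1 := 9 * (sg / h) ^ 2)
    (n2 := 108 * M * ((sg / h) * (s1 / h))) (n3 := 11 * (ρ / h3)) (by positivity) (by positivity)
    (SQ h (c - C) sg) (fun _ => IS h3 0 (5 * ρ))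
    (fun k1 k3 => filt (fun k2 => InM c sg T x0 y0 p s1 h h3 C a k0 (k1, k2, k3))
      (SQ h (x0 - a) sg)) (fun k1 _ k2 _ k3 m3 hR => ⟨dir_small hh hR, m3, ?_⟩)
    (card_SQ_le hh _ hsg) (fun _ => card_nor hh3 hρ)
    (fun k1 k3 => count2_small hh hM hsg hs1 hT adm k1 k3)).trans (le_of_eq ?_)
  · rw [mem_filt]; exact ⟨pos_small hh hR, hR⟩
  · ring

/-- the size of `∂_y φ` on `|s| ≤ 1`. -/
noncomputable def Gam (p : Cf E2) : ℝ := |p.g| + 2 * |p.d|

theorem Gam_nonneg (p : Cf E2) : 0 ≤ Gam p := by unfold Gam; positivity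

theorem ny_le_Gam (p : Cf E2) {s : ℝ} (hs : |s| ≤ 1) : |p.ny s| ≤ Gam p := by
  unfold Cf.ny Gam
  refine (abs_sub _ _).trans ?_
  rw [abs_mul, abs_mul, abs_of_pos (two_pos : (0:ℝ) < 2)]
  have := mul_le_mul_of_nonneg_left hs (abs_nonneg p.d)
  linarith

theorem Gam_T_le (hT0 : 0 ≤ T) (adm : Adm M c sg T 1 x0 y0 0 p) : Gam p * T ≤ 2 * M * sg := by
  have h1 := adm.ny 0 (by simp)
  have h2 := adm.d_le zero_le_one hT0
  have e : p.ny 0 = p.g := by unfold Cf.ny; ring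
  rw [e] at h1
  unfold Gam
  nlinarith

theorem Gam_sg_le (hsg : 0 < sg) (hT : sg ^ 2 ≤ T) (adm : Adm M c sg T 1 x0 y0 0 p) :
    Gam p * sg ≤ 2 * M := by
  have h1 := Gam_T_le ((sq_nonneg _).trans hT) adm
  have h2 : Gam p * sg ^ 2 ≤ 2 * M * sg := by
    have := mul_le_mul_of_nonneg_left hT (Gam_nonneg p)
    linarith
  have h3 : (Gam p * sg) * sg ≤ (2 * M) * sg := by linarith [sq sg]
  exact le_of_mul_le_mul_right (by nlinarith) hsg

/-- number of normals: the slab is tilted. -/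
theorem count3 (hh : 0 < h) (hh3 : 0 < h3) (hM : 1 ≤ M) (hw : 0 < w) (hwsg : w ≤ sg)
    (hs1 : 0 < s1) (hle : s1 ≤ sg) (hT : sg ^ 2 ≤ T) (adm : Adm M c sg T 1 x0 y0 0 p)
    (hG : 0 < Gam p) {t : ℝ} (ht1 : s1 ≤ t) (ht2 : w ≤ t) (hsmall : Gam p * h3 ≤ w)
    (S3 : Finset ℤ) (k1 : ℤ × ℤ) :
    ((filt (fun k3 => ∃ k2 ∈ SQ h 0 (3 * w),
      InM c sg T x0 y0 p s1 h h3 C a k0 (k1, k2, k3)) S3).card : ℝ) ≤
      509 * M * (t / (Gam p * h3)) := by
  have hsg : 0 < sg := hs1.trans_le hle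
  have ht : 0 < t := hw.trans_le ht2
  have hGs := Gam_sg_le hsg hT adm
  have hdle : 2 * |p.d| ≤ Gam p := by unfold Gam; linarith [abs_nonneg p.g]
  have hdw : |p.d| * w ≤ M := by
    have : Gam p * w ≤ Gam p * sg := by gcongr
    nlinarith
  have hone : 1 ≤ t / (Gam p * h3) := by
    rw [le_div_iff₀ (by positivity)]; linarith
  have key : ∀ k3 : ℤ, (∃ k2 ∈ SQ h 0 (3 * w),
      InM c sg T x0 y0 p s1 h h3 C a k0 (k1, k2, k3)) →
      |p.ev a k0 0 + p.g * (h3 * k3)| ≤ 127 * M * t ∧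
      |p.ld (C + Lat h k1) a k0 0 - 2 * p.d * (h3 * k3)| ≤ t := by
    intro k3 hk3
    obtain ⟨k2, hk2, hR⟩ := hk3
    have hv : ‖Lat h k2‖ ≤ 6 * w := by
      have := norm_of_mem_SQ hh (by linarith) hk2
      rw [sub_zero] at this
      linarith
    obtain ⟨-, -, f3, f4⟩ := ray_facts hR
    have f5 := ray_gr_le hM hsg hs1.le hT hle adm hR
    unfold ba bc bC at f3
    unfold ba bc bC at f4
    unfold ba bC at f5
    simp only at f3 f4 f5
    rw [ev_shear] at f3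
    rw [ld_shear] at f4
    rw [gr_shear] at f5
    have hdv : ‖(2 * p.d) • Lat h k2‖ ≤ 12 * M := by
      rw [norm_smul, Real.norm_eq_abs, abs_mul, abs_of_pos (two_pos : (0:ℝ) < 2)]
      calc 2 * |p.d| * ‖Lat h k2‖ ≤ 2 * |p.d| * (6 * w) := by gcongr
        _ = 12 * (|p.d| * w) := by ring
        _ ≤ 12 * M := by linarith
    have hgr : ‖p.gr (C + Lat h k1) a 0‖ ≤ 15 * M := by
      have e : p.gr (C + Lat h k1) a 0 = (p.gr (C + Lat h k1) a 0 + (2 * p.d) • Lat h k2) -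
          (2 * p.d) • Lat h k2 := by abel
      rw [e]
      refine (norm_sub_le _ _).trans ?_
      linarith
    have h6 : |inner ℝ (p.gr (C + Lat h k1) a 0) (Lat h k2)| ≤ 15 * M * (6 * w) :=
      (abs_real_inner_le_norm _ _).trans (mul_le_mul hgr hv (norm_nonneg _) (by positivity))
    have h7 : |p.d * ‖Lat h k2‖ ^ 2| ≤ 36 * M * w := by
      rw [abs_mul, abs_of_nonneg (sq_nonneg ‖Lat h k2‖)]
      calc |p.d| * ‖Lat h k2‖ ^ 2 ≤ |p.d| * (6 * w) ^ 2 := by gcongr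
        _ = 36 * (|p.d| * w) * w := by ring
        _ ≤ 36 * M * w := by gcongr
    have e8 : p.ev a (k0 + h3 * k3) 0 = p.ev a k0 0 + p.g * (h3 * k3) := by
      unfold Cf.ev; ring
    rw [e8] at f3
    refine ⟨?_, f4.trans ht1⟩
    have h11 : M * w ≤ M * t := by gcongr
    have h12 : t ≤ M * t := by nlinarith
    have g3 := abs_le.mp (f3.trans ht1)
    have g6 := abs_le.mp h6
    have g7 := abs_le.mp h7
    rw [abs_le]
    constructor <;> linarith [g3.1, g3.2, g6.1, g6.2, g7.1, g7.2]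
  have hcard : ((filt (fun k3 => ∃ k2 ∈ SQ h 0 (3 * w),
      InM c sg T x0 y0 p s1 h h3 C a k0 (k1, k2, k3)) S3).card : ℝ) ≤
      508 * M * (t / (Gam p * h3)) + 1 := by
    refine card_le_of_diff (by positivity) fun i hi j hj hij => ?_
    have ki := key i (mem_filt.mp hi).2
    have kj := key j (mem_filt.mp hj).2
    have hij' : (i : ℝ) ≤ j := by exact_mod_cast hij
    have hji : 0 ≤ (j : ℝ) - i := by linarith
    have hmul : ∀ {x A : ℝ}, Gam p / 2 ≤ x → x * (h3 * ((j : ℝ) - i)) ≤ A →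
        (j : ℝ) - i ≤ 2 * (A / (Gam p * h3)) := by
      intro x A hx hA
      have h1 : Gam p / 2 * (h3 * ((j : ℝ) - i)) ≤ A := by
        refine le_trans ?_ hA
        gcongr
      rw [← mul_div_assoc, le_div_iff₀ (by positivity)]
      linarith
    have hcase : Gam p / 2 ≤ |p.g| ∨ Gam p / 2 ≤ 2 * |p.d| := by
      by_contra hn
      push Not at hn
      have : Gam p < Gam p := by
        conv_lhs => unfold Gam
        linarith [hn.1, hn.2]
      exact lt_irrefl _ this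
    rcases hcase with hg | hd
    · refine (hmul hg (A := 254 * M * t) ?_).trans (le_of_eq (by ring))
      have e1 : |p.g| * (h3 * ((j : ℝ) - i)) =
          |(p.ev a k0 0 + p.g * (h3 * j)) - (p.ev a k0 0 + p.g * (h3 * i))| := by
        rw [show (p.ev a k0 0 + p.g * (h3 * j)) - (p.ev a k0 0 + p.g * (h3 * i)) =
          p.g * (h3 * ((j : ℝ) - i)) by ring, abs_mul, abs_of_nonneg (a := h3 * ((j : ℝ) - i))
          (mul_nonneg hh3.le hji)]
      rw [e1]
      refine (abs_sub _ _).trans ?_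
      linarith [ki.1, kj.1]
    · refine (hmul hd (A := 2 * t) ?_).trans ?_
      · have e1 : 2 * |p.d| * (h3 * ((j : ℝ) - i)) =
            |(p.ld (C + Lat h k1) a k0 0 - 2 * p.d * (h3 * i)) -
              (p.ld (C + Lat h k1) a k0 0 - 2 * p.d * (h3 * j))| := by
          rw [show (p.ld (C + Lat h k1) a k0 0 - 2 * p.d * (h3 * i)) -
              (p.ld (C + Lat h k1) a k0 0 - 2 * p.d * (h3 * j)) =
            2 * p.d * (h3 * ((j : ℝ) - i)) by ring, abs_mul, abs_mul,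
            abs_of_nonneg (a := h3 * ((j : ℝ) - i)) (mul_nonneg hh3.le hji),
            abs_of_pos (two_pos : (0:ℝ) < 2)]
        rw [e1]
        refine (abs_sub _ _).trans ?_
        linarith [ki.2, kj.2]
      · have h1 : 0 ≤ t / (Gam p * h3) := by positivity
        have e : 2 * (2 * t / (Gam p * h3)) = 4 * (t / (Gam p * h3)) := by ring
        rw [e]
        nlinarith
  refine hcard.trans ?_
  have h13 : t / (Gam p * h3) ≤ M * (t / (Gam p * h3)) := by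
    have : 0 ≤ t / (Gam p * h3) := by positivity
    nlinarith
  nlinarith

/-- number of directions. -/
theorem card_dir (hh : 0 < h) (hhw : 2 * h ≤ w) :
    ((SQ h 0 (w / 2)).card : ℝ) ≤ 9 / 4 * (w / h) ^ 2 := by
  refine (card_SQ_le hh (0 : E2) (t := w / 2) (by linarith)).trans (le_of_eq ?_)
  ring

theorem card_pos (hh : 0 < h) (hhw : 2 * h ≤ w) :
    ((SQ h 0 (3 * w)).card : ℝ) ≤ 81 * (w / h) ^ 2 := by
  refine (card_SQ_le hh (0 : E2) (t := 3 * w) (by linarith)).trans (le_of_eq ?_)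
  ring

set_option maxHeartbeats 400000 in
/-- **SHARE, large aperture**: `# · (s1 + w + Γ ρ) ≤ C M (w/h)⁴ (ρ/h3) s1`. -/
theorem share_large (hh : 0 < h) (hh3 : 0 < h3) (hhw : 2 * h ≤ w) (hρ : h3 ≤ ρ) (hM : 1 ≤ M)
    (hwsg : w ≤ sg) (hs1 : h ≤ s1) (hT : sg ^ 2 ≤ T)
    (adm : Adm M c sg T 1 x0 y0 0 p) (hthin : 6 * M * s1 ≤ sg) (hsmall : Gam p * h3 ≤ w) :
    ((filt (InM c sg T x0 y0 p s1 h h3 C a k0) (bx h h3 w ρ)).card : ℝ) *
      (s1 + w + Gam p * ρ) ≤ 400000 * M * ((w / h) ^ 4 * (ρ / h3) * s1) := by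
  have hw : 0 < w := by linarith
  have hsg : 0 < sg := hw.trans_le hwsg
  have hs10 : 0 < s1 := hh.trans_le hs1
  have hle : s1 ≤ sg := by nlinarith
  have hρ0 : 0 < ρ := hh3.trans_le hρ
  have hM0 : 0 ≤ M := by linarith
  -- (b1)
  have b1 : ((filt (InM c sg T x0 y0 p s1 h h3 C a k0) (bx h h3 w ρ)).card : ℝ) ≤
      2005 * ((w / h) ^ 4 * (ρ / h3)) := (card_filt_le _ _).trans (card_bx_le hh hh3 hhw hρ)
  -- (b2)
  have b2 : ((filt (InM c sg T x0 y0 p s1 h h3 C a k0) (bx h h3 w ρ)).card : ℝ) ≤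
      9 / 4 * (w / h) ^ 2 * (11 * (ρ / h3) * (324 * ((w / h) * (s1 / h)))) := by
    refine card_fib (InM c sg T x0 y0 p s1 h h3 C a k0) (by positivity) (by positivity)
      (SQ h 0 (w / 2)) (fun _ => IS h3 0 (5 * ρ))
      (fun k1 k3 => filt (fun k2 => InM c sg T x0 y0 p s1 h h3 C a k0 (k1, k2, k3))
        (SQ h 0 (3 * w))) (fun k1 m1 k2 m2 k3 m3 hR => ⟨m1, m3, ?_⟩) (card_dir hh hhw)
      (fun _ => card_nor hh3 hρ)
      (fun k1 k3 => count2_box hh hhw hM0 hsg hs1 hT adm hthin k1 k3)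
    rw [mem_filt]; exact ⟨m2, hR⟩
  -- (b3)
  have b3 : 0 < Gam p → s1 ≤ w →
      ((filt (InM c sg T x0 y0 p s1 h h3 C a k0) (bx h h3 w ρ)).card : ℝ) ≤
      9 / 4 * (w / h) ^ 2 * (509 * M * (w / (Gam p * h3)) * (324 * ((w / h) * (s1 / h)))) := by
    intro hG hsw
    refine card_fib (InM c sg T x0 y0 p s1 h h3 C a k0) (by positivity) (by positivity)
      (SQ h 0 (w / 2)) (fun k1 => filt (fun k3 => ∃ k2 ∈ SQ h 0 (3 * w),
        InM c sg T x0 y0 p s1 h h3 C a k0 (k1, k2, k3)) (IS h3 0 (5 * ρ)))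
      (fun k1 k3 => filt (fun k2 => InM c sg T x0 y0 p s1 h h3 C a k0 (k1, k2, k3))
        (SQ h 0 (3 * w))) (fun k1 m1 k2 m2 k3 m3 hR => ⟨m1, ?_, ?_⟩) (card_dir hh hhw)
      (fun k1 => count3 hh hh3 hM hw hwsg hs10 hle hT adm hG hsw le_rfl hsmall _ k1)
      (fun k1 k3 => count2_box hh hhw hM0 hsg hs1 hT adm hthin k1 k3)
    · rw [mem_filt]; exact ⟨m3, k2, m2, hR⟩
    · rw [mem_filt]; exact ⟨m2, hR⟩
  have b4 : 0 < Gam p → w ≤ s1 →
      ((filt (InM c sg T x0 y0 p s1 h h3 C a k0) (bx h h3 w ρ)).card : ℝ) ≤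
      9 / 4 * (w / h) ^ 2 * (509 * M * (s1 / (Gam p * h3)) * (81 * (w / h) ^ 2)) := by
    intro hG hsw
    refine card_fib (InM c sg T x0 y0 p s1 h h3 C a k0) (by positivity) (by positivity)
      (SQ h 0 (w / 2)) (fun k1 => filt (fun k3 => ∃ k2 ∈ SQ h 0 (3 * w),
        InM c sg T x0 y0 p s1 h h3 C a k0 (k1, k2, k3)) (IS h3 0 (5 * ρ)))
      (fun _ _ => SQ h 0 (3 * w)) (fun k1 m1 k2 m2 k3 m3 hR => ⟨m1, ?_, m2⟩) (card_dir hh hhw)
      (fun k1 => count3 hh hh3 hM hw hwsg hs10 hle hT adm hG le_rfl hsw hsmall _ k1)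
      (fun _ _ => card_pos hh hhw)
    rw [mem_filt]; exact ⟨m3, k2, m2, hR⟩
  generalize ((filt (InM c sg T x0 y0 p s1 h h3 C a k0) (bx h h3 w ρ)).card : ℝ) = N
    at b1 b2 b3 b4 ⊢
  have hX : 0 ≤ (w / h) ^ 4 * (ρ / h3) * s1 := by positivity
  have c1 : N * s1 ≤ 2005 * ((w / h) ^ 4 * (ρ / h3) * s1) := by
    refine (mul_le_mul_of_nonneg_right b1 hs10.le).trans (le_of_eq (by ring))
  have c2 : N * w ≤ 8019 * ((w / h) ^ 4 * (ρ / h3) * s1) := by
    refine (mul_le_mul_of_nonneg_right b2 hw.le).trans (le_of_eq ?_)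
    field_simp
    ring
  have c3 : N * (Gam p * ρ) ≤ 371061 * M * ((w / h) ^ 4 * (ρ / h3) * s1) := by
    rcases (Gam_nonneg p).eq_or_lt with hG | hG
    · rw [← hG, zero_mul, mul_zero]; positivity
    · rcases le_total s1 w with hsw | hsw
      · refine (mul_le_mul_of_nonneg_right (b3 hG hsw) (by positivity)).trans (le_of_eq ?_)
        field_simp
        ring
      · refine (mul_le_mul_of_nonneg_right (b4 hG hsw) (by positivity)).trans ?_
        have e : 9 / 4 * (w / h) ^ 2 * (509 * M * (s1 / (Gam p * h3)) * (81 * (w / h) ^ 2)) *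
            (Gam p * ρ) = (371061 / 4) * (M * ((w / h) ^ 4 * (ρ / h3) * s1)) := by
          field_simp
          ring
        rw [e]
        have : 0 ≤ M * ((w / h) ^ 4 * (ρ / h3) * s1) := by positivity
        nlinarith
  have c4 : (w / h) ^ 4 * (ρ / h3) * s1 ≤ M * ((w / h) ^ 4 * (ρ / h3) * s1) := by nlinarith
  calc N * (s1 + w + Gam p * ρ) = N * s1 + N * w + N * (Gam p * ρ) := by ring
    _ ≤ 400000 * M * ((w / h) ^ 4 * (ρ / h3) * s1) := by nlinarith

end count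

end Crest.Agent.R116.Br430
end

-- ▼ part R116/Br5_430
section

/-!
# R116 (S0155), bridge K side -> wave side, part 5: the members seen by the planks (helper430)

If some ray of the phase box of a plank lies in a member `m` (resolution `ρ`), the central ray of
the plank lies in one of boundedly many members of lateral thickness `≥ w`, compatible with `ρ`, and
the number of rays of the phase box in `m` is at most the ratio of the costs.
-/

set_option autoImplicit false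

namespace Crest.Agent.R116.Br430

open Crest.Agent.R116.LZg725
open Crest.Agent.R116.CDef480 (lat pt)
open Crest.Agent.R116.LKMDef299 (Cpt)
open Crest.Agent.R138.Tub70 (Lat nr norm_sub_nr)

/-! ### the net -/

theorem abs_sub_round' {h : ℝ} (hh : 0 < h) (t : ℝ) : |t - h * (round (t / h) : ℤ)| ≤ h := by
  have h1 := abs_sub_round (t / h)
  have e : t - h * (round (t / h) : ℤ) = h * (t / h - (round (t / h) : ℤ)) := by
    field_simp
  rw [e, abs_mul, abs_of_pos hh]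
  nlinarith

/-- labels of the net. -/
noncomputable def netJ : Finset RI := SQ 1 0 200 ×ˢ SQ 1 0 200 ×ˢ IS 1 0 3000

theorem mem_SQ_one {h t : ℝ} (hh : 0 < h) {k : ℤ × ℤ} (H : ‖Lat h k‖ ≤ h * t) :
    k ∈ SQ 1 0 t := by
  rw [mem_SQ one_pos]
  intro i
  have h1 := (abs_le_of_norm (Lat h k) i).trans H
  rw [sub_zero]
  fin_cases i
  · simp only [Fin.zero_eta, Fin.isValue, Crest.Agent.R138.Tub70.Lat_zero_coord, abs_mul,
      abs_of_pos hh, one_mul] at h1 ⊢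
    exact le_of_mul_le_mul_left h1 hh
  · simp only [Fin.mk_one, Fin.isValue, Crest.Agent.R138.Tub70.Lat_one_coord, abs_mul,
      abs_of_pos hh, one_mul] at h1 ⊢
    exact le_of_mul_le_mul_left h1 hh

/-- direction of the net box `j`. -/
noncomputable def nc (S : ℝ) (c : E2) (j : RI) : E2 := c + Lat (S / 10) j.1

/-- position of the net box `j`. -/
noncomputable def nx (S : ℝ) (x0 : E2) (j : RI) : E2 := x0 + Lat (S / 10) j.2.1

/-- null position of the net box `j`. -/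
noncomputable def nyy (S T : ℝ) (c : E2) (y0 : ℝ) (j : RI) : ℝ :=
  y0 - inner ℝ (nc S c j) (Lat (S / 10) j.2.1) + T / 10 * j.2.2

/-- **net lemma**: a ray close to the box lies well inside one of the net boxes. -/
theorem net {c x0 : E2} {y0 S T : ℝ} (hS : 0 < S) (hT : S ^ 2 ≤ T) {C a : E2} {k : ℝ}
    (h1 : ‖C - c‖ ≤ 2 * S) (h2 : ‖a - x0‖ ≤ 7 * S)
    (h3 : |(k + inner ℝ c a) - (y0 + inner ℝ c x0)| ≤ 12 * T) :
    ∃ j ∈ netJ, ‖C - nc S c j‖ ≤ S / 10 ∧ ∀ s : ℝ, |s - 0| ≤ 1 →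
      ‖(rx C a s - nx S x0 j) + (s - 0) • nc S c j‖ ≤ S / 5 ∧
      InK (nc S c j) S T 1 (nx S x0 j) (nyy S T c y0 j) 0 (rx C a s) (ry C k s) s := by
  have hS10 : 0 < S / 10 := by positivity
  have hT0 : 0 < T := lt_of_lt_of_le (pow_pos hS 2) hT
  have hT10 : 0 < T / 10 := by positivity
  have n1 := norm_sub_nr hS10 (C - c)
  have n2 := norm_sub_nr hS10 (a - x0)
  set j1 := nr (S / 10) (C - c) with hj1
  set j2 := nr (S / 10) (a - x0) with hj2
  set D := c + Lat (S / 10) j1 with hD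
  set t3 : ℝ := (k + inner ℝ D a) - (y0 + inner ℝ D x0) with ht3
  have n3 := abs_sub_round' hT10 t3
  set j3 : ℤ := round (t3 / (T / 10)) with hj3
  have l1 : ‖Lat (S / 10) j1‖ ≤ S / 10 * 21 := by
    have e : Lat (S / 10) j1 = (C - c) - (C - c - Lat (S / 10) j1) := by abel
    rw [e]
    refine (norm_sub_le _ _).trans ?_
    linarith
  have l2 : ‖Lat (S / 10) j2‖ ≤ S / 10 * 71 := by
    have e : Lat (S / 10) j2 = (a - x0) - (a - x0 - Lat (S / 10) j2) := by abel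
    rw [e]
    refine (norm_sub_le _ _).trans ?_
    linarith
  have l3 : |t3| ≤ 27 * T := by
    have e : t3 = ((k + inner ℝ c a) - (y0 + inner ℝ c x0)) +
        inner ℝ (Lat (S / 10) j1) (a - x0) := by
      rw [ht3, hD, inner_add_left, inner_add_left, inner_sub_right]; ring
    rw [e]
    have h4 : |inner ℝ (Lat (S / 10) j1) (a - x0)| ≤ (S / 10 * 21) * (7 * S) :=
      (abs_real_inner_le_norm _ _).trans (mul_le_mul l1 h2 (norm_nonneg _) (by positivity))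
    have h5 := abs_add_le ((k + inner ℝ c a) - (y0 + inner ℝ c x0))
      (inner ℝ (Lat (S / 10) j1) (a - x0))
    nlinarith
  refine ⟨(j1, j2, j3), ?_, ?_, fun s hs => ?_⟩
  · unfold netJ
    rw [Finset.mem_product, Finset.mem_product]
    refine ⟨mem_SQ_one hS10 (l1.trans (by linarith)), mem_SQ_one hS10 (l2.trans (by linarith)), ?_⟩
    rw [mem_IS one_pos]
    simp only [one_mul, sub_zero]
    have h5 : T / 10 * |(j3 : ℝ)| ≤ T / 10 * 3000 := by
      have e : |T / 10 * (j3 : ℝ)| = T / 10 * |(j3 : ℝ)| := by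
        rw [abs_mul, abs_of_pos hT10]
      rw [← e]
      have e2 : T / 10 * (j3 : ℝ) = t3 - (t3 - T / 10 * (j3 : ℝ)) := by ring
      rw [e2]
      refine (abs_sub _ _).trans ?_
      linarith
    exact le_of_mul_le_mul_left h5 hT10
  · unfold nc
    simp only
    refine le_trans (le_of_eq ?_) n1
    congr 1; abel
  · have hs' : |s| ≤ 1 := by simpa using hs
    have w1 : ‖(rx C a s - nx S x0 (j1, j2, j3)) + (s - 0) • nc S c (j1, j2, j3)‖ ≤ S / 5 := by
      have e : (rx C a s - nx S x0 (j1, j2, j3)) + (s - 0) • nc S c (j1, j2, j3) =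
          (a - x0 - Lat (S / 10) j2) - s • (C - c - Lat (S / 10) j1) := by
        unfold rx nx nc; module
      rw [e]
      refine (norm_sub_le _ _).trans ?_
      rw [norm_smul, Real.norm_eq_abs]
      have : |s| * ‖C - c - Lat (S / 10) j1‖ ≤ 1 * (S / 10) := by gcongr
      linarith
    refine ⟨w1, hs, w1.trans (by linarith), ?_⟩
    have e : nrm (nc S c (j1, j2, j3)) (rx C a s) (ry C k s) s -
        nrm (nc S c (j1, j2, j3)) (nx S x0 (j1, j2, j3)) (nyy S T c y0 (j1, j2, j3)) 0 =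
        (t3 - T / 10 * (j3 : ℝ)) + s * ‖C - c - Lat (S / 10) j1‖ ^ 2 / 2 := by
      rw [nrm_ray']
      unfold nrm nx nyy nc
      simp only
      rw [← hD, ht3]
      have e2 : C - D = C - c - Lat (S / 10) j1 := by rw [hD]; abel
      rw [e2, inner_add_right]
      ring
    rw [e]
    refine (abs_add_le _ _).trans ?_
    have h6 : |s * ‖C - c - Lat (S / 10) j1‖ ^ 2 / 2| ≤ 1 * (S / 10) ^ 2 / 2 := by
      rw [abs_div, abs_mul, abs_of_nonneg (sq_nonneg ‖C - c - Lat (S / 10) j1‖),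
        abs_of_pos (two_pos : (0:ℝ) < 2)]
      gcongr
    have h7 : |t3 - T / 10 * (j3 : ℝ)| ≤ T / 10 := n3
    nlinarith

/-! ### flat conformal functions -/

/-- the affine function `⟨e, x - x0 + s c⟩`. -/
noncomputable def flatC (e c x0 : E2) : Cf E2 := ⟨-inner ℝ e x0, inner ℝ e c, e, 0, 0⟩

theorem flatC_ev (e c x0 x : E2) (y s : ℝ) :
    (flatC e c x0).ev x y s = inner ℝ e ((x - x0) + (s - 0) • c) := by
  unfold flatC Cf.ev
  simp only
  rw [inner_add_right, inner_sub_right, real_inner_smul_right]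
  ring

theorem flatC_ny (e c x0 : E2) (s : ℝ) : (flatC e c x0).ny s = 0 := by
  unfold flatC Cf.ny
  simp

theorem flatC_ld (e c x0 x : E2) (y s : ℝ) : (flatC e c x0).ld c x y s = 0 := by
  unfold flatC Cf.ld Cf.ny
  simp

theorem flatC_disc {e : E2} (he : ‖e‖ = 1) (c x0 : E2) : (flatC e c x0).disc = 1 := by
  unfold flatC Cf.disc
  simp [he]

end Crest.Agent.R116.Br430
end

-- ▼ part R116/Br6_430

/-!
# R116 (S0155), bridge K side -> wave side, part 6: the cover (helper430)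

`cover`: a member `m` of length one at the resolution `ρ` (`SSr`), planks `w × w × ρ`.  There are
members `mj j`, `j ∈ netJ`, of lateral thickness `≥ w`, compatible with `ρ`, all of the same cost
`v`, such that the central ray of every plank whose phase box meets `m` lies in one of them, and
`# (rays of the phase box in m) · v ≤ K (w/h)⁴ (ρ/h3) · cost m`.
-/

set_option autoImplicit false

namespace Crest.Agent.R116.Br430

open Crest.Agent.R116.LZg725
open Crest.Agent.R116.CDef480 (lat pt)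
open Crest.Agent.R116.LKMDef299 (Cpt)
open Crest.Agent.R138.Tub70 (Lat nr norm_sub_nr)

/-! ### members of length one -/

/-- member of length `1` around time `0`. -/
noncomputable def mk1 (c : E2) (S s1 : ℝ) (x0 : E2) (y0 : ℝ) (p : Cf E2) : Mem :=
  ⟨c, S, s1, 1, pt x0 y0, 0, p⟩

theorem mk1_T (c : E2) (S s1 : ℝ) (x0 : E2) (y0 : ℝ) (p : Cf E2) (ρ : ℝ) :
    (mk1 c S s1 x0 y0 p).T ρ = max (S ^ 2) ρ := by
  unfold Mem.T mk1
  simp only [div_one]

theorem mk1_scost (c : E2) (S s1 : ℝ) (x0 : E2) (y0 : ℝ) (p : Cf E2) (ρ : ℝ) :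
    (mk1 c S s1 x0 y0 p).scost ρ = s1 * S * max (S ^ 2) ρ := by
  unfold Mem.scost
  rw [mk1_T]
  unfold mk1
  simp only [one_pow, mul_one]

theorem mk1_rays {c : E2} {S s1 : ℝ} {x0 : E2} {y0 : ℝ} {p : Cf E2} {ρ : ℝ} {r : E2 × E2 × ℝ} :
    r ∈ (mk1 c S s1 x0 y0 p).rays ρ ↔
      RayIn c S (max (S ^ 2) ρ) 1 x0 y0 0 p s1 r.1 r.2.1 r.2.2 := by
  rw [Mem.mem_rays, mk1_T]
  unfold mk1
  simp only [mul_one, CDef480.lat_pt, CDef480.pt_two]

theorem mk1_ok {M : ℝ} {c : E2} {S s1 : ℝ} {x0 : E2} {y0 : ℝ} {p : Cf E2} {ρ : ℝ} (h1 : 0 < s1)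
    (h2 : s1 ≤ S) (h3 : Adm M c S (max (S ^ 2) ρ) 1 x0 y0 0 p) :
    (mk1 c S s1 x0 y0 p).Ok M ρ := by
  refine ⟨one_pos, h1, h2, ?_⟩
  rw [mk1_T]
  unfold mk1
  simp only [CDef480.lat_pt, CDef480.pt_two]
  exact h3

/-! ### flat members -/

theorem flat_adm {M : ℝ} (hM : 0 ≤ M) {e : E2} (he : ‖e‖ = 1) {c : E2} {S T : ℝ} (hS : 0 < S)
    {x0 : E2} {y0 : ℝ} : Adm M c S T 1 x0 y0 0 (flatC e c x0) := by
  refine ⟨flatC_disc he c x0, fun s _ => ?_, ?_, ?_⟩
  · rw [flatC_ny, abs_zero, zero_mul]; positivity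
  · rw [flatC_ld, abs_zero]; positivity
  · rw [flatC_ev, sub_self, sub_self, zero_smul, add_zero, inner_zero_right, abs_zero]; positivity

theorem flat_ok {M : ℝ} (hM : 0 ≤ M) {e : E2} (he : ‖e‖ = 1) (c : E2) {S : ℝ} (hS : 0 < S)
    (x0 : E2) (y0 ρ : ℝ) : (mk1 c S S x0 y0 (flatC e c x0)).Ok M ρ :=
  mk1_ok hS le_rfl (flat_adm hM he hS)

theorem flat_cpt {M : ℝ} (hM : 0 ≤ M) (e c : E2) {S : ℝ} (hS : 0 < S)
    (x0 : E2) (y0 ρ : ℝ) : Cpt M ρ (mk1 c S S x0 y0 (flatC e c x0)) := by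
  intro s _
  change |(flatC e c x0).ny s| * ρ ≤ M * (S * 1)
  rw [flatC_ny, abs_zero, zero_mul]
  positivity

/-! ### the central ray -/

section central

variable {c x0 : E2} {sg T y0 s1 M h h3 w ρ : ℝ} {p : Cf E2} {C a : E2} {k0 : ℝ} {k : RI}

/-- the central ray is close to the box. -/
theorem central_near {S Tp : ℝ} (hh : 0 < h) (hh3 : 0 < h3) (hw : 0 ≤ w) (hwS : w ≤ S)
    (hsS : sg ≤ S) (hTT : T ≤ Tp) (hST : S ^ 2 ≤ Tp) (hρT : ρ ≤ Tp) (hk : k ∈ bx h h3 w ρ)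
    (hR : InM c sg T x0 y0 p s1 h h3 C a k0 k) :
    ‖C - c‖ ≤ 2 * S ∧ ‖a - x0‖ ≤ 7 * S ∧
      |(k0 + inner ℝ c a) - (y0 + inner ℝ c x0)| ≤ 12 * Tp := by
  obtain ⟨l1, l2, l3⟩ := norm_of_mem_bx hh hh3 hw hk
  obtain ⟨f1, f2, -, -⟩ := ray_facts hR
  have f5 := (hR.2 0 (by simp)).1.2.2
  rw [nrm_ray'] at f5
  have hsg : 0 ≤ sg := (norm_nonneg _).trans f1
  have hS : 0 ≤ S := hw.trans hwS
  refine ⟨?_, ?_, ?_⟩
  · have e : C - c = (bC h C k - c) - Lat h k.1 := by unfold bC; abel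
    rw [e]
    refine (norm_sub_le _ _).trans ?_
    linarith
  · have e : a - x0 = (ba h a k - x0) - Lat h k.2.1 := by unfold ba; abel
    rw [e]
    refine (norm_sub_le _ _).trans ?_
    linarith
  · have e : (k0 + inner ℝ c a) - (y0 + inner ℝ c x0) =
        (bc h h3 C k0 k + inner ℝ c (ba h a k) + 0 * ‖bC h C k - c‖ ^ 2 / 2 -
          nrm c x0 y0 0) + inner ℝ (bC h C k - c) (Lat h k.2.1) - h3 * k.2.2 := by
      unfold nrm bc ba
      rw [inner_add_right, inner_sub_left]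
      ring
    rw [e]
    have g1 : |inner ℝ (bC h C k - c) (Lat h k.2.1)| ≤ sg * (6 * w) :=
      (abs_real_inner_le_norm _ _).trans (mul_le_mul f1 l2 (norm_nonneg _) hsg)
    have g2 : sg * w ≤ S * S := mul_le_mul hsS hwS hw hS
    refine (abs_sub _ _).trans ?_
    have g3 := abs_add_le (bc h h3 C k0 k + inner ℝ c (ba h a k) + 0 * ‖bC h C k - c‖ ^ 2 / 2 -
          nrm c x0 y0 0) (inner ℝ (bC h C k - c) (Lat h k.2.1))
    rw [mul_one] at f5
    have g4 := abs_nonneg (h3 * (k.2.2 : ℝ))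
    nlinarith

/-- the slab along the central ray. -/
theorem central_slab (hh : 0 < h) (hh3 : 0 < h3) (hM : 1 ≤ M) (hw : 0 ≤ w) (hwρ : w ^ 2 ≤ ρ)
    (hsg : 0 < sg) (hs1 : 0 ≤ s1) (hle : s1 ≤ sg) (hT : sg ^ 2 ≤ T)
    (adm : Adm M c sg T 1 x0 y0 0 p) (hk : k ∈ bx h h3 w ρ)
    (hR : InM c sg T x0 y0 p s1 h h3 C a k0 k) {s : ℝ} (hs : |s - 0| ≤ 1) :
    |p.ev (rx C a s) (ry C k0 s) s| ≤ 35 * M * (s1 + w + Gam p * ρ) := by
  obtain ⟨l1, l2, l3⟩ := norm_of_mem_bx hh hh3 hw hk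
  have hG := ray_gr_le hM hsg hs1 hT hle adm hR
  have r0 : ∀ D b : E2, rx D b 0 = b := fun D b => by unfold rx; simp
  have q0 : ∀ (D : E2) (t : ℝ), ry D t 0 = t := fun D t => by unfold ry; simp
  have hρ0 : 0 ≤ ρ := (sq_nonneg w).trans hwρ
  have hΓ := Gam_nonneg p
  have e1 := ev_near_ray (p := p) (s0 := 0) (R := 1) (eta := Gam p) (G := 3 * M) (lam := 6 * w)
    (nu := 5 * ρ) (kap := w) one_pos (fun s hs => ny_le_Gam p (by simpa using hs))
    (C := bC h C k) (a := ba h a k) (k := bc h h3 C k0 k) (C' := C) (a' := a) (k' := k0)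
    (by rw [r0]; exact hG)
    (by
      rw [r0, r0]
      have e : a - ba h a k = -Lat h k.2.1 := by unfold ba; abel
      rw [e, norm_neg]; exact l2)
    (by
      rw [r0, r0, q0, q0]
      have e : nrm (bC h C k) a k0 0 - nrm (bC h C k) (ba h a k) (bc h h3 C k0 k) 0 =
          -(h3 * k.2.2) := by
        unfold nrm bc ba
        rw [inner_add_right]
        ring
      rw [e, abs_neg]; exact l3)
    (by
      have e : C - bC h C k = -Lat h k.1 := by unfold bC; abel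
      rw [e, norm_neg]; exact l1) hs
  have e2 := (hR.2 s hs).2
  have e3 : p.ev (rx C a s) (ry C k0 s) s =
      p.ev (rx (bC h C k) (ba h a k) s) (ry (bC h C k) (bc h h3 C k0 k) s) s +
      (p.ev (rx C a s) (ry C k0 s) s -
        p.ev (rx (bC h C k) (ba h a k) s) (ry (bC h C k) (bc h h3 C k0 k) s) s) := by ring
  rw [e3]
  refine (abs_add_le _ _).trans ((add_le_add e2 e1).trans ?_)
  have g1 : Gam p * w ^ 2 ≤ Gam p * ρ := by gcongr
  have g2 : 0 ≤ Gam p * ρ := by positivity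
  have g3 : Gam p * ρ ≤ M * (Gam p * ρ) := by nlinarith
  have g4 : s1 ≤ M * s1 := by nlinarith
  have g5 : 0 ≤ M * w := by positivity
  have g6 : 0 ≤ M * s1 := by positivity
  nlinarith

end central

/-! ### the mesh -/

/-- mesh of directions and positions. -/
noncomputable def mh (V ρ : ℝ) : ℝ := ρ / (2 + V)

/-- mesh of normals. -/
noncomputable def mh3 (M V w ρ : ℝ) : ℝ := mh V ρ * w ^ 2 / (2 * M)

theorem mesh {M V w ρ : ℝ} (hM : 1 ≤ M) (hV : 0 ≤ V) (hw : 0 < w) (hw1 : w ≤ 1)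
    (hwρ : w ^ 2 ≤ ρ) (hρw : ρ ≤ w) :
    0 < mh V ρ ∧ 0 < mh3 M V w ρ ∧ mh3 M V w ρ ≤ mh V ρ ∧ 2 * mh V ρ ≤ w ∧
      mh V ρ * (2 + V) = ρ ∧ mh V ρ ≤ ρ ∧ mh3 M V w ρ ≤ ρ := by
  have hρ : 0 < ρ := lt_of_lt_of_le (pow_pos hw 2) hwρ
  have h0 : 0 < mh V ρ := by unfold mh; positivity
  have e : mh V ρ * (2 + V) = ρ := by unfold mh; field_simp
  have h1 : mh V ρ ≤ ρ := by nlinarith
  have h2 : 2 * mh V ρ ≤ w := by nlinarith
  have h3 : mh3 M V w ρ ≤ mh V ρ := by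
    unfold mh3
    rw [div_le_iff₀ (by linarith)]
    have : w ^ 2 ≤ 1 := by nlinarith
    gcongr
    linarith
  have h4 : 0 < mh3 M V w ρ := by unfold mh3; positivity
  exact ⟨h0, h4, h3, h2, e, h1, h3.trans h1⟩

/-! ### the cover -/

/-- constant of the cover. -/
noncomputable def KB (M : ℝ) : ℝ := 14000000 * M ^ 2

theorem KB_nonneg (M : ℝ) : 0 ≤ KB M := by unfold KB; positivity

/-- unit vector. -/
noncomputable def e0 : E2 := EuclideanSpace.single 0 1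

theorem norm_e0 : ‖e0‖ = 1 := by unfold e0; simp

section cov

variable {c x0 : E2} {sg T y0 s1 M h h3 w ρ : ℝ} {p : Cf E2} {C a : E2} {k0 : ℝ} {k : RI}

/-- the flat member of label `j`. -/
noncomputable def mflat (S ρ : ℝ) (c x0 : E2) (y0 : ℝ) (j : RI) : Mem :=
  mk1 (nc S c j) S S (nx S x0 j) (nyy S (max (S ^ 2) ρ) c y0 j) (flatC e0 (nc S c j) (nx S x0 j))

/-- the slab member of label `j`. -/
noncomputable def mslab (S t ρ : ℝ) (c x0 : E2) (y0 : ℝ) (p : Cf E2) (j : RI) : Mem :=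
  mk1 (nc S c j) S t (nx S x0 j) (nyy S (max (S ^ 2) ρ) c y0 j) p

theorem flat_cover {S : ℝ} (hh : 0 < h) (hh3 : 0 < h3) (hw : 0 < w) (hwS : w ≤ S) (hsS : sg ≤ S)
    (hTT : T ≤ max (S ^ 2) ρ) (hk : k ∈ bx h h3 w ρ)
    (hR : InM c sg T x0 y0 p s1 h h3 C a k0 k) :
    ∃ j ∈ netJ, (C, a, k0) ∈ (mflat S ρ c x0 y0 j).rays ρ := by
  have hS : 0 < S := hw.trans_le hwS
  obtain ⟨n1, n2, n3⟩ := central_near (Tp := max (S ^ 2) ρ) hh hh3 hw.le hwS hsS hTT
    (le_max_left _ _) (le_max_right _ _) hk hR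
  obtain ⟨j, hj, m1, m2⟩ := net (S := S) (T := max (S ^ 2) ρ) hS (le_max_left _ _) n1 n2 n3
  refine ⟨j, hj, ?_⟩
  unfold mflat
  rw [mk1_rays]
  refine ⟨m1.trans (by linarith), fun s hs => ?_⟩
  have hs' : |s - 0| ≤ 1 := hs
  refine ⟨(m2 s hs').2, ?_⟩
  rw [flatC_ev]
  refine (abs_real_inner_le_norm _ _).trans ?_
  rw [norm_e0, one_mul]
  exact ((m2 s hs').1).trans (by linarith)

theorem slab_cover (hh : 0 < h) (hh3 : 0 < h3) (hM : 1 ≤ M) (hw : 0 < w) (hwρ : w ^ 2 ≤ ρ)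
    (hwsg : w ≤ sg) (hs1 : 0 < s1) (hle : s1 ≤ sg)
    (adm : Adm M c sg (max (sg ^ 2) ρ) 1 x0 y0 0 p)
    (ht : 35 * M * (s1 + w + Gam p * ρ) ≤ sg) (hk : k ∈ bx h h3 w ρ)
    (hR : InM c sg (max (sg ^ 2) ρ) x0 y0 p s1 h h3 C a k0 k) :
    ∃ j ∈ netJ, (mslab sg (35 * M * (s1 + w + Gam p * ρ)) ρ c x0 y0 p j).Ok (5 + 5 * M) ρ ∧
      Cpt (5 + 5 * M) ρ (mslab sg (35 * M * (s1 + w + Gam p * ρ)) ρ c x0 y0 p j) ∧
      (C, a, k0) ∈ (mslab sg (35 * M * (s1 + w + Gam p * ρ)) ρ c x0 y0 p j).rays ρ := by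
  have hsg : 0 < sg := hw.trans_le hwsg
  have hΓ := Gam_nonneg p
  have hρ0 : 0 ≤ ρ := (sq_nonneg w).trans hwρ
  set t : ℝ := 35 * M * (s1 + w + Gam p * ρ) with htd
  have ht0 : 0 < t := by
    have : 0 ≤ Gam p * ρ := by positivity
    rw [htd]
    positivity
  obtain ⟨n1, n2, n3⟩ := central_near (Tp := max (sg ^ 2) ρ) hh hh3 hw.le hwsg le_rfl le_rfl
    (le_max_left _ _) (le_max_right _ _) hk hR
  obtain ⟨j, hj, m1, m2⟩ := net (S := sg) (T := max (sg ^ 2) ρ) hsg (le_max_left _ _) n1 n2 n3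
  have hray : RayIn (nc sg c j) sg (max (sg ^ 2) ρ) 1 (nx sg x0 j)
      (nyy sg (max (sg ^ 2) ρ) c y0 j) 0 p t C a k0 := by
    refine ⟨m1.trans (by linarith), fun s hs => ?_⟩
    exact ⟨(m2 s hs).2, central_slab hh hh3 hM hw.le hwρ hsg hs1.le hle (le_max_left _ _) adm hk
      hR hs⟩
  have hray1 : RayIn (nc sg c j) sg (max (sg ^ 2) ρ) 1 (nx sg x0 j)
      (nyy sg (max (sg ^ 2) ρ) c y0 j) 0 p (1 * sg * 1) C a k0 := by
    refine ⟨hray.1, fun s hs => ⟨(hray.2 s hs).1, (hray.2 s hs).2.trans ?_⟩⟩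
    linarith
  have hadm := adm_of_ray (M := M) (m := 1) one_pos hsg (le_max_left _ _) (by linarith) zero_le_one
    adm.disc adm.ny hray1
  refine ⟨j, hj, ?_, ?_, ?_⟩
  · have h1 : (mslab sg t ρ c x0 y0 p j).Ok (1 + 1 + 3 * M + 2 * (M * 1)) ρ := mk1_ok ht0 ht hadm
    exact LKMDef299.Ok.mono h1 (by linarith)
  · intro s hs
    change |p.ny s| * ρ ≤ (5 + 5 * M) * (t * 1)
    have hs' : |s| ≤ 1 := by
      have : |s - 0| ≤ 1 := hs
      simpa using this
    have h1 := mul_le_mul_of_nonneg_right (ny_le_Gam p hs') hρ0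
    have h2 : Gam p * ρ ≤ t := by
      rw [htd]
      have : 0 ≤ Gam p * ρ := by positivity
      nlinarith
    nlinarith
  · unfold mslab
    rw [mk1_rays]
    exact hray

end cov

set_option maxHeartbeats 1000000 in
/-- **the cover**. -/
theorem cover {M w ρ V : ℝ} (hM : 1 ≤ M) (hV : 0 ≤ V) (hw : 0 < w) (hw1 : w ≤ 1)
    (hwρ : w ^ 2 ≤ ρ) (hρw : ρ ≤ w) {c x0 : E2} {sg s1 y0 : ℝ} {p : Cf E2} (hs1 : ρ ≤ s1)
    (hle : s1 ≤ sg) (hsg1 : sg ≤ 1) (adm : Adm M c sg (max (sg ^ 2) ρ) 1 x0 y0 0 p) :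
    ∃ (mj : RI → Mem) (v : ℝ), 0 < v ∧
      (∀ j, (mj j).R = 1 ∧ (mj j).s0 = 0 ∧ w ≤ (mj j).s1 ∧ (mj j).sg ≤ 1 ∧
        (mj j).scost ρ = v) ∧
      ∀ (C a : E2) (k0 : ℝ), (∃ k ∈ bx (mh V ρ) (mh3 M V w ρ) w ρ,
        InM c sg (max (sg ^ 2) ρ) x0 y0 p s1 (mh V ρ) (mh3 M V w ρ) C a k0 k) →
        (∃ j ∈ netJ, (mj j).Ok (5 + 5 * M) ρ ∧ Cpt (5 + 5 * M) ρ (mj j) ∧
          (C, a, k0) ∈ (mj j).rays ρ) ∧
          ((filt (InM c sg (max (sg ^ 2) ρ) x0 y0 p s1 (mh V ρ) (mh3 M V w ρ) C a k0)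
            (bx (mh V ρ) (mh3 M V w ρ) w ρ)).card : ℝ) * v ≤
            KB M * ((w / mh V ρ) ^ 4 * (ρ / mh3 M V w ρ)) * (s1 * sg * max (sg ^ 2) ρ) := by
  obtain ⟨hh, hh3, hh3h, h2w, he, hhρ, hh3ρ⟩ := mesh hM hV hw hw1 hwρ hρw
  have hmh3 : mh3 M V w ρ = mh V ρ * w ^ 2 / (2 * M) := rfl
  set h := mh V ρ with hhd
  set h3 := mh3 M V w ρ with hh3d
  have hρ : 0 < ρ := lt_of_lt_of_le (pow_pos hw 2) hwρ
  have hs10 : 0 < s1 := hρ.trans_le hs1
  have hsg : 0 < sg := hs10.trans_le hle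
  have hM0 : 0 < M := by linarith
  have hMM : M ≤ M ^ 2 := by nlinarith
  have hD : 0 ≤ (w / h) ^ 4 * (ρ / h3) := by positivity
  rcases lt_or_ge sg w with hsw | hsw
  · -- small aperture
    have hsq : sg ^ 2 ≤ w ^ 2 := pow_le_pow_left₀ hsg.le hsw.le 2
    have e1 : max (sg ^ 2) ρ = ρ := max_eq_right (hsq.trans hwρ)
    have e2 : max (w ^ 2) ρ = ρ := max_eq_right hwρ
    refine ⟨mflat w ρ c x0 y0, w * w * ρ, by positivity, fun j => ⟨rfl, rfl, le_rfl, hw1, ?_⟩,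
      fun C a k0 hex => ⟨?_, ?_⟩⟩
    · unfold mflat; rw [mk1_scost, e2]
    · obtain ⟨k, hk, hR⟩ := hex
      obtain ⟨j, hj, hmem⟩ := flat_cover (S := w) hh hh3 hw le_rfl hsw.le
        (by rw [e1]; exact le_max_right _ _) hk hR
      exact ⟨j, hj, flat_ok (by linarith) norm_e0 _ hw _ _ _, flat_cpt (by linarith) _ _ hw _ _ _,
        hmem⟩
    · rw [e1] at adm ⊢
      have h1 := share_small (w := w) (C := C) (a := a) (k0 := k0) hh hh3 hh3ρ hM
        (hhρ.trans (hs1.trans hle)) (hhρ.trans hs1) (hsq.trans hwρ) adm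
      refine (mul_le_mul_of_nonneg_right h1 (by positivity)).trans ?_
      have e3 : 10692 * M * ((sg / h) ^ 3 * (s1 / h) * (ρ / h3)) * (w * w * ρ) =
          10692 * M * ((ρ / h3) * (s1 * sg * ρ) * w ^ 2 / h ^ 4) * sg ^ 2 := by
        field_simp
      have e4 : KB M * ((w / h) ^ 4 * (ρ / h3)) * (s1 * sg * ρ) =
          14000000 * M ^ 2 * ((ρ / h3) * (s1 * sg * ρ) * w ^ 2 / h ^ 4) * w ^ 2 := by
        unfold KB
        field_simp
      rw [e3, e4]
      have hX : 0 ≤ (ρ / h3) * (s1 * sg * ρ) * w ^ 2 / h ^ 4 := by positivity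
      gcongr
      nlinarith
  · -- large aperture
    have hT0 : 0 ≤ max (sg ^ 2) ρ := (sq_nonneg _).trans (le_max_left _ _)
    have fin : ∀ {n t : ℝ}, n * t ≤ 14000000 * M ^ 2 * ((w / h) ^ 4 * (ρ / h3) * s1) →
        n * (t * sg * max (sg ^ 2) ρ) ≤
          KB M * ((w / h) ^ 4 * (ρ / h3)) * (s1 * sg * max (sg ^ 2) ρ) := by
      intro n t hn
      have h1 := mul_le_mul_of_nonneg_right hn (mul_nonneg hsg.le hT0)
      unfold KB
      linarith
    have hGw : Gam p * h3 ≤ w := by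
      have g1 := Gam_sg_le hsg (le_max_left _ _) adm
      have g2 : Gam p * w ≤ 2 * M := by
        have := mul_le_mul_of_nonneg_left hsw (Gam_nonneg p)
        linarith
      rw [hmh3, ← mul_div_assoc, div_le_iff₀ (by linarith)]
      have g3 : h ≤ 1 := by linarith
      calc Gam p * (h * w ^ 2) = (Gam p * w) * (h * w) := by ring
        _ ≤ (2 * M) * (1 * w) := by
          have := Gam_nonneg p
          gcongr
        _ = w * (2 * M) := by ring
    by_cases hcase : 6 * M * s1 ≤ sg ∧ 35 * M * (s1 + w + Gam p * ρ) ≤ sg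
    · -- the slab members
      obtain ⟨hthin, hstar⟩ := hcase
      have hΓρ : 0 ≤ Gam p * ρ := mul_nonneg (Gam_nonneg p) hρ.le
      refine ⟨mslab sg (35 * M * (s1 + w + Gam p * ρ)) ρ c x0 y0 p,
        (35 * M * (s1 + w + Gam p * ρ)) * sg * max (sg ^ 2) ρ, by positivity,
        fun j => ⟨rfl, rfl, ?_, hsg1, ?_⟩, fun C a k0 hex => ⟨?_, ?_⟩⟩
      · change w ≤ 35 * M * (s1 + w + Gam p * ρ)
        have : w ≤ M * w := by nlinarith
        nlinarith [mul_nonneg hM0.le hs10.le, mul_nonneg hM0.le hΓρ, mul_nonneg hM0.le hw.le]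
      · unfold mslab; rw [mk1_scost]
      · obtain ⟨k, hk, hR⟩ := hex
        exact slab_cover hh hh3 hM hw hwρ hsw hs10 hle adm hstar hk hR
      · refine fin ?_
        have h1 := share_large (w := w) (C := C) (a := a) (k0 := k0) hh hh3 h2w hh3ρ hM hsw
          (hhρ.trans hs1) (le_max_left _ _) adm hthin hGw
        have h2 := mul_le_mul_of_nonneg_left h1 (by positivity : 0 ≤ 35 * M)
        linarith
    · -- the flat members
      refine ⟨mflat sg ρ c x0 y0, sg * sg * max (sg ^ 2) ρ, by positivity,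
        fun j => ⟨rfl, rfl, hsw, hsg1, ?_⟩, fun C a k0 hex => ⟨?_, ?_⟩⟩
      · unfold mflat; rw [mk1_scost]
      · obtain ⟨k, hk, hR⟩ := hex
        obtain ⟨j, hj, hmem⟩ := flat_cover (S := sg) hh hh3 hw hsw le_rfl le_rfl hk hR
        exact ⟨j, hj, flat_ok (by linarith) norm_e0 _ hsg _ _ _,
          flat_cpt (by linarith) _ _ hsg _ _ _, hmem⟩
      · refine fin ?_
        have hXs : 0 ≤ (w / h) ^ 4 * (ρ / h3) * s1 := by positivity
        rcases lt_or_ge sg (6 * M * s1) with hth | hth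
        · have h1 := (card_filt_le (InM c sg (max (sg ^ 2) ρ) x0 y0 p s1 h h3 C a k0)
            (bx h h3 w ρ)).trans (card_bx_le hh hh3 h2w hh3ρ)
          calc _ ≤ 2005 * ((w / h) ^ 4 * (ρ / h3)) * (6 * M * s1) := by
                gcongr
            _ = 12030 * M * ((w / h) ^ 4 * (ρ / h3) * s1) := by ring
            _ ≤ 14000000 * M ^ 2 * ((w / h) ^ 4 * (ρ / h3) * s1) := by
                gcongr
                norm_num
        · have hst : sg ≤ 35 * M * (s1 + w + Gam p * ρ) := by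
            by_contra hn
            push Not at hn
            exact hcase ⟨hth, hn.le⟩
          have h1 := share_large (w := w) (C := C) (a := a) (k0 := k0) hh hh3 h2w hh3ρ hM hsw
            (hhρ.trans hs1) (le_max_left _ _) adm hth hGw
          have h2 := mul_le_mul_of_nonneg_left h1 (by positivity : 0 ≤ 35 * M)
          calc _ ≤ ((filt (InM c sg (max (sg ^ 2) ρ) x0 y0 p s1 h h3 C a k0)
                (bx h h3 w ρ)).card : ℝ) * (35 * M * (s1 + w + Gam p * ρ)) := by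
                gcongr
            _ ≤ 14000000 * M ^ 2 * ((w / h) ^ 4 * (ρ / h3) * s1) := by linarith

end Crest.Agent.R116.Br430
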