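import Crest.Agent.R116.CWp4_480
import Crest.Agent.R116.CDef_480

/-!
# R116 (S0155): cone packets, part 1 (helper480)

The plate frames `Pl ρ κ C : X ↦ (ρ x', κ (y + C.x'))`, uniform windows, the windows of the caps,
transport multipliers, bounded overlap.
-/

set_option autoImplicit false
set_option linter.unusedSectionVars false

open MeasureTheory FourierTransform
open scoped ContDiff ENNReal

namespace Crest.Agent.R116.CWc480

open Crest.Agent.R138.Wf448
open Crest.Agent.R138.Defs (E2 ee)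
open Crest.Agent.R138.Wpk685 (win fat cen caps)
open Crest.Agent.R116.CWp480 Crest.Agent.R116.CDef480

/-! ### frames -/

/-- the plate map. -/
noncomputable def plL (ρ κ : ℝ) (C : E2) : E3 →ₗ[ℝ] E3 where
  toFun X := pt (ρ • lat X) (κ * (X 2 + inner ℝ C (lat X)))
  map_add' X Y := by
    rw [← pt_add]
    congr 1
    · rw [lat_add, smul_add]
    · rw [lat_add, inner_add_right, PiLp.add_apply]; ring
  map_smul' c X := by
    rw [RingHom.id_apply, ← pt_smul]
    congr 1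
    · rw [lat_smul, smul_comm]
    · rw [lat_smul, inner_smul_right, PiLp.smul_apply, smul_eq_mul]; ring

/-- the plate frame `X ↦ (ρ x', κ (y + C.x'))`. -/
noncomputable def Pl (ρ κ : ℝ) (hρ : 0 < ρ) (hκ : 0 < κ) (C : E2) : E3 ≃L[ℝ] E3 :=
  LinearEquiv.toContinuousLinearEquiv
    { plL ρ κ C with
      invFun := fun Y => pt (ρ⁻¹ • lat Y) (κ⁻¹ * Y 2 - inner ℝ C (ρ⁻¹ • lat Y))
      left_inv := fun X => by
        show pt (ρ⁻¹ • lat (pt (ρ • lat X) (κ * (X 2 + inner ℝ C (lat X)))))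
          (κ⁻¹ * (pt (ρ • lat X) (κ * (X 2 + inner ℝ C (lat X)))) 2 - inner ℝ C
            (ρ⁻¹ • lat (pt (ρ • lat X) (κ * (X 2 + inner ℝ C (lat X)))))) = X
        rw [lat_pt, pt_two, smul_smul, inv_mul_cancel₀ hρ.ne', one_smul, ← mul_assoc,
          inv_mul_cancel₀ hκ.ne', one_mul, add_sub_cancel_right, pt_lat]
      right_inv := fun Y => by
        show pt (ρ • lat (pt (ρ⁻¹ • lat Y) (κ⁻¹ * Y 2 - inner ℝ C (ρ⁻¹ • lat Y))))
          (κ * ((pt (ρ⁻¹ • lat Y) (κ⁻¹ * Y 2 - inner ℝ C (ρ⁻¹ • lat Y))) 2 + inner ℝ C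
            (lat (pt (ρ⁻¹ • lat Y) (κ⁻¹ * Y 2 - inner ℝ C (ρ⁻¹ • lat Y)))))) = Y
        rw [lat_pt, pt_two, smul_smul, mul_inv_cancel₀ hρ.ne', one_smul, sub_add_cancel, ← mul_assoc,
          mul_inv_cancel₀ hκ.ne', one_mul, pt_lat] }

theorem Pl_apply {ρ κ : ℝ} (hρ : 0 < ρ) (hκ : 0 < κ) (C : E2) (X : E3) :
    Pl ρ κ hρ hκ C X = pt (ρ • lat X) (κ * (X 2 + inner ℝ C (lat X))) := rfl

theorem adjE_Pl {ρ κ : ℝ} (hρ : 0 < ρ) (hκ : 0 < κ) (C : E2) (Z : E3) :
    adjE (Pl ρ κ hρ hκ C) Z = pt (ρ • lat Z + (κ * Z 2) • C) (κ * Z 2) := by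
  refine ext_inner_right ℝ fun X => ?_
  rw [inner_adjE, Pl_apply, inner_split, inner_split, lat_pt, lat_pt, pt_two, pt_two,
    inner_add_left, inner_smul_left, inner_smul_right, inner_smul_left]
  simp only [conj_trivial]
  ring

/-- centre of the cap of slope `C` in the slice `η0`. -/
noncomputable def ctr (η0 : ℝ) (C : E2) : E3 := pt (η0 • C) η0

/-- coordinates of a frequency in the frame of the slope `C`. -/
theorem symm_Pl {ρ κ : ℝ} (hρ : 0 < ρ) (hκ : 0 < κ) (η0 : ℝ) (C : E2) (ζ : E3) :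
    (adjE (Pl ρ κ hρ hκ C)).symm (ζ - ctr η0 C) =
      pt (ρ⁻¹ • (lat ζ - ζ 2 • C)) ((ζ 2 - η0) / κ) := by
  rw [ContinuousLinearEquiv.symm_apply_eq, adjE_Pl, lat_pt, pt_two]
  have e1 : κ * ((ζ 2 - η0) / κ) = ζ 2 - η0 := by field_simp
  rw [e1, smul_smul, mul_inv_cancel₀ hρ.ne', one_smul]
  unfold ctr
  ext i
  fin_cases i
  · show ζ 0 - η0 * C 0 = (ζ 0 - ζ 2 * C 0) + (ζ 2 - η0) * C 0
    ring
  · show ζ 1 - η0 * C 1 = (ζ 1 - ζ 2 * C 1) + (ζ 2 - η0) * C 1
    ring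
  · rfl

theorem lat_sub_eq {ζ : E3} (h : ζ 2 ≠ 0) (C : E2) : lat ζ - ζ 2 • C = ζ 2 • (slp ζ - C) := by
  rw [smul_sub, ← lat_slp h]

theorem norm_pt_le (x : E2) (y : ℝ) : ‖pt x y‖ ≤ ‖x‖ + |y| := by
  have h := normsq3 (pt x y)
  rw [lat_pt, pt_two] at h
  have h1 := norm_nonneg x
  have h2 := abs_nonneg y
  have h3 := norm_nonneg (pt x y)
  have h4 := sq_abs y
  nlinarith

theorem norm_lat_le (X : E3) : ‖lat X‖ ≤ ‖X‖ := by
  have h := normsq3 X
  have h1 := norm_nonneg (lat X)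
  have h3 := norm_nonneg X
  nlinarith [sq_nonneg (X 2)]

theorem abs_two_le (X : E3) : |X 2| ≤ ‖X‖ := by
  have h := normsq3 X
  have h3 := norm_nonneg X
  have h4 := sq_abs (X 2)
  have h5 := abs_nonneg (X 2)
  nlinarith [sq_nonneg ‖lat X‖]

/-! ### uniform windows -/

theorem unif_win {P V : Type} [NormedAddCommGroup P] [NormedSpace ℝ P] [NormedAddCommGroup V]
    [InnerProductSpace ℝ V] [FiniteDimensional ℝ V] [MeasurableSpace V] [BorelSpace V]
    {F : P × V → ℂ} (hF : ContDiff ℝ ∞ F) {K : Set P} (hK : IsCompact K)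
    (hs : ∀ p ∈ K, ∀ z, 8 < ‖z‖ → F (p, z) = 0) (N : ℕ) :
    ∃ Q : ℝ, 0 ≤ Q ∧ ∀ p ∈ K, Win N Q (fun z => F (p, z)) := by
  have hb : ∀ j : ℕ, ∃ C : ℝ, ∀ x ∈ K ×ˢ Metric.closedBall (0 : V) 8,
      ‖iteratedFDeriv ℝ j F x‖ ≤ C := by
    intro j
    have h1 : Continuous (iteratedFDeriv ℝ j F) :=
      hF.continuous_iteratedFDeriv (m := j) (mod_cast le_top)
    exact (hK.prod (isCompact_closedBall _ _)).exists_bound_of_continuousOn h1.continuousOn
  choose C hC using hb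
  refine ⟨∑ j ∈ Finset.range (N + 1), |C j|, Finset.sum_nonneg fun j _ => abs_nonneg _, ?_⟩
  intro p hp
  have hsm : ContDiff ℝ ∞ (fun z => F (p, z)) := hF.comp (contDiff_const.prodMk contDiff_id)
  refine ⟨hsm, hs p hp, ?_⟩
  intro j hj z
  by_cases hz : ‖z‖ ≤ 8
  · have h1 : (fun z : V => F (p, z)) = (fun w => F ((p, 0) + w)) ∘ (ContinuousLinearMap.inr ℝ P V) := by
      funext z
      simp
    have h2 : ContDiff ℝ j (fun w => F ((p, (0:V)) + w)) :=
      (hF.comp (contDiff_const.add contDiff_id)).of_le (by exact_mod_cast le_top)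
    rw [h1, ContinuousLinearMap.iteratedFDeriv_comp_right (ContinuousLinearMap.inr ℝ P V) h2 z le_rfl,
      iteratedFDeriv_comp_add_left]
    refine (ContinuousMultilinearMap.norm_compContinuousLinearMap_le _ _).trans ?_
    rw [Finset.prod_const, Finset.card_fin]
    have h3 : ‖ContinuousLinearMap.inr ℝ P V‖ ≤ 1 := by
      refine ContinuousLinearMap.opNorm_le_bound _ zero_le_one fun v => ?_
      simp [Prod.norm_def]
    have h4 : ((p, (0:V)) + (ContinuousLinearMap.inr ℝ P V) z) = (p, z) := by simp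
    rw [h4]
    have h5 := hC j (p, z) ⟨hp, by simpa using hz⟩
    calc _ ≤ |C j| * 1 := by
          refine mul_le_mul (h5.trans (le_abs_self _)) (pow_le_one₀ (norm_nonneg _) h3)
            (by positivity) (abs_nonneg _)
      _ = |C j| := mul_one _
      _ ≤ _ := Finset.single_le_sum (f := fun j => |C j|) (fun j _ => abs_nonneg _)
          (Finset.mem_range.2 (Nat.lt_succ_of_le hj))
  · push Not at hz
    have hev : (fun z => F (p, z)) =ᶠ[nhds z] fun _ => 0 := by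
      have hopen : IsOpen {z : V | 8 < ‖z‖} := isOpen_lt continuous_const continuous_norm
      filter_upwards [hopen.mem_nhds hz] with y hy
      exact hs p hp y hy
    rw [(hev.iteratedFDeriv ℝ j).self_of_nhds]
    have : iteratedFDeriv ℝ j (fun _ : V => (0:ℂ)) z = 0 := by
      have := congrFun (iteratedFDeriv_fun_zero (𝕜 := ℝ) (E := V) (F := ℂ) (n := j)) z
      exact this
    rw [this, norm_zero]
    exact Finset.sum_nonneg fun j _ => abs_nonneg _




/-- one dimensional bump. -/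
noncomputable def bt (x : ℝ) : ℂ :=
  (((⟨3/2, 2, by norm_num, by norm_num⟩ : ContDiffBump (0 : ℝ)) x : ℝ) : ℂ)

theorem bt_smooth : ContDiff ℝ ∞ bt := Complex.ofRealCLM.contDiff.comp (ContDiffBump.contDiff _)

theorem bt_one {x : ℝ} (h : |x| ≤ 3/2) : bt x = 1 := by
  unfold bt
  rw [ContDiffBump.one_of_mem_closedBall]
  · simp
  · rw [Metric.mem_closedBall, Real.dist_eq, sub_zero]; exact h

theorem bt_zero {x : ℝ} (h : 2 ≤ |x|) : bt x = 0 := by
  unfold bt
  rw [ContDiffBump.zero_of_le_dist]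
  · simp
  · rw [Real.dist_eq, sub_zero]; exact h

theorem norm_bt_le (x : ℝ) : ‖bt x‖ ≤ 1 := by
  unfold bt
  rw [Complex.norm_real, Real.norm_eq_abs, abs_of_nonneg (ContDiffBump.nonneg _)]
  exact ContDiffBump.le_one _

theorem etw_eq (η0 κ : ℝ) (ζ : E3) : etw η0 κ ζ = bt ((ζ 2 - η0) / κ) := rfl




theorem coord_smooth (i : Fin 3) : ContDiff ℝ ∞ (fun z : E3 => z i) :=
  (EuclideanSpace.proj (𝕜 := ℝ) i).contDiff

theorem lat_smooth : ContDiff ℝ ∞ lat := latL.contDiff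


theorem eta_range {η0 κ z : ℝ} (h1 : 1 ≤ η0) (h2 : η0 ≤ 2) (hκ : 0 ≤ κ) (hκ2 : κ ≤ 1/4)
    (hz : |z| ≤ 2) : 1/2 ≤ η0 + κ * z ∧ η0 + κ * z ≤ 5/2 := by
  have h3 : |κ * z| ≤ 1/2 := by
    rw [abs_mul, abs_of_nonneg hκ]
    calc κ * |z| ≤ 1/4 * 2 := by gcongr
      _ = 1/2 := by norm_num
  obtain ⟨h4, h5⟩ := abs_le.1 h3
  constructor <;> linarith




/-! ### transport multipliers -/

/-- the bump equal to one on the ball of radius `5`, zero off the ball of radius `7`. -/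
noncomputable def b57 (z : E3) : ℂ := (((⟨5, 7, by norm_num, by norm_num⟩ : ContDiffBump (0 : E3)) z : ℝ) : ℂ)

theorem b57_smooth : ContDiff ℝ ∞ b57 := Complex.ofRealCLM.contDiff.comp (ContDiffBump.contDiff _)

theorem b57_one {z : E3} (h : ‖z‖ ≤ 5) : b57 z = 1 := by
  unfold b57
  rw [ContDiffBump.one_of_mem_closedBall]
  · simp
  · simpa using h

theorem b57_zero {z : E3} (h : 7 ≤ ‖z‖) : b57 z = 0 := by
  unfold b57
  rw [ContDiffBump.zero_of_le_dist]
  · simp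
  · simpa using h







end Crest.Agent.R116.CWc480
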