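import Crest.Agent.R138.Wf5_448

-- ▼ part R116/CWp1_480
section

/-!
# R116 (S0155): generic packet machine, part 1 (helper480)

Inner product space `V`, arbitrary linear metric `A : V ≃L[ℝ] V` on the physical side: weights slowly
varying with respect to `‖A ·‖`, averages, local orthogonality (`sv_row`, `sv_col`, `sv_mult`) for
frequency sets whose `A`-thickenings have bounded overlap.
-/

set_option autoImplicit false
set_option linter.unusedSectionVars false

open MeasureTheory FourierTransform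
open scoped ContDiff ENNReal

namespace Crest.Agent.R116.CWp480

open Crest.Agent.R138.Wf448

variable {V : Type} [NormedAddCommGroup V] [InnerProductSpace ℝ V] [FiniteDimensional ℝ V]
  [MeasurableSpace V] [BorelSpace V]

/-! ### the adjoint as an equivalence -/

/-- the adjoint as an equivalence. -/
noncomputable def adjE (A : V ≃L[ℝ] V) : V ≃L[ℝ] V :=
  ContinuousLinearEquiv.equivOfInverse (adj (A : V →L[ℝ] V)) (adj (A.symm : V →L[ℝ] V))
    (fun x => by
      refine ext_inner_right ℝ fun v => ?_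
      rw [ContinuousLinearMap.adjoint_inner_left, ContinuousLinearMap.adjoint_inner_left]
      simp)
    (fun x => by
      refine ext_inner_right ℝ fun v => ?_
      rw [ContinuousLinearMap.adjoint_inner_left, ContinuousLinearMap.adjoint_inner_left]
      simp)

theorem adjE_apply (A : V ≃L[ℝ] V) (x : V) : adjE A x = adj (A : V →L[ℝ] V) x := rfl

theorem inner_adjE (A : V ≃L[ℝ] V) (x y : V) : inner ℝ (adjE A x) y = inner ℝ x (A y) := by
  rw [adjE_apply, ContinuousLinearMap.adjoint_inner_left]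
  rfl

theorem inner_adjE' (A : V ≃L[ℝ] V) (x y : V) : inner ℝ x (adjE A y) = inner ℝ (A x) y := by
  rw [real_inner_comm, inner_adjE, real_inner_comm]

/-! ### weights -/

/-- positive weights varying slowly with respect to `‖A ·‖`. -/
structure SV (A : V ≃L[ℝ] V) (K : ℝ) (n : ℕ) (w : V → ℝ) : Prop where
  meas : Measurable w
  pos : ∀ x, 0 < w x
  sv : ∀ x y, w x ≤ K * (1 + ‖A (x - y)‖) ^ n * w y

theorem SV.one_le {A : V ≃L[ℝ] V} {K : ℝ} {n : ℕ} {w : V → ℝ} (hw : SV A K n w) : 1 ≤ K := by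
  have h1 := hw.sv 0 0
  have h2 := hw.pos 0
  simp only [sub_self, map_zero, norm_zero, add_zero, one_pow, mul_one] at h1
  by_contra h3
  push Not at h3
  nlinarith

theorem SV.inv {A : V ≃L[ℝ] V} {K : ℝ} {n : ℕ} {w : V → ℝ} (hw : SV A K n w) :
    SV A K n (fun x => (w x)⁻¹) := by
  refine ⟨hw.meas.inv, fun x => inv_pos.2 (hw.pos x), fun x y => ?_⟩
  have h1 := hw.sv y x
  have e : ‖A (y - x)‖ = ‖A (x - y)‖ := by rw [← neg_sub x y, map_neg, norm_neg]
  rw [e] at h1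
  have hx := hw.pos x
  have hy := hw.pos y
  rw [inv_eq_one_div, inv_eq_one_div, div_le_iff₀ hx]
  calc (1:ℝ) = w y / w y := by field_simp
    _ ≤ (K * (1 + ‖A (x - y)‖) ^ n * w x) / w y := by gcongr
    _ = _ := by ring

theorem SV.mono {A : V ≃L[ℝ] V} {K K' : ℝ} {n n' : ℕ} {w : V → ℝ} (hw : SV A K n w)
    (hK : K ≤ K') (hn : n ≤ n') : SV A K' n' w := by
  refine ⟨hw.meas, hw.pos, fun x y => (hw.sv x y).trans ?_⟩
  have h1 := hw.one_le
  have h2 : (1:ℝ) ≤ 1 + ‖A (x - y)‖ := by have := norm_nonneg (A (x - y)); linarith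
  have h3 := (hw.pos y).le
  have h4 : (1 + ‖A (x - y)‖) ^ n ≤ (1 + ‖A (x - y)‖) ^ n' := pow_le_pow_right₀ h2 hn
  have h5 : 0 ≤ K' := by linarith
  gcongr

/-- a weight slowly varying for `A` is slowly varying for every finer metric. -/
theorem SV.of_le {A A' : V ≃L[ℝ] V} {K : ℝ} {n : ℕ} {w : V → ℝ} (hw : SV A K n w) {L : ℝ}
    (hL : 1 ≤ L) (hA : ∀ x, ‖A x‖ ≤ L * ‖A' x‖) : SV A' (K * L ^ n) n w := by
  refine ⟨hw.meas, hw.pos, fun x y => (hw.sv x y).trans ?_⟩
  have h1 := hw.one_le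
  have h3 := (hw.pos y).le
  have h4 : 1 + ‖A (x - y)‖ ≤ L * (1 + ‖A' (x - y)‖) := by
    have := hA (x - y)
    nlinarith
  calc K * (1 + ‖A (x - y)‖) ^ n * w y ≤ K * (L * (1 + ‖A' (x - y)‖)) ^ n * w y := by gcongr
    _ = _ := by rw [mul_pow]; ring

theorem SV.comp_sub {A : V ≃L[ℝ] V} {K : ℝ} {n : ℕ} {w : V → ℝ} (hw : SV A K n w) (v : V) :
    SV A K n (fun x => w (x - v)) := by
  refine ⟨hw.meas.comp (measurable_id.sub_const v), fun x => hw.pos _, fun x y => ?_⟩
  have := hw.sv (x - v) (y - v)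
  rwa [sub_sub_sub_cancel_right] at this

theorem SV_one (A : V ≃L[ℝ] V) (n : ℕ) : SV A 1 n (fun _ => 1) := by
  refine ⟨measurable_const, fun _ => one_pos, fun x y => ?_⟩
  have : (1:ℝ) ≤ (1 + ‖A (x - y)‖) ^ n := one_le_pow₀ (by
    have := norm_nonneg (A (x - y))
    linarith)
  linarith

theorem SV_pt (A : V ≃L[ℝ] V) (n : ℕ) (x : V) : SV A 1 n (fun y => ((1 + ‖A (y - x)‖) ^ n)⁻¹) := by
  refine ⟨?_, fun y => by positivity, fun y z => ?_⟩
  · have : Continuous (fun y : V => A (y - x)) := A.continuous.comp (continuous_id.sub continuous_const)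
    exact ((measurable_const.add this.norm.measurable).pow_const n).inv
  rw [one_mul, ← div_eq_mul_inv, inv_eq_one_div, div_le_div_iff₀ (by positivity) (by positivity),
    one_mul, ← mul_pow]
  refine pow_le_pow_left₀ (by positivity) ?_ n
  have h1 : ‖A (z - x)‖ ≤ ‖A (y - z)‖ + ‖A (y - x)‖ := by
    have : A (z - x) = -A (y - z) + A (y - x) := by rw [← map_neg, ← map_add]; congr 1; abel
    rw [this]
    exact (norm_add_le _ _).trans (by rw [norm_neg])
  nlinarith [mul_nonneg (norm_nonneg (A (y - z))) (norm_nonneg (A (y - x)))]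

/-! ### scaling of integrals -/

theorem adet0 (A : V ≃L[ℝ] V) : 0 < adet (A : V →L[ℝ] V) := adet_pos A

theorem lintegral_scale (A : V ≃L[ℝ] V) (f : V → ℝ≥0∞) (x : V) :
    ∫⁻ z, f (A (x - z)) = ENNReal.ofReal (adet (A : V →L[ℝ] V))⁻¹ * ∫⁻ y, f y := by
  have h1 : ∫⁻ z, f (A (x - z)) = ∫⁻ z, f (A z) :=
    lintegral_sub_left_eq_self (fun z => f (A z)) x
  rw [h1]
  exact lintegral_comp_det A f

theorem lintegral_scale' (A : V ≃L[ℝ] V) (f : V → ℝ≥0∞) (z : V) :
    ∫⁻ x, f (A (x - z)) = ENNReal.ofReal (adet (A : V →L[ℝ] V))⁻¹ * ∫⁻ y, f y := by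
  have h1 : ∫⁻ x, f (A (x - z)) = ∫⁻ x, f (A x) :=
    lintegral_sub_right_eq_self (fun x => f (A x)) z
  rw [h1]
  exact lintegral_comp_det A f

/-! ### averages -/

/-- exponent gained for integrability. -/
noncomputable def dd (V : Type) [NormedAddCommGroup V] [InnerProductSpace ℝ V] : ℕ :=
  Module.finrank ℝ V + 1

theorem integrable_dec : Integrable (fun y : V => ((1 + ‖y‖ ^ 2) ^ (dd V))⁻¹) := by
  have h := integrable_one_add_norm (μ := (volume : Measure V)) (r := ((2 * dd V : ℕ) : ℝ)) (by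
    unfold dd
    push_cast
    have : (0:ℝ) ≤ Module.finrank ℝ V := Nat.cast_nonneg _
    linarith)
  refine (h.const_mul (2 ^ dd V)).mono' (by fun_prop) (Filter.Eventually.of_forall fun y => ?_)
  rw [Real.norm_eq_abs, abs_of_pos (by positivity), Real.rpow_neg (by positivity), Real.rpow_natCast,
    inv_eq_one_div, div_le_iff₀ (by positivity), pow_mul]
  have h0 := norm_nonneg y
  have h2 : (1 + ‖y‖) ^ 2 ≤ 2 * (1 + ‖y‖ ^ 2) := by nlinarith [sq_nonneg (1 - ‖y‖)]
  have h3 : ((1 + ‖y‖) ^ 2) ^ dd V ≤ 2 ^ dd V * (1 + ‖y‖ ^ 2) ^ dd V := by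
    rw [← mul_pow]
    gcongr
  have h4 : 0 < ((1 + ‖y‖) ^ 2) ^ dd V := by positivity
  field_simp
  linarith

/-- the constant of the averages. -/
noncomputable def cdec (V : Type) [NormedAddCommGroup V] [InnerProductSpace ℝ V]
    [FiniteDimensional ℝ V] [MeasurableSpace V] [BorelSpace V] : ℝ :=
  ∫ y : V, ((1 + ‖y‖ ^ 2) ^ (dd V))⁻¹

theorem cdec_nonneg : 0 ≤ cdec V := integral_nonneg fun y => by positivity

/-- the integrable profile. -/
noncomputable def dec (y : V) : ℝ≥0∞ := ENNReal.ofReal (((1 + ‖y‖ ^ 2) ^ (dd V))⁻¹)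

theorem lintegral_dec : ∫⁻ y : V, dec y = ENNReal.ofReal (cdec V) := by
  unfold dec
  rw [cdec, ofReal_integral_eq_lintegral_ofReal integrable_dec
    (Filter.Eventually.of_forall fun y => by positivity)]

/-- volume of the unit ball. -/
noncomputable def vb (V : Type) [NormedAddCommGroup V] [InnerProductSpace ℝ V]
    [FiniteDimensional ℝ V] [MeasurableSpace V] [BorelSpace V] : ℝ :=
  (volume (Metric.closedBall (0 : V) 1)).toReal

theorem vb_pos : 0 < vb V := by
  unfold vb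
  refine ENNReal.toReal_pos ?_ measure_closedBall_lt_top.ne
  exact (Metric.measure_closedBall_pos volume (0 : V) one_pos).ne'

theorem vb_eq : volume (Metric.closedBall (0 : V) 1) = ENNReal.ofReal (vb V) := by
  unfold vb
  rw [ENNReal.ofReal_toReal measure_closedBall_lt_top.ne]

/-- weight of `448` in the metric `A`. -/
theorem dw_def (n : ℕ) (A : V ≃L[ℝ] V) (x : V) :
    dw n (A : V →L[ℝ] V) x = ((1 + ‖A x‖ ^ 2) ^ n)⁻¹ := rfl

theorem avg_lower {A : V ≃L[ℝ] V} {K : ℝ} {n : ℕ} {w : V → ℝ} (hw : SV A K n w) (x : V) :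
    ENNReal.ofReal (adet (A : V →L[ℝ] V)) * ∫⁻ z, ENNReal.ofReal (w z) *
      ENNReal.ofReal (dw (n + dd V) (A : V →L[ℝ] V) (x - z)) ≤
      ENNReal.ofReal (2 ^ n * cdec V * K) * ENNReal.ofReal (w x) := by
  have hA := hw.one_le
  have ha := adet0 A
  have h1 : ∀ z, ENNReal.ofReal (w z) * ENNReal.ofReal (dw (n + dd V) (A : V →L[ℝ] V) (x - z)) ≤
      ENNReal.ofReal (2 ^ n * K * w x) * dec (A (x - z)) := by
    intro z
    have hx := (hw.pos x).le
    have hz := (hw.pos z).le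
    unfold dec
    rw [← ENNReal.ofReal_mul hz, ← ENNReal.ofReal_mul (by positivity)]
    apply ENNReal.ofReal_le_ofReal
    rw [dw_def]
    set u : ℝ := ‖A (x - z)‖ with hu
    have hu0 : 0 ≤ u := norm_nonneg _
    have h2 := hw.sv z x
    have h3 : ‖A (z - x)‖ = u := by
      rw [hu, ← neg_sub x z, map_neg, norm_neg]
    rw [h3] at h2
    have h4 : (1 + u) ^ n ≤ 2 ^ n * (1 + u ^ 2) ^ n := by
      rw [← mul_pow]
      refine pow_le_pow_left₀ (by positivity) ?_ n
      nlinarith [sq_nonneg (1 - u), sq_nonneg u]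
    rw [pow_add, mul_inv, ← mul_assoc]
    refine mul_le_mul_of_nonneg_right ?_ (by positivity)
    rw [← div_eq_mul_inv, div_le_iff₀ (by positivity)]
    calc w z ≤ K * (1 + u) ^ n * w x := h2
      _ ≤ K * (2 ^ n * (1 + u ^ 2) ^ n) * w x := by gcongr
      _ = _ := by ring
  calc _ ≤ ENNReal.ofReal (adet (A : V →L[ℝ] V)) * ∫⁻ z, ENNReal.ofReal (2 ^ n * K * w x) *
        dec (A (x - z)) := mul_le_mul_right (lintegral_mono h1) _
    _ = ENNReal.ofReal (adet (A : V →L[ℝ] V)) * (ENNReal.ofReal (2 ^ n * K * w x) *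
        (ENNReal.ofReal (adet (A : V →L[ℝ] V))⁻¹ * ENNReal.ofReal (cdec V))) := by
        rw [lintegral_const_mul' _ _ ENNReal.ofReal_ne_top, lintegral_scale A dec x, lintegral_dec]
    _ = _ := by
        have hx := (hw.pos x).le
        have hc := cdec_nonneg (V := V)
        rw [← ENNReal.ofReal_mul (by positivity), ← ENNReal.ofReal_mul (by positivity),
          ← ENNReal.ofReal_mul (by positivity), ← ENNReal.ofReal_mul (by positivity)]
        congr 1
        field_simp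

theorem avg_upper {A : V ≃L[ℝ] V} {K : ℝ} {n : ℕ} {w : V → ℝ} (hw : SV A K n w) (x : V) :
    ENNReal.ofReal (w x) ≤ ENNReal.ofReal (K * 2 ^ (2 * n + dd V) / vb V) *
      (ENNReal.ofReal (adet (A : V →L[ℝ] V)) *
      ∫⁻ z, ENNReal.ofReal (w z) * ENNReal.ofReal (dw (n + dd V) (A : V →L[ℝ] V) (x - z))) := by
  have hA := hw.one_le
  have hx := hw.pos x
  have ha := adet0 A
  have hv := vb_pos (V := V)
  have h1 : ENNReal.ofReal (w x / (K * 2 ^ n) * (2 ^ (n + dd V))⁻¹) *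
      ENNReal.ofReal ((adet (A : V →L[ℝ] V))⁻¹ * vb V) ≤
      ∫⁻ z, ENNReal.ofReal (w z) * ENNReal.ofReal (dw (n + dd V) (A : V →L[ℝ] V) (x - z)) := by
    calc _ = ∫⁻ z, ENNReal.ofReal (w x / (K * 2 ^ n) * (2 ^ (n + dd V))⁻¹) *
          (Metric.closedBall (0 : V) 1).indicator (fun _ => (1 : ℝ≥0∞)) (A (x - z)) := by
          rw [lintegral_const_mul' _ _ ENNReal.ofReal_ne_top,
            lintegral_scale A ((Metric.closedBall (0 : V) 1).indicator (fun _ => (1 : ℝ≥0∞))) x,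
            lintegral_indicator Metric.isClosed_closedBall.measurableSet, setLIntegral_one, vb_eq,
            ENNReal.ofReal_mul (inv_nonneg.2 ha.le)]
      _ ≤ _ := by
          refine lintegral_mono fun z => ?_
          by_cases hz : A (x - z) ∈ Metric.closedBall (0 : V) 1
          · rw [Set.indicator_of_mem hz, mul_one]
            have hz' : ‖A (x - z)‖ ≤ 1 := by simpa using hz
            have hn0 : 0 ≤ ‖A (x - z)‖ := norm_nonneg _
            rw [← ENNReal.ofReal_mul (hw.pos z).le]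
            apply ENNReal.ofReal_le_ofReal
            refine mul_le_mul ?_ ?_ (by positivity) (hw.pos z).le
            · rw [div_le_iff₀ (by positivity)]
              have h2 := hw.sv x z
              have h3 : (1 + ‖A (x - z)‖) ^ n ≤ 2 ^ n := by
                refine pow_le_pow_left₀ (by positivity) (by linarith) n
              have hz0 := (hw.pos z).le
              calc w x ≤ K * (1 + ‖A (x - z)‖) ^ n * w z := h2
                _ ≤ K * 2 ^ n * w z := by gcongr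
                _ = _ := by ring
            · rw [dw_def]
              refine inv_anti₀ (by positivity) ?_
              refine pow_le_pow_left₀ (by positivity) ?_ _
              nlinarith
          · rw [Set.indicator_of_notMem hz, mul_zero]
            exact zero_le
  calc ENNReal.ofReal (w x) = ENNReal.ofReal (K * 2 ^ (2 * n + dd V) / vb V) *
        (ENNReal.ofReal (adet (A : V →L[ℝ] V)) *
        (ENNReal.ofReal (w x / (K * 2 ^ n) * (2 ^ (n + dd V))⁻¹) *
          ENNReal.ofReal ((adet (A : V →L[ℝ] V))⁻¹ * vb V))) := by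
        rw [← ENNReal.ofReal_mul (by positivity), ← ENNReal.ofReal_mul (by positivity),
          ← ENNReal.ofReal_mul (by positivity)]
        congr 1
        have : (2:ℝ) ^ (2 * n + dd V) = 2 ^ n * 2 ^ (n + dd V) := by
          rw [← pow_add]; congr 1; omega
        rw [this]
        field_simp
    _ ≤ _ := by gcongr

theorem measurable_dwsub (n : ℕ) (A : V →L[ℝ] V) :
    Measurable (fun p : V × V => ENNReal.ofReal (dw n A (p.1 - p.2))) := by
  have h : Continuous (dw n A) := continuous_dw n A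
  exact ENNReal.measurable_ofReal.comp (h.comp (continuous_fst.sub continuous_snd)).measurable

theorem measurable_dwsub' (n : ℕ) (A : V →L[ℝ] V) (x : V) :
    Measurable (fun z : V => ENNReal.ofReal (dw n A (x - z))) := by
  have h : Continuous (dw n A) := continuous_dw n A
  have h2 : Continuous (fun z : V => dw n A (x - z)) := h.comp (continuous_const.sub continuous_id)
  exact h2.measurable.ennreal_ofReal

theorem tonelli_w {A : V →L[ℝ] V} {n : ℕ} {w : V → ℝ} (hw : Measurable w) {F : V → ℝ≥0∞}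
    (hF : Measurable F) :
    ∫⁻ z, ENNReal.ofReal (w z) * ∫⁻ x, ENNReal.ofReal (dw n A (x - z)) * F x =
      ∫⁻ x, (∫⁻ z, ENNReal.ofReal (w z) * ENNReal.ofReal (dw n A (x - z))) * F x := by
  have hm : Measurable (fun p : V × V => ENNReal.ofReal (dw n A (p.2 - p.1)) * F p.2) :=
    ((measurable_dwsub n A).comp measurable_swap).mul (hF.comp measurable_snd)
  calc _ = ∫⁻ z, ∫⁻ x, ENNReal.ofReal (w z) * (ENNReal.ofReal (dw n A (x - z)) * F x) := by
        refine lintegral_congr fun z => ?_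
        rw [lintegral_const_mul' _ _ ENNReal.ofReal_ne_top]
    _ = ∫⁻ x, ∫⁻ z, ENNReal.ofReal (w z) * (ENNReal.ofReal (dw n A (x - z)) * F x) := by
        rw [lintegral_lintegral_swap]
        exact ((hw.comp measurable_fst).ennreal_ofReal.mul hm).aemeasurable
    _ = _ := by
        refine lintegral_congr fun x => ?_
        rw [← lintegral_mul_const]
        · refine lintegral_congr fun z => ?_
          ring
        · exact hw.ennreal_ofReal.mul (measurable_dwsub' n A x)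

/-- the weighted energy of `𝓕⁻ g`. -/
noncomputable def WE (w : V → ℝ) (g : V → ℂ) : ℝ≥0∞ :=
  ∫⁻ x, ENNReal.ofReal (w x) * ‖𝓕⁻ g x‖ₑ ^ 2

theorem wE_eq (n : ℕ) (A : V →L[ℝ] V) (c : V) (g : V → ℂ) :
    wE n A c g = ∫⁻ x, ENNReal.ofReal (dw n A (x - c)) * ‖𝓕⁻ g x‖ₑ ^ 2 := by
  unfold wE LI
  refine lintegral_congr fun x => ?_
  rw [ENNReal.ofReal_mul (dw_pos n A _).le, ENNReal.ofReal_pow (norm_nonneg _), ofReal_norm]

theorem WE_mono {w w' : V → ℝ} (h : ∀ x, w x ≤ w' x) (g : V → ℂ) : WE w g ≤ WE w' g :=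
  lintegral_mono fun x => mul_le_mul_left (ENNReal.ofReal_le_ofReal (h x)) _

theorem WE_const_mul {c : ℝ} (hc : 0 ≤ c) (w : V → ℝ) (g : V → ℂ) :
    WE (fun x => c * w x) g = ENNReal.ofReal c * WE w g := by
  unfold WE
  rw [← lintegral_const_mul' _ _ ENNReal.ofReal_ne_top]
  refine lintegral_congr fun x => ?_
  rw [ENNReal.ofReal_mul hc, mul_assoc]

theorem lift_le {A : V ≃L[ℝ] V} {K : ℝ} {n : ℕ} {w : V → ℝ} (hw : SV A K n w) {F : V → ℝ≥0∞}
    (hF : Measurable F) : ∫⁻ x, ENNReal.ofReal (w x) * F x ≤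
      ENNReal.ofReal (K * 2 ^ (2 * n + dd V) / vb V) * (ENNReal.ofReal (adet (A : V →L[ℝ] V)) *
        ∫⁻ z, ENNReal.ofReal (w z) * ∫⁻ x, ENNReal.ofReal (dw (n + dd V) (A : V →L[ℝ] V) (x - z)) *
          F x) := by
  rw [tonelli_w hw.meas hF, ← lintegral_const_mul' _ _ ENNReal.ofReal_ne_top,
    ← lintegral_const_mul' _ _ ENNReal.ofReal_ne_top]
  refine lintegral_mono fun x => ?_
  have h1 := mul_le_mul_left (avg_upper hw x) (F x)
  refine h1.trans (le_of_eq ?_)
  rw [mul_assoc, mul_assoc]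

theorem le_lift {A : V ≃L[ℝ] V} {K : ℝ} {n : ℕ} {w : V → ℝ} (hw : SV A K n w) {F : V → ℝ≥0∞}
    (hF : Measurable F) : ENNReal.ofReal (adet (A : V →L[ℝ] V)) *
        ∫⁻ z, ENNReal.ofReal (w z) * ∫⁻ x, ENNReal.ofReal (dw (n + dd V) (A : V →L[ℝ] V) (x - z)) *
          F x ≤
      ENNReal.ofReal (2 ^ n * cdec V * K) * ∫⁻ x, ENNReal.ofReal (w x) * F x := by
  rw [tonelli_w hw.meas hF, ← lintegral_const_mul' _ _ ENNReal.ofReal_ne_top,
    ← lintegral_const_mul' _ _ ENNReal.ofReal_ne_top]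
  refine lintegral_mono fun x => ?_
  have h1 := mul_le_mul_left (avg_lower hw x) (F x)
  rw [mul_assoc, mul_assoc] at h1
  exact h1

theorem measurable_nsq {g : V → ℂ} (hg : Integrable g) : Measurable (fun x => ‖𝓕⁻ g x‖ₑ ^ 2) :=
  ((fourierInv_continuous hg).measurable.enorm).pow_const 2

theorem WE_le {A : V ≃L[ℝ] V} {K : ℝ} {n : ℕ} {w : V → ℝ} (hw : SV A K n w) {g : V → ℂ}
    (hg : Integrable g) : WE w g ≤ ENNReal.ofReal (K * 2 ^ (2 * n + dd V) / vb V) *
      (ENNReal.ofReal (adet (A : V →L[ℝ] V)) *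
        ∫⁻ z, ENNReal.ofReal (w z) * wE (n + dd V) (A : V →L[ℝ] V) z g) := by
  have h1 := lift_le hw (measurable_nsq hg)
  simp only [wE_eq]
  exact h1

theorem le_WE {A : V ≃L[ℝ] V} {K : ℝ} {n : ℕ} {w : V → ℝ} (hw : SV A K n w) {g : V → ℂ}
    (hg : Integrable g) : ENNReal.ofReal (adet (A : V →L[ℝ] V)) *
        ∫⁻ z, ENNReal.ofReal (w z) * wE (n + dd V) (A : V →L[ℝ] V) z g ≤
      ENNReal.ofReal (2 ^ n * cdec V * K) * WE w g := by
  have h1 := le_lift hw (measurable_nsq hg)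
  simp only [wE_eq]
  exact h1

theorem measurable_wE (n : ℕ) (A : V →L[ℝ] V) {g : V → ℂ} (hg : Integrable g) :
    Measurable (fun z => wE n A z g) := by
  simp only [wE_eq]
  refine Measurable.lintegral_prod_left' (f := fun p : V × V =>
    ENNReal.ofReal (dw n A (p.1 - p.2)) * ‖𝓕⁻ g p.1‖ₑ ^ 2) ?_
  exact (measurable_dwsub n A).mul ((measurable_nsq hg).comp measurable_fst)

/-- constant of the lifting. -/
noncomputable def cl (V : Type) [NormedAddCommGroup V] [InnerProductSpace ℝ V]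
    [FiniteDimensional ℝ V] [MeasurableSpace V] [BorelSpace V] (n : ℕ) : ℝ :=
  2 ^ (3 * n + dd V) * cdec V / vb V

theorem cl_nonneg (n : ℕ) : 0 ≤ cl V n := by
  unfold cl
  have := cdec_nonneg (V := V)
  have := vb_pos (V := V)
  positivity

/-- lifting an inequality between `448`'s energies to slowly varying weights. -/
theorem lift_ineq {A : V ≃L[ℝ] V} {K : ℝ} {n : ℕ} {w : V → ℝ} (hw : SV A K n w) {κ : Type*}
    (s : Finset κ) (g : κ → V → ℂ) {ι : Type*} (s' : Finset ι) (g' : ι → V → ℂ)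
    (hg : ∀ k ∈ s, Integrable (g k)) (hg' : ∀ i ∈ s', Integrable (g' i)) {C : ℝ} (hC : 0 ≤ C)
    (H : ∀ z, ∑ k ∈ s, wE (n + dd V) (A : V →L[ℝ] V) z (g k) ≤
      ENNReal.ofReal C * ∑ i ∈ s', wE (n + dd V) (A : V →L[ℝ] V) z (g' i)) :
    ∑ k ∈ s, WE w (g k) ≤ ENNReal.ofReal (K ^ 2 * cl V n * C) * ∑ i ∈ s', WE w (g' i) := by
  have hA := hw.one_le
  have hc := cdec_nonneg (V := V)
  have hv := vb_pos (V := V)
  have ha := adet0 A
  calc ∑ k ∈ s, WE w (g k) ≤ ∑ k ∈ s, ENNReal.ofReal (K * 2 ^ (2 * n + dd V) / vb V) *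
        (ENNReal.ofReal (adet (A : V →L[ℝ] V)) *
          ∫⁻ z, ENNReal.ofReal (w z) * wE (n + dd V) (A : V →L[ℝ] V) z (g k)) :=
        Finset.sum_le_sum fun k hk => WE_le hw (hg k hk)
    _ = ENNReal.ofReal (K * 2 ^ (2 * n + dd V) / vb V) * (ENNReal.ofReal (adet (A : V →L[ℝ] V)) *
        ∫⁻ z, ENNReal.ofReal (w z) * ∑ k ∈ s, wE (n + dd V) (A : V →L[ℝ] V) z (g k)) := by
        rw [← Finset.mul_sum, ← Finset.mul_sum]
        congr 2
        simp only [Finset.mul_sum]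
        rw [lintegral_finsetSum']
        intro k hk
        exact (hw.meas.ennreal_ofReal.mul (measurable_wE _ _ (hg k hk))).aemeasurable
    _ ≤ ENNReal.ofReal (K * 2 ^ (2 * n + dd V) / vb V) * (ENNReal.ofReal (adet (A : V →L[ℝ] V)) *
        ∫⁻ z, ENNReal.ofReal (w z) * (ENNReal.ofReal C *
          ∑ i ∈ s', wE (n + dd V) (A : V →L[ℝ] V) z (g' i))) := by
        gcongr with z
        exact H z
    _ = ENNReal.ofReal (K * 2 ^ (2 * n + dd V) / vb V) * (ENNReal.ofReal C *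
        ∑ i ∈ s', (ENNReal.ofReal (adet (A : V →L[ℝ] V)) *
        ∫⁻ z, ENNReal.ofReal (w z) * wE (n + dd V) (A : V →L[ℝ] V) z (g' i))) := by
        rw [← Finset.mul_sum, mul_left_comm (ENNReal.ofReal C)]
        congr 2
        rw [← lintegral_finsetSum', ← lintegral_const_mul' _ _ ENNReal.ofReal_ne_top]
        · refine lintegral_congr fun z => ?_
          rw [← Finset.mul_sum]
          ring
        · intro k hk
          exact (hw.meas.ennreal_ofReal.mul (measurable_wE _ _ (hg' k hk))).aemeasurable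
    _ ≤ ENNReal.ofReal (K * 2 ^ (2 * n + dd V) / vb V) * (ENNReal.ofReal C * ∑ i ∈ s',
        (ENNReal.ofReal (2 ^ n * cdec V * K) * WE w (g' i))) :=
        mul_le_mul_right (mul_le_mul_right
          (Finset.sum_le_sum fun i hi => le_WE hw (hg' i hi)) _) _
    _ = _ := by
        rw [← Finset.mul_sum, ← mul_assoc, ← mul_assoc, ← ENNReal.ofReal_mul (by positivity),
          ← ENNReal.ofReal_mul (by positivity)]
        congr 2
        unfold cl
        have : (2:ℝ) ^ (3 * n + dd V) = 2 ^ (2 * n + dd V) * 2 ^ n := by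
          rw [← pow_add]; congr 1; omega
        rw [this]
        ring

end Crest.Agent.R116.CWp480
end

-- ▼ part R116/CWp2_480
section

/-!
# R116 (S0155): generic packet machine, part 2 (helper480)

Cut-offs adapted to sets in the metric `A`, local orthogonality (`sv_row`, `sv_col`, `sv_mult`).
-/

set_option autoImplicit false
set_option linter.unusedSectionVars false

open MeasureTheory FourierTransform
open scoped ContDiff ENNReal

namespace Crest.Agent.R116.CWp480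

open Crest.Agent.R138.Wf448

variable {V : Type} [NormedAddCommGroup V] [InnerProductSpace ℝ V] [FiniteDimensional ℝ V]
  [MeasurableSpace V] [BorelSpace V]

/-! ### scaled norms in different metrics -/

theorem Nn_comp (A : V ≃L[ℝ] V) {j : ℕ} {f : V → ℂ} (hf : ContDiff ℝ j f) (c ξ : V) :
    Nn (A : V →L[ℝ] V) j (fun ξ => f ((adjE A).symm (ξ - c))) ξ =
      ‖iteratedFDeriv ℝ j f ((adjE A).symm (ξ - c))‖ := by
  have h1 : ContDiff ℝ j (fun ξ => f ((adjE A).symm (ξ - c))) :=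
    hf.comp ((adjE A).symm.contDiff.comp (contDiff_id.sub contDiff_const))
  rw [Nn_eq (A : V →L[ℝ] V) h1]
  have e1 : (fun y : V => f ((adjE A).symm (ξ + adj (A : V →L[ℝ] V) y - c))) =
      fun y => f ((adjE A).symm (ξ - c) + y) := by
    funext y
    congr 1
    have : ξ + adj (A : V →L[ℝ] V) y - c = (ξ - c) + adjE A y := by
      rw [adjE_apply]; abel
    rw [this, map_add, ContinuousLinearEquiv.symm_apply_apply]
  rw [e1, iteratedFDeriv_comp_add_left]
  simp

/-- comparison of scaled norms: if `‖A x‖ ≤ L ‖A' x‖` then the `A`-norm is at most `L^j` times the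
`A'`-norm. -/
theorem Nn_le_of_le {A A' : V ≃L[ℝ] V} {L : ℝ} (hL : 0 ≤ L) (hA : ∀ x, ‖A x‖ ≤ L * ‖A' x‖)
    (j : ℕ) (f : V → ℂ) (ξ : V) :
    Nn (A : V →L[ℝ] V) j f ξ ≤ L ^ j * Nn (A' : V →L[ℝ] V) j f ξ := by
  -- `adj A = adj A' ∘ T`, `T = adj (A ∘ A'⁻¹)`, `‖T‖ ≤ L`.
  set T : V →L[ℝ] V := adj ((A : V →L[ℝ] V).comp (A'.symm : V →L[ℝ] V)) with hT
  have hTn : ‖T‖ ≤ L := by
    have h1 : ‖T‖ = ‖(A : V →L[ℝ] V).comp (A'.symm : V →L[ℝ] V)‖ :=
      (ContinuousLinearMap.adjoint (𝕜 := ℝ) (E := V) (F := V)).norm_map _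
    rw [h1]
    refine ContinuousLinearMap.opNorm_le_bound _ hL fun x => ?_
    have := hA (A'.symm x)
    simpa using this
  have e1 : ∀ x, adj (A : V →L[ℝ] V) x = adj (A' : V →L[ℝ] V) (T x) := by
    intro x
    refine ext_inner_right ℝ fun v => ?_
    rw [ContinuousLinearMap.adjoint_inner_left, ContinuousLinearMap.adjoint_inner_left, hT,
      ContinuousLinearMap.adjoint_inner_left]
    simp
  unfold Nn
  have e2 : (iteratedFDeriv ℝ j f ξ).compContinuousLinearMap (fun _ => adj (A : V →L[ℝ] V)) =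
      ((iteratedFDeriv ℝ j f ξ).compContinuousLinearMap
        (fun _ => adj (A' : V →L[ℝ] V))).compContinuousLinearMap (fun _ => T) := by
    ext v
    simp [e1]
  rw [e2]
  refine (ContinuousMultilinearMap.norm_compContinuousLinearMap_le _ _).trans ?_
  rw [Finset.prod_const, Finset.card_fin, mul_comm]
  refine mul_le_mul_of_nonneg_right (pow_le_pow_left₀ (norm_nonneg _) hTn j) (norm_nonneg _)

/-! ### cut-offs -/

/-- the `A`-thickening of a set of frequencies. -/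
def thk (A : V ≃L[ℝ] V) (S : Set V) : Set V := {ξ | ∃ z ∈ S, ‖(adjE A).symm (ξ - z)‖ < 1}



theorem cutA (V : Type) [NormedAddCommGroup V] [InnerProductSpace ℝ V] [FiniteDimensional ℝ V]
    [MeasurableSpace V] [BorelSpace V] : ∃ C : ℕ → ℝ, (∀ j, 0 ≤ C j) ∧
    ∀ (A : V ≃L[ℝ] V) (S : Set V), ∃ χ : V → ℂ, χ.HasTemperateGrowth ∧ (∀ ξ ∈ S, χ ξ = 1) ∧
    (∀ j ξ, Nn (A : V →L[ℝ] V) j χ ξ ≤ C j) ∧
    (∀ j ξ, ξ ∉ thk A S → Nn (A : V →L[ℝ] V) j χ ξ = 0) ∧ (∀ ξ, ‖χ ξ‖ ≤ 1) ∧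
    (∀ ξ, ξ ∉ thk A S → χ ξ = 0) := by
  obtain ⟨C, hC, h⟩ := cutoffC V
  refine ⟨C, hC, fun A S => ?_⟩
  obtain ⟨χ, h1, h2, h3, h4, h5, h6⟩ := h ((adjE A).symm '' S) 1 one_pos
  have hc : ∀ j : ℕ, ContDiff ℝ j χ := fun j => h1.1.of_le (by exact_mod_cast le_top)
  have hthk : ∀ ξ, ξ ∉ thk A S → (adjE A).symm ξ ∉ Metric.thickening 1 ((adjE A).symm '' S) := by
    intro ξ hξ hc
    apply hξ
    rw [Metric.mem_thickening_iff] at hc
    obtain ⟨z, ⟨y, hy, rfl⟩, hz⟩ := hc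
    refine ⟨y, hy, ?_⟩
    rwa [dist_eq_norm, ← map_sub] at hz
  have e0 : (fun ξ => χ ((adjE A).symm ξ)) = fun ξ => χ ((adjE A).symm (ξ - 0)) := by
    funext ξ; rw [sub_zero]
  refine ⟨fun ξ => χ ((adjE A).symm ξ), ?_, ?_, ?_, ?_, fun ξ => h4 _, ?_⟩
  · exact h1.comp (adjE A).symm.hasTemperateGrowth
  · intro ξ hξ
    exact h2 _ ⟨ξ, hξ, rfl⟩
  · intro j ξ
    rw [e0, Nn_comp A (hc j)]
    have := h5 j ((adjE A).symm (ξ - 0))
    simpa using this
  · intro j ξ hξ
    rw [e0, Nn_comp A (hc j), sub_zero, h3 j _ (hthk ξ hξ), norm_zero]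
  · intro ξ hξ
    exact h6 _ (hthk ξ hξ)

/-! ### local orthogonality -/

/-- row form in the metric `A`. -/
theorem orthoA_row (n : ℕ) : ∃ C : ℝ, 0 ≤ C ∧ ∀ (A : V ≃L[ℝ] V) (c : V)
    (ι : Type) [Fintype ι] (S : ι → Set V) (g : ι → V → ℂ) (L : ℝ), 0 < L →
    (∀ ξ, (Set.ncard {i | ξ ∈ thk A (S i)} : ℝ) ≤ L) →
    (∀ i ξ, g i ξ ≠ 0 → ξ ∈ S i) → (∀ i, Integrable (g i)) → (∀ i, MemLp (g i) 2) →
    wE n (A : V →L[ℝ] V) c (fun ξ => ∑ i, g i ξ) ≤
      ENNReal.ofReal (C * L) * ∑ i, wE n (A : V →L[ℝ] V) c (g i) := by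
  classical
  obtain ⟨C1, hC1, h1⟩ := decayL (V := V) (W := V) n
  obtain ⟨K, hK, h2⟩ := cutA V
  set M : ℝ := 1 + ∑ j ∈ Finset.range (n + 1), K j ^ 2 with hM
  have hM0 : 0 < M := by positivity
  refine ⟨C1 * M, by positivity, ?_⟩
  intro A c ι _ S g L hL hov hS hg hg2
  choose χ hχ1 hχ2 hχ3 hχ4 hχ5 hχ6 using fun i => h2 A (S i)
  have hb := h1 (A : V →L[ℝ] V) c ι Unit (fun _ i => χ i) g (Real.sqrt (M * L)) (by positivity)
    (fun _ i => hχ1 i) hg hg2 ?_
  · have e1 : (fun ξ => ∑ i, χ i ξ * g i ξ) = fun ξ => ∑ i, g i ξ := by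
      funext ξ
      refine Finset.sum_congr rfl fun i _ => ?_
      by_cases h : g i ξ = 0
      · rw [h, mul_zero]
      · rw [hχ2 i ξ (hS i ξ h), one_mul]
    simp only [Finset.univ_unique, Finset.sum_singleton, e1] at hb
    rw [Real.sq_sqrt (by positivity)] at hb
    rwa [mul_assoc]
  · intro j hj ξ
    simp only [Finset.univ_unique, Finset.sum_singleton]
    rw [Real.sq_sqrt (by positivity)]
    have e2 : ∀ i, Nn (A : V →L[ℝ] V) j (χ i) ξ ^ 2 ≤ if ξ ∈ thk A (S i) then M else 0 := by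
      intro i
      split_ifs with hi
      · have a1 : Nn (A : V →L[ℝ] V) j (χ i) ξ ≤ K j := hχ3 i j ξ
        refine (pow_le_pow_left₀ (Nn_nonneg _ _ _ _) a1 2).trans ?_
        have a2 := Finset.single_le_sum (f := fun j => K j ^ 2) (fun j _ => sq_nonneg _)
          (Finset.mem_range.2 (Nat.lt_succ_of_le hj))
        linarith
      · rw [hχ4 i j ξ hi]; norm_num
    refine (Finset.sum_le_sum fun i _ => e2 i).trans ?_
    rw [← Finset.sum_filter, Finset.sum_const, nsmul_eq_mul, mul_comm]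
    refine mul_le_mul_of_nonneg_left ?_ hM0.le
    refine le_trans (le_of_eq ?_) (hov ξ)
    rw [← Set.ncard_coe_finset]
    simp

/-- column form in the metric `A`. -/
theorem orthoA_col (n : ℕ) : ∃ C : ℝ, 0 ≤ C ∧ ∀ (A : V ≃L[ℝ] V) (c : V)
    (ι : Type) [Fintype ι] (m : ι → V → ℂ) (g : V → ℂ) (K L : ℝ), 0 < K → 0 < L →
    (∀ i, (m i).HasTemperateGrowth) → (∀ i, ∀ j ≤ n, ∀ ξ, Nn (A : V →L[ℝ] V) j (m i) ξ ≤ K) →
    (∀ ξ, (Set.ncard {i | ξ ∈ tsupport (m i)} : ℝ) ≤ L) → Integrable g → MemLp g 2 →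
    ∑ i, wE n (A : V →L[ℝ] V) c (fun ξ => m i ξ * g ξ) ≤
      ENNReal.ofReal (C * K ^ 2 * L) * wE n (A : V →L[ℝ] V) c g := by
  classical
  obtain ⟨C1, hC1, h1⟩ := decayL (V := V) (W := V) n
  refine ⟨C1, by positivity, ?_⟩
  intro A c ι _ m g K L hK hL hm hK2 hov hg hg2
  have hb := h1 (A : V →L[ℝ] V) c Unit ι (fun i _ => m i) (fun _ => g) (Real.sqrt (K ^ 2 * L))
    (by positivity) (fun i _ => hm i) (fun _ => hg) (fun _ => hg2) ?_
  · simp only [Finset.univ_unique, Finset.sum_singleton] at hb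
    rw [Real.sq_sqrt (by positivity)] at hb
    rwa [mul_assoc]
  · intro j hj ξ
    simp only [Finset.univ_unique, Finset.sum_singleton]
    rw [Real.sq_sqrt (by positivity)]
    have e2 : ∀ i, Nn (A : V →L[ℝ] V) j (m i) ξ ^ 2 ≤ if ξ ∈ tsupport (m i) then K ^ 2 else 0 := by
      intro i
      split_ifs with hi
      · exact pow_le_pow_left₀ (Nn_nonneg _ _ _ _) (hK2 i j hj ξ) 2
      · have : Nn (A : V →L[ℝ] V) j (m i) ξ = 0 := by
          unfold Nn
          have : iteratedFDeriv ℝ j (m i) ξ = 0 := by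
            by_contra hne
            exact hi (tsupport_iteratedFDeriv_subset (𝕜 := ℝ) j (subset_tsupport _ hne))
          rw [this, norm_eq_zero]
          ext v
          simp
        rw [this]; norm_num
    refine (Finset.sum_le_sum fun i _ => e2 i).trans ?_
    rw [← Finset.sum_filter, Finset.sum_const, nsmul_eq_mul, mul_comm]
    refine mul_le_mul_of_nonneg_left ?_ (by positivity)
    refine le_trans (le_of_eq ?_) (hov ξ)
    rw [← Set.ncard_coe_finset]
    simp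

/-- **local orthogonality, slowly varying weights**. -/
theorem sv_row (V : Type) [NormedAddCommGroup V] [InnerProductSpace ℝ V] [FiniteDimensional ℝ V]
    [MeasurableSpace V] [BorelSpace V] (n : ℕ) : ∃ C : ℝ, 0 ≤ C ∧ ∀ (A : V ≃L[ℝ] V) (K : ℝ)
    (w : V → ℝ), SV A K n w →
    ∀ (κ : Type) (s : Finset κ) (S : κ → Set V) (g : κ → V → ℂ) (L : ℝ), 0 < L →
    (∀ ξ, (Set.ncard {i | i ∈ s ∧ ξ ∈ thk A (S i)} : ℝ) ≤ L) →
    (∀ i ∈ s, ∀ ξ, g i ξ ≠ 0 → ξ ∈ S i) → (∀ i ∈ s, Integrable (g i)) → (∀ i ∈ s, MemLp (g i) 2) →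
    WE w (fun ξ => ∑ i ∈ s, g i ξ) ≤ ENNReal.ofReal (C * K ^ 2 * L) * ∑ i ∈ s, WE w (g i) := by
  obtain ⟨C1, hC1, h1⟩ := orthoA_row (V := V) (n + dd V)
  have hc := cl_nonneg (V := V) n
  refine ⟨cl V n * C1, by positivity, ?_⟩
  intro A K w hw κ s S g L hL hov hS hg hg2
  have key : ∀ z, wE (n + dd V) (A : V →L[ℝ] V) z (fun ξ => ∑ i ∈ s, g i ξ) ≤
      ENNReal.ofReal (C1 * L) * ∑ i ∈ s, wE (n + dd V) (A : V →L[ℝ] V) z (g i) := by
    intro z
    have h2 := h1 A z {i // i ∈ s} (fun i => S i.1)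
      (fun i => g i.1) L hL ?_ (fun i => hS i.1 i.2) (fun i => hg i.1 i.2) (fun i => hg2 i.1 i.2)
    · have e1 : (fun ξ => ∑ i : {i // i ∈ s}, g i.1 ξ) = fun ξ => ∑ i ∈ s, g i ξ := by
        funext ξ
        exact Finset.sum_coe_sort s (fun i => g i ξ)
      rw [e1] at h2
      have e2 : ∑ i : {i // i ∈ s}, wE (n + dd V) (A : V →L[ℝ] V) z (g i.1) =
          ∑ i ∈ s, wE (n + dd V) (A : V →L[ℝ] V) z (g i) :=
        Finset.sum_coe_sort s (fun i => wE (n + dd V) (A : V →L[ℝ] V) z (g i))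
      rwa [e2] at h2
    · intro ξ
      refine le_trans ?_ (hov ξ)
      have e3 : {i | i ∈ s ∧ ξ ∈ thk A (S i)} =
          Subtype.val '' {i : {i // i ∈ s} | ξ ∈ thk A (S i.1)} := by
        ext i
        simp only [Set.mem_ofPred_eq, Set.mem_image, Subtype.exists, exists_and_right,
          exists_eq_right]
        tauto
      rw [e3, Set.ncard_image_of_injective _ Subtype.val_injective]
  have h3 := lift_ineq hw ({()} : Finset Unit) (fun _ ξ => ∑ i ∈ s, g i ξ) s g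
    (fun _ _ => integrable_finsetSum _ hg) hg (C := C1 * L) (by positivity)
    (by simpa using key)
  simp only [Finset.sum_singleton] at h3
  refine h3.trans (le_of_eq ?_)
  congr 2
  ring

/-- **square function, slowly varying weights**. -/
theorem sv_col (V : Type) [NormedAddCommGroup V] [InnerProductSpace ℝ V] [FiniteDimensional ℝ V]
    [MeasurableSpace V] [BorelSpace V] (n : ℕ) : ∃ C : ℝ, 0 ≤ C ∧ ∀ (A : V ≃L[ℝ] V) (K : ℝ)
    (w : V → ℝ), SV A K n w →
    ∀ (κ : Type) (s : Finset κ) (m : κ → V → ℂ) (g : V → ℂ) (Q L : ℝ), 0 < Q → 0 < L →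
    (∀ i ∈ s, (m i).HasTemperateGrowth) →
    (∀ i ∈ s, ∀ j ≤ n + dd V, ∀ ξ, Nn (A : V →L[ℝ] V) j (m i) ξ ≤ Q) →
    (∀ ξ, (Set.ncard {i | i ∈ s ∧ ξ ∈ tsupport (m i)} : ℝ) ≤ L) → Integrable g → MemLp g 2 →
    ∑ i ∈ s, WE w (fun ξ => m i ξ * g ξ) ≤ ENNReal.ofReal (C * K ^ 2 * Q ^ 2 * L) * WE w g := by
  obtain ⟨C1, hC1, h1⟩ := orthoA_col (V := V) (n + dd V)
  have hc := cl_nonneg (V := V) n
  refine ⟨cl V n * C1, by positivity, ?_⟩
  intro A K w hw κ s m g Q L hQ hL hm hmQ hov hg hg2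
  have hmi : ∀ i ∈ s, Integrable (fun ξ => m i ξ * g ξ) := by
    intro i hi
    refine hg.bdd_mul (c := Q) (hm i hi).1.continuous.aestronglyMeasurable
      (Filter.Eventually.of_forall fun ξ => ?_)
    have := hmQ i hi 0 (Nat.zero_le _) ξ
    rwa [Nn_zero] at this
  have key : ∀ z, ∑ i ∈ s, wE (n + dd V) (A : V →L[ℝ] V) z (fun ξ => m i ξ * g ξ) ≤
      ENNReal.ofReal (C1 * Q ^ 2 * L) * wE (n + dd V) (A : V →L[ℝ] V) z g := by
    intro z
    have h2 := h1 A z {i // i ∈ s} (fun i => m i.1) g Q L hQ hL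
      (fun i => hm i.1 i.2) (fun i => hmQ i.1 i.2) ?_ hg hg2
    · have e2 : ∑ i : {i // i ∈ s}, wE (n + dd V) (A : V →L[ℝ] V) z (fun ξ => m i.1 ξ * g ξ) =
          ∑ i ∈ s, wE (n + dd V) (A : V →L[ℝ] V) z (fun ξ => m i ξ * g ξ) :=
        Finset.sum_coe_sort s (fun i => wE (n + dd V) (A : V →L[ℝ] V) z (fun ξ => m i ξ * g ξ))
      rwa [e2] at h2
    · intro ξ
      refine le_trans ?_ (hov ξ)
      have e3 : {i | i ∈ s ∧ ξ ∈ tsupport (m i)} =
          Subtype.val '' {i : {i // i ∈ s} | ξ ∈ tsupport (m i.1)} := by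
        ext i
        simp only [Set.mem_ofPred_eq, Set.mem_image, Subtype.exists, exists_and_right,
          exists_eq_right]
        tauto
      rw [e3, Set.ncard_image_of_injective _ Subtype.val_injective]
  have h3 := lift_ineq hw s (fun i ξ => m i ξ * g ξ) ({()} : Finset Unit) (fun _ => g)
    hmi (fun _ _ => hg) (C := C1 * Q ^ 2 * L) (by positivity)
    (by simpa using key)
  simp only [Finset.sum_singleton] at h3
  refine h3.trans (le_of_eq ?_)
  congr 2
  ring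

/-- **one multiplier, slowly varying weights**. -/
theorem sv_mult (V : Type) [NormedAddCommGroup V] [InnerProductSpace ℝ V] [FiniteDimensional ℝ V]
    [MeasurableSpace V] [BorelSpace V] (n : ℕ) : ∃ C : ℝ, 0 ≤ C ∧ ∀ (A : V ≃L[ℝ] V) (K : ℝ)
    (w : V → ℝ), SV A K n w →
    ∀ (m : V → ℂ) (g : V → ℂ) (Q : ℝ), 0 < Q → m.HasTemperateGrowth →
    (∀ j ≤ n + dd V, ∀ ξ, Nn (A : V →L[ℝ] V) j m ξ ≤ Q) → Integrable g → MemLp g 2 →
    WE w (fun ξ => m ξ * g ξ) ≤ ENNReal.ofReal (C * K ^ 2 * Q ^ 2) * WE w g := by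
  obtain ⟨C, hC, h⟩ := sv_col V n
  refine ⟨C, hC, ?_⟩
  intro A K w hw m g Q hQ hm hmQ hg hg2
  have h1 := h A K w hw Unit {()} (fun _ => m) g Q 1 hQ one_pos (fun _ _ => hm)
    (fun _ _ => hmQ) ?_ hg hg2
  · simpa using h1
  · intro ξ
    have : (Set.ncard {i : Unit | i ∈ ({()} : Finset Unit) ∧ ξ ∈ tsupport m}) ≤ 1 :=
      (Set.ncard_le_ncard (Set.subset_univ _)).trans (by simp)
    exact_mod_cast this

end Crest.Agent.R116.CWp480
end

-- ▼ part R116/CWp3_480

/-!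
# R116 (S0155): generic packet machine, part 3 (helper480)

Windows, caps with an arbitrary linear frame, kernel bounds, pieces represented by a physical function
(`Rep`), transport (`Tra`), Theorem A (weighted energy of a sum of transported pieces) and Theorem B
(Bessel).
-/

set_option autoImplicit false
set_option linter.unusedSectionVars false

open MeasureTheory FourierTransform
open scoped ContDiff ENNReal

namespace Crest.Agent.R116.CWp480

open Crest.Agent.R138.Wf448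
open Crest.Agent.R138.Defs (ee)

variable {V : Type} [NormedAddCommGroup V] [InnerProductSpace ℝ V] [FiniteDimensional ℝ V]
  [MeasurableSpace V] [BorelSpace V]

theorem adet_adjE (A : V ≃L[ℝ] V) : adet (adjE A : V →L[ℝ] V) = adet (A : V →L[ℝ] V) := by
  unfold adet
  have h1 : ((adjE A : V →L[ℝ] V) : V →ₗ[ℝ] V) = LinearMap.adjoint ((A : V →L[ℝ] V) : V →ₗ[ℝ] V) := by
    refine LinearMap.ext fun x => ?_
    refine ext_inner_right ℝ fun v => ?_
    rw [LinearMap.adjoint_inner_left]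
    exact inner_adjE A x v
  rw [h1]
  set b := stdOrthonormalBasis ℝ V
  rw [← LinearMap.det_toMatrix b.toBasis, ← LinearMap.det_toMatrix b.toBasis,
    LinearMap.toMatrix_adjoint, Matrix.det_conjTranspose]
  simp

theorem ee_zero : ee 0 = 1 := by simp [ee]

theorem ee_neg_mul (t : ℝ) : ee (-t) * ee t = 1 := by rw [← ee_add, neg_add_cancel, ee_zero]

theorem fourierInv_eq_int (f : V → ℂ) (y : V) : 𝓕⁻ f y = ∫ ζ, f ζ * ee (inner ℝ y ζ) := by
  rw [Real.fourierInv_eq']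
  congr 1
  ext ζ
  rw [smul_eq_mul, mul_comm, real_inner_comm]
  unfold ee
  push_cast
  ring_nf

theorem fourier_decay (V : Type) [NormedAddCommGroup V] [InnerProductSpace ℝ V]
    [FiniteDimensional ℝ V] [MeasurableSpace V] [BorelSpace V] (N : ℕ) :
    ∃ C : ℝ, 0 < C ∧ ∀ (f : V → ℂ) (A : ℝ), ContDiff ℝ N f →
    (∀ ζ, 8 < ‖ζ‖ → f ζ = 0) → (∀ j ≤ N, ∀ ζ, ‖iteratedFDeriv ℝ j f ζ‖ ≤ A) → ∀ y,
      (1 + ‖y‖) ^ N * ‖∫ ζ, f ζ * ee (inner ℝ y ζ)‖ ≤ C * A := by
  set v : ℝ := (volume (Metric.closedBall (0 : V) 8)).toReal with hv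
  have hv0 : 0 ≤ v := ENNReal.toReal_nonneg
  refine ⟨2 ^ N * (2 ^ N + 2 ^ N) * ((N + 1) * v + 1), by positivity, ?_⟩
  intro f A hf hs hA y
  have hA0 : 0 ≤ A := (norm_nonneg _).trans (hA 0 (Nat.zero_le _) 0)
  have hts : tsupport f ⊆ Metric.closedBall 0 8 := by
    apply closure_minimal _ Metric.isClosed_closedBall
    intro x hx
    by_contra hx'
    apply hx
    exact hs x (by simpa using hx')
  have hcs : HasCompactSupport f :=
    HasCompactSupport.of_support_subset_isCompact (isCompact_closedBall (0 : V) 8)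
      ((subset_tsupport f).trans hts)
  have hint : ∀ n ≤ N, ∫ ζ, ‖iteratedFDeriv ℝ n f ζ‖ ≤ A * v := by
    intro n hn
    have h1 : ∀ ζ, ‖iteratedFDeriv ℝ n f ζ‖ ≤
        (Metric.closedBall (0 : V) 8).indicator (fun _ => A) ζ := by
      intro ζ
      by_cases hζ : ζ ∈ Metric.closedBall (0 : V) 8
      · rw [Set.indicator_of_mem hζ]; exact hA n hn ζ
      · rw [Set.indicator_of_notMem hζ]
        have : ζ ∉ Function.support (iteratedFDeriv ℝ n f) := fun h =>
          hζ (hts (support_iteratedFDeriv_subset n h))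
        rw [Function.notMem_support] at this
        simp [this]
    calc ∫ ζ, ‖iteratedFDeriv ℝ n f ζ‖ ≤
          ∫ ζ, (Metric.closedBall (0 : V) 8).indicator (fun _ => A) ζ := by
          apply integral_mono_of_nonneg (Filter.Eventually.of_forall fun ζ => norm_nonneg _) _
            (Filter.Eventually.of_forall h1)
          rw [integrable_indicator_iff Metric.isClosed_closedBall.measurableSet]
          exact integrableOn_const (hs := (isCompact_closedBall (0 : V) 8).measure_lt_top.ne)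
      _ = A * v := by
          rw [integral_indicator Metric.isClosed_closedBall.measurableSet, setIntegral_const]
          simp [Measure.real, hv, mul_comm]
  have hI : ∀ (k n : ℕ), (k : ℕ∞) ≤ 0 → (n : ℕ∞) ≤ N →
      Integrable (fun v : V ↦ ‖v‖ ^ k * ‖iteratedFDeriv ℝ n f v‖) := by
    intro k n hk hn
    have hk0 : k = 0 := by simpa using hk
    subst hk0
    simp only [pow_zero, one_mul]
    have hcont : Continuous (iteratedFDeriv ℝ n f) :=
      hf.continuous_iteratedFDeriv (by exact_mod_cast hn)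
    exact (hcont.integrable_of_hasCompactSupport (hcs.iteratedFDeriv n)).norm
  have key : ∀ n ≤ N, ‖y‖ ^ n * ‖𝓕⁻ f y‖ ≤ 2 ^ N * ((N + 1) * (A * v)) := by
    intro n hn
    have h1 := Real.pow_mul_norm_iteratedFDeriv_fourier_le (K := 0) (N := N) (f := f)
      hf hI (k := 0) (n := n) (by simp) (by exact_mod_cast hn) (-y)
    rw [norm_neg, norm_iteratedFDeriv_zero, ← Real.fourierInv_eq_fourier_neg] at h1
    refine h1.trans ?_
    have h2 : ∑ p ∈ Finset.range (0 + 1) ×ˢ Finset.range (n + 1),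
        ∫ v : V, ‖v‖ ^ p.1 * ‖iteratedFDeriv ℝ p.2 f v‖ ≤ (n + 1) * (A * v) := by
      rw [Finset.sum_product]
      simp only [zero_add, Finset.range_one, Finset.sum_singleton, pow_zero, one_mul]
      calc _ ≤ ∑ _p ∈ Finset.range (n + 1), A * v := by
            apply Finset.sum_le_sum
            intro p hp
            exact hint p ((Nat.lt_succ_iff.1 (Finset.mem_range.1 hp)).trans hn)
        _ = _ := by simp
    have h3 : (0:ℝ) ≤ A * v := by positivity
    calc (2 * Real.pi) ^ 0 * (2 * ((0:ℕ):ℝ) + 2) ^ n * ∑ p ∈ Finset.range (0 + 1) ×ˢ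
          Finset.range (n + 1), ∫ v : V, ‖v‖ ^ p.1 * ‖iteratedFDeriv ℝ p.2 f v‖
        ≤ (2 * Real.pi) ^ 0 * (2 * ((0:ℕ):ℝ) + 2) ^ n * ((n + 1) * (A * v)) := by
          gcongr
      _ = 2 ^ n * ((n + 1) * (A * v)) := by simp
      _ ≤ 2 ^ N * ((N + 1) * (A * v)) := by
          have : (n:ℝ) ≤ N := by exact_mod_cast hn
          have h4 : (2:ℝ) ^ n ≤ 2 ^ N := pow_le_pow_right₀ (by norm_num) hn
          gcongr
  rw [← fourierInv_eq_int]
  have h5 : (1 + ‖y‖) ^ N ≤ 2 ^ N * (1 + ‖y‖ ^ N) := by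
    rcases Nat.eq_zero_or_pos N with h0 | h0
    · subst h0; simp
    · have := add_pow_le (zero_le_one) (norm_nonneg y) N
      calc (1 + ‖y‖) ^ N ≤ 2 ^ (N - 1) * (1 ^ N + ‖y‖ ^ N) := this
        _ ≤ 2 ^ N * (1 ^ N + ‖y‖ ^ N) := by
            gcongr
            · norm_num
            · omega
        _ = _ := by simp
  have k0 := key 0 (Nat.zero_le _)
  have kN := key N le_rfl
  rw [pow_zero, one_mul] at k0
  calc (1 + ‖y‖) ^ N * ‖𝓕⁻ f y‖ ≤ 2 ^ N * (1 + ‖y‖ ^ N) * ‖𝓕⁻ f y‖ := by gcongr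
    _ = 2 ^ N * (‖𝓕⁻ f y‖ + ‖y‖ ^ N * ‖𝓕⁻ f y‖) := by ring
    _ ≤ 2 ^ N * (2 ^ N * ((N + 1) * (A * v)) + 2 ^ N * ((N + 1) * (A * v))) := by gcongr
    _ = 2 ^ N * (2 ^ N + 2 ^ N) * ((N + 1) * v) * A := by ring
    _ ≤ 2 ^ N * (2 ^ N + 2 ^ N) * ((N + 1) * v + 1) * A := by
        gcongr
        linarith

/-! ### windows and caps -/

/-- windows: smooth, supported in the ball of radius `8`, derivatives up to order `N` bounded. -/
structure Win (N : ℕ) (Q : ℝ) (a : V → ℂ) : Prop where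
  smooth : ContDiff ℝ ∞ a
  supp : ∀ ζ, 8 < ‖ζ‖ → a ζ = 0
  bd : ∀ j ≤ N, ∀ ζ, ‖iteratedFDeriv ℝ j a ζ‖ ≤ Q

theorem Win.nonneg {N : ℕ} {Q : ℝ} {a : V → ℂ} (ha : Win N Q a) : 0 ≤ Q :=
  (norm_nonneg _).trans (ha.bd 0 (Nat.zero_le _) 0)

theorem Win.mono {N N' : ℕ} {Q Q' : ℝ} {a : V → ℂ} (ha : Win N Q a) (hN : N' ≤ N) (hQ : Q ≤ Q') :
    Win N' Q' a := ⟨ha.smooth, ha.supp, fun j hj ζ => (ha.bd j (hj.trans hN) ζ).trans hQ⟩

theorem Win.tsupp {N : ℕ} {Q : ℝ} {a : V → ℂ} (ha : Win N Q a) :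
    tsupport a ⊆ Metric.closedBall 0 8 := by
  apply closure_minimal _ Metric.isClosed_closedBall
  intro x hx
  by_contra hx'
  apply hx
  exact ha.supp x (by simpa using hx')

theorem Win.hcs {N : ℕ} {Q : ℝ} {a : V → ℂ} (ha : Win N Q a) : HasCompactSupport a :=
  HasCompactSupport.of_support_subset_isCompact (isCompact_closedBall (0 : V) 8)
    ((subset_tsupport a).trans ha.tsupp)

theorem Win.norm_le {N : ℕ} {Q : ℝ} {a : V → ℂ} (ha : Win N Q a) (ζ : V) : ‖a ζ‖ ≤ Q := by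
  have := ha.bd 0 (Nat.zero_le _) ζ
  rwa [norm_iteratedFDeriv_zero] at this


/-- product of windows. -/
theorem Win.mul {N : ℕ} {Q Q' : ℝ} {a b : V → ℂ} (ha : Win N Q a) (hb : ContDiff ℝ ∞ b)
    (hbd : ∀ j ≤ N, ∀ ζ, ‖ζ‖ ≤ 8 → ‖iteratedFDeriv ℝ j b ζ‖ ≤ Q') (hQ' : 0 ≤ Q') :
    Win N (2 ^ N * Q * Q') (fun ζ => a ζ * b ζ) := by
  have hQ := ha.nonneg
  refine ⟨ha.smooth.mul hb, fun ζ hζ => by rw [ha.supp ζ hζ, zero_mul], fun j hj ζ => ?_⟩
  by_cases h8 : ‖ζ‖ ≤ 8
  · have h1 := norm_iteratedFDeriv_mul_le (𝕜 := ℝ) (N := ∞) ha.smooth hb ζ (n := j)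
      (mod_cast le_top)
    refine h1.trans ?_
    calc ∑ i ∈ Finset.range (j + 1), (j.choose i : ℝ) * ‖iteratedFDeriv ℝ i a ζ‖ *
          ‖iteratedFDeriv ℝ (j - i) b ζ‖ ≤
        ∑ i ∈ Finset.range (j + 1), (j.choose i : ℝ) * Q * Q' := by
          refine Finset.sum_le_sum fun i hi => ?_
          have hi' := Finset.mem_range.1 hi
          have h3 := ha.bd i (by omega) ζ
          have h4 := hbd (j - i) (by omega) ζ h8
          gcongr
      _ = 2 ^ j * Q * Q' := by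
          rw [← Finset.sum_mul, ← Finset.sum_mul]
          have h5 : ∑ i ∈ Finset.range (j + 1), (j.choose i : ℝ) = 2 ^ j := by
            exact_mod_cast Nat.sum_range_choose j
          rw [h5]
      _ ≤ 2 ^ N * Q * Q' := by
          have : (2:ℝ) ^ j ≤ 2 ^ N := pow_le_pow_right₀ (by norm_num) hj
          gcongr
  · push Not at h8
    have hz : iteratedFDeriv ℝ j (fun ζ => a ζ * b ζ) ζ = 0 := by
      by_contra hne
      have h1 : ζ ∈ tsupport (fun ζ => a ζ * b ζ) :=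
        tsupport_iteratedFDeriv_subset (𝕜 := ℝ) j (subset_tsupport _ hne)
      have h2 : tsupport (fun ζ => a ζ * b ζ) ⊆ Metric.closedBall 0 8 := by
        apply closure_minimal _ Metric.isClosed_closedBall
        intro x hx
        by_contra hx'
        apply hx
        show a x * b x = 0
        rw [ha.supp x (by simpa using hx'), zero_mul]
      have h3 := h2 h1
      rw [Metric.mem_closedBall, dist_zero_right] at h3
      linarith
    rw [hz, norm_zero]
    positivity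

/-- the window `a` moved to the centre `c` with the frame `A`. -/
noncomputable def cap (a : V → ℂ) (c : V) (A : V ≃L[ℝ] V) (ξ : V) : ℂ := a ((adjE A).symm (ξ - c))

theorem cap_add (a : V → ℂ) (c : V) (A : V ≃L[ℝ] V) (η : V) : cap a c A (c + adjE A η) = a η := by
  unfold cap
  rw [add_sub_cancel_left, ContinuousLinearEquiv.symm_apply_apply]

theorem contDiff_cap {a : V → ℂ} (ha : ContDiff ℝ ∞ a) (c : V) (A : V ≃L[ℝ] V) :
    ContDiff ℝ ∞ (cap a c A) :=
  ha.comp ((adjE A).symm.contDiff.comp (contDiff_id.sub contDiff_const))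

theorem cap_Nn {N : ℕ} {Q : ℝ} {a : V → ℂ} (ha : Win N Q a) (c : V) (A : V ≃L[ℝ] V) {j : ℕ}
    (hj : j ≤ N) (ξ : V) : Nn (A : V →L[ℝ] V) j (cap a c A) ξ ≤ Q := by
  unfold cap
  rw [Nn_comp A (ha.smooth.of_le (by exact_mod_cast le_top))]
  exact ha.bd j hj _


theorem hcs_cap {N : ℕ} {Q : ℝ} {a : V → ℂ} (ha : Win N Q a) (c : V) (A : V ≃L[ℝ] V) :
    HasCompactSupport (cap a c A) := by
  have h1 : IsCompact ((fun η => c + adjE A η) '' Metric.closedBall (0 : V) 8) :=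
    (isCompact_closedBall (0 : V) 8).image (continuous_const.add (adjE A).continuous)
  refine HasCompactSupport.of_support_subset_isCompact h1 ?_
  intro ξ hξ
  refine ⟨(adjE A).symm (ξ - c), ?_, by simp⟩
  rw [Metric.mem_closedBall, dist_zero_right]
  by_contra h
  push Not at h
  exact hξ (ha.supp _ h)

theorem temperate_cap {N : ℕ} {Q : ℝ} {a : V → ℂ} (ha : Win N Q a) (c : V) (A : V ≃L[ℝ] V) :
    (cap a c A).HasTemperateGrowth := (hcs_cap ha c A).hasTemperateGrowth (contDiff_cap ha.smooth c A)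

theorem cap_int {N : ℕ} {Q : ℝ} {a : V → ℂ} (ha : Win N Q a) (c : V) (A : V ≃L[ℝ] V) :
    Integrable (cap a c A) :=
  (contDiff_cap ha.smooth c A).continuous.integrable_of_hasCompactSupport (hcs_cap ha c A)

/-- the kernel of a cap. -/
theorem cap_kernel (a : V → ℂ) (c : V) (A : V ≃L[ℝ] V) (x : V) :
    𝓕⁻ (cap a c A) x = ((adet (A : V →L[ℝ] V) : ℝ) : ℂ) * (ee (inner ℝ x c) * 𝓕⁻ a (A x)) := by
  rw [fourierInv_eq_int, fourierInv_eq_int]
  have h1 : ∫ ξ, cap a c A ξ * ee (inner ℝ x ξ) =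
      ∫ ξ, cap a c A (c + ξ) * ee (inner ℝ x (c + ξ)) :=
    (integral_add_left_eq_self (fun ξ => cap a c A ξ * ee (inner ℝ x ξ)) c).symm
  have h2 := integral_comp_det (adjE A) (fun ξ => cap a c A (c + ξ) * ee (inner ℝ x (c + ξ)))
  rw [adet_adjE] at h2
  have ha := adet0 A
  have h3 : ∫ ξ, cap a c A (c + ξ) * ee (inner ℝ x (c + ξ)) =
      ((adet (A : V →L[ℝ] V) : ℝ) : ℂ) * ∫ y, cap a c A (c + adjE A y) *
        ee (inner ℝ x (c + adjE A y)) := by
    rw [h2, Complex.real_smul, ← mul_assoc, ← Complex.ofReal_mul, mul_inv_cancel₀ ha.ne',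
      Complex.ofReal_one, one_mul]
  rw [h1, h3, ← integral_const_mul (ee (inner ℝ x c))]
  congr 2
  ext y
  rw [cap_add, inner_add_right, ee_add, inner_adjE']
  ring

theorem Kf_bound (V : Type) [NormedAddCommGroup V] [InnerProductSpace ℝ V]
    [FiniteDimensional ℝ V] [MeasurableSpace V] [BorelSpace V] (N : ℕ) :
    ∃ C : ℝ, 0 < C ∧ ∀ (Q : ℝ) (a : V → ℂ), Win N Q a → ∀ (c : V) (A : V ≃L[ℝ] V) (x : V),
    ‖𝓕⁻ (cap a c A) x‖ ≤ C * Q * adet (A : V →L[ℝ] V) * ((1 + ‖A x‖) ^ N)⁻¹ := by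
  obtain ⟨C, hC, h⟩ := fourier_decay V N
  refine ⟨C, hC, ?_⟩
  intro Q a ha c A x
  have h1 := h a Q (ha.smooth.of_le (by exact_mod_cast le_top)) ha.supp ha.bd (A x)
  have had := adet0 A
  rw [cap_kernel, norm_mul, norm_mul, norm_ee, one_mul, Complex.norm_real, Real.norm_eq_abs,
    abs_of_pos had, ← div_eq_mul_inv, le_div_iff₀ (by positivity)]
  rw [← fourierInv_eq_int] at h1
  calc adet (A : V →L[ℝ] V) * ‖𝓕⁻ a (A x)‖ * (1 + ‖A x‖) ^ N =
      adet (A : V →L[ℝ] V) * ((1 + ‖A x‖) ^ N * ‖𝓕⁻ a (A x)‖) := by ring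
    _ ≤ adet (A : V →L[ℝ] V) * (C * Q) := by gcongr
    _ = _ := by ring

end Crest.Agent.R116.CWp480
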