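import Crest.Agent.R116.WDefC_188

-- ▼ part R116/Cnv1_894
section

/-!
# R116 (S0155), leaf CNV of WDefC_188, part 1 (helper894):
sliced functions are slowly varying in the last coordinate.

`exists_ker` : a kernel of the line with decay `(1+t²)⁻¹` and Fourier transform one on `[-2,2]`.
`repro` : `‖u X‖² ≤ C ∫ κ (1+(κ t)²)⁻¹ ‖u (X - t e)‖² dt` for `u = 𝓕⁻ h`, `h` supported in the slice
`|ζ 2 - η0| ≤ 2 κ`.
`lint_tr` : transposition of the translates.
-/

set_option autoImplicit false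

open MeasureTheory FourierTransform
open scoped ContDiff ENNReal

namespace Crest.Agent.R116.Cnv894

open Crest.Agent.R138.Defs (E2 ee)
open Crest.Agent.R138.Wpk685 (norm_ee ee_add ee_zero continuous_ee)
open Crest.Agent.R116.CDef480

/-- the unit vector of the last coordinate. -/
noncomputable def eY : E3 := pt 0 1

theorem eY_two (t : ℝ) : (t • eY) 2 = t := by
  simp [eY, pt]

theorem lat_eY (t : ℝ) : lat (t • eY) = 0 := by
  rw [lat_smul]; unfold eY; rw [lat_pt, smul_zero]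

/-! ### the kernel -/

theorem exists_ker : ∃ (K : ℝ → ℂ) (C : ℝ), Continuous K ∧ 0 < C ∧
    (∀ t, ‖K t‖ ≤ C / (1 + t ^ 2)) ∧ ∀ x : ℝ, |x| ≤ 2 → ∫ t, K t * ee (-(t * x)) = 1 := by
  let φ : ContDiffBump (0 : ℝ) := ⟨2, 3, by norm_num, by norm_num⟩
  have hc : HasCompactSupport (fun x : ℝ => ((φ x : ℝ) : ℂ)) :=
    φ.hasCompactSupport.comp_left (g := fun r : ℝ => (r : ℂ)) (by simp)
  have hs : ContDiff ℝ ∞ (fun x : ℝ => ((φ x : ℝ) : ℂ)) :=
    Complex.ofRealCLM.contDiff.comp φ.contDiff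
  set f : SchwartzMap ℝ ℂ := hc.toSchwartzMap hs with hf
  set K : SchwartzMap ℝ ℂ := 𝓕⁻ f with hKdef
  have hK : 𝓕 K = f := FourierTransform.fourier_fourierInv_eq f
  obtain ⟨C0, hC0, hb0⟩ := K.decay 0 0
  obtain ⟨C2, hC2, hb2⟩ := K.decay 2 0
  refine ⟨K, C0 + C2, K.continuous, by positivity, ?_, ?_⟩
  · intro t
    have h0 := hb0 t
    have h2 := hb2 t
    simp only [pow_zero, one_mul, norm_iteratedFDeriv_zero, Real.norm_eq_abs, sq_abs] at h0 h2
    rw [le_div_iff₀ (by positivity)]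
    nlinarith
  · intro x hx
    have h1 : 𝓕 (K : ℝ → ℂ) x = 1 := by
      rw [← SchwartzMap.fourier_coe, hK]
      change ((φ x : ℝ) : ℂ) = 1
      rw [φ.one_of_mem_closedBall (by simpa using hx)]
      simp
    rw [← h1, Real.fourier_eq']
    congr 1
    ext t
    rw [smul_eq_mul, mul_comm]
    congr 1
    unfold ee
    congr 1
    simp only [RCLike.inner_apply, conj_trivial]
    push_cast
    ring

/-! ### reproducing inequality -/

theorem integrable_wt {κ : ℝ} (hκ : 0 < κ) (C : ℝ) :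
    Integrable (fun t : ℝ => κ * (C / (1 + (κ * t) ^ 2))) := by
  have h1 : Integrable (fun t : ℝ => (1 + t ^ 2)⁻¹) := integrable_inv_one_add_sq
  have h2 := h1.comp_mul_left' hκ.ne'
  have h3 := h2.const_mul (κ * C)
  refine h3.congr (Filter.Eventually.of_forall fun t => ?_)
  simp only [div_eq_mul_inv, mul_assoc]

theorem integral_wt {κ : ℝ} (hκ : 0 < κ) (C : ℝ) :
    ∫ t : ℝ, κ * (C / (1 + (κ * t) ^ 2)) = C * Real.pi := by
  have h1 : (fun t : ℝ => κ * (C / (1 + (κ * t) ^ 2))) =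
      fun t : ℝ => (κ * C) * (fun s : ℝ => (1 + s ^ 2)⁻¹) (κ * t) := by
    ext t; simp only [div_eq_mul_inv, mul_assoc]
  rw [h1, integral_const_mul, Measure.integral_comp_mul_left (fun s : ℝ => (1 + s ^ 2)⁻¹) κ,
    integral_univ_inv_one_add_sq, smul_eq_mul, abs_of_pos (inv_pos.2 hκ)]
  field_simp

theorem fourierInv_int (h : E3 → ℂ) (y : E3) : 𝓕⁻ h y = ∫ ζ, h ζ * ee (inner ℝ y ζ) := by
  rw [Real.fourierInv_eq']
  congr 1
  ext ζ
  rw [smul_eq_mul, mul_comm, real_inner_comm]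
  unfold ee
  push_cast
  ring_nf

theorem inner_sub_eY (X ζ : E3) (t : ℝ) :
    inner ℝ (X - t • eY) ζ = inner ℝ X ζ + -(t * ζ 2) := by
  rw [inner_sub_left, inner_split (t • eY), lat_eY, inner_zero_left, eY_two]
  ring

/-- identity: convolution in the last coordinate reproduces the sliced functions. -/
theorem repro_eq {K : ℝ → ℂ} {C : ℝ} (hKc : Continuous K) (hKb : ∀ t, ‖K t‖ ≤ C / (1 + t ^ 2))
    (hK1 : ∀ x : ℝ, |x| ≤ 2 → ∫ t, K t * ee (-(t * x)) = 1)
    {h : E3 → ℂ} (hh : Integrable h) {η0 κ : ℝ} (hκ : 0 < κ)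
    (hs : ∀ ζ, h ζ ≠ 0 → |ζ 2 - η0| ≤ 2 * κ) (X : E3) :
    𝓕⁻ h X = ∫ t : ℝ, (κ * K (κ * t) * ee (η0 * t)) * 𝓕⁻ h (X - t • eY) := by
  have hKI : Integrable (fun t : ℝ => (κ : ℂ) * K (κ * t) * ee (η0 * t)) := by
    refine (integrable_wt hκ C).mono' ?_ (Filter.Eventually.of_forall fun t => ?_)
    · exact ((continuous_const.mul (hKc.comp (continuous_const.mul continuous_id))).mul
        (continuous_ee.comp (continuous_const.mul continuous_id))).aestronglyMeasurable
    · rw [norm_mul, norm_mul, norm_ee, mul_one, Complex.norm_real, Real.norm_eq_abs,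
        abs_of_pos hκ]
      gcongr
      exact hKb _
  have hprod : Integrable (fun p : ℝ × E3 => ((κ : ℂ) * K (κ * p.1) * ee (η0 * p.1)) *
      (h p.2 * ee (inner ℝ (X - p.1 • eY) p.2))) (volume.prod volume) := by
    have h1 := hKI.mul_prod hh
    have h2 : Continuous fun p : ℝ × E3 => ee (inner ℝ (X - p.1 • eY) p.2) := by
      refine continuous_ee.comp ?_
      fun_prop
    have h3 := h1.mul_bdd (c := 1) h2.aestronglyMeasurable
      (Filter.Eventually.of_forall fun p => (norm_ee _).le)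
    refine h3.congr (Filter.Eventually.of_forall fun p => ?_)
    simp only [mul_assoc]
  calc 𝓕⁻ h X = ∫ ζ, h ζ * ee (inner ℝ X ζ) := fourierInv_int h X
    _ = ∫ ζ, ∫ t : ℝ, ((κ : ℂ) * K (κ * t) * ee (η0 * t)) *
          (h ζ * ee (inner ℝ (X - t • eY) ζ)) := by
        congr 1
        ext ζ
        by_cases hz : h ζ = 0
        · simp [hz]
        · have h1 : ∫ t : ℝ, ((κ : ℂ) * K (κ * t) * ee (η0 * t)) *
              (h ζ * ee (inner ℝ (X - t • eY) ζ)) =
              h ζ * ee (inner ℝ X ζ) * ∫ t : ℝ, (κ : ℂ) *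
                (fun s : ℝ => K s * ee (-(s * ((ζ 2 - η0) / κ)))) (κ * t) := by
            rw [← integral_const_mul]
            congr 1
            ext t
            rw [inner_sub_eY, ee_add]
            have e1 : ee (-(κ * t * ((ζ 2 - η0) / κ))) = ee (η0 * t) * ee (-(t * ζ 2)) := by
              rw [← ee_add]
              congr 1
              field_simp
              ring
            simp only [e1]
            ring
          rw [h1, integral_const_mul, Measure.integral_comp_mul_left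
            (fun s : ℝ => K s * ee (-(s * ((ζ 2 - η0) / κ)))) κ]
          have h2 : |(ζ 2 - η0) / κ| ≤ 2 := by
            rw [abs_div, abs_of_pos hκ, div_le_iff₀ hκ]
            exact hs ζ hz
          rw [hK1 _ h2, abs_of_pos (inv_pos.2 hκ), Complex.real_smul]
          have h3 : (κ : ℂ) ≠ 0 := by exact_mod_cast hκ.ne'
          push_cast
          field_simp
    _ = ∫ t : ℝ, ∫ ζ, ((κ : ℂ) * K (κ * t) * ee (η0 * t)) *
          (h ζ * ee (inner ℝ (X - t • eY) ζ)) := (integral_integral_swap hprod).symm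
    _ = _ := by
        congr 1
        ext t
        rw [integral_const_mul, fourierInv_int]

/-- weighted Cauchy-Schwarz. -/
theorem lint_sq_le {w F : ℝ → ℝ≥0∞} (hw : Measurable w) (hF : Measurable F) :
    (∫⁻ t, w t * F t) ^ 2 ≤ (∫⁻ t, w t) * ∫⁻ t, w t * F t ^ 2 := by
  have h1 := ENNReal.lintegral_mul_le_Lp_mul_Lq (volume : Measure ℝ)
    (p := 2) (q := 2) (by constructor <;> norm_num)
    (f := fun t => w t ^ (1/2 : ℝ)) (g := fun t => w t ^ (1/2 : ℝ) * F t)
    (hw.pow_const _).aemeasurable ((hw.pow_const _).mul hF).aemeasurable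
  have e1 : ∀ t, ((fun t => w t ^ (1/2 : ℝ)) * fun t => w t ^ (1/2 : ℝ) * F t) t = w t * F t := by
    intro t
    simp only [Pi.mul_apply]
    rw [← mul_assoc, ← ENNReal.rpow_add_of_nonneg _ _ (by norm_num) (by norm_num)]
    norm_num
  have e2 : ∀ t, (w t ^ (1/2 : ℝ)) ^ (2:ℝ) = w t := by
    intro t
    rw [← ENNReal.rpow_mul]; norm_num
  have e3 : ∀ t, (w t ^ (1/2 : ℝ) * F t) ^ (2:ℝ) = w t * F t ^ 2 := by
    intro t
    rw [ENNReal.mul_rpow_of_nonneg _ _ (by norm_num), e2]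
    norm_num
  simp only [e1, e2, e3] at h1
  calc (∫⁻ t, w t * F t) ^ 2 ≤ ((∫⁻ t, w t) ^ (1/2 : ℝ) * (∫⁻ t, w t * F t ^ 2) ^ (1/2 : ℝ)) ^ 2 := by
        gcongr
    _ = _ := by
        rw [mul_pow, ← ENNReal.rpow_natCast, ← ENNReal.rpow_natCast, ← ENNReal.rpow_mul,
          ← ENNReal.rpow_mul]
        norm_num

theorem continuous_fourierInv {h : E3 → ℂ} (hh : Integrable h) : Continuous (𝓕⁻ h) := by
  have h1 : (𝓕⁻ h : E3 → ℂ) = fun y => ∫ ζ, h ζ * ee (inner ℝ y ζ) := by
    ext y; exact fourierInv_int h y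
  rw [h1]
  refine continuous_of_dominated (F := fun y ζ => h ζ * ee (inner ℝ y ζ)) (bound := fun ζ => ‖h ζ‖)
    ?_ ?_ hh.norm ?_
  · intro y
    exact hh.1.mul (continuous_ee.comp (continuous_const.inner continuous_id)).aestronglyMeasurable
  · intro y
    refine Filter.Eventually.of_forall fun ζ => ?_
    rw [norm_mul, norm_ee, mul_one]
  · refine Filter.Eventually.of_forall fun ζ => ?_
    exact continuous_const.mul (continuous_ee.comp (continuous_id.inner continuous_const))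

/-- **reproducing inequality**. -/
theorem repro : ∃ C : ℝ, 0 < C ∧ ∀ (h : E3 → ℂ), Integrable h → ∀ η0 κ : ℝ, 0 < κ →
    (∀ ζ, h ζ ≠ 0 → |ζ 2 - η0| ≤ 2 * κ) → ∀ X : E3,
      ‖𝓕⁻ h X‖ₑ ^ 2 ≤ ENNReal.ofReal C *
        ∫⁻ t : ℝ, ENNReal.ofReal (κ / (1 + (κ * t) ^ 2)) * ‖𝓕⁻ h (X - t • eY)‖ₑ ^ 2 := by
  obtain ⟨K, C, hKc, hC, hKb, hK1⟩ := exists_ker
  refine ⟨C * Real.pi * C, by positivity, ?_⟩
  intro h hh η0 κ hκ hs X
  have h1 := repro_eq hKc hKb hK1 hh hκ hs X
  have hm : Measurable fun t : ℝ => ENNReal.ofReal (κ * (C / (1 + (κ * t) ^ 2))) := by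
    apply Measurable.ennreal_ofReal
    fun_prop
  have hm2 : Measurable fun t : ℝ => ‖𝓕⁻ h (X - t • eY)‖ₑ := by
    apply Continuous.measurable
    exact ((continuous_fourierInv hh).comp (by fun_prop)).enorm
  have h2 : ‖𝓕⁻ h X‖ₑ ≤ ∫⁻ t : ℝ, ENNReal.ofReal (κ * (C / (1 + (κ * t) ^ 2))) *
      ‖𝓕⁻ h (X - t • eY)‖ₑ := by
    rw [h1]
    refine (enorm_integral_le_lintegral_enorm _).trans (lintegral_mono fun t => ?_)
    rw [enorm_mul]
    gcongr
    rw [← ofReal_norm, norm_mul, norm_mul, norm_ee, mul_one, Complex.norm_real,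
      Real.norm_eq_abs, abs_of_pos hκ]
    gcongr
    exact hKb _
  calc ‖𝓕⁻ h X‖ₑ ^ 2 ≤ (∫⁻ t : ℝ, ENNReal.ofReal (κ * (C / (1 + (κ * t) ^ 2))) *
      ‖𝓕⁻ h (X - t • eY)‖ₑ) ^ 2 := by gcongr
    _ ≤ (∫⁻ t : ℝ, ENNReal.ofReal (κ * (C / (1 + (κ * t) ^ 2)))) *
        ∫⁻ t : ℝ, ENNReal.ofReal (κ * (C / (1 + (κ * t) ^ 2))) * ‖𝓕⁻ h (X - t • eY)‖ₑ ^ 2 :=
        lint_sq_le hm hm2
    _ = ENNReal.ofReal (C * Real.pi) *
        ∫⁻ t : ℝ, ENNReal.ofReal C * (ENNReal.ofReal (κ / (1 + (κ * t) ^ 2)) *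
          ‖𝓕⁻ h (X - t • eY)‖ₑ ^ 2) := by
        congr 1
        · rw [← ofReal_integral_eq_lintegral_ofReal (integrable_wt hκ C), integral_wt hκ C]
          exact Filter.Eventually.of_forall fun t => by positivity
        · congr 1
          ext t
          rw [← mul_assoc, ← ENNReal.ofReal_mul hC.le]
          congr 2
          ring
    _ = _ := by
        rw [lintegral_const_mul', ← mul_assoc, ← ENNReal.ofReal_mul (by positivity)]
        exact ENNReal.ofReal_ne_top

/-- transposition of the translates. -/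
theorem lint_tr {F : E3 → ℝ≥0∞} (hF : Measurable F) {w : ℝ → ℝ≥0∞} (hw : Measurable w)
    {Θ : Set E3} (hΘ : MeasurableSet Θ) :
    ∫⁻ X in Θ, ∫⁻ t, w t * F (X - t • eY) =
      ∫⁻ Y, F Y * ∫⁻ t, w t * Θ.indicator 1 (Y + t • eY) := by
  have hI : Measurable (Θ.indicator (1 : E3 → ℝ≥0∞)) := measurable_one.indicator hΘ
  have m1 : Measurable fun p : E3 × ℝ => w p.2 * (Θ.indicator 1 p.1 * F (p.1 - p.2 • eY)) := by
    apply Measurable.mul (hw.comp measurable_snd)
    apply Measurable.mul (hI.comp measurable_fst)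
    exact hF.comp (by fun_prop)
  have m2 : Measurable fun p : ℝ × E3 => w p.1 * (Θ.indicator 1 (p.2 + p.1 • eY) * F p.2) := by
    apply Measurable.mul (hw.comp measurable_fst)
    apply Measurable.mul (hI.comp (by fun_prop)) (hF.comp measurable_snd)
  calc ∫⁻ X in Θ, ∫⁻ t, w t * F (X - t • eY)
      = ∫⁻ X, ∫⁻ t, w t * (Θ.indicator 1 X * F (X - t • eY)) := by
        rw [← lintegral_indicator hΘ]
        congr 1
        ext X
        by_cases hX : X ∈ Θ
        · simp [hX]
        · simp [hX]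
    _ = ∫⁻ t, ∫⁻ X, w t * (Θ.indicator 1 X * F (X - t • eY)) :=
        lintegral_lintegral_swap m1.aemeasurable
    _ = ∫⁻ t, ∫⁻ Y, w t * (Θ.indicator 1 (Y + t • eY) * F Y) := by
        congr 1
        ext t
        rw [← lintegral_add_right_eq_self (μ := (volume : Measure E3))
          (fun X => w t * (Θ.indicator 1 X * F (X - t • eY))) (t • eY)]
        simp only [add_sub_cancel_right]
    _ = ∫⁻ Y, ∫⁻ t, w t * (Θ.indicator 1 (Y + t • eY) * F Y) :=
        lintegral_lintegral_swap m2.aemeasurable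
    _ = _ := by
        congr 1
        ext Y
        rw [← lintegral_const_mul]
        · congr 1
          ext t
          ring
        · exact hw.mul (hI.comp (by fun_prop))

end Crest.Agent.R116.Cnv894
end

-- ▼ part R116/Cnv2_894
section

/-!
# R116 (S0155), leaf CNV of WDefC_188, part 2 (helper894): transfer of the energy of a selection to
the translates in the last coordinate, elementary one-dimensional bounds.
-/

set_option autoImplicit false

open MeasureTheory FourierTransform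
open scoped ContDiff ENNReal

namespace Crest.Agent.R116.Cnv894

open Crest.Agent.R138.Defs (E2 ee)
open Crest.Agent.R138.Wpk685 (cen caps cap win norm_win_le win_contDiff)
open Crest.Agent.R116.CDef480
open Crest.Agent.R116.LZg725 (Cf)

/-! ### integrability -/

/-- qualitative class of functions. -/
structure Gd (g : E3 → ℂ) : Prop where
  meas : Measurable g
  bdd : ∃ L : ℝ, ∀ ζ, ‖g ζ‖ ≤ L
  supp : ∃ r : ℝ, ∀ ζ, g ζ ≠ 0 → ‖ζ‖ ≤ r

theorem Gd.int {g : E3 → ℂ} (h : Gd g) : Integrable g := by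
  obtain ⟨L, hL⟩ := h.bdd
  obtain ⟨r, hr⟩ := h.supp
  have h1 : Integrable ((Metric.closedBall (0 : E3) r).indicator fun _ => L) := by
    rw [integrable_indicator_iff Metric.isClosed_closedBall.measurableSet]
    exact integrableOn_const (hs := (isCompact_closedBall (0 : E3) r).measure_lt_top.ne)
  refine h1.mono' h.meas.aestronglyMeasurable (Filter.Eventually.of_forall fun ζ => ?_)
  by_cases hz : g ζ = 0
  · rw [hz, norm_zero]
    by_cases hζ : ζ ∈ Metric.closedBall (0 : E3) r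
    · rw [Set.indicator_of_mem hζ]; exact (norm_nonneg _).trans (hL ζ)
    · rw [Set.indicator_of_notMem hζ]
  · rw [Set.indicator_of_mem (by simpa using hr ζ hz)]
    exact hL ζ

theorem measurable_capc (ρ : ℝ) (m : ℤ × ℤ) : Measurable (capc ρ m) := by
  have h : Measurable fun ζ => ρ⁻¹ • (slp ζ - cen ρ m) := by
    have := measurable_slp
    fun_prop
  exact win_contDiff.continuous.measurable.comp h

theorem norm_capc_le (ρ : ℝ) (m : ℤ × ℤ) (ζ : E3) : ‖capc ρ m ζ‖ ≤ 1 := by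
  unfold capc cap
  exact norm_win_le _

theorem Gd.cap {g : E3 → ℂ} (h : Gd g) (ρ : ℝ) (m : ℤ × ℤ) : Gd (fun ζ => capc ρ m ζ * g ζ) := by
  obtain ⟨L, hL⟩ := h.bdd
  obtain ⟨r, hr⟩ := h.supp
  refine ⟨(measurable_capc ρ m).mul h.meas, ⟨L, fun ζ => ?_⟩, ⟨r, fun ζ hz => ?_⟩⟩
  · rw [norm_mul]
    calc ‖capc ρ m ζ‖ * ‖g ζ‖ ≤ 1 * L := by
          gcongr
          · exact norm_capc_le ρ m ζ
          · exact hL ζ
      _ = L := one_mul L
  · exact hr ζ fun h0 => hz (by rw [h0, mul_zero])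

theorem measurable_umc {g : E3 → ℂ} (h : Gd g) (ρ : ℝ) (m : ℤ × ℤ) : Measurable (umc ρ g m) :=
  (continuous_fourierInv (h.cap ρ m).int).measurable

/-! ### transfer -/

/-- **transfer**: if the weighted time spent in `Θ m` by the vertical line through `Y` is bounded by
a sum of indicators, the energy is bounded by the same sum of energies. -/
theorem enc_transfer : ∃ A : ℝ, 0 < A ∧ ∀ (ρ : ℝ) (g : E3 → ℂ), Gd g → ∀ η0 κ : ℝ, 0 < κ →
    Slc η0 (2 * κ) g → ∀ Θ : ℤ × ℤ → Set E3, (∀ m, MeasurableSet (Θ m)) →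
    ∀ (ι : Type) (_ : Countable ι) (Th : ι → ℤ × ℤ → Set E3) (b : ι → ℝ≥0∞),
      (∀ i m, MeasurableSet (Th i m)) →
      (∀ m Y, ∫⁻ t : ℝ, ENNReal.ofReal (κ / (1 + (κ * t) ^ 2)) * (Θ m).indicator 1 (Y + t • eY) ≤
        ∑' i, b i * (Th i m).indicator 1 Y) →
      enc ρ g Θ ≤ ENNReal.ofReal A * ∑' i, b i * enc ρ g (Th i) := by
  obtain ⟨A, hA, hrep⟩ := repro
  refine ⟨A, hA, ?_⟩
  intro ρ g hg η0 κ hκ hs Θ hΘ ι hι Th b hTh hb
  have hw : Measurable fun t : ℝ => ENNReal.ofReal (κ / (1 + (κ * t) ^ 2)) := by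
    apply Measurable.ennreal_ofReal
    fun_prop
  have key : ∀ m, ∫⁻ x in Θ m, ‖umc ρ g m x‖ₑ ^ 2 ≤
      ENNReal.ofReal A * ∑' i, b i * ∫⁻ x in Th i m, ‖umc ρ g m x‖ₑ ^ 2 := by
    intro m
    have hF : Measurable fun x => ‖umc ρ g m x‖ₑ ^ 2 := (measurable_umc hg ρ m).enorm.pow_const _
    have h1 : ∀ X, ‖umc ρ g m X‖ₑ ^ 2 ≤ ENNReal.ofReal A *
        ∫⁻ t : ℝ, ENNReal.ofReal (κ / (1 + (κ * t) ^ 2)) * ‖umc ρ g m (X - t • eY)‖ₑ ^ 2 :=
      fun X => hrep _ (hg.cap ρ m).int η0 κ hκ (fun ζ hz => hs ζ fun h0 => hz (by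
        rw [h0, mul_zero])) X
    calc ∫⁻ x in Θ m, ‖umc ρ g m x‖ₑ ^ 2
        ≤ ∫⁻ X in Θ m, ENNReal.ofReal A * ∫⁻ t : ℝ, ENNReal.ofReal (κ / (1 + (κ * t) ^ 2)) *
            ‖umc ρ g m (X - t • eY)‖ₑ ^ 2 := lintegral_mono fun X => h1 X
      _ = ENNReal.ofReal A * ∫⁻ Y, ‖umc ρ g m Y‖ₑ ^ 2 *
            ∫⁻ t : ℝ, ENNReal.ofReal (κ / (1 + (κ * t) ^ 2)) *
              (Θ m).indicator 1 (Y + t • eY) := by
          rw [lintegral_const_mul' _ _ ENNReal.ofReal_ne_top, lint_tr hF hw (hΘ m)]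
      _ ≤ ENNReal.ofReal A * ∫⁻ Y, ‖umc ρ g m Y‖ₑ ^ 2 * ∑' i, b i * (Th i m).indicator 1 Y := by
          gcongr with Y
          exact hb m Y
      _ = ENNReal.ofReal A * ∫⁻ Y, ∑' i, b i * (Th i m).indicator (fun x => ‖umc ρ g m x‖ₑ ^ 2) Y := by
          congr 1
          apply lintegral_congr
          intro Y
          rw [← ENNReal.tsum_mul_left]
          congr 1
          ext i
          by_cases hY : Y ∈ Th i m
          · simp [hY, mul_comm]
          · simp [hY]
      _ = ENNReal.ofReal A * ∑' i, b i * ∫⁻ x in Th i m, ‖umc ρ g m x‖ₑ ^ 2 := by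
          rw [lintegral_tsum fun i => ((hF.indicator (hTh i m)).const_mul _).aemeasurable]
          congr 2
          ext i
          rw [lintegral_const_mul _ (hF.indicator (hTh i m)), lintegral_indicator (hTh i m)]
  unfold enc
  calc ∑ m ∈ caps ρ, ∫⁻ x in Θ m, ‖umc ρ g m x‖ₑ ^ 2
      ≤ ∑ m ∈ caps ρ, ENNReal.ofReal A * ∑' i, b i * ∫⁻ x in Th i m, ‖umc ρ g m x‖ₑ ^ 2 :=
        Finset.sum_le_sum fun m _ => key m
    _ = ENNReal.ofReal A * ∑' i, b i * ∑ m ∈ caps ρ, ∫⁻ x in Th i m, ‖umc ρ g m x‖ₑ ^ 2 := by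
        rw [← Finset.mul_sum, ← Summable.tsum_finsetSum (fun m _ => ENNReal.summable)]
        congr 2
        ext i
        rw [Finset.mul_sum]

/-! ### one-dimensional bounds -/

/-- length of the set of parameters for which an affine function is small. -/
theorem vol_affine {a b s : ℝ} (hb : b ≠ 0) (_hs : 0 ≤ s) :
    volume {t : ℝ | |a + b * t| ≤ s} ≤ ENNReal.ofReal (2 * s / |b|) := by
  have h1 : {t : ℝ | |a + b * t| ≤ s} ⊆ Set.Icc (-a / b - s / |b|) (-a / b + s / |b|) := by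
    intro t ht
    have ht' : |a + b * t| ≤ s := ht
    have hb' : 0 < |b| := abs_pos.2 hb
    have h2 : |t - -a / b| ≤ s / |b| := by
      have e : (t - -a / b) * b = a + b * t := by
        rw [sub_mul, div_mul_cancel₀ _ hb]; ring
      rw [le_div_iff₀ hb', ← abs_mul, e]
      exact ht'
    rw [abs_le] at h2
    constructor <;> linarith [h2.1, h2.2]
  refine (measure_mono h1).trans ?_
  rw [Real.volume_Icc]
  apply ENNReal.ofReal_le_ofReal
  apply le_of_eq
  ring

/-- weights on a window. -/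
theorem wt_le {κ t : ℝ} {i : ℝ} (hκ : 0 < κ) (h : |κ * t + i| ≤ 2) :
    κ / (1 + (κ * t) ^ 2) ≤ 9 * κ / (1 + i ^ 2) := by
  rw [div_le_div_iff₀ (by positivity) (by positivity)]
  have h1 : (κ * t + i) ^ 2 ≤ 4 := by
    have := sq_abs (κ * t + i)
    have h0 := abs_nonneg (κ * t + i)
    nlinarith
  have h2 : i ^ 2 ≤ 2 * (κ * t) ^ 2 + 8 := by nlinarith [sq_nonneg (κ * t + (κ * t + i))]
  have h3 : 1 + i ^ 2 ≤ 9 * (1 + (κ * t) ^ 2) := by nlinarith [sq_nonneg (κ * t)]
  calc κ * (1 + i ^ 2) ≤ κ * (9 * (1 + (κ * t) ^ 2)) := by gcongr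
    _ = 9 * κ * (1 + (κ * t) ^ 2) := by ring

/-- the sum of the weights. -/
theorem summable_wt : Summable fun i : ℤ => 1 / (1 + (i : ℝ) ^ 2) := by
  have h1 : Summable fun n : ℕ => 1 / (1 + ((n : ℤ) : ℝ) ^ 2) := by
    refine Summable.of_nonneg_of_le (fun n => by positivity) (fun n => ?_)
      (Real.summable_one_div_nat_pow.2 (one_lt_two) |>.comp_injective Nat.succ_injective
        |>.mul_left 4)
    simp only [Function.comp, Nat.succ_eq_add_one, Int.cast_natCast]
    push_cast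
    rw [mul_one_div, div_le_div_iff₀ (by positivity) (by positivity)]
    have : (0:ℝ) ≤ n := Nat.cast_nonneg n
    nlinarith [sq_nonneg ((n : ℝ) - 1)]
  refine Summable.of_nat_of_neg h1 ?_
  simpa using h1

end Crest.Agent.R116.Cnv894
end

-- ▼ part R116/Cnv3_894
section

/-!
# R116 (S0155), leaf CNV of WDefC_188, part 3 (helper894): flat containers of the vertical translates
of a thin member.
-/

set_option autoImplicit false

open MeasureTheory FourierTransform
open scoped ContDiff ENNReal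

namespace Crest.Agent.R116.Cnv894

open Crest.Agent.R138.Defs (E2 ee)
open Crest.Agent.R116.CDef480
open Crest.Agent.R116.WC188
open Crest.Agent.R116.LZg725 (Cf)

/-! ### vertical translations -/

theorem lat_tr (Y : E3) (t : ℝ) : lat (Y + t • eY) = lat Y := by
  rw [lat_add, lat_eY, add_zero]

theorem two_tr (Y : E3) (t : ℝ) : (Y + t • eY) 2 = Y 2 + t := by
  rw [PiLp.add_apply, eY_two]

theorem nrm_tr (c : E2) (Y : E3) (t : ℝ) : nrm c (Y + t • eY) 0 = nrm c Y 0 + t := by
  unfold nrm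
  rw [lat_tr, two_tr]
  ring

theorem ev_trY (f : Cf E2) (Y : E3) (t : ℝ) :
    f.ev (lat (Y + t • eY)) ((Y + t • eY) 2) 0 = f.ev (lat Y) (Y 2) 0 + f.g * t := by
  rw [lat_tr, two_tr]
  unfold Cf.ev
  ring

theorem ld_trY (f : Cf E2) (C : E2) (Y : E3) (t : ℝ) :
    f.ld C (lat (Y + t • eY)) ((Y + t • eY) 2) 0 =
      f.ld C (lat Y) (Y 2) 0 + -(2 * f.d) * t := by
  rw [lat_tr, two_tr]
  unfold Cf.ld
  ring

/-! ### flat functions -/

/-- the flat conformal function of gradient `u` vanishing on the ray of slope `C` through `x`. -/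
noncomputable def flat (u x C : E2) : Cf E2 := ⟨-inner ℝ u x, inner ℝ u C, u, 0, 0⟩

theorem flat_ev (u x C : E2) (x' : E2) (y s : ℝ) :
    (flat u x C).ev x' y s = inner ℝ u (x' - x) + s * inner ℝ u C := by
  unfold Cf.ev flat
  rw [inner_sub_right]
  ring

theorem flat_ld (u x C C' : E2) (x' : E2) (y s : ℝ) :
    (flat u x C).ld C' x' y s = inner ℝ u (C - C') := by
  unfold Cf.ld Cf.ny flat
  simp only [mul_zero, zero_mul, zero_smul, add_zero, sub_zero, zero_div]
  rw [inner_sub_right]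

theorem flat_ny (u x C : E2) (s : ℝ) : (flat u x C).ny s = 0 := by
  unfold Cf.ny flat; simp

theorem flat_disc (u x C : E2) : (flat u x C).disc = ‖u‖ ^ 2 := by
  unfold Cf.disc flat; simp

/-! ### the geometric lemma -/

/-- **containers**: all points of the phase slab of `f` in the thin box lie in a flat slab of width
`s1'`, and the vertical lines spend time at most `ov` in it, with `ov s1' ≤ 48 s1 s2² R`. -/
theorem geo {R s1 s2 : ℝ} (hR : 1 ≤ R) (h1 : 0 < s1) (h12 : s1 ≤ s2) (c : E2) (X0 : E3) (f : Cf E2)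
    (hdisc : f.disc = 1) : ∃ (u x C : E2) (s1' ov : ℝ), ‖u‖ = 1 ∧ ‖x - lat X0‖ ≤ s2 * R ∧
      ‖C - c‖ ≤ s2 ∧ s1 ≤ s1' ∧ s1' ≤ s2 ∧ 0 ≤ ov ∧ ov * s1' ≤ 48 * (s1 * s2 ^ 2 * R) ∧
      (∀ C' X, X ∈ mset s2 (s2 ^ 2) R s1 c X0 f C' →
        |inner ℝ u (lat X - x)| ≤ s1' * R ∧ |inner ℝ u (C - C')| ≤ s1') ∧
      ∀ C' Y, volume {t : ℝ | Y + t • eY ∈ mset s2 (s2 ^ 2) R s1 c X0 f C'} ≤
        ENNReal.ofReal ov := by
  have h2 : 0 < s2 := h1.trans_le h12
  have hR0 : 0 < R := by linarith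
  -- the size
  set S : ℝ := max s1 (max (|f.g| * s2 ^ 2) (|f.d| * s2 ^ 2 * R)) with hS
  have hS1 : s1 ≤ S := le_max_left _ _
  have hSg : |f.g| * s2 ^ 2 ≤ S := (le_max_left _ _).trans (le_max_right _ _)
  have hSd : |f.d| * s2 ^ 2 * R ≤ S := (le_max_right _ _).trans (le_max_right _ _)
  have hS0 : 0 < S := h1.trans_le hS1
  -- overlap
  have hov : ∀ C' Y, volume {t : ℝ | Y + t • eY ∈ mset s2 (s2 ^ 2) R s1 c X0 f C'} ≤
      ENNReal.ofReal (2 * s1 * s2 ^ 2 * R / S) := by
    intro C' Y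
    rcases max_choice s1 (max (|f.g| * s2 ^ 2) (|f.d| * s2 ^ 2 * R)) with h | h
    · -- thickness
      have hSe : S = s1 := h
      have hsub : {t : ℝ | Y + t • eY ∈ mset s2 (s2 ^ 2) R s1 c X0 f C'} ⊆
          {t : ℝ | |(nrm c Y 0 - nrm c X0 0) + 1 * t| ≤ s2 ^ 2 * R} := by
        intro t ht
        have h3 := ht.2.2.1
        rw [nrm_tr] at h3
        change |(nrm c Y 0 - nrm c X0 0) + 1 * t| ≤ s2 ^ 2 * R
        rwa [show nrm c Y 0 - nrm c X0 0 + 1 * t = nrm c Y 0 + t - nrm c X0 0 by ring]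
      refine (measure_mono hsub).trans ((vol_affine one_ne_zero (by positivity)).trans ?_)
      apply ENNReal.ofReal_le_ofReal
      rw [hSe, abs_one, div_one]
      apply le_of_eq
      field_simp
    · rcases max_choice (|f.g| * s2 ^ 2) (|f.d| * s2 ^ 2 * R) with h' | h'
      · -- gradient
        have hSe : S = |f.g| * s2 ^ 2 := by rw [hS, h, h']
        have hg : 0 < |f.g| := by
          rcases (abs_nonneg f.g).eq_or_lt with h0 | h0
          · rw [hSe, ← h0, zero_mul] at hS0; exact absurd hS0 (lt_irrefl _)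
          · exact h0
        have hsub : {t : ℝ | Y + t • eY ∈ mset s2 (s2 ^ 2) R s1 c X0 f C'} ⊆
            {t : ℝ | |f.ev (lat Y) (Y 2) 0 + f.g * t| ≤ s1 * R} := by
          intro t ht
          have h3 := ht.2.2.2.1
          rw [ev_trY] at h3
          exact h3
        refine (measure_mono hsub).trans ((vol_affine (abs_pos.1 hg) (by positivity)).trans ?_)
        apply ENNReal.ofReal_le_ofReal
        rw [hSe]
        apply le_of_eq
        field_simp
      · -- curvature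
        have hSe : S = |f.d| * s2 ^ 2 * R := by rw [hS, h, h']
        have hd : 0 < |f.d| := by
          rcases (abs_nonneg f.d).eq_or_lt with h0 | h0
          · rw [hSe, ← h0, zero_mul, zero_mul] at hS0; exact absurd hS0 (lt_irrefl _)
          · exact h0
        have hsub : {t : ℝ | Y + t • eY ∈ mset s2 (s2 ^ 2) R s1 c X0 f C'} ⊆
            {t : ℝ | |f.ld C' (lat Y) (Y 2) 0 + -(2 * f.d) * t| ≤ s1} := by
          intro t ht
          have h3 := ht.2.2.2.2
          rw [ld_trY] at h3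
          exact h3
        have hd' : -(2 * f.d) ≠ 0 := by
          have := abs_pos.1 hd
          simpa using this
        refine (measure_mono hsub).trans ((vol_affine hd' h1.le).trans ?_)
        apply ENNReal.ofReal_le_ofReal
        rw [hSe, abs_neg, abs_mul, abs_two]
        rw [div_le_div_iff₀ (by positivity) (by positivity)]
        have : 0 ≤ s1 * |f.d| * s2 ^ 2 * R := by positivity
        nlinarith
  rcases le_or_gt (s2 / 24) S with hbig | hsmall
  · -- no slab condition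
    refine ⟨EuclideanSpace.single 0 1, lat X0, c, s2, 2 * s1 * s2 ^ 2 * R / S, by simp, by simp; positivity,
      by simp; positivity, h12, le_rfl, by positivity, ?_, ?_, hov⟩
    · rw [div_mul_eq_mul_div, div_le_iff₀ hS0]
      have h3 : s2 ≤ 24 * S := by linarith
      have h4 : 0 ≤ 2 * s1 * s2 ^ 2 * R := by positivity
      nlinarith [mul_le_mul_of_nonneg_left h3 h4]
    · intro C' X hX
      have hu : ‖(EuclideanSpace.single 0 1 : E2)‖ = 1 := by simp
      constructor
      · calc |inner ℝ (EuclideanSpace.single 0 1 : E2) (lat X - lat X0)| ≤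
              ‖(EuclideanSpace.single 0 1 : E2)‖ * ‖lat X - lat X0‖ := abs_real_inner_le_norm _ _
          _ ≤ 1 * (s2 * R) := by rw [hu]; gcongr; exact hX.2.1
          _ = s2 * R := one_mul _
      · calc |inner ℝ (EuclideanSpace.single 0 1 : E2) (c - C')| ≤
              ‖(EuclideanSpace.single 0 1 : E2)‖ * ‖c - C'‖ := abs_real_inner_le_norm _ _
          _ ≤ 1 * s2 := by rw [hu, norm_sub_rev]; gcongr; exact hX.1
          _ = s2 := one_mul _
  · by_cases hne : ∃ C' X, X ∈ mset s2 (s2 ^ 2) R s1 c X0 f C'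
    · obtain ⟨Cs, Xs, hXs⟩ := hne
      have hg1 : |f.g| * s2 ≤ 1 / 24 := by
        have h3 : |f.g| * s2 * s2 < 1 / 24 * s2 := by nlinarith
        exact (lt_of_mul_lt_mul_right h3 h2.le).le
      have hd1 : |f.d| * s2 * R ≤ 1 / 24 := by
        have h3 : |f.d| * s2 * R * s2 < 1 / 24 * s2 := by nlinarith
        exact (lt_of_mul_lt_mul_right h3 h2.le).le
      obtain ⟨hXs1, hXs2, hXs3, hXs4, hXs5⟩ := hXs
      set G : E2 := f.gr Cs (lat Xs) 0 with hG
      have hGsq := Cf.norm_gr_sq f Cs (lat Xs) (Xs 2) 0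
      rw [← hG, hdisc] at hGsq
      have hny0 : f.ny 0 = f.g := by unfold Cf.ny; ring
      rw [hny0] at hGsq
      have e1 : |2 * f.g * f.ld Cs (lat Xs) (Xs 2) 0| ≤ 1 / 12 := by
        rw [abs_mul, abs_mul, abs_two]
        calc 2 * |f.g| * |f.ld Cs (lat Xs) (Xs 2) 0| ≤ 2 * |f.g| * s2 := by
              gcongr; exact hXs5.trans h12
          _ ≤ 1 / 12 := by linarith
      have e2 : |4 * f.d * f.ev (lat Xs) (Xs 2) 0| ≤ 1 / 6 := by
        rw [abs_mul, abs_mul, abs_of_pos (by norm_num : (0:ℝ) < 4)]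
        calc 4 * |f.d| * |f.ev (lat Xs) (Xs 2) 0| ≤ 4 * |f.d| * (s2 * R) := by
              gcongr; exact hXs4.trans (by gcongr)
          _ ≤ 1 / 6 := by linarith
      have hGlow : 1 / 2 ≤ ‖G‖ := by
        have h3 : 1 / 4 ≤ ‖G‖ ^ 2 := by
          have := abs_le.1 e1
          have := abs_le.1 e2
          linarith
        have h4 := norm_nonneg G
        nlinarith
      have hG0 : 0 < ‖G‖ := by linarith
      set u : E2 := ‖G‖⁻¹ • G with hu
      have hunit : ‖u‖ = 1 := by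
        rw [hu, norm_smul, norm_inv, norm_norm, inv_mul_cancel₀ hG0.ne']
      have hinner : ∀ v : E2, |inner ℝ u v| ≤ 2 * |inner ℝ G v| := by
        intro v
        rw [hu, real_inner_smul_left, abs_mul, abs_of_pos (inv_pos.2 hG0)]
        gcongr
        rw [inv_le_comm₀ hG0 (by norm_num)]
        linarith
      refine ⟨u, lat Xs, Cs, 24 * S, 2 * s1 * s2 ^ 2 * R / S, hunit, hXs2, hXs1, by linarith,
        by linarith, by positivity, ?_, ?_, hov⟩
      · apply le_of_eq
        field_simp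
        ring
      · intro C' X hX
        obtain ⟨hX1, hX2, hX3, hX4, hX5⟩ := hX
        have hxx : ‖lat X - lat Xs‖ ≤ 2 * s2 * R := by
          calc ‖lat X - lat Xs‖ = ‖(lat X - lat X0) - (lat Xs - lat X0)‖ := by congr 1; abel
            _ ≤ ‖lat X - lat X0‖ + ‖lat Xs - lat X0‖ := norm_sub_le _ _
            _ ≤ s2 * R + s2 * R := add_le_add hX2 hXs2
            _ = 2 * s2 * R := by ring
        have hCC : ‖C' - Cs‖ ≤ 2 * s2 := by
          calc ‖C' - Cs‖ = ‖(C' - c) - (Cs - c)‖ := by congr 1; abel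
            _ ≤ ‖C' - c‖ + ‖Cs - c‖ := norm_sub_le _ _
            _ ≤ s2 + s2 := add_le_add hX1 hXs1
            _ = 2 * s2 := by ring
        -- normal displacement in a direction `D` of the box
        have hN : ∀ D : E2, ‖D - c‖ ≤ s2 → |nrm D X 0 - nrm D Xs 0| ≤ 4 * s2 ^ 2 * R := by
          intro D hD
          have e3 : nrm D X 0 - nrm D Xs 0 = (nrm c X 0 - nrm c X0 0) - (nrm c Xs 0 - nrm c X0 0) +
              inner ℝ (D - c) (lat X - lat Xs) := by
            unfold nrm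
            simp only [inner_sub_left, inner_sub_right]
            ring
          rw [e3]
          calc _ ≤ |(nrm c X 0 - nrm c X0 0) - (nrm c Xs 0 - nrm c X0 0)| +
                |inner ℝ (D - c) (lat X - lat Xs)| := abs_add_le _ _
            _ ≤ (|nrm c X 0 - nrm c X0 0| + |nrm c Xs 0 - nrm c X0 0|) +
                ‖D - c‖ * ‖lat X - lat Xs‖ := by
                gcongr
                · exact abs_sub _ _
                · exact abs_real_inner_le_norm _ _
            _ ≤ (s2 ^ 2 * R + s2 ^ 2 * R) + s2 * (2 * s2 * R) := by gcongr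
            _ = 4 * s2 ^ 2 * R := by ring
        have hnrmeq : ∀ D : E2, ∀ Z : E3,
            Crest.Agent.R116.LZg725.nrm D (lat Z) (Z 2) 0 = nrm D Z 0 := by
          intro D Z; rfl
        constructor
        · -- value
          have h3 := Cf.ev_expand f Cs (lat Xs) (Xs 2) 0 (lat X) (X 2) 0
          rw [← hG, hny0, hnrmeq, hnrmeq] at h3
          simp only [sub_zero, zero_smul, add_zero, mul_zero, zero_mul] at h3
          have h4 : inner ℝ G (lat X - lat Xs) = f.ev (lat X) (X 2) 0 - f.ev (lat Xs) (Xs 2) 0 -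
              f.g * (nrm Cs X 0 - nrm Cs Xs 0) - f.d * ‖lat X - lat Xs‖ ^ 2 := by
            linarith
          have h5 : |f.g * (nrm Cs X 0 - nrm Cs Xs 0)| ≤ 4 * (S * R) := by
            rw [abs_mul]
            calc |f.g| * |nrm Cs X 0 - nrm Cs Xs 0| ≤ |f.g| * (4 * s2 ^ 2 * R) := by
                  gcongr; exact hN Cs hXs1
              _ = 4 * (|f.g| * s2 ^ 2 * R) := by ring
              _ ≤ 4 * (S * R) := by gcongr
          have h6 : |f.d * ‖lat X - lat Xs‖ ^ 2| ≤ 4 * (S * R) := by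
            rw [abs_mul, abs_of_nonneg (sq_nonneg ‖lat X - lat Xs‖)]
            calc |f.d| * ‖lat X - lat Xs‖ ^ 2 ≤ |f.d| * (2 * s2 * R) ^ 2 := by gcongr
              _ = 4 * (|f.d| * s2 ^ 2 * R * R) := by ring
              _ ≤ 4 * (S * R) := by gcongr
          have h7 : s1 * R ≤ S * R := by gcongr
          have h8 : |inner ℝ G (lat X - lat Xs)| ≤ 10 * (S * R) := by
            rw [h4]
            have a1 := abs_le.1 h5
            have a2 := abs_le.1 h6
            have a3 := abs_le.1 hX4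
            have a4 := abs_le.1 hXs4
            rw [abs_le]
            constructor <;> linarith [a1.1, a1.2, a2.1, a2.2, a3.1, a3.2, a4.1, a4.2]
          refine (hinner _).trans ?_
          have : 0 < S * R := by positivity
          linarith
        · -- derivative
          have h3 := Cf.ld_dir f Cs C' (lat Xs) (Xs 2) 0
          rw [← hG, hny0] at h3
          have h4 := Cf.ld_move f C' (lat Xs) (lat X) (Xs 2) (X 2) 0 0
          rw [hnrmeq, hnrmeq] at h4
          have h5 : inner ℝ G (C' - Cs) = f.ld Cs (lat Xs) (Xs 2) 0 + f.g * ‖C' - Cs‖ ^ 2 / 2 -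
              2 * f.d * (nrm C' X 0 - nrm C' Xs 0) - f.ld C' (lat X) (X 2) 0 := by
            linarith
          have h6 : |f.g * ‖C' - Cs‖ ^ 2 / 2| ≤ 2 * S := by
            rw [abs_div, abs_mul, abs_two, abs_of_nonneg (sq_nonneg ‖C' - Cs‖)]
            calc |f.g| * ‖C' - Cs‖ ^ 2 / 2 ≤ |f.g| * (2 * s2) ^ 2 / 2 := by gcongr
              _ = 2 * (|f.g| * s2 ^ 2) := by ring
              _ ≤ 2 * S := by gcongr
          have h7 : |2 * f.d * (nrm C' X 0 - nrm C' Xs 0)| ≤ 8 * S := by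
            rw [abs_mul, abs_mul, abs_two]
            calc 2 * |f.d| * |nrm C' X 0 - nrm C' Xs 0| ≤ 2 * |f.d| * (4 * s2 ^ 2 * R) := by
                  gcongr; exact hN C' hX1
              _ = 8 * (|f.d| * s2 ^ 2 * R) := by ring
              _ ≤ 8 * S := by gcongr
          have h8 : |inner ℝ G (C' - Cs)| ≤ 12 * S := by
            rw [h5]
            have a1 := abs_le.1 h6
            have a2 := abs_le.1 h7
            have a3 := abs_le.1 hX5
            have a4 := abs_le.1 hXs5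
            rw [abs_le]
            constructor <;> linarith [a1.1, a1.2, a2.1, a2.2, a3.1, a3.2, a4.1, a4.2]
          have h9 : |inner ℝ G (Cs - C')| ≤ 12 * S := by
            rw [← neg_sub C' Cs, inner_neg_right, abs_neg]; exact h8
          refine (hinner _).trans ?_
          linarith
    · -- empty
      push Not at hne
      refine ⟨EuclideanSpace.single 0 1, lat X0, c, s2, 0, by simp, by simp; positivity,
        by simp; positivity, h12, le_rfl, le_rfl, ?_, ?_, ?_⟩
      · rw [zero_mul]; positivity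
      · intro C' X hX
        exact absurd hX (hne C' X)
      · intro C' Y
        have : {t : ℝ | Y + t • eY ∈ mset s2 (s2 ^ 2) R s1 c X0 f C'} = ∅ := by
          ext t
          simp only [Set.mem_empty_iff_false, iff_false]
          exact fun h => hne C' _ h
        rw [this]
        simp

end Crest.Agent.R116.Cnv894
end

-- ▼ part R116/Cnv4_894
section

/-!
# R116 (S0155), leaf CNV of WDefC_188 (v2), part 4 (helper894): cells of vertical translations, the
containers in the two cases `s2² < (κ R)⁻¹` (flat) and `(κ R)⁻¹ ≤ s2²` (translated functions).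
-/

set_option autoImplicit false

open MeasureTheory FourierTransform
open scoped ContDiff ENNReal

namespace Crest.Agent.R116.Cnv894

open Crest.Agent.R138.Defs (E2 ee)
open Crest.Agent.R138.Wpk685 (cen caps cap win)
open Crest.Agent.R116.CDef480
open Crest.Agent.R116.WC188
open Crest.Agent.R116.LZg725 (Cf)

/-! ### measurability of the phase boxes -/

theorem continuous_lat' : Continuous lat := latL.continuous

theorem measurableSet_mset (sg T R s1 : ℝ) (c : E2) (X0 : E3) (f : Cf E2) (C : E2) :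
    MeasurableSet (mset sg T R s1 c X0 f C) := by
  have hl := continuous_lat'
  have h2 : Continuous fun X : E3 => X 2 := by fun_prop
  have e1 : Continuous fun X : E3 => ‖lat X - lat X0‖ := (hl.sub continuous_const).norm
  have e2 : Continuous fun X : E3 => |nrm c X 0 - nrm c X0 0| := by
    unfold nrm
    exact (((h2.add (continuous_const.inner hl)).add continuous_const).sub continuous_const).abs
  have e3 : Continuous fun X : E3 => |f.ev (lat X) (X 2) 0| := by
    unfold Cf.ev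
    exact ((((continuous_const.add continuous_const).add (continuous_const.inner hl)).add
      (continuous_const.mul h2)).add (continuous_const.mul ((hl.norm.pow 2).sub
      (continuous_const.mul h2)))).abs
  have e4 : Continuous fun X : E3 => |f.ld C (lat X) (X 2) 0| := by
    unfold Cf.ld
    exact (((continuous_const.sub (continuous_const.mul h2)).sub
      (Continuous.inner (continuous_const.add (hl.const_smul (2 * f.d))) continuous_const)).add
      continuous_const).abs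
  have : mset sg T R s1 c X0 f C = {X | ‖C - c‖ ≤ sg} ∩ ({X | ‖lat X - lat X0‖ ≤ sg * R} ∩
      ({X | |nrm c X 0 - nrm c X0 0| ≤ T * R} ∩ ({X | |f.ev (lat X) (X 2) 0| ≤ s1 * R} ∩
      {X | |f.ld C (lat X) (X 2) 0| ≤ s1}))) := rfl
  rw [this]
  exact (MeasurableSet.const _).inter ((measurableSet_le e1.measurable measurable_const).inter
    ((measurableSet_le e2.measurable measurable_const).inter
    ((measurableSet_le e3.measurable measurable_const).inter
    (measurableSet_le e4.measurable measurable_const))))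

/-! ### cells -/

/-- **energy by cells of vertical translations**. -/
theorem enc_cells : ∃ A : ℝ, 0 < A ∧ ∀ (ρ : ℝ) (g : E3 → ℂ), Gd g → ∀ η0 κ : ℝ, 0 < κ →
    Slc η0 (2 * κ) g → ∀ Θ : ℤ × ℤ → Set E3, (∀ m, MeasurableSet (Θ m)) →
    ∀ (Th : ℤ → ℤ × ℤ → Set E3), (∀ j m, MeasurableSet (Th j m)) → ∀ ov E : ℝ, 0 ≤ ov → 0 ≤ E →
      (∀ (j : ℤ) m Y (t : ℝ), Y + t • eY ∈ Θ m → (j : ℝ) ≤ κ * t → κ * t < j + 1 → Y ∈ Th j m) →
      (∀ (j : ℤ) m Y, volume {t : ℝ | Y + t • eY ∈ Θ m ∧ (j : ℝ) ≤ κ * t ∧ κ * t < j + 1} ≤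
        ENNReal.ofReal ov) →
      (∀ j, enc ρ g (Th j) ≤ ENNReal.ofReal E) →
      enc ρ g Θ ≤ ENNReal.ofReal (A * (κ * ov * E)) := by
  obtain ⟨A, hA, htr⟩ := enc_transfer
  set W : ℝ := ∑' i : ℤ, 1 / (1 + (i : ℝ) ^ 2) with hW
  have hW0 : 0 ≤ W := tsum_nonneg fun i => by positivity
  refine ⟨9 * A * W + 1, by positivity, ?_⟩
  intro ρ g hg η0 κ hκ hs Θ hΘ Th hTh ov E hov hE h1 h2 h3
  have key := htr ρ g hg η0 κ hκ hs Θ hΘ ℤ inferInstance Th
    (fun j => ENNReal.ofReal (9 * κ / (1 + (j : ℝ) ^ 2) * ov)) hTh ?_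
  · refine key.trans ?_
    calc ENNReal.ofReal A * ∑' j : ℤ, ENNReal.ofReal (9 * κ / (1 + (j : ℝ) ^ 2) * ov) *
          enc ρ g (Th j)
        ≤ ENNReal.ofReal A * ∑' j : ℤ, ENNReal.ofReal (9 * κ / (1 + (j : ℝ) ^ 2) * ov) *
          ENNReal.ofReal E := by
          gcongr with j
          exact h3 j
      _ = ENNReal.ofReal A * ∑' j : ℤ, ENNReal.ofReal ((9 * κ * ov * E) * (1 / (1 + (j : ℝ) ^ 2))) := by
          congr 2
          ext j
          rw [← ENNReal.ofReal_mul (by positivity)]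
          congr 1
          ring
      _ = ENNReal.ofReal A * ENNReal.ofReal ((9 * κ * ov * E) * W) := by
          rw [← ENNReal.ofReal_tsum_of_nonneg (fun j => by positivity)
            (summable_wt.mul_left _), tsum_mul_left]
      _ ≤ ENNReal.ofReal ((9 * A * W + 1) * (κ * ov * E)) := by
          rw [← ENNReal.ofReal_mul hA.le]
          apply ENNReal.ofReal_le_ofReal
          have : 0 ≤ κ * ov * E := by positivity
          calc A * (9 * κ * ov * E * W) = 9 * A * W * (κ * ov * E) := by ring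
            _ ≤ (9 * A * W + 1) * (κ * ov * E) := by
                apply mul_le_mul_of_nonneg_right _ this
                linarith
  · intro m Y
    have hms : ∀ j : ℤ, MeasurableSet {t : ℝ | Y + t • eY ∈ Θ m ∧ (j : ℝ) ≤ κ * t ∧ κ * t < j + 1} := by
      intro j
      have m1 : Measurable fun t : ℝ => Y + t • eY := by fun_prop
      have m2 : Measurable fun t : ℝ => κ * t := by fun_prop
      exact (m1 (hΘ m)).inter ((measurableSet_le measurable_const m2).inter
        (measurableSet_lt m2 measurable_const))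
    calc ∫⁻ t : ℝ, ENNReal.ofReal (κ / (1 + (κ * t) ^ 2)) * (Θ m).indicator 1 (Y + t • eY)
        ≤ ∫⁻ t : ℝ, ∑' j : ℤ, {t : ℝ | Y + t • eY ∈ Θ m ∧ (j : ℝ) ≤ κ * t ∧ κ * t < j + 1}.indicator
            (fun _ => ENNReal.ofReal (9 * κ / (1 + (j : ℝ) ^ 2))) t := by
          apply lintegral_mono
          intro t
          by_cases ht : Y + t • eY ∈ Θ m
          · have hj1 : ((⌊κ * t⌋ : ℤ) : ℝ) ≤ κ * t := Int.floor_le _
            have hj2 : κ * t < (⌊κ * t⌋ : ℤ) + 1 := Int.lt_floor_add_one _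
            have hmem : t ∈ {t : ℝ | Y + t • eY ∈ Θ m ∧ ((⌊κ * t⌋ : ℤ) : ℝ) ≤ κ * t ∧
              κ * t < (⌊κ * t⌋ : ℤ) + 1} := ⟨ht, hj1, hj2⟩
            have hw := wt_le (κ := κ) (t := t) (i := -((⌊κ * t⌋ : ℤ) : ℝ)) hκ (by
              rw [abs_le]; constructor <;> linarith)
            rw [neg_sq] at hw
            calc ENNReal.ofReal (κ / (1 + (κ * t) ^ 2)) * (Θ m).indicator 1 (Y + t • eY)
                = ENNReal.ofReal (κ / (1 + (κ * t) ^ 2)) := by
                  rw [Set.indicator_of_mem ht, Pi.one_apply, mul_one]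
              _ ≤ ENNReal.ofReal (9 * κ / (1 + ((⌊κ * t⌋ : ℤ) : ℝ) ^ 2)) :=
                  ENNReal.ofReal_le_ofReal hw
              _ = {s : ℝ | Y + s • eY ∈ Θ m ∧ ((⌊κ * t⌋ : ℤ) : ℝ) ≤ κ * s ∧
                    κ * s < (⌊κ * t⌋ : ℤ) + 1}.indicator
                    (fun _ => ENNReal.ofReal (9 * κ / (1 + ((⌊κ * t⌋ : ℤ) : ℝ) ^ 2))) t := by
                  rw [Set.indicator_of_mem]
                  exact ⟨ht, hj1, hj2⟩
              _ ≤ _ := ENNReal.le_tsum (f := fun j : ℤ => {s : ℝ | Y + s • eY ∈ Θ m ∧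
                    (j : ℝ) ≤ κ * s ∧ κ * s < j + 1}.indicator
                    (fun _ => ENNReal.ofReal (9 * κ / (1 + (j : ℝ) ^ 2))) t) ⌊κ * t⌋
          · change ENNReal.ofReal (κ / (1 + (κ * t) ^ 2)) * (Θ m).indicator 1 (Y + t • eY) ≤ _
            rw [Set.indicator_of_notMem ht, mul_zero]
            exact bot_le
      _ = ∑' j : ℤ, ENNReal.ofReal (9 * κ / (1 + (j : ℝ) ^ 2)) *
            volume {t : ℝ | Y + t • eY ∈ Θ m ∧ (j : ℝ) ≤ κ * t ∧ κ * t < j + 1} := by
          rw [lintegral_tsum fun j => (measurable_const.indicator (hms j)).aemeasurable]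
          congr 1
          ext j
          rw [lintegral_indicator (hms j), setLIntegral_const]
      _ ≤ _ := by
          apply ENNReal.tsum_le_tsum
          intro j
          by_cases hY : Y ∈ Th j m
          · rw [Set.indicator_of_mem hY, Pi.one_apply, mul_one, ENNReal.ofReal_mul (by positivity)]
            gcongr
            exact h2 j m Y
          · have : {t : ℝ | Y + t • eY ∈ Θ m ∧ (j : ℝ) ≤ κ * t ∧ κ * t < j + 1} = ∅ := by
              ext t
              simp only [Set.mem_empty_iff_false, iff_false]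
              exact fun h => hY (h1 j m Y t h.1 h.2.1 h.2.2)
            rw [this, measure_empty, mul_zero]
            exact bot_le

/-! ### containers -/

/-- the conformal function translated by `t` in the last coordinate. -/
noncomputable def shY (t : ℝ) (f : Cf E2) : Cf E2 :=
  ⟨f.a0 + f.g * t, f.a1 - 2 * f.d * t, f.be, f.g, f.d⟩

theorem shY_ny (t : ℝ) (f : Cf E2) (s : ℝ) : (shY t f).ny s = f.ny s := rfl

theorem shY_ev (t : ℝ) (f : Cf E2) (x : E2) (y : ℝ) :
    (shY t f).ev x y 0 = f.ev x (y + t) 0 := by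
  unfold shY Cf.ev; ring

theorem shY_ld (t : ℝ) (f : Cf E2) (C x : E2) (y : ℝ) :
    (shY t f).ld C x y 0 = f.ld C x (y + t) 0 := by
  unfold shY Cf.ld Cf.ny; ring

theorem shY_disc (t : ℝ) (f : Cf E2) : (shY t f).disc = f.disc := by
  unfold shY Cf.disc; ring

/-- the statement on containers. -/
def Cont (M κ R s1 s2 : ℝ) (c : E2) (X0 : E3) (f : Cf E2) : Prop :=
  ∃ (s1' ov : ℝ) (F : ℤ → Cf E2), s1 ≤ s1' ∧ s1' ≤ s2 ∧ 0 ≤ ov ∧
    κ * ov * (s1' * TT κ s2 R) ≤ 48 * (s1 * s2 ^ 2) ∧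
    (∀ j : ℤ, Adm M κ s1' s2 (TT κ s2 R) R c (X0 - ((j : ℝ) / κ) • eY) (F j)) ∧
    (∀ (j : ℤ) C' Y (t : ℝ), Y + t • eY ∈ mset s2 (s2 ^ 2) R s1 c X0 f C' → (j : ℝ) ≤ κ * t →
      κ * t < j + 1 → Y ∈ mset (2 * s2) (2 * TT κ s2 R) R (2 * s1') c
        (X0 - ((j : ℝ) / κ) • eY) (F j) C') ∧
    ∀ (j : ℤ) C' Y, volume {t : ℝ | Y + t • eY ∈ mset s2 (s2 ^ 2) R s1 c X0 f C' ∧
      (j : ℝ) ≤ κ * t ∧ κ * t < j + 1} ≤ ENNReal.ofReal ov

theorem lat_trs (X : E3) (t : ℝ) : lat (X - t • eY) = lat X := by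
  rw [sub_eq_add_neg, ← neg_smul, lat_tr]

theorem two_trs (X : E3) (t : ℝ) : (X - t • eY) 2 = X 2 - t := by
  rw [sub_eq_add_neg, ← neg_smul, two_tr]; ring

theorem nrm_trs (c : E2) (X : E3) (t : ℝ) : nrm c (X - t • eY) 0 = nrm c X 0 - t := by
  rw [sub_eq_add_neg, ← neg_smul, nrm_tr]; ring

/-- thin boxes. -/
theorem cont_thin {M κ R s1 s2 : ℝ} (hM : 1 ≤ M) (hκ : 0 < κ) (hR : 1 ≤ R) (h1 : 0 < s1)
    (h12 : s1 ≤ s2) (hT : s2 ^ 2 < (κ * R)⁻¹) (c : E2) (X0 : E3) (f : Cf E2) (hdisc : f.disc = 1) :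
    Cont M κ R s1 s2 c X0 f := by
  have h2 : 0 < s2 := h1.trans_le h12
  have hR0 : 0 < R := by linarith
  have hTT : TT κ s2 R = (κ * R)⁻¹ := max_eq_right hT.le
  obtain ⟨u, x, C, s1', ov, hu, hx, hC, hs1, hs2, hov, hovs, hin, hvol⟩ :=
    geo hR h1 h12 c X0 f hdisc
  have hs0 : 0 < s1' := h1.trans_le hs1
  refine ⟨s1', ov, fun _ => flat u x C, hs1, hs2, hov, ?_, ?_, ?_, ?_⟩
  · rw [hTT]
    have e1 : κ * ov * (s1' * (κ * R)⁻¹) = ov * s1' / R := by field_simp
    rw [e1, div_le_iff₀ hR0]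
    linarith
  · intro j
    rw [hTT]
    have hC' : |inner ℝ u (C - c)| ≤ s2 := by
      calc |inner ℝ u (C - c)| ≤ ‖u‖ * ‖C - c‖ := abs_real_inner_le_norm _ _
        _ ≤ 1 * s2 := by rw [hu]; gcongr
        _ = s2 := one_mul _
    have hx' : |inner ℝ u (lat X0 - x)| ≤ s2 * R := by
      calc |inner ℝ u (lat X0 - x)| ≤ ‖u‖ * ‖lat X0 - x‖ := abs_real_inner_le_norm _ _
        _ ≤ 1 * (s2 * R) := by rw [hu, norm_sub_rev]; gcongr
        _ = s2 * R := one_mul _
    constructor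
    · rw [flat_disc, hu, one_pow]
    · intro s _
      rw [flat_ny, abs_zero]; positivity
    · intro s _
      rw [flat_ny, abs_zero]; positivity
    · rw [flat_ld]
      refine hC'.trans ?_
      nlinarith
    · rw [flat_ev, zero_mul, add_zero, lat_trs]
      refine hx'.trans ?_
      have : 0 < s2 * R := by positivity
      nlinarith
  · intro j C' Y t hY hj1 hj2
    obtain ⟨a1, a2, a3, a4, a5⟩ := hY
    have hin' := hin C' (Y + t • eY) ⟨a1, a2, a3, a4, a5⟩
    rw [lat_tr] at hin' a2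
    rw [nrm_tr] at a3
    refine ⟨by linarith, ?_, ?_, ?_, ?_⟩
    · rw [lat_trs]
      have : 0 < s2 * R := by positivity
      linarith
    · rw [nrm_trs, hTT]
      have e1 : (κ * R)⁻¹ * R = κ⁻¹ := by field_simp
      have e2 : s2 ^ 2 * R < κ⁻¹ := by
        calc s2 ^ 2 * R < (κ * R)⁻¹ * R := by gcongr
          _ = κ⁻¹ := e1
      have e3 : 0 ≤ t - (j : ℝ) / κ := by
        rw [sub_nonneg, div_le_iff₀ hκ]; linarith
      have e4 : t - (j : ℝ) / κ ≤ κ⁻¹ := by
        rw [sub_le_iff_le_add, ← one_div, ← add_div, le_div_iff₀ hκ]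
        linarith
      have e5 := abs_le.1 a3
      rw [mul_assoc, e1, abs_le]
      constructor <;> linarith [e5.1, e5.2]
    · rw [flat_ev, zero_mul, add_zero]
      refine hin'.1.trans ?_
      have : 0 < s1' * R := by positivity
      linarith
    · rw [flat_ld]
      refine hin'.2.trans ?_
      linarith
  · intro j C' Y
    exact (measure_mono fun t ht => ht.1).trans (hvol C' Y)

/-- volume of a cell. -/
theorem vol_cell {κ : ℝ} (hκ : 0 < κ) (j : ℤ) (P : ℝ → Prop) :
    volume {t : ℝ | P t ∧ (j : ℝ) ≤ κ * t ∧ κ * t < j + 1} ≤ ENNReal.ofReal κ⁻¹ := by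
  have : {t : ℝ | P t ∧ (j : ℝ) ≤ κ * t ∧ κ * t < j + 1} ⊆ Set.Icc ((j : ℝ) / κ) (((j : ℝ) + 1) / κ) := by
    intro t ht
    constructor
    · rw [div_le_iff₀ hκ]; linarith [ht.2.1]
    · rw [le_div_iff₀ hκ]; linarith [ht.2.2]
  refine (measure_mono this).trans ?_
  rw [Real.volume_Icc]
  apply ENNReal.ofReal_le_ofReal
  apply le_of_eq
  field_simp
  ring

/-- thick boxes. -/
theorem cont_thick {M κ R s1 s2 : ℝ} (hM : 1 ≤ M) (hκ : 0 < κ) (hR : 1 ≤ R) (h1 : 0 < s1)
    (h12 : s1 ≤ s2) (hT : (κ * R)⁻¹ ≤ s2 ^ 2) (c : E2) (X0 : E3) (f : Cf E2) (κ1 : ℝ)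
    (hf : Adm M κ1 s1 s2 (s2 ^ 2) R c X0 f) : Cont M κ R s1 s2 c X0 f := by
  have h2 : 0 < s2 := h1.trans_le h12
  have hR0 : 0 < R := by linarith
  have hTT : TT κ s2 R = s2 ^ 2 := max_eq_left hT
  have hB : κ⁻¹ ≤ s2 ^ 2 * R := by
    calc κ⁻¹ = (κ * R)⁻¹ * R := by field_simp
      _ ≤ s2 ^ 2 * R := by gcongr
  set S : ℝ := max s1 (max (|f.g| / (κ * R)) (|f.d| / κ)) with hS
  have hS1 : s1 ≤ S := le_max_left _ _
  have hSg : |f.g| / (κ * R) ≤ S := (le_max_left _ _).trans (le_max_right _ _)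
  have hSd : |f.d| / κ ≤ S := (le_max_right _ _).trans (le_max_right _ _)
  have hS0 : 0 < S := h1.trans_le hS1
  have hg : |f.g| ≤ S * (κ * R) := by rwa [div_le_iff₀ (by positivity)] at hSg
  have hd : |f.d| ≤ S * κ := by rwa [div_le_iff₀ hκ] at hSd
  -- overlap
  have hov : ∀ (j : ℤ) C' Y, volume {t : ℝ | Y + t • eY ∈ mset s2 (s2 ^ 2) R s1 c X0 f C' ∧
      (j : ℝ) ≤ κ * t ∧ κ * t < j + 1} ≤ ENNReal.ofReal (2 * s1 / (S * κ)) := by
    intro j C' Y
    rcases max_choice s1 (max (|f.g| / (κ * R)) (|f.d| / κ)) with h | h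
    · refine (vol_cell hκ j _).trans (ENNReal.ofReal_le_ofReal ?_)
      have hSe : S = s1 := h
      rw [hSe, ← one_div, div_le_div_iff₀ hκ (by positivity)]
      have : 0 < s1 * κ := by positivity
      linarith
    · rcases max_choice (|f.g| / (κ * R)) (|f.d| / κ) with h' | h'
      · have hSe : S = |f.g| / (κ * R) := by rw [hS, h, h']
        have hg0 : 0 < |f.g| := by
          rcases (abs_nonneg f.g).eq_or_lt with h0 | h0
          · rw [hSe, ← h0, zero_div] at hS0; exact absurd hS0 (lt_irrefl _)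
          · exact h0
        have hsub : {t : ℝ | Y + t • eY ∈ mset s2 (s2 ^ 2) R s1 c X0 f C' ∧
            (j : ℝ) ≤ κ * t ∧ κ * t < j + 1} ⊆
            {t : ℝ | |f.ev (lat Y) (Y 2) 0 + f.g * t| ≤ s1 * R} := by
          intro t ht
          have h3 := ht.1.2.2.2.1
          rw [ev_trY] at h3
          exact h3
        refine (measure_mono hsub).trans ((vol_affine (abs_pos.1 hg0) (by positivity)).trans ?_)
        apply ENNReal.ofReal_le_ofReal
        rw [hSe]
        apply le_of_eq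
        field_simp
      · have hSe : S = |f.d| / κ := by rw [hS, h, h']
        have hd0 : 0 < |f.d| := by
          rcases (abs_nonneg f.d).eq_or_lt with h0 | h0
          · rw [hSe, ← h0, zero_div] at hS0; exact absurd hS0 (lt_irrefl _)
          · exact h0
        have hsub : {t : ℝ | Y + t • eY ∈ mset s2 (s2 ^ 2) R s1 c X0 f C' ∧
            (j : ℝ) ≤ κ * t ∧ κ * t < j + 1} ⊆
            {t : ℝ | |f.ld C' (lat Y) (Y 2) 0 + -(2 * f.d) * t| ≤ s1} := by
          intro t ht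
          have h3 := ht.1.2.2.2.2
          rw [ld_trY] at h3
          exact h3
        have hd' : -(2 * f.d) ≠ 0 := by
          have := abs_pos.1 hd0
          simpa using this
        refine (measure_mono hsub).trans ((vol_affine hd' h1.le).trans ?_)
        apply ENNReal.ofReal_le_ofReal
        rw [hSe, abs_neg, abs_mul, abs_two, div_mul_cancel₀ _ hκ.ne']
        rw [div_le_div_iff₀ (by positivity) hd0]
        have : 0 ≤ s1 * |f.d| := by positivity
        nlinarith
  have hcell : ∀ (j : ℤ) (t : ℝ), (j : ℝ) ≤ κ * t → κ * t < j + 1 →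
      0 ≤ t - (j : ℝ) / κ ∧ t - (j : ℝ) / κ ≤ κ⁻¹ := by
    intro j t hj1 hj2
    constructor
    · rw [sub_nonneg, div_le_iff₀ hκ]; linarith
    · rw [sub_le_iff_le_add, ← one_div, ← add_div, le_div_iff₀ hκ]
      linarith
  rcases le_or_gt (3 * S) s2 with hsm | hbig
  · -- translated functions
    refine ⟨3 * S, 2 * s1 / (S * κ), fun j => shY ((j : ℝ) / κ) f, by linarith, hsm, by positivity,
      ?_, ?_, ?_, hov⟩
    · rw [hTT]
      have e1 : κ * (2 * s1 / (S * κ)) * (3 * S * s2 ^ 2) = 6 * (s1 * s2 ^ 2) := by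
        field_simp
        ring
      rw [e1]
      have : 0 < s1 * s2 ^ 2 := by positivity
      linarith
    · intro j
      rw [hTT]
      constructor
      · rw [shY_disc]; exact hf.disc
      · intro s hs
        rw [shY_ny]; exact hf.ny s hs
      · intro s hs
        rw [shY_ny]
        have e1 : |f.ny s| ≤ |f.g| + 2 * (|f.d| * R) := by
          unfold Cf.ny
          calc |f.g - 2 * f.d * s| ≤ |f.g| + |2 * f.d * s| := abs_sub _ _
            _ = |f.g| + 2 * (|f.d| * |s|) := by rw [abs_mul, abs_mul, abs_two]; ring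
            _ ≤ |f.g| + 2 * (|f.d| * R) := by gcongr
        have e2 : |f.d| * R ≤ S * κ * R := by gcongr
        have e3 : 0 < κ * (3 * S) * R := by positivity
        calc |f.ny s| ≤ κ * (3 * S) * R := by nlinarith
          _ ≤ M * (κ * (3 * S) * R) := by nlinarith
      · rw [shY_ld, lat_trs, two_trs, sub_add_cancel]; exact hf.ld
      · rw [shY_ev, lat_trs, two_trs, sub_add_cancel]; exact hf.ev
    · intro j C' Y t hY hj1 hj2
      obtain ⟨a1, a2, a3, a4, a5⟩ := hY
      obtain ⟨c1, c2⟩ := hcell j t hj1 hj2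
      rw [lat_tr] at a2
      rw [nrm_tr] at a3
      rw [ev_trY] at a4
      rw [ld_trY] at a5
      have eg : |f.g * (t - (j : ℝ) / κ)| ≤ S * R := by
        rw [abs_mul, abs_of_nonneg c1]
        calc |f.g| * (t - (j : ℝ) / κ) ≤ (S * (κ * R)) * κ⁻¹ := by gcongr
          _ = S * R := by field_simp
      have ed : |2 * f.d * (t - (j : ℝ) / κ)| ≤ 2 * S := by
        rw [abs_mul, abs_mul, abs_two, abs_of_nonneg c1]
        calc 2 * |f.d| * (t - (j : ℝ) / κ) ≤ 2 * (S * κ) * κ⁻¹ := by gcongr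
          _ = 2 * S := by field_simp
      refine ⟨by linarith, ?_, ?_, ?_, ?_⟩
      · rw [lat_trs]
        have : 0 < s2 * R := by positivity
        linarith
      · rw [nrm_trs, hTT]
        have e5 := abs_le.1 a3
        rw [abs_le]
        constructor <;> linarith [e5.1, e5.2]
      · rw [shY_ev]
        have e6 : f.ev (lat Y) (Y 2 + (j : ℝ) / κ) 0 =
            f.ev (lat Y) (Y 2) 0 + f.g * t - f.g * (t - (j : ℝ) / κ) := by
          unfold Cf.ev; ring
        rw [e6]
        have e7 := abs_le.1 a4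
        have e8 := abs_le.1 eg
        have e9 : s1 * R ≤ S * R := by gcongr
        have : 0 < S * R := by positivity
        rw [abs_le]
        constructor <;> linarith [e7.1, e7.2, e8.1, e8.2]
      · rw [shY_ld]
        have e6 : f.ld C' (lat Y) (Y 2 + (j : ℝ) / κ) 0 =
            f.ld C' (lat Y) (Y 2) 0 + -(2 * f.d) * t + 2 * f.d * (t - (j : ℝ) / κ) := by
          unfold Cf.ld; ring
        rw [e6]
        have e7 := abs_le.1 a5
        have e8 := abs_le.1 ed
        rw [abs_le]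
        constructor <;> linarith [e7.1, e7.2, e8.1, e8.2]
  · -- flat
    have hu : ‖(EuclideanSpace.single 0 1 : E2)‖ = 1 := by simp
    refine ⟨s2, 2 * s1 / (S * κ), fun _ => flat (EuclideanSpace.single 0 1) (lat X0) c, h12, le_rfl,
      by positivity, ?_, ?_, ?_, hov⟩
    · rw [hTT]
      have e1 : κ * (2 * s1 / (S * κ)) * (s2 * s2 ^ 2) = 2 * s1 * s2 ^ 2 * s2 / S := by
        field_simp
      rw [e1, div_le_iff₀ hS0]
      have h3 : 0 < 2 * s1 * s2 ^ 2 := by positivity
      calc 2 * s1 * s2 ^ 2 * s2 ≤ 2 * s1 * s2 ^ 2 * (3 * S) := by gcongr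
        _ ≤ 48 * (s1 * s2 ^ 2) * S := by nlinarith [mul_pos h3 hS0]
    · intro j
      constructor
      · rw [flat_disc, hu, one_pow]
      · intro s _
        rw [flat_ny, abs_zero, hTT]; positivity
      · intro s _
        rw [flat_ny, abs_zero]; positivity
      · rw [flat_ld, sub_self, inner_zero_right, abs_zero]; positivity
      · rw [flat_ev, zero_mul, add_zero, lat_trs, sub_self, inner_zero_right, abs_zero]; positivity
    · intro j C' Y t hY hj1 hj2
      obtain ⟨a1, a2, a3, a4, a5⟩ := hY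
      obtain ⟨c1, c2⟩ := hcell j t hj1 hj2
      rw [lat_tr] at a2
      rw [nrm_tr] at a3
      have : 0 < s2 * R := by positivity
      refine ⟨by linarith, ?_, ?_, ?_, ?_⟩
      · rw [lat_trs]
        linarith
      · rw [nrm_trs, hTT]
        have e5 := abs_le.1 a3
        rw [abs_le]
        constructor <;> linarith [e5.1, e5.2]
      · rw [flat_ev, zero_mul, add_zero]
        calc |inner ℝ (EuclideanSpace.single 0 1 : E2) (lat Y - lat X0)| ≤
              ‖(EuclideanSpace.single 0 1 : E2)‖ * ‖lat Y - lat X0‖ := abs_real_inner_le_norm _ _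
          _ ≤ 1 * (s2 * R) := by rw [hu]; gcongr
          _ ≤ 2 * s2 * R := by linarith
      · rw [flat_ld]
        calc |inner ℝ (EuclideanSpace.single 0 1 : E2) (c - C')| ≤
              ‖(EuclideanSpace.single 0 1 : E2)‖ * ‖c - C'‖ := abs_real_inner_le_norm _ _
          _ ≤ 1 * s2 := by rw [hu, norm_sub_rev]; gcongr
          _ ≤ 2 * s2 := by linarith

end Crest.Agent.R116.Cnv894
end

-- ▼ part R116/Cnv5_894

/-!
# R116 (S0155), leaf CNV of WDefC_188 (v2), part 5 (helper894): `cnv : Cov2 M q → CNV M q`.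
-/

set_option autoImplicit false

open MeasureTheory FourierTransform
open scoped ContDiff ENNReal

namespace Crest.Agent.R116.Cnv894

open Crest.Agent.R138.Defs (E2 ee)
open Crest.Agent.R138.Wpk685 (cen caps cap win)
open Crest.Agent.R116.CDef480
open Crest.Agent.R116.WC188
open Crest.Agent.R116.LZg725 (Cf)

/-- the only covering fact which is used: the box bound for members gives the box bound for the
`2`-dilated phase boxes. -/
def Cov2 (M q : ℝ) : Prop := ∃ C : ℝ, 1 ≤ C ∧ ∀ κ r : ℝ, 0 < κ → κ ≤ 1 → 1 ≤ r → 1 ≤ κ * r →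
  ∀ (g : E3 → ℂ) (D : ℝ), 0 ≤ D → PBx M κ q r g D →
    ∀ (c : E2) (X0 : E3) (f : Cf E2) (s1 s2 : ℝ), Sd r s1 s2 →
      Adm M κ s1 s2 (TT κ s2 r) r c X0 f →
      enc (r ^ (-(1/2) : ℝ)) g (pbx κ 2 r s1 s2 c X0 f) ≤
        ENNReal.ofReal (C * D * s2 ^ q * scost κ s1 s2 r)

theorem supp_bdd {g : E3 → ℂ} {a b : ℝ} (ha : 1 ≤ a)
    (h : ∀ ζ, g ζ ≠ 0 → a⁻¹ ≤ ζ 2 ∧ ζ 2 ≤ a ∧ ‖slp ζ‖ ≤ b) :
    ∃ r : ℝ, ∀ ζ, g ζ ≠ 0 → ‖ζ‖ ≤ r := by
  refine ⟨|a * b| + a, fun ζ hζ => ?_⟩
  obtain ⟨h1, h2, h3⟩ := h ζ hζ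
  have h0 : 0 < ζ 2 := lt_of_lt_of_le (by positivity) h1
  have hb : 0 ≤ b := (norm_nonneg _).trans h3
  have h4 : ‖lat ζ‖ ≤ a * b := by
    rw [lat_slp h0.ne', norm_smul, Real.norm_eq_abs, abs_of_pos h0]
    gcongr
  have h5 := normsq3 ζ
  have h6 : 0 ≤ a * b := by positivity
  rw [abs_of_nonneg h6]
  have h7 := norm_nonneg (lat ζ)
  have h8 : ‖ζ‖ ^ 2 ≤ (a * b + a) ^ 2 := by nlinarith
  exact le_of_sq_le_sq h8 (by positivity)

theorem St_gd {M κ q a b M0 : ℝ} {C0 : E2} {σ : ℝ} {g : E3 → ℂ} {R D : ℝ} (ha : 1 ≤ a)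
    (h : St M κ q a b M0 C0 σ g R D) : Gd g :=
  ⟨h.meas, h.bdd, supp_bdd ha fun ζ hζ => ⟨(h.supp ζ hζ).1, (h.supp ζ hζ).2.1,
    (h.supp ζ hζ).2.2.1⟩⟩

/-- **CNV**. -/
theorem cnv_of {M q : ℝ} (hM : 1 ≤ M) (hcov : Cov2 M q) : CNV M q := by
  intro a b M0 ha hb hb2
  obtain ⟨C2, hC2, hcov⟩ := hcov
  obtain ⟨A, hA, hcells⟩ := enc_cells
  refine ⟨A * (48 * C2) + 1, 1, ?_, le_rfl, ?_⟩
  · have : 0 ≤ A * (48 * C2) := by positivity
    linarith
  intro κ η0 C0 σ g R D hκ haκ hR hRκ hst hs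
  have hκ1 : κ ≤ 1 := by nlinarith
  have hR0 : 0 < R := by linarith
  have hκR : 1 ≤ κ * R := by
    calc (1:ℝ) ≤ R ^ (3/4 : ℝ) := Real.one_le_rpow hR (by norm_num)
      _ = R ^ (-(1/4) : ℝ) * R := by
          nth_rewrite 3 [← Real.rpow_one R]
          rw [← Real.rpow_add hR0]
          norm_num
      _ ≤ κ * R := by gcongr
  have hC0 : 0 ≤ A * (48 * C2) := by positivity
  have hD := hst.D0
  refine ⟨hst.meas, hst.bdd, hst.supp, hst.R1, by positivity, ?_, ?_⟩
  · intro c X0 f s1 s2 hSd hAdm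
    have hlo : 0 < R ^ (-(1/2) : ℝ) := Real.rpow_pos_of_pos hR0 _
    have h1 : 0 < s1 := hlo.trans_le hSd.lo
    have h2 : 0 < s2 := h1.trans_le hSd.le
    have hs2 : R⁻¹ ≤ s2 ^ 2 := by
      calc R⁻¹ = (R ^ (-(1/2) : ℝ)) ^ 2 := by
            rw [← Real.rpow_natCast, ← Real.rpow_mul hR0.le, ← Real.rpow_neg_one]
            norm_num
        _ ≤ s2 ^ 2 := by
            gcongr
            exact hSd.lo.trans hSd.le
    have hTT1 : TT 1 s2 R = s2 ^ 2 := by
      unfold TT
      rw [one_mul]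
      exact max_eq_left hs2
    rw [hTT1] at hAdm
    have hcont : Cont M κ R s1 s2 c X0 f := by
      rcases lt_or_ge (s2 ^ 2) (κ * R)⁻¹ with h | h
      · exact cont_thin hM hκ hR h1 hSd.le h c X0 f hAdm.disc
      · exact cont_thick hM hκ hR h1 hSd.le h c X0 f 1 hAdm
    obtain ⟨s1', ov, F, hs1', hs2', hov, hprice, hadm, hin, hvol⟩ := hcont
    have hs1'0 : 0 < s1' := h1.trans_le hs1'
    have hSd' : Sd R s1' s2 := ⟨hSd.lo.trans hs1', hs2', hSd.hi⟩
    have hTT0 : 0 < TT κ s2 R := lt_of_lt_of_le (by positivity) (le_max_left _ _)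
    have hpbx : pbx 1 1 R s1 s2 c X0 f =
        fun m => mset s2 (s2 ^ 2) R s1 c X0 f (cen (R ^ (-(1/2) : ℝ)) m) := by
      funext m
      unfold pbx
      rw [hTT1, one_mul, one_mul, one_mul]
    rw [hpbx]
    have hE0 : 0 ≤ C2 * D * s2 ^ q * scost κ s1' s2 R := by
      unfold scost
      positivity
    have key := hcells (R ^ (-(1/2) : ℝ)) g (St_gd ha hst) η0 κ hκ hs
      (fun m => mset s2 (s2 ^ 2) R s1 c X0 f (cen (R ^ (-(1/2) : ℝ)) m))
      (fun m => measurableSet_mset _ _ _ _ _ _ _ _)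
      (fun j m => pbx κ 2 R s1' s2 c (X0 - ((j : ℝ) / κ) • eY) (F j) m)
      (fun j m => measurableSet_mset _ _ _ _ _ _ _ _) ov
      (C2 * D * s2 ^ q * scost κ s1' s2 R) hov hE0
      (fun j m Y t hY hj1 hj2 => hin j _ Y t hY hj1 hj2)
      (fun j m Y => hvol j _ Y)
      (fun j => hcov κ R hκ hκ1 hR hκR g D hD hst.box c _ (F j) s1' s2 hSd' (hadm j))
    refine key.trans (ENNReal.ofReal_le_ofReal ?_)
    have hq : 0 < s2 ^ q := Real.rpow_pos_of_pos h2 _
    have e1 : A * (κ * ov * (C2 * D * s2 ^ q * scost κ s1' s2 R)) =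
        A * C2 * D * s2 ^ q * s2 * R ^ 3 * (κ * ov * (s1' * TT κ s2 R)) := by
      unfold scost; ring
    rw [e1]
    calc A * C2 * D * s2 ^ q * s2 * R ^ 3 * (κ * ov * (s1' * TT κ s2 R))
        ≤ A * C2 * D * s2 ^ q * s2 * R ^ 3 * (48 * (s1 * s2 ^ 2)) := by gcongr
      _ = A * (48 * C2) * (D * s2 ^ q * (s1 * s2 * s2 ^ 2 * R ^ 3)) := by ring
      _ ≤ (A * (48 * C2) + 1) * (D * s2 ^ q * (s1 * s2 * s2 ^ 2 * R ^ 3)) := by
          apply mul_le_mul_of_nonneg_right (by linarith)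
          positivity
      _ = (A * (48 * C2) + 1) * D * s2 ^ q * scost 1 s1 s2 R := by
          unfold scost
          rw [hTT1]
          ring
  · refine hst.nd.trans ?_
    have : 0 ≤ R ^ M0 * D := by positivity
    nlinarith

end Crest.Agent.R116.Cnv894
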