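import Crest.Agent.R116.KIDef_439
import Crest.Agent.R116.XcDef_794

-- ▼ part R116/Ext1_803
section

/-!
# R116 (K side), block K1, part 1: extension of a mark to a longer cell (helper803)

`frm C0 p0 B G D` : the conformal function `⟨B, w⟩ + G ΔN + D (|w|² - 2 Δs ΔN)` in the frame of the
ray of slope `C0` through `p0`; it vanishes along that ray and `disc = ‖B‖²`.
`Flat m` : `0 < s1 ≤ sg`, `disc φ = 1`, `|d| sg R ≤ kD`, `|ny φ s0| sg ≤ 2 kD`, `kD = 1/400`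
(absolute width `w = sg R`).  This class is closed under extension to longer cells with the same
absolute widths:
* `ext m t0 R1 s01 w0 w1` : member based at the ray `t0` of `m`, over `|s - s01| ≤ R1`, absolute
  widths `w0, w1`;
* `ext_flat`, `ext_ok` : it is `Flat` and `Ok kM0 0`;
* `mem_ext` : it contains the rays close to `t0` (data at the time `m.s0`).
-/

set_option autoImplicit false

namespace Crest.Agent.R116.Ext803

open Crest.Agent.R138.Defs (E2)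
open Crest.Agent.R116.CDef480 (E3 lat pt vel)
open Crest.Agent.R116.LZg725
open Crest.Agent.R116.KI439 (LRay kM0 kD)

section frm

variable {E : Type*} [NormedAddCommGroup E] [InnerProductSpace ℝ E]

/-- the conformal function `⟨B, w⟩ + G ΔN + D (|w|² - 2 Δs ΔN)` of a frame. -/
noncomputable def frm (C0 x0 : E) (y0 s0 : ℝ) (B : E) (G D : ℝ) : Cf E where
  a0 := -inner ℝ B x0 + s0 * inner ℝ B (-C0) - G * nrm C0 x0 y0 s0 + D * (‖x0‖ ^ 2 - 2 * s0 * y0)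
  a1 := inner ℝ B C0 + G * ‖C0‖ ^ 2 / 2 + 2 * D * y0
  be := B + G • C0 - (2 * D) • x0
  g := G + 2 * D * s0
  d := D

theorem ev_frm (C0 x0 : E) (y0 s0 : ℝ) (B : E) (G D : ℝ) (x : E) (y s : ℝ) :
    (frm C0 x0 y0 s0 B G D).ev x y s = inner ℝ B ((x - x0) + (s - s0) • C0) +
      G * (nrm C0 x y s - nrm C0 x0 y0 s0) +
      D * (‖(x - x0) + (s - s0) • C0‖ ^ 2 -
        2 * (s - s0) * (nrm C0 x y s - nrm C0 x0 y0 s0)) := by
  rw [quad_frame]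
  unfold frm Cf.ev nrm
  simp only [inner_add_right, inner_sub_right, inner_add_left, inner_sub_left,
    real_inner_smul_left, real_inner_smul_right, inner_neg_right]
  rw [norm_sub_sq_real, real_inner_comm x x0]
  ring

theorem ny_frm (C0 x0 : E) (y0 s0 : ℝ) (B : E) (G D : ℝ) (s : ℝ) :
    (frm C0 x0 y0 s0 B G D).ny s = G - 2 * D * (s - s0) := by
  unfold frm Cf.ny; ring

theorem gr_frm (C0 x0 : E) (y0 s0 : ℝ) (B : E) (G D : ℝ) :
    (frm C0 x0 y0 s0 B G D).gr C0 x0 s0 = B := by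
  unfold Cf.gr
  rw [ny_frm]
  unfold frm
  simp only []
  module

/-- it vanishes along its ray. -/
theorem ev_frm_ray (C0 a : E) (k s0 : ℝ) (B : E) (G D : ℝ) (s : ℝ) :
    (frm C0 (rx C0 a s0) (ry C0 k s0) s0 B G D).ev (rx C0 a s) (ry C0 k s) s = 0 := by
  rw [ev_frm, nrm_ray, nrm_ray]
  have e : rx C0 a s - rx C0 a s0 + (s - s0) • C0 = 0 := by unfold rx; module
  rw [e, inner_zero_right, norm_zero]
  ring

theorem rB_frm_ray (C0 a : E) (k s0 : ℝ) (B : E) (G D : ℝ) :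
    (frm C0 (rx C0 a s0) (ry C0 k s0) s0 B G D).rB C0 a k = 0 := by
  have h0 := ev_frm_ray C0 a k s0 B G D 0
  have h1 := ev_frm_ray C0 a k s0 B G D 1
  rw [Cf.ev_ray] at h0 h1
  linarith

theorem disc_frm (C0 a : E) (k s0 : ℝ) (B : E) (G D : ℝ) :
    (frm C0 (rx C0 a s0) (ry C0 k s0) s0 B G D).disc = ‖B‖ ^ 2 := by
  have h := Cf.norm_gr_sq (frm C0 (rx C0 a s0) (ry C0 k s0) s0 B G D) C0 (rx C0 a s0)
    (ry C0 k s0) s0
  rw [gr_frm, ev_frm_ray, Cf.ld_ray, rB_frm_ray] at h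
  linarith

end frm

/-! ### values along rays -/

/-- value along a ray. -/
theorem val_rpos (p : Cf E2) (t : LRay) (s s0 : ℝ) :
    p.val (rpos t s, s) = p.val (rpos t s0, s0) + (s - s0) * p.rB t.1 t.2.1 t.2.2 := by
  unfold Cf.val
  simp only [lat_rpos, rpos_two]
  rw [Cf.ev_ray, Cf.ev_ray]
  ring

/-- slope of a conformal function along a ray of the slab. -/
theorem rB_le {p : Cf E2} {t : LRay} {R s0 w : ℝ} (hR : 0 < R)
    (h : ∀ s, |s - s0| ≤ R → |p.val (rpos t s, s)| ≤ w) :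
    |p.rB t.1 t.2.1 t.2.2| * R ≤ w := by
  have h1 := h (s0 + R) (by rw [add_sub_cancel_left, abs_of_pos hR])
  have h2 := h (s0 - R) (by rw [sub_sub_cancel_left, abs_neg, abs_of_pos hR])
  rw [val_rpos p t _ s0] at h1 h2
  rw [add_sub_cancel_left] at h1
  rw [sub_sub_cancel_left] at h2
  set D := p.rB t.1 t.2.1 t.2.2
  set V := p.val (rpos t s0, s0)
  rw [abs_le] at h1 h2
  have h3 : |D * R| ≤ w := by
    rw [abs_le]; constructor <;> nlinarith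
  rwa [abs_mul, abs_of_pos hR] at h3

/-! ### the class -/

/-- flat members. -/
structure Flat (m : Mem) : Prop where
  hR : 0 < m.R
  hs1 : 0 < m.s1
  hsg : m.s1 ≤ m.sg
  disc : m.phi.disc = 1
  dd : |m.phi.d| * (m.sg * m.R) ≤ kD
  nn : |m.phi.ny m.s0| * m.sg ≤ 2 * kD

theorem T_zero (m : Mem) : m.T 0 = m.sg ^ 2 := by
  unfold Mem.T
  rw [zero_div]
  exact max_eq_left (by positivity)

namespace Flat

variable {m : Mem}

theorem sg_pos (h : Flat m) : 0 < m.sg := h.hs1.trans_le h.hsg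

theorem ny_le (h : Flat m) {s : ℝ} (hs : |s - m.s0| ≤ m.R) : |m.phi.ny s| * m.sg ≤ kM0 := by
  have e : m.phi.ny s = m.phi.ny m.s0 - 2 * m.phi.d * (s - m.s0) := by unfold Cf.ny; ring
  have h1 : |m.phi.ny s| ≤ |m.phi.ny m.s0| + 2 * |m.phi.d| * m.R := by
    rw [e]
    refine (abs_sub _ _).trans ?_
    rw [abs_mul, abs_mul, abs_of_pos (two_pos : (0:ℝ) < 2)]
    have := mul_le_mul_of_nonneg_left hs (by positivity : 0 ≤ 2 * |m.phi.d|)
    linarith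
  have h2 := mul_le_mul_of_nonneg_right h1 h.sg_pos.le
  have h3 := h.dd
  have h4 := h.nn
  unfold kD at h3 h4
  unfold kM0
  nlinarith

/-- a flat member with small value and slope at its centre is `Ok kM0 0`. -/
theorem ok (h : Flat m) (hld : |m.phi.ld m.c (lat m.X0) (m.X0 2) m.s0| ≤ kM0 * m.sg)
    (hev : |m.phi.ev (lat m.X0) (m.X0 2) m.s0| ≤ kM0 * m.sg * m.R) : m.Ok kM0 0 := by
  refine ⟨h.hR, h.hs1, h.hsg, ⟨h.disc, fun s hs => ?_, hld, hev⟩⟩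
  rw [T_zero]
  have := mul_le_mul_of_nonneg_right (h.ny_le hs) h.sg_pos.le
  nlinarith

end Flat

/-! ### the extended member -/

/-- gradient of the conformal function on the ray `t0` at the time `m.s0`. -/
noncomputable def G0 (m : Mem) (t0 : LRay) : E2 :=
  m.phi.gr t0.1 (rx t0.1 t0.2.1 m.s0) m.s0

/-- the reduction factor. -/
noncomputable def lam (m : Mem) (t0 : LRay) : ℝ := min 1 ‖G0 m t0‖⁻¹

/-- the member based at the ray `t0` of `m`, over `|s - s01| ≤ R1`, absolute widths `w0, w1`. -/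
noncomputable def ext (m : Mem) (t0 : LRay) (R1 s01 w0 w1 : ℝ) : Mem where
  c := t0.1
  sg := w0 / R1
  s1 := w1 / R1
  R := R1
  X0 := rpos t0 s01
  s0 := s01
  phi := frm t0.1 (rx t0.1 t0.2.1 m.s0) (ry t0.1 t0.2.2 m.s0) m.s0 (‖G0 m t0‖⁻¹ • G0 m t0)
    (lam m t0 * m.phi.ny m.s0) (lam m t0 * m.phi.d)

section

variable {m : Mem} {t0 : LRay}

/-- `|‖G‖² - 1| ≤ (1/50) w1/w0`. -/
theorem G0_sq (h : Flat m) (hφ : ∀ s, |s - m.s0| ≤ m.R → |m.phi.val (rpos t0 s, s)| ≤ m.s1 * m.R) :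
    |‖G0 m t0‖ ^ 2 - 1| * m.sg ≤ m.s1 / 50 := by
  have hR := h.hR
  have hsg := h.sg_pos
  have hL := rB_le hR hφ
  have hA := hφ m.s0 (by rw [sub_self, abs_zero]; exact hR.le)
  have hL' : |m.phi.rB t0.1 t0.2.1 t0.2.2| ≤ m.s1 := le_of_mul_le_mul_right hL hR
  have e := Cf.norm_gr_sq m.phi t0.1 (rx t0.1 t0.2.1 m.s0) (ry t0.1 t0.2.2 m.s0) m.s0
  rw [Cf.ld_ray, h.disc] at e
  have hA' : |m.phi.ev (rx t0.1 t0.2.1 m.s0) (ry t0.1 t0.2.2 m.s0) m.s0| ≤ m.s1 * m.R := by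
    unfold Cf.val at hA
    simpa only [lat_rpos, rpos_two] using hA
  set A := m.phi.ev (rx t0.1 t0.2.1 m.s0) (ry t0.1 t0.2.2 m.s0) m.s0
  set L := m.phi.rB t0.1 t0.2.1 t0.2.2
  unfold G0
  rw [e]
  have e2 : (1 + 2 * m.phi.ny m.s0 * L + 4 * m.phi.d * A - 1) * m.sg =
      2 * (m.phi.ny m.s0 * m.sg * L) + 4 * (m.phi.d * m.sg * A) := by ring
  have e3 : |1 + 2 * m.phi.ny m.s0 * L + 4 * m.phi.d * A - 1| * m.sg =
      |2 * (m.phi.ny m.s0 * m.sg * L) + 4 * (m.phi.d * m.sg * A)| := by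
    rw [← e2, abs_mul, abs_of_pos hsg]
  rw [e3]
  refine (abs_add_le _ _).trans ?_
  rw [abs_mul, abs_mul, abs_mul, abs_mul, abs_mul, abs_mul, abs_of_pos hsg,
    abs_of_pos (by norm_num : (0:ℝ) < 2), abs_of_pos (by norm_num : (0:ℝ) < 4)]
  have h1 : |m.phi.ny m.s0| * m.sg * |L| ≤ 2 * kD * m.s1 :=
    mul_le_mul h.nn hL' (abs_nonneg _) (by unfold kD; norm_num)
  have h2 : |m.phi.d| * m.sg * |A| ≤ kD * m.s1 := by
    calc |m.phi.d| * m.sg * |A| ≤ |m.phi.d| * m.sg * (m.s1 * m.R) :=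
          mul_le_mul_of_nonneg_left hA' (by positivity)
      _ = |m.phi.d| * (m.sg * m.R) * m.s1 := by ring
      _ ≤ _ := mul_le_mul_of_nonneg_right h.dd h.hs1.le
  unfold kD at h1 h2
  linarith

theorem G0_near (h : Flat m)
    (hφ : ∀ s, |s - m.s0| ≤ m.R → |m.phi.val (rpos t0 s, s)| ≤ m.s1 * m.R) :
    49 / 50 ≤ ‖G0 m t0‖ ∧ ‖G0 m t0‖ ≤ 51 / 50 := by
  have h1 := G0_sq h hφ
  have hsg := h.sg_pos
  have h2 : |‖G0 m t0‖ ^ 2 - 1| ≤ 1 / 50 := by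
    have h3 : |‖G0 m t0‖ ^ 2 - 1| * m.sg ≤ 1 / 50 * m.sg := by
      have := h.hsg
      linarith
    exact le_of_mul_le_mul_right h3 hsg
  rw [abs_le] at h2
  have h0 := norm_nonneg (G0 m t0)
  constructor <;> nlinarith

theorem lam_le_one : lam m t0 ≤ 1 := min_le_left _ _

theorem lam_nonneg : 0 ≤ lam m t0 := le_min zero_le_one (by positivity)

/-- difference of the reduction factor and the normalisation. -/
theorem lam_sub (h : Flat m)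
    (hφ : ∀ s, |s - m.s0| ≤ m.R → |m.phi.val (rpos t0 s, s)| ≤ m.s1 * m.R) :
    |lam m t0 - ‖G0 m t0‖⁻¹| * m.sg ≤ m.s1 / 50 := by
  have hsg := h.sg_pos
  obtain ⟨h1, h2⟩ := G0_near h hφ
  have h3 := G0_sq h hφ
  set g := ‖G0 m t0‖ with hg
  have hg0 : 0 < g := by linarith
  have hs1 := h.hs1
  unfold lam
  rw [← hg]
  rcases le_total g⁻¹ 1 with h4 | h4
  · rw [min_eq_right h4, sub_self, abs_zero, zero_mul]
    positivity
  · rw [min_eq_left h4, abs_sub_comm, abs_of_nonneg (by linarith)]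
    have h5 : g ≤ 1 := by
      by_contra hc
      push Not at hc
      have := inv_lt_one_of_one_lt₀ hc
      linarith
    have h6 : g⁻¹ - 1 ≤ |g ^ 2 - 1| := by
      rw [abs_sub_comm, abs_of_nonneg (by nlinarith)]
      have e : g⁻¹ - 1 = (1 - g) / g := by field_simp
      rw [e, div_le_iff₀ hg0]
      nlinarith [mul_nonneg (by linarith : 0 ≤ 1 - g) (by linarith : 0 ≤ g - 49 / 50)]
    exact (mul_le_mul_of_nonneg_right h6 hsg.le).trans h3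

variable {R1 s01 w0 w1 : ℝ}

/-- `∂_y` of the extended function. -/
theorem ny_ext (s : ℝ) : (ext m t0 R1 s01 w0 w1).phi.ny s = lam m t0 * m.phi.ny s := by
  change (frm _ _ _ _ _ _ _).ny s = _
  rw [ny_frm]
  unfold Cf.ny
  ring

/-- **the extended member is flat**. -/
theorem ext_flat (h : Flat m)
    (hφ : ∀ s, |s - m.s0| ≤ m.R → |m.phi.val (rpos t0 s, s)| ≤ m.s1 * m.R)
    (hR1 : m.R ≤ R1) (hs : |s01 - m.s0| ≤ (R1 - m.R) / 2) (hw1 : 0 < w1) (hw : w1 ≤ w0)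
    (hw0 : w0 ≤ m.sg * m.R) : Flat (ext m t0 R1 s01 w0 w1) := by
  have hR := h.hR
  have hR1' : 0 < R1 := hR.trans_le hR1
  obtain ⟨g1, g2⟩ := G0_near h hφ
  have hg0 : 0 < ‖G0 m t0‖ := by linarith
  refine ⟨hR1', div_pos hw1 hR1', div_le_div_of_nonneg_right hw hR1'.le, ?_, ?_, ?_⟩
  · change (frm _ _ _ _ _ _ _).disc = 1
    rw [disc_frm, norm_smul, norm_inv, norm_norm, inv_mul_cancel₀ hg0.ne', one_pow]
  · change |lam m t0 * m.phi.d| * (w0 / R1 * R1) ≤ kD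
    rw [div_mul_cancel₀ _ hR1'.ne', abs_mul, abs_of_nonneg lam_nonneg]
    have h1 : |m.phi.d| * w0 ≤ kD := (mul_le_mul_of_nonneg_left hw0 (abs_nonneg _)).trans h.dd
    have h2 : 0 ≤ |m.phi.d| * w0 := mul_nonneg (abs_nonneg _) (by linarith)
    have h3 := mul_le_mul_of_nonneg_right (lam_le_one (m := m) (t0 := t0)) h2
    linarith
  · rw [ny_ext]
    change |lam m t0 * m.phi.ny s01| * (w0 / R1) ≤ 2 * kD
    rw [abs_mul, abs_of_nonneg lam_nonneg, mul_assoc]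
    have hw00 : 0 ≤ w0 := by linarith
    have h0 : 0 ≤ |m.phi.ny s01| * (w0 / R1) := by positivity
    have h1 := mul_le_mul_of_nonneg_right (lam_le_one (m := m) (t0 := t0)) h0
    refine h1.trans ?_
    rw [one_mul, ← mul_div_assoc, div_le_iff₀ hR1']
    have e : m.phi.ny s01 = m.phi.ny m.s0 - 2 * m.phi.d * (s01 - m.s0) := by unfold Cf.ny; ring
    have h2 : |m.phi.ny s01| ≤ |m.phi.ny m.s0| + 2 * |m.phi.d| * ((R1 - m.R) / 2) := by
      rw [e]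
      refine (abs_sub _ _).trans ?_
      rw [abs_mul, abs_mul, abs_of_pos (two_pos : (0:ℝ) < 2)]
      have := mul_le_mul_of_nonneg_left hs (by positivity : 0 ≤ 2 * |m.phi.d|)
      linarith
    have h3 : |m.phi.ny s01| * w0 ≤
        (|m.phi.ny m.s0| + 2 * |m.phi.d| * ((R1 - m.R) / 2)) * (m.sg * m.R) :=
      mul_le_mul h2 hw0 hw00 (by
        have : 0 ≤ R1 - m.R := by linarith
        positivity)
    have h4 := mul_le_mul_of_nonneg_right h.nn hR.le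
    have h5 := mul_le_mul_of_nonneg_right h.dd (by linarith : 0 ≤ R1 - m.R)
    unfold kD at h4 h5 ⊢
    nlinarith

theorem ext_ld : (ext m t0 R1 s01 w0 w1).phi.ld (ext m t0 R1 s01 w0 w1).c
    (lat (ext m t0 R1 s01 w0 w1).X0) ((ext m t0 R1 s01 w0 w1).X0 2)
    (ext m t0 R1 s01 w0 w1).s0 = 0 := by
  change (frm t0.1 (rx t0.1 t0.2.1 m.s0) (ry t0.1 t0.2.2 m.s0) m.s0 _ _ _).ld t0.1
    (lat (rpos t0 s01)) (rpos t0 s01 2) s01 = 0
  rw [lat_rpos, rpos_two, Cf.ld_ray, rB_frm_ray]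

theorem ext_ev : (ext m t0 R1 s01 w0 w1).phi.ev
    (lat (ext m t0 R1 s01 w0 w1).X0) ((ext m t0 R1 s01 w0 w1).X0 2)
    (ext m t0 R1 s01 w0 w1).s0 = 0 := by
  change (frm t0.1 (rx t0.1 t0.2.1 m.s0) (ry t0.1 t0.2.2 m.s0) m.s0 _ _ _).ev
    (lat (rpos t0 s01)) (rpos t0 s01 2) s01 = 0
  rw [lat_rpos, rpos_two, ev_frm_ray]

/-- **the extended member is admissible**. -/
theorem ext_ok (h : Flat m)
    (hφ : ∀ s, |s - m.s0| ≤ m.R → |m.phi.val (rpos t0 s, s)| ≤ m.s1 * m.R)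
    (hR1 : m.R ≤ R1) (hs : |s01 - m.s0| ≤ (R1 - m.R) / 2) (hw1 : 0 < w1) (hw : w1 ≤ w0)
    (hw0 : w0 ≤ m.sg * m.R) : (ext m t0 R1 s01 w0 w1).Ok kM0 0 := by
  have hf := ext_flat (s01 := s01) h hφ hR1 hs hw1 hw hw0
  have hk : (0:ℝ) ≤ kM0 := by unfold kM0; norm_num
  refine hf.ok ?_ ?_
  · rw [ext_ld, abs_zero]
    exact mul_nonneg hk hf.sg_pos.le
  · rw [ext_ev, abs_zero]
    exact mul_nonneg (mul_nonneg hk hf.sg_pos.le) hf.hR.le

/-- the slab estimate. -/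
theorem slab_est {A A0 L L0 ds R R1 sg s1 w0 w1 N mu la ny d wn Q : ℝ} (hR : 0 < R) (hR1 : R ≤ R1)
    (hw1' : 0 < w1) (hw0' : 0 < w0) (hw0 : w0 ≤ sg * R) (hw1 : s1 * R ≤ w1)
    (hss : |ds| ≤ 3 / 2 * R1) (hwn : |wn| ≤ 5 / 8 * w0) (hN : |N| * R1 ≤ 3 / 10 * w0 ^ 2)
    (c4 : |A - A0| ≤ w1 / 8) (c5 : |L - L0| * R1 ≤ w1 / 8) (hmu0 : 0 ≤ mu) (hmu : mu ≤ 26 / 25)
    (hls : |la - mu| * sg ≤ s1 / 50) (hny : |ny| * sg ≤ 2 * kD) (hd : |d| * (sg * R) ≤ kD)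
    (hQ : Q = wn ^ 2 - 2 * ds * N) :
    |mu * ((A - A0) + (L - L0) * ds) + (la - mu) * (ny * N + d * Q)| ≤ w1 := by
  have hR1' : 0 < R1 := hR.trans_le hR1
  have hkD : (0:ℝ) ≤ kD := by unfold kD; norm_num
  have b1 : |(A - A0) + (L - L0) * ds| ≤ 5 / 16 * w1 := by
    refine (abs_add_le _ _).trans ?_
    rw [abs_mul]
    have := mul_le_mul_of_nonneg_left hss (abs_nonneg (L - L0))
    linarith
  have k1 : |ny| * |N| ≤ 2 * kD * (3 / 10 * w0) := by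
    have q1 : |ny| * w0 ≤ 2 * kD * R1 := by
      calc |ny| * w0 ≤ |ny| * (sg * R) := mul_le_mul_of_nonneg_left hw0 (abs_nonneg _)
        _ = |ny| * sg * R := by ring
        _ ≤ 2 * kD * R := mul_le_mul_of_nonneg_right hny hR.le
        _ ≤ _ := mul_le_mul_of_nonneg_left hR1 (by linarith)
    have q2 : |ny| * (|N| * R1) ≤ |ny| * (3 / 10 * w0 ^ 2) :=
      mul_le_mul_of_nonneg_left hN (abs_nonneg _)
    have q3 : (|ny| * |N|) * R1 ≤ (2 * kD * (3 / 10 * w0)) * R1 := by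
      calc (|ny| * |N|) * R1 = |ny| * (|N| * R1) := by ring
        _ ≤ |ny| * (3 / 10 * w0 ^ 2) := q2
        _ = (|ny| * w0) * (3 / 10 * w0) := by ring
        _ ≤ (2 * kD * R1) * (3 / 10 * w0) := mul_le_mul_of_nonneg_right q1 (by positivity)
        _ = _ := by ring
    exact le_of_mul_le_mul_right q3 hR1'
  have k2 : |d| * |Q| ≤ kD * (13 / 10 * w0) := by
    have q1 : |d| * w0 ≤ kD := (mul_le_mul_of_nonneg_left hw0 (abs_nonneg _)).trans hd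
    have q2 : |Q| ≤ 13 / 10 * w0 ^ 2 := by
      rw [hQ]
      refine (abs_sub _ _).trans ?_
      rw [abs_of_nonneg (sq_nonneg wn), abs_mul, abs_mul, abs_of_pos (two_pos : (0:ℝ) < 2)]
      have r1 : wn ^ 2 ≤ (5 / 8 * w0) ^ 2 := by
        rw [← sq_abs]
        exact pow_le_pow_left₀ (abs_nonneg _) hwn 2
      have r2 : 2 * |ds| * |N| ≤ 3 * (3 / 10 * w0 ^ 2) := by
        have := mul_le_mul_of_nonneg_right hss (abs_nonneg N)
        linarith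
      nlinarith
    calc |d| * |Q| ≤ |d| * (13 / 10 * w0 ^ 2) := mul_le_mul_of_nonneg_left q2 (abs_nonneg _)
      _ = |d| * w0 * (13 / 10 * w0) := by ring
      _ ≤ _ := mul_le_mul_of_nonneg_right q1 (by positivity)
  have hk : 0 ≤ kD * w0 := mul_nonneg hkD hw0'.le
  have b2 : |ny * N + d * Q| ≤ 3 * kD * w0 := by
    refine (abs_add_le _ _).trans ?_
    rw [abs_mul, abs_mul]
    linarith
  have b3 : |la - mu| * w0 ≤ w1 / 50 := by
    have q1 : |la - mu| * w0 ≤ |la - mu| * (sg * R) :=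
      mul_le_mul_of_nonneg_left hw0 (abs_nonneg _)
    have q2 := mul_le_mul_of_nonneg_right hls hR.le
    linarith
  refine (abs_add_le _ _).trans ?_
  rw [abs_mul, abs_mul, abs_of_nonneg hmu0]
  have b4 : mu * |(A - A0) + (L - L0) * ds| ≤ 26 / 25 * (5 / 16 * w1) :=
    mul_le_mul hmu b1 (abs_nonneg _) (by norm_num)
  have b5 : |la - mu| * |ny * N + d * Q| ≤ 3 * kD * (w1 / 50) := by
    calc _ ≤ |la - mu| * (3 * kD * w0) := mul_le_mul_of_nonneg_left b2 (abs_nonneg _)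
      _ = 3 * kD * (|la - mu| * w0) := by ring
      _ ≤ _ := mul_le_mul_of_nonneg_left b3 (by linarith)
  unfold kD at b5
  linarith

/-- displacement of the rays `t`, `t0` at the time `s` (from the data at the time `u`). -/
noncomputable def dW (t t0 : LRay) (u s : ℝ) : E2 :=
  (rx t.1 t.2.1 u - rx t0.1 t0.2.1 u) - (s - u) • (t.1 - t0.1)

/-- null displacement of the rays `t`, `t0` in the frame of `t0` at the time `u`. -/
noncomputable def dN (t t0 : LRay) (u : ℝ) : ℝ :=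
  nrm t0.1 (rx t.1 t.2.1 u) (ry t.1 t.2.2 u) u - nrm t0.1 (rx t0.1 t0.2.1 u) (ry t0.1 t0.2.2 u) u

theorem dW_eq (t t0 : LRay) (u s v : ℝ) :
    rx t.1 t.2.1 s - rx t0.1 t0.2.1 v + (s - v) • t0.1 = dW t t0 u s := by
  unfold rx dW rx
  module

theorem dN_eq (t t0 : LRay) (u s v : ℝ) : nrm t0.1 (rx t.1 t.2.1 s) (ry t.1 t.2.2 s) s -
      nrm t0.1 (rx t0.1 t0.2.1 v) (ry t0.1 t0.2.2 v) v =
      dN t t0 u + (s - u) * (‖t.1 - t0.1‖ ^ 2 / 2) := by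
  unfold dN
  rw [nrm_ray', nrm_ray', nrm_ray', nrm_ray']
  simp only [sub_self, norm_zero]
  ring

theorem dW_le {t : LRay} {u s R1 w0 : ℝ} (hss : |s - u| ≤ 3 / 2 * R1)
    (c1 : ‖t.1 - t0.1‖ * R1 ≤ w0 / 4)
    (c2 : ‖rx t.1 t.2.1 u - rx t0.1 t0.2.1 u‖ ≤ w0 / 4) : ‖dW t t0 u s‖ ≤ 5 / 8 * w0 := by
  unfold dW
  refine (norm_sub_le _ _).trans ?_
  rw [norm_smul, Real.norm_eq_abs]
  have h1 := mul_le_mul_of_nonneg_right hss (norm_nonneg (t.1 - t0.1))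
  linarith

theorem dN_le {t : LRay} {u s R1 w0 : ℝ} (hR1' : 0 < R1) (hss : |s - u| ≤ 3 / 2 * R1)
    (c1 : ‖t.1 - t0.1‖ * R1 ≤ w0 / 4) (c3 : |dN t t0 u| * R1 ≤ w0 ^ 2 / 4) :
    |dN t t0 u + (s - u) * (‖t.1 - t0.1‖ ^ 2 / 2)| * R1 ≤ 3 / 10 * w0 ^ 2 := by
  have h1 : |dN t t0 u + (s - u) * (‖t.1 - t0.1‖ ^ 2 / 2)| ≤
      |dN t t0 u| + 3 / 2 * R1 * (‖t.1 - t0.1‖ ^ 2 / 2) := by
    refine (abs_add_le _ _).trans ?_
    rw [abs_mul, abs_of_nonneg (a := ‖t.1 - t0.1‖ ^ 2 / 2) (by positivity)]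
    have := mul_le_mul_of_nonneg_right hss (by positivity : 0 ≤ ‖t.1 - t0.1‖ ^ 2 / 2)
    linarith
  have h2 := mul_le_mul_of_nonneg_right h1 hR1'.le
  have h3 : (‖t.1 - t0.1‖ * R1) ^ 2 ≤ (w0 / 4) ^ 2 :=
    pow_le_pow_left₀ (by positivity) c1 2
  have h4 : 3 / 2 * R1 * (‖t.1 - t0.1‖ ^ 2 / 2) * R1 = 3 / 4 * (‖t.1 - t0.1‖ * R1) ^ 2 := by ring
  have h5 : 0 ≤ w0 ^ 2 := sq_nonneg _
  linarith

/-- **rays of the extended member**: closeness to `t0` measured at the time `m.s0`. -/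
theorem mem_ext (h : Flat m)
    (hφ : ∀ s, |s - m.s0| ≤ m.R → |m.phi.val (rpos t0 s, s)| ≤ m.s1 * m.R)
    (hR1 : m.R ≤ R1) (hs : |s01 - m.s0| ≤ (R1 - m.R) / 2) (hw : w1 ≤ w0)
    (hw0 : w0 ≤ m.sg * m.R) (hw1 : m.s1 * m.R ≤ w1) {t : LRay}
    (c1 : ‖t.1 - t0.1‖ * R1 ≤ w0 / 4)
    (c2 : ‖rx t.1 t.2.1 m.s0 - rx t0.1 t0.2.1 m.s0‖ ≤ w0 / 4)
    (c3 : |dN t t0 m.s0| * R1 ≤ w0 ^ 2 / 4)
    (c4 : |m.phi.val (rpos t m.s0, m.s0) - m.phi.val (rpos t0 m.s0, m.s0)| ≤ w1 / 8)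
    (c5 : |m.phi.rB t.1 t.2.1 t.2.2 - m.phi.rB t0.1 t0.2.1 t0.2.2| * R1 ≤ w1 / 8) :
    t ∈ (ext m t0 R1 s01 w0 w1).rays 0 := by
  have hR := h.hR
  have hR1' : 0 < R1 := hR.trans_le hR1
  have hw1' : 0 < w1 := lt_of_lt_of_le (mul_pos h.hs1 hR) hw1
  have hw0' : 0 < w0 := hw1'.trans_le hw
  obtain ⟨g1, g2⟩ := G0_near h hφ
  have hls := lam_sub h hφ
  rw [Mem.mem_rays]
  have hT : (ext m t0 R1 s01 w0 w1).T 0 = (w0 / R1) ^ 2 := T_zero _
  rw [hT]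
  change RayIn t0.1 (w0 / R1) ((w0 / R1) ^ 2) R1 (lat (rpos t0 s01)) (rpos t0 s01 2) s01
    (frm t0.1 (rx t0.1 t0.2.1 m.s0) (ry t0.1 t0.2.2 m.s0) m.s0 (‖G0 m t0‖⁻¹ • G0 m t0)
    (lam m t0 * m.phi.ny m.s0) (lam m t0 * m.phi.d)) (w1 / R1 * R1) t.1 t.2.1 t.2.2
  rw [lat_rpos, rpos_two, div_mul_cancel₀ _ hR1'.ne']
  have hC0 := norm_nonneg (t.1 - t0.1)
  refine ⟨?_, fun s hs' => ?_⟩
  · rw [le_div_iff₀ hR1']
    linarith
  -- data at time s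
  have hss : |s - m.s0| ≤ 3 / 2 * R1 := by
    have e : s - m.s0 = (s - s01) + (s01 - m.s0) := by ring
    rw [e]
    refine (abs_add_le _ _).trans ?_
    linarith
  have hwn := dW_le hss c1 c2
  have hNn := dN_le hR1' hss c1 c3
  refine ⟨⟨hs', ?_, ?_⟩, ?_⟩
  · rw [dW_eq t t0 m.s0 s s01, div_mul_cancel₀ _ hR1'.ne']
    linarith
  · rw [dN_eq t t0 m.s0 s s01]
    have e : (w0 / R1) ^ 2 * R1 = w0 ^ 2 / R1 := by field_simp
    rw [e, le_div_iff₀ hR1']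
    linarith [sq_nonneg w0]
  -- the slab
  have hexp := Cf.ev_expand m.phi t0.1 (rx t0.1 t0.2.1 m.s0) (ry t0.1 t0.2.2 m.s0) m.s0
    (rx t.1 t.2.1 s) (ry t.1 t.2.2 s) s
  rw [ev_frm]
  rw [dW_eq t t0 m.s0 s m.s0, dN_eq t t0 m.s0 s m.s0] at hexp ⊢
  rw [Cf.ld_ray] at hexp
  have hval := val_rpos m.phi t s m.s0
  have e1 : m.phi.val (rpos t s, s) = m.phi.ev (rx t.1 t.2.1 s) (ry t.1 t.2.2 s) s := by
    unfold Cf.val; simp only [lat_rpos, rpos_two]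
  have e2 : m.phi.val (rpos t0 m.s0, m.s0) =
      m.phi.ev (rx t0.1 t0.2.1 m.s0) (ry t0.1 t0.2.2 m.s0) m.s0 := by
    unfold Cf.val; simp only [lat_rpos, rpos_two]
  rw [← e1, ← e2, hval] at hexp
  have hG : m.phi.gr t0.1 (rx t0.1 t0.2.1 m.s0) m.s0 = G0 m t0 := rfl
  rw [hG] at hexp
  rw [real_inner_smul_left]
  have hmu1 : ‖G0 m t0‖⁻¹ ≤ 26 / 25 := by
    rw [inv_le_comm₀ (by linarith) (by norm_num)]
    linarith
  have key := slab_est (Q := ‖dW t t0 m.s0 s‖ ^ 2 - 2 * (s - m.s0) *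
    (dN t t0 m.s0 + (s - m.s0) * (‖t.1 - t0.1‖ ^ 2 / 2))) (wn := ‖dW t t0 m.s0 s‖) hR hR1
    hw1' hw0' hw0 hw1 hss (by rw [abs_of_nonneg (norm_nonneg _)]; exact hwn) hNn c4 c5
    (by positivity : 0 ≤ ‖G0 m t0‖⁻¹) hmu1 hls h.nn h.dd rfl
  refine le_trans (le_of_eq ?_) key
  congr 1
  generalize inner ℝ (G0 m t0) (dW t t0 m.s0 s) = g at hexp ⊢
  generalize ‖dW t t0 m.s0 s‖ ^ 2 = W at hexp ⊢
  generalize dN t t0 m.s0 + (s - m.s0) * (‖t.1 - t0.1‖ ^ 2 / 2) = N at hexp ⊢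
  have e3 : g = m.phi.val (rpos t m.s0, m.s0) + (s - m.s0) * m.phi.rB t.1 t.2.1 t.2.2 -
      m.phi.val (rpos t0 m.s0, m.s0) - m.phi.rB t0.1 t0.2.1 t0.2.2 * (s - m.s0) -
      m.phi.ny m.s0 * N - m.phi.d * (W - 2 * (s - m.s0) * N) := by linarith
  rw [e3]
  ring

end

end Crest.Agent.R116.Ext803
end

-- ▼ part R116/Ext2_803
section

/-!
# R116 (K side), block K1, part 2: cells of rays, cover by extended members (helper803)

* `ext_adm` : the extension of a mark of `AdmL r i J a` at one of its rays, over the ancestor cell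
  `J1` of level `i1 ≤ i`, with a narrower (or equal) box and a thicker (or equal) slab, is again
  `AdmL r i1 J1 a'`.
* `cell_close` : rays of a mark with close coordinates `u1 .. u5` are close to each other.
* `cover_one` : a finite set `S` of rays of a mark has a part `S'` with `#S ≤ KC 8^(i - i1) #S'`
  inside ONE admissible member of level `i1` of the same absolute widths.
-/

set_option autoImplicit false

namespace Crest.Agent.R116.Ext803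

open Crest.Agent.R138.Defs (E2)
open Crest.Agent.R116.CDef480 (E3 lat pt vel)
open Crest.Agent.R116.LZg725
open Crest.Agent.R116.KI439 (LRay kM0 kD AdmL)

/-! ### `AdmL` -/

section adm

variable {r : ℝ} {i : ℕ} {J : ℤ} {a : Fin 2 → ℕ} {m : Mem}

theorem flat_of_adm (h : AdmL r i J a m) : Flat m :=
  ⟨h.ok.hR, h.ok.hs1, h.ok.hsg, h.ok.adm.disc, h.dd, h.nn⟩

theorem val_of_mem {t : LRay} (ht : t ∈ m.rays 0) :
    ∀ s, |s - m.s0| ≤ m.R → |m.phi.val (rpos t s, s)| ≤ m.s1 * m.R :=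
  fun s hs => (ht.2 s hs).2

/-- the cell `J1` of level `i1` contains the cell `J` of level `i` (centres). -/
def Anc (i : ℕ) (J : ℤ) (i1 : ℕ) (J1 : ℤ) : Prop :=
  |((J1 : ℝ) + 1 / 2) * (1 / 2 : ℝ) ^ i1 - ((J : ℝ) + 1 / 2) * (1 / 2 : ℝ) ^ i| ≤
    ((1 / 2 : ℝ) ^ i1 - (1 / 2 : ℝ) ^ i) / 2

theorem anc_of_zc {i1 : ℕ} {J1 : ℤ} (hi : i1 ≤ i) {z : ℝ} (h : ⌊(2 : ℝ) ^ i * z⌋ = J)
    (h1 : ⌊(2 : ℝ) ^ i1 * z⌋ = J1) : Anc i J i1 J1 := by
  obtain ⟨k, rfl⟩ := Nat.exists_eq_add_of_le hi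
  have hJ := Int.floor_eq_iff.1 h
  have hJ1 := Int.floor_eq_iff.1 h1
  have hk : (0:ℝ) < 2 ^ k := by positivity
  have e : (2:ℝ) ^ (i1 + k) * z = 2 ^ k * (2 ^ i1 * z) := by rw [pow_add]; ring
  rw [e] at hJ
  have q1 : J1 * 2 ^ k ≤ J := by
    rw [← h, Int.le_floor, e]
    push_cast
    nlinarith [hJ1.1]
  have q2 : J + 1 ≤ (J1 + 1) * 2 ^ k := by
    have : (J : ℝ) < ((J1 + 1) * 2 ^ k : ℤ) := by
      push_cast
      calc (J : ℝ) ≤ 2 ^ k * (2 ^ i1 * z) := hJ.1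
        _ < 2 ^ k * (J1 + 1) := mul_lt_mul_of_pos_left hJ1.2 hk
        _ = _ := by ring
    have := Int.cast_lt.1 this
    omega
  have q1' : (J1 : ℝ) * 2 ^ k ≤ J := by exact_mod_cast q1
  have q2' : (J : ℝ) + 1 ≤ (J1 + 1) * 2 ^ k := by exact_mod_cast q2
  unfold Anc
  have e1 : (1 / 2 : ℝ) ^ i1 = (1 / 2 : ℝ) ^ (i1 + k) * 2 ^ k := by
    rw [pow_add, mul_assoc, ← mul_pow]; norm_num
  rw [e1]
  have hp : (0:ℝ) < (1 / 2 : ℝ) ^ (i1 + k) := by positivity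
  have e2 : ((J1 : ℝ) + 1 / 2) * ((1 / 2 : ℝ) ^ (i1 + k) * 2 ^ k) -
      ((J : ℝ) + 1 / 2) * (1 / 2 : ℝ) ^ (i1 + k) =
      (1 / 2 : ℝ) ^ (i1 + k) * (((J1 : ℝ) + 1 / 2) * 2 ^ k - ((J : ℝ) + 1 / 2)) := by ring
  rw [e2, abs_mul, abs_of_pos hp]
  have e3 : ((1 / 2 : ℝ) ^ (i1 + k) * 2 ^ k - (1 / 2 : ℝ) ^ (i1 + k)) / 2 =
      (1 / 2 : ℝ) ^ (i1 + k) * ((2 ^ k - 1) / 2) := by ring
  rw [e3]
  refine mul_le_mul_of_nonneg_left ?_ hp.le
  rw [abs_le]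
  constructor <;> linarith

/-- **extension of a mark**. -/
theorem ext_adm (h : AdmL r i J a m) {t0 : LRay} (ht0 : t0 ∈ m.rays 0) {i1 : ℕ} {J1 : ℤ}
    (hi : i1 ≤ i) (hJ : Anc i J i1 J1) {a' : Fin 2 → ℕ} (ha0 : a 0 ≤ a' 0) (ha1 : a' 1 ≤ a 1)
    (ha : a' 0 ≤ a' 1) :
    AdmL r i1 J1 a' (ext m t0 ((1 / 2 : ℝ) ^ i1) (((J1 : ℝ) + 1 / 2) * (1 / 2 : ℝ) ^ i1)
      ((1 / 2 : ℝ) ^ (a' 0)) ((1 / 2 : ℝ) ^ (a' 1))) := by
  have hf := flat_of_adm h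
  have hφ := val_of_mem ht0
  have hR1 : m.R ≤ (1 / 2 : ℝ) ^ i1 := by
    rw [h.hR]
    exact pow_le_pow_of_le_one (by norm_num) (by norm_num) hi
  have hp : (0:ℝ) < (1 / 2 : ℝ) ^ i1 := by positivity
  have hs : |((J1 : ℝ) + 1 / 2) * (1 / 2 : ℝ) ^ i1 - m.s0| ≤ ((1 / 2 : ℝ) ^ i1 - m.R) / 2 := by
    rw [h.hs0, h.hR]; exact hJ
  have hw1 : (0:ℝ) < (1 / 2 : ℝ) ^ (a' 1) := by positivity
  have hw : (1 / 2 : ℝ) ^ (a' 1) ≤ (1 / 2 : ℝ) ^ (a' 0) :=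
    pow_le_pow_of_le_one (by norm_num) (by norm_num) ha
  have hw0 : (1 / 2 : ℝ) ^ (a' 0) ≤ m.sg * m.R := by
    rw [h.wide]
    exact pow_le_pow_of_le_one (by norm_num) (by norm_num) ha0
  have hfl := ext_flat (s01 := ((J1 : ℝ) + 1 / 2) * (1 / 2 : ℝ) ^ i1) hf hφ hR1 hs hw1 hw hw0
  refine ⟨ext_ok hf hφ hR1 hs hw1 hw hw0, rfl, rfl, ?_, ?_, ?_, ?_, hfl.dd, hfl.nn⟩
  · change (1 / 2 : ℝ) ^ (a' 0) / (1 / 2 : ℝ) ^ i1 ≤ 1
    rw [div_le_one hp]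
    refine hw0.trans ?_
    calc m.sg * m.R ≤ 1 * m.R := mul_le_mul_of_nonneg_right h.sg1 hf.hR.le
      _ ≤ _ := by rw [one_mul]; exact hR1
  · change (1 / 2 : ℝ) ^ (a' 0) / (1 / 2 : ℝ) ^ i1 * (1 / 2 : ℝ) ^ i1 = _
    rw [div_mul_cancel₀ _ hp.ne']
  · change (1 / 2 : ℝ) ^ (a' 1) / (1 / 2 : ℝ) ^ i1 * (1 / 2 : ℝ) ^ i1 = _
    rw [div_mul_cancel₀ _ hp.ne']
  · change r ≤ (1 / 2 : ℝ) ^ (a' 1) / (1 / 2 : ℝ) ^ i1 * (1 / 2 : ℝ) ^ i1
    rw [div_mul_cancel₀ _ hp.ne']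
    refine h.res.trans ?_
    rw [h.thin]
    exact pow_le_pow_of_le_one (by norm_num) (by norm_num) ha1

end adm

/-! ### pigeonhole -/

theorem pigeon {ι : Type*} (S : Finset ι) (f : ι → ℝ) (c X δ : ℝ) (hδ : 0 < δ) (hX : 0 ≤ X)
    (h : ∀ t ∈ S, |f t - c| ≤ X) : ∃ S' ⊆ S, (S.card : ℝ) ≤ (2 * X / δ + 2) * S'.card ∧
      ∀ t ∈ S', ∀ t' ∈ S', |f t - f t'| ≤ δ := by
  classical
  set T := Finset.Icc ⌊-X / δ⌋ ⌊X / δ⌋ with hT
  set g : ι → ℤ := fun t => ⌊(f t - c) / δ⌋ with hg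
  have hle : ⌊-X / δ⌋ ≤ ⌊X / δ⌋ := by
    apply Int.floor_le_floor
    exact div_le_div_of_nonneg_right (by linarith) hδ.le
  have hTne : T.Nonempty := Finset.nonempty_Icc.2 hle
  have hmap : ∀ t ∈ S, g t ∈ T := by
    intro t ht
    have := abs_le.1 (h t ht)
    rw [hT, Finset.mem_Icc]
    exact ⟨Int.floor_le_floor (div_le_div_of_nonneg_right this.1 hδ.le),
      Int.floor_le_floor (div_le_div_of_nonneg_right this.2 hδ.le)⟩
  have hTcard : (T.card : ℝ) ≤ 2 * X / δ + 2 := by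
    rw [hT, Int.card_Icc]
    have h0 : (0:ℤ) ≤ ⌊X / δ⌋ + 1 - ⌊-X / δ⌋ := by omega
    have h1 : (((⌊X / δ⌋ + 1 - ⌊-X / δ⌋).toNat : ℤ) : ℝ) = ((⌊X / δ⌋ + 1 - ⌊-X / δ⌋ : ℤ) : ℝ) := by
      rw [Int.toNat_of_nonneg h0]
    have h2 : (((⌊X / δ⌋ + 1 - ⌊-X / δ⌋).toNat : ℕ) : ℝ) =
        (((⌊X / δ⌋ + 1 - ⌊-X / δ⌋).toNat : ℤ) : ℝ) := by norm_cast
    rw [h2, h1]
    push_cast
    have h3 := Int.floor_le (X / δ)
    have h4 := Int.lt_floor_add_one (-X / δ)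
    have e : 2 * X / δ = X / δ - -X / δ := by ring
    rw [e]
    linarith
  obtain ⟨y, hy, hmax⟩ := Finset.exists_max_image T
    (fun y => (S.filter fun t => g t = y).card) hTne
  refine ⟨S.filter fun t => g t = y, Finset.filter_subset _ _, ?_, ?_⟩
  · have h1 : S.card = ∑ b ∈ T, (S.filter fun t => g t = b).card :=
      Finset.card_eq_sum_card_fiberwise hmap
    have h2 : S.card ≤ T.card * (S.filter fun t => g t = y).card := by
      rw [h1]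
      refine (Finset.sum_le_sum hmax).trans ?_
      rw [Finset.sum_const, smul_eq_mul]
    have h3 : (S.card : ℝ) ≤ T.card * (S.filter fun t => g t = y).card := by exact_mod_cast h2
    exact h3.trans (mul_le_mul_of_nonneg_right hTcard (Nat.cast_nonneg _))
  · intro t ht t' ht'
    have e1 := (Finset.mem_filter.1 ht).2
    have e2 := (Finset.mem_filter.1 ht').2
    have q1 := Int.floor_eq_iff.1 e1
    have q2 := Int.floor_eq_iff.1 e2
    have e : f t - f t' = δ * ((f t - c) / δ - (f t' - c) / δ) := by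
      field_simp
      ring
    rw [e, abs_mul, abs_of_pos hδ]
    have : |(f t - c) / δ - (f t' - c) / δ| ≤ 1 := by
      rw [abs_le]; constructor <;> linarith [q1.1, q1.2, q2.1, q2.2]
    calc δ * _ ≤ δ * 1 := mul_le_mul_of_nonneg_left this hδ.le
      _ = δ := mul_one _

/-! ### the perpendicular direction -/

/-- rotation by a right angle. -/
noncomputable def perp (G : E2) : E2 := !₂[-G 1, G 0]

theorem norm_perp (G : E2) : ‖perp G‖ = ‖G‖ := by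
  unfold perp
  rw [EuclideanSpace.norm_eq, EuclideanSpace.norm_eq]
  congr 1
  simp only [Fin.sum_univ_two, Real.norm_eq_abs, sq_abs]
  simp
  ring

theorem perp_id (G v : E2) :
    (inner ℝ G v) ^ 2 + (inner ℝ (perp G) v) ^ 2 = ‖G‖ ^ 2 * ‖v‖ ^ 2 := by
  rw [EuclideanSpace.norm_sq_eq, EuclideanSpace.norm_sq_eq]
  unfold perp
  simp only [PiLp.inner_apply, Fin.sum_univ_two, Real.norm_eq_abs, sq_abs]
  simp
  ring

theorem perp_le (G v : E2) : ‖G‖ * ‖v‖ ≤ |inner ℝ (perp G) v| + |inner ℝ G v| := by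
  have h := perp_id G v
  have h0 : 0 ≤ |inner ℝ (perp G) v| + |inner ℝ G v| := by positivity
  refine abs_le_of_sq_le_sq' ?_ h0 |>.2
  have e1 := sq_abs (inner ℝ (perp G) v)
  have e2 := sq_abs (inner ℝ G v)
  have e3 : 0 ≤ |inner ℝ (perp G) v| * |inner ℝ G v| := by positivity
  nlinarith

/-! ### coordinates of rays -/

/-- gradient at the centre. -/
noncomputable def Gc (m : Mem) : E2 := m.phi.gr m.c (lat m.X0) m.s0

noncomputable def u1 (m : Mem) (t : LRay) : ℝ := inner ℝ (perp (Gc m)) t.1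

noncomputable def u2 (m : Mem) (t : LRay) : ℝ := inner ℝ (perp (Gc m)) (rx t.1 t.2.1 m.s0)

noncomputable def u3 (m : Mem) (t : LRay) : ℝ := m.phi.rB t.1 t.2.1 t.2.2

noncomputable def u4 (m : Mem) (t : LRay) : ℝ := m.phi.val (rpos t m.s0, m.s0)

noncomputable def u5 (m : Mem) (t : LRay) : ℝ :=
  nrm m.c (rx t.1 t.2.1 m.s0) (ry t.1 t.2.2 m.s0) m.s0 +
    inner ℝ (t.1 - m.c) (rx t.1 t.2.1 m.s0 - lat m.X0)

section coord

variable {m : Mem}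

/-- bounds of a ray of a member. -/
theorem ray_bd (hR : 0 < m.R) {t : LRay} (ht : t ∈ m.rays 0) : ‖t.1 - m.c‖ ≤ m.sg ∧
    ‖rx t.1 t.2.1 m.s0 - lat m.X0‖ ≤ m.sg * m.R ∧
    |nrm m.c (rx t.1 t.2.1 m.s0) (ry t.1 t.2.2 m.s0) m.s0 - nrm m.c (lat m.X0) (m.X0 2) m.s0| ≤
      m.sg ^ 2 * m.R := by
  rw [Mem.mem_rays, T_zero] at ht
  obtain ⟨h1, h2⟩ := ht
  obtain ⟨⟨-, h3, h4⟩, -⟩ := h2 m.s0 (by rw [sub_self, abs_zero]; exact hR.le)
  rw [sub_self, zero_smul, add_zero] at h3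
  exact ⟨h1, h3, h4⟩

theorem Gc_near (h : Flat m) (hok : m.Ok kM0 0) : 49 / 50 ≤ ‖Gc m‖ ∧ ‖Gc m‖ ≤ 51 / 50 := by
  have e := Cf.norm_gr_sq m.phi m.c (lat m.X0) (m.X0 2) m.s0
  have h1 := hok.adm.ld
  have h2 := hok.adm.ev
  rw [h.disc] at e
  have hR := h.hR
  have hsg := h.sg_pos
  have hny := h.nn
  have hd := h.dd
  set A := m.phi.ev (lat m.X0) (m.X0 2) m.s0
  set L := m.phi.ld m.c (lat m.X0) (m.X0 2) m.s0
  have k1 : |m.phi.ny m.s0 * L| ≤ 2 * kD * kM0 := by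
    rw [abs_mul]
    calc |m.phi.ny m.s0| * |L| ≤ |m.phi.ny m.s0| * (kM0 * m.sg) :=
          mul_le_mul_of_nonneg_left h1 (abs_nonneg _)
      _ = |m.phi.ny m.s0| * m.sg * kM0 := by ring
      _ ≤ _ := mul_le_mul_of_nonneg_right hny (by unfold kM0; norm_num)
  have k2 : |m.phi.d * A| ≤ kD * kM0 := by
    rw [abs_mul]
    calc |m.phi.d| * |A| ≤ |m.phi.d| * (kM0 * m.sg * m.R) :=
          mul_le_mul_of_nonneg_left h2 (abs_nonneg _)
      _ = |m.phi.d| * (m.sg * m.R) * kM0 := by ring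
      _ ≤ _ := mul_le_mul_of_nonneg_right hd (by unfold kM0; norm_num)
  change ‖Gc m‖ ^ 2 = _ at e
  unfold kD kM0 at k1 k2
  have k1' := abs_le.1 k1
  have k2' := abs_le.1 k2
  have h0 := norm_nonneg (Gc m)
  constructor <;> nlinarith

/-- the gradient rotates little. -/
theorem gr_rot (h : Flat m) {C x : E2} (hC : ‖C - m.c‖ ≤ m.sg)
    (hx : ‖x - lat m.X0‖ ≤ m.sg * m.R) : ‖m.phi.gr C x m.s0 - Gc m‖ ≤ 1 / 100 := by
  have e : m.phi.gr C x m.s0 - Gc m =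
      (2 * m.phi.d) • (x - lat m.X0) - (m.phi.ny m.s0) • (C - m.c) := by
    unfold Gc
    rw [Cf.gr_dir m.phi m.c C x m.s0, Cf.gr_move m.phi m.c (lat m.X0) x m.s0 m.s0]
    module
  rw [e]
  refine (norm_sub_le _ _).trans ?_
  rw [norm_smul, norm_smul, Real.norm_eq_abs, Real.norm_eq_abs, abs_mul,
    abs_of_pos (two_pos : (0:ℝ) < 2)]
  have hd := h.dd
  have hny := h.nn
  have h1 : |m.phi.d| * ‖x - lat m.X0‖ ≤ kD :=
    (mul_le_mul_of_nonneg_left hx (abs_nonneg _)).trans hd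
  have h2 : |m.phi.ny m.s0| * ‖C - m.c‖ ≤ 2 * kD :=
    (mul_le_mul_of_nonneg_left hC (abs_nonneg _)).trans hny
  unfold kD at h1 h2
  linarith

/-- difference of the contact coordinate. -/
theorem u5_sub (t t' : LRay) : u5 m t - u5 m t' =
    dN t t' m.s0 + inner ℝ (t.1 - t'.1) (rx t.1 t.2.1 m.s0 - lat m.X0) := by
  unfold u5 dN
  have h1 := nrm_sub m.c t'.1 (rx t.1 t.2.1 m.s0) (ry t.1 t.2.2 m.s0) m.s0
  have h2 := nrm_sub m.c t'.1 (rx t'.1 t'.2.1 m.s0) (ry t'.1 t'.2.2 m.s0) m.s0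
  have e1 : inner ℝ (t.1 - t'.1) (rx t.1 t.2.1 m.s0 - lat m.X0) =
      inner ℝ (t.1 - m.c) (rx t.1 t.2.1 m.s0 - lat m.X0) -
        inner ℝ (t'.1 - m.c) (rx t.1 t.2.1 m.s0 - lat m.X0) := by
    rw [← inner_sub_left]; congr 1; abel
  have e2 : inner ℝ (t'.1 - m.c) (rx t.1 t.2.1 m.s0 - lat m.X0) -
      inner ℝ (t'.1 - m.c) (rx t'.1 t'.2.1 m.s0 - lat m.X0) =
      inner ℝ (t'.1 - m.c) (rx t.1 t.2.1 m.s0 + m.s0 • m.c) -
        inner ℝ (t'.1 - m.c) (rx t'.1 t'.2.1 m.s0 + m.s0 • m.c) := by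
    rw [← inner_sub_right, ← inner_sub_right]; congr 1; abel
  rw [e1]
  linarith

/-- difference of the slopes. -/
theorem u3_sub (t t' : LRay) : inner ℝ (m.phi.gr t'.1 (rx t.1 t.2.1 m.s0) m.s0) (t.1 - t'.1) =
    -(u3 m t - u3 m t') - 2 * m.phi.d * dN t t' m.s0 +
      m.phi.ny m.s0 * ‖t.1 - t'.1‖ ^ 2 / 2 := by
  have h1 := Cf.ld_dir m.phi t'.1 t.1 (rx t.1 t.2.1 m.s0) (ry t.1 t.2.2 m.s0) m.s0
  have h2 := Cf.ld_move m.phi t'.1 (rx t'.1 t'.2.1 m.s0) (rx t.1 t.2.1 m.s0)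
    (ry t'.1 t'.2.2 m.s0) (ry t.1 t.2.2 m.s0) m.s0 m.s0
  rw [Cf.ld_ray] at h1
  rw [Cf.ld_ray m.phi t'.1] at h2
  unfold u3 dN
  linarith

/-- difference of the values. -/
theorem u4_sub (t t' : LRay) : u4 m t - u4 m t' =
    inner ℝ (m.phi.gr t'.1 (rx t'.1 t'.2.1 m.s0) m.s0) (rx t.1 t.2.1 m.s0 - rx t'.1 t'.2.1 m.s0) +
      m.phi.ny m.s0 * dN t t' m.s0 +
      m.phi.d * ‖rx t.1 t.2.1 m.s0 - rx t'.1 t'.2.1 m.s0‖ ^ 2 := by
  have h := Cf.ev_expand m.phi t'.1 (rx t'.1 t'.2.1 m.s0) (ry t'.1 t'.2.2 m.s0) m.s0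
    (rx t.1 t.2.1 m.s0) (ry t.1 t.2.2 m.s0) m.s0
  simp only [sub_self, zero_smul, add_zero, mul_zero, zero_mul, sub_zero] at h
  have e1 : u4 m t = m.phi.ev (rx t.1 t.2.1 m.s0) (ry t.1 t.2.2 m.s0) m.s0 := by
    unfold u4 Cf.val; simp only [lat_rpos, rpos_two]
  have e2 : u4 m t' = m.phi.ev (rx t'.1 t'.2.1 m.s0) (ry t'.1 t'.2.2 m.s0) m.s0 := by
    unfold u4 Cf.val; simp only [lat_rpos, rpos_two]
  rw [e1, e2, h]
  unfold dN
  ring

/-- real arithmetic of `cell_close`, directions. -/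
theorem arith_C {g a n w0 w1 R R1 sg d ny p q : ℝ} (hg : 49 / 50 ≤ g)
    (ha : 0 ≤ a) (ha2 : a ≤ 2 * sg) (hR : 0 < R) (hR1 : R ≤ R1) (hw0 : w0 = sg * R) (hw1 : w1 ≤ w0)
    (hsg : 0 < sg) (hd : |d| * (sg * R) ≤ kD) (hny : |ny| * sg ≤ 2 * kD) (hn0 : 0 ≤ n)
    (hn : n * R1 ≤ w0 ^ 2 / 16 + a * w0 * R1) (hp : p * R1 ≤ w0 / 16)
    (hq : q * R1 ≤ w1 / 16)
    (h : g * a ≤ p + (q + 2 * |d| * n + |ny| * a ^ 2 / 2) + 1 / 100 * a) :
    a * R1 ≤ 21 / 160 * w0 := by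
  have hR1' : 0 < R1 := hR.trans_le hR1
  have hw : 0 < w0 := by rw [hw0]; positivity
  have k1 : |d| * n * R1 ≤ kD * (w0 / 16 + a * R1) := by
    calc |d| * n * R1 = |d| * (n * R1) := by ring
      _ ≤ |d| * (w0 ^ 2 / 16 + a * w0 * R1) := mul_le_mul_of_nonneg_left hn (abs_nonneg _)
      _ = |d| * w0 * (w0 / 16 + a * R1) := by ring
      _ ≤ _ := mul_le_mul_of_nonneg_right (by rw [hw0]; exact hd) (by positivity)
  have k2 : |ny| * a ^ 2 / 2 ≤ 2 * kD * a := by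
    have : |ny| * a ≤ 4 * kD := by
      calc |ny| * a ≤ |ny| * (2 * sg) := mul_le_mul_of_nonneg_left ha2 (abs_nonneg _)
        _ = 2 * (|ny| * sg) := by ring
        _ ≤ _ := by linarith
    calc |ny| * a ^ 2 / 2 = |ny| * a * a / 2 := by ring
      _ ≤ 4 * kD * a / 2 := by
        have := mul_le_mul_of_nonneg_right this ha
        linarith
      _ = _ := by ring
  have h1 := mul_le_mul_of_nonneg_right h hR1'.le
  have h2 := mul_le_mul_of_nonneg_right k2 hR1'.le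
  have h3 : 49 / 50 * (a * R1) ≤ g * (a * R1) := mul_le_mul_of_nonneg_right hg (by positivity)
  unfold kD at k1 h2
  nlinarith

/-- real arithmetic of `cell_close`, positions. -/
theorem arith_x {g b n w0 w1 R R1 sg d ny p q : ℝ} (hg : 49 / 50 ≤ g)
    (hb : 0 ≤ b) (hb2 : b ≤ 2 * w0) (hR : 0 < R) (hR1 : R ≤ R1) (hw0 : w0 = sg * R)
    (hw1 : w1 ≤ w0)
    (hsg : 0 < sg) (hd : |d| * (sg * R) ≤ kD) (hny : |ny| * sg ≤ 2 * kD) (hn0 : 0 ≤ n)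
    (hn : n * R1 ≤ w0 ^ 2 / 4) (hp : p ≤ w0 / 16) (hq : q ≤ w1 / 16)
    (h : g * b ≤ p + (q + |ny| * n + |d| * b ^ 2) + 1 / 100 * b) :
    b ≤ w0 / 4 := by
  have hR1' : 0 < R1 := hR.trans_le hR1
  have hw : 0 < w0 := by rw [hw0]; positivity
  have k1 : |ny| * n ≤ kD / 2 * w0 := by
    have q1 : |ny| * w0 ≤ 2 * kD * R1 := by
      calc |ny| * w0 = |ny| * sg * R := by rw [hw0]; ring
        _ ≤ 2 * kD * R := mul_le_mul_of_nonneg_right hny hR.le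
        _ ≤ _ := mul_le_mul_of_nonneg_left hR1 (by unfold kD; norm_num)
    have q3 : (|ny| * n) * R1 ≤ (kD / 2 * w0) * R1 := by
      calc (|ny| * n) * R1 = |ny| * (n * R1) := by ring
        _ ≤ |ny| * (w0 ^ 2 / 4) := mul_le_mul_of_nonneg_left hn (abs_nonneg _)
        _ = (|ny| * w0) * (w0 / 4) := by ring
        _ ≤ (2 * kD * R1) * (w0 / 4) := mul_le_mul_of_nonneg_right q1 (by positivity)
        _ = _ := by ring
    exact le_of_mul_le_mul_right q3 hR1'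
  have k2 : |d| * b ^ 2 ≤ 2 * kD * b := by
    calc |d| * b ^ 2 = |d| * b * b := by ring
      _ ≤ |d| * (2 * w0) * b :=
        mul_le_mul_of_nonneg_right (mul_le_mul_of_nonneg_left hb2 (abs_nonneg _)) hb
      _ = 2 * (|d| * (sg * R)) * b := by rw [hw0]; ring
      _ ≤ _ := mul_le_mul_of_nonneg_right (by linarith) hb
  have h3 : 49 / 50 * b ≤ g * b := mul_le_mul_of_nonneg_right hg hb
  unfold kD at k1 k2
  linarith

/-- **rays with close coordinates are close.** -/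
theorem cell_close (h : Flat m) (hok : m.Ok kM0 0) {R1 : ℝ} (hR1 : m.R ≤ R1) {t t' : LRay}
    (ht : t ∈ m.rays 0) (ht' : t' ∈ m.rays 0)
    (d1 : |u1 m t - u1 m t'| * R1 ≤ m.sg * m.R / 16)
    (d2 : |u2 m t - u2 m t'| ≤ m.sg * m.R / 16)
    (d3 : |u3 m t - u3 m t'| * R1 ≤ m.s1 * m.R / 16)
    (d4 : |u4 m t - u4 m t'| ≤ m.s1 * m.R / 16)
    (d5 : |u5 m t - u5 m t'| * R1 ≤ (m.sg * m.R) ^ 2 / 16) :
    ‖t.1 - t'.1‖ * R1 ≤ m.sg * m.R / 4 ∧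
    ‖rx t.1 t.2.1 m.s0 - rx t'.1 t'.2.1 m.s0‖ ≤ m.sg * m.R / 4 ∧
    |dN t t' m.s0| * R1 ≤ (m.sg * m.R) ^ 2 / 4 := by
  have hR := h.hR
  have hsg := h.sg_pos
  have hR1' : 0 < R1 := hR.trans_le hR1
  obtain ⟨g1, g2⟩ := Gc_near h hok
  obtain ⟨a1, a2, a3⟩ := ray_bd hR ht
  obtain ⟨b1, b2, b3⟩ := ray_bd hR ht'
  have hw1 : m.s1 * m.R ≤ m.sg * m.R := mul_le_mul_of_nonneg_right h.hsg hR.le
  have hn : |dN t t' m.s0| * R1 ≤ (m.sg * m.R) ^ 2 / 16 + ‖t.1 - t'.1‖ * (m.sg * m.R) * R1 := by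
    have e : dN t t' m.s0 = (u5 m t - u5 m t') -
        inner ℝ (t.1 - t'.1) (rx t.1 t.2.1 m.s0 - lat m.X0) := by rw [u5_sub]; ring
    have h1 : |dN t t' m.s0| ≤ |u5 m t - u5 m t'| + ‖t.1 - t'.1‖ * (m.sg * m.R) := by
      rw [e]
      refine (abs_sub _ _).trans (add_le_add le_rfl ?_)
      exact (abs_real_inner_le_norm _ _).trans (mul_le_mul_of_nonneg_left a2 (norm_nonneg _))
    have := mul_le_mul_of_nonneg_right h1 hR1'.le
    linarith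
  have hC2 : ‖t.1 - t'.1‖ ≤ 2 * m.sg := by
    have e : t.1 - t'.1 = (t.1 - m.c) - (t'.1 - m.c) := by abel
    rw [e]
    exact (norm_sub_le _ _).trans (by linarith)
  have hx2 : ‖rx t.1 t.2.1 m.s0 - rx t'.1 t'.2.1 m.s0‖ ≤ 2 * (m.sg * m.R) := by
    have e : rx t.1 t.2.1 m.s0 - rx t'.1 t'.2.1 m.s0 =
      (rx t.1 t.2.1 m.s0 - lat m.X0) - (rx t'.1 t'.2.1 m.s0 - lat m.X0) := by abel
    rw [e]
    exact (norm_sub_le _ _).trans (by linarith)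
  have hCb : ‖t.1 - t'.1‖ * R1 ≤ 21 / 160 * (m.sg * m.R) := by
    have k1 := perp_le (Gc m) (t.1 - t'.1)
    have k2 : inner ℝ (perp (Gc m)) (t.1 - t'.1) = u1 m t - u1 m t' := by
      unfold u1; rw [inner_sub_right]
    have k3 : |inner ℝ (Gc m) (t.1 - t'.1)| ≤
        (|u3 m t - u3 m t'| + 2 * |m.phi.d| * |dN t t' m.s0| +
          |m.phi.ny m.s0| * ‖t.1 - t'.1‖ ^ 2 / 2) + 1 / 100 * ‖t.1 - t'.1‖ := by
      have e : inner ℝ (Gc m) (t.1 - t'.1) =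
          inner ℝ (m.phi.gr t'.1 (rx t.1 t.2.1 m.s0) m.s0) (t.1 - t'.1) -
          inner ℝ (m.phi.gr t'.1 (rx t.1 t.2.1 m.s0) m.s0 - Gc m) (t.1 - t'.1) := by
        rw [inner_sub_left]; ring
      rw [e]
      refine (abs_sub _ _).trans (add_le_add ?_ ?_)
      · rw [u3_sub]
        refine (abs_add_le _ _).trans (add_le_add ?_ (le_of_eq ?_))
        · refine (abs_sub _ _).trans (add_le_add (le_of_eq (abs_neg _)) (le_of_eq ?_))
          rw [abs_mul, abs_mul, abs_of_pos (two_pos : (0:ℝ) < 2)]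
        · rw [abs_div, abs_mul, abs_of_nonneg (sq_nonneg ‖t.1 - t'.1‖),
            abs_of_pos (two_pos : (0:ℝ) < 2)]
      · refine (abs_real_inner_le_norm _ _).trans ?_
        exact mul_le_mul_of_nonneg_right (gr_rot h b1 a2) (norm_nonneg _)
    rw [k2] at k1
    exact arith_C (w1 := m.s1 * m.R) g1 (norm_nonneg _) hC2 hR hR1 rfl hw1 hsg h.dd h.nn
      (abs_nonneg _) hn d1 d3 (by linarith)
  have hw0 : 0 < m.sg * m.R := mul_pos hsg hR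
  have hnb : |dN t t' m.s0| * R1 ≤ (m.sg * m.R) ^ 2 / 4 := by
    have h1 : ‖t.1 - t'.1‖ * (m.sg * m.R) * R1 ≤ 21 / 160 * (m.sg * m.R) ^ 2 := by
      calc ‖t.1 - t'.1‖ * (m.sg * m.R) * R1 = ‖t.1 - t'.1‖ * R1 * (m.sg * m.R) := by ring
        _ ≤ 21 / 160 * (m.sg * m.R) * (m.sg * m.R) := mul_le_mul_of_nonneg_right hCb hw0.le
        _ = _ := by ring
    have := sq_nonneg (m.sg * m.R)
    linarith
  refine ⟨by linarith, ?_, hnb⟩
  have k1 := perp_le (Gc m) (rx t.1 t.2.1 m.s0 - rx t'.1 t'.2.1 m.s0)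
  have k2 : inner ℝ (perp (Gc m)) (rx t.1 t.2.1 m.s0 - rx t'.1 t'.2.1 m.s0) =
      u2 m t - u2 m t' := by
    unfold u2; rw [inner_sub_right]
  have k3 : |inner ℝ (Gc m) (rx t.1 t.2.1 m.s0 - rx t'.1 t'.2.1 m.s0)| ≤
      (|u4 m t - u4 m t'| + |m.phi.ny m.s0| * |dN t t' m.s0| +
        |m.phi.d| * ‖rx t.1 t.2.1 m.s0 - rx t'.1 t'.2.1 m.s0‖ ^ 2) +
        1 / 100 * ‖rx t.1 t.2.1 m.s0 - rx t'.1 t'.2.1 m.s0‖ := by
    have e : inner ℝ (Gc m) (rx t.1 t.2.1 m.s0 - rx t'.1 t'.2.1 m.s0) =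
        ((u4 m t - u4 m t') - m.phi.ny m.s0 * dN t t' m.s0 -
          m.phi.d * ‖rx t.1 t.2.1 m.s0 - rx t'.1 t'.2.1 m.s0‖ ^ 2) -
        inner ℝ (m.phi.gr t'.1 (rx t'.1 t'.2.1 m.s0) m.s0 - Gc m)
          (rx t.1 t.2.1 m.s0 - rx t'.1 t'.2.1 m.s0) := by
      rw [inner_sub_left, u4_sub]; ring
    rw [e]
    refine (abs_sub _ _).trans (add_le_add ?_ ?_)
    · refine (abs_sub _ _).trans (add_le_add ?_ (le_of_eq ?_))
      · refine (abs_sub _ _).trans (add_le_add le_rfl (le_of_eq ?_))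
        rw [abs_mul]
      · rw [abs_mul, abs_of_nonneg (sq_nonneg ‖rx t.1 t.2.1 m.s0 - rx t'.1 t'.2.1 m.s0‖)]
    · refine (abs_real_inner_le_norm _ _).trans ?_
      exact mul_le_mul_of_nonneg_right (gr_rot h b1 b2) (norm_nonneg _)
  rw [k2] at k1
  exact arith_x (w1 := m.s1 * m.R) g1 (norm_nonneg _) hx2 hR hR1 rfl hw1 hsg h.dd h.nn
    (abs_nonneg _) hnb d2 d4 (by linarith)

end coord

end Crest.Agent.R116.Ext803
end

-- ▼ part R116/Ext3_803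

/-!
# R116 (K side), block K1, part 3: the trivial bound (helper803)

`cover_one` : a finite set `S` of rays of a mark of level `i` has a part `S'` with
`#S ≤ KC 8^(i - i1) #S'` inside ONE admissible member of level `i1 ≤ i` of the same absolute widths.
`trivB` : `Xc794.TrivB KI439.TSS`.
-/

set_option autoImplicit false

namespace Crest.Agent.R116.Ext803

open Crest.Agent.R138.Defs (E2)
open Crest.Agent.R116.CDef480 (E3 lat pt vel)
open Crest.Agent.R116.LZg725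
open Crest.Agent.R116.KI439 (LRay kM0 kD AdmL TSL TSS volL)
open Crest.Agent.R138.Mk163 (zc alive)

/-- the constant of the cover. -/
noncomputable def KC : ℝ := 35 ^ 4 * 66

/-- five pigeonholes. -/
theorem cells {m : Mem} (h : Flat m) (hok : m.Ok kM0 0) {Q : ℝ} (hQ : 1 ≤ Q) {ι : Type*}
    (S : Finset ι) (L : ι → LRay) (hS : ∀ t ∈ S, L t ∈ m.rays 0) :
    ∃ S' ⊆ S, (S.card : ℝ) ≤ KC * Q ^ 3 * S'.card ∧ ∀ t ∈ S', ∀ t' ∈ S',
      |u1 m (L t) - u1 m (L t')| ≤ m.sg / (16 * Q) ∧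
      |u2 m (L t) - u2 m (L t')| ≤ m.sg * m.R / 16 ∧
      |u3 m (L t) - u3 m (L t')| ≤ m.s1 / (16 * Q) ∧
      |u4 m (L t) - u4 m (L t')| ≤ m.s1 * m.R / 16 ∧
      |u5 m (L t) - u5 m (L t')| ≤ m.sg ^ 2 * m.R / (16 * Q) := by
  have hR := h.hR
  have hsg := h.sg_pos
  have hs1 := h.hs1
  have hQ0 : 0 < Q := by linarith
  obtain ⟨g1, g2⟩ := Gc_near h hok
  have hw0 : 0 < m.sg * m.R := mul_pos hsg hR
  have hw1 : 0 < m.s1 * m.R := mul_pos hs1 hR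
  obtain ⟨S1, s1, c1, p1⟩ := pigeon S (fun t => u1 m (L t)) (inner ℝ (perp (Gc m)) m.c)
    (51 / 50 * m.sg) (m.sg / (16 * Q)) (by positivity) (by positivity) (by
      intro t ht
      have := (ray_bd hR (hS t ht)).1
      change |inner ℝ (perp (Gc m)) (L t).1 - _| ≤ _
      rw [← inner_sub_right]
      refine (abs_real_inner_le_norm _ _).trans ?_
      rw [norm_perp]
      exact mul_le_mul g2 this (norm_nonneg _) (by norm_num))
  obtain ⟨S2, s2, c2, p2⟩ := pigeon S1 (fun t => u2 m (L t)) (inner ℝ (perp (Gc m)) (lat m.X0))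
    (51 / 50 * (m.sg * m.R)) (m.sg * m.R / 16) (by positivity) (by positivity) (by
      intro t ht
      have := (ray_bd hR (hS t (s1 ht))).2.1
      change |inner ℝ (perp (Gc m)) (rx (L t).1 (L t).2.1 m.s0) - _| ≤ _
      rw [← inner_sub_right]
      refine (abs_real_inner_le_norm _ _).trans ?_
      rw [norm_perp]
      exact mul_le_mul g2 this (norm_nonneg _) (by norm_num))
  obtain ⟨S3, s3, c3, p3⟩ := pigeon S2 (fun t => u3 m (L t)) 0 m.s1 (m.s1 / (16 * Q))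
    (by positivity) hs1.le (by
      intro t ht
      rw [sub_zero]
      exact le_of_mul_le_mul_right (rB_le hR (val_of_mem (hS t (s1 (s2 ht))))) hR)
  obtain ⟨S4, s4, c4, p4⟩ := pigeon S3 (fun t => u4 m (L t)) 0 (m.s1 * m.R) (m.s1 * m.R / 16)
    (by positivity) hw1.le (by
      intro t ht
      rw [sub_zero]
      exact val_of_mem (hS t (s1 (s2 (s3 ht)))) m.s0 (by rw [sub_self, abs_zero]; exact hR.le))
  obtain ⟨S5, s5, c5, p5⟩ := pigeon S4 (fun t => u5 m (L t)) (nrm m.c (lat m.X0) (m.X0 2) m.s0)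
    (2 * (m.sg ^ 2 * m.R)) (m.sg ^ 2 * m.R / (16 * Q)) (by positivity) (by positivity) (by
      intro t ht
      obtain ⟨b1, b2, b3⟩ := ray_bd hR (hS t (s1 (s2 (s3 (s4 ht)))))
      unfold u5
      have e : ∀ A B C : ℝ, A + B - C = (A - C) + B := fun A B C => by ring
      rw [e]
      refine (abs_add_le _ _).trans ?_
      have h2 : |inner ℝ ((L t).1 - m.c) (rx (L t).1 (L t).2.1 m.s0 - lat m.X0)| ≤
          m.sg * (m.sg * m.R) :=
        (abs_real_inner_le_norm _ _).trans (mul_le_mul b1 b2 (norm_nonneg _) hsg.le)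
      nlinarith)
  refine ⟨S5, s5.trans (s4.trans (s3.trans (s2.trans s1))), ?_, fun t ht t' ht' => ?_⟩
  · have f1 : 2 * (51 / 50 * m.sg) / (m.sg / (16 * Q)) + 2 ≤ 35 * Q := by
      have e : 2 * (51 / 50 * m.sg) / (m.sg / (16 * Q)) = 816 / 25 * Q := by field_simp; ring
      rw [e]; linarith
    have f2 : 2 * (51 / 50 * (m.sg * m.R)) / (m.sg * m.R / 16) + 2 ≤ 35 := by
      have e : 2 * (51 / 50 * (m.sg * m.R)) / (m.sg * m.R / 16) = 816 / 25 := by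
        field_simp; ring
      rw [e]; norm_num
    have f3 : 2 * m.s1 / (m.s1 / (16 * Q)) + 2 ≤ 35 * Q := by
      have e : 2 * m.s1 / (m.s1 / (16 * Q)) = 32 * Q := by field_simp; ring
      rw [e]; linarith
    have f4 : 2 * (m.s1 * m.R) / (m.s1 * m.R / 16) + 2 ≤ 35 := by
      have e : 2 * (m.s1 * m.R) / (m.s1 * m.R / 16) = 32 := by field_simp; ring
      rw [e]; norm_num
    have f5 : 2 * (2 * (m.sg ^ 2 * m.R)) / (m.sg ^ 2 * m.R / (16 * Q)) + 2 ≤ 66 * Q := by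
      have e : 2 * (2 * (m.sg ^ 2 * m.R)) / (m.sg ^ 2 * m.R / (16 * Q)) = 64 * Q := by
        field_simp; ring
      rw [e]; linarith
    have n1 : (0:ℝ) ≤ S1.card := Nat.cast_nonneg _
    have n2 : (0:ℝ) ≤ S2.card := Nat.cast_nonneg _
    have n3 : (0:ℝ) ≤ S3.card := Nat.cast_nonneg _
    have n4 : (0:ℝ) ≤ S4.card := Nat.cast_nonneg _
    have n5 : (0:ℝ) ≤ S5.card := Nat.cast_nonneg _
    have l5 : (S4.card : ℝ) ≤ 66 * Q * S5.card := c5.trans (mul_le_mul_of_nonneg_right f5 n5)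
    have l4 : (S3.card : ℝ) ≤ 35 * S4.card := c4.trans (mul_le_mul_of_nonneg_right f4 n4)
    have l3 : (S2.card : ℝ) ≤ 35 * Q * S3.card := c3.trans (mul_le_mul_of_nonneg_right f3 n3)
    have l2 : (S1.card : ℝ) ≤ 35 * S2.card := c2.trans (mul_le_mul_of_nonneg_right f2 n2)
    have l1 : (S.card : ℝ) ≤ 35 * Q * S1.card := c1.trans (mul_le_mul_of_nonneg_right f1 n1)
    unfold KC
    calc (S.card : ℝ) ≤ 35 * Q * S1.card := l1
      _ ≤ 35 * Q * (35 * S2.card) := by gcongr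
      _ ≤ 35 * Q * (35 * (35 * Q * S3.card)) := by gcongr
      _ ≤ 35 * Q * (35 * (35 * Q * (35 * S4.card))) := by gcongr
      _ ≤ 35 * Q * (35 * (35 * Q * (35 * (66 * Q * S5.card)))) := by gcongr
      _ = _ := by ring
  · exact ⟨p1 t (s2 (s3 (s4 (s5 ht)))) t' (s2 (s3 (s4 (s5 ht')))),
      p2 t (s3 (s4 (s5 ht))) t' (s3 (s4 (s5 ht'))), p3 t (s4 (s5 ht)) t' (s4 (s5 ht')),
      p4 t (s5 ht) t' (s5 ht'), p5 t ht t' ht'⟩

/-- **cover of the rays of a mark by admissible members of a longer cell**, same absolute widths. -/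
theorem cover_one {r : ℝ} {i : ℕ} {J : ℤ} {a : Fin 2 → ℕ} {m : Mem} (h : AdmL r i J a m) {i1 : ℕ}
    {J1 : ℤ} (hi : i1 ≤ i) (hJ : Anc i J i1 J1) {ι : Type*} (S : Finset ι) (hne : S.Nonempty)
    (L : ι → LRay) (hS : ∀ t ∈ S, L t ∈ m.rays 0) :
    ∃ m1 : Mem, AdmL r i1 J1 a m1 ∧ ∃ S' ⊆ S, (∀ t ∈ S', L t ∈ m1.rays 0) ∧
      (S.card : ℝ) ≤ KC * 8 ^ (i - i1) * S'.card := by
  have hf := flat_of_adm h
  have hR := hf.hR
  have hsg := hf.sg_pos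
  have hs1 := hf.hs1
  have hQ : (1:ℝ) ≤ 2 ^ (i - i1) := one_le_pow₀ (by norm_num)
  have hR1 : m.R * 2 ^ (i - i1) = (1 / 2 : ℝ) ^ i1 := by
    rw [h.hR]
    obtain ⟨k, rfl⟩ := Nat.exists_eq_add_of_le hi
    rw [Nat.add_sub_cancel_left, pow_add, mul_assoc, ← mul_pow]
    norm_num
  have hQ0 : (0:ℝ) < 2 ^ (i - i1) := by positivity
  obtain ⟨S5, s5, c5, p5⟩ := cells hf h.ok hQ S L hS
  have hne5 : S5.Nonempty := by
    rw [Finset.nonempty_iff_ne_empty]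
    rintro rfl
    rw [Finset.card_empty, Nat.cast_zero, mul_zero] at c5
    have : (0:ℝ) < S.card := by exact_mod_cast hne.card_pos
    linarith
  obtain ⟨t0, ht0⟩ := hne5
  have ht0m := hS t0 (s5 ht0)
  have hab : a 0 ≤ a 1 := by
    by_contra hc
    push Not at hc
    have h1 : m.s1 * m.R ≤ m.sg * m.R := mul_le_mul_of_nonneg_right hf.hsg hR.le
    rw [h.wide, h.thin] at h1
    have h2 : (1 / 2 : ℝ) ^ (a 0) < (1 / 2 : ℝ) ^ (a 1) :=
      pow_lt_pow_right_of_lt_one₀ (by norm_num) (by norm_num) hc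
    linarith
  refine ⟨_, ext_adm h ht0m hi hJ le_rfl le_rfl hab, S5, s5, fun t ht => ?_, ?_⟩
  · obtain ⟨d1, d2, d3, d4, d5⟩ := p5 t ht t0 ht0
    have hR1' : (0:ℝ) < (1 / 2 : ℝ) ^ i1 := by positivity
    have hRle : m.R ≤ (1 / 2 : ℝ) ^ i1 := by rw [← hR1]; nlinarith
    have hs : |((J1 : ℝ) + 1 / 2) * (1 / 2 : ℝ) ^ i1 - m.s0| ≤ ((1 / 2 : ℝ) ^ i1 - m.R) / 2 := by
      rw [h.hs0, h.hR]; exact hJ
    have d1' : |u1 m (L t) - u1 m (L t0)| * (1 / 2 : ℝ) ^ i1 ≤ m.sg * m.R / 16 := by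
      have := mul_le_mul_of_nonneg_right d1 hR1'.le
      refine this.trans (le_of_eq ?_)
      rw [← hR1]; field_simp
    have d3' : |u3 m (L t) - u3 m (L t0)| * (1 / 2 : ℝ) ^ i1 ≤ m.s1 * m.R / 16 := by
      have := mul_le_mul_of_nonneg_right d3 hR1'.le
      refine this.trans (le_of_eq ?_)
      rw [← hR1]; field_simp
    have d5' : |u5 m (L t) - u5 m (L t0)| * (1 / 2 : ℝ) ^ i1 ≤ (m.sg * m.R) ^ 2 / 16 := by
      have := mul_le_mul_of_nonneg_right d5 hR1'.le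
      refine this.trans (le_of_eq ?_)
      rw [← hR1]; field_simp
    obtain ⟨k1, k2, k3⟩ := cell_close hf h.ok hRle (hS t (s5 ht)) ht0m d1' d2 d3' d4 d5'
    have hw1 : 0 < m.s1 * m.R := mul_pos hs1 hR
    rw [← h.wide, ← h.thin]
    refine mem_ext hf (val_of_mem ht0m) hRle hs (mul_le_mul_of_nonneg_right hf.hsg hR.le) le_rfl
      le_rfl k1 k2 k3 ?_ ?_
    · change |u4 m (L t) - u4 m (L t0)| ≤ _
      linarith
    · change |u3 m (L t) - u3 m (L t0)| * _ ≤ _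
      linarith
  · have e : ((2:ℝ) ^ (i - i1)) ^ 3 = 8 ^ (i - i1) := by
      rw [← pow_mul, mul_comm, pow_mul]; norm_num
    rw [← e]
    exact c5


/-- the property of a class of test sets used by `trivB_one`. -/
structure ExtCl (T : Xa794.TS LRay (Fin 2) Mem) (r : ℝ) : Prop where
  mem : ∀ i J s l, T.mem i J s l ↔ l ∈ s.2.rays 0
  adm : ∀ i J s, T.adm i J s → AdmL r i J s.1 s.2
  ext : ∀ i J s i1 J1 m1, T.adm i J s → i1 ≤ i → AdmL r i1 J1 s.1 m1 → T.adm i1 J1 (s.1, m1)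
  vol : T.vol = volL




end Crest.Agent.R116.Ext803
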