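import Mathlib

/-!
# R116 (K side), block X1-C with the concave homogeneous reward: choice of the reward (helper79)

`choice` : `bet` = extremal gap as a function of the parameter `q ∈ [0, 8]` of the reward;
`bet + q` is nondecreasing, `bet 0 ≥ b1`, `bet q ≤ 2 - c q`.  The supremum of `bet q + κ q` on
`[q1, 8]` need not be attained, so the output is a sequence `qs n`.
`up_step` : two maxima of `c + P` and `c + P + δ y` over the same family.
CONSUMER: 708 (Xs1), 794 / 163 (XOut).  PRODUCER: none (pure real analysis).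
-/

set_option autoImplicit false
set_option linter.unusedVariables false

namespace Crest.Agent.R116.Xu79



/-! ### bounds from the concave function

`psi l x = Σ_j c_j [al x_j - ga (√(l² + x_j²) - l)]` with `al = (1 - mu)/2`, `ga = (1 + mu)/2`. -/

/-- one bracket. -/
noncomputable def brk (mu l x : ℝ) : ℝ :=
  (1 - mu) / 2 * x - (1 + mu) / 2 * (Real.sqrt (l ^ 2 + x ^ 2) - l)

/-- a bracket is at most `l / 2`. -/
theorem brk_le {mu l x : ℝ} (hmu : 0 ≤ mu) (hmu1 : mu ≤ 1) (hl : 0 ≤ l) : brk mu l x ≤ l / 2 := by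
  unfold brk
  -- `√(l² + x²) ≥ ((1-mu)/(1+mu)) x + (2 √mu/(1+mu)) l ≥ ((1-mu) x)/(1+mu)`
  have h1 : (1 - mu) / (1 + mu) * x ≤ Real.sqrt (l ^ 2 + x ^ 2) := by
    have h2 : |x| ≤ Real.sqrt (l ^ 2 + x ^ 2) := by
      rw [← Real.sqrt_sq_eq_abs]
      exact Real.sqrt_le_sqrt (by nlinarith [sq_nonneg l])
    have h3 : (1 - mu) / (1 + mu) ≤ 1 := by rw [div_le_one (by linarith)]; linarith
    have h4 : 0 ≤ (1 - mu) / (1 + mu) := div_nonneg (by linarith) (by linarith)
    calc (1 - mu) / (1 + mu) * x ≤ (1 - mu) / (1 + mu) * |x| :=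
          mul_le_mul_of_nonneg_left (le_abs_self x) h4
      _ ≤ 1 * |x| := mul_le_mul_of_nonneg_right h3 (abs_nonneg x)
      _ ≤ _ := by rw [one_mul]; exact h2
  -- better: use `√(l² + x²) ≥ cos x + sin l`
  have h5 : ((1 - mu) * x + 2 * Real.sqrt mu * l) ≤ (1 + mu) * Real.sqrt (l ^ 2 + x ^ 2) := by
    have hs : Real.sqrt mu ^ 2 = mu := Real.sq_sqrt hmu
    have hcs : ((1 - mu) * x + 2 * Real.sqrt mu * l) ^ 2 ≤ (1 + mu) ^ 2 * (l ^ 2 + x ^ 2) := by
      nlinarith [sq_nonneg ((1 - mu) * l - 2 * Real.sqrt mu * x)]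
    calc (1 - mu) * x + 2 * Real.sqrt mu * l ≤
          Real.sqrt ((1 + mu) ^ 2 * (l ^ 2 + x ^ 2)) := Real.le_sqrt_of_sq_le hcs
      _ = (1 + mu) * Real.sqrt (l ^ 2 + x ^ 2) := by
          rw [Real.sqrt_mul (sq_nonneg _), Real.sqrt_sq (by linarith)]
  have h6 : mu ≤ Real.sqrt mu := by
    have h7 : Real.sqrt mu ^ 2 = mu := Real.sq_sqrt hmu
    have h8 : Real.sqrt mu ≤ 1 := by
      rw [show (1 : ℝ) = Real.sqrt 1 by simp]; exact Real.sqrt_le_sqrt hmu1
    nlinarith [Real.sqrt_nonneg mu]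
  nlinarith [mul_nonneg (sub_nonneg.2 h6) hl, mul_nonneg (Real.sqrt_nonneg mu) hl]

/-- a bracket is at most `x / 2` for `x ≥ 0`, and negative for `x ≤ 0`. -/
theorem brk_le_x {mu l x : ℝ} (hmu : 0 ≤ mu) (hmu1 : mu ≤ 1) (hl : 0 ≤ l) :
    brk mu l x ≤ (1 - mu) / 2 * x := by
  unfold brk
  have h1 : l ≤ Real.sqrt (l ^ 2 + x ^ 2) := by
    have : Real.sqrt (l ^ 2) ≤ Real.sqrt (l ^ 2 + x ^ 2) :=
      Real.sqrt_le_sqrt (by nlinarith [sq_nonneg x])
    rwa [Real.sqrt_sq hl] at this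
  nlinarith

/-- upper bound for large positive `x`. -/
theorem brk_le_neg {mu l x : ℝ} (hmu : 0 ≤ mu) (hl : 0 ≤ l) :
    brk mu l x ≤ (1 + mu) / 2 * l - mu * x := by
  unfold brk
  have h1 : x ≤ Real.sqrt (l ^ 2 + x ^ 2) := by
    have h2 : |x| ≤ Real.sqrt (l ^ 2 + x ^ 2) := by
      rw [← Real.sqrt_sq_eq_abs]
      exact Real.sqrt_le_sqrt (by nlinarith [sq_nonneg l])
    exact (le_abs_self x).trans h2
  nlinarith

/-- upper bound for negative `x`. -/
theorem brk_le_neg' {mu l x : ℝ} (hmu : 0 ≤ mu) (hl : 0 ≤ l) :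
    brk mu l x ≤ (1 + mu) / 2 * l + x := by
  unfold brk
  have h1 : -x ≤ Real.sqrt (l ^ 2 + x ^ 2) := by
    have h2 : |x| ≤ Real.sqrt (l ^ 2 + x ^ 2) := by
      rw [← Real.sqrt_sq_eq_abs]
      exact Real.sqrt_le_sqrt (by nlinarith [sq_nonneg l])
    exact (neg_le_abs x).trans h2
  nlinarith

/-- **bounds of the near-maximiser**: `brk a + lam * brk b ≥ k h`. -/
theorem bounds {mu lam h k xa xb : ℝ} (hmu : 0 < mu) (hmu1 : mu ≤ 1) (hh : 0 ≤ h) (hlam : 0 < lam)
    (hlam1 : lam ≤ 1) (hk : 0 < k) (hlk : lam ≤ k)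
    (hp : k * h ≤ brk mu h xa + lam * brk mu h xb) :
    k * h ≤ xa ∧ xa ≤ 2 * h / mu ∧ -(2 * h / lam) ≤ xb ∧ xb ≤ 2 * h / (lam * mu) := by
  have b1 := brk_le (mu := mu) (l := h) (x := xa) hmu.le hmu1 hh
  have b2 := brk_le (mu := mu) (l := h) (x := xb) hmu.le hmu1 hh
  have b3 : lam * brk mu h xb ≤ lam * (h / 2) := mul_le_mul_of_nonneg_left b2 hlam.le
  have hkh : 0 ≤ k * h := mul_nonneg hk.le hh
  have b4 : lam * (h / 2) ≤ k * h / 2 := by nlinarith
  have a1 : k * h / 2 ≤ brk mu h xa := by linarith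
  have c1 := brk_le_x (mu := mu) (l := h) (x := xa) hmu.le hmu1 hh
  have c2 := brk_le_neg (mu := mu) (l := h) (x := xa) hmu.le hh
  have xa0 : 0 ≤ xa := by
    by_contra hcon
    push Not at hcon
    have c3 := brk_le_neg' (mu := mu) (l := h) (x := xa) hmu.le hh
    have c4 : (1 - mu) / 2 * xa ≤ 0 := mul_nonpos_of_nonneg_of_nonpos (by linarith) hcon.le
    have c5 : k * h / 2 ≤ 0 := by linarith
    have c6 : h = 0 := by
      by_contra h7
      have : 0 < h := lt_of_le_of_ne hh (Ne.symm h7)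
      have : 0 < k * h := mul_pos hk this
      linarith
    subst c6
    linarith
  refine ⟨?_, ?_, ?_, ?_⟩
  · nlinarith
  · rw [le_div_iff₀ hmu]
    nlinarith
  · have d1 := brk_le_neg' (mu := mu) (l := h) (x := xb) hmu.le hh
    have d2 : -(h / 2) ≤ lam * brk mu h xb := by linarith
    have d3 : lam * brk mu h xb ≤ lam * ((1 + mu) / 2 * h + xb) :=
      mul_le_mul_of_nonneg_left d1 hlam.le
    rw [neg_le_iff_add_nonneg, ← sub_neg_eq_add, sub_nonneg, neg_le_iff_add_nonneg]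
    have d4 : 0 ≤ lam * ((1 + mu) / 2 * h + xb) + h / 2 := by linarith
    have d5 : lam * ((1 + mu) / 2 * h) ≤ h := by
      have : (1 + mu) / 2 * h ≤ 1 * h := mul_le_mul_of_nonneg_right (by linarith) hh
      nlinarith
    have d6 : 0 ≤ lam * (xb + 2 * h / lam) := by
      have : lam * (xb + 2 * h / lam) = lam * xb + 2 * h := by field_simp
      rw [this]
      nlinarith
    exact nonneg_of_mul_nonneg_right d6 hlam
  · have d1 := brk_le_neg (mu := mu) (l := h) (x := xb) hmu.le hh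
    have d2 : -(h / 2) ≤ lam * brk mu h xb := by linarith
    have d3 : lam * brk mu h xb ≤ lam * ((1 + mu) / 2 * h - mu * xb) :=
      mul_le_mul_of_nonneg_left d1 hlam.le
    rw [le_div_iff₀ (mul_pos hlam hmu)]
    have d5 : lam * ((1 + mu) / 2 * h) ≤ h := by
      have : (1 + mu) / 2 * h ≤ 1 * h := mul_le_mul_of_nonneg_right (by linarith) hh
      nlinarith
    nlinarith

end Crest.Agent.R116.Xu79
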