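import Mathlib
import Crest.Agent.R116.XcDef_794
import Crest.Agent.R116.Xu1_79
import Crest.Agent.R136.MkA_627
import Crest.Agent.R116.ZlDef_139

-- ▼ part R116/Psi_635
section

/-!
# R116 (K side), block X1-C: the concave homogeneous reward (helper635)

* `psi w μ l x = ∑ w_j brk μ l x_j`, `Psi p w μ q l x = ∑ p_j x_j + q psi w μ l x`.
* `rwd : Rwd (Psi p w μ) (psi w μ) q0` (literal of `XcDef_794`), for `0 < w_j`, `∑ w_j ≤ 2`,
  `0 < μ ≤ 1`.
-/

set_option autoImplicit false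

open Finset

namespace Crest.Agent.R116.Psi635

open Crest.Agent.R116.Xu79 (brk brk_le brk_le_x brk_le_neg brk_le_neg')
open Crest.Agent.R116.Xc794 (Rwd)

/-! ### one bracket -/

/-- length of a vector of the plane -/
noncomputable def nr (l x : ℝ) : ℝ := √(l ^ 2 + x ^ 2)

theorem nr_nonneg (l x : ℝ) : 0 ≤ nr l x := Real.sqrt_nonneg _

theorem nr_sq (l x : ℝ) : nr l x ^ 2 = l ^ 2 + x ^ 2 := Real.sq_sqrt (by positivity)

theorem nr_le (l x : ℝ) : nr l x ≤ |l| + |x| := by
  refine Real.sqrt_le_iff.2 ⟨by positivity, ?_⟩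
  nlinarith [sq_abs l, sq_abs x, mul_nonneg (abs_nonneg l) (abs_nonneg x)]

theorem le_nr_l (l x : ℝ) : |l| ≤ nr l x :=
  abs_le_of_sq_le_sq (by rw [nr_sq]; nlinarith [sq_nonneg x]) (nr_nonneg l x)

theorem le_nr_x (l x : ℝ) : |x| ≤ nr l x :=
  abs_le_of_sq_le_sq (by rw [nr_sq]; nlinarith [sq_nonneg l]) (nr_nonneg l x)

theorem brk_eq (μ l x : ℝ) : brk μ l x = (1 - μ) / 2 * x - (1 + μ) / 2 * (nr l x - l) := rfl

theorem inner_le (l x l' x' : ℝ) : l * l' + x * x' ≤ nr l x * nr l' x' := by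
  have h : |l * l' + x * x'| ≤ nr l x * nr l' x' := by
    refine abs_le_of_sq_le_sq ?_ (mul_nonneg (nr_nonneg _ _) (nr_nonneg _ _))
    rw [mul_pow, nr_sq, nr_sq]
    nlinarith [sq_nonneg (l * x' - l' * x)]
  exact (le_abs_self _).trans h

theorem nr_add (l x l' x' : ℝ) : nr (l + l') (x + x') ≤ nr l x + nr l' x' := by
  refine Real.sqrt_le_iff.2 ⟨add_nonneg (nr_nonneg _ _) (nr_nonneg _ _), ?_⟩
  have h1 := inner_le l x l' x'
  have h2 := nr_sq l x
  have h3 := nr_sq l' x'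
  nlinarith

theorem nr_hom {c : ℝ} (hc : 0 ≤ c) (l x : ℝ) : nr (c * l) (c * x) = c * nr l x := by
  unfold nr
  rw [show (c * l) ^ 2 + (c * x) ^ 2 = c ^ 2 * (l ^ 2 + x ^ 2) by ring, Real.sqrt_mul (sq_nonneg _),
    Real.sqrt_sq hc]

/-- defect of the triangle inequality -/
theorem nr_defect (l x l' x' : ℝ) :
    (l * x' - l' * x) ^ 2 ≤
      2 * (nr l x * nr l' x') * (nr l x + nr l' x') *
        (nr l x + nr l' x' - nr (l + l') (x + x')) := by
  have h1 := inner_le l x l' x'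
  have h2 := nr_sq l x
  have h3 := nr_sq l' x'
  have h4 := nr_sq (l + l') (x + x')
  have h5 := nr_add l x l' x'
  have hA := nr_nonneg l x
  have hB := nr_nonneg l' x'
  have hS := nr_nonneg (l + l') (x + x')
  set A := nr l x
  set B := nr l' x'
  set S := nr (l + l') (x + x')
  have e1 : (l * x' - l' * x) ^ 2 = (A * B - (l * l' + x * x')) * (A * B + (l * l' + x * x')) := by
    have : (A * B) ^ 2 = (l ^ 2 + x ^ 2) * (l' ^ 2 + x' ^ 2) := by rw [mul_pow, h2, h3]
    linear_combination -this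
  have e2 : 2 * (A * B - (l * l' + x * x')) = (A + B - S) * (A + B + S) := by
    linear_combination h4 - h2 - h3
  have hAB : 0 ≤ A * B := mul_nonneg hA hB
  have e3 : (A * B - (l * l' + x * x')) * (A * B + (l * l' + x * x')) ≤
      (A * B - (l * l' + x * x')) * (2 * (A * B)) :=
    mul_le_mul_of_nonneg_left (by linarith) (by linarith)
  have e4 : (A * B - (l * l' + x * x')) * (2 * (A * B)) =
      (A * B) * ((A + B - S) * (A + B + S)) := by rw [← e2]; ring
  have e5 : (A + B - S) * (A + B + S) ≤ (A + B - S) * (2 * (A + B)) :=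
    mul_le_mul_of_nonneg_left (by linarith) (by linarith)
  calc (l * x' - l' * x) ^ 2 ≤ (A * B) * ((A + B - S) * (A + B + S)) := by rw [e1, ← e4]; exact e3
    _ ≤ (A * B) * ((A + B - S) * (2 * (A + B))) := mul_le_mul_of_nonneg_left e5 hAB
    _ = _ := by ring

/-- **equality modulus**, uniform in the lengths -/
theorem modulus {l0 R ε : ℝ} (hl0 : 0 < l0) (hε : 0 < ε) :
    ∃ δ : ℝ, 0 < δ ∧ ∀ l l' x x' : ℝ, l0 ≤ l → l ≤ 2 → l0 ≤ l' → l' ≤ 2 → |x| ≤ R →
      nr l x + nr l' x' ≤ nr (l + l') (x + x') + δ →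
        |(x + x') - (l + l') / l * x| ≤ ε := by
  set A0 : ℝ := 2 + |R| with hA0
  set K : ℝ := A0 + 2 + 2 * |R| / l0 with hK
  have hA0p : 0 < A0 := by positivity
  have hKp : 0 < K := by positivity
  set m : ℝ := min (l0 / 2) (l0 * ε / (2 * K)) with hm
  have hmp : 0 < m := lt_min (by positivity) (by positivity)
  refine ⟨m ^ 2 / (2 * A0), by positivity, fun l l' x x' hll hl2 hll' hl2' hx hd => ?_⟩
  have hl : 0 < l := by linarith
  have hl' : 0 < l' := by linarith
  have hR : |x| ≤ |R| := hx.trans (le_abs_self R)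
  set A := nr l x with hA
  set B := nr l' x' with hB
  set S := nr (l + l') (x + x') with hS
  have hAn : 0 ≤ A := nr_nonneg _ _
  have hBn : 0 ≤ B := nr_nonneg _ _
  set t : ℝ := |l * x' - l' * x| with ht
  have htn : 0 ≤ t := abs_nonneg _
  have hAle : A ≤ A0 := by
    have := nr_le l x
    rw [abs_of_pos hl] at this
    linarith
  have hx' : |x'| ≤ t / l + 2 * |R| / l0 := by
    have e : x' = (l * x' - l' * x) / l + l' * x / l := by field_simp; ring
    rw [e]
    refine (abs_add_le _ _).trans ?_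
    rw [abs_div, abs_div, abs_of_pos hl, abs_mul, abs_of_pos hl']
    have : l' * |x| / l ≤ 2 * |R| / l0 :=
      div_le_div₀ (by positivity) (mul_le_mul hl2' hR (abs_nonneg _) zero_le_two) hl0 hll
    linarith
  have hBle : B ≤ 2 + (t / l + 2 * |R| / l0) := by
    have := nr_le l' x'
    rw [abs_of_pos hl'] at this
    linarith
  have htl : 0 ≤ t / l := div_nonneg htn hl.le
  have hdef := nr_defect l x l' x'
  rw [← hA, ← hB, ← hS] at hdef
  have hE : A + B - S ≤ m ^ 2 / (2 * A0) := by linarith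
  have hsq : t ^ 2 ≤ (m * (K + t / l)) ^ 2 := by
    rw [ht, sq_abs]
    have h1 : A * B ≤ A0 * (K + t / l) := by
      refine mul_le_mul hAle ?_ hBn hA0p.le
      rw [hK]; linarith
    have h2 : A + B ≤ K + t / l := by rw [hK]; linarith
    have h3 : 0 ≤ K + t / l := by linarith
    have h4 : 0 ≤ A + B := by linarith
    have h5 : 2 * (A * B) * (A + B) * (A + B - S) ≤
        2 * (A * B) * (A + B) * (m ^ 2 / (2 * A0)) :=
      mul_le_mul_of_nonneg_left hE (by positivity)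
    have h6 : 2 * (A * B) * (A + B) ≤ 2 * (A0 * (K + t / l)) * (K + t / l) :=
      mul_le_mul (mul_le_mul_of_nonneg_left h1 zero_le_two) h2 h4 (by positivity)
    have h7 : 2 * (A * B) * (A + B) * (m ^ 2 / (2 * A0)) ≤
        2 * (A0 * (K + t / l)) * (K + t / l) * (m ^ 2 / (2 * A0)) :=
      mul_le_mul_of_nonneg_right h6 (by positivity)
    have h8 : 2 * (A0 * (K + t / l)) * (K + t / l) * (m ^ 2 / (2 * A0)) =
        (m * (K + t / l)) ^ 2 := by field_simp
    linarith
  have h9 : t ≤ m * (K + t / l) := by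
    have h3 : 0 ≤ m * (K + t / l) := mul_nonneg hmp.le (by linarith)
    exact (abs_le_of_sq_le_sq' hsq h3).2
  have h10 : m * (t / l) ≤ t / 2 := by
    have : m * (t / l) ≤ l / 2 * (t / l) :=
      mul_le_mul_of_nonneg_right ((min_le_left _ _).trans (by linarith)) htl
    refine this.trans (le_of_eq ?_)
    field_simp
  have h11 : m * K ≤ l * ε / 2 := by
    have : m * K ≤ l0 * ε / (2 * K) * K := mul_le_mul_of_nonneg_right (min_le_right _ _) hKp.le
    have e : l0 * ε / (2 * K) * K = l0 * ε / 2 := by field_simp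
    have h13 : l0 * ε ≤ l * ε := mul_le_mul_of_nonneg_right hll hε.le
    linarith
  have h12 : t ≤ l * ε := by nlinarith
  have e : (x + x') - (l + l') / l * x = (l * x' - l' * x) / l := by field_simp; ring
  rw [e, abs_div, abs_of_pos hl, div_le_iff₀ hl]
  linarith

theorem brk_super {μ : ℝ} (hμ : -1 ≤ μ) (l x l' x' : ℝ) :
    brk μ l x + brk μ l' x' ≤ brk μ (l + l') (x + x') := by
  rw [brk_eq, brk_eq, brk_eq]
  have := nr_add l x l' x'
  nlinarith

theorem brk_hom (μ : ℝ) {c : ℝ} (hc : 0 ≤ c) (l x : ℝ) :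
    brk μ (c * l) (c * x) = c * brk μ l x := by
  rw [brk_eq, brk_eq, nr_hom hc]
  ring

theorem brk_zero (μ : ℝ) : brk μ 0 0 = 0 := by
  unfold brk; simp


theorem brk_cont (μ : ℝ) : Continuous (fun z : ℝ × ℝ => brk μ z.1 z.2) := by
  unfold brk
  fun_prop

/-! ### the reward -/

section

variable {ι : Type} [Fintype ι]

noncomputable def psi (w : ι → ℝ) (μ l : ℝ) (x : ι → ℝ) : ℝ := ∑ j, w j * brk μ l (x j)

noncomputable def Psi (p w : ι → ℝ) (μ q l : ℝ) (x : ι → ℝ) : ℝ :=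
  (∑ j, p j * x j) + q * psi w μ l x

theorem psi_le {w : ι → ℝ} {μ : ℝ} (hw : ∀ j, 0 < w j) (hw2 : ∑ j, w j ≤ 2) (hμ : 0 ≤ μ)
    (hμ1 : μ ≤ 1) {l : ℝ} (hl : 0 ≤ l) (x : ι → ℝ) : psi w μ l x ≤ l := by
  unfold psi
  calc ∑ j, w j * brk μ l (x j) ≤ ∑ j, w j * (l / 2) :=
        Finset.sum_le_sum fun j _ => mul_le_mul_of_nonneg_left (brk_le hμ hμ1 hl) (hw j).le
    _ = (∑ j, w j) * (l / 2) := by rw [Finset.sum_mul]
    _ ≤ 2 * (l / 2) := mul_le_mul_of_nonneg_right hw2 (by linarith)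
    _ = l := by ring

theorem psi_super {w : ι → ℝ} {μ : ℝ} (hw : ∀ j, 0 < w j) (hμ : 0 ≤ μ) (l l' : ℝ)
    (x x' : ι → ℝ) : psi w μ l x + psi w μ l' x' ≤ psi w μ (l + l') (fun j => x j + x' j) := by
  unfold psi
  rw [← Finset.sum_add_distrib]
  refine Finset.sum_le_sum fun j _ => ?_
  rw [← mul_add]
  exact mul_le_mul_of_nonneg_left (brk_super (by linarith) _ _ _ _) (hw j).le

theorem psi_hom (w : ι → ℝ) (μ : ℝ) {c : ℝ} (hc : 0 ≤ c) (l : ℝ) (x : ι → ℝ) :
    psi w μ (c * l) (fun j => c * x j) = c * psi w μ l x := by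
  unfold psi
  rw [Finset.mul_sum]
  refine Finset.sum_congr rfl fun j _ => ?_
  rw [brk_hom μ hc]; ring

theorem psi_coe {w : ι → ℝ} {μ : ℝ} (hw : ∀ j, 0 < w j) (hw2 : ∑ j, w j ≤ 2) (hμ : 0 < μ)
    (hμ1 : μ ≤ 1) {c : ℝ} (hc : 0 < c) :
    ∃ R : ℝ, 0 < R ∧ ∀ l (x : ι → ℝ), 0 ≤ l → c * l ≤ psi w μ l x → ∀ j, |x j| ≤ R * l := by
  classical
  refine ⟨1 + ∑ j, (2 / (w j * μ) + 2 / μ), ?_, ?_⟩
  · have : 0 ≤ ∑ j, (2 / (w j * μ) + 2 / μ) := Finset.sum_nonneg fun j _ => by
      have := hw j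
      positivity
    linarith
  · intro l x hl hx j
    have hwj := hw j
    have h1 : c * l ≤ w j * brk μ l (x j) + ∑ i ∈ Finset.univ.erase j, w i * brk μ l (x i) := by
      unfold psi at hx
      rwa [← Finset.add_sum_erase _ _ (Finset.mem_univ j)] at hx
    have h2 : ∑ i ∈ Finset.univ.erase j, w i * brk μ l (x i) ≤ l := by
      calc ∑ i ∈ Finset.univ.erase j, w i * brk μ l (x i)
          ≤ ∑ i ∈ Finset.univ.erase j, w i * (l / 2) :=
            Finset.sum_le_sum fun i _ => mul_le_mul_of_nonneg_left (brk_le hμ.le hμ1 hl) (hw i).le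
        _ ≤ ∑ i, w i * (l / 2) :=
            Finset.sum_le_sum_of_subset_of_nonneg (Finset.erase_subset _ _)
              fun i _ _ => mul_nonneg (hw i).le (by linarith)
        _ = (∑ i, w i) * (l / 2) := by rw [Finset.sum_mul]
        _ ≤ 2 * (l / 2) := mul_le_mul_of_nonneg_right hw2 (by linarith)
        _ = l := by ring
    have hcl : 0 ≤ c * l := mul_nonneg hc.le hl
    have h3 : -l ≤ w j * brk μ l (x j) := by linarith
    have h4 : 2 / (w j * μ) + 2 / μ ≤ ∑ j, (2 / (w j * μ) + 2 / μ) :=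
      Finset.single_le_sum (f := fun j => 2 / (w j * μ) + 2 / μ) (fun i _ => by
        have := hw i
        positivity) (Finset.mem_univ j)
    have h5 : (2 / (w j * μ) + 2 / μ) * l ≤ (1 + ∑ j, (2 / (w j * μ) + 2 / μ)) * l :=
      mul_le_mul_of_nonneg_right (by linarith) hl
    refine le_trans ?_ h5
    have h6 : -(l / w j) ≤ brk μ l (x j) := by
      rw [← neg_div, div_le_iff₀ hwj]; linarith
    have hq : (2 / (w j * μ) + 2 / μ) * l = 2 * (l / w j) / μ + 2 * l / μ := by field_simp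
    rw [hq]
    have hlw : 0 ≤ l / w j := by positivity
    have hlwμ : l / w j ≤ l / w j / μ := by
      rw [le_div_iff₀ hμ]; nlinarith
    have hlμ : l ≤ l / μ := by
      rw [le_div_iff₀ hμ]; nlinarith
    rw [abs_le]
    constructor
    · have h7 := brk_le_neg' (mu := μ) (l := l) (x := x j) hμ.le hl
      have h8 : (1 + μ) / 2 * l ≤ l := by nlinarith
      have e1 : 2 * (l / w j) / μ = 2 * (l / w j / μ) := by ring
      have e2 : 2 * l / μ = 2 * (l / μ) := by ring
      rw [e1, e2]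
      linarith
    · have h7 := brk_le_neg (mu := μ) (l := l) (x := x j) hμ.le hl
      have h8 : (1 + μ) / 2 * l ≤ l := by nlinarith
      have h9 : μ * x j ≤ l + l / w j := by linarith
      have h10 : x j ≤ (l + l / w j) / μ := by
        rw [le_div_iff₀ hμ]; linarith
      have e1 : 2 * (l / w j) / μ + 2 * l / μ = 2 * ((l + l / w j) / μ) := by field_simp; ring
      rw [e1]
      have : 0 ≤ (l + l / w j) / μ := by positivity
      linarith

theorem psi_cont (w : ι → ℝ) (μ : ℝ) :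
    Continuous (fun z : ℝ × (ι → ℝ) => psi w μ z.1 z.2) := by
  unfold psi
  refine continuous_finsetSum _ fun j _ => continuous_const.mul ?_
  have h : Continuous (fun z : ℝ × (ι → ℝ) => ((z.1, z.2 j) : ℝ × ℝ)) :=
    continuous_fst.prodMk ((continuous_apply j).comp continuous_snd)
  exact (brk_cont μ).comp h

/-- **the reward satisfies the interface of `XcDef_794`.** -/
theorem rwd {p w : ι → ℝ} {μ q0 : ℝ} (hw : ∀ j, 0 < w j) (hw2 : ∑ j, w j ≤ 2) (hμ : 0 < μ)
    (hμ1 : μ ≤ 1) (hq0 : 0 < q0) : Rwd (fun q l x => Psi p w μ q l x) (psi w μ) q0 where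
  q0pos := hq0
  aff := by
    intro q l x
    unfold Psi
    ring
  le := fun l x hl => psi_le hw hw2 hμ.le hμ1 hl x
  hom := by
    intro q c l x _ hc _
    unfold Psi
    rw [psi_hom w μ hc, mul_add, Finset.mul_sum]
    congr 1
    · exact Finset.sum_congr rfl fun j _ => by ring
    · ring
  homψ := fun c l x hc _ => psi_hom w μ hc l x
  zero := by
    intro q
    unfold Psi psi
    simp [brk_zero]
  cont := by
    intro q
    unfold Psi
    refine Continuous.add ?_ (continuous_const.mul (psi_cont w μ))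
    exact continuous_finsetSum _ fun j _ => continuous_const.mul
      ((continuous_apply j).comp continuous_snd)
  contψ := psi_cont w μ
  sup := by
    intro q l l' x x' hq _ _
    unfold Psi
    have h1 := mul_le_mul_of_nonneg_left (psi_super hw hμ.le l l' x x') hq
    have h2 : ∑ j, p j * (x j + x' j) = (∑ j, p j * x j) + ∑ j, p j * x' j := by
      rw [← Finset.sum_add_distrib]
      exact Finset.sum_congr rfl fun j _ => by ring
    rw [h2]
    linarith
  coe := fun c hc => psi_coe hw hw2 hμ hμ1 hc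
  eqc := by
    intro l0 R ε hl0 hε
    obtain ⟨δ, hδ, h⟩ := modulus (l0 := l0) (R := R) (ε := ε) hl0 hε
    -- weights are bounded below
    obtain ⟨c, hc, hcw⟩ : ∃ c : ℝ, 0 < c ∧ ∀ j, c ≤ w j := by
      by_cases hne : Nonempty ι
      · obtain ⟨j0, hj0⟩ := Finite.exists_min w
        exact ⟨w j0, hw j0, hj0⟩
      · exact ⟨1, one_pos, fun j => absurd ⟨j⟩ hne⟩
    refine ⟨q0 * (c * (1 / 2 * δ)), by positivity, ?_⟩
    intro q l l' x x' hq _ hl hl2 hl' hl2' hx hdef j
    refine h l l' (x j) (x' j) hl hl2 hl' hl2' (hx j) ?_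
    -- each bracket defect is nonnegative, the sum is small
    have hqp : 0 < q := hq0.trans_le hq
    have e0 : ∑ j, p j * (x j + x' j) = (∑ j, p j * x j) + ∑ j, p j * x' j := by
      rw [← Finset.sum_add_distrib]
      exact Finset.sum_congr rfl fun j _ => by ring
    have h1 : q * (psi w μ (l + l') (fun j => x j + x' j) - psi w μ l x - psi w μ l' x') ≤
        q0 * (c * (1 / 2 * δ)) := by
      unfold Psi at hdef
      rw [e0] at hdef
      linarith
    have h2 : psi w μ (l + l') (fun j => x j + x' j) - psi w μ l x - psi w μ l' x' =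
        ∑ j, w j * (brk μ (l + l') (x j + x' j) - brk μ l (x j) - brk μ l' (x' j)) := by
      unfold psi
      rw [← Finset.sum_sub_distrib, ← Finset.sum_sub_distrib]
      exact Finset.sum_congr rfl fun j _ => by ring
    have h3 : w j * (brk μ (l + l') (x j + x' j) - brk μ l (x j) - brk μ l' (x' j)) ≤
        psi w μ (l + l') (fun j => x j + x' j) - psi w μ l x - psi w μ l' x' := by
      rw [h2]
      refine Finset.single_le_sum
        (f := fun j => w j * (brk μ (l + l') (x j + x' j) - brk μ l (x j) - brk μ l' (x' j)))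
        (fun i _ => ?_) (Finset.mem_univ j)
      have := brk_super (μ := μ) (by linarith) l (x i) l' (x' i)
      exact mul_nonneg (hw i).le (by linarith)
    have h4 : brk μ (l + l') (x j + x' j) - brk μ l (x j) - brk μ l' (x' j) =
        (1 + μ) / 2 * (nr l (x j) + nr l' (x' j) - nr (l + l') (x j + x' j)) := by
      rw [brk_eq, brk_eq, brk_eq]; ring
    have h5 := nr_add l (x j) l' (x' j)
    set E := nr l (x j) + nr l' (x' j) - nr (l + l') (x j + x' j) with hE
    have hE0 : 0 ≤ E := by rw [hE]; linarith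
    rw [h4] at h3
    have h6 : c * (1 / 2 * E) ≤ w j * ((1 + μ) / 2 * E) := by
      refine mul_le_mul (hcw j) ?_ (by positivity) (hw j).le
      exact mul_le_mul_of_nonneg_right (by linarith) hE0
    have h7 : q0 * (c * (1 / 2 * E)) ≤ q * (c * (1 / 2 * E)) :=
      mul_le_mul_of_nonneg_right hq (by positivity)
    have h8 : q * (c * (1 / 2 * E)) ≤
        q * (psi w μ (l + l') (fun j => x j + x' j) - psi w μ l x - psi w μ l' x') :=
      mul_le_mul_of_nonneg_left (h6.trans h3) hqp.le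
    have h9 : q0 * (c * (1 / 2 * E)) ≤ q0 * (c * (1 / 2 * δ)) := h7.trans (h8.trans h1)
    have h10 : E ≤ δ := by
      have hpos : 0 < q0 * c := mul_pos hq0 hc
      by_contra hcon
      push Not at hcon
      have : q0 * (c * (1 / 2 * δ)) < q0 * (c * (1 / 2 * E)) := by
        have e1 : q0 * (c * (1 / 2 * δ)) = q0 * c * (1 / 2 * δ) := by ring
        have e2 : q0 * (c * (1 / 2 * E)) = q0 * c * (1 / 2 * E) := by ring
        rw [e1, e2]
        exact mul_lt_mul_of_pos_left (by linarith) hpos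
      linarith
    linarith

end

end Crest.Agent.R116.Psi635
end

-- ▼ part R116/Rv1_883

/-!
# R116 (K side), [ZLIN]: change of the penalised size, Taylor expansion of the concave reward
(helper883)

* `reval` : if, on the admissible test sets of the levels of a marked sequence, the size is changed by
  a factor `E n * d^(-(e v))` up to `d^(-ε)`, the sequence is marked for the new size with the growth
  exponent `c + e`.
* `brg_strict` : the bracket `al x - ga (√(l² + x²) - l)` on the cone `|x - θ l| ≤ δ l` is affine with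
  slopes `brl`, `brx` up to `2 δ ga`.
* `linAt_Psi` : 139's `LinAt` (strict differentiability on small cones around the ray `(1, θ)`) for
  635's `Psi`, with `g0 = dlen`, `p = dwid`; `dlen_nonneg`, `dwid_ge`, `dwid_le`, `Psi_euler`.
-/

set_option autoImplicit false

open Finset Filter Topology

namespace Crest.Agent.R116.Rv883

open Crest.Agent.R138.Ex926 (Base U)
open Crest.Agent.R138.Mk163 (zc zl rho alive own)
open Crest.Agent.R136.MkA627

section reval

variable {σ κ : Type*} {B : Base} {I : ℕ → Finset (ℕ × ℝ)} {G : Geo σ κ} {lev : ℕ → ℚ → ℕ}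
    {A : ℕ → ℝ} {c Λ : ℝ → ℝ} {τ : κ → ℝ → ℝ} {f : ℕ → ℚ → ℕ → ℤ → ℕ} {b : ℕ → ℚ → ℕ → σ}
    {vm : ℕ → ℚ → ℝ} {w : κ → ℕ → ℚ → ℝ}

open Classical in
/-- **change of the size** of the test sets (and restriction of the admissible ones). -/
theorem reval (h : MkA B I G lev A c Λ τ f b vm w) {G' : Geo σ κ} (hmem : G'.mem = G.mem)
    (hwid : G'.wid = G.wid)
    (hadm : ∀ v : ℚ, 0 ≤ v → v ≤ 1 → ∀ᶠ n in (U : Filter ℕ), ∀ J : ℤ, ∀ s : σ,
      G'.adm n (lev n v) J s → G.adm n (lev n v) J s)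
    {E : ℕ → ℝ} (hE : ∀ n, 0 < E n) {e : ℝ → ℝ} (he : e 0 = 0) {vm' : ℕ → ℚ → ℝ}
    (hval : ∀ v : ℚ, 0 ≤ v → v ≤ 1 → ∀ ε : ℝ, 0 < ε → ∀ᶠ n in (U : Filter ℕ), ∀ J : ℤ, ∀ s : σ,
      G'.adm n (lev n v) J s →
        G.val n (lev n v) J s ≤
          B.d n ^ (-ε) * (E n * B.d n ^ (-(e v))) * G'.val n (lev n v) J s)
    (hmark : ∀ v : ℚ, 0 ≤ v → v ≤ 1 → ∀ᶠ n in (U : Filter ℕ), ∀ J : ℤ,
      ∀ t ∈ alive (I n) (lev n v) J, G'.adm n (lev n v) J (b n v (f n v t J)) ∧
        G'.val n (lev n v) J (b n v (f n v t J)) = vm' n v)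
    (hpos : ∀ v : ℚ, 0 ≤ v → v ≤ 1 → ∀ᶠ n in (U : Filter ℕ), 0 < vm' n v)
    (hvm : ∀ v : ℚ, 0 ≤ v → v ≤ 1 → ∀ ε : ℝ, 0 < ε → ∀ᶠ n in (U : Filter ℕ),
      (E n * B.d n ^ (-(e v))) * vm' n v ≤ B.d n ^ (-ε) * vm n v) :
    MkA B I G' lev (fun n => A n * E n) (fun v => c v + e v) Λ τ f b vm' w := by
  have hdp : ∀ n, 0 < B.d n := fun n => B.pos n
  have hamp : ∀ n (v : ℚ), ampA B (fun n => A n * E n) (fun v => c v + e v) n v =
      ampA B A c n v * (E n * B.d n ^ (-(e v))) := by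
    intro n v
    unfold ampA
    rw [neg_add, Real.rpow_add (hdp n)]
    ring
  have hamp0 : ∀ n (v : ℚ), 0 < ampA B A c n v := fun n v =>
    mul_pos (h.Apos n) (Real.rpow_pos_of_pos (hdp n) _)
  have hhalf : ∀ n (ε : ℝ), B.d n ^ (-ε) = B.d n ^ (-(ε / 2)) * B.d n ^ (-(ε / 2)) := by
    intro n ε
    rw [← Real.rpow_add (hdp n)]
    congr 1
    ring
  refine
    { ne := h.ne, card := h.card, Apos := fun n => mul_pos (h.Apos n) (hE n)
      c0 := by show c 0 + e 0 = 0; rw [h.c0, he, add_zero]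
      lam0 := h.lam0, lam := h.lam, tau1 := h.tau1, lev_mono := h.lev_mono, lev_lim := h.lev_lim
      cell0 := h.cell0, one := h.one, own := h.own, dmax := ?_, mark := ?_, near := ?_
      vpos := hpos, wpos := h.wpos, tau := h.tau }
  · intro v h0 h1 ε hε
    filter_upwards [h.dmax v h0 h1 (ε / 2) (by positivity), hval v h0 h1 (ε / 2) (by positivity),
      hadm v h0 h1] with n a1 a2 a3 J s hs
    rw [hmem]
    refine (a1 J s (a3 J s hs)).trans ?_
    rw [hamp, hhalf n ε]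
    have h2 := a2 J s hs
    have h3 : 0 < B.d n ^ (-(ε / 2)) * ampA B A c n v :=
      mul_pos (Real.rpow_pos_of_pos (hdp n) _) (hamp0 n v)
    calc B.d n ^ (-(ε / 2)) * ampA B A c n v * G.val n (lev n v) J s
        ≤ B.d n ^ (-(ε / 2)) * ampA B A c n v *
          (B.d n ^ (-(ε / 2)) * (E n * B.d n ^ (-(e v))) * G'.val n (lev n v) J s) :=
          mul_le_mul_of_nonneg_left h2 h3.le
      _ = _ := by ring
  · intro v h0 h1
    filter_upwards [h.mark v h0 h1, hmark v h0 h1] with n a1 a2 J t ht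
    obtain ⟨b1, -, -, b4⟩ := a1 J t ht
    obtain ⟨c1, c2⟩ := a2 J t ht
    rw [hmem, hwid]
    exact ⟨b1, c1, c2, b4⟩
  · intro v h0 h1 ε hε
    filter_upwards [h.near v h0 h1 (ε / 2) (by positivity), hvm v h0 h1 (ε / 2) (by positivity)]
      with n a1 a2 J t ht
    have h2 := a1 J t ht
    rw [hamp, hhalf n ε]
    calc ampA B A c n v * (E n * B.d n ^ (-(e v))) * vm' n v
        = ampA B A c n v * ((E n * B.d n ^ (-(e v))) * vm' n v) := by ring
      _ ≤ ampA B A c n v * (B.d n ^ (-(ε / 2)) * vm n v) :=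
          mul_le_mul_of_nonneg_left a2 (hamp0 n v).le
      _ = B.d n ^ (-(ε / 2)) * (ampA B A c n v * vm n v) := by ring
      _ ≤ B.d n ^ (-(ε / 2)) * (B.d n ^ (-(ε / 2)) * _) :=
          mul_le_mul_of_nonneg_left h2 (Real.rpow_pos_of_pos (hdp n) _).le
      _ = _ := by ring

end reval

/-! ### the bracket -/

/-- the bracket of the concave reward. -/
noncomputable def brg (al ga l x : ℝ) : ℝ := al * x - ga * (Real.sqrt (l ^ 2 + x ^ 2) - l)

/-- derivative in the length direction at `(1, θ)`. -/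
noncomputable def brl (ga θ : ℝ) : ℝ := ga * (1 - (Real.sqrt (1 + θ ^ 2))⁻¹)

/-- derivative in the width direction at `(1, θ)`. -/
noncomputable def brx (al ga θ : ℝ) : ℝ := al - ga * (θ * (Real.sqrt (1 + θ ^ 2))⁻¹)

theorem sqrt_ge_one (θ : ℝ) : 1 ≤ Real.sqrt (1 + θ ^ 2) := by
  rw [Real.one_le_sqrt]; nlinarith [sq_nonneg θ]

theorem abs_le_sqrt (θ : ℝ) : |θ| ≤ Real.sqrt (1 + θ ^ 2) := by
  refine Real.le_sqrt_of_sq_le ?_
  rw [sq_abs]; linarith

theorem brl_nonneg {ga : ℝ} (hga : 0 ≤ ga) (θ : ℝ) : 0 ≤ brl ga θ := by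
  unfold brl
  have h1 := sqrt_ge_one θ
  have h2 : (Real.sqrt (1 + θ ^ 2))⁻¹ ≤ 1 := inv_le_one_of_one_le₀ h1
  exact mul_nonneg hga (by linarith)

theorem brl_le {ga : ℝ} (hga : 0 ≤ ga) (θ : ℝ) : brl ga θ ≤ ga := by
  unfold brl
  have h1 := sqrt_ge_one θ
  have h2 : 0 ≤ (Real.sqrt (1 + θ ^ 2))⁻¹ := by positivity
  nlinarith

theorem abs_ratio_le (θ : ℝ) : |θ * (Real.sqrt (1 + θ ^ 2))⁻¹| ≤ 1 := by
  have h1 := sqrt_ge_one θ
  rw [abs_mul, abs_of_pos (inv_pos.2 (by linarith : (0:ℝ) < Real.sqrt (1 + θ ^ 2))),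
    ← div_eq_mul_inv]
  exact div_le_one_of_le₀ (abs_le_sqrt θ) (by linarith)

theorem brx_ge {al ga : ℝ} (hga : 0 ≤ ga) (θ : ℝ) : al - ga ≤ brx al ga θ := by
  unfold brx
  have h := (abs_le.1 (abs_ratio_le θ)).2
  nlinarith

theorem brx_le {al ga : ℝ} (hga : 0 ≤ ga) (θ : ℝ) : brx al ga θ ≤ al + ga := by
  unfold brx
  have h := (abs_le.1 (abs_ratio_le θ)).1
  nlinarith


/-- **the norm of the plane on a cone around a ray.** -/
theorem norm_strict {θ l l' x x' δ : ℝ} (hl : 0 < l) (hl' : 0 < l')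
    (hx : |x - θ * l| ≤ δ * l) (hx' : |x' - θ * l'| ≤ δ * l') :
    |Real.sqrt (l ^ 2 + x ^ 2) - Real.sqrt (l' ^ 2 + x' ^ 2) -
      ((l - l') + θ * (x - x')) * (Real.sqrt (1 + θ ^ 2))⁻¹| ≤
      2 * δ * (|l - l'| + |x - x'|) := by
  have h1 := sqrt_ge_one θ
  have hδ : 0 ≤ δ := by
    have := (abs_nonneg _).trans hx
    exact nonneg_of_mul_nonneg_left this hl
  have hθW := abs_le_sqrt θ
  set W := Real.sqrt (1 + θ ^ 2) with hW
  have hW2 : W ^ 2 = 1 + θ ^ 2 := Real.sq_sqrt (by positivity)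
  have hW0 : 0 < W := by linarith
  -- one point
  have key : ∀ {m y : ℝ}, 0 < m → |y - θ * m| ≤ δ * m →
      m ≤ Real.sqrt (m ^ 2 + y ^ 2) ∧ |Real.sqrt (m ^ 2 + y ^ 2) - W * m| ≤ δ * m := by
    intro m y hm hy
    have hN0 : 0 ≤ Real.sqrt (m ^ 2 + y ^ 2) := Real.sqrt_nonneg _
    have hN2 : Real.sqrt (m ^ 2 + y ^ 2) ^ 2 = m ^ 2 + y ^ 2 := Real.sq_sqrt (by positivity)
    set N := Real.sqrt (m ^ 2 + y ^ 2) with hN
    have hmN : m ≤ N := by
      rw [hN]
      refine Real.le_sqrt_of_sq_le ?_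
      nlinarith [sq_nonneg y]
    refine ⟨hmN, ?_⟩
    have hyN : |y| ≤ N := by
      rw [hN]
      refine Real.le_sqrt_of_sq_le ?_
      rw [sq_abs]; nlinarith [sq_nonneg m]
    have hpos : 0 < N + W * m := by positivity
    have e : (N - W * m) * (N + W * m) = (y - θ * m) * (y + θ * m) := by
      have : (N - W * m) * (N + W * m) = N ^ 2 - W ^ 2 * m ^ 2 := by ring
      rw [this, hN2, hW2]; ring
    have h5 : |N - W * m| * (N + W * m) ≤ (δ * m) * (N + W * m) := by
      calc |N - W * m| * (N + W * m) = |(N - W * m) * (N + W * m)| := by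
            rw [abs_mul, abs_of_pos hpos]
        _ = |y - θ * m| * |y + θ * m| := by rw [e, abs_mul]
        _ ≤ (δ * m) * (N + W * m) := by
            refine mul_le_mul hy ?_ (abs_nonneg _) (by positivity)
            calc |y + θ * m| ≤ |y| + |θ * m| := abs_add_le _ _
              _ = |y| + |θ| * m := by rw [abs_mul, abs_of_pos hm]
              _ ≤ N + W * m := by
                  have := mul_le_mul_of_nonneg_right hθW hm.le
                  linarith
    exact le_of_mul_le_mul_right h5 hpos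
  obtain ⟨k1, k2⟩ := key hl hx
  obtain ⟨k3, k4⟩ := key hl' hx'
  have hN2 : Real.sqrt (l ^ 2 + x ^ 2) ^ 2 = l ^ 2 + x ^ 2 := Real.sq_sqrt (by positivity)
  have hN2' : Real.sqrt (l' ^ 2 + x' ^ 2) ^ 2 = l' ^ 2 + x' ^ 2 := Real.sq_sqrt (by positivity)
  set N := Real.sqrt (l ^ 2 + x ^ 2) with hN
  set N' := Real.sqrt (l' ^ 2 + x' ^ 2) with hN'
  have hS : 0 < N + N' := by linarith
  have hSs : l + l' ≤ N + N' := by linarith
  -- the two quotients
  have hQ1 : |(l + l') * W - (N + N')| ≤ δ * (N + N') := by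
    have e : (l + l') * W - (N + N') = -((N - W * l) + (N' - W * l')) := by ring
    rw [e, abs_neg]
    calc _ ≤ |N - W * l| + |N' - W * l'| := abs_add_le _ _
      _ ≤ δ * l + δ * l' := add_le_add k2 k4
      _ ≤ δ * (N + N') := by nlinarith
  have hQ2 : |(x + x') * W - θ * (N + N')| ≤ 2 * δ * W * (N + N') := by
    have e : (x + x') * W - θ * (N + N') =
        W * ((x - θ * l) + (x' - θ * l')) + θ * ((l + l') * W - (N + N')) := by ring
    rw [e]
    calc _ ≤ |W * ((x - θ * l) + (x' - θ * l'))| + |θ * ((l + l') * W - (N + N'))| :=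
          abs_add_le _ _
      _ = W * |(x - θ * l) + (x' - θ * l')| + |θ| * |(l + l') * W - (N + N')| := by
          rw [abs_mul, abs_mul, abs_of_pos hW0]
      _ ≤ W * (δ * (N + N')) + W * (δ * (N + N')) := by
          refine add_le_add (mul_le_mul_of_nonneg_left ?_ hW0.le)
            (mul_le_mul hθW hQ1 (abs_nonneg _) hW0.le)
          calc _ ≤ |x - θ * l| + |x' - θ * l'| := abs_add_le _ _
            _ ≤ δ * l + δ * l' := add_le_add hx hx'
            _ ≤ δ * (N + N') := by nlinarith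
      _ = _ := by ring
  -- conclusion
  have hmul : (N - N' - ((l - l') + θ * (x - x')) * W⁻¹) * (W * (N + N')) =
      (l - l') * ((l + l') * W - (N + N')) + (x - x') * ((x + x') * W - θ * (N + N')) := by
    have e1 : (N - N') * (N + N') = (l - l') * (l + l') + (x - x') * (x + x') := by
      have : (N - N') * (N + N') = N ^ 2 - N' ^ 2 := by ring
      rw [this, hN2, hN2']; ring
    have e2 : W⁻¹ * W = 1 := inv_mul_cancel₀ hW0.ne'
    calc _ = W * ((N - N') * (N + N')) - ((l - l') + θ * (x - x')) * (W⁻¹ * W) * (N + N') := by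
          ring
      _ = _ := by rw [e1, e2]; ring
  have hWS : 0 < W * (N + N') := mul_pos hW0 hS
  refine le_of_mul_le_mul_right ?_ hWS
  calc |N - N' - ((l - l') + θ * (x - x')) * W⁻¹| * (W * (N + N'))
      = |(N - N' - ((l - l') + θ * (x - x')) * W⁻¹) * (W * (N + N'))| := by
        rw [abs_mul _ (W * (N + N')), abs_of_pos hWS]
    _ ≤ |l - l'| * (δ * (N + N')) + |x - x'| * (2 * δ * W * (N + N')) := by
        rw [hmul]
        refine (abs_add_le _ _).trans ?_
        rw [abs_mul, abs_mul]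
        exact add_le_add (mul_le_mul_of_nonneg_left hQ1 (abs_nonneg _))
          (mul_le_mul_of_nonneg_left hQ2 (abs_nonneg _))
    _ ≤ 2 * δ * (|l - l'| + |x - x'|) * (W * (N + N')) := by
        have h7 : 0 ≤ |l - l'| * (δ * (N + N')) := by positivity
        nlinarith [mul_le_mul_of_nonneg_left h1 h7]

/-- the bracket on a cone around a ray. -/
theorem brg_strict {al ga θ l l' x x' δ : ℝ} (hga : 0 ≤ ga) (hl : 0 < l) (hl' : 0 < l')
    (hx : |x - θ * l| ≤ δ * l) (hx' : |x' - θ * l'| ≤ δ * l') :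
    |brg al ga l x - brg al ga l' x' - brl ga θ * (l - l') - brx al ga θ * (x - x')| ≤
      ga * (2 * δ * (|l - l'| + |x - x'|)) := by
  have h := norm_strict hl hl' hx hx'
  have e : brg al ga l x - brg al ga l' x' - brl ga θ * (l - l') - brx al ga θ * (x - x') =
      -(ga * (Real.sqrt (l ^ 2 + x ^ 2) - Real.sqrt (l' ^ 2 + x' ^ 2) -
        ((l - l') + θ * (x - x')) * (Real.sqrt (1 + θ ^ 2))⁻¹)) := by
    unfold brg brl brx
    ring
  rw [e, abs_neg, abs_mul, abs_of_nonneg hga]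
  exact mul_le_mul_of_nonneg_left h hga

/-! ### the reward -/

section Psi

open Crest.Agent.R116.Xu79 (brk)
open Crest.Agent.R116.Psi635 (psi Psi)
open Crest.Agent.R116.Zl139 (LinAt)

variable {ι : Type} [Fintype ι]

omit [Fintype ι] in
theorem brk_eq (μ l x : ℝ) : brk μ l x = brg ((1 - μ) / 2) ((1 + μ) / 2) l x := rfl

/-- derivative of 635's reward in the length direction. -/
noncomputable def dlen (w : ι → ℝ) (μ q : ℝ) (θ : ι → ℝ) : ℝ :=
  q * ∑ j, w j * brl ((1 + μ) / 2) (θ j)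

/-- derivative of 635's reward in the width direction `j`. -/
noncomputable def dwid (p w : ι → ℝ) (μ q : ℝ) (θ : ι → ℝ) (j : ι) : ℝ :=
  p j + q * (w j * brx ((1 - μ) / 2) ((1 + μ) / 2) (θ j))

theorem dlen_nonneg {w : ι → ℝ} {μ q : ℝ} (hw : ∀ j, 0 ≤ w j) (hμ : 0 ≤ μ) (hq : 0 ≤ q)
    (θ : ι → ℝ) : 0 ≤ dlen w μ q θ :=
  mul_nonneg hq (Finset.sum_nonneg fun j _ => mul_nonneg (hw j) (brl_nonneg (by linarith) _))

theorem dlen_le {w : ι → ℝ} {μ q : ℝ} (hw : ∀ j, 0 ≤ w j) (hμ : 0 ≤ μ) (hq : 0 ≤ q)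
    (θ : ι → ℝ) : dlen w μ q θ ≤ q * ((1 + μ) / 2 * ∑ j, w j) := by
  unfold dlen
  refine mul_le_mul_of_nonneg_left ?_ hq
  rw [Finset.mul_sum]
  refine Finset.sum_le_sum fun j _ => ?_
  rw [mul_comm ((1 + μ) / 2)]
  exact mul_le_mul_of_nonneg_left (brl_le (by linarith) _) (hw j)

omit [Fintype ι] in
theorem dwid_ge {p w : ι → ℝ} {μ q : ℝ} {j : ι} (hw : 0 ≤ w j) (hμ : 0 ≤ μ) (hq : 0 ≤ q)
    (θ : ι → ℝ) : p j - q * w j * μ ≤ dwid p w μ q θ j := by
  unfold dwid
  have h := brx_ge (al := (1 - μ) / 2) (ga := (1 + μ) / 2) (by linarith) (θ j)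
  have h2 : -μ ≤ brx ((1 - μ) / 2) ((1 + μ) / 2) (θ j) := by linarith
  have h3 := mul_le_mul_of_nonneg_left h2 (mul_nonneg hq hw)
  nlinarith

omit [Fintype ι] in
theorem dwid_le {p w : ι → ℝ} {μ q : ℝ} {j : ι} (hw : 0 ≤ w j) (hμ : 0 ≤ μ) (hq : 0 ≤ q)
    (θ : ι → ℝ) : dwid p w μ q θ j ≤ p j + q * w j := by
  unfold dwid
  have h := brx_le (al := (1 - μ) / 2) (ga := (1 + μ) / 2) (by linarith) (θ j)
  have h2 : brx ((1 - μ) / 2) ((1 + μ) / 2) (θ j) ≤ 1 := by linarith
  have h3 := mul_le_mul_of_nonneg_left h2 (mul_nonneg hq hw)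
  nlinarith


/-- **`LinAt` for 635's reward.** -/
theorem linAt_Psi {p w : ι → ℝ} {μ q : ℝ} (hμ : 0 ≤ μ) (θ : ι → ℝ) :
    LinAt (Psi p w μ q) θ (dlen w μ q θ) (dwid p w μ q θ) := by
  intro ε hε
  set K : ℝ := |q| * ((1 + μ) / 2) * ∑ j, |w j| with hK
  have hK0 : 0 ≤ K := mul_nonneg (mul_nonneg (abs_nonneg _) (by linarith))
    (Finset.sum_nonneg fun j _ => abs_nonneg _)
  refine ⟨ε / (2 * K + 1), by positivity, ?_⟩
  intro l l' x x' hl hl' hx hx'
  set δ := ε / (2 * K + 1) with hδ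
  have hga : 0 ≤ (1 + μ) / 2 := by linarith
  set X : ℝ := |l - l'| + ∑ j, |x j - x' j| with hX
  have hX0 : 0 ≤ X := add_nonneg (abs_nonneg _) (Finset.sum_nonneg fun j _ => abs_nonneg _)
  have hδ0 : 0 ≤ δ := by positivity
  have e : Psi p w μ q l x - Psi p w μ q l' x' - dlen w μ q θ * (l - l') -
      ∑ j, dwid p w μ q θ j * (x j - x' j) =
      q * ∑ j, w j * (brg ((1 - μ) / 2) ((1 + μ) / 2) l (x j) -
        brg ((1 - μ) / 2) ((1 + μ) / 2) l' (x' j) - brl ((1 + μ) / 2) (θ j) * (l - l') -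
        brx ((1 - μ) / 2) ((1 + μ) / 2) (θ j) * (x j - x' j)) := by
    unfold Psi psi dlen dwid
    simp only [brk_eq, mul_sub, add_mul, Finset.sum_add_distrib, Finset.sum_sub_distrib,
      Finset.mul_sum, Finset.sum_mul]
    have h2 : ∀ j, q * (w j * brx ((1 - μ) / 2) ((1 + μ) / 2) (θ j)) * x j =
      q * (w j * (brx ((1 - μ) / 2) ((1 + μ) / 2) (θ j) * x j)) := fun j => by ring
    have h3 : ∀ j, q * (w j * brx ((1 - μ) / 2) ((1 + μ) / 2) (θ j)) * x' j =
      q * (w j * (brx ((1 - μ) / 2) ((1 + μ) / 2) (θ j) * x' j)) := fun j => by ring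
    have h4 : ∀ j, q * (w j * brl ((1 + μ) / 2) (θ j)) * l =
      q * (w j * (brl ((1 + μ) / 2) (θ j) * l)) := fun j => by ring
    have h5 : ∀ j, q * (w j * brl ((1 + μ) / 2) (θ j)) * l' =
      q * (w j * (brl ((1 + μ) / 2) (θ j) * l')) := fun j => by ring
    simp only [h2, h3, h4, h5]
    ring
  rw [e, abs_mul]
  have h1 : |∑ j, w j * (brg ((1 - μ) / 2) ((1 + μ) / 2) l (x j) -
        brg ((1 - μ) / 2) ((1 + μ) / 2) l' (x' j) - brl ((1 + μ) / 2) (θ j) * (l - l') -
        brx ((1 - μ) / 2) ((1 + μ) / 2) (θ j) * (x j - x' j))| ≤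
      ∑ j, |w j| * ((1 + μ) / 2 * (2 * δ * X)) := by
    refine (Finset.abs_sum_le_sum_abs _ _).trans (Finset.sum_le_sum fun j _ => ?_)
    rw [abs_mul]
    refine mul_le_mul_of_nonneg_left ?_ (abs_nonneg _)
    refine (brg_strict hga hl hl' (hx j) (hx' j)).trans ?_
    refine mul_le_mul_of_nonneg_left ?_ hga
    refine mul_le_mul_of_nonneg_left ?_ (by positivity)
    have h6 := Finset.single_le_sum (f := fun j => |x j - x' j|) (fun i _ => abs_nonneg _)
      (Finset.mem_univ j)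
    rw [hX]
    linarith
  calc _ ≤ |q| * ∑ j, |w j| * ((1 + μ) / 2 * (2 * δ * X)) :=
        mul_le_mul_of_nonneg_left h1 (abs_nonneg _)
    _ = 2 * K * δ * X := by rw [← Finset.sum_mul, hK]; ring
    _ ≤ ε * X := by
        refine mul_le_mul_of_nonneg_right ?_ hX0
        rw [hδ, ← mul_div_assoc, div_le_iff₀ (by positivity)]
        nlinarith

end Psi

end Crest.Agent.R116.Rv883
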