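import Mathlib
import Crest.Agent.R116.XcDef_794
import Crest.Agent.R136.Dia1_770

-- ▼ part R116/Xs1_708
section

/-!
# R116 (K side), block X1-C with the concave reward: choice of the parameter `q` (helper708)

`β : ℝ → ℝ` (extremal gap as a function of the one real parameter `q`) is only known to satisfy
`β q - (q' - q) ≤ β q'` for `q ≤ q'` (no downward jumps).

`exists_q_mono` : if `2 g ≤ β 0` and `β Q ≤ g`, there is a FIXED `q ∈ (0, Q)` with `g < β q < 2 g`,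
`β 0 - 2 g < q` and `β (q + δ) ≤ β q - κ δ` for all `0 ≤ δ ≤ δ0`, `κ = g / (4 Q)`; no maximiser is
needed (`β + id` is monotone, hence differentiable a.e., and `∫ (β + id)' ≤` its increment).

`up_step` : the comparison of two near-maximal test sets for `q` and `q + δ`.
-/

set_option autoImplicit false

open MeasureTheory Filter Topology Set

namespace Crest.Agent.R116.Xs708

/-- **choice of `q`**, functions without downward jumps. -/
theorem exists_q_mono {β : ℝ → ℝ} {Q g : ℝ} (hQ : 0 < Q) (hg : 0 < g)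
    (hβ : ∀ q q', 0 ≤ q → q ≤ q' → q' ≤ Q → β q - (q' - q) ≤ β q')
    (h0 : 2 * g ≤ β 0) (h1 : β Q ≤ g) :
    ∃ q, 0 < q ∧ q < Q ∧ β 0 - 2 * g < q ∧ g < β q ∧ β q < 2 * g ∧
      ∃ δ0 : ℝ, 0 < δ0 ∧ q + δ0 ≤ Q ∧ ∀ δ, 0 ≤ δ → δ ≤ δ0 → β (q + δ) ≤ β q - g / (4 * Q) * δ := by
  classical
  set F : ℝ → ℝ := fun t => max g (min (2 * g) (β t)) with hF
  have hFu : ∀ t, F t ≤ 2 * g := fun t => max_le (by linarith) (min_le_left _ _)
  have hFl : ∀ t, g ≤ F t := fun t => le_max_left _ _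
  set G : ℝ → ℝ := fun t => F t + t with hG
  have hmono : MonotoneOn G (Icc 0 Q) := by
    intro x hx y hy hxy
    have h2 := hβ x y hx.1 hxy hy.2
    have h3 : F x - (y - x) ≤ F y := by
      simp only [hF]
      have a0 : 0 ≤ y - x := by linarith
      rcases le_total (min (2 * g) (β x)) g with h | h
      · rw [max_eq_left h]
        exact (by linarith : g - (y - x) ≤ g).trans (le_max_left _ _)
      · rw [max_eq_right h]
        refine le_trans ?_ (le_max_right _ _)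
        refine le_min ?_ ?_
        · linarith [min_le_left (2 * g) (β x)]
        · linarith [min_le_right (2 * g) (β x)]
    simp only [hG]
    linarith
  have e0 : G 0 = 2 * g := by
    simp only [hG, hF]
    rw [min_eq_left h0, max_eq_right (by linarith), add_zero]
  have e1 : G Q = g + Q := by
    simp only [hG, hF]
    rw [max_eq_left ((min_le_right _ _).trans h1)]
  have hint := MonotoneOn.intervalIntegral_deriv_mem_uIcc (f := G) (a := 0) (b := Q)
    (by rwa [uIcc_of_le hQ.le])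
  rw [e0, e1, uIcc_of_le (by
    have := hmono ⟨le_rfl, hQ.le⟩ ⟨hQ.le, le_rfl⟩ hQ.le
    rw [e0, e1] at this
    linarith)] at hint
  have hdiff : ∀ᵐ x : ℝ, x ∈ Icc 0 Q → DifferentiableWithinAt ℝ G (Icc 0 Q) x :=
    hmono.ae_differentiableWithinAt_of_mem
  have hex : ∃ q, 0 < q ∧ q < Q ∧ DifferentiableAt ℝ G q ∧ deriv G q < 1 - g / (2 * Q) := by
    by_contra hcon
    push Not at hcon
    have key : ∀ᵐ t : ℝ, t ∈ Ioc 0 Q → (1 - g / (2 * Q)) ≤ deriv G t := by
      have hne : ∀ᵐ t : ℝ, t ≠ Q := by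
        simp [ae_iff, measure_singleton]
      filter_upwards [hdiff, hne] with t ht htne htI
      have htl : t < Q := lt_of_le_of_ne htI.2 htne
      exact hcon t htI.1 htl ((ht ⟨htI.1.le, htI.2⟩).differentiableAt (Icc_mem_nhds htI.1 htl))
    have hii : IntervalIntegrable (deriv G) volume 0 Q :=
      MonotoneOn.intervalIntegrable_deriv (by rwa [uIcc_of_le hQ.le])
    have hge : ∫ _t in (0 : ℝ)..Q, (1 - g / (2 * Q)) ≤ ∫ t in (0 : ℝ)..Q, deriv G t := by
      rw [intervalIntegral.integral_of_le hQ.le, intervalIntegral.integral_of_le hQ.le]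
      apply setIntegral_mono_on_ae
      · exact integrableOn_const (by simp)
      · exact (intervalIntegrable_iff_integrableOn_Ioc_of_le hQ.le).1 hii
      · exact measurableSet_Ioc
      · exact key
    rw [intervalIntegral.integral_const] at hge
    simp only [smul_eq_mul, sub_zero] at hge
    have h4 : Q * (1 - g / (2 * Q)) = Q - g / 2 := by
      field_simp
    rw [h4] at hge
    have := hint.2
    linarith
  obtain ⟨q, hq0, hqQ, hGd, hGq⟩ := hex
  have hFd : DifferentiableAt ℝ F q := by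
    have : F = fun t => G t - t := by
      funext t
      simp [hG]
    rw [this]
    exact hGd.sub differentiableAt_id
  have hFq : HasDerivAt F (deriv G q - 1) q := by
    have h2 : HasDerivAt (fun t => G t - t) (deriv G q - 1) q := hGd.hasDerivAt.sub (hasDerivAt_id q)
    have : F = fun t => G t - t := by
      funext t
      simp [hG]
    rw [this]
    exact h2
  have hgQ : 0 < g / (2 * Q) := by positivity
  have hne : deriv F q ≠ 0 := by
    rw [hFq.deriv]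
    linarith
  have hfu : β q < 2 * g := by
    by_contra h
    push Not at h
    apply hne
    apply IsLocalMax.deriv_eq_zero
    have : F q = 2 * g := by
      simp only [hF]
      rw [min_eq_left h, max_eq_right (by linarith)]
    exact Eventually.of_forall fun x => by rw [this]; exact hFu x
  have hfl : g < β q := by
    by_contra h
    push Not at h
    apply hne
    apply IsLocalMin.deriv_eq_zero
    have : F q = g := by
      simp only [hF]
      exact max_eq_left ((min_le_right _ _).trans h)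
    exact Eventually.of_forall fun x => by rw [this]; exact hFl x
  have hFβ : F q = β q := by
    simp only [hF]
    rw [min_eq_right hfu.le, max_eq_right hfl.le]
  have hlow : β 0 - 2 * g < q := by
    have := hβ 0 q le_rfl hq0.le hqQ.le
    linarith
  -- right derivative
  have hslope : ∀ᶠ δ in 𝓝[>] (0 : ℝ), F (q + δ) ≤ F q - g / (4 * Q) * δ := by
    have hs := hasDerivAt_iff_tendsto_slope_zero.1 hFq
    have hs' : Tendsto (fun t : ℝ => t⁻¹ • (F (q + t) - F q)) (𝓝[>] 0) (𝓝 (deriv G q - 1)) :=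
      hs.mono_left (nhdsWithin_mono _ fun x hx => ne_of_gt hx)
    have h5 : deriv G q - 1 < -(g / (4 * Q)) := by
      have : g / (4 * Q) ≤ g / (2 * Q) := by
        apply div_le_div_of_nonneg_left hg.le (by positivity)
        linarith
      linarith
    filter_upwards [hs'.eventually_lt_const h5, self_mem_nhdsWithin] with δ hδ hδp
    have hδp' : 0 < δ := hδp
    rw [smul_eq_mul, inv_mul_lt_iff₀ hδp'] at hδ
    linarith
  rw [eventually_nhdsWithin_iff, Metric.eventually_nhds_iff] at hslope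
  obtain ⟨ε, hε, hball⟩ := hslope
  set δ0 : ℝ := min (ε / 2) (Q - q) with hδ0
  have hδ0p : 0 < δ0 := lt_min (by linarith) (by linarith)
  refine ⟨q, hq0, hqQ, hlow, hfl, hfu, δ0, hδ0p, ?_, fun δ hδ hδ' => ?_⟩
  · linarith [min_le_right (ε / 2) (Q - q)]
  · rcases hδ.eq_or_lt with h | h
    · rw [← h]
      simp
    · have h6 : δ < ε := by
        have := min_le_left (ε / 2) (Q - q)
        linarith
      have h7 := hball (y := δ) (by rw [Real.dist_eq, sub_zero, abs_of_pos h]; exact h6) h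
      rw [hFβ] at h7
      have h8 : F (q + δ) < 2 * g := by
        have : 0 < g / (4 * Q) * δ := by positivity
        linarith
      have h9 : β (q + δ) ≤ F (q + δ) := by
        simp only [hF] at h8 ⊢
        have h10 : min (2 * g) (β (q + δ)) < 2 * g := (le_max_right _ _).trans_lt h8
        have h11 : β (q + δ) < 2 * g := by
          by_contra hcon
          push Not at hcon
          rw [min_eq_left hcon] at h10
          exact lt_irrefl _ h10
        rw [min_eq_right h11.le]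
        exact le_max_right _ _
      linarith


end Crest.Agent.R116.Xs708
end

-- ▼ part R116/Yb1_708
section

/-!
# R116 (K side), block X1-C with the concave reward: the extremal gap `β(q)` (helper708)

Over `XcDef_794`.

* `ok_change`, `ub_change` : `Ψ' ≤ Ψ + c h` ⟹ (`UB 𝒯 Ψ' b → UB 𝒯 Ψ (b + c)`).
* `ub_mono`, `ub_inf`, `ub_q` (no downward jumps), `ub_triv`, `ub_ge` (enemy).
* `exists_chs` : `TrivB`, the enemy with exponent `b0`, `Rwd` ⟹ `Chs`, with `g < β < 2 g`,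
  `κ = g / (4 Q)`, `b0 - c - 2 g < q < Q`.
-/

set_option autoImplicit false

open Finset Filter Topology

namespace Crest.Agent.R116.Yb708

open Crest.Agent.R138.Mk163 (zc zl rho alive own)
open Crest.Agent.R116.Xa794 (TS)
open Crest.Agent.R116.Xc794

section

variable {Ln ι S : Type}

theorem capP_pos (T : TS Ln ι S) (Ψ : ℝ → (ι → ℝ) → ℝ) (m' : ℕ) (a' : ι → ℕ) (i : ℕ)
    (a : ι → ℕ) : 0 < capP T Ψ m' a' i a :=
  mul_pos (T.volpos i a) (Real.rpow_pos_of_pos two_pos _)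

/-- `D0 > 0` as soon as a bound with a positive left side holds. -/
theorem D0_pos {D0 D1 nu X Y : ℝ} (h1 : 0 < D1) (h2 : 0 < nu) (hX : 0 < X) (hY : 0 < Y)
    (h : D1 * nu ^ 2 ≤ X * Y * D0) : 0 < D0 := by
  have h3 : 0 < X * Y * D0 := lt_of_lt_of_le (by positivity) h
  exact (mul_pos_iff_of_pos_left (by positivity)).1 h3

/-- the configuration `F` with the bottom bound multiplied by `2^(c M)`. -/
noncomputable def chg (c : ℝ) (F : Cfg Ln ι S) : Cfg Ln ι S :=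
  { F with D0 := F.D0 * (2 : ℝ) ^ (c * F.M) }

theorem up_change {T : TS Ln ι S} {Ψ Ψ' : ℝ → (ι → ℝ) → ℝ} {c : ℝ} {F : Cfg Ln ι S}
    {X : ℝ} (hX : 0 ≤ X) {s : ι → ℕ}
    (hc : Ψ' F.M (rel F.m s (F.m + F.M) F.a) ≤ Ψ F.M (rel F.m s (F.m + F.M) F.a) + c * F.M)
    (h1 : X ≤ F.D0 * capP T Ψ (F.m + F.M) F.a F.m s) :
    X ≤ (F.D0 * (2 : ℝ) ^ (c * F.M)) * capP T Ψ' (F.m + F.M) F.a F.m s := by
  refine le_trans h1 ?_
  have hp : 0 < capP T Ψ (F.m + F.M) F.a F.m s := capP_pos _ _ _ _ _ _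
  have hD0 : 0 ≤ F.D0 := by
    by_contra hneg
    push Not at hneg
    have : F.D0 * capP T Ψ (F.m + F.M) F.a F.m s < 0 := mul_neg_of_neg_of_pos hneg hp
    exact absurd (h1.trans_lt this) (not_lt.2 hX)
  rw [mul_assoc]
  refine mul_le_mul_of_nonneg_left ?_ hD0
  unfold capP
  have e : (((F.m + F.M : ℕ) : ℝ) - F.m) = F.M := by push_cast; ring
  rw [e]
  calc T.vol F.m s * (2 : ℝ) ^ (-(Ψ F.M (rel F.m s (F.m + F.M) F.a)))
      ≤ T.vol F.m s * (2 : ℝ) ^ (c * F.M + -(Ψ' F.M (rel F.m s (F.m + F.M) F.a))) := by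
        apply mul_le_mul_of_nonneg_left _ (T.volpos _ _).le
        apply Real.rpow_le_rpow_of_exponent_le one_le_two
        linarith
    _ = _ := by
        rw [Real.rpow_add two_pos]
        ring

theorem ok_change {T : TS Ln ι S} {Ψ Ψ' : ℝ → (ι → ℝ) → ℝ} {c : ℝ} {F : Cfg Ln ι S}
    (hc : ∀ s : ι → ℕ, (∀ j, s j ≤ F.N) → Ψ' F.M (rel F.m s (F.m + F.M) F.a) ≤
      Ψ F.M (rel F.m s (F.m + F.M) F.a) + c * F.M) (h : F.Ok T Ψ) : (chg c F).Ok T Ψ' where
  M1 := h.M1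
  ne := h.ne
  cell := h.cell
  D1p := h.D1p
  nup := h.nup
  fin := h.fin
  top := h.top
  low := h.low
  own := h.own
  up := fun J s hs => up_change (Nat.cast_nonneg _) (hc s.1 (h.fin F.m J s hs)) (h.up J s hs)

theorem ub_mono {𝒯 : Set (TS Ln ι S)} {Ψ : ℝ → (ι → ℝ) → ℝ} {b b' : ℝ} (h : UB 𝒯 Ψ b)
    (hb : b ≤ b') : UB 𝒯 Ψ b' := by
  intro η hη
  obtain ⟨δ, hδ, M0, hM⟩ := h η hη
  refine ⟨δ, hδ, M0, fun T hT F hF hFM hI hN => ?_⟩
  have h1 := hM T hT F hF hFM hI hN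
  have hD0 := D0_pos hF.D1p hF.nup (Real.rpow_pos_of_pos two_pos _) (by positivity) h1
  refine h1.trans ?_
  apply mul_le_mul_of_nonneg_right _ hD0.le
  apply mul_le_mul_of_nonneg_right _ (by positivity)
  apply Real.rpow_le_rpow_of_exponent_le one_le_two
  exact mul_le_mul_of_nonneg_right (by linarith) (Nat.cast_nonneg _)

theorem ub_inf {𝒯 : Set (TS Ln ι S)} {Ψ : ℝ → (ι → ℝ) → ℝ} {b : ℝ}
    (h : ∀ b', b < b' → UB 𝒯 Ψ b') : UB 𝒯 Ψ b := by
  intro η hη
  obtain ⟨δ, hδ, M0, hM⟩ := h (b + η / 2) (by linarith) (η / 2) (by linarith)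
  refine ⟨δ, hδ, M0, fun T hT F hF hFM hI hN => ?_⟩
  have h1 := hM T hT F hF hFM hI hN
  have e : b + η / 2 + η / 2 = b + η := by ring
  rw [e] at h1
  exact h1

/-- change of the reward -/
theorem ub_change {𝒯 : Set (TS Ln ι S)} {Ψ Ψ' : ℝ → (ι → ℝ) → ℝ} {b c : ℝ}
    (hc : ∀ h x, 0 ≤ h → Ψ' h x ≤ Ψ h x + c * h) (h : UB 𝒯 Ψ' b) : UB 𝒯 Ψ (b + c) := by
  intro η hη
  obtain ⟨δ, hδ, M0, hM⟩ := h η hη
  refine ⟨δ, hδ, M0, fun T hT F hF hFM hI hN => ?_⟩
  have h1 := hM T hT (chg c F) (ok_change (fun s _ => hc _ _ (Nat.cast_nonneg _)) hF) hFM hI hN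
  simp only [chg] at h1
  refine h1.trans (le_of_eq ?_)
  have e : (b + c + η) * (F.M : ℝ) = (b + η) * F.M + c * F.M := by ring
  rw [e, Real.rpow_add two_pos]
  ring

/-- own counts of a configuration -/
theorem nu_le {T : TS Ln ι S} {Ψ : ℝ → (ι → ℝ) → ℝ} {F : Cfg Ln ι S} (h : F.Ok T Ψ) :
    F.nu ≤ 2 ^ F.M := by
  obtain ⟨x, hx⟩ := h.ne
  refine (h.own x hx).trans ?_
  have h1 := Crest.Agent.R136.Dia770.own_le F.I (i := F.m) (j := F.m + F.M) (by omega) x
  have h2 : F.m + F.M - F.m = F.M := by omega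
  rw [h2] at h1
  exact_mod_cast h1

/-- the trivial bound -/
theorem ub_triv {𝒯 : Set (TS Ln ι S)} (hV : TrivB 𝒯) {Ψ : ℝ → (ι → ℝ) → ℝ} {s : ℝ}
    (hs : ∀ M : ℕ, s * M ≤ Ψ M (fun _ => (M : ℝ))) : UB 𝒯 Ψ (2 - s) := by
  obtain ⟨c, hc, hM⟩ := hV
  intro η hη
  obtain ⟨M0, hM0⟩ := exists_nat_gt (Real.log c / (η * Real.log 2))
  refine ⟨1, one_pos, M0, fun T hT F hF hFM _ _ => ?_⟩
  have h1 := hM Ψ T hT F hF
  have hl2 : 0 < Real.log 2 := Real.log_pos one_lt_two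
  have hcM : c ≤ (2 : ℝ) ^ (η * F.M) := by
    rw [← Real.log_le_log_iff hc (Real.rpow_pos_of_pos two_pos _), Real.log_rpow two_pos]
    have h2 : Real.log c / (η * Real.log 2) < F.M := hM0.trans_le (by exact_mod_cast hFM)
    rw [div_lt_iff₀ (by positivity)] at h2
    nlinarith
  have hD0 : 0 < F.D0 := by
    have h3 := hF.D1p.trans_le h1
    exact (mul_pos_iff_of_pos_left (mul_pos hc (Real.rpow_pos_of_pos two_pos _))).1 h3
  have hnu : F.nu ^ 2 ≤ 4 ^ F.M := by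
    have h4 : F.nu ^ 2 ≤ (2 ^ F.M) ^ 2 := pow_le_pow_left₀ hF.nup.le (nu_le hF) 2
    have h5 : ((2 : ℝ) ^ F.M) ^ 2 = 4 ^ F.M := by
      rw [← pow_mul, mul_comm, pow_mul]
      norm_num
    rwa [h5] at h4
  calc F.D1 * F.nu ^ 2
      ≤ (c * (2 : ℝ) ^ (2 * (F.M : ℝ) - Ψ F.M (fun _ => (F.M : ℝ))) * F.D0) * 4 ^ F.M :=
        mul_le_mul h1 hnu (by positivity) (by positivity)
    _ ≤ ((2 : ℝ) ^ (η * F.M) * (2 : ℝ) ^ ((2 - s) * F.M) * F.D0) * 4 ^ F.M := by
        apply mul_le_mul_of_nonneg_right _ (by positivity)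
        apply mul_le_mul_of_nonneg_right _ hD0.le
        apply mul_le_mul hcM _ (Real.rpow_pos_of_pos two_pos _).le
          (Real.rpow_pos_of_pos two_pos _).le
        apply Real.rpow_le_rpow_of_exponent_le one_le_two
        have := hs F.M
        linarith
    _ = (2 : ℝ) ^ ((2 - s + η) * F.M) * 4 ^ F.M * F.D0 := by
        rw [add_mul (2 - s) η, Real.rpow_add two_pos]
        ring



/-! ### the one-parameter family -/

variable {P : ℝ → ℝ → (ι → ℝ) → ℝ} {ψ : ℝ → (ι → ℝ) → ℝ} {q0 : ℝ}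

/-- **no downward jumps** -/
theorem ub_q {𝒯 : Set (TS Ln ι S)} (hR : Rwd P ψ q0) {q q' b : ℝ} (hq : q ≤ q')
    (h : UB 𝒯 (P q') b) : UB 𝒯 (P q) (b + (q' - q)) := by
  refine ub_change (fun k x hk => ?_) h
  have h1 := hR.le k x hk
  rw [hR.aff q' k x, hR.aff q k x]
  nlinarith

/-- the gap vanishes at `Q` -/
theorem ub_Q {𝒯 : Set (TS Ln ι S)} (hV : TrivB 𝒯) (hR : Rwd P ψ q0) {Q : ℝ} (hQ0 : 0 ≤ Q)
    (hQ : 2 ≤ P Q 1 (fun _ => 1)) : UB 𝒯 (P Q) 0 := by
  have h := ub_triv hV (Ψ := P Q) (s := 2) (fun M => by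
    have h1 := hR.hom Q M 1 (fun _ => 1) hQ0 (Nat.cast_nonneg _) zero_le_one
    simp only [mul_one] at h1
    rw [h1]
    have hMn : (0 : ℝ) ≤ M := Nat.cast_nonneg _
    nlinarith)
  simpa using h


end

end Crest.Agent.R116.Yb708
end

-- ▼ part R116/Yb2_635

/-!
# R116 (K side), block X1-C: the gap `β(q)` from the enemy with room (helper635)

79's correction: with a range of exponents far beyond the top marks the enemy has to carry a reward
for the test sets which are narrower than the bottom size, `Φ l x = ∑ max (x_j - l) 0`.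

* `over l x`, `EnemyAt2 𝒯 b0`;
* `ub_ge2`, `exists_chs2` : 708's `exists_chs` for `EnemyAt2`.
-/

set_option autoImplicit false

open Finset Filter Topology

namespace Crest.Agent.R116.Yb2635

open Crest.Agent.R138.Mk163 (zc zl rho alive own)
open Crest.Agent.R116.Xa794 (TS)
open Crest.Agent.R116.Xc794
open Crest.Agent.R116.Yb708

section

variable {Ln ι S : Type} [Fintype ι]

/-- the enemy with exponent `b0`, reward `∑ max (x_j - l) 0` for the test sets narrower than the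
bottom size. -/
def EnemyAt2 (𝒯 : Set (TS Ln ι S)) (b0 : ℝ) : Prop :=
  ∀ δ : ℝ, 0 < δ → ∀ M0 : ℕ, ∃ T ∈ 𝒯, ∃ F : Cfg Ln ι S,
    F.Ok T (fun l x => ∑ j, max (x j - l) 0) ∧ M0 ≤ F.M ∧
      Real.log (F.I.card : ℝ) ≤ (2 : ℝ) ^ (δ * F.M) ∧ (F.N : ℝ) ≤ (2 : ℝ) ^ (δ * F.M) ∧
      (2 : ℝ) ^ (b0 * F.M) * 4 ^ F.M * F.D0 < F.D1 * F.nu ^ 2

theorem ub_ge2 {𝒯 : Set (TS Ln ι S)} {b0 c : ℝ} (hE : EnemyAt2 𝒯 b0) {Ψ : ℝ → (ι → ℝ) → ℝ}
    (hΨ : ∀ l x, 0 ≤ l → Ψ l x ≤ c * l + ∑ j, max (x j - l) 0) {b : ℝ}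
    (h : UB 𝒯 Ψ b) : b0 - c ≤ b := by
  by_contra hcon
  push Not at hcon
  have h0 : UB 𝒯 (fun l x => ∑ j, max (x j - l) 0) (b + c) :=
    ub_change (fun k x hk => by
      have := hΨ k x hk
      linarith) h
  obtain ⟨δ, hδ, M0, hM⟩ := h0 ((b0 - c - b) / 2) (by linarith)
  obtain ⟨T, hT, F, hF, hFM, hI, hN, hgap⟩ := hE δ hδ M0
  have h1 := hM T hT F hF hFM hI hN
  have hD0 : 0 < F.D0 := D0_pos hF.D1p hF.nup (Real.rpow_pos_of_pos two_pos _)
    (by positivity) h1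
  have h6 : (2 : ℝ) ^ ((b + c + (b0 - c - b) / 2) * F.M) ≤ (2 : ℝ) ^ (b0 * F.M) := by
    apply Real.rpow_le_rpow_of_exponent_le one_le_two
    have hMn : (0 : ℝ) ≤ F.M := Nat.cast_nonneg _
    nlinarith
  have h7 : (2 : ℝ) ^ ((b + c + (b0 - c - b) / 2) * F.M) * 4 ^ F.M * F.D0 ≤
      (2 : ℝ) ^ (b0 * F.M) * 4 ^ F.M * F.D0 :=
    mul_le_mul_of_nonneg_right (mul_le_mul_of_nonneg_right h6 (by positivity)) hD0.le
  exact absurd (hgap.trans_le (h1.trans h7)) (lt_irrefl _)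

variable {P : ℝ → ℝ → (ι → ℝ) → ℝ} {ψ : ℝ → (ι → ℝ) → ℝ} {q0 : ℝ}

/-- **choice of the fixed parameter `q`**, enemy with room. -/
theorem exists_chs2 {𝒯 : Set (TS Ln ι S)} (hV : TrivB 𝒯) {b0 c g Q : ℝ} (hE : EnemyAt2 𝒯 b0)
    (hR : Rwd P ψ q0) (hΦ : ∀ l x, 0 ≤ l → P 0 l x ≤ c * l + ∑ j, max (x j - l) 0)
    (hQ0 : 0 < Q) (hQ8 : Q ≤ 8) (hQ : 2 ≤ P Q 1 (fun _ => 1))
    (hg : 0 < g) (hgb : 2 * g + q0 ≤ b0 - c) :
    ∃ q β δ0 : ℝ, 0 < q ∧ q < Q ∧ b0 - c - 2 * g < q ∧ g < β ∧ β < 2 * g ∧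
      Chs 𝒯 P q0 (g / (4 * Q)) δ0 q β := by
  set bt : ℝ → ℝ := fun q => bet 𝒯 (P q) with hbt
  have hbox : ∀ q, 0 ≤ q → ∀ l x, 0 ≤ l → P q l x ≤ (c + q) * l + ∑ j, max (x j - l) 0 := by
    intro q hq l x hl
    have h1 := hR.le l x hl
    have h2 := hΦ l x hl
    rw [hR.aff q l x]
    nlinarith
  have hne : ∀ q, q ≤ Q → {b | UB 𝒯 (P q) b}.Nonempty := fun q hq =>
    ⟨0 + (Q - q), ub_q hR hq (ub_Q hV hR hQ0.le hQ)⟩
  have hge : ∀ q, 0 ≤ q → ∀ b, UB 𝒯 (P q) b → b0 - (c + q) ≤ b := fun q hq b hb =>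
    ub_ge2 hE (hbox q hq) hb
  have hbd : ∀ q, 0 ≤ q → BddBelow {b | UB 𝒯 (P q) b} := fun q hq =>
    ⟨b0 - (c + q), fun b hb => hge q hq b hb⟩
  have hatt : ∀ q, q ≤ Q → UB 𝒯 (P q) (bt q) := by
    intro q hq
    apply ub_inf
    intro b' hb'
    obtain ⟨b, hb, hbb⟩ := exists_lt_of_csInf_lt (hne q hq) hb'
    exact ub_mono hb hbb.le
  have hnot : ∀ q, 0 ≤ q → ∀ b, b < bt q → ¬ UB 𝒯 (P q) b := fun q hq b hb h =>
    absurd (csInf_le (hbd q hq) h) (not_le.2 hb)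
  have hjump : ∀ q q', 0 ≤ q → q ≤ q' → q' ≤ Q → bt q - (q' - q) ≤ bt q' := by
    intro q q' h0 h1 h2
    have h3 : bt q ≤ bt q' + (q' - q) := csInf_le (hbd q h0) (ub_q hR h1 (hatt q' h2))
    linarith
  have hb0 : b0 - c ≤ bt 0 := by
    have h3 : b0 - (c + 0) ≤ bt 0 := le_csInf (hne 0 hQ0.le) (fun b hb => hge 0 le_rfl b hb)
    linarith
  have hbQ : bt Q ≤ g := (csInf_le (hbd Q hQ0.le) (ub_Q hV hR hQ0.le hQ)).trans hg.le
  have hq0p := hR.q0pos
  obtain ⟨q, hq1, hq2, hq3, hq4, hq5, δ0, hδ0, hδQ, hδ⟩ :=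
    Crest.Agent.R116.Xs708.exists_q_mono hQ0 hg hjump (by linarith) hbQ
  refine ⟨q, bt q, δ0, hq1, hq2, by linarith, hq4, hq5, ?_⟩
  exact
    { κpos := by positivity
      δ0pos := hδ0
      qlo := by linarith
      qhi := by linarith
      gpos := hg.trans hq4
      low := hnot q hq1.le
      ub := hatt q hq2.le
      drop := fun δ h1 h2 => ub_mono (hatt (q + δ) (by linarith)) (hδ δ h1.le h2) }

end

end Crest.Agent.R116.Yb2635
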