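import Mathlib
import Crest.Agent.R116.XcDef_794

/-!
# R116 (K side), block X1-C: ROOM = level dependent range of the exponents (helper794)

`cut K0 R T` : the class `T` with the additional condition `s.1 j + K0 * i ≤ R` at the level `i`
(the range of the exponents grows by `K0` per level upwards).  All of `XcDef` (hence `xoutP`) is used
verbatim for the family `Cut K0 𝒯`; the room of 635's v1.2 is then automatic:
* a configuration `F.Ok (cut K0 R T) Ψ` has `F.a j + K0 * (F.m + F.M) ≤ R` (`Ok.room`), and its bottom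
  bound `up` is for all admissible test sets with `s.1 j + K0 * F.m ≤ R`;
* in the output `XOutP (Cut K0 𝒯)`: `adm` at the level `i` is `T.adm ∧ ∀ j, s.1 j + K0 * i ≤ R n`, and
  `atop n j + K0 * lev n 1 ≤ R n` (`room_top`), so every `s` with
  `s.1 j ≤ max (atop n) + K0 * (lev n 1 - i)` is in the range.
-/

set_option autoImplicit false
set_option linter.unusedSectionVars false

open Finset Filter Topology

namespace Crest.Agent.R116.Xc794

open Crest.Agent.R138.Ex926 (Base U)
open Crest.Agent.R138.Mk163 (zc zl rho alive own)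
open Crest.Agent.R136.MkA627 (Geo MkA)
open Crest.Agent.R116.Xa794 (TS)

section

variable {Ln ι S : Type} [Fintype ι]

/-- the class with a level dependent range of the exponents -/
def cut (K0 R : ℕ) (T : TS Ln ι S) : TS Ln ι S where
  mem := T.mem
  adm := fun i J s => T.adm i J s ∧ ∀ j, s.1 j + K0 * i ≤ R
  vol := T.vol
  volpos := T.volpos

/-- the family of all cut classes -/
def Cut (K0 : ℕ) (𝒯 : Set (TS Ln ι S)) : Set (TS Ln ι S) :=
  {T' | ∃ T ∈ 𝒯, ∃ R : ℕ, T' = cut K0 R T}

theorem cut_mem {K0 R : ℕ} {𝒯 : Set (TS Ln ι S)} {T : TS Ln ι S} (h : T ∈ 𝒯) :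
    cut K0 R T ∈ Cut K0 𝒯 := ⟨T, h, R, rfl⟩



/-- `fin` of a cut class -/
theorem cut_fin {K0 R : ℕ} {T : TS Ln ι S} (i : ℕ) (J : ℤ) (s : (ι → ℕ) × S)
    (h : (cut K0 R T).adm i J s) (j : ι) : s.1 j ≤ R := (Nat.le_add_right _ _).trans (h.2 j)


end

end Crest.Agent.R116.Xc794
namespace Crest.Agent.R116.Xc794.Cfg.Ok
end Crest.Agent.R116.Xc794.Cfg.Ok
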