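import Crest.Agent.R116.Ext3_803
import Crest.Agent.R116.XcCut_794

/-!
# R116 (K side), room below the marks: light-ray test sets with level-dependent range (helper635)

Over 794's `cut K0 R T` (`s.1 j + K0 i ≤ R` at the level `i`).

* `TSK K0` : the family `cut K0 R (TSL r)`, `r ≤ 2^-R` (the resolution is implied by the range).
* `adm_of`  : range ⊢ admissible;  `adm_sub` : sub-members and coarser cells.
* `trivB_cut`, `trivB_K` : `TrivB` (803's proof).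
* `room`, `res_room` : room of the marks of a marked sequence (levels `v < 1`; resolution).
-/

set_option autoImplicit false

open Filter Topology

namespace Crest.Agent.R116.Rm635

open Crest.Agent.R116.LZg725
open Crest.Agent.R116.Xa794 (TS)
open Crest.Agent.R116.KI439 (LRay AdmL volL volL_pos TSL TSS kM0)
open Crest.Agent.R116.Xc794 (cut Cut cut_mem)
open Crest.Agent.R138.Mk163 (zc rho alive)

/-- the family: light-ray test sets, range of slope `K0` (794's `cut`), resolution below the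
range. -/
def TSK (K0 : ℕ) : Set (TS LRay (Fin 2) Mem) :=
  {T | ∃ (r : ℝ) (R : ℕ), 0 < r ∧ r ≤ (1 / 2 : ℝ) ^ R ∧ T = cut K0 R (TSL r)}

theorem TSK_mem {K0 R : ℕ} {r : ℝ} (h0 : 0 < r) (h : r ≤ (1 / 2 : ℝ) ^ R) :
    cut K0 R (TSL r) ∈ TSK K0 := ⟨r, R, h0, h, rfl⟩

theorem TSK_sub (K0 : ℕ) : TSK K0 ⊆ Cut K0 TSS := by
  rintro T ⟨r, R, h0, h1, rfl⟩
  exact cut_mem ⟨r, h0, h1.trans (pow_le_one₀ (by norm_num) (by norm_num)), rfl⟩

/-- change of the resolution. -/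
theorem res' {r r' : ℝ} {i : ℕ} {J : ℤ} {a : Fin 2 → ℕ}
    {m : Mem} (h : AdmL r i J a m) (hr : r' ≤ (1 / 2 : ℝ) ^ (a 1)) : AdmL r' i J a m :=
  { h with res := by rw [h.thin]; exact hr }




open Classical in
/-- **TrivB for the cut family** (803's proof: the covering members have the absolute widths of the
top marks). -/
theorem trivB_cut (K0 : ℕ) : Xc794.TrivB (Cut K0 TSS) := by
  refine ⟨Ext803.KC, by unfold Ext803.KC; norm_num, ?_⟩
  rintro Ψ T ⟨T0, ⟨r, hr, hr1, rfl⟩, R, rfl⟩ F hF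
  obtain ⟨x, hx⟩ := hF.ne
  set i := F.m + F.M with hi
  set J := zc i x.2 with hJ
  set J1 := zc F.m x.2 with hJ1
  have hal : x.1 ∈ alive F.I i J := by
    unfold alive
    exact Finset.mem_image_of_mem _ (Finset.mem_filter.2 ⟨hx, rfl⟩)
  set S := (alive F.I i J).filter fun s => F.f s J = F.f x.1 J with hS
  have hlow := hF.low J x.1 hal
  have hne : S.Nonempty := ⟨x.1, Finset.mem_filter.2 ⟨hal, rfl⟩⟩
  obtain ⟨-, hadm, hshape⟩ := hF.top J x.1 hal
  have hmem : ∀ t ∈ S, F.L t ∈ (F.b (F.f x.1 J)).2.rays 0 := by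
    intro t ht
    obtain ⟨h1, h2⟩ := Finset.mem_filter.1 ht
    have := (hF.top J t h1).1
    rw [h2] at this
    exact this
  have hadm' : AdmL r i J F.a (F.b (F.f x.1 J)).2 := by
    rw [← hshape]
    exact hadm.1
  have hrng : ∀ j, F.a j + K0 * i ≤ R := by
    intro j
    rw [← hshape]
    exact hadm.2 j
  have hanc : Ext803.Anc i J F.m J1 := Ext803.anc_of_zc (Nat.le_add_right _ _) rfl rfl
  obtain ⟨m1, hm1, S', hS', hmS', hcard⟩ := Ext803.cover_one hadm' (Nat.le_add_right _ _) hanc S hne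
    F.L hmem
  have hmi : F.m ≤ i := Nat.le_add_right _ _
  have hup := hF.up J1 (F.a, m1) ⟨hm1, fun j =>
    (Nat.add_le_add_left (Nat.mul_le_mul_left _ hmi) _).trans (hrng j)⟩
  have hsub : S' ⊆ (alive F.I F.m J1).filter fun t =>
      (cut K0 R (TSL r)).mem F.m J1 (F.a, m1) (F.L t) := by
    intro t ht
    have h1 := (Finset.mem_filter.1 (hS' ht)).1
    refine Finset.mem_filter.2 ⟨?_, hmS' t ht⟩
    unfold alive at h1 ⊢
    obtain ⟨y, hy, hyt⟩ := Finset.mem_image.1 h1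
    refine Finset.mem_image.2 ⟨y, ?_, hyt⟩
    have hy1 := (Finset.mem_filter.1 hy).1
    exact Finset.mem_filter.2 ⟨hy1, hF.cell y hy1 x hx⟩
  have hc1 : (S'.card : ℝ) ≤ F.D0 * Xc794.capP (cut K0 R (TSL r)) Ψ i F.a F.m F.a :=
    (by exact_mod_cast Finset.card_le_card hsub : (S'.card : ℝ) ≤ _).trans hup
  have hiF : i - F.m = F.M := by omega
  rw [hiF] at hcard
  have hK : (0:ℝ) ≤ Ext803.KC * 8 ^ F.M := by unfold Ext803.KC; positivity
  have h3 : F.D1 * volL i F.a ≤ Ext803.KC * 8 ^ F.M *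
      (F.D0 * Xc794.capP (cut K0 R (TSL r)) Ψ i F.a F.m F.a) :=
    hlow.trans (hcard.trans (mul_le_mul_of_nonneg_left hc1 hK))
  have hrel : Xc794.rel F.m F.a i F.a = fun _ => (F.M : ℝ) := by
    funext j
    unfold Xc794.rel
    rw [hi]; push_cast; ring
  have hlen : ((i : ℝ) - F.m) = F.M := by rw [hi]; push_cast; ring
  have hcap : Xc794.capP (cut K0 R (TSL r)) Ψ i F.a F.m F.a =
      volL F.m F.a * (2 : ℝ) ^ (-(Ψ F.M fun _ => (F.M : ℝ))) := by
    unfold Xc794.capP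
    rw [hrel, hlen]
    rfl
  have hvol : volL i F.a = volL F.m F.a * 2 ^ F.M := by
    unfold volL
    rw [hi, pow_add]; ring
  rw [hcap, hvol] at h3
  have hv : 0 < volL F.m F.a := volL_pos _ _
  have h2M : (0:ℝ) < 2 ^ F.M := by positivity
  have e4 : (2 : ℝ) ^ (2 * (F.M : ℝ) - Ψ F.M (fun _ => (F.M : ℝ))) =
      4 ^ F.M * (2 : ℝ) ^ (-(Ψ F.M fun _ => (F.M : ℝ))) := by
    rw [sub_eq_add_neg, Real.rpow_add (by norm_num), Real.rpow_mul (by norm_num)]
    norm_num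
  rw [e4]
  have e8 : (8:ℝ) ^ F.M = 4 ^ F.M * 2 ^ F.M := by rw [← mul_pow]; norm_num
  rw [e8] at h3
  have h4 : F.D1 * (volL F.m F.a * 2 ^ F.M) ≤
      (Ext803.KC * (4 ^ F.M * (2 : ℝ) ^ (-(Ψ F.M fun _ => (F.M : ℝ)))) * F.D0) *
        (volL F.m F.a * 2 ^ F.M) := by
    refine h3.trans (le_of_eq ?_)
    ring
  exact le_of_mul_le_mul_right h4 (by positivity)

/-- `TrivB` passes to subfamilies. -/
theorem trivB_sub {Ln ι S : Type} [Fintype ι] {𝒯 𝒯' : Set (TS Ln ι S)} (h : 𝒯' ⊆ 𝒯)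
    (hV : Xc794.TrivB 𝒯) : Xc794.TrivB 𝒯' := by
  obtain ⟨c, hc, h1⟩ := hV
  exact ⟨c, hc, fun Ψ T hT F hF => h1 Ψ T (h hT) F hF⟩

/-- **TrivB of `TSK`.** -/
theorem trivB_K (K0 : ℕ) : Xc794.TrivB (TSK K0) := trivB_sub (TSK_sub K0) (trivB_cut K0)

/-! ### room of the marks -/

open Crest.Agent.R138.Ex926
open Crest.Agent.R136.MkA627 (Geo MkA)

section

variable {σ κ : Type*} {B : Base} {I : ℕ → Finset (ℕ × ℝ)} {G : Geo σ κ} {lev : ℕ → ℚ → ℕ}
    {A : ℕ → ℝ} {c Λ : ℝ → ℝ} {θ : κ → ℝ} {f : ℕ → ℚ → ℕ → ℤ → ℕ} {b : ℕ → ℚ → ℕ → σ}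
    {vm : ℕ → ℚ → ℝ} {w : κ → ℕ → ℚ → ℝ}





end

end Crest.Agent.R116.Rm635
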