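import Mathlib
import Crest.Agent.R136.ZoomA_102
import Crest.Agent.R136.TD3_627
import Crest.Agent.R116.Rl1_899
import Crest.Agent.R116.Rl2_899
import Crest.Agent.R116.Rl5_899

-- ▼ part R116/Rm1_899
section

/-!
# R116, [ROT-LIN] (helper899): zoom onto arbitrary windows with arbitrary window sets

`zoomA_win` : 102's `zoomA` (same proof) with the window sets `IsWin` chosen by the user;
`zoomW` : the same for 627's `TSys` and arbitrary affine windows.
-/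

set_option autoImplicit false
set_option linter.unusedVariables false
set_option linter.unusedSectionVars false

open Finset Filter Topology

namespace Crest.Agent.R116.Rm899

open Crest.Agent.R138.Ex926 (Base U exists_diag)
open Crest.Agent.R138.Mk163 (zc zl rho alive)
open Crest.Agent.R138.MkZoom779
open Crest.Agent.R136.MkA627
open Crest.Agent.R136.ZoomA102 (R1s PW R2s ev_R1 ev_PW ev_R2)

section main

variable {σ κ : Type*} {B : Base} {I : ℕ → Finset (ℕ × ℝ)} {G : Geo σ κ}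
    {lev : ℕ → ℚ → ℕ} {A : ℕ → ℝ} {c Λ : ℝ → ℝ} {τ : κ → ℝ → ℝ} {f : ℕ → ℚ → ℕ → ℤ → ℕ}
    {b : ℕ → ℚ → ℕ → σ} {vm : ℕ → ℚ → ℝ} {w : κ → ℕ → ℚ → ℝ}

/-- **zoom, window sets free** -/
theorem zoomA_win [Countable κ] (H : MkA B I G lev A c Λ τ f b vm w) {h : ℕ → ℝ} {m : ℕ → ℚ → ℚ}
    {c' Λ' : ℝ → ℝ} {τ' : κ → ℝ → ℝ}
    (hpos : ∀ k, 0 < h k) (hle : ∀ k, h k ≤ 1)
    (hmem : ∀ k, ∀ x : ℚ, 0 ≤ x → x ≤ 1 → 0 ≤ m k x ∧ m k x ≤ 1)
    (hmono : ∀ x y : ℚ, 0 ≤ x → x ≤ y → y ≤ 1 → ∀ᶠ k in atTop, m k x ≤ m k y)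
    (hlev : ∀ x y : ℚ, 0 ≤ x → x ≤ y → y ≤ 1 →
      Tendsto (fun k => ((m k y : ℝ) - m k x) / h k) atTop (𝓝 ((y : ℝ) - x)))
    (hc : ∀ x : ℚ, 0 ≤ x → x ≤ 1 →
      Tendsto (fun k => (c (m k x) - c (m k 0)) / h k) atTop (𝓝 (c' x)))
    (hΛ : ∀ x : ℚ, 0 ≤ x → x ≤ 1 →
      Tendsto (fun k => (Λ (m k x) - Λ (m k 0)) / h k) atTop (𝓝 (Λ' x)))
    (hτ : ∀ j, ∀ x : ℚ, 0 ≤ x → x ≤ 1 →
      Tendsto (fun k => (τ j (m k x) - τ j (m k 1)) / h k) atTop (𝓝 (τ' j x)))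
    (hlam : ∀ u v : ℝ, 0 ≤ u → u ≤ v → v ≤ 1 → 0 ≤ Λ' v - Λ' u ∧ Λ' v - Λ' u ≤ v - u)
    (hc0 : c' 0 = 0) (hΛ0 : Λ' 0 = 0) (hτ1 : ∀ j, τ' j 1 = 0) :
    ∃ s0 : ℕ → ℕ, Tendsto s0 U atTop ∧ ∀ s : ℕ → ℕ, Tendsto s U atTop →
      (∀ᶠ n in (U : Filter ℕ), s n ≤ s0 n) →
      ∃ (B' : Base) (A' : ℕ → ℝ), (∀ n, B'.d n = B.d n ^ h (s n)) ∧
        ∀ (I' : ℕ → Finset (ℕ × ℝ)) (J0 : ℕ → ℤ),
          (∀ n, IsWin (I n) (I' n) (lev n (m (s n) 0)) (lev n (m (s n) 1)) (J0 n)) →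
          (∀ n, (I n).Nonempty → (I' n).Nonempty) →
        MkA B' I' G (fun n x => lev n (m (s n) x)) A' c' Λ' τ' (fun n x => f n (m (s n) x))
          (fun n x => b n (m (s n) x)) (fun n x => vm n (m (s n) x))
          (fun j n x => w j n (m (s n) x)) := by
  classical
  obtain ⟨enc, henc⟩ := Countable.exists_injective_nat κ
  have hfin : ∀ k : ℕ, {j : κ | enc j ≤ k}.Finite := fun k =>
    (Set.finite_Iic k).preimage henc.injOn
  have hevκ : ∀ j : κ, ∀ᶠ k : ℕ in atTop, j ∈ {j : κ | enc j ≤ k} := fun j => by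
    filter_upwards [eventually_ge_atTop (enc j)] with k hk using hk
  -- the stages
  obtain ⟨s0, hs0, hs0'⟩ := exists_diag (fun k n =>
    ((k : ℝ) + 1) ≤ h k * B.L n ∧ Real.log ((I n).card : ℝ) ≤ B.d n ^ (-(del h k)) ∧
    (I n).Nonempty ∧ (∀ x ∈ Fq k, R1s B I G lev A c f b vm w (m k x) (del h k) n) ∧
    (∀ x ∈ Fq k, ∀ y ∈ Fq k, m k x ≤ m k y → R2s B I lev Λ (m k x) (m k y) (del h k) n) ∧
    ∀ j ∈ {j : κ | enc j ≤ k}, (0 < w j n 1 ∧
      ∀ x ∈ Fq k, PW B lev τ w j (m k x) (del h k) n)) (by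
    intro k
    have hd := del_pos hpos k
    have e1 : ∀ᶠ n in (U : Filter ℕ), ((k : ℝ) + 1) ≤ h k * B.L n := by
      filter_upwards [B.ev_L_ge (((k : ℝ) + 1) / h k)] with n hn
      rw [div_le_iff₀ (hpos k)] at hn
      linarith
    have e4 : ∀ᶠ n in (U : Filter ℕ), ∀ x ∈ Fq k,
        R1s B I G lev A c f b vm w (m k x) (del h k) n := by
      rw [Filter.eventually_all_finset]
      intro x hx
      obtain ⟨hx0, hx1⟩ := Fq_mem hx
      exact ev_R1 H (hmem k x hx0 hx1).1 (hmem k x hx0 hx1).2 hd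
    have e5 : ∀ᶠ n in (U : Filter ℕ), ∀ x ∈ Fq k, ∀ y ∈ Fq k, m k x ≤ m k y →
        R2s B I lev Λ (m k x) (m k y) (del h k) n := by
      rw [Filter.eventually_all_finset]
      intro x hx
      rw [Filter.eventually_all_finset]
      intro y hy
      obtain ⟨hx0, hx1⟩ := Fq_mem hx
      obtain ⟨hy0, hy1⟩ := Fq_mem hy
      rcases le_or_gt (m k x) (m k y) with hxy | hxy
      · filter_upwards [ev_R2 H (hmem k x hx0 hx1).1 hxy (hmem k y hy0 hy1).2 hd] with n hn _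
        exact hn
      · exact Eventually.of_forall fun n hn => absurd hn (not_le.2 hxy)
    have e6 : ∀ᶠ n in (U : Filter ℕ), ∀ j ∈ {j : κ | enc j ≤ k}, (0 < w j n 1 ∧
        ∀ x ∈ Fq k, PW B lev τ w j (m k x) (del h k) n) := by
      rw [Filter.eventually_all_finite (hfin k)]
      intro j hj
      refine (H.wpos j 1 zero_le_one le_rfl).and ?_
      rw [Filter.eventually_all_finset]
      intro x hx
      obtain ⟨hx0, hx1⟩ := Fq_mem hx
      exact ev_PW H j (hmem k x hx0 hx1).1 (hmem k x hx0 hx1).2 hd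
    filter_upwards [e1, H.card (del h k) hd, H.ne, e4, e5, e6] with n a1 a2 a3 a4 a5 a6
    exact ⟨a1, a2, a3, a4, a5, a6⟩)
  refine ⟨s0, hs0, fun s hs hsle => ?_⟩
  have hP := (hs0'.and hsle).mono fun n hn => hn.1 (s n) hn.2
  have hF : ∀ x : ℚ, 0 ≤ x → x ≤ 1 → ∀ᶠ n in (U : Filter ℕ), x ∈ Fq (s n) := fun x h0 h1 =>
    hs.eventually (ev_mem_Fq h0 h1)
  have hM : ∀ x y : ℚ, 0 ≤ x → x ≤ y → y ≤ 1 → ∀ᶠ n in (U : Filter ℕ), m (s n) x ≤ m (s n) y :=
    fun x y h0 h1 h2 => hs.eventually (hmono x y h0 h1 h2)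
  -- the base
  have hlim : Tendsto (fun n => h (s n) * B.L n) U atTop := by
    have h1 : Tendsto (fun n => (s n : ℝ)) U atTop := tendsto_natCast_atTop_atTop.comp hs
    refine tendsto_atTop_mono' _ ?_ h1
    filter_upwards [hP] with n hn
    linarith [hn.1]
  obtain ⟨B', hB', hL'⟩ := exists_base B (fun n => hpos (s n)) hlim
  have hBp : ∀ n a, B'.d n ^ a = B.d n ^ (h (s n) * a) := by
    intro n a
    rw [hB', ← Real.rpow_mul (B.pos n).le]
  -- amplitude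
  set A' : ℕ → ℝ := fun n => A n * B.d n ^ (-(c (m (s n) 0))) with hA'
  -- errors
  have hem : ∀ x : ℚ, 0 ≤ x → x ≤ 1 → ∀ ε : ℝ, 0 < ε → ∀ᶠ n in (U : Filter ℕ),
      |((m (s n) x : ℝ) - m (s n) 0) - h (s n) * x| ≤ ε * h (s n) := by
    intro x h0 h1 ε hε
    have h2 := hlev 0 x le_rfl h0 h1
    rw [Rat.cast_zero, sub_zero] at h2
    exact err (a := fun k => (m k x : ℝ) - m k 0) hpos h2 hs hε
  have hec : ∀ x : ℚ, 0 ≤ x → x ≤ 1 → ∀ ε : ℝ, 0 < ε → ∀ᶠ n in (U : Filter ℕ),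
      |(c (m (s n) x) - c (m (s n) 0)) - h (s n) * c' x| ≤ ε * h (s n) := by
    intro x h0 h1 ε hε
    exact err (a := fun k => c (m k x) - c (m k 0)) hpos (hc x h0 h1) hs hε
  have heΛ : ∀ x : ℚ, 0 ≤ x → x ≤ 1 → ∀ ε : ℝ, 0 < ε → ∀ᶠ n in (U : Filter ℕ),
      |(Λ (m (s n) x) - Λ (m (s n) 0)) - h (s n) * Λ' x| ≤ ε * h (s n) := by
    intro x h0 h1 ε hε
    exact err (a := fun k => Λ (m k x) - Λ (m k 0)) hpos (hΛ x h0 h1) hs hε
  have heτ : ∀ j, ∀ x : ℚ, 0 ≤ x → x ≤ 1 → ∀ ε : ℝ, 0 < ε → ∀ᶠ n in (U : Filter ℕ),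
      |(τ j (m (s n) x) - τ j (m (s n) 1)) - h (s n) * τ' j x| ≤ ε * h (s n) := by
    intro j x h0 h1 ε hε
    exact err (a := fun k => τ j (m k x) - τ j (m k 1)) hpos (hτ j x h0 h1) hs hε
  -- comparison of the amplitudes
  have hamp : ∀ x : ℚ, 0 ≤ x → x ≤ 1 → ∀ ε : ℝ, 0 < ε → ∀ᶠ n in (U : Filter ℕ),
      ampA B A c n (m (s n) x) ≤ B.d n ^ (-(ε * h (s n))) * ampA B' A' c' n x ∧
      ampA B' A' c' n x ≤ B.d n ^ (-(ε * h (s n))) * ampA B A c n (m (s n) x) := by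
    intro x h0 h1 ε hε
    filter_upwards [hec x h0 h1 ε hε] with n a2
    obtain ⟨a2, a2'⟩ := abs_le.1 a2
    have hAn := H.Apos n
    unfold ampA
    rw [hBp, hA']
    simp only
    constructor
    · have e3 : B.d n ^ (-(ε * h (s n))) * (A n * B.d n ^ (-(c (m (s n) 0))) *
          B.d n ^ (h (s n) * (-(c' x)))) =
          A n * B.d n ^ (-(ε * h (s n)) + -(c (m (s n) 0)) + h (s n) * (-(c' x))) := by
        rw [Real.rpow_add (B.pos n), Real.rpow_add (B.pos n)]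
        ring
      rw [e3]
      have h2 := dpow_le B n (a := -(ε * h (s n)) + -(c (m (s n) 0)) + h (s n) * (-(c' x)))
        (b := -(c (m (s n) x))) (by linarith)
      gcongr
    · have e3 : B.d n ^ (-(ε * h (s n))) * (A n * B.d n ^ (-(c (m (s n) x)))) =
          A n * B.d n ^ (-(ε * h (s n)) + -(c (m (s n) x))) := by
        rw [Real.rpow_add (B.pos n)]
        ring
      have e4 : A n * B.d n ^ (-(c (m (s n) 0))) * B.d n ^ (h (s n) * (-(c' x))) =
          A n * B.d n ^ (-(c (m (s n) 0)) + h (s n) * (-(c' x))) := by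
        rw [Real.rpow_add (B.pos n)]
        ring
      rw [e3, e4]
      have h2 := dpow_le B n (a := -(ε * h (s n)) + -(c (m (s n) x)))
        (b := -(c (m (s n) 0)) + h (s n) * (-(c' x))) (by linarith)
      gcongr
  have hamp0 : ∀ n x, 0 < ampA B A c n x := by
    intro n x
    unfold ampA
    exact mul_pos (H.Apos n) (dpow_pos B n _)
  have hamp0' : (∀ n, 0 < A' n) → ∀ n x, 0 < ampA B' A' c' n x := by
    intro hA0 n x
    unfold ampA
    exact mul_pos (hA0 n) (dpow_pos B' n _)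
  -- nested levels
  have hlv0 : ∀ x : ℚ, 0 ≤ x → x ≤ 1 → ∀ᶠ n in (U : Filter ℕ),
      lev n (m (s n) 0) ≤ lev n (m (s n) x) ∧ lev n (m (s n) x) ≤ lev n (m (s n) 1) := by
    intro x h0 h1
    filter_upwards [hP, hF x h0 h1, hM 0 x le_rfl h0 h1, hM x 1 h0 h1 le_rfl] with n a1 a2 a3 a4
    exact ⟨(a1.2.2.2.2.1 0 (zero_mem_Fq _) x a2 a3).le,
      (a1.2.2.2.2.1 x a2 1 (one_mem_Fq _) a4).le⟩
  refine ⟨B', A', hB', fun I' J0 hwin hne => ?_⟩
  refine
    { ne := ?_, card := ?_, Apos := ?_, c0 := hc0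
      lam0 := hΛ0, lam := hlam, tau1 := hτ1, lev_mono := ?_, lev_lim := ?_, cell0 := ?_, one := ?_
      own := ?_, dmax := ?_, mark := ?_, near := ?_, vpos := ?_, wpos := ?_, tau := ?_ }
  · -- ne
    filter_upwards [hP] with n hn using hne n hn.2.2.1
  · -- card
    intro ε hε
    filter_upwards [hP, ev_del hpos hs hε] with n hn hd
    rw [hBp]
    have h1 : (0 : ℝ) < (I' n).card := by exact_mod_cast Finset.card_pos.2 (hne n hn.2.2.1)
    have h2 : ((I' n).card : ℝ) ≤ (I n).card := by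
      exact_mod_cast Finset.card_le_card (hwin n).sub
    refine (Real.log_le_log h1 h2).trans (hn.2.1.trans (dpow_le B n ?_))
    linarith
  · -- Apos
    intro n
    exact mul_pos (H.Apos n) (dpow_pos B n _)
  · -- lev_mono
    intro u v h0 huv h1
    filter_upwards [hP, hF u h0 (huv.trans h1), hF v (h0.trans huv) h1, hM u v h0 huv h1]
      with n a1 a2 a3 a4
    exact (a1.2.2.2.2.1 u a2 v a3 a4).le
  · -- lev_lim
    intro u v h0 huv h1
    rw [Metric.tendsto_nhds]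
    intro ε hε
    filter_upwards [hP, hF u h0 (huv.trans h1), hF v (h0.trans huv) h1, hM u v h0 huv h1,
      hem u h0 (huv.trans h1) (ε / 8) (by positivity),
      hem v (h0.trans huv) h1 (ε / 8) (by positivity), ev_del hpos hs (ε := ε / 4) (by positivity)]
      with n a1 a2 a3 a4 a5 a6 a7
    have hh := hpos (s n)
    have hLn := B.L_pos n
    have h2 := (a1.2.2.2.2.1 u a2 v a3 a4).ll
    rw [Real.dist_eq, hL']
    set X : ℝ := ((lev n (m (s n) v) : ℝ) - lev n (m (s n) u)) * Real.log 2 / B.L n with hX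
    have e1 : ((lev n (m (s n) v) : ℝ) - lev n (m (s n) u)) * Real.log 2 / (h (s n) * B.L n) -
        ((v : ℝ) - u) = (X - h (s n) * (v - u)) / h (s n) := by
      rw [hX]
      field_simp
    rw [e1, abs_div, abs_of_pos hh, div_lt_iff₀ hh]
    have h3 : |X - h (s n) * (v - u)| ≤ 3 / 4 * ε * h (s n) := by
      rw [abs_le] at h2 a5 a6 ⊢
      constructor <;> nlinarith
    have : 0 < ε * h (s n) := mul_pos hε hh
    linarith
  · -- cell0
    refine Eventually.of_forall fun n x hx y hy => ?_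
    exact ((hwin n).cell x hx).trans ((hwin n).cell y hy).symm
  · -- one
    exact Eventually.of_forall fun n x hx y hy h1 h2 => (hwin n).one x hx y hy h1 h2
  · -- own
    intro u v h0 huv h1 ε hε
    filter_upwards [hP, hF u h0 (huv.trans h1), hF v (h0.trans huv) h1, hM u v h0 huv h1,
      hem u h0 (huv.trans h1) (ε / 8) (by positivity),
      hem v (h0.trans huv) h1 (ε / 8) (by positivity),
      heΛ u h0 (huv.trans h1) (ε / 8) (by positivity),
      heΛ v (h0.trans huv) h1 (ε / 8) (by positivity),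
      ev_del hpos hs (ε := ε / 4) (by positivity), hlv0 u h0 (huv.trans h1),
      hlv0 v (h0.trans huv) h1]
      with n a1 a2 a3 a4 a5 a6 b5 b6 a7 c1 c2 x hx
    have h2 := (a1.2.2.2.2.1 u a2 v a3 a4).ow x ((hwin n).sub hx)
    rw [own_eq (hwin n) c1.1 c1.2 c2.2 hx, hBp, hBp]
    have hh := hpos (s n)
    rw [abs_le] at a5 a6 b5 b6
    constructor
    · refine le_trans (dpow_le B n ?_) h2.1
      nlinarith
    · refine h2.2.trans (dpow_le B n ?_)
      nlinarith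
  · -- dmax
    intro v h0 h1 ε hε
    filter_upwards [hP, hF v h0 h1, hamp v h0 h1 (ε / 2) (by positivity),
      ev_del hpos hs (ε := ε / 2) (by positivity)] with n a1 a2 a3 a4 J σ0 hσ0
    have h2 := (a1.2.2.2.1 v a2).dm J σ0 hσ0
    have hp0 : 0 < B.d n ^ (-del h (s n)) * ampA B A c n (m (s n) v) :=
      mul_pos (dpow_pos B n _) (hamp0 n _)
    have hval : 0 ≤ G.val n (lev n (m (s n) v)) J σ0 := by
      by_contra hneg
      have h3 := mul_neg_of_pos_of_neg hp0 (not_le.1 hneg)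
      have h4 : (0 : ℝ) ≤ (((alive (I n) (lev n (m (s n) v)) J).filter fun t =>
        G.mem n (lev n (m (s n) v)) J σ0 t).card : ℝ) := by positivity
      linarith
    have h3 : (((alive (I' n) (lev n (m (s n) v)) J).filter fun t =>
        G.mem n (lev n (m (s n) v)) J σ0 t).card : ℝ) ≤
        (((alive (I n) (lev n (m (s n) v)) J).filter fun t =>
        G.mem n (lev n (m (s n) v)) J σ0 t).card : ℝ) := by
      exact_mod_cast Finset.card_le_card (Finset.filter_subset_filter _ (alive_sub (hwin n) J))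
    refine h3.trans (h2.trans (mul_le_mul_of_nonneg_right ?_ hval))
    rw [hBp]
    calc B.d n ^ (-del h (s n)) * ampA B A c n (m (s n) v)
        ≤ B.d n ^ (-(ε / 2 * h (s n))) * (B.d n ^ (-(ε / 2 * h (s n))) *
          ampA B' A' c' n v) := by
          have h4 := dpow_le B n (a := -(ε / 2 * h (s n))) (b := -del h (s n)) (by linarith)
          have h5 := (hamp0 n (m (s n) v)).le
          have h6 := (dpow_pos B n (-(ε / 2 * h (s n)))).le
          exact mul_le_mul h4 a3.1 h5 h6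
      _ = _ := by
          rw [← mul_assoc, ← Real.rpow_add (B.pos n)]
          congr 2
          ring
  · -- mark
    intro v h0 h1
    filter_upwards [hP, hF v h0 h1] with n a1 a2 J t ht
    exact (a1.2.2.2.1 v a2).mr J t (alive_sub (hwin n) J ht)
  · -- near
    intro v h0 h1 ε hε
    filter_upwards [hP, hF v h0 h1, hamp v h0 h1 (ε / 2) (by positivity),
      ev_del hpos hs (ε := ε / 2) (by positivity), hlv0 v h0 h1] with n a1 a2 a3 a4 c1 J t ht
    have hp1 := a1.2.2.2.1 v a2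
    have hal := alive_eq (hwin n) c1.1 c1.2 ⟨t, ht⟩
    have h2 := hp1.nr J t (by rw [← hal]; exact ht)
    rw [hal]
    have hX : (0 : ℝ) ≤ (((alive (I n) (lev n (m (s n) v)) J).filter fun s_1 =>
        f n (m (s n) v) s_1 J = f n (m (s n) v) t J).card : ℝ) := by positivity
    calc ampA B' A' c' n v * vm n (m (s n) v)
        ≤ (B.d n ^ (-(ε / 2 * h (s n))) * ampA B A c n (m (s n) v)) * vm n (m (s n) v) :=
          mul_le_mul_of_nonneg_right a3.2 hp1.vp.le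
      _ = B.d n ^ (-(ε / 2 * h (s n))) * (ampA B A c n (m (s n) v) * vm n (m (s n) v)) := by ring
      _ ≤ B.d n ^ (-(ε / 2 * h (s n))) * (B.d n ^ (-del h (s n)) *
          (((alive (I n) (lev n (m (s n) v)) J).filter fun s_1 =>
          f n (m (s n) v) s_1 J = f n (m (s n) v) t J).card : ℝ)) :=
          mul_le_mul_of_nonneg_left h2 (dpow_pos B n _).le
      _ ≤ B.d n ^ (-(ε / 2 * h (s n))) * (B.d n ^ (-(ε / 2 * h (s n))) *
          (((alive (I n) (lev n (m (s n) v)) J).filter fun s_1 =>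
          f n (m (s n) v) s_1 J = f n (m (s n) v) t J).card : ℝ)) := by
          refine mul_le_mul_of_nonneg_left (mul_le_mul_of_nonneg_right ?_ hX) (dpow_pos B n _).le
          exact dpow_le B n (by linarith)
      _ = _ := by
          rw [hBp, ← mul_assoc, ← Real.rpow_add (B.pos n)]
          congr 2
          ring
  · -- vpos
    intro v h0 h1
    filter_upwards [hP, hF v h0 h1] with n a1 a2
    exact (a1.2.2.2.1 v a2).vp
  · -- wpos
    intro j v h0 h1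
    filter_upwards [hP, hF v h0 h1, hs.eventually (hevκ j)] with n a1 a2 a3
    exact ((a1.2.2.2.2.2 j a3).2 v a2).wp
  · -- tau
    intro j v h0 h1
    rw [Metric.tendsto_nhds]
    intro ε hε
    filter_upwards [hP, hF v h0 h1, heτ j v h0 h1 (ε / 4) (by positivity),
      ev_del hpos hs (ε := ε / 4) (by positivity), hs.eventually (hevκ j)]
      with n a1 a2 a5 a7 a8
    have hh := hpos (s n)
    have hLn := B.L_pos n
    have hp0 := a1.2.2.2.2.2 j a8
    have hp1 := hp0.2 v a2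
    have hp2 := hp0.2 1 (one_mem_Fq _)
    have t1 := hp1.ta
    have t2 := hp2.ta
    have hr : ∀ i : ℕ, 0 < rho i := fun i => by
      unfold Crest.Agent.R138.Mk163.rho; positivity
    have hw2v : 0 < w j n (m (s n) v) := hp1.wp
    have hw21 : 0 < w j n (m (s n) 1) := hp2.wp
    have hw1 : 0 < w j n 1 := hp0.1
    rw [Real.dist_eq, hL']
    set Rv : ℝ := rho (lev n (m (s n) v)) / w j n (m (s n) v) with hRv
    set Rm : ℝ := rho (lev n (m (s n) 1)) / w j n (m (s n) 1) with hRm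
    set R1 : ℝ := rho (lev n 1) / w j n 1 with hR1
    have pv : 0 < Rv := div_pos (hr _) hw2v
    have pm : 0 < Rm := div_pos (hr _) hw21
    have p1 : 0 < R1 := div_pos (hr _) hw1
    rw [Real.log_div pv.ne' p1.ne'] at t1
    rw [Real.log_div pm.ne' p1.ne'] at t2
    rw [Real.log_div pv.ne' pm.ne']
    set X : ℝ := (Real.log Rv - Real.log R1) / B.L n with hX
    set Y : ℝ := (Real.log Rm - Real.log R1) / B.L n with hY
    have e1 : (Real.log Rv - Real.log Rm) / (h (s n) * B.L n) - τ' j v =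
        ((X - Y) - h (s n) * τ' j v) / h (s n) := by
      rw [hX, hY]
      field_simp
      ring
    rw [e1, abs_div, abs_of_pos hh, div_lt_iff₀ hh]
    have h3 : |(X - Y) - h (s n) * τ' j v| ≤ 3 / 4 * ε * h (s n) := by
      rw [abs_le] at t1 t2 a5 ⊢
      constructor <;> nlinarith
    have : 0 < ε * h (s n) := mul_pos hε hh
    linarith


end main

section tsys

open Crest.Agent.R138.Dp76 hiding dpow_pos dpow_le
open Crest.Agent.R138.Ps926
open Crest.Agent.R136.Net191 (Mons)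
open Crest.Agent.R136.Slt627 (log_dpow log_sc eq_exp)
open Crest.Agent.R136.TD627

variable {σ κ φ : Type*} {m : ℕ} {P : TDist φ m} {G : Geo σ κ} {g s : ℝ} {θ : κ → ℝ}
    {β : Fin m → ℝ} {B : Base} {I : ℕ → Finset (ℕ × ℝ)} {lev : ℕ → ℚ → ℕ} {A : ℕ → ℝ}
    {f : ℕ → ℚ → ℕ → ℤ → ℕ} {b : ℕ → ℚ → ℕ → σ} {vm : ℕ → ℚ → ℝ} {w : κ → ℕ → ℚ → ℝ}
    {fr : ℕ → ℚ → ℕ × ℝ → φ} {pr : Fin m → ℕ → ℚ → ℝ} {fl : ℕ → ℕ × ℝ → φ} {sc : Fin m → ℕ → ℝ}

/-- **zoom onto arbitrary affine windows, window sets free** -/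
theorem zoomW [Countable κ]
    (h : TSys P G g s θ β B I lev A f b vm w fr pr fl sc) {η : ℕ → ℝ} {mm : ℕ → ℚ → ℚ}
    (hη : ∀ k, 0 < η k) (hη1 : ∀ k, η k ≤ 1)
    (hm : ∀ k, ∀ x : ℚ, 0 ≤ x → x ≤ 1 → 0 ≤ mm k x ∧ mm k x ≤ 1)
    (hq' : ∀ k, ∀ x y : ℚ, (mm k y : ℝ) - mm k x = η k * ((y : ℝ) - x)) :
      ∃ s0 : ℕ → ℕ, Tendsto s0 U atTop ∧ ∀ t : ℕ → ℕ, Tendsto t U atTop →
        (∀ᶠ n in (U : Filter ℕ), t n ≤ s0 n) →
        ∃ (B' : Base) (A' : ℕ → ℝ),
          (∀ n, B'.d n = B.d n ^ η (t n)) ∧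
          ∀ (I' : ℕ → Finset (ℕ × ℝ)) (J0 : ℕ → ℤ),
          (∀ n, IsWin (I n) (I' n) (lev n (mm (t n) 0)) (lev n (mm (t n) 1)) (J0 n)) →
          (∀ n, (I n).Nonempty → (I' n).Nonempty) →
          TSys P G g s θ β B' I' (fun n x => lev n (mm (t n) x)) A'
            (fun n x => f n (mm (t n) x)) (fun n x => b n (mm (t n) x))
            (fun n x => vm n (mm (t n) x)) (fun j n x => w j n (mm (t n) x))
            (fun n x => fr n (mm (t n) x)) (fun j n x => pr j n (mm (t n) x)) fl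
            (fun j n => sc j n * B.d n ^ (β j * mm (t n) 0)) := by
  classical
  have hq : ∀ k, ∀ x y : ℚ, ((mm k y : ℝ) - mm k x) / η k = (y : ℝ) - x := by
    intro k x y
    rw [div_eq_iff (hη k).ne', hq' k x y]
    ring
  have hmono : ∀ k, ∀ x y : ℚ, x ≤ y → mm k x ≤ mm k y := by
    intro k x y hxy
    have h1 := hq' k x y
    have h2 : (x : ℝ) ≤ y := by exact_mod_cast hxy
    have h3 : 0 ≤ η k * ((y : ℝ) - x) := mul_nonneg (hη k).le (by linarith)
    have h4 : (mm k x : ℝ) ≤ mm k y := by linarith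
    exact_mod_cast h4
  have hs01 : 0 ≤ s ∧ s ≤ 1 := by
    have := h.mka.lam 0 1 le_rfl zero_le_one le_rfl
    simpa using this
  obtain ⟨s1, hs1, hz⟩ := zoomA_win h.mka (h := η) (m := mm) (c' := fun v => g * v)
    (Λ' := fun v => s * v) (τ' := fun j v => θ j * (1 - v)) hη hη1 hm
    (fun x y _ hxy _ => Eventually.of_forall fun k => hmono k x y hxy)
    (fun x y _ _ _ => by
      simp only [hq]
      exact tendsto_const_nhds)
    (fun x hx0 hx1 => by
      have e1 : ∀ k, (g * (mm k x : ℝ) - g * (mm k 0 : ℝ)) / η k = g * x := by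
        intro k
        rw [← mul_sub, hq' k 0 x]
        have := (hη k).ne'
        push_cast
        field_simp
        ring
      simp only [e1]
      exact tendsto_const_nhds)
    (fun x hx0 hx1 => by
      have e1 : ∀ k, (s * (mm k x : ℝ) - s * (mm k 0 : ℝ)) / η k = s * x := by
        intro k
        rw [← mul_sub, hq' k 0 x]
        have := (hη k).ne'
        push_cast
        field_simp
        ring
      simp only [e1]
      exact tendsto_const_nhds)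
    (fun j x hx0 hx1 => by
      have e1 : ∀ k, (θ j * (1 - (mm k x : ℝ)) - θ j * (1 - (mm k 1 : ℝ))) / η k =
          θ j * (1 - x) := by
        intro k
        have e2 : θ j * (1 - (mm k x : ℝ)) - θ j * (1 - (mm k 1 : ℝ)) =
            θ j * ((mm k 1 : ℝ) - mm k x) := by ring
        rw [e2, hq' k x 1]
        have := (hη k).ne'
        push_cast
        field_simp
      simp only [e1]
      exact tendsto_const_nhds)
    (fun u v hu huv hv => by
      have e1 : s * v - s * u = s * (v - u) := by ring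
      rw [e1]
      exact ⟨mul_nonneg hs01.1 (by linarith), by nlinarith⟩)
    (by simp) (by simp) (by simp)
  -- slot properties on the diagonal
  have hkp : ∀ k : ℕ, (0 : ℝ) < η k / (k + 1) := fun k => div_pos (hη k) (by positivity)
  obtain ⟨s2, hs2, hs2'⟩ := exists_diag (fun k n => ∀ j : Fin m, (∀ x ∈ Fq k,
    0 < pr j n (mm k x) ∧
    |Real.log (sc j n / pr j n (mm k x)) / B.L n - β j * (mm k x : ℝ)| ≤ η k / (k + 1) ∧
    (∀ p ∈ I n, P.d j n (fl n p) (fr n (mm k x) p) ≤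
      pr j n (mm k x) * B.d n ^ (-(η k / (k + 1)))) ∧
    (∀ p ∈ I n, ∀ y ∈ I n, y.1 = p.1 → zc (lev n (mm k x)) y.2 = zc (lev n (mm k x)) p.2 →
      P.d j n (fr n (mm k x) p) (fr n (mm k x) y) ≤
        pr j n (mm k x) * B.d n ^ (-(η k / (k + 1)))) ∧
    ∀ a ∈ P.M.mon j, ∏ t, pr t n (mm k x) ^ a t ≤
      pr j n (mm k x) * B.d n ^ (-(η k / (k + 1))))) (by
    intro k
    rw [Filter.eventually_all]
    intro j
    rw [Filter.eventually_all_finset]
    intro x hx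
    obtain ⟨hx0, hx1⟩ := Fq_mem hx
    obtain ⟨hm0, hm1⟩ := hm k x hx0 hx1
    have ht := (Metric.tendsto_nhds.1 (h.prc j (mm k x) hm0 hm1)) _ (hkp k)
    have hwp : ∀ᶠ n in (U : Filter ℕ), ∀ a ∈ P.M.mon j, ∏ t, pr t n (mm k x) ^ a t ≤
        pr j n (mm k x) * B.d n ^ (-(η k / (k + 1))) := by
      rw [Filter.eventually_all_finset]
      intro a ha
      exact h.wpr j a ha (mm k x) hm0 hm1 _ (hkp k)
    filter_upwards [h.prpos j (mm k x) hm0 hm1, ht, h.close j (mm k x) hm0 hm1 _ (hkp k),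
      h.cell j (mm k x) hm0 hm1 _ (hkp k), hwp] with n a1 a2 a3 a4 a5
    rw [Real.dist_eq] at a2
    exact ⟨a1, a2.le, a3, a4, a5⟩)
  refine ⟨fun n => min (s1 n) (s2 n), ?_, fun t ht hts => ?_⟩
  · rw [tendsto_atTop]
    intro c
    filter_upwards [tendsto_atTop.1 hs1 c, tendsto_atTop.1 hs2 c] with n h1 h2
    exact le_min h1 h2
  obtain ⟨B', A', hBd, hMk0⟩ := hz t ht (by
    filter_upwards [hts] with n hn using hn.trans (min_le_left _ _))
  have hQ := (hs2'.and hts).mono fun n hn => hn.1 (t n) (hn.2.trans (min_le_right _ _))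
  have hFq : ∀ x : ℚ, 0 ≤ x → x ≤ 1 → ∀ᶠ n in (U : Filter ℕ), x ∈ Fq (t n) := fun x h0 h1 =>
    ht.eventually (ev_mem_Fq h0 h1)
  have hBL : ∀ n, B'.L n = η (t n) * B.L n := by
    intro n
    have : Real.log (B'.d n) = Real.log (B.d n ^ η (t n)) := by rw [hBd n]
    rw [log_dpow] at this
    have h2 : B'.L n = - Real.log (B'.d n) := rfl
    rw [h2, this]; ring
  have hBp : ∀ n (y : ℝ), B'.d n ^ y = B.d n ^ (η (t n) * y) := by
    intro n y
    rw [hBd n, ← Real.rpow_mul (B.pos n).le]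
  have htend : Tendsto (fun n => 1 / ((t n : ℝ) + 1)) U (𝓝 0) :=
    tendsto_one_div_add_atTop_nhds_zero_nat.comp ht
  have hsmall : ∀ ε : ℝ, 0 < ε → ∀ᶠ n in (U : Filter ℕ), η (t n) / ((t n : ℝ) + 1) ≤ η (t n) * ε := by
    intro ε hε
    filter_upwards [(Metric.tendsto_nhds.1 htend) ε hε] with n a3
    rw [Real.dist_eq, sub_zero, abs_of_pos (by positivity)] at a3
    have e3 : η (t n) / ((t n : ℝ) + 1) = η (t n) * (1 / ((t n : ℝ) + 1)) := by ring
    rw [e3]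
    exact mul_le_mul_of_nonneg_left a3.le (hη _).le
  refine ⟨B', A', hBd, fun I' J0 hwin hne => ?_⟩
  have hI' : ∀ n, I' n ⊆ I n := fun n => (hwin n).sub
  refine ⟨hMk0 I' J0 hwin hne, fun j n => mul_pos (h.scpos j n) (dpow_pos B n _), ?_, ?_, ?_,
    ?_, ?_⟩
  · intro j v h0 h1
    filter_upwards [hQ, hFq v h0 h1] with n a1 a2 using (a1 j v a2).1
  · intro j v h0 h1
    rw [Metric.tendsto_nhds]
    intro ε hε
    filter_upwards [hQ, hFq v h0 h1, (Metric.tendsto_nhds.1 htend) ε hε] with n a1 a2 a3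
    obtain ⟨b1, b2, -⟩ := a1 j v a2
    have hL := B.L_pos n
    have hp := hη (t n)
    have hk1 : (0 : ℝ) < (t n : ℝ) + 1 := by positivity
    rw [Real.dist_eq] at a3 ⊢
    rw [sub_zero, abs_of_pos (by positivity)] at a3
    rw [log_sc (h.scpos j n) b1, hBL n]
    have e1 : (Real.log (sc j n / pr j n (mm (t n) v)) - β j * (mm (t n) 0 : ℝ) * B.L n) /
        (η (t n) * B.L n) - β j * v =
        (Real.log (sc j n / pr j n (mm (t n) v)) / B.L n - β j * (mm (t n) v : ℝ)) / η (t n) := by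
      have e2 : (mm (t n) v : ℝ) = mm (t n) 0 + η (t n) * v := by
        have := hq' (t n) 0 v
        push_cast at this
        linarith
      rw [e2]
      field_simp
      ring
    rw [e1, abs_div, abs_of_pos hp, div_lt_iff₀ hp]
    refine lt_of_le_of_lt b2 ?_
    rw [div_eq_mul_one_div, mul_comm ε]
    exact mul_lt_mul_of_pos_left a3 hp
  · intro j v h0 h1 ε hε
    filter_upwards [hQ, hFq v h0 h1, hsmall ε hε] with n a1 a2 a3 p hp y hy hyp hz
    obtain ⟨b1, -, -, b4, -⟩ := a1 j v a2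
    refine (b4 p (hI' n hp) y (hI' n hy) hyp hz).trans ?_
    rw [hBp]
    refine mul_le_mul_of_nonneg_left (dpow_le B n ?_) b1.le
    linarith
  · intro j v h0 h1 ε hε
    filter_upwards [hQ, hFq v h0 h1, hsmall ε hε] with n a1 a2 a3 p hp
    obtain ⟨b1, -, b3, -, -⟩ := a1 j v a2
    refine (b3 p (hI' n hp)).trans ?_
    rw [hBp]
    refine mul_le_mul_of_nonneg_left (dpow_le B n ?_) b1.le
    linarith
  · intro j a ha v h0 h1 ε hε
    filter_upwards [hQ, hFq v h0 h1, hsmall ε hε] with n a1 a2 a3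
    obtain ⟨b1, -, -, -, b5⟩ := a1 j v a2
    refine (b5 a ha).trans ?_
    rw [hBp]
    refine mul_le_mul_of_nonneg_left (dpow_le B n ?_) b1.le
    linarith


end tsys

end Crest.Agent.R116.Rm899
end

-- ▼ part R116/Rm2_899
section

/-!
# R116, [ROT-LIN] (helper899): window sets adapted to heavy strips (finite counting)

`heavy_window` : if most incidences of `X` see a heavy strip (`K1` incidences of their line and cell of
level `i0`), there is a cell `J0`, a window set `I'` of `X` in `J0` and a part `Y` of `I'` of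
proportional size all of whose lines lie in one strip.
-/

set_option autoImplicit false
set_option linter.unusedVariables false
set_option linter.unusedSectionVars false

open Finset Filter Topology

namespace Crest.Agent.R116.Rm899

open Crest.Agent.R138.Ex926
open Crest.Agent.R138.Mk163 (zc zl rho alive own)
open Crest.Agent.R138.MkRef774 (pl)
open Crest.Agent.R138.MkZoom779 (IsWin exists_rep exists_win zc_nested)

/-- double counting, upper bound -/
theorem card_le_mul_image {α β : Type*} [DecidableEq β] (s : Finset α) (f : α → β) {K : ℝ}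
    (h : ∀ b ∈ s.image f, ((s.filter fun x => f x = b).card : ℝ) ≤ K) :
    (s.card : ℝ) ≤ K * ((s.image f).card : ℝ) := by
  rw [card_eq_sum_card_image f s]
  push_cast
  refine (sum_le_sum h).trans (le_of_eq ?_)
  rw [sum_const, nsmul_eq_mul, mul_comm]

/-- double counting, lower bound -/
theorem mul_image_le_card {α β : Type*} [DecidableEq β] (s : Finset α) (f : α → β) {K : ℝ}
    (h : ∀ b ∈ s.image f, K ≤ ((s.filter fun x => f x = b).card : ℝ)) :
    K * ((s.image f).card : ℝ) ≤ (s.card : ℝ) := by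
  rw [card_eq_sum_card_image f s]
  push_cast
  refine le_trans (le_of_eq ?_) (sum_le_sum h)
  rw [sum_const, nsmul_eq_mul, mul_comm]

/-- a cell in which at most half of the incidences are bad -/
theorem exists_cell {X N : Finset (ℕ × ℝ)} (i0 : ℕ) (hX : X.Nonempty)
    (hN : 2 * (N.card : ℝ) ≤ X.card) : ∃ J0 : ℤ, (X.filter fun x => zc i0 x.2 = J0).Nonempty ∧
      2 * (((N.filter fun x => zc i0 x.2 = J0).card : ℕ) : ℝ) ≤
        ((X.filter fun x => zc i0 x.2 = J0).card : ℝ) := by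
  classical
  by_contra hcon
  push Not at hcon
  have h1 : X.card = ∑ J ∈ X.image (fun x => zc i0 x.2), (X.filter fun x => zc i0 x.2 = J).card :=
    card_eq_sum_card_image _ _
  have h2 : ∑ J ∈ X.image (fun x => zc i0 x.2), (N.filter fun x => zc i0 x.2 = J).card ≤ N.card := by
    rw [← card_biUnion]
    · exact card_le_card (by
        intro x hx
        obtain ⟨J, hJ, hx⟩ := mem_biUnion.1 hx
        exact (mem_filter.1 hx).1)
    · intro J hJ J' hJ' hne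
      rw [Function.onFun, disjoint_left]
      intro x hx hx'
      exact hne ((mem_filter.1 hx).2.symm.trans (mem_filter.1 hx').2)
  have h3 : (X.card : ℝ) < 2 * (N.card : ℝ) := by
    rw [h1]
    push_cast
    have h4 : ∑ J ∈ X.image (fun x => zc i0 x.2), ((X.filter fun x => zc i0 x.2 = J).card : ℝ) <
        ∑ J ∈ X.image (fun x => zc i0 x.2), 2 * ((N.filter fun x => zc i0 x.2 = J).card : ℝ) := by
      refine sum_lt_sum_of_nonempty (hX.image _) fun J hJ => hcon J ?_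
      obtain ⟨x, hx, rfl⟩ := mem_image.1 hJ
      exact ⟨x, mem_filter.2 ⟨hx, rfl⟩⟩
    rw [← mul_sum] at h4
    refine h4.trans_le (mul_le_mul_of_nonneg_left ?_ zero_le_two)
    exact_mod_cast h2
  linarith

set_option maxHeartbeats 1000000 in
/-- **window sets adapted to heavy strips.** -/
theorem heavy_window {X N : Finset (ℕ × ℝ)} {i0 i1 : ℕ} (hi : i0 ≤ i1)
    (S : (ℕ × ℝ) × ℝ → ℕ × ℝ → Prop) {K1 K2 K2' K3 K4 : ℝ} (hK1 : 0 ≤ K1) (hK2' : 0 ≤ K2')
    (hK3 : 0 ≤ K3) (hK4 : 0 ≤ K4) (hX : X.Nonempty) (hN : 2 * (N.card : ℝ) ≤ X.card)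
    (h1 : ∀ x ∈ X, x ∉ N → ∃ a : ℝ, ∃ T : Finset (ℕ × ℝ), T ⊆ cls X (pl i0) x ∧
      (∀ y ∈ T, S (x, a) y) ∧ K1 ≤ (T.card : ℝ))
    (h2 : ∀ x ∈ X, K2 ≤ ((cls X (pl i0) x).card : ℝ))
    (h2' : ∀ x ∈ X, ((cls X (pl i0) x).card : ℝ) ≤ K2')
    (h3 : ∀ x ∈ X, ((cls X (pl i1) x).card : ℝ) ≤ K3)
    (h4 : ∀ x ∈ X, ((own X i0 i1 x).card : ℝ) ≤ K4) :
    ∃ (I' Y : Finset (ℕ × ℝ)) (J0 : ℤ) (sel : ℕ → (ℕ × ℝ) × ℝ), IsWin X I' i0 i1 J0 ∧
      I'.Nonempty ∧ Y ⊆ I' ∧ (∀ y ∈ Y, S (sel y.1) y) ∧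
      K1 * K2 * (I'.card : ℝ) ≤ 2 * K3 * K2' * K4 * (Y.card : ℝ) := by
  classical
  obtain ⟨J0, hJ0, hJ0'⟩ := exists_cell i0 hX hN
  set Xc := X.filter fun x => zc i0 x.2 = J0 with hXc
  have hXcX : Xc ⊆ X := filter_subset _ _
  have hXcJ : ∀ x ∈ Xc, zc i0 x.2 = J0 := fun x hx => (mem_filter.1 hx).2
  have hcls : ∀ x ∈ Xc, cls X (pl i0) x = Xc.filter fun y => y.1 = x.1 := by
    intro x hx
    ext y
    rw [mem_cls, mem_filter, hXc, mem_filter]
    unfold pl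
    rw [Prod.ext_iff]
    simp only
    rw [hXcJ x hx]
    tauto
  set L := Xc.image Prod.fst with hL
  set Xg := Xc.filter fun x => x ∉ N with hXg
  have hXgc : Xg ⊆ Xc := filter_subset _ _
  set Lg := Xg.image Prod.fst with hLg
  -- sizes of the sets of lines
  have c1 : K2 * (L.card : ℝ) ≤ (Xc.card : ℝ) := by
    refine mul_image_le_card _ _ fun l hl => ?_
    obtain ⟨x, hx, rfl⟩ := mem_image.1 hl
    rw [← hcls x hx]
    exact h2 x (hXcX hx)
  have c2 : (Xg.card : ℝ) ≤ K2' * (Lg.card : ℝ) := by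
    refine card_le_mul_image _ _ fun l hl => ?_
    obtain ⟨x, hx, rfl⟩ := mem_image.1 hl
    refine le_trans ?_ (h2' x (hXcX (hXgc hx)))
    rw [hcls x (hXgc hx)]
    exact_mod_cast card_le_card (filter_subset_filter _ hXgc)
  have c3 : (Xc.card : ℝ) ≤ 2 * (Xg.card : ℝ) := by
    have e1 : Xc.card = Xg.card + (Xc.filter fun x => x ∈ N).card := by
      rw [hXg, add_comm, card_filter_add_card_filter_not]
    have e2 : (Xc.filter fun x => x ∈ N).card ≤ (N.filter fun x => zc i0 x.2 = J0).card := by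
      refine card_le_card fun x hx => ?_
      obtain ⟨hx1, hx2⟩ := mem_filter.1 hx
      exact mem_filter.2 ⟨hx2, hXcJ x hx1⟩
    have e3 : (Xc.card : ℝ) = Xg.card + (Xc.filter fun x => x ∈ N).card := by exact_mod_cast e1
    have e4 : ((Xc.filter fun x => x ∈ N).card : ℝ) ≤
        ((N.filter fun x => zc i0 x.2 = J0).card : ℝ) := by exact_mod_cast e2
    linarith
  -- selection of the strips
  have hsel : ∀ l : ℕ, ∃ (p : (ℕ × ℝ) × ℝ) (T : Finset (ℕ × ℝ)), l ∈ Lg →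
      (T ⊆ Xc.filter (fun y => y.1 = l)) ∧ (∀ y ∈ T, S p y) ∧ K1 ≤ (T.card : ℝ) := by
    intro l
    by_cases hl : l ∈ Lg
    · obtain ⟨x, hx, rfl⟩ := mem_image.1 hl
      obtain ⟨a, T, hT, hT2, hT3⟩ := h1 x (hXcX (hXgc hx)) (mem_filter.1 hx).2
      rw [hcls x (hXgc hx)] at hT
      exact ⟨(x, a), T, fun _ => ⟨hT, hT2, hT3⟩⟩
    · exact ⟨((0, 0), 0), ∅, fun h => absurd h hl⟩
  choose sel T hselT using hsel
  set St := Xc.filter fun y => y.1 ∈ Lg ∧ y ∈ T y.1 with hSt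
  have hStc : St ⊆ Xc := filter_subset _ _
  have hStim : St.image Prod.fst ⊆ Lg := by
    intro l hl
    obtain ⟨y, hy, rfl⟩ := mem_image.1 hl
    exact (mem_filter.1 hy).2.1
  have c4 : K1 * (Lg.card : ℝ) ≤ (St.card : ℝ) := by
    rcases eq_or_lt_of_le hK1 with hK0 | hK0
    · rw [← hK0, zero_mul]; positivity
    have e1 : St.image Prod.fst = Lg := by
      refine Finset.Subset.antisymm hStim fun l hl => ?_
      obtain ⟨t1, t2, t3⟩ := hselT l hl
      have hTne : (T l).Nonempty := by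
        rw [← card_pos]
        have : (0 : ℝ) < ((T l).card : ℝ) := hK0.trans_le t3
        exact_mod_cast this
      obtain ⟨y, hy⟩ := hTne
      obtain ⟨hy1, hy2⟩ := mem_filter.1 (t1 hy)
      refine mem_image.2 ⟨y, mem_filter.2 ⟨hy1, ?_⟩, hy2⟩
      rw [hy2]
      exact ⟨hl, hy⟩
    rw [← e1]
    refine mul_image_le_card _ _ fun l hl => ?_
    rw [e1] at hl
    obtain ⟨t1, t2, t3⟩ := hselT l hl
    refine t3.trans ?_
    have : T l ⊆ St.filter fun x => x.1 = l := by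
      intro y hy
      obtain ⟨hy1, hy2⟩ := mem_filter.1 (t1 hy)
      refine mem_filter.2 ⟨mem_filter.2 ⟨hy1, ?_⟩, hy2⟩
      rw [hy2]
      exact ⟨hl, hy⟩
    exact_mod_cast card_le_card this
  -- representatives
  obtain ⟨T1, hT1, hT1o, hT1f⟩ := exists_rep St i1
  set R := Xc.filter fun x => ¬ ∃ y ∈ St, y.1 = x.1 ∧ zc i1 y.2 = zc i1 x.2 with hR
  obtain ⟨T2, hT2, hT2o, hT2f⟩ := exists_rep R i1
  have hwin : IsWin X (T1 ∪ T2) i0 i1 J0 := by
    refine ⟨fun x hx => ?_, fun x hx => ?_, fun x hx y hy hxy hz => ?_, fun y hy hyJ => ?_⟩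
    · rcases mem_union.1 hx with hx | hx
      · exact hXcX (hStc (hT1 hx))
      · exact hXcX (mem_filter.1 (hT2 hx)).1
    · rcases mem_union.1 hx with hx | hx
      · exact hXcJ x (hStc (hT1 hx))
      · exact hXcJ x (mem_filter.1 (hT2 hx)).1
    · rcases mem_union.1 hx with hx | hx <;> rcases mem_union.1 hy with hy | hy
      · exact hT1o x hx y hy hxy hz
      · exact absurd ⟨x, hT1 hx, hxy, hz⟩ (mem_filter.1 (hT2 hy)).2
      · exact absurd ⟨y, hT1 hy, hxy.symm, hz.symm⟩ (mem_filter.1 (hT2 hx)).2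
      · exact hT2o x hx y hy hxy hz
    · have hyc : y ∈ Xc := mem_filter.2 ⟨hy, hyJ⟩
      by_cases hc : ∃ y' ∈ St, y'.1 = y.1 ∧ zc i1 y'.2 = zc i1 y.2
      · obtain ⟨y', hy', e1, e2⟩ := hc
        obtain ⟨x, hx, e3, e4⟩ := hT1f y' hy'
        exact ⟨x, mem_union_left _ hx, e3.trans e1, e4.trans e2⟩
      · obtain ⟨x, hx, e3, e4⟩ := hT2f y (mem_filter.2 ⟨hyc, hc⟩)
        exact ⟨x, mem_union_right _ hx, e3, e4⟩
  have hcI : ∀ x ∈ T1 ∪ T2, x ∈ Xc := fun x hx => mem_filter.2 ⟨hwin.sub hx, hwin.cell x hx⟩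
  refine ⟨T1 ∪ T2, T1, J0, sel, hwin, ?_, subset_union_left, ?_, ?_⟩
  · obtain ⟨x, hx⟩ := hJ0
    obtain ⟨y, hy, -⟩ := hwin.full x (mem_filter.1 hx).1 (mem_filter.1 hx).2
    exact ⟨y, hy⟩
  · intro y hy
    obtain ⟨h5, h6, h7⟩ := mem_filter.1 (hT1 hy)
    exact (hselT y.1 h6).2.1 y h7
  · -- `|St| ≤ K3 |T1|`
    have c5 : (St.card : ℝ) ≤ K3 * (T1.card : ℝ) := by
      have hle : (St.image (pl i1)).card ≤ T1.card := by
        have : St.image (pl i1) ⊆ T1.image (pl i1) := by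
          intro p hp
          obtain ⟨y, hy, rfl⟩ := mem_image.1 hp
          obtain ⟨x, hx, e3, e4⟩ := hT1f y hy
          exact mem_image.2 ⟨x, hx, Prod.ext e3 e4⟩
        exact (card_le_card this).trans card_image_le
      have h5 : (St.card : ℝ) ≤ K3 * ((St.image (pl i1)).card : ℝ) := by
        refine card_le_mul_image _ _ fun p hp => ?_
        obtain ⟨y, hy, rfl⟩ := mem_image.1 hp
        refine le_trans ?_ (h3 y (hXcX (hStc hy)))
        have : (St.filter fun x => pl i1 x = pl i1 y) ⊆ cls X (pl i1) y := by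
          intro x hx
          obtain ⟨hx1, hx2⟩ := mem_filter.1 hx
          exact mem_cls.2 ⟨hXcX (hStc hx1), hx2⟩
        exact_mod_cast card_le_card this
      exact h5.trans (mul_le_mul_of_nonneg_left (by exact_mod_cast hle) hK3)
    -- `|I'| ≤ K4 |L|`
    have c6 : ((T1 ∪ T2).card : ℝ) ≤ K4 * (L.card : ℝ) := by
      have hle : ((T1 ∪ T2).image Prod.fst).card ≤ L.card := by
        refine card_le_card fun l hl => ?_
        obtain ⟨x, hx, rfl⟩ := mem_image.1 hl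
        exact mem_image.2 ⟨x, hcI x hx, rfl⟩
      have h5 : ((T1 ∪ T2).card : ℝ) ≤ K4 * (((T1 ∪ T2).image Prod.fst).card : ℝ) := by
        refine card_le_mul_image _ _ fun l hl => ?_
        obtain ⟨x, hx, rfl⟩ := mem_image.1 hl
        refine le_trans ?_ (h4 x (hwin.sub hx))
        have h6 : ((T1 ∪ T2).filter fun y => y.1 = x.1).card ≤ (own X i0 i1 x).card := by
          refine card_le_card_of_injOn (fun y => zc i1 y.2) ?_ ?_
          · intro y hy
            obtain ⟨hy1, hy2⟩ := mem_filter.1 (Finset.mem_coe.1 hy)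
            unfold own
            refine Finset.mem_coe.2 (mem_image.2 ⟨y, mem_filter.2 ⟨hwin.sub hy1, hy2, ?_⟩, rfl⟩)
            rw [hwin.cell y hy1, hwin.cell x hx]
          · intro y hy y' hy' hz
            obtain ⟨hy1, hy2⟩ := mem_filter.1 (Finset.mem_coe.1 hy)
            obtain ⟨hy1', hy2'⟩ := mem_filter.1 (Finset.mem_coe.1 hy')
            exact hwin.one y hy1 y' hy1' (hy2.trans hy2'.symm) hz
        exact_mod_cast h6
      exact h5.trans (mul_le_mul_of_nonneg_left (by exact_mod_cast hle) hK4)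
    have hLg0 : (0 : ℝ) ≤ (Lg.card : ℝ) := by positivity
    rcases le_or_gt K2 0 with hK2 | hK2
    · have h5 : K1 * K2 * ((T1 ∪ T2).card : ℝ) ≤ 0 :=
        mul_nonpos_of_nonpos_of_nonneg (mul_nonpos_of_nonneg_of_nonpos hK1 hK2) (by positivity)
      have h6 : 0 ≤ 2 * K3 * K2' * K4 * (T1.card : ℝ) := by positivity
      linarith
    calc K1 * K2 * ((T1 ∪ T2).card : ℝ) ≤ K1 * K2 * (K4 * (L.card : ℝ)) :=
          mul_le_mul_of_nonneg_left c6 (mul_nonneg hK1 hK2.le)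
      _ = K1 * K4 * (K2 * (L.card : ℝ)) := by ring
      _ ≤ K1 * K4 * (2 * (K2' * (Lg.card : ℝ))) := by
          exact mul_le_mul_of_nonneg_left (c1.trans (c3.trans
            (mul_le_mul_of_nonneg_left c2 zero_le_two))) (mul_nonneg hK1 hK4)
      _ = 2 * K2' * K4 * (K1 * (Lg.card : ℝ)) := by ring
      _ ≤ 2 * K2' * K4 * (K3 * (T1.card : ℝ)) :=
          mul_le_mul_of_nonneg_left (c4.trans c5) (by positivity)
      _ = _ := by ring

end Crest.Agent.R116.Rm899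
end

-- ▼ part R116/Rm3_899
section

/-!
# R116, [ROT-LIN] (helper899): linear modulus of the strong twist

`exists_linmod` : on a dense marked part either the share of the heaviest strip of width `sc d^r` in a
(line, cell of level `u`) is at most `d^(γ0 (r - u) - ε)` for all rational `u < r ≤ 1` (`STw2`), or
there is a sequence of windows `[u_k, r_k]` on which all lines are aligned up to the finest scale.
-/

set_option autoImplicit false
set_option linter.unusedVariables false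
set_option linter.unusedSectionVars false

open Finset Filter Topology

namespace Crest.Agent.R116.Rm899

open Crest.Agent.R138.Ex926
open Crest.Agent.R138.Dp76
open Crest.Agent.R138.Ps926
open Crest.Agent.R138.Mk163 (zc zl rho alive own Negl)
open Crest.Agent.R138.MkRef774 (pl nu nu_pos)
open Crest.Agent.R138.Rot76 (al nu_eq)
open Crest.Agent.R138.MkZoom779 (IsWin exists_rep exists_win)
open Crest.Agent.R136.MkA627
open Crest.Agent.R136.ExR779 (line_cell)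
open Crest.Agent.R136.TD627
open Crest.Agent.R116.Rl899

/-- strong twist with a linear modulus (rate `1`) -/
def STw2 (B : Base) (J : ℕ → Finset (ℕ × ℝ)) (lev : ℕ → ℚ → ℕ) (Gf : ℕ → ℕ × ℝ → ℝ)
    (sc : ℕ → ℝ) : Prop :=
  ∃ γ0 : ℝ, 0 < γ0 ∧ ∀ u r : ℚ, 0 ≤ u → u < r → r ≤ 1 → ∀ ε : ℝ, 0 < ε →
    ∀ᶠ n in (U : Filter ℕ), ∀ x ∈ J n, ∀ a : ℝ,
      ((((J n).filter fun y => y.1 = x.1 ∧ zc (lev n u) y.2 = zc (lev n u) x.2 ∧
          |dev Gf n x a y| ≤ sc n * B.d n ^ (r : ℝ)).card : ℕ) : ℝ) ≤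
        B.d n ^ (γ0 * ((r : ℝ) - u) - ε) * ((own (J n) (lev n u) (lev n 1) x).card : ℝ)

section stage

variable {σ κ : Type*} {B : Base} {X : ℕ → Finset (ℕ × ℝ)} {G : Geo σ κ}
    {lev : ℕ → ℚ → ℕ} {A : ℕ → ℝ} {c Λ : ℝ → ℝ} {τ : κ → ℝ → ℝ} {f : ℕ → ℚ → ℕ → ℤ → ℕ}
    {b : ℕ → ℚ → ℕ → σ} {vm : ℕ → ℚ → ℝ} {w : κ → ℕ → ℚ → ℝ} {Gf : ℕ → ℕ × ℝ → ℝ} {sc : ℕ → ℝ}

/-- one window, one `n` -/
def Stage (B : Base) (X : ℕ → Finset (ℕ × ℝ)) (lev : ℕ → ℚ → ℕ) (Gf : ℕ → ℕ × ℝ → ℝ)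
    (sc : ℕ → ℝ) (u r : ℚ) (e : ℝ) (n : ℕ) : Prop :=
  ∃ (I' Y : Finset (ℕ × ℝ)) (J0 : ℤ) (sel : ℕ → (ℕ × ℝ) × ℝ),
    IsWin (X n) I' (lev n u) (lev n r) J0 ∧ I'.Nonempty ∧ Y ⊆ I' ∧
    (∀ y ∈ Y, |dev Gf n (sel y.1).1 (sel y.1).2 y| ≤ sc n * B.d n ^ (r : ℝ)) ∧
    B.d n ^ (6 * e) * (I'.card : ℝ) ≤ 2 * (Y.card : ℝ)

theorem ev_stage (hM : MkA B X G lev A c Λ τ f b vm w) (hsc : ∀ n, 0 < sc n) {u r : ℚ}
    (h0 : 0 ≤ u) (hur : u < r) (h1 : r ≤ 1)
    (hst : StableF B (fun n J => PhiL B lev Gf sc u r n J) X) {e : ℝ} (he : 0 < e)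
    (hS : al Λ u - B.ex (fun n => PhiL B lev Gf sc u r n (X n)) < e) :
    ∀ᶠ n in (U : Filter ℕ), Stage B X lev Gf sc u r e n := by
  classical
  set φ : ℝ := B.ex (fun n => PhiL B lev Gf sc u r n (X n)) with hφ
  set N : ℕ → Finset (ℕ × ℝ) := fun n => (X n).filter fun x =>
      ∀ a : ℝ, (cntL B lev Gf sc u r n (X n) x a : ℝ) ≤ B.d n ^ (-(φ - e)) with hN
  have hnd : ¬ Dense B N X := by
    refine hst.not_dense_of_le (monoF_PhiL hM hsc u r) hM.ne
      (X := fun n => B.d n ^ (-(φ - e))) (Base.PB.dpow _) ?_ ?_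
    · rw [Base.ex_dpow, neg_neg]
      show φ - e < φ
      linarith
    · refine Eventually.of_forall fun n hne => ?_
      refine PhiL_le (dpow_pos B n _).le fun x hx a => ?_
      obtain ⟨hx1, hx2⟩ := mem_filter.1 hx
      have a1 : (cntL B lev Gf sc u r n (N n) x a : ℝ) ≤ cntL B lev Gf sc u r n (X n) x a := by
        exact_mod_cast cntL_mono (filter_subset _ _) x a
      exact a1.trans (hx2 a)
  obtain ⟨c', hc', hsmall⟩ := small_of_not_dense
    (Eventually.of_forall fun n => filter_subset _ _) hnd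
  filter_upwards [hsmall, dpow_small B hc' (ε := 1 / 2) (by norm_num), hM.ne,
    line_cell hM h0 (hur.le.trans h1) he, line_cell hM (h0.trans hur.le) h1 he,
    hM.own u r h0 hur.le h1 e he, hM.lev_mono u r h0 hur.le h1] with n a1 a2 a3 a4 a5 a6 a7
  have hXpos : (0 : ℝ) < (X n).card := by exact_mod_cast card_pos.2 a3
  have hN2 : 2 * ((N n).card : ℝ) ≤ (X n).card := by
    have := a1.trans_le (mul_le_mul_of_nonneg_right a2.le hXpos.le)
    linarith
  obtain ⟨I', Y, J0, sel, b1, b2, b3, b4, b5⟩ := heavy_window (X := X n) (N := N n)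
    (i0 := lev n u) (i1 := lev n r) a7
    (fun p y => |dev Gf n p.1 p.2 y| ≤ sc n * B.d n ^ (r : ℝ))
    (K1 := B.d n ^ (-(φ - e))) (K2 := B.d n ^ e * nu B Λ n u) (K2' := B.d n ^ (-e) * nu B Λ n u)
    (K3 := B.d n ^ (-e) * nu B Λ n r)
    (K4 := B.d n ^ (-((r : ℝ) - u) + (Λ r - Λ u) - e))
    (dpow_pos B n _).le (mul_pos (dpow_pos B n _) (nu_pos B Λ n u)).le
    (mul_pos (dpow_pos B n _) (nu_pos B Λ n r)).le (dpow_pos B n _).le a3 hN2
    (fun x hx hxN => by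
      have : ∃ a : ℝ, B.d n ^ (-(φ - e)) < (cntL B lev Gf sc u r n (X n) x a : ℝ) := by
        by_contra hcon
        push Not at hcon
        exact hxN (mem_filter.2 ⟨hx, hcon⟩)
      obtain ⟨a, ha⟩ := this
      exact ⟨a, _, filter_subset _ _, fun y hy => (mem_filter.1 hy).2, ha.le⟩)
    (fun x hx => (a4 x hx).1) (fun x hx => (a4 x hx).2) (fun x hx => (a5 x hx).2)
    (fun x hx => (a6 x hx).2)
  refine ⟨I', Y, J0, sel, b1, b2, b3, b4, ?_⟩
  rw [nu_eq, nu_eq] at b5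
  have e1 : B.d n ^ (-(φ - e)) * (B.d n ^ e * B.d n ^ (-(al Λ u))) =
      B.d n ^ (-(φ - e) + (e + -(al Λ u))) := by rw [← dpow_add, ← dpow_add]
  have e2 : 2 * (B.d n ^ (-e) * B.d n ^ (-(al Λ r))) * (B.d n ^ (-e) * B.d n ^ (-(al Λ u))) *
      B.d n ^ (-((r : ℝ) - u) + (Λ r - Λ u) - e) =
      2 * B.d n ^ ((-e + -(al Λ r)) + (-e + -(al Λ u)) + (-((r : ℝ) - u) + (Λ r - Λ u) - e)) := by
    rw [dpow_add, dpow_add, dpow_add, dpow_add]
    ring
  rw [e1, e2] at b5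
  set E1 : ℝ := (-e + -(al Λ r)) + (-e + -(al Λ u)) + (-((r : ℝ) - u) + (Λ r - Λ u) - e) with hE1
  have e3 : al Λ u - φ + 5 * e + E1 = -(φ - e) + (e + -(al Λ u)) := by
    rw [hE1]
    unfold al
    ring
  rw [← e3, dpow_add] at b5
  have b6 : B.d n ^ (al Λ u - φ + 5 * e) * (I'.card : ℝ) ≤ 2 * (Y.card : ℝ) := by
    have hp := dpow_pos B n E1
    have b7 : B.d n ^ E1 * (B.d n ^ (al Λ u - φ + 5 * e) * (I'.card : ℝ)) ≤
        B.d n ^ E1 * (2 * (Y.card : ℝ)) := by linarith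
    exact le_of_mul_le_mul_left b7 hp
  refine le_trans ?_ b6
  exact mul_le_mul_of_nonneg_right (dpow_le B n (by linarith)) (by positivity)

end stage

section main

variable {σ κ φ : Type*} {m : ℕ} {P : TDist φ m} {G : Geo σ κ} {g s : ℝ} {θ : κ → ℝ}
    {β : Fin m → ℝ} {B : Base} {I : ℕ → Finset (ℕ × ℝ)} {lev : ℕ → ℚ → ℕ} {A : ℕ → ℝ}
    {f : ℕ → ℚ → ℕ → ℤ → ℕ} {b : ℕ → ℚ → ℕ → σ} {vm : ℕ → ℚ → ℝ} {w : κ → ℕ → ℚ → ℝ}
    {fr : ℕ → ℚ → ℕ × ℝ → φ} {pr : Fin m → ℕ → ℚ → ℝ} {fl : ℕ → ℕ × ℝ → φ}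
    {sc : Fin m → ℕ → ℝ}

/-- a window of the system on which every line is aligned up to the finest scale -/
def WinAl (P : TDist φ m) (G : Geo σ κ) (g s : ℝ) (θ : κ → ℝ) (β : Fin m → ℝ) (B : Base)
    (I : ℕ → Finset (ℕ × ℝ)) (lev : ℕ → ℚ → ℕ)
    (f : ℕ → ℚ → ℕ → ℤ → ℕ) (b : ℕ → ℚ → ℕ → σ) (vm : ℕ → ℚ → ℝ) (w : κ → ℕ → ℚ → ℝ)
    (fr : ℕ → ℚ → ℕ × ℝ → φ) (pr : Fin m → ℕ → ℚ → ℝ) (fl : ℕ → ℕ × ℝ → φ)
    (sc : Fin m → ℕ → ℝ) (jE : Fin m) (Gf : ℕ → ℕ × ℝ → ℝ) : Prop :=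
  ∃ (H : ℕ → ℝ) (mm : ℕ → ℚ → ℚ) (B' : Base) (I' : ℕ → Finset (ℕ × ℝ)) (A' : ℕ → ℝ)
    (sc' : Fin m → ℕ → ℝ) (a : ℕ → ℕ × ℤ → ℝ), (∀ n, 0 < H n ∧ H n ≤ 1) ∧
    (∀ n, ∀ x : ℚ, 0 ≤ x → x ≤ 1 → 0 ≤ mm n x ∧ mm n x ≤ 1) ∧
    (∀ n, ∀ x y : ℚ, (mm n y : ℝ) - mm n x = H n * ((y : ℝ) - x)) ∧
    (∀ n, B'.d n = B.d n ^ H n) ∧ (∀ᶠ n in (U : Filter ℕ), I' n ⊆ I n) ∧
    TSys P G g s θ β B' I' (fun n x => lev n (mm n x)) A' (fun n x => f n (mm n x))
      (fun n x => b n (mm n x)) (fun n x => vm n (mm n x)) (fun j n x => w j n (mm n x))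
      (fun n x => fr n (mm n x)) (fun j n x => pr j n (mm n x)) fl sc' ∧
    Aligned B' I' (fun n x => lev n (mm n x)) Gf (sc' jE) 0 ((1 : ℚ) : ℝ) a ∧
    (∀ j, InvT P B I j fl (sc j) → InvT P B' I' j fl (sc' j)) ∧
    (Slack P β B sc → Slack P β B' sc')

/-- **linear modulus or an aligned window.** -/
theorem exists_linmod [Countable κ] (h : TSys P G g s θ β B I lev A f b vm w fr pr fl sc)
    {jE : Fin m} (hβE : β jE = 1) (Gf : ℕ → ℕ × ℝ → ℝ) :
    ∃ J : ℕ → Finset (ℕ × ℝ), Dense B J I ∧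
      TSys P G g s θ β B J lev A f b vm w fr pr fl sc ∧
      (STw2 B J lev Gf (sc jE) ∨ WinAl P G g s θ β B J lev f b vm w fr pr fl sc jE Gf) := by
  classical
  set Λ : ℝ → ℝ := fun v => s * v with hΛ
  have hsc : ∀ n, 0 < sc jE n := h.scpos jE
  obtain ⟨en, hen⟩ := exists_surjective_nat (ℚ × ℚ)
  obtain ⟨J2, hJ2d, hJ2s⟩ := exists_stableF (B := B) h.mka.ne
    (fun j n J => PhiL B lev Gf (sc jE) (en j).1 (en j).2 n J)
    (fun j => monoF_PhiL h.mka hsc (en j).1 (en j).2)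
  obtain ⟨X, hXd, hX⟩ := MkA.refine h.mka hJ2d
  have hXI : Dense B X I := hXd.trans hJ2d
  have hS := h.dense hXI hX
  have hst : ∀ u r : ℚ, StableF B (fun n J => PhiL B lev Gf (sc jE) u r n J) X := by
    intro u r
    obtain ⟨j, hj⟩ := hen (u, r)
    have h1 := hJ2s j
    rw [hj] at h1
    exact h1.dense hXd
  set φ' : ℚ → ℚ → ℝ := fun u r => B.ex (fun n => PhiL B lev Gf (sc jE) u r n (X n)) with hφ
  refine ⟨X, hXI, hS, ?_⟩
  by_cases hg : ∃ γ0 : ℝ, 0 < γ0 ∧ ∀ u r : ℚ, 0 ≤ u → u < r → r ≤ 1 →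
      γ0 * ((r : ℝ) - u) ≤ al Λ u - φ' u r
  · -- linear modulus
    obtain ⟨γ0, hγ0, hγ⟩ := hg
    refine Or.inl ⟨γ0, hγ0, fun u r h0 hur h1 ε hε => ?_⟩
    have h5 : ∀ᶠ n in (U : Filter ℕ), PhiL B lev Gf (sc jE) u r n (X n) <
        B.d n ^ (-(φ' u r + ε / 2)) :=
      Base.ex_lt_iff_dpow (pb_PhiL hX hsc u r) (by
        show B.ex (fun n => PhiL B lev Gf (sc jE) u r n (X n)) < φ' u r + ε / 2
        have : B.ex (fun n => PhiL B lev Gf (sc jE) u r n (X n)) = φ' u r := rfl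
        rw [this]; linarith)
    filter_upwards [h5, hX.own u 1 h0 (hur.le.trans h1) le_rfl (ε / 2) (by positivity)]
      with n a1 a3 x hx a
    have b1 : ((((X n).filter fun y => y.1 = x.1 ∧ zc (lev n u) y.2 = zc (lev n u) x.2 ∧
          |dev Gf n x a y| ≤ sc jE n * B.d n ^ (r : ℝ)).card : ℕ) : ℝ) ≤
        (cntL B lev Gf (sc jE) u r n (X n) x a : ℝ) := by
      have : ((X n).filter fun y => y.1 = x.1 ∧ zc (lev n u) y.2 = zc (lev n u) x.2 ∧
          |dev Gf n x a y| ≤ sc jE n * B.d n ^ (r : ℝ)) ⊆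
          (cls (X n) (pl (lev n u)) x).filter fun y =>
            |dev Gf n x a y| ≤ sc jE n * B.d n ^ (r : ℝ) := by
        intro y hy
        obtain ⟨hy1, hy2, hy3, hy4⟩ := mem_filter.1 hy
        exact mem_filter.2 ⟨mem_cls.2 ⟨hy1, Prod.ext hy2 hy3⟩, hy4⟩
      unfold cntL
      exact_mod_cast card_le_card this
    have b2 := (b1.trans (cntL_le_PhiL hx a)).trans a1.le
    have b3 := (a3 x hx).1
    refine b2.trans ?_
    have b4 := mul_le_mul_of_nonneg_left b3 (dpow_pos B n (γ0 * ((r : ℝ) - u) - ε)).le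
    refine le_trans ?_ b4
    rw [← dpow_add]
    apply dpow_le B n
    have e1 : al Λ u = (1 - (u : ℝ)) - (s * 1 - s * u) := rfl
    have e2 := hγ u r h0 hur h1
    rw [e1] at e2
    push_cast
    linarith
  · -- heavy strips on windows
    refine Or.inr ?_
    push Not at hg
    have hex : ∀ k : ℕ, ∃ u r : ℚ, 0 ≤ u ∧ u < r ∧ r ≤ 1 ∧
        al Λ u - φ' u r < 1 / ((k : ℝ) + 1) * ((r : ℝ) - u) := fun k =>
      hg (1 / ((k : ℝ) + 1)) (by positivity)
    choose uu rr hu0 hur hr1 hS1 using hex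
    have hur' : ∀ k, (uu k : ℝ) < rr k := fun k => by exact_mod_cast hur k
    have hu0' : ∀ k, (0 : ℝ) ≤ uu k := fun k => by exact_mod_cast hu0 k
    have hr1' : ∀ k, (rr k : ℝ) ≤ 1 := fun k => by exact_mod_cast hr1 k
    set η : ℕ → ℝ := fun k => (rr k : ℝ) - uu k with hη
    set mq : ℕ → ℚ → ℚ := fun k x => uu k + (rr k - uu k) * x with hmq
    have hη0 : ∀ k, 0 < η k := fun k => by
      show 0 < (rr k : ℝ) - uu k
      linarith [hur' k]
    have hη1 : ∀ k, η k ≤ 1 := fun k => by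
      show (rr k : ℝ) - uu k ≤ 1
      linarith [hu0' k, hr1' k]
    have hmm : ∀ k, ∀ x : ℚ, 0 ≤ x → x ≤ 1 → 0 ≤ mq k x ∧ mq k x ≤ 1 := by
      intro k x hx0 hx1
      have h1 := hu0 k
      have h2 := hur k
      have h3 := hr1 k
      show 0 ≤ uu k + (rr k - uu k) * x ∧ uu k + (rr k - uu k) * x ≤ 1
      constructor
      · have := mul_nonneg (sub_nonneg.2 h2.le) hx0
        linarith
      · have := mul_le_mul_of_nonneg_left hx1 (sub_nonneg.2 h2.le)
        linarith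
    have hq : ∀ k, ∀ x y : ℚ, (mq k y : ℝ) - mq k x = η k * ((y : ℝ) - x) := by
      intro k x y
      simp only [hmq, hη]
      push_cast
      ring
    have hm0 : ∀ k, mq k 0 = uu k := fun k => by simp only [hmq]; ring
    have hm1 : ∀ k, mq k 1 = rr k := fun k => by simp only [hmq]; ring
    set e : ℕ → ℝ := fun k => 1 / ((k : ℝ) + 1) * η k with he
    have he0 : ∀ k, 0 < e k := fun k => mul_pos (by positivity) (hη0 k)
    obtain ⟨s0, hs0, hz⟩ := zoomW hS hη0 hη1 hmm hq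
    obtain ⟨s3, hs3, hs3'⟩ := exists_diag
      (fun k n => Stage B X lev Gf (sc jE) (uu k) (rr k) (e k) n)
      (fun k => ev_stage hX hsc (hu0 k) (hur k) (hr1 k) (hst _ _) (he0 k) (hS1 k))
    set t : ℕ → ℕ := fun n => min (s0 n) (s3 n) with ht
    have htt : Tendsto t U atTop := by
      rw [tendsto_atTop]
      intro c
      filter_upwards [tendsto_atTop.1 hs0 c, tendsto_atTop.1 hs3 c] with n h1 h2
      exact le_min h1 h2
    obtain ⟨B', A', hB', hT⟩ := hz t htt (Eventually.of_forall fun n => min_le_left _ _)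
    have hBp : ∀ n (y : ℝ), B'.d n ^ y = B.d n ^ (η (t n) * y) := by
      intro n y
      rw [hB' n, ← Real.rpow_mul (B.pos n).le]
    -- choice of the window sets
    have hch : ∀ n, ∃ (I' Y : Finset (ℕ × ℝ)) (J0 : ℤ) (sel : ℕ → (ℕ × ℝ) × ℝ),
        IsWin (X n) I' (lev n (mq (t n) 0)) (lev n (mq (t n) 1)) J0 ∧
        ((X n).Nonempty → I'.Nonempty) ∧
        (Stage B X lev Gf (sc jE) (uu (t n)) (rr (t n)) (e (t n)) n →
          Y ⊆ I' ∧
          (∀ y ∈ Y, |dev Gf n (sel y.1).1 (sel y.1).2 y| ≤ sc jE n * B.d n ^ (rr (t n) : ℝ)) ∧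
          B.d n ^ (6 * e (t n)) * (I'.card : ℝ) ≤ 2 * (Y.card : ℝ)) := by
      intro n
      by_cases hn : Stage B X lev Gf (sc jE) (uu (t n)) (rr (t n)) (e (t n)) n
      · obtain ⟨I', Y, J0, sel, b1, b2, b3, b4, b5⟩ := hn
        refine ⟨I', Y, J0, sel, ?_, fun _ => b2, fun _ => ⟨b3, b4, b5⟩⟩
        rw [hm0, hm1]
        exact b1
      · obtain ⟨I', J0, b1, b2⟩ := exists_win (X n) (lev n (mq (t n) 0)) (lev n (mq (t n) 1))
        exact ⟨I', ∅, J0, fun _ => ((0, 0), 0), b1, b2, fun hh => absurd hh hn⟩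
    choose I' Y J0 sel hwin hne hstage using hch
    have hS' := hT I' J0 hwin hne
    have hev : ∀ᶠ n in (U : Filter ℕ), Y n ⊆ I' n ∧
          (∀ y ∈ Y n, |dev Gf n (sel n y.1).1 (sel n y.1).2 y| ≤
            sc jE n * B.d n ^ (rr (t n) : ℝ)) ∧
          B.d n ^ (6 * e (t n)) * ((I' n).card : ℝ) ≤ 2 * ((Y n).card : ℝ) := by
      filter_upwards [hs3'] with n hn
      exact hstage n (hn (t n) (min_le_right _ _))
    have hYd : Dense B' Y I' := by
      refine ⟨by filter_upwards [hev] with n hn using hn.1, fun δ hδ => ?_⟩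
      have hk : ∀ᶠ n in (U : Filter ℕ), 12 / δ ≤ (t n : ℝ) :=
        (tendsto_natCast_atTop_atTop.comp htt).eventually_ge_atTop _
      filter_upwards [hev, hk, dpow_small B' (half_pos hδ) (ε := 1 / 2) (by norm_num)]
        with n a1 a2 a3
      obtain ⟨-, -, a1⟩ := a1
      have c1 : B'.d n ^ (δ / 2) ≤ B.d n ^ (6 * e (t n)) := by
        rw [hBp]
        refine dpow_le B n ?_
        have c2 : 6 * e (t n) = η (t n) * (6 / ((t n : ℝ) + 1)) := by
          simp only [he]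
          ring
        rw [c2]
        refine mul_le_mul_of_nonneg_left ?_ (hη0 _).le
        rw [div_le_iff₀ (by positivity)]
        rw [div_le_iff₀ hδ] at a2
        nlinarith
      have c3 : B'.d n ^ δ = B'.d n ^ (δ / 2) * B'.d n ^ (δ / 2) := by
        rw [← dpow_add]; congr 1; ring
      rw [c3]
      have c4 := dpow_pos B' n (δ / 2)
      have c5 : (0 : ℝ) ≤ (I' n).card := by positivity
      calc B'.d n ^ (δ / 2) * B'.d n ^ (δ / 2) * ((I' n).card : ℝ)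
          ≤ 1 / 2 * B.d n ^ (6 * e (t n)) * ((I' n).card : ℝ) :=
            mul_le_mul_of_nonneg_right (mul_le_mul a3.le c1 c4.le (by norm_num)) c5
        _ = 1 / 2 * (B.d n ^ (6 * e (t n)) * ((I' n).card : ℝ)) := by ring
        _ ≤ 1 / 2 * (2 * ((Y n).card : ℝ)) := mul_le_mul_of_nonneg_left a1 (by norm_num)
        _ = _ := by ring
    obtain ⟨J', hJ'Y, hJ'⟩ := MkA.refine hS'.mka hYd
    have hJ'I : Dense B' J' I' := hJ'Y.trans hYd
    have hm00 : ∀ k, (0 : ℝ) ≤ mq k 0 ∧ (mq k 0 : ℝ) ≤ 1 := fun k =>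
      ⟨by exact_mod_cast (hmm k 0 le_rfl zero_le_one).1,
        by exact_mod_cast (hmm k 0 le_rfl zero_le_one).2⟩
    have hηM : ∀ n (M : ℝ), η (t n) * M ≤ |M| := fun n M => by
      calc η (t n) * M ≤ η (t n) * |M| := mul_le_mul_of_nonneg_left (le_abs_self _) (hη0 _).le
        _ ≤ 1 * |M| := mul_le_mul_of_nonneg_right (hη1 _) (abs_nonneg _)
        _ = |M| := one_mul _
    have hβm : ∀ n j, β j * (mq (t n) 0 : ℝ) ≤ |β j| := fun n j => by
      calc β j * (mq (t n) 0 : ℝ) ≤ |β j| * (mq (t n) 0 : ℝ) :=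
            mul_le_mul_of_nonneg_right (le_abs_self _) (hm00 _).1
        _ ≤ |β j| * 1 := mul_le_mul_of_nonneg_left (hm00 _).2 (abs_nonneg _)
        _ = |β j| := mul_one _
    have hI'X : ∀ n, I' n ⊆ X n := fun n => (hwin n).sub
    refine ⟨fun n => η (t n), fun n => mq (t n), B', J', A',
      fun j n => sc j n * B.d n ^ (β j * mq (t n) 0), fun n p => (sel n p.1).2,
      fun n => ⟨hη0 _, hη1 _⟩, fun n => hmm (t n), fun n => hq (t n), hB',
      ?_, hS'.dense hJ'I hJ', ?_, ?_, ?_⟩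
    · filter_upwards [hJ'I.1] with n hn using hn.trans (hI'X n)
    · unfold Aligned
      filter_upwards [hev, hJ'Y.1] with n a1 a2 x hx y hy hxy
      obtain ⟨-, a1, -⟩ := a1
      have e0 : (pl (lev n (mq (t n) 0)) y).1 = (pl (lev n (mq (t n) 0)) x).1 := by rw [hxy]
      have e1 : y.1 = x.1 := e0
      have b1 := a1 x (a2 hx)
      have b2 := a1 y (a2 hy)
      rw [e1] at b2
      show |dev Gf n x (sel n x.1).2 y| ≤ 2 * ((sc jE n * B.d n ^ (β jE * (mq (t n) 0 : ℝ))) *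
        B'.d n ^ (((1 : ℚ) : ℝ)))
      have e2 : dev Gf n x (sel n x.1).2 y = dev Gf n (sel n x.1).1 (sel n x.1).2 y -
          dev Gf n (sel n x.1).1 (sel n x.1).2 x := by
        unfold dev; ring
      have e3 : (sc jE n * B.d n ^ (β jE * (mq (t n) 0 : ℝ))) * B'.d n ^ (((1 : ℚ) : ℝ)) =
          sc jE n * B.d n ^ (rr (t n) : ℝ) := by
        rw [hBp, mul_assoc, ← dpow_add, hβE, hm0]
        congr 2
        simp only [hη]
        push_cast
        ring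
      rw [e2, e3]
      refine (abs_sub _ _).trans ?_
      linarith
    · intro j hj M
      filter_upwards [hj (|β j| + |M|), hXI.1, hJ'I.1] with n a1 a2 a3 x hx y hy hxy
      refine (a1 x (hI'X n (a3 hx)) y (hI'X n (a3 hy)) hxy).trans ?_
      rw [hBp, mul_assoc, ← dpow_add]
      refine mul_le_mul_of_nonneg_left (dpow_le B n ?_) (h.scpos j n).le
      have := hβm n j
      have := hηM n M
      linarith
    · intro hsl j a ha hlt M
      filter_upwards [hsl j a ha hlt (|M| + |β j| + |∑ t, (a t : ℝ) * β t|)] with n hn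
      rw [prod_dpow, hBp]
      have e1 : ∑ t', (a t' : ℝ) * (β t' * (mq (t n) 0 : ℝ)) = (∑ t', (a t' : ℝ) * β t') *
          (mq (t n) 0 : ℝ) := by
        rw [Finset.sum_mul]
        exact Finset.sum_congr rfl fun t' _ => by ring
      have e2 : -|∑ t, (a t : ℝ) * β t| ≤ (∑ t', (a t' : ℝ) * β t') * (mq (t n) 0 : ℝ) := by
        have h1 := neg_abs_le ((∑ t', (a t' : ℝ) * β t') * (mq (t n) 0 : ℝ))
        rw [abs_mul, abs_of_nonneg (hm00 (t n)).1] at h1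
        have h2 : |∑ t', (a t' : ℝ) * β t'| * (mq (t n) 0 : ℝ) ≤ |∑ t', (a t' : ℝ) * β t'| * 1 :=
          mul_le_mul_of_nonneg_left (hm00 (t n)).2 (abs_nonneg _)
        linarith
      rw [e1]
      calc (∏ t', sc t' n ^ a t') * B.d n ^ ((∑ t', (a t' : ℝ) * β t') * (mq (t n) 0 : ℝ))
          ≤ sc j n * B.d n ^ (|M| + |β j| + |∑ t, (a t : ℝ) * β t|) *
            B.d n ^ ((∑ t', (a t' : ℝ) * β t') * (mq (t n) 0 : ℝ)) :=
            mul_le_mul_of_nonneg_right hn (dpow_pos B n _).le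
        _ = sc j n * B.d n ^ (|M| + |β j| + |∑ t, (a t : ℝ) * β t| +
            (∑ t', (a t' : ℝ) * β t') * (mq (t n) 0 : ℝ)) := by rw [mul_assoc, ← dpow_add]
        _ ≤ sc j n * B.d n ^ (β j * (mq (t n) 0 : ℝ) + η (t n) * M) := by
            refine mul_le_mul_of_nonneg_left (dpow_le B n ?_) (h.scpos j n).le
            have := hηM n M
            have := hβm n j
            linarith
        _ = _ := by rw [mul_assoc, ← dpow_add]

end main

end Crest.Agent.R116.Rm899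
end

-- ▼ part R116/Rm4_899
section

/-!
# R116, [ROT-LIN] (helper899): second zoom of the light-ray chart, linear modulus

`natL2` : 627's `TSys.natT` in the light-ray chart.  The output is `NatT` for the flags in a gauge `cc`
constant on lines (`cc = 0` if `β 1 ≠ 0`), and for `β 1 = 0` (then `β 2 = 1`) the slot `E` is invisible
or **strongly twisted with a linear modulus** (`STwL2`): an affine function of the height fits at most
a `d^(γ0 (r - u) - ε)`-part of a (line, cell of level `u`) up to `sc d^r`.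
-/

set_option autoImplicit false
set_option linter.unusedVariables false
set_option linter.unusedSectionVars false

open Finset Filter Topology

namespace Crest.Agent.R116.Rm899

open Crest.Agent.R138.Ex926 (Base U)
open Crest.Agent.R138.Dp76
open Crest.Agent.R138.Ps926
open Crest.Agent.R138.Mk163 (zc zl rho alive own Negl)
open Crest.Agent.R138.MkRef774 (pl)
open Crest.Agent.R136.MkA627
open Crest.Agent.R136.TD627
open Crest.Agent.R116.ChL222
open Crest.Agent.R116.Rl899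

variable {σ κ : Type*}

/-- **strong twist of the slot `E` with a linear modulus**: relative to every affine function of the
height. -/
def STwL2 (B : Base) (I : ℕ → Finset (ℕ × ℝ)) (lev : ℕ → ℚ → ℕ) (fl : ℕ → ℕ × ℝ → LInc)
    (sc : ℕ → ℝ) : Prop :=
  ∃ γ0 : ℝ, 0 < γ0 ∧ ∀ u r : ℚ, 0 ≤ u → u < r → r ≤ 1 → ∀ ε : ℝ, 0 < ε →
    ∀ᶠ n in (U : Filter ℕ), ∀ x ∈ I n, ∀ c : ℝ,
      ((((I n).filter fun y => y.1 = x.1 ∧ zc (lev n u) y.2 = zc (lev n u) x.2 ∧
          |coL (fl n x) (fl n y) 2 - c * (y.2 - x.2)| ≤ sc n * B.d n ^ (r : ℝ)).card : ℕ) : ℝ) ≤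
        B.d n ^ (γ0 * ((r : ℝ) - u) - ε) * ((own (I n) (lev n u) (lev n 1) x).card : ℝ)

theorem STw2.toL {B : Base} {I : ℕ → Finset (ℕ × ℝ)} {lev : ℕ → ℚ → ℕ} {fl : ℕ → ℕ × ℝ → LInc}
    {sc : ℕ → ℝ} (h : STw2 B I lev (fun n x => gfL (fl n x)) sc)
    (hfl : ∀ᶠ n in (U : Filter ℕ), ∀ x ∈ I n, ∀ y ∈ I n, y.1 = x.1 → SameL (fl n x) (fl n y)) :
    STwL2 B I lev fl sc := by
  classical
  obtain ⟨γ0, hγ0, h⟩ := h
  refine ⟨γ0, hγ0, fun u r h0 hur h1 ε hε => ?_⟩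
  filter_upwards [h u r h0 hur h1 ε hε, hfl] with n a1 a2 x hx c
  refine le_trans ?_ (a1 x hx c)
  have : ((I n).filter fun y => y.1 = x.1 ∧ zc (lev n u) y.2 = zc (lev n u) x.2 ∧
          |coL (fl n x) (fl n y) 2 - c * (y.2 - x.2)| ≤ sc n * B.d n ^ (r : ℝ)) ⊆
      (I n).filter fun y => y.1 = x.1 ∧ zc (lev n u) y.2 = zc (lev n u) x.2 ∧
          |dev (fun n x => gfL (fl n x)) n x c y| ≤ sc n * B.d n ^ (r : ℝ) := by
    intro y hy
    obtain ⟨hy1, hy2, hy3, hy4⟩ := mem_filter.1 hy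
    refine mem_filter.2 ⟨hy1, hy2, hy3, ?_⟩
    rw [coL_two (a2 x hx y hy1 hy2)] at hy4
    exact hy4
  exact_mod_cast card_le_card this


/-- output of the second zoom in the light-ray chart -/
def NatL2 (P : TDist LInc 12) (G : Geo σ κ) (g s : ℝ) (θ : κ → ℝ) (β C0 : Fin 12 → ℝ)
    (fl : ℕ → ℕ × ℝ → LInc) (B : Base) (I : ℕ → Finset (ℕ × ℝ)) (lev : ℕ → ℚ → ℕ)
    (f : ℕ → ℚ → ℕ → ℤ → ℕ) (b : ℕ → ℚ → ℕ → σ) (vm : ℕ → ℚ → ℝ) (w : κ → ℕ → ℚ → ℝ)
    (fr : ℕ → ℚ → ℕ × ℝ → LInc) (pr : Fin 12 → ℕ → ℚ → ℝ) : Prop :=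
  ∃ (H : ℕ → ℝ) (mm : ℕ → ℚ → ℚ) (B' : Base) (I' : ℕ → Finset (ℕ × ℝ)) (A' : ℕ → ℝ)
    (sc' : Fin 12 → ℕ → ℝ) (cc : ℕ → ℕ → ℝ), (∀ n, 0 < H n ∧ H n ≤ 1) ∧
    (∀ n, ∀ x : ℚ, 0 ≤ x → x ≤ 1 → 0 ≤ mm n x ∧ mm n x ≤ 1) ∧
    (∀ n, ∀ x y : ℚ, (mm n y : ℝ) - mm n x = H n * ((y : ℝ) - x)) ∧
    (∀ n, B'.d n = B.d n ^ H n) ∧ (∀ᶠ n in (U : Filter ℕ), I' n ⊆ I n) ∧
    (β 1 ≠ 0 → cc = fun _ _ => 0) ∧
    TSys P G g s θ β B' I' (fun n x => lev n (mm n x)) A' (fun n x => f n (mm n x))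
      (fun n x => b n (mm n x)) (fun n x => vm n (mm n x)) (fun j n x => w j n (mm n x))
      (fun n x => fr n (mm n x)) (fun j n x => pr j n (mm n x)) (rg cc fl) sc' ∧
    Slack P β B' sc' ∧
    (∀ j, InvT P B' I' j (rg cc fl) (sc' j) ∨
      (0 < β j ∧ RotT P B' I' (fun n x => lev n (mm n x)) j (rg cc fl) (sc' j) (C0 j)
        (fun u => β j * u)) ∨
      (0 < β j ∧ ∃ a ∈ P.M.mon j, ∑ t, (a t : ℝ) * β t = β j ∧
        ∀ t, a t ≠ 0 → ¬ InvT P B' I' t (rg cc fl) (sc' t))) ∧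
    (β 1 = 0 → InvT P B' I' 2 (rg cc fl) (sc' 2) ∨
      STwL2 B' I' (fun n x => lev n (mm n x)) (rg cc fl) (sc' 2))

section

variable {P : TDist LInc 12} {G : Geo σ κ} {g s : ℝ} {θ : κ → ℝ} {β C0 : Fin 12 → ℝ}
    {B : Base} {I : ℕ → Finset (ℕ × ℝ)} {lev : ℕ → ℚ → ℕ} {A : ℕ → ℝ}
    {f : ℕ → ℚ → ℕ → ℤ → ℕ} {b : ℕ → ℚ → ℕ → σ} {vm : ℕ → ℚ → ℝ} {w : κ → ℕ → ℚ → ℝ}
    {fr : ℕ → ℚ → ℕ × ℝ → LInc} {pr : Fin 12 → ℕ → ℚ → ℝ} {fl : ℕ → ℕ × ℝ → LInc}
    {sc : Fin 12 → ℕ → ℝ}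

/-- composition of windows and gauges -/
theorem NatL2.comp {B1 : Base} {I1 : ℕ → Finset (ℕ × ℝ)} {H1 : ℕ → ℝ} {m1 : ℕ → ℚ → ℚ}
    {c1 : ℕ → ℕ → ℝ} (hc : β 1 ≠ 0 → c1 = fun _ _ => 0)
    (hH : ∀ n, 0 < H1 n ∧ H1 n ≤ 1) (hm : ∀ n, ∀ x : ℚ, 0 ≤ x → x ≤ 1 → 0 ≤ m1 n x ∧ m1 n x ≤ 1)
    (hq : ∀ n, ∀ x y : ℚ, (m1 n y : ℝ) - m1 n x = H1 n * ((y : ℝ) - x))
    (hB : ∀ n, B1.d n = B.d n ^ H1 n) (hI : ∀ᶠ n in (U : Filter ℕ), I1 n ⊆ I n)
    (h : NatL2 P G g s θ β C0 (rg c1 fl) B1 I1 (fun n x => lev n (m1 n x)) (fun n x => f n (m1 n x))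
      (fun n x => b n (m1 n x)) (fun n x => vm n (m1 n x)) (fun j n x => w j n (m1 n x))
      (fun n x => fr n (m1 n x)) (fun j n x => pr j n (m1 n x))) :
    NatL2 P G g s θ β C0 fl B I lev f b vm w fr pr := by
  obtain ⟨H2, m2, B2, I2, A2, sc2, c2, h1, h2, h3, h4, h5, hc2, h6, h7, h8, h9⟩ := h
  rw [rg_rg] at h6 h8 h9
  refine ⟨fun n => H1 n * H2 n, fun n x => m1 n (m2 n x), B2, I2, A2, sc2,
    fun n l => c1 n l + c2 n l, fun n => ⟨?_, ?_⟩,
    fun n x hx0 hx1 => ?_, fun n x y => ?_, fun n => ?_, ?_, fun hβ => ?_, h6, h7, h8, h9⟩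
  · exact mul_pos (hH n).1 (h1 n).1
  · exact mul_le_one₀ (hH n).2 (h1 n).1.le (h1 n).2
  · exact hm n _ (h2 n x hx0 hx1).1 (h2 n x hx0 hx1).2
  · rw [hq, h3]; ring
  · rw [h4, hB, ← Real.rpow_mul (B.pos n).le]
  · filter_upwards [hI, h5] with n a1 a2 using a2.trans a1
  · rw [hc hβ, hc2 hβ]
    funext n l
    simp

theorem NatL2.mono {J : ℕ → Finset (ℕ × ℝ)} (hJ : ∀ᶠ n in (U : Filter ℕ), J n ⊆ I n)
    (h : NatL2 P G g s θ β C0 fl B J lev f b vm w fr pr) :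
    NatL2 P G g s θ β C0 fl B I lev f b vm w fr pr :=
  NatL2.comp (H1 := fun _ => 1) (m1 := fun _ x => x) (c1 := fun _ _ => 0) (fun _ => rfl)
    (fun _ => ⟨one_pos, le_rfl⟩)
    (fun n x h0 h1 => ⟨h0, h1⟩) (fun n x y => by ring) (fun n => by rw [Real.rpow_one]) hJ
    (by rw [rg_zero]; exact h)

/-- composition of windows, same gauge -/
theorem NatL2.comp0 {B1 : Base} {I1 : ℕ → Finset (ℕ × ℝ)} {H1 : ℕ → ℝ} {m1 : ℕ → ℚ → ℚ}
    (hH : ∀ n, 0 < H1 n ∧ H1 n ≤ 1) (hm : ∀ n, ∀ x : ℚ, 0 ≤ x → x ≤ 1 → 0 ≤ m1 n x ∧ m1 n x ≤ 1)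
    (hq : ∀ n, ∀ x y : ℚ, (m1 n y : ℝ) - m1 n x = H1 n * ((y : ℝ) - x))
    (hB : ∀ n, B1.d n = B.d n ^ H1 n) (hI : ∀ᶠ n in (U : Filter ℕ), I1 n ⊆ I n)
    (h : NatL2 P G g s θ β C0 fl B1 I1 (fun n x => lev n (m1 n x)) (fun n x => f n (m1 n x))
      (fun n x => b n (m1 n x)) (fun n x => vm n (m1 n x)) (fun j n x => w j n (m1 n x))
      (fun n x => fr n (m1 n x)) (fun j n x => pr j n (m1 n x))) :
    NatL2 P G g s θ β C0 fl B I lev f b vm w fr pr :=
  NatL2.comp (c1 := fun _ _ => 0) (fun _ => rfl) hH hm hq hB hI (by rw [rg_zero]; exact h)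




end

end Crest.Agent.R116.Rm899
end

-- ▼ part R116/Rn1_899
section

/-!
# R116, [ROT-LIN] (helper899): linear modulus for a general family of sub-fibres

`mem n t (x, a) y` : `y` lies in the strip `(x, a)` at precision `t`.  `exists_linmodG` : on a dense
marked part either the share of the heaviest strip of precision `ρ r` in a (line, cell of level `u`) is
at most `d^(γ0 (r - u) - ε)` for all rational `u < r ≤ 1` (`ModG`), or there is a sequence of windows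
`[u_k, r_k]` on which every line lies in one strip of precision `ρ r_k` (`WinG`).
-/

set_option autoImplicit false
set_option linter.unusedVariables false
set_option linter.unusedSectionVars false

open Finset Filter Topology

namespace Crest.Agent.R116.Rn899

open Crest.Agent.R138.Ex926
open Crest.Agent.R138.Dp76
open Crest.Agent.R138.Ps926
open Crest.Agent.R138.Mk163 (zc zl rho alive own Negl)
open Crest.Agent.R138.MkRef774 (pl nu nu_pos)
open Crest.Agent.R138.Rot76 (al nu_eq)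
open Crest.Agent.R138.MkZoom779 (IsWin exists_rep exists_win)
open Crest.Agent.R136.MkA627
open Crest.Agent.R136.ExR779 (line_cell)
open Crest.Agent.R136.TD627
open Crest.Agent.R116.Rm899 (heavy_window zoomW)

/-- families of strips -/
abbrev Strp := ℕ → ℝ → (ℕ × ℝ) × ℝ → ℕ × ℝ → Prop

section phi

variable {σ κ : Type*} {B : Base} {I : ℕ → Finset (ℕ × ℝ)} {G : Geo σ κ}
    {lev : ℕ → ℚ → ℕ} {A : ℕ → ℝ} {c Λ : ℝ → ℝ} {τ : κ → ℝ → ℝ} {f : ℕ → ℚ → ℕ → ℤ → ℕ}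
    {b : ℕ → ℚ → ℕ → σ} {vm : ℕ → ℚ → ℝ} {w : κ → ℕ → ℚ → ℝ} {mem : Strp}

open Classical in
/-- incidences of `J` in the (line, cell) of `x` in the strip `(x, a)` -/
noncomputable def cntG (mem : Strp) (lev : ℕ → ℚ → ℕ) (u : ℚ) (t : ℝ) (n : ℕ)
    (J : Finset (ℕ × ℝ)) (x : ℕ × ℝ) (a : ℝ) : ℕ :=
  ((cls J (pl (lev n u)) x).filter fun y => mem n t (x, a) y).card

/-- the set of all such numbers -/
def setG (mem : Strp) (lev : ℕ → ℚ → ℕ) (u : ℚ) (t : ℝ) (n : ℕ) (J : Finset (ℕ × ℝ)) : Set ℕ :=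
  {k | ∃ x ∈ J, ∃ a : ℝ, k = cntG mem lev u t n J x a}

/-- the largest such number -/
noncomputable def PhiG (mem : Strp) (lev : ℕ → ℚ → ℕ) (u : ℚ) (t : ℝ) (n : ℕ)
    (J : Finset (ℕ × ℝ)) : ℝ := ((sSup (setG mem lev u t n J) : ℕ) : ℝ)

theorem cntG_le_cls {u : ℚ} {t : ℝ} {n : ℕ} {J : Finset (ℕ × ℝ)} (x : ℕ × ℝ) (a : ℝ) :
    cntG mem lev u t n J x a ≤ (cls J (pl (lev n u)) x).card := by
  classical
  unfold cntG
  exact card_le_card (filter_subset _ _)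

theorem setG_bdd (u : ℚ) (t : ℝ) (n : ℕ) (J : Finset (ℕ × ℝ)) : BddAbove (setG mem lev u t n J) := by
  refine ⟨J.card, ?_⟩
  rintro k ⟨x, hx, a, rfl⟩
  exact (cntG_le_cls x a).trans (card_le_card (filter_subset _ _))

theorem cntG_le_PhiG {u : ℚ} {t : ℝ} {n : ℕ} {J : Finset (ℕ × ℝ)} {x : ℕ × ℝ} (hx : x ∈ J)
    (a : ℝ) : (cntG mem lev u t n J x a : ℝ) ≤ PhiG mem lev u t n J := by
  unfold PhiG
  exact_mod_cast le_csSup (setG_bdd u t n J) ⟨x, hx, a, rfl⟩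

theorem PhiG_le {u : ℚ} {t : ℝ} {n : ℕ} {J : Finset (ℕ × ℝ)} {X : ℝ} (hX : 0 ≤ X)
    (h : ∀ x ∈ J, ∀ a : ℝ, (cntG mem lev u t n J x a : ℝ) ≤ X) : PhiG mem lev u t n J ≤ X := by
  unfold PhiG
  rcases (setG mem lev u t n J).eq_empty_or_nonempty with h0 | h0
  · rw [h0, csSup_empty]
    simpa using hX
  · obtain ⟨x, hx, a, e⟩ := Nat.sSup_mem h0 (setG_bdd u t n J)
    rw [e]
    exact h x hx a

theorem cntG_mono {u : ℚ} {t : ℝ} {n : ℕ} {J J' : Finset (ℕ × ℝ)} (h : J ⊆ J') (x : ℕ × ℝ)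
    (a : ℝ) : cntG mem lev u t n J x a ≤ cntG mem lev u t n J' x a := by
  classical
  unfold cntG
  refine card_le_card fun y hy => ?_
  rw [mem_filter, mem_cls] at hy ⊢
  exact ⟨⟨h hy.1.1, hy.1.2⟩, hy.2⟩

theorem one_le_cntG (hself : ∀ n t x a, mem n t (x, a) x) {u : ℚ} {t : ℝ} {n : ℕ}
    {J : Finset (ℕ × ℝ)} {x : ℕ × ℝ} (hx : x ∈ J) (a : ℝ) : 1 ≤ cntG mem lev u t n J x a := by
  classical
  unfold cntG
  refine card_pos.2 ⟨x, mem_filter.2 ⟨?_, hself n t x a⟩⟩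
  rw [mem_cls]; exact ⟨hx, rfl⟩

theorem monoF_PhiG (hM : MkA B I G lev A c Λ τ f b vm w) (hself : ∀ n t x a, mem n t (x, a) x)
    (u : ℚ) (t : ℝ) : MonoF B I (fun n J => PhiG mem lev u t n J) := by
  classical
  refine ⟨Eventually.of_forall fun n J J' hJ h h2 => ?_, 2, ?_⟩
  · refine PhiG_le ?_ fun x hx a => ?_
    · unfold PhiG; positivity
    · refine le_trans ?_ (cntG_le_PhiG (h hx) a)
      exact_mod_cast cntG_mono h x a
  · filter_upwards [line_cell hM (v := 0) le_rfl (by norm_num) one_pos, hM.cell0]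
      with n h1 h0 J hJ hJI
    constructor
    · obtain ⟨x, hx⟩ := hJ
      have a1 : (1 : ℝ) ≤ cntG mem lev u t n J x 0 := by exact_mod_cast one_le_cntG hself hx 0
      exact (dpow_le_one B n (by norm_num)).trans (a1.trans (cntG_le_PhiG hx 0))
    · refine PhiG_le (dpow_pos B n _).le fun x hx a => ?_
      have a1 : (cntG mem lev u t n J x a : ℝ) ≤ ((cls (I n) (pl (lev n 0)) x).card : ℝ) := by
        have a2 : cntG mem lev u t n J x a ≤ (cls (I n) (pl (lev n 0)) x).card := by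
          refine (cntG_le_cls x a).trans (card_le_card fun y hy => ?_)
          rw [mem_cls] at hy ⊢
          refine ⟨hJI hy.1, Prod.ext (congrArg Prod.fst hy.2 : _) ?_⟩
          exact h0 y (hJI hy.1) x (hJI hx)
        exact_mod_cast a2
      refine a1.trans ((h1 x (hJI hx)).2.trans ?_)
      unfold nu
      rw [← dpow_add]
      apply dpow_le B n
      have := (hM.lam 0 1 le_rfl zero_le_one le_rfl).1
      push_cast
      linarith

theorem pb_PhiG (hM : MkA B I G lev A c Λ τ f b vm w) (hself : ∀ n t x a, mem n t (x, a) x)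
    (u : ℚ) (t : ℝ) : B.PB (fun n => PhiG mem lev u t n (I n)) :=
  (monoF_PhiG hM hself u t).pb (Eventually.of_forall fun n => Finset.Subset.refl _) hM.ne

end phi

/-- linear modulus of the family of strips (rate `ρ`) -/
def ModG (B : Base) (J : ℕ → Finset (ℕ × ℝ)) (lev : ℕ → ℚ → ℕ) (mem : Strp) (ρ : ℝ) : Prop :=
  ∃ γ0 : ℝ, 0 < γ0 ∧ ∀ u r : ℚ, 0 ≤ u → u < r → r ≤ 1 → ∀ ε : ℝ, 0 < ε →
    ∀ᶠ n in (U : Filter ℕ), ∀ x ∈ J n, ∀ a : ℝ, ∀ T : Finset (ℕ × ℝ), T ⊆ J n →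
      (∀ y ∈ T, y.1 = x.1 ∧ zc (lev n u) y.2 = zc (lev n u) x.2 ∧ mem n (ρ * r) (x, a) y) →
      (T.card : ℝ) ≤
        B.d n ^ (γ0 * ((r : ℝ) - u) - ε) * ((own (J n) (lev n u) (lev n 1) x).card : ℝ)

theorem ModG.dense {σ κ : Type*} {B : Base} {I J : ℕ → Finset (ℕ × ℝ)} {G : Geo σ κ}
    {lev : ℕ → ℚ → ℕ} {A : ℕ → ℝ} {c Λ : ℝ → ℝ} {τ : κ → ℝ → ℝ} {f : ℕ → ℚ → ℕ → ℤ → ℕ}
    {b : ℕ → ℚ → ℕ → σ} {vm : ℕ → ℚ → ℝ} {w : κ → ℕ → ℚ → ℝ} {mem : Strp} {ρ : ℝ}
    (h : ModG B I lev mem ρ) (hI : MkA B I G lev A c Λ τ f b vm w)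
    (hJ : MkA B J G lev A c Λ τ f b vm w) (hd : Dense B J I) : ModG B J lev mem ρ := by
  obtain ⟨γ0, hγ0, h⟩ := h
  refine ⟨γ0, hγ0, fun u r h0 hur h1 ε hε => ?_⟩
  filter_upwards [h u r h0 hur h1 (ε / 3) (by positivity), hd.1,
    hI.own u 1 h0 (hur.le.trans h1) le_rfl (ε / 3) (by positivity),
    hJ.own u 1 h0 (hur.le.trans h1) le_rfl (ε / 3) (by positivity)] with n a1 a2 a3 a4 x hx a T hT hTm
  have b1 := a1 x (a2 hx) a T (hT.trans a2) hTm
  have b2 := (a3 x (a2 hx)).2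
  have b3 := (a4 x hx).1
  refine b1.trans ((mul_le_mul_of_nonneg_left b2 (dpow_pos B n _).le).trans ?_)
  refine le_trans ?_ (mul_le_mul_of_nonneg_left b3 (dpow_pos B n _).le)
  rw [← dpow_add, ← dpow_add]
  apply dpow_le B n
  linarith

section stage

variable {σ κ : Type*} {B : Base} {X : ℕ → Finset (ℕ × ℝ)} {G : Geo σ κ}
    {lev : ℕ → ℚ → ℕ} {A : ℕ → ℝ} {c Λ : ℝ → ℝ} {τ : κ → ℝ → ℝ} {f : ℕ → ℚ → ℕ → ℤ → ℕ}
    {b : ℕ → ℚ → ℕ → σ} {vm : ℕ → ℚ → ℝ} {w : κ → ℕ → ℚ → ℝ} {mem : Strp}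

/-- one window, one `n` -/
def Stage (B : Base) (X : ℕ → Finset (ℕ × ℝ)) (lev : ℕ → ℚ → ℕ) (mem : Strp) (u r : ℚ) (t e : ℝ)
    (n : ℕ) : Prop :=
  ∃ (I' Y : Finset (ℕ × ℝ)) (J0 : ℤ) (sel : ℕ → (ℕ × ℝ) × ℝ),
    IsWin (X n) I' (lev n u) (lev n r) J0 ∧ I'.Nonempty ∧ Y ⊆ I' ∧
    (∀ y ∈ Y, (sel y.1).1 ∈ X n ∧ (sel y.1).1.1 = y.1 ∧ mem n t (sel y.1) y) ∧
    B.d n ^ (6 * e) * (I'.card : ℝ) ≤ 2 * (Y.card : ℝ)

theorem ev_stage (hM : MkA B X G lev A c Λ τ f b vm w) (hself : ∀ n t x a, mem n t (x, a) x)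
    {u r : ℚ} {t : ℝ} (h0 : 0 ≤ u) (hur : u < r) (h1 : r ≤ 1)
    (hst : StableF B (fun n J => PhiG mem lev u t n J) X) {e : ℝ} (he : 0 < e)
    (hS : al Λ u - B.ex (fun n => PhiG mem lev u t n (X n)) < e) :
    ∀ᶠ n in (U : Filter ℕ), Stage B X lev mem u r t e n := by
  classical
  set φ : ℝ := B.ex (fun n => PhiG mem lev u t n (X n)) with hφ
  set N : ℕ → Finset (ℕ × ℝ) := fun n => (X n).filter fun x =>
      ∀ a : ℝ, (cntG mem lev u t n (X n) x a : ℝ) ≤ B.d n ^ (-(φ - e)) with hN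
  have hnd : ¬ Dense B N X := by
    refine hst.not_dense_of_le (monoF_PhiG hM hself u t) hM.ne
      (X := fun n => B.d n ^ (-(φ - e))) (Base.PB.dpow _) ?_ ?_
    · rw [Base.ex_dpow, neg_neg]
      show φ - e < φ
      linarith
    · refine Eventually.of_forall fun n hne => ?_
      refine PhiG_le (dpow_pos B n _).le fun x hx a => ?_
      obtain ⟨hx1, hx2⟩ := mem_filter.1 hx
      have a1 : (cntG mem lev u t n (N n) x a : ℝ) ≤ cntG mem lev u t n (X n) x a := by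
        exact_mod_cast cntG_mono (filter_subset _ _) x a
      exact a1.trans (hx2 a)
  obtain ⟨c', hc', hsmall⟩ := small_of_not_dense
    (Eventually.of_forall fun n => filter_subset _ _) hnd
  filter_upwards [hsmall, dpow_small B hc' (ε := 1 / 2) (by norm_num), hM.ne,
    line_cell hM h0 (hur.le.trans h1) he, line_cell hM (h0.trans hur.le) h1 he,
    hM.own u r h0 hur.le h1 e he, hM.lev_mono u r h0 hur.le h1] with n a1 a2 a3 a4 a5 a6 a7
  have hXpos : (0 : ℝ) < (X n).card := by exact_mod_cast card_pos.2 a3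
  have hN2 : 2 * ((N n).card : ℝ) ≤ (X n).card := by
    have := a1.trans_le (mul_le_mul_of_nonneg_right a2.le hXpos.le)
    linarith
  obtain ⟨I', Y, J0, sel, b1, b2, b3, b4, b5⟩ := heavy_window (X := X n) (N := N n)
    (i0 := lev n u) (i1 := lev n r) a7
    (fun p y => p.1 ∈ X n ∧ p.1.1 = y.1 ∧ mem n t p y)
    (K1 := B.d n ^ (-(φ - e))) (K2 := B.d n ^ e * nu B Λ n u) (K2' := B.d n ^ (-e) * nu B Λ n u)
    (K3 := B.d n ^ (-e) * nu B Λ n r)
    (K4 := B.d n ^ (-((r : ℝ) - u) + (Λ r - Λ u) - e))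
    (dpow_pos B n _).le (mul_pos (dpow_pos B n _) (nu_pos B Λ n u)).le
    (mul_pos (dpow_pos B n _) (nu_pos B Λ n r)).le (dpow_pos B n _).le a3 hN2
    (fun x hx hxN => by
      have : ∃ a : ℝ, B.d n ^ (-(φ - e)) < (cntG mem lev u t n (X n) x a : ℝ) := by
        by_contra hcon
        push Not at hcon
        exact hxN (mem_filter.2 ⟨hx, hcon⟩)
      obtain ⟨a, ha⟩ := this
      refine ⟨a, _, filter_subset _ _, fun y hy => ?_, ha.le⟩
      obtain ⟨hy1, hy2⟩ := mem_filter.1 hy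
      have e0 : (pl (lev n u) y).1 = (pl (lev n u) x).1 := by rw [(mem_cls.1 hy1).2]
      exact ⟨hx, e0.symm, hy2⟩)
    (fun x hx => (a4 x hx).1) (fun x hx => (a4 x hx).2) (fun x hx => (a5 x hx).2)
    (fun x hx => (a6 x hx).2)
  refine ⟨I', Y, J0, sel, b1, b2, b3, b4, ?_⟩
  rw [nu_eq, nu_eq] at b5
  have e1 : B.d n ^ (-(φ - e)) * (B.d n ^ e * B.d n ^ (-(al Λ u))) =
      B.d n ^ (-(φ - e) + (e + -(al Λ u))) := by rw [← dpow_add, ← dpow_add]
  have e2 : 2 * (B.d n ^ (-e) * B.d n ^ (-(al Λ r))) * (B.d n ^ (-e) * B.d n ^ (-(al Λ u))) *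
      B.d n ^ (-((r : ℝ) - u) + (Λ r - Λ u) - e) =
      2 * B.d n ^ ((-e + -(al Λ r)) + (-e + -(al Λ u)) + (-((r : ℝ) - u) + (Λ r - Λ u) - e)) := by
    rw [dpow_add, dpow_add, dpow_add, dpow_add]
    ring
  rw [e1, e2] at b5
  set E1 : ℝ := (-e + -(al Λ r)) + (-e + -(al Λ u)) + (-((r : ℝ) - u) + (Λ r - Λ u) - e) with hE1
  have e3 : al Λ u - φ + 5 * e + E1 = -(φ - e) + (e + -(al Λ u)) := by
    rw [hE1]
    unfold al
    ring
  rw [← e3, dpow_add] at b5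
  have b6 : B.d n ^ (al Λ u - φ + 5 * e) * (I'.card : ℝ) ≤ 2 * (Y.card : ℝ) := by
    have hp := dpow_pos B n E1
    have b7 : B.d n ^ E1 * (B.d n ^ (al Λ u - φ + 5 * e) * (I'.card : ℝ)) ≤
        B.d n ^ E1 * (2 * (Y.card : ℝ)) := by linarith
    exact le_of_mul_le_mul_left b7 hp
  refine le_trans ?_ b6
  exact mul_le_mul_of_nonneg_right (dpow_le B n (by linarith)) (by positivity)

end stage

section main

variable {σ κ φ : Type*} {m : ℕ} {P : TDist φ m} {G : Geo σ κ} {g s : ℝ} {θ : κ → ℝ}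
    {β : Fin m → ℝ} {B : Base} {I : ℕ → Finset (ℕ × ℝ)} {lev : ℕ → ℚ → ℕ} {A : ℕ → ℝ}
    {f : ℕ → ℚ → ℕ → ℤ → ℕ} {b : ℕ → ℚ → ℕ → σ} {vm : ℕ → ℚ → ℝ} {w : κ → ℕ → ℚ → ℝ}
    {fr : ℕ → ℚ → ℕ × ℝ → φ} {pr : Fin m → ℕ → ℚ → ℝ} {fl : ℕ → ℕ × ℝ → φ}
    {sc : Fin m → ℕ → ℝ}

/-- a window of the system on which every line lies in one strip of the finest precision -/
def WinG (P : TDist φ m) (G : Geo σ κ) (g s : ℝ) (θ : κ → ℝ) (β : Fin m → ℝ) (B : Base)
    (I : ℕ → Finset (ℕ × ℝ)) (lev : ℕ → ℚ → ℕ)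
    (f : ℕ → ℚ → ℕ → ℤ → ℕ) (b : ℕ → ℚ → ℕ → σ) (vm : ℕ → ℚ → ℝ) (w : κ → ℕ → ℚ → ℝ)
    (fr : ℕ → ℚ → ℕ × ℝ → φ) (pr : Fin m → ℕ → ℚ → ℝ) (fl : ℕ → ℕ × ℝ → φ)
    (sc : Fin m → ℕ → ℝ) (mem : Strp) (ρ : ℝ) : Prop :=
  ∃ (H : ℕ → ℝ) (mm : ℕ → ℚ → ℚ) (B' : Base) (I' : ℕ → Finset (ℕ × ℝ)) (A' : ℕ → ℝ)
    (sel : ℕ → ℕ → (ℕ × ℝ) × ℝ), (∀ n, 0 < H n ∧ H n ≤ 1) ∧
    (∀ n, ∀ x : ℚ, 0 ≤ x → x ≤ 1 → 0 ≤ mm n x ∧ mm n x ≤ 1) ∧
    (∀ n, ∀ x y : ℚ, (mm n y : ℝ) - mm n x = H n * ((y : ℝ) - x)) ∧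
    (∀ n, B'.d n = B.d n ^ H n) ∧ (∀ᶠ n in (U : Filter ℕ), I' n ⊆ I n) ∧
    TSys P G g s θ β B' I' (fun n x => lev n (mm n x)) A' (fun n x => f n (mm n x))
      (fun n x => b n (mm n x)) (fun n x => vm n (mm n x)) (fun j n x => w j n (mm n x))
      (fun n x => fr n (mm n x)) (fun j n x => pr j n (mm n x)) fl
      (fun j n => sc j n * B.d n ^ (β j * mm n 0)) ∧
    (∀ᶠ n in (U : Filter ℕ), ∀ y ∈ I' n, (sel n y.1).1 ∈ I n ∧ (sel n y.1).1.1 = y.1 ∧
      mem n (ρ * (mm n 1 : ℝ)) (sel n y.1) y) ∧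
    (∀ j, InvT P B I j fl (sc j) →
      InvT P B' I' j fl (fun n => sc j n * B.d n ^ (β j * mm n 0))) ∧
    (Slack P β B sc → Slack P β B' (fun j n => sc j n * B.d n ^ (β j * mm n 0)))

/-- **linear modulus or a window inside single strips.** -/
theorem exists_linmodG [Countable κ] (h : TSys P G g s θ β B I lev A f b vm w fr pr fl sc)
    {mem : Strp} (hself : ∀ n t x a, mem n t (x, a) x) (ρ : ℝ) :
    ∃ J : ℕ → Finset (ℕ × ℝ), Dense B J I ∧
      TSys P G g s θ β B J lev A f b vm w fr pr fl sc ∧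
      (ModG B J lev mem ρ ∨ WinG P G g s θ β B J lev f b vm w fr pr fl sc mem ρ) := by
  classical
  set Λ : ℝ → ℝ := fun v => s * v with hΛ
  obtain ⟨en, hen⟩ := exists_surjective_nat (ℚ × ℚ)
  obtain ⟨J2, hJ2d, hJ2s⟩ := exists_stableF (B := B) h.mka.ne
    (fun j n J => PhiG mem lev (en j).1 (ρ * (en j).2) n J)
    (fun j => monoF_PhiG h.mka hself (en j).1 (ρ * (en j).2))
  obtain ⟨X, hXd, hX⟩ := MkA.refine h.mka hJ2d
  have hXI : Dense B X I := hXd.trans hJ2d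
  have hS := h.dense hXI hX
  have hst : ∀ u r : ℚ, StableF B (fun n J => PhiG mem lev u (ρ * r) n J) X := by
    intro u r
    obtain ⟨j, hj⟩ := hen (u, r)
    have h1 := hJ2s j
    rw [hj] at h1
    exact h1.dense hXd
  set φ' : ℚ → ℚ → ℝ := fun u r => B.ex (fun n => PhiG mem lev u (ρ * r) n (X n)) with hφ
  refine ⟨X, hXI, hS, ?_⟩
  by_cases hg : ∃ γ0 : ℝ, 0 < γ0 ∧ ∀ u r : ℚ, 0 ≤ u → u < r → r ≤ 1 →
      γ0 * ((r : ℝ) - u) ≤ al Λ u - φ' u r
  · -- linear modulus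
    obtain ⟨γ0, hγ0, hγ⟩ := hg
    refine Or.inl ⟨γ0, hγ0, fun u r h0 hur h1 ε hε => ?_⟩
    have h5 : ∀ᶠ n in (U : Filter ℕ), PhiG mem lev u (ρ * r) n (X n) <
        B.d n ^ (-(φ' u r + ε / 2)) :=
      Base.ex_lt_iff_dpow (pb_PhiG hX hself u (ρ * r)) (by
        show B.ex (fun n => PhiG mem lev u (ρ * r) n (X n)) < φ' u r + ε / 2
        have : B.ex (fun n => PhiG mem lev u (ρ * r) n (X n)) = φ' u r := rfl
        rw [this]; linarith)
    filter_upwards [h5, hX.own u 1 h0 (hur.le.trans h1) le_rfl (ε / 2) (by positivity)]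
      with n a1 a3 x hx a T hT hTm
    have b1 : (T.card : ℝ) ≤ (cntG mem lev u (ρ * r) n (X n) x a : ℝ) := by
      have : T ⊆ (cls (X n) (pl (lev n u)) x).filter fun y => mem n (ρ * r) (x, a) y := by
        intro y hy
        obtain ⟨hy2, hy3, hy4⟩ := hTm y hy
        exact mem_filter.2 ⟨mem_cls.2 ⟨hT hy, Prod.ext hy2 hy3⟩, hy4⟩
      unfold cntG
      exact_mod_cast card_le_card this
    have b2 := (b1.trans (cntG_le_PhiG hx a)).trans a1.le
    have b3 := (a3 x hx).1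
    refine b2.trans ?_
    have b4 := mul_le_mul_of_nonneg_left b3 (dpow_pos B n (γ0 * ((r : ℝ) - u) - ε)).le
    refine le_trans ?_ b4
    rw [← dpow_add]
    apply dpow_le B n
    have e1 : al Λ u = (1 - (u : ℝ)) - (s * 1 - s * u) := rfl
    have e2 := hγ u r h0 hur h1
    rw [e1] at e2
    push_cast
    linarith
  · -- heavy strips on windows
    refine Or.inr ?_
    push Not at hg
    have hex : ∀ k : ℕ, ∃ u r : ℚ, 0 ≤ u ∧ u < r ∧ r ≤ 1 ∧
        al Λ u - φ' u r < 1 / ((k : ℝ) + 1) * ((r : ℝ) - u) := fun k =>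
      hg (1 / ((k : ℝ) + 1)) (by positivity)
    choose uu rr hu0 hur hr1 hS1 using hex
    have hur' : ∀ k, (uu k : ℝ) < rr k := fun k => by exact_mod_cast hur k
    have hu0' : ∀ k, (0 : ℝ) ≤ uu k := fun k => by exact_mod_cast hu0 k
    have hr1' : ∀ k, (rr k : ℝ) ≤ 1 := fun k => by exact_mod_cast hr1 k
    set η : ℕ → ℝ := fun k => (rr k : ℝ) - uu k with hη
    set mq : ℕ → ℚ → ℚ := fun k x => uu k + (rr k - uu k) * x with hmq
    have hη0 : ∀ k, 0 < η k := fun k => by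
      show 0 < (rr k : ℝ) - uu k
      linarith [hur' k]
    have hη1 : ∀ k, η k ≤ 1 := fun k => by
      show (rr k : ℝ) - uu k ≤ 1
      linarith [hu0' k, hr1' k]
    have hmm : ∀ k, ∀ x : ℚ, 0 ≤ x → x ≤ 1 → 0 ≤ mq k x ∧ mq k x ≤ 1 := by
      intro k x hx0 hx1
      have h1 := hu0 k
      have h2 := hur k
      have h3 := hr1 k
      show 0 ≤ uu k + (rr k - uu k) * x ∧ uu k + (rr k - uu k) * x ≤ 1
      constructor
      · have := mul_nonneg (sub_nonneg.2 h2.le) hx0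
        linarith
      · have := mul_le_mul_of_nonneg_left hx1 (sub_nonneg.2 h2.le)
        linarith
    have hq : ∀ k, ∀ x y : ℚ, (mq k y : ℝ) - mq k x = η k * ((y : ℝ) - x) := by
      intro k x y
      simp only [hmq, hη]
      push_cast
      ring
    have hm0 : ∀ k, mq k 0 = uu k := fun k => by simp only [hmq]; ring
    have hm1 : ∀ k, mq k 1 = rr k := fun k => by simp only [hmq]; ring
    set e : ℕ → ℝ := fun k => 1 / ((k : ℝ) + 1) * η k with he
    have he0 : ∀ k, 0 < e k := fun k => mul_pos (by positivity) (hη0 k)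
    obtain ⟨s0, hs0, hz⟩ := zoomW hS hη0 hη1 hmm hq
    obtain ⟨s3, hs3, hs3'⟩ := exists_diag
      (fun k n => Stage B X lev mem (uu k) (rr k) (ρ * rr k) (e k) n)
      (fun k => ev_stage hX hself (hu0 k) (hur k) (hr1 k) (hst _ _) (he0 k) (hS1 k))
    set t : ℕ → ℕ := fun n => min (s0 n) (s3 n) with ht
    have htt : Tendsto t U atTop := by
      rw [tendsto_atTop]
      intro c
      filter_upwards [tendsto_atTop.1 hs0 c, tendsto_atTop.1 hs3 c] with n h1 h2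
      exact le_min h1 h2
    obtain ⟨B', A', hB', hT⟩ := hz t htt (Eventually.of_forall fun n => min_le_left _ _)
    have hBp : ∀ n (y : ℝ), B'.d n ^ y = B.d n ^ (η (t n) * y) := by
      intro n y
      rw [hB' n, ← Real.rpow_mul (B.pos n).le]
    -- choice of the window sets
    have hch : ∀ n, ∃ (I' Y : Finset (ℕ × ℝ)) (J0 : ℤ) (sel : ℕ → (ℕ × ℝ) × ℝ),
        IsWin (X n) I' (lev n (mq (t n) 0)) (lev n (mq (t n) 1)) J0 ∧
        ((X n).Nonempty → I'.Nonempty) ∧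
        (Stage B X lev mem (uu (t n)) (rr (t n)) (ρ * rr (t n)) (e (t n)) n →
          Y ⊆ I' ∧
          (∀ y ∈ Y, (sel y.1).1 ∈ X n ∧ (sel y.1).1.1 = y.1 ∧
            mem n (ρ * rr (t n)) (sel y.1) y) ∧
          B.d n ^ (6 * e (t n)) * (I'.card : ℝ) ≤ 2 * (Y.card : ℝ)) := by
      intro n
      by_cases hn : Stage B X lev mem (uu (t n)) (rr (t n)) (ρ * rr (t n)) (e (t n)) n
      · obtain ⟨I', Y, J0, sel, b1, b2, b3, b4, b5⟩ := hn
        refine ⟨I', Y, J0, sel, ?_, fun _ => b2, fun _ => ⟨b3, b4, b5⟩⟩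
        rw [hm0, hm1]
        exact b1
      · obtain ⟨I', J0, b1, b2⟩ := exists_win (X n) (lev n (mq (t n) 0)) (lev n (mq (t n) 1))
        exact ⟨I', ∅, J0, fun _ => ((0, 0), 0), b1, b2, fun hh => absurd hh hn⟩
    choose I' Y J0 sel hwin hne hstage using hch
    have hS' := hT I' J0 hwin hne
    have hev : ∀ᶠ n in (U : Filter ℕ), Y n ⊆ I' n ∧
          (∀ y ∈ Y n, (sel n y.1).1 ∈ X n ∧ (sel n y.1).1.1 = y.1 ∧
            mem n (ρ * rr (t n)) (sel n y.1) y) ∧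
          B.d n ^ (6 * e (t n)) * ((I' n).card : ℝ) ≤ 2 * ((Y n).card : ℝ) := by
      filter_upwards [hs3'] with n hn
      exact hstage n (hn (t n) (min_le_right _ _))
    have hYd : Dense B' Y I' := by
      refine ⟨by filter_upwards [hev] with n hn using hn.1, fun δ hδ => ?_⟩
      have hk : ∀ᶠ n in (U : Filter ℕ), 12 / δ ≤ (t n : ℝ) :=
        (tendsto_natCast_atTop_atTop.comp htt).eventually_ge_atTop _
      filter_upwards [hev, hk, dpow_small B' (half_pos hδ) (ε := 1 / 2) (by norm_num)]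
        with n a1 a2 a3
      obtain ⟨-, -, a1⟩ := a1
      have c1 : B'.d n ^ (δ / 2) ≤ B.d n ^ (6 * e (t n)) := by
        rw [hBp]
        refine dpow_le B n ?_
        have c2 : 6 * e (t n) = η (t n) * (6 / ((t n : ℝ) + 1)) := by
          simp only [he]
          ring
        rw [c2]
        refine mul_le_mul_of_nonneg_left ?_ (hη0 _).le
        rw [div_le_iff₀ (by positivity)]
        rw [div_le_iff₀ hδ] at a2
        nlinarith
      have c3 : B'.d n ^ δ = B'.d n ^ (δ / 2) * B'.d n ^ (δ / 2) := by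
        rw [← dpow_add]; congr 1; ring
      rw [c3]
      have c4 := dpow_pos B' n (δ / 2)
      have c5 : (0 : ℝ) ≤ (I' n).card := by positivity
      calc B'.d n ^ (δ / 2) * B'.d n ^ (δ / 2) * ((I' n).card : ℝ)
          ≤ 1 / 2 * B.d n ^ (6 * e (t n)) * ((I' n).card : ℝ) :=
            mul_le_mul_of_nonneg_right (mul_le_mul a3.le c1 c4.le (by norm_num)) c5
        _ = 1 / 2 * (B.d n ^ (6 * e (t n)) * ((I' n).card : ℝ)) := by ring
        _ ≤ 1 / 2 * (2 * ((Y n).card : ℝ)) := mul_le_mul_of_nonneg_left a1 (by norm_num)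
        _ = _ := by ring
    obtain ⟨J', hJ'Y, hJ'⟩ := MkA.refine hS'.mka hYd
    have hJ'I : Dense B' J' I' := hJ'Y.trans hYd
    have hm00 : ∀ k, (0 : ℝ) ≤ mq k 0 ∧ (mq k 0 : ℝ) ≤ 1 := fun k =>
      ⟨by exact_mod_cast (hmm k 0 le_rfl zero_le_one).1,
        by exact_mod_cast (hmm k 0 le_rfl zero_le_one).2⟩
    have hηM : ∀ n (M : ℝ), η (t n) * M ≤ |M| := fun n M => by
      calc η (t n) * M ≤ η (t n) * |M| := mul_le_mul_of_nonneg_left (le_abs_self _) (hη0 _).le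
        _ ≤ 1 * |M| := mul_le_mul_of_nonneg_right (hη1 _) (abs_nonneg _)
        _ = |M| := one_mul _
    have hβm : ∀ n j, β j * (mq (t n) 0 : ℝ) ≤ |β j| := fun n j => by
      calc β j * (mq (t n) 0 : ℝ) ≤ |β j| * (mq (t n) 0 : ℝ) :=
            mul_le_mul_of_nonneg_right (le_abs_self _) (hm00 _).1
        _ ≤ |β j| * 1 := mul_le_mul_of_nonneg_left (hm00 _).2 (abs_nonneg _)
        _ = |β j| := mul_one _
    have hI'X : ∀ n, I' n ⊆ X n := fun n => (hwin n).sub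
    refine ⟨fun n => η (t n), fun n => mq (t n), B', J', A', sel,
      fun n => ⟨hη0 _, hη1 _⟩, fun n => hmm (t n), fun n => hq (t n), hB',
      ?_, hS'.dense hJ'I hJ', ?_, ?_, ?_⟩
    · filter_upwards [hJ'I.1] with n hn using hn.trans (hI'X n)
    · filter_upwards [hev, hJ'Y.1] with n a1 a2 y hy
      have b1 := a1.2.1 y (a2 hy)
      rw [hm1]
      exact b1
    · intro j hj M
      filter_upwards [hj (|β j| + |M|), hXI.1, hJ'I.1] with n a1 a2 a3 x hx y hy hxy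
      refine (a1 x (hI'X n (a3 hx)) y (hI'X n (a3 hy)) hxy).trans ?_
      rw [hBp, mul_assoc, ← dpow_add]
      refine mul_le_mul_of_nonneg_left (dpow_le B n ?_) (h.scpos j n).le
      have := hβm n j
      have := hηM n M
      linarith
    · intro hsl j a ha hlt M
      filter_upwards [hsl j a ha hlt (|M| + |β j| + |∑ t, (a t : ℝ) * β t|)] with n hn
      rw [prod_dpow, hBp]
      have e1 : ∑ t', (a t' : ℝ) * (β t' * (mq (t n) 0 : ℝ)) = (∑ t', (a t' : ℝ) * β t') *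
          (mq (t n) 0 : ℝ) := by
        rw [Finset.sum_mul]
        exact Finset.sum_congr rfl fun t' _ => by ring
      have e2 : -|∑ t, (a t : ℝ) * β t| ≤ (∑ t', (a t' : ℝ) * β t') * (mq (t n) 0 : ℝ) := by
        have h1 := neg_abs_le ((∑ t', (a t' : ℝ) * β t') * (mq (t n) 0 : ℝ))
        rw [abs_mul, abs_of_nonneg (hm00 (t n)).1] at h1
        have h2 : |∑ t', (a t' : ℝ) * β t'| * (mq (t n) 0 : ℝ) ≤ |∑ t', (a t' : ℝ) * β t'| * 1 :=
          mul_le_mul_of_nonneg_left (hm00 (t n)).2 (abs_nonneg _)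
        linarith
      rw [e1]
      calc (∏ t', sc t' n ^ a t') * B.d n ^ ((∑ t', (a t' : ℝ) * β t') * (mq (t n) 0 : ℝ))
          ≤ sc j n * B.d n ^ (|M| + |β j| + |∑ t, (a t : ℝ) * β t|) *
            B.d n ^ ((∑ t', (a t' : ℝ) * β t') * (mq (t n) 0 : ℝ)) :=
            mul_le_mul_of_nonneg_right hn (dpow_pos B n _).le
        _ = sc j n * B.d n ^ (|M| + |β j| + |∑ t, (a t : ℝ) * β t| +
            (∑ t', (a t' : ℝ) * β t') * (mq (t n) 0 : ℝ)) := by rw [mul_assoc, ← dpow_add]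
        _ ≤ sc j n * B.d n ^ (β j * (mq (t n) 0 : ℝ) + η (t n) * M) := by
            refine mul_le_mul_of_nonneg_left (dpow_le B n ?_) (h.scpos j n).le
            have := hηM n M
            have := hβm n j
            linarith
        _ = _ := by rw [mul_assoc, ← dpow_add]

end main

end Crest.Agent.R116.Rn899
end

-- ▼ part R116/Rn2_899
section

/-!
# R116, [ROT-LIN] (helper899): linear modulus of the own twist of a free slot

* `TwP` : the share of the own incidences of a (line, cell of level `u`) whose slot `k` agrees up to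
  `sc d^(b0 r)` is at most `d^(γ0 (r - u) - ε)`, all rational `u < r ≤ 1`;
* `win_close` : in a window inside single strips of the slot `j` all flags of one line agree up to the
  finest precision;
* `gap_inv` : then one more zoom makes the slot invisible.
-/

set_option autoImplicit false
set_option linter.unusedVariables false
set_option linter.unusedSectionVars false

open Finset Filter Topology

namespace Crest.Agent.R116.Rn899

open Crest.Agent.R138.Ex926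
open Crest.Agent.R138.Dp76
open Crest.Agent.R138.Ps926
open Crest.Agent.R138.Mk163 (zc zl rho alive own Negl)
open Crest.Agent.R136.MkA627
open Crest.Agent.R136.TD627

variable {σ κ φ : Type*} {m : ℕ}

/-- own twist of the slot `k` with a linear modulus -/
def TwP (P : TDist φ m) (B : Base) (I : ℕ → Finset (ℕ × ℝ)) (lev : ℕ → ℚ → ℕ) (k : Fin m)
    (fl : ℕ → ℕ × ℝ → φ) (sc : ℕ → ℝ) (b0 : ℝ) : Prop :=
  ∃ γ0 : ℝ, 0 < γ0 ∧ ∀ u r : ℚ, 0 ≤ u → u < r → r ≤ 1 → ∀ ε : ℝ, 0 < ε →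
    ∀ᶠ n in (U : Filter ℕ), ∀ x ∈ I n,
      ((((I n).filter fun y => y.1 = x.1 ∧ zc (lev n u) y.2 = zc (lev n u) x.2 ∧
          P.d k n (fl n x) (fl n y) ≤ sc n * B.d n ^ (b0 * (r : ℝ))).card : ℕ) : ℝ) ≤
        B.d n ^ (γ0 * ((r : ℝ) - u) - ε) * ((own (I n) (lev n u) (lev n 1) x).card : ℝ)

/-- the strips of the slot `k` -/
def memP (P : TDist φ m) (B : Base) (k : Fin m) (fl : ℕ → ℕ × ℝ → φ) (sc : ℕ → ℝ) : Strp :=
  fun n t p y => P.d k n (fl n p.1) (fl n y) ≤ sc n * B.d n ^ t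

theorem memP_self {P : TDist φ m} {B : Base} {k : Fin m} {fl : ℕ → ℕ × ℝ → φ} {sc : ℕ → ℝ}
    (hsc : ∀ n, 0 < sc n) : ∀ n t x a, memP P B k fl sc n t (x, a) x := by
  intro n t x a
  show P.d k n (fl n x) (fl n x) ≤ _
  rw [P.self]
  exact (mul_pos (hsc n) (dpow_pos B n _)).le

theorem twP_of_modG {P : TDist φ m} {B : Base} {I : ℕ → Finset (ℕ × ℝ)} {lev : ℕ → ℚ → ℕ}
    {k : Fin m} {fl : ℕ → ℕ × ℝ → φ} {sc : ℕ → ℝ} {b0 : ℝ}
    (h : ModG B I lev (memP P B k fl sc) b0) : TwP P B I lev k fl sc b0 := by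
  classical
  obtain ⟨γ0, hγ0, h⟩ := h
  refine ⟨γ0, hγ0, fun u r h0 hur h1 ε hε => ?_⟩
  filter_upwards [h u r h0 hur h1 ε hε] with n a1 x hx
  exact a1 x hx 0 _ (filter_subset _ _) fun y hy => (mem_filter.1 hy).2

section

variable {P : TDist φ m} {G : Geo σ κ} {g s : ℝ} {θ : κ → ℝ} {β : Fin m → ℝ}
    {B : Base} {I : ℕ → Finset (ℕ × ℝ)} {lev : ℕ → ℚ → ℕ} {A : ℕ → ℝ}
    {f : ℕ → ℚ → ℕ → ℤ → ℕ} {b : ℕ → ℚ → ℕ → σ} {vm : ℕ → ℚ → ℝ} {w : κ → ℕ → ℚ → ℝ}
    {fr : ℕ → ℚ → ℕ × ℝ → φ} {pr : Fin m → ℕ → ℚ → ℝ} {fl : ℕ → ℕ × ℝ → φ} {sc : Fin m → ℕ → ℝ}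

/-- `TwP` passes to dense marked parts -/
theorem TwP.dense {c Λ : ℝ → ℝ} {τ : κ → ℝ → ℝ} {j : Fin m} {sc : ℕ → ℝ} {b0 : ℝ}
    {J : ℕ → Finset (ℕ × ℝ)} (h : TwP P B I lev j fl sc b0)
    (hI : MkA B I G lev A c Λ τ f b vm w) (hJ : MkA B J G lev A c Λ τ f b vm w)
    (hd : Dense B J I) : TwP P B J lev j fl sc b0 := by
  classical
  obtain ⟨γ0, hγ0, h⟩ := h
  refine ⟨γ0, hγ0, fun u r h0 hur h1 ε hε => ?_⟩
  filter_upwards [h u r h0 hur h1 (ε / 3) (by positivity), hd.1,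
    hI.own u 1 h0 (hur.le.trans h1) le_rfl (ε / 3) (by positivity),
    hJ.own u 1 h0 (hur.le.trans h1) le_rfl (ε / 3) (by positivity)] with n a1 a2 a3 a4 x hx
  have b1 := a1 x (a2 hx)
  have b2 := (a3 x (a2 hx)).2
  have b3 := (a4 x hx).1
  have b0' : ((((J n).filter fun y => y.1 = x.1 ∧ zc (lev n u) y.2 = zc (lev n u) x.2 ∧
        P.d j n (fl n x) (fl n y) ≤ sc n * B.d n ^ (b0 * (r : ℝ))).card : ℕ) : ℝ) ≤
      ((((I n).filter fun y => y.1 = x.1 ∧ zc (lev n u) y.2 = zc (lev n u) x.2 ∧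
        P.d j n (fl n x) (fl n y) ≤ sc n * B.d n ^ (b0 * (r : ℝ))).card : ℕ) : ℝ) := by
    exact_mod_cast card_le_card (filter_subset_filter _ a2)
  refine (b0'.trans b1).trans ((mul_le_mul_of_nonneg_left b2 (dpow_pos B n _).le).trans ?_)
  refine le_trans ?_ (mul_le_mul_of_nonneg_left b3 (dpow_pos B n _).le)
  rw [← dpow_add, ← dpow_add]
  apply dpow_le B n
  linarith

/-- **all flags of one line of the window agree up to the finest precision.** -/
theorem win_close (h : TSys P G g s θ β B I lev A f b vm w fr pr fl sc)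
    (hβ : ∀ t, InvT P B I t fl (sc t) ∨ 0 < β t) (hsl : Slack P β B sc) {j : Fin m}
    (hfree : Free P β B I fl sc j) {H1 : ℕ → ℝ} {m1 : ℕ → ℚ → ℚ} {B1 : Base}
    {I1 : ℕ → Finset (ℕ × ℝ)} {sel : ℕ → ℕ → (ℕ × ℝ) × ℝ}
    (hm : ∀ n, ∀ x : ℚ, 0 ≤ x → x ≤ 1 → 0 ≤ m1 n x ∧ m1 n x ≤ 1)
    (hq : ∀ n, ∀ x y : ℚ, (m1 n y : ℝ) - m1 n x = H1 n * ((y : ℝ) - x))
    (hB : ∀ n, B1.d n = B.d n ^ H1 n) (hI : ∀ᶠ n in (U : Filter ℕ), I1 n ⊆ I n)
    (hmem : ∀ᶠ n in (U : Filter ℕ), ∀ y ∈ I1 n, (sel n y.1).1 ∈ I n ∧ (sel n y.1).1.1 = y.1 ∧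
      memP P B j fl (sc j) n (β j * (m1 n 1 : ℝ)) (sel n y.1) y) :
    ∀ᶠ n in (U : Filter ℕ), ∀ x ∈ I1 n, ∀ y ∈ I1 n, y.1 = x.1 →
      P.d j n (fl n x) (fl n y) ≤
        K3 P j * ((sc j n * B.d n ^ (β j * m1 n 0)) * B1.d n ^ (β j)) := by
  classical
  have hcap := h.capOK hβ hsl hfree (C := |β j| + 3) (by positivity)
  obtain ⟨T, hT⟩ := hcap 0 le_rfl zero_le_one (|β j| + 2) (by show |β j| + 2 < |β j| + 3; linarith)
  filter_upwards [hT, hmem, h.mka.cell0, hI] with n a1 a2 a3 a4 x hx y hy hxy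
  obtain ⟨a1, a1'⟩ := a1
  obtain ⟨p1, p2, p3⟩ := a2 x hx
  obtain ⟨q1, q2, q3⟩ := a2 y hy
  rw [hxy] at q1 q2 q3
  set p : ℕ × ℝ := (sel n x.1).1 with hp
  change P.d j n (fl n p) (fl n x) ≤ _ at p3
  change P.d j n (fl n p) (fl n y) ≤ _ at q3
  have hm1 : (0 : ℝ) ≤ m1 n 1 ∧ (m1 n 1 : ℝ) ≤ 1 :=
    ⟨by exact_mod_cast (hm n 1 zero_le_one le_rfl).1, by exact_mod_cast (hm n 1 zero_le_one le_rfl).2⟩
  set Y0 : ℝ := sc j n * B.d n ^ (β j * (m1 n 1 : ℝ)) with hY0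
  have hY0' : 0 < Y0 := mul_pos (h.scpos j n) (dpow_pos B n _)
  have hX : ∀ e ∈ P.M.mon j, ∏ s, T s n ^ e s ≤ Y0 := by
    intro e he
    refine (a1' e he).trans ?_
    rw [mul_assoc, ← dpow_add]
    refine mul_le_mul_of_nonneg_left (dpow_le B n ?_) (h.scpos j n).le
    have h1 : β j * (m1 n 1 : ℝ) ≤ |β j| * (m1 n 1 : ℝ) :=
      mul_le_mul_of_nonneg_right (le_abs_self _) hm1.1
    have h2 : |β j| * (m1 n 1 : ℝ) ≤ |β j| * 1 := mul_le_mul_of_nonneg_left hm1.2 (abs_nonneg _)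
    linarith
  have hT' : ∀ e ∈ P.M.mon j, ∀ s, e s ≠ 0 → ∀ z ∈ I n, ∀ z' ∈ I n, z'.1 = z.1 →
      P.d s n (fl n z) (fl n z') ≤ T s n := fun e he s hs z hz z' hz' hzz =>
    a1 e he s hs z hz z' hz' hzz (a3 z' hz' z hz)
  have b1 : P.d j n (fl n x) (fl n p) ≤ P.K * (Y0 + P.cn j * Y0) :=
    P.sym_le (T := fun s => T s n)
      (fun e he s hs => hT' e he s hs p p1 x (a4 hx) p2.symm)
      (fun e he s hs => hT' e he s hs x (a4 hx) p p1 p2) hX p3
  have hK1 := P.K1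
  have hcn := P.cn_nonneg j
  have b2 : P.K * (Y0 + P.cn j * Y0) = P.K * (1 + P.cn j) * Y0 := by ring
  rw [b2] at b1
  have b3 : P.d j n (fl n p) (fl n y) ≤ P.K * (1 + P.cn j) * Y0 := by
    refine q3.trans ?_
    have : 1 ≤ P.K * (1 + P.cn j) := by nlinarith
    nlinarith
  have b4 := P.tri_le (k := j) (n := n) (a := fl n x) (b := fl n p) (c := fl n y)
    (T := fun s => T s n) (fun e he s hs => hT' e he s hs x (a4 hx) p p1 p2)
    (fun e he s hs => hT' e he s hs p p1 y (a4 hy) (hxy.trans p2.symm)) hX b1 b3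
  refine b4.trans (le_of_eq ?_)
  have e1 : sc j n * B.d n ^ (β j * (m1 n 0 : ℝ)) * B1.d n ^ β j = Y0 := by
    rw [hY0, hB n, ← Real.rpow_mul (B.pos n).le, mul_assoc, ← dpow_add]
    congr 2
    have := hq n 0 1
    push_cast at this
    have e2 : (m1 n 1 : ℝ) = m1 n 0 + H1 n := by linarith
    rw [e2]; ring
  rw [e1]
  unfold K3
  ring

/-- **closeness beyond the precision of level `0` becomes invisibility after one zoom.** -/
theorem gap_inv [Countable κ] (h : TSys P G g s θ β B I lev A f b vm w fr pr fl sc)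
    (hsl : Slack P β B sc) {j : Fin m} {K b0 : ℝ} (hb : 0 < b0) (hK : 0 ≤ K)
    (hcl : ∀ᶠ n in (U : Filter ℕ), ∀ x ∈ I n, ∀ y ∈ I n, y.1 = x.1 →
      P.d j n (fl n x) (fl n y) ≤ K * (sc j n * B.d n ^ b0)) :
    ∃ (H : ℕ → ℝ) (mm : ℕ → ℚ → ℚ) (B' : Base) (I' : ℕ → Finset (ℕ × ℝ)) (A' : ℕ → ℝ)
      (sc' : Fin m → ℕ → ℝ), (∀ n, 0 < H n ∧ H n ≤ 1) ∧
      (∀ n, ∀ x : ℚ, 0 ≤ x → x ≤ 1 → 0 ≤ mm n x ∧ mm n x ≤ 1) ∧
      (∀ n, ∀ x y : ℚ, (mm n y : ℝ) - mm n x = H n * ((y : ℝ) - x)) ∧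
      (∀ n, B'.d n = B.d n ^ H n) ∧ (∀ᶠ n in (U : Filter ℕ), I' n ⊆ I n) ∧
      TSys P G g s θ β B' I' (fun n x => lev n (mm n x)) A' (fun n x => f n (mm n x))
        (fun n x => b n (mm n x)) (fun n x => vm n (mm n x)) (fun j n x => w j n (mm n x))
        (fun n x => fr n (mm n x)) (fun j n x => pr j n (mm n x)) fl sc' ∧
      Slack P β B' sc' ∧ InvT P B' I' j fl (sc' j) ∧
      ∀ j, InvT P B I j fl (sc j) → InvT P B' I' j fl (sc' j) := by
  classical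
  have hab := abs_nonneg (β j)
  set v0 : ℝ := min (1 / 2) (b0 / (4 * (|β j| + 1))) with hv0
  have hv0p : 0 < v0 := lt_min (by norm_num) (by positivity)
  have hv01 : v0 < 1 := (min_le_left _ _).trans_lt (by norm_num)
  have hv02 : β j * v0 ≤ b0 / 4 := by
    have h1 : v0 ≤ b0 / (4 * (|β j| + 1)) := min_le_right _ _
    rw [le_div_iff₀ (by positivity)] at h1
    have h2 := mul_le_mul_of_nonneg_right (le_abs_self (β j)) hv0p.le
    nlinarith
  obtain ⟨H, mm, B', I', A', h1, h2, h3, h4, h5, h6, h7, h8, h9, h10, h11⟩ :=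
    h.zoomP hv0p hv01 (fun _ _ _ => True) (fun _ _ _ => Eventually.of_forall fun _ => trivial)
  refine ⟨H, mm, B', I', A', _, h1, h3, h4, h6, Eventually.of_forall h7, h8, h11 hsl, ?_, h10⟩
  have hBp : ∀ n (y : ℝ), B'.d n ^ y = B.d n ^ (H n * y) := by
    intro n y
    rw [h6 n, ← Real.rpow_mul (B.pos n).le]
  intro M
  have hlim : Tendsto (fun n => β j * (mm n 0 : ℝ) + H n * M) U (𝓝 (β j * v0 + 0 * M)) :=
    ((h5 0).const_mul (β j)).add (h2.mul_const M)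
  have hev : ∀ᶠ n in (U : Filter ℕ), β j * (mm n 0 : ℝ) + H n * M < b0 / 2 :=
    hlim.eventually_lt_const (by linarith)
  filter_upwards [hcl, hev, dpow_small B (half_pos hb) (ε := 1 / (K + 1)) (by positivity)]
    with n a1 a2 a3 x hx y hy hxy
  refine (a1 x (h7 n hx) y (h7 n hy) hxy).trans ?_
  rw [hBp, mul_assoc (sc j n), ← dpow_add]
  have c1 : K * B.d n ^ b0 ≤ B.d n ^ (b0 / 2) := by
    have e3 : b0 = b0 / 2 + b0 / 2 := by ring
    have c2 : K * B.d n ^ (b0 / 2) ≤ 1 := by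
      have h12 : (K + 1) * B.d n ^ (b0 / 2) ≤ 1 := by
        have := mul_le_mul_of_nonneg_left a3.le (show 0 ≤ K + 1 by positivity)
        rwa [mul_one_div_cancel (by positivity)] at this
      have := dpow_pos B n (b0 / 2)
      nlinarith
    calc K * B.d n ^ b0 = (K * B.d n ^ (b0 / 2)) * B.d n ^ (b0 / 2) := by
          rw [mul_assoc, ← dpow_add, ← e3]
      _ ≤ 1 * B.d n ^ (b0 / 2) := mul_le_mul_of_nonneg_right c2 (dpow_pos B n _).le
      _ = _ := one_mul _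
  calc K * (sc j n * B.d n ^ b0) = sc j n * (K * B.d n ^ b0) := by ring
    _ ≤ sc j n * B.d n ^ (b0 / 2) := mul_le_mul_of_nonneg_left c1 (h.scpos j n).le
    _ ≤ _ := mul_le_mul_of_nonneg_left (dpow_le B n a2.le) (h.scpos j n).le

end

end Crest.Agent.R116.Rn899
end

-- ▼ part R116/Rn3_899

/-!
# R116, [ROT-LIN] (helper899): second zoom of the light-ray chart, final form

`natL3` : 627's `TSys.natT` in the light-ray chart.  Every slot is invisible, tied **with a linear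
modulus of its own twist** (`TwP`) or capped; the flags are in a gauge `cc` constant on lines (`cc = 0`
if `β 1 ≠ 0`), and for `β 1 = 0` (then `β 2 = 1`) the slot `E` is invisible or strongly twisted modulo
affine functions, with a linear modulus (`STwL2`).
-/

set_option autoImplicit false
set_option linter.unusedVariables false
set_option linter.unusedSectionVars false

open Finset Filter Topology

namespace Crest.Agent.R116.Rn899

open Crest.Agent.R138.Ex926 (Base U)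
open Crest.Agent.R138.Dp76
open Crest.Agent.R138.Ps926
open Crest.Agent.R138.Mk163 (zc zl rho alive own Negl)
open Crest.Agent.R138.MkRef774 (pl)
open Crest.Agent.R136.MkA627
open Crest.Agent.R136.TD627
open Crest.Agent.R116.ChL222
open Crest.Agent.R116.Rl899
open Crest.Agent.R116.Rm899

variable {σ κ : Type*}

/-- output of the second zoom in the light-ray chart -/
def NatL3 (P : TDist LInc 12) (G : Geo σ κ) (g s : ℝ) (θ : κ → ℝ) (β C0 : Fin 12 → ℝ)
    (fl : ℕ → ℕ × ℝ → LInc) (B : Base) (I : ℕ → Finset (ℕ × ℝ)) (lev : ℕ → ℚ → ℕ)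
    (f : ℕ → ℚ → ℕ → ℤ → ℕ) (b : ℕ → ℚ → ℕ → σ) (vm : ℕ → ℚ → ℝ) (w : κ → ℕ → ℚ → ℝ)
    (fr : ℕ → ℚ → ℕ × ℝ → LInc) (pr : Fin 12 → ℕ → ℚ → ℝ) : Prop :=
  ∃ (H : ℕ → ℝ) (mm : ℕ → ℚ → ℚ) (B' : Base) (I' : ℕ → Finset (ℕ × ℝ)) (A' : ℕ → ℝ)
    (sc' : Fin 12 → ℕ → ℝ) (cc : ℕ → ℕ → ℝ), (∀ n, 0 < H n ∧ H n ≤ 1) ∧
    (∀ n, ∀ x : ℚ, 0 ≤ x → x ≤ 1 → 0 ≤ mm n x ∧ mm n x ≤ 1) ∧
    (∀ n, ∀ x y : ℚ, (mm n y : ℝ) - mm n x = H n * ((y : ℝ) - x)) ∧
    (∀ n, B'.d n = B.d n ^ H n) ∧ (∀ᶠ n in (U : Filter ℕ), I' n ⊆ I n) ∧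
    (β 1 ≠ 0 → cc = fun _ _ => 0) ∧
    TSys P G g s θ β B' I' (fun n x => lev n (mm n x)) A' (fun n x => f n (mm n x))
      (fun n x => b n (mm n x)) (fun n x => vm n (mm n x)) (fun j n x => w j n (mm n x))
      (fun n x => fr n (mm n x)) (fun j n x => pr j n (mm n x)) (rg cc fl) sc' ∧
    Slack P β B' sc' ∧
    (∀ j, InvT P B' I' j (rg cc fl) (sc' j) ∨
      (0 < β j ∧ RotT P B' I' (fun n x => lev n (mm n x)) j (rg cc fl) (sc' j) (C0 j)
        (fun u => β j * u) ∧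
        TwP P B' I' (fun n x => lev n (mm n x)) j (rg cc fl) (sc' j) (β j)) ∨
      (0 < β j ∧ ∃ a ∈ P.M.mon j, ∑ t, (a t : ℝ) * β t = β j ∧
        ∀ t, a t ≠ 0 → ¬ InvT P B' I' t (rg cc fl) (sc' t))) ∧
    (β 1 = 0 → InvT P B' I' 2 (rg cc fl) (sc' 2) ∨
      STwL2 B' I' (fun n x => lev n (mm n x)) (rg cc fl) (sc' 2))

section

variable {P : TDist LInc 12} {G : Geo σ κ} {g s : ℝ} {θ : κ → ℝ} {β C0 : Fin 12 → ℝ}
    {B : Base} {I : ℕ → Finset (ℕ × ℝ)} {lev : ℕ → ℚ → ℕ} {A : ℕ → ℝ}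
    {f : ℕ → ℚ → ℕ → ℤ → ℕ} {b : ℕ → ℚ → ℕ → σ} {vm : ℕ → ℚ → ℝ} {w : κ → ℕ → ℚ → ℝ}
    {fr : ℕ → ℚ → ℕ × ℝ → LInc} {pr : Fin 12 → ℕ → ℚ → ℝ} {fl : ℕ → ℕ × ℝ → LInc}
    {sc : Fin 12 → ℕ → ℝ}

/-- composition of windows and gauges -/
theorem NatL3.comp {B1 : Base} {I1 : ℕ → Finset (ℕ × ℝ)} {H1 : ℕ → ℝ} {m1 : ℕ → ℚ → ℚ}
    {c1 : ℕ → ℕ → ℝ} (hc : β 1 ≠ 0 → c1 = fun _ _ => 0)
    (hH : ∀ n, 0 < H1 n ∧ H1 n ≤ 1) (hm : ∀ n, ∀ x : ℚ, 0 ≤ x → x ≤ 1 → 0 ≤ m1 n x ∧ m1 n x ≤ 1)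
    (hq : ∀ n, ∀ x y : ℚ, (m1 n y : ℝ) - m1 n x = H1 n * ((y : ℝ) - x))
    (hB : ∀ n, B1.d n = B.d n ^ H1 n) (hI : ∀ᶠ n in (U : Filter ℕ), I1 n ⊆ I n)
    (h : NatL3 P G g s θ β C0 (rg c1 fl) B1 I1 (fun n x => lev n (m1 n x)) (fun n x => f n (m1 n x))
      (fun n x => b n (m1 n x)) (fun n x => vm n (m1 n x)) (fun j n x => w j n (m1 n x))
      (fun n x => fr n (m1 n x)) (fun j n x => pr j n (m1 n x))) :
    NatL3 P G g s θ β C0 fl B I lev f b vm w fr pr := by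
  obtain ⟨H2, m2, B2, I2, A2, sc2, c2, h1, h2, h3, h4, h5, hc2, h6, h7, h8, h9⟩ := h
  rw [rg_rg] at h6 h8 h9
  refine ⟨fun n => H1 n * H2 n, fun n x => m1 n (m2 n x), B2, I2, A2, sc2,
    fun n l => c1 n l + c2 n l, fun n => ⟨?_, ?_⟩,
    fun n x hx0 hx1 => ?_, fun n x y => ?_, fun n => ?_, ?_, fun hβ => ?_, h6, h7, h8, h9⟩
  · exact mul_pos (hH n).1 (h1 n).1
  · exact mul_le_one₀ (hH n).2 (h1 n).1.le (h1 n).2
  · exact hm n _ (h2 n x hx0 hx1).1 (h2 n x hx0 hx1).2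
  · rw [hq, h3]; ring
  · rw [h4, hB, ← Real.rpow_mul (B.pos n).le]
  · filter_upwards [hI, h5] with n a1 a2 using a2.trans a1
  · rw [hc hβ, hc2 hβ]
    funext n l
    simp

theorem NatL3.mono {J : ℕ → Finset (ℕ × ℝ)} (hJ : ∀ᶠ n in (U : Filter ℕ), J n ⊆ I n)
    (h : NatL3 P G g s θ β C0 fl B J lev f b vm w fr pr) :
    NatL3 P G g s θ β C0 fl B I lev f b vm w fr pr :=
  NatL3.comp (H1 := fun _ => 1) (m1 := fun _ x => x) (c1 := fun _ _ => 0) (fun _ => rfl)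
    (fun _ => ⟨one_pos, le_rfl⟩)
    (fun n x h0 h1 => ⟨h0, h1⟩) (fun n x y => by ring) (fun n => by rw [Real.rpow_one]) hJ
    (by rw [rg_zero]; exact h)

/-- composition of windows, same gauge -/
theorem NatL3.comp0 {B1 : Base} {I1 : ℕ → Finset (ℕ × ℝ)} {H1 : ℕ → ℝ} {m1 : ℕ → ℚ → ℚ}
    (hH : ∀ n, 0 < H1 n ∧ H1 n ≤ 1) (hm : ∀ n, ∀ x : ℚ, 0 ≤ x → x ≤ 1 → 0 ≤ m1 n x ∧ m1 n x ≤ 1)
    (hq : ∀ n, ∀ x y : ℚ, (m1 n y : ℝ) - m1 n x = H1 n * ((y : ℝ) - x))
    (hB : ∀ n, B1.d n = B.d n ^ H1 n) (hI : ∀ᶠ n in (U : Filter ℕ), I1 n ⊆ I n)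
    (h : NatL3 P G g s θ β C0 fl B1 I1 (fun n x => lev n (m1 n x)) (fun n x => f n (m1 n x))
      (fun n x => b n (m1 n x)) (fun n x => vm n (m1 n x)) (fun j n x => w j n (m1 n x))
      (fun n x => fr n (m1 n x)) (fun j n x => pr j n (m1 n x))) :
    NatL3 P G g s θ β C0 fl B I lev f b vm w fr pr :=
  NatL3.comp (c1 := fun _ _ => 0) (fun _ => rfl) hH hm hq hB hI (by rw [rg_zero]; exact h)

/-- **second zoom of the light-ray chart** (induction on the number of visible slots) -/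
theorem exists_natL3 [Countable κ] (hP : ∀ k n a b, P.d k n a b = |coL a b k|)
    (hM : ∀ a ∈ P.M.mon 2, a 1 ≠ 0) (hβ1 : β 1 = 0 → β 2 = 1)
    (hC : ∀ j, β j ≤ C0 j) :
    ∀ (N : ℕ) (B : Base) (I : ℕ → Finset (ℕ × ℝ)) (lev : ℕ → ℚ → ℕ) (A : ℕ → ℝ)
      (f : ℕ → ℚ → ℕ → ℤ → ℕ) (b : ℕ → ℚ → ℕ → σ) (vm : ℕ → ℚ → ℝ) (w : κ → ℕ → ℚ → ℝ)
      (fr : ℕ → ℚ → ℕ × ℝ → LInc) (pr : Fin 12 → ℕ → ℚ → ℝ) (fl : ℕ → ℕ × ℝ → LInc)
      (sc : Fin 12 → ℕ → ℝ),
      TSys P G g s θ β B I lev A f b vm w fr pr fl sc → Slack P β B sc →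
      (∀ j, InvT P B I j fl (sc j) ∨ 0 < β j) →
      (∀ n (v : ℚ), pr 2 n v = rho (lev n v) * pr 1 n v) → (β 1 = 0 → FlOK I fl) →
      {j | ¬ InvT P B I j fl (sc j)}.ncard ≤ N →
      NatL3 P G g s θ β C0 fl B I lev f b vm w fr pr := by
  classical
  intro N
  induction N with
  | zero =>
    intro B I lev A f b vm w fr pr fl sc h hsl hβ hpu hfl hN
    have hall : ∀ j, InvT P B I j fl (sc j) := by
      intro j
      by_contra hcon
      have h1 : {j | ¬ InvT P B I j fl (sc j)}.ncard = 0 := Nat.le_zero.1 hN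
      rw [Set.ncard_eq_zero (Set.toFinite _)] at h1
      have : j ∈ {j | ¬ InvT P B I j fl (sc j)} := hcon
      rw [h1] at this
      exact this
    refine ⟨fun _ => 1, fun _ x => x, B, I, A, sc, fun _ _ => 0, fun n => ⟨one_pos, le_rfl⟩,
      fun n x h0 h1 => ⟨h0, h1⟩, fun n x y => by ring, fun n => by rw [Real.rpow_one],
      Eventually.of_forall fun n => Finset.Subset.refl _, fun _ => rfl, ?_⟩
    rw [rg_zero]
    exact ⟨h, hsl, fun j => Or.inl (hall j), fun _ => Or.inl (hall 2)⟩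
  | succ N ih =>
    intro B I lev A f b vm w fr pr fl sc h hsl hβ hpu hfl hN
    obtain ⟨J, R, hd, hS, hR⟩ := h.exists_rots hβ hsl hC
    have hInvJ : ∀ j, InvT P B I j fl (sc j) → InvT P B J j fl (sc j) :=
      fun j hj => hj.dense hd
    have hβJ : ∀ j, InvT P B J j fl (sc j) ∨ 0 < β j := fun j => (hβ j).imp (hInvJ j) id
    have hflJ : β 1 = 0 → FlOK J fl := fun h0 => (hfl h0).sub hd.1
    -- a dense part with one more invisible slot
    have hless : ∀ J' : ℕ → Finset (ℕ × ℝ), Dense B J' I →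
        TSys P G g s θ β B J' lev A f b vm w fr pr fl sc →
        (∃ j1, ¬ InvT P B I j1 fl (sc j1) ∧ InvT P B J' j1 fl (sc j1)) →
        NatL3 P G g s θ β C0 fl B I lev f b vm w fr pr := by
      intro J' hJ'd hSJ' hV
      obtain ⟨j1, hj1, hj1'⟩ := hV
      refine NatL3.mono hJ'd.1 (ih B J' lev A f b vm w fr pr fl sc hSJ' hsl
        (fun j => (hβ j).imp (fun hh => hh.dense hJ'd) id) hpu (fun h0 => (hfl h0).sub hJ'd.1) ?_)
      have := ncard_lt (P := P) (fun j hj => InvT.dense hj hJ'd) hj1 hj1'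
      omega
    by_cases hV : ∃ j1, ¬ InvT P B I j1 fl (sc j1) ∧ InvT P B J j1 fl (sc j1)
    · exact hless J hd hS hV
    push Not at hV
    by_cases hA : ∀ j, InvT P B J j fl (sc j) ∨ ¬ Free P β B I fl sc j ∨
        ∀ u : ℚ, 0 ≤ u → u < 1 → R j u = β j * u
    · -- linear modulus of the own twists
      have key : ∀ S : Finset (Fin 12), NatL3 P G g s θ β C0 fl B I lev f b vm w fr pr ∨
          ∃ J' : ℕ → Finset (ℕ × ℝ), Dense B J' J ∧
            TSys P G g s θ β B J' lev A f b vm w fr pr fl sc ∧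
            ∀ j ∈ S, 0 < β j → Free P β B I fl sc j →
              InvT P B J' j fl (sc j) ∨ TwP P B J' lev j fl (sc j) (β j) := by
        intro S
        induction S using Finset.induction_on with
        | empty =>
          exact Or.inr ⟨J, Dense.refl B J, hS, fun j hj => absurd hj (Finset.notMem_empty j)⟩
        | insert i S hi ihS =>
          rcases ihS with hgoal | ⟨J', hJ'd, hS', hT'⟩
          · exact Or.inl hgoal
          have hJ'I : Dense B J' I := hJ'd.trans hd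
          by_cases hvis : (0 < β i ∧ Free P β B I fl sc i) ∧ ¬ InvT P B J' i fl (sc i)
          · obtain ⟨⟨hβi, hfi⟩, hni⟩ := hvis
            obtain ⟨J3, hJ3d, hS3, hdich⟩ := exists_linmodG hS'
              (mem := memP P B i fl (sc i)) (memP_self (h.scpos i)) (β i)
            have hJ3I : Dense B J3 I := hJ3d.trans hJ'I
            rcases hdich with hmod | hwin
            · refine Or.inr ⟨J3, hJ3d.trans hJ'd, hS3, fun j hj hβj hfj => ?_⟩
              rcases Finset.mem_insert.1 hj with rfl | hj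
              · exact Or.inr (twP_of_modG hmod)
              · rcases hT' j hj hβj hfj with h5 | h5
                · exact Or.inl (h5.dense hJ3d)
                · exact Or.inr (h5.dense hS'.mka hS3.mka hJ3d)
            · refine Or.inl ?_
              obtain ⟨H1, m1, B1, I1, A1, sel, g1, g2, g3, g4, g5, g6, g7, g8, g9⟩ := hwin
              have hclose := win_close hS3 (fun j => (hβ j).imp (fun hh => hh.dense hJ3I) id) hsl
                (hfi.dense hJ3I) g2 g3 g4 g5 g7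
              obtain ⟨H, mm, B', I', A', sc', h1, h2, h3, h4, h5, h6, h7, h8, h9⟩ :=
                gap_inv g6 (g9 hsl) (j := i) hβi K3_pos.le hclose
              refine NatL3.comp0 g1 g2 g3 g4
                (by filter_upwards [g5, hJ3I.1] with n a1 a2 using a1.trans a2)
                (NatL3.comp0 h1 h2 h3 h4 h5
                (ih B' I' _ A' _ _ _ _ _ _ fl sc' h6 h7
                  (fun j => (hβ j).imp (fun hj => h9 j (g8 j (hj.dense hJ3I))) id)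
                  (fun n v => hpu n _)
                  (fun h0 => (((hfl h0).sub hJ3I.1).sub g5).sub h5) ?_))
              have := ncard_lt (P := P) (fun j hj => h9 j (g8 j (InvT.dense hj hJ3I)))
                (fun hh => hni (InvT.dense hh hJ'I)) h8
              omega
          · refine Or.inr ⟨J', hJ'd, hS', fun j hj hβj hfj => ?_⟩
            rcases Finset.mem_insert.1 hj with rfl | hj
            · by_cases hinv : InvT P B J' j fl (sc j)
              · exact Or.inl hinv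
              · exact absurd ⟨⟨hβj, hfj⟩, hinv⟩ hvis
            · exact hT' j hj hβj hfj
      rcases key Finset.univ with hgoal | ⟨J1, hJ1d, hS1, hT1⟩
      · exact hgoal
      have hJ1I : Dense B J1 I := hJ1d.trans hd
      by_cases hV1 : ∃ j1, ¬ InvT P B I j1 fl (sc j1) ∧ InvT P B J1 j1 fl (sc j1)
      · exact hless J1 hJ1I hS1 hV1
      push Not at hV1
      -- final configuration on a dense part of `J1`
      have hfin : ∀ J2 : ℕ → Finset (ℕ × ℝ), Dense B J2 J1 →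
          TSys P G g s θ β B J2 lev A f b vm w fr pr fl sc →
          (β 1 = 0 → InvT P B J2 2 fl (sc 2) ∨ STwL2 B J2 lev fl (sc 2)) →
          NatL3 P G g s θ β C0 fl B I lev f b vm w fr pr := by
        intro J2 hJ2d hS2 hlast
        have hJ2I : Dense B J2 I := hJ2d.trans hJ1I
        by_cases hV2 : ∃ j1, ¬ InvT P B I j1 fl (sc j1) ∧ InvT P B J2 j1 fl (sc j1)
        · exact hless J2 hJ2I hS2 hV2
        push Not at hV2
        refine ⟨fun _ => 1, fun _ x => x, B, J2, A, sc, fun _ _ => 0, fun n => ⟨one_pos, le_rfl⟩,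
            fun n x h0 h1 => ⟨h0, h1⟩, fun n x y => by ring, fun n => by rw [Real.rpow_one],
            hJ2I.1, fun _ => rfl, ?_⟩
        rw [rg_zero]
        refine ⟨hS2, hsl, fun j => ?_, hlast⟩
        by_cases hj : InvT P B J2 j fl (sc j)
        · exact Or.inl hj
        have hβj : 0 < β j := (hβ j).resolve_left fun hh => hj (hh.dense hJ2I)
        have hjJ1 : ¬ InvT P B J1 j fl (sc j) := fun hh => hj (hh.dense hJ2d)
        have hjJ : ¬ InvT P B J j fl (sc j) := fun hh => hjJ1 (hh.dense hJ1d)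
        by_cases hf : Free P β B I fl sc j
        · obtain ⟨k1, k2⟩ := hR j hβj hf
          have k3 := ((hA j).resolve_left hjJ).resolve_left (not_not.2 hf)
          have k4 := (hT1 j (Finset.mem_univ j) hβj hf).resolve_left hjJ1
          exact Or.inr (Or.inl ⟨hβj, (k1.lin hβj.le (hC j) k2 k3).dense hS.mka hS2.mka
            (hJ2d.trans hJ1d), k4.dense hS1.mka hS2.mka hJ2d⟩)
        · unfold Free at hf
          push Not at hf
          obtain ⟨a, ha, hle, hinv⟩ := hf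
          refine Or.inr (Or.inr ⟨hβj, a, ha, hle, fun t ht => ?_⟩)
          exact hV2 t (hinv t ht)
      by_cases hE : β 1 = 0 ∧ ¬ InvT P B J1 2 fl (sc 2)
      · -- the slot `E` is tied
        obtain ⟨hβD, hE⟩ := hE
        have hflI := hfl hβD
        have hEJ : ¬ InvT P B J 2 fl (sc 2) := fun hh => hE (hh.dense hJ1d)
        have hβE : 0 < β 2 := (hβJ 2).resolve_left hEJ
        have hD : InvT P B I 1 fl (sc 1) := hflI.invD hP (h.scpos 1)
        have hfE : Free P β B I fl sc 2 := fun a ha => Or.inr ⟨1, hM a ha, hD⟩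
        obtain ⟨r1, r2⟩ := hR 2 hβE hfE
        have r3 := ((hA 2).resolve_left hEJ).resolve_left (not_not.2 hfE)
        have hrot := r1.lin hβE.le (hC 2) r2 r3
        have hs : s < 1 := s_lt hS hβE (hC 2) hrot
        obtain ⟨J2, hJ2d, hS2, hdich⟩ := exists_linmod hS1 (jE := 2) (hβ1 hβD)
          (fun n x => gfL (fl n x))
        have hJI : Dense B J2 I := hJ2d.trans hJ1I
        have hfl2 : FlOK J2 fl := hflI.sub hJI.1
        rcases hdich with hst | hwa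
        swap
        · -- one more zoom and a change of gauge
          obtain ⟨H3, m3, B3, I3, A3, sc3, a3, g1, g2, g3, g4, g5, g6, g7, g8, g9⟩ := hwa
          have hfl3 : FlOK I3 fl := hfl2.sub g5
          obtain ⟨H, mm, B', I', A', sc', cc, h1, h2, h3, h4, h5, h6, h7, h8, h9⟩ :=
            regauge hP g6 (g9 hsl) hs hβD hβE (fun n v => hpu n _) hfl3.1 hfl3.2 (u := 0) (r := 1)
              le_rfl one_pos (by rw [Rat.cast_zero, mul_zero, Rat.cast_one]; exact one_pos) g7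
          refine NatL3.comp0 g1 g2 g3 g4
            (by filter_upwards [g5, hJI.1] with n a1 a2 using a1.trans a2)
            (NatL3.comp (fun hh => absurd hβD hh) h1 h2 h3 h4 h5
            (ih B' I' _ A' _ _ _ _ _ _ (rg cc fl) sc' h6 h7
              (fun j => (hβ j).imp (fun hj => h9 j (g8 j (hj.dense hJI))) id)
              (fun n v => hpu n _) (fun _ => (hfl3.sub h5).rg cc) ?_))
          have := ncard_lt (P := P) (fun j hj => h9 j (g8 j (InvT.dense hj hJI)))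
            (fun hh => hE (InvT.dense hh hJ1I)) h8
          omega
        · exact hfin J2 hJ2d hS2 fun _ => Or.inr (hst.toL hfl2.1)
      · refine hfin J1 (Dense.refl B J1) hS1 fun h0 => Or.inl ?_
        by_contra hcon
        exact hE ⟨h0, hcon⟩
    · push Not at hA
      obtain ⟨j0, hj0, hf0, hA⟩ := hA
      have hβ0 : 0 < β j0 := (hβJ j0).resolve_left hj0
      obtain ⟨u0, hu0, hu1, hne⟩ := hA
      obtain ⟨hR0, hR1⟩ := hR j0 hβ0 hf0
      have hu0' : (0 : ℝ) ≤ u0 := by exact_mod_cast hu0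
      have hu1' : (u0 : ℝ) < 1 := by exact_mod_cast hu1
      have hlt : β j0 * u0 < R j0 u0 := lt_of_le_of_ne (hR1 u0 hu0' hu1'.le) (Ne.symm hne)
      set D : ℝ := R j0 u0 - β j0 * u0 with hDdef
      have hD : 0 < D := by rw [hDdef]; linarith
      set δ : ℝ := min (D / (2 * β j0)) (1 - u0) with hδdef
      have hδ : 0 < δ := lt_min (by positivity) (by linarith)
      have hδ1 : δ ≤ D / (2 * β j0) := min_le_left _ _
      have hδ2 : δ ≤ 1 - u0 := min_le_right _ _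
      have hgap : ∀ᶠ v in 𝓝 ((u0 : ℝ) + δ / 2), β j0 * v + D / 2 ≤ R j0 v := by
        have hmem : Set.Ioo (u0 : ℝ) (u0 + δ) ∈ 𝓝 ((u0 : ℝ) + δ / 2) :=
          Ioo_mem_nhds (by linarith) (by linarith)
        filter_upwards [hmem] with v hv
        have c1 : R j0 u0 ≤ R j0 v := hR0.mono ⟨hu0', hu1'.le⟩ ⟨by linarith [hv.1], by
          linarith [hv.2]⟩ hv.1.le
        have c2 : β j0 * (v - u0) ≤ β j0 * (D / (2 * β j0)) :=
          mul_le_mul_of_nonneg_left (by linarith [hv.2]) hβ0.le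
        have c3 : β j0 * (D / (2 * β j0)) = D / 2 := by field_simp
        rw [c3] at c2
        have c4 : β j0 * (v - u0) = β j0 * v - β j0 * u0 := by ring
        rw [c4] at c2
        linarith
      obtain ⟨H, mm, B', I', A', sc', h1, h2, h3, h4, h5, h6, h7, h8, h9⟩ :=
        hS.zoom_gap hsl (v0 := (u0 : ℝ) + δ / 2) hR0 (by linarith) (by linarith)
          (D := D / 2) (by positivity) hgap
      refine NatL3.comp0 h1 h2 h3 h4 (by filter_upwards [h5, hd.1] with n a1 a2 using a1.trans a2)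
        (ih B' I' _ A' _ _ _ _ _ _ fl sc' h6 h7 (fun j => (hβJ j).imp (h9 j) id)
          (fun n v => hpu n _) (fun h0 => (hflJ h0).sub h5) ?_)
      have := ncard_lt (P := P) (fun j hj => h9 j (hInvJ j hj)) (fun hh => hj0 (hInvJ j0 hh)) h8
      omega

/-- **second zoom of the light-ray chart**, final user form. -/
theorem natL3 [Countable κ] (hP : ∀ k n a b, P.d k n a b = |coL a b k|)
    (hM : ∀ a ∈ P.M.mon 2, a 1 ≠ 0) (hβ1 : β 1 = 0 → β 2 = 1)
    (hC : ∀ j, β j ≤ C0 j) (h : TSys P G g s θ β B I lev A f b vm w fr pr fl sc)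
    (hβ : ∀ j, InvT P B I j fl (sc j) ∨ 0 < β j)
    (hpu : ∀ n (v : ℚ), pr 2 n v = rho (lev n v) * pr 1 n v) (hfl : β 1 = 0 → FlOK I fl) :
    NatL3 P G g s θ β C0 fl B I lev f b vm w fr pr := by
  obtain ⟨H, mm, B', I', A', sc', h1, h2, h3, h4, h5, h6, h7, h8⟩ := h.zoom_slack
  exact NatL3.comp0 h1 h2 h3 h4 h5 (exists_natL3 hP hM hβ1 hC _ B' I' _ A' _ _ _ _ _ _ fl sc' h6 h7
    (fun j => (hβ j).imp (h8 j) id) (fun n v => hpu n _) (fun h0 => (hfl h0).sub h5) le_rfl)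


end

end Crest.Agent.R116.Rn899
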