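import Crest.Agent.R116.KF7_439
import Crest.Agent.R116.Rl4_899
import Crest.Agent.R116.Bd2_369
import Crest.Agent.R116.Rn3_899

-- ▼ part R116/KF8_439
section

/-!
# R116 (K side), K7 FLAG-L, part 8 (helper439): interface with 899's `natL2`

* `flOK_thin`, `flOK_flat` : flags of one line lie on one ray and have one slot `D`.
* `PL_two`, `prN_two` : side conditions of `natL2`.
-/

set_option autoImplicit false
set_option linter.unusedVariables false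

open Finset Filter Topology

namespace Crest.Agent.R116.KF439

open Crest.Agent.R138.Defs (E2)
open Crest.Agent.R138.Ex926
open Crest.Agent.R138.Dp76
open Crest.Agent.R138.Mk163 (zc zl rho alive own Negl)
open Crest.Agent.R136.MkA627
open Crest.Agent.R136.TD627 (TDist TSys InvT NearE WallE)
open Crest.Agent.R116.LZg725
open Crest.Agent.R116.ChL222
open Crest.Agent.R116.Bm903
open Crest.Agent.R116.KI439
open Crest.Agent.R116.PL504
open Crest.Agent.R116.Rl899 (FlOK SameL)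

section

variable {L : ℕ → ℕ → LRay} {B : Base} {J : ℕ → Finset (ℕ × ℝ)}
    {G : Geo SL (Fin 2)} {lev : ℕ → ℚ → ℕ} {A : ℕ → ℝ} {θ : Fin 2 → ℝ} {c Λ : ℝ → ℝ}
    {τ : Fin 2 → ℝ → ℝ}
    {f : ℕ → ℚ → ℕ → ℤ → ℕ} {b : ℕ → ℚ → ℕ → SL} {vm : ℕ → ℚ → ℝ} {w : Fin 2 → ℕ → ℚ → ℝ}
    {a : Fin 2}

theorem flOK_thin (h : MkA B J G lev A c Λ τ f b vm w) (hβ : βL (θ 0) (θ 1) 1 ≤ 0) :
    FlOK J (flT lev f b a θ L) := by
  refine ⟨?_, fun n x => rfl⟩
  filter_upwards [h.cell0] with n hn x hx y hy hxy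
  have hz := hn y hy x hx
  have e0 : psi lev f b a n 0 y = psi lev f b a n 0 x := by
    unfold psi mkL
    rw [hxy, hz]
  unfold flT flL
  rw [hxy, lvl_zero hβ]
  exact ⟨rfl, rfl, rfl, rfl, rfl, by
    show (psi lev f b a n 0 y).d = (psi lev f b a n 0 x).d
    rw [e0]⟩


end

end Crest.Agent.R116.KF439
end

-- ▼ part R116/Bd3_710
section

/-!
# R116, [B-DIM] of K-TEXT II-c (helper710), part 3: the length of the gradients, margin `θ 1 - θ 0`

* `pr_ratio` : precisions of level `0` against level `1`.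
* **`flagZ_of`** : `||b|² - 1| σ₀ ≤ σ₁ d^(θ 1 - θ 0 - ε)`, from the marks of level `0`.
-/

set_option autoImplicit false
set_option linter.unusedVariables false

open Finset Filter Topology

namespace Crest.Agent.R116.Bd710

open Crest.Agent.R138.Ex926 (Base U)
open Crest.Agent.R138.Mk163 (zc zl rho alive own)
open Crest.Agent.R138.Dp76 (dpow_pos dpow_add dpow_le)
open Crest.Agent.R136.MkA627
open Crest.Agent.R136.Net191
open Crest.Agent.R136.TD627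
open Crest.Agent.R136.PqG464 (ev_const)
open Crest.Agent.R138.Defs (E2)
open Crest.Agent.R116.LZg725
open Crest.Agent.R116.Bm903
open Crest.Agent.R116.ChL222
open Crest.Agent.R116.PL504 (ps ps_pos ps_eq prN βL eL uL cN cN_pr cN_pos rL rL_lin)
open Crest.Agent.R116.Gd222 (TSet sN sN_pos vb)
open Crest.Agent.R116.KI439
open Crest.Agent.R116.KF439 (IsL PL PL_d frL mark_L MkFact mkL flM)
open Crest.Agent.R116.Xd954
open Crest.Agent.R116.Tw468
open Crest.Agent.R116.Bd369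

/-- the sum of the error terms -/
theorem core_zeta {σ q7 s1 ρ P N b0 b1 c7 c8 c10 c11 et d Q : ℝ} (hσ : 0 < σ) (hq0 : 0 ≤ q7)
    (hP : 30 ≤ P) (hq1 : q7 ≤ 1) (hρ : 0 < ρ) (hs : 0 ≤ s1)
    (h7 : q7 * σ ≤ Q) (h1 : s1 ≤ Q) (hN : |N| ≤ q7) (hb0 : |b0| ≤ 2) (hb1 : |b1| ≤ 2)
    (g7 : |c7| ≤ q7 * P) (g8 : |c8| ≤ q7 * P) (g10 : |c10| ≤ s1 * P)
    (g11 : |c11| ≤ ρ * s1 * P) (he : |et| * σ ≤ P) (hd : |d| * (σ * ρ) ≤ P) :
    |N - 2 * (b0 * c7 + b1 * c8) + (c7 ^ 2 + c8 ^ 2) - 2 * (et * c10) - 4 * (d * c11)| * σ ≤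
      Q * (P * P * P) := by
  have hPp : 0 < P := by linarith
  have hQ : 0 ≤ Q := hs.trans h1
  have n1 : |N| * σ ≤ Q := (mul_le_mul_of_nonneg_right hN hσ.le).trans h7
  have lin : ∀ {u c : ℝ}, |u| ≤ 2 → |c| ≤ q7 * P → |u * c| * σ ≤ 2 * (Q * P) := by
    intro u c hu hc
    rw [abs_mul]
    have h1 : |u| * |c| ≤ 2 * (q7 * P) := mul_le_mul hu hc (abs_nonneg _) (by norm_num)
    have h2 := mul_le_mul_of_nonneg_right h1 hσ.le
    have h3 := mul_le_mul_of_nonneg_right h7 hPp.le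
    linarith
  have sq' : ∀ {c : ℝ}, |c| ≤ q7 * P → c ^ 2 * σ ≤ Q * (P * P) := by
    intro c hc
    have h1 : c ^ 2 ≤ (q7 * P) * (q7 * P) := by
      rw [← sq_abs, sq]
      exact mul_le_mul hc hc (abs_nonneg _) ((abs_nonneg _).trans hc)
    have h2 := mul_le_mul_of_nonneg_right h1 hσ.le
    have h3 : (q7 * P) * (q7 * P) * σ = q7 * ((q7 * σ) * (P * P)) := by ring
    have h4 : (q7 * σ) * (P * P) ≤ Q * (P * P) :=
      mul_le_mul_of_nonneg_right h7 (by positivity)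
    have h5 : q7 * ((q7 * σ) * (P * P)) ≤ 1 * ((q7 * σ) * (P * P)) :=
      mul_le_mul_of_nonneg_right hq1 (by positivity)
    linarith
  have u7 := lin hb0 g7
  have u8 := lin hb1 g8
  have v7 := sq' g7
  have v8 := sq' g8
  have v10 : |et * c10| * σ ≤ Q * (P * P) := by
    rw [abs_mul]
    calc |et| * |c10| * σ = (|et| * σ) * |c10| := by ring
      _ ≤ P * (s1 * P) := mul_le_mul he g10 (abs_nonneg _) hPp.le
      _ = s1 * (P * P) := by ring
      _ ≤ Q * (P * P) := mul_le_mul_of_nonneg_right h1 (by positivity)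
  have v11 : |d * c11| * σ ≤ Q * (P * P) := by
    rw [abs_mul]
    have h2 : |d| * |c11| ≤ |d| * (ρ * s1 * P) := mul_le_mul_of_nonneg_left g11 (abs_nonneg _)
    calc |d| * |c11| * σ ≤ |d| * (ρ * s1 * P) * σ := mul_le_mul_of_nonneg_right h2 hσ.le
      _ = (|d| * (σ * ρ)) * (s1 * P) := by ring
      _ ≤ P * (s1 * P) := mul_le_mul_of_nonneg_right hd (by positivity)
      _ = s1 * (P * P) := by ring
      _ ≤ Q * (P * P) := mul_le_mul_of_nonneg_right h1 (by positivity)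
  have tri : |N - 2 * (b0 * c7 + b1 * c8) + (c7 ^ 2 + c8 ^ 2) - 2 * (et * c10) -
      4 * (d * c11)| ≤ |N| + 2 * (|b0 * c7| + |b1 * c8|) + (c7 ^ 2 + c8 ^ 2) +
        2 * |et * c10| + 4 * |d * c11| := by
    have w0 := abs_le.1 (le_refl |N|)
    have w1 := abs_le.1 (le_refl |b0 * c7|)
    have w2 := abs_le.1 (le_refl |b1 * c8|)
    have w3 := abs_le.1 (le_refl |et * c10|)
    have w4 := abs_le.1 (le_refl |d * c11|)
    have w5 := sq_nonneg c7
    have w6 := sq_nonneg c8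
    rw [abs_le]
    constructor <;> linarith [w0.1, w0.2, w1.1, w1.2, w2.1, w2.2, w3.1, w3.2, w4.1, w4.2]
  refine (mul_le_mul_of_nonneg_right tri hσ.le).trans ?_
  have ex : (|N| + 2 * (|b0 * c7| + |b1 * c8|) + (c7 ^ 2 + c8 ^ 2) + 2 * |et * c10| +
      4 * |d * c11|) * σ = |N| * σ + 2 * (|b0 * c7| * σ + |b1 * c8| * σ) +
      (c7 ^ 2 * σ + c8 ^ 2 * σ) + 2 * (|et * c10| * σ) + 4 * (|d * c11| * σ) := by ring
  rw [ex]
  have hPP : 30 * P ≤ P * P := by nlinarith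
  have z1 : Q * 1 ≤ Q * (P * P) := mul_le_mul_of_nonneg_left (by nlinarith) hQ
  have z2 : Q * P ≤ Q * (P * P) := mul_le_mul_of_nonneg_left (by nlinarith) hQ
  have z3 : Q * (30 * (P * P)) ≤ Q * (P * P * P) := by
    refine mul_le_mul_of_nonneg_left ?_ hQ
    have : P * P * 30 ≤ P * P * P := mul_le_mul_of_nonneg_left hP (by positivity)
    linarith
  have z0 : 0 ≤ Q * (P * P) := by positivity
  linarith

section flags

variable {r : ℕ → ℝ} {B : Base} {I : ℕ → Finset (ℕ × ℝ)} {G : Geo TSet (Fin 2)}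
    {L : ℕ → ℕ → LRay} {lev : ℕ → ℚ → ℕ}
    {A : ℕ → ℝ} {g s : ℝ} {θ : Fin 2 → ℝ} {f : ℕ → ℚ → ℕ → ℤ → ℕ}
    {b : ℕ → ℚ → ℕ → TSet} {vm : ℕ → ℚ → ℝ} {w : Fin 2 → ℕ → ℚ → ℝ}
    {fl : ℕ → ℕ × ℝ → LInc} {sc : Fin 12 → ℕ → ℝ}

/-- precisions of level `0` against level `1` -/
theorem pr_ratio (h : MkA B I G lev A (fun v => g * v) (fun v => s * v)
    (fun j v => θ j * (1 - v)) f b vm w) (k : Fin 12) {ε : ℝ} (hε : 0 < ε) :
    ∀ᶠ n in (U : Filter ℕ),
      prN lev w k n 0 ≤ prN lev w k n 1 * B.d n ^ (-βL (θ 0) (θ 1) k - ε) := by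
  have hε2 : 0 < ε / 2 := half_pos hε
  filter_upwards [cN_pr h 0 0 0 le_rfl zero_le_one hε2, cN_pr h 0 0 0 zero_le_one le_rfl hε2]
    with n h0 h1
  have a := (h0 k).2
  have b := (h1 k).1
  have hc := cN_pos B lev w 0 0 0 n k
  have e1 := rL_lin (θ 0) (θ 1) 0 0 0 1 k
  have e0 : ((0 : ℚ) : ℝ) = 0 := Rat.cast_zero
  have e0' : ((1 : ℚ) : ℝ) = 1 := Rat.cast_one
  rw [e0] at a
  rw [e0', e1, mul_one] at b
  have hd := dpow_pos B n (-βL (θ 0) (θ 1) k - ε)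
  have c1 : B.d n ^ (rL (θ 0) (θ 1) 0 0 0 0 k - ε / 2) =
      B.d n ^ (rL (θ 0) (θ 1) 0 0 0 0 k + βL (θ 0) (θ 1) k + ε / 2) *
        B.d n ^ (-βL (θ 0) (θ 1) k - ε) := by
    rw [← dpow_add]; congr 1; ring
  rw [c1] at a
  have c2 := mul_le_mul_of_nonneg_right b hd.le
  have c3 : cN B lev w 0 0 0 n k * prN lev w k n 0 ≤
      cN B lev w 0 0 0 n k * (prN lev w k n 1 * B.d n ^ (-βL (θ 0) (θ 1) k - ε)) := by
    rw [← mul_assoc]
    exact a.trans c2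
  exact le_of_mul_le_mul_left c3 hc

/-- **the gradients of the flags have length `1` up to `d^(θ 1 - θ 0 - ε) σ₁ / σ₀`** -/
theorem flagZ_of (a : Fin 2)
    (h : TSys PL G g s θ (βL (θ 0) (θ 1)) B I lev A f b vm w (frL lev f b a)
      (fun k n v => prN lev w k n v) fl sc)
    (hG : IsL G L r) (hz : ∀ n x, (fl n x).z = x.2) (h0 : 0 ≤ θ 0)
    (hd : ∀ ε : ℝ, 0 < ε → ∀ᶠ n in (U : Filter ℕ), ∀ x ∈ I n,
      |(fl n x).d| * (sN lev w 0 n * rho (lev n 0)) ≤ B.d n ^ (-ε)) :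
    ∀ ε : ℝ, 0 < ε → ∀ᶠ n in (U : Filter ℕ), ∀ x ∈ I n,
      |Xd954.bb (fl n x) 0 ^ 2 + Xd954.bb (fl n x) 1 ^ 2 - 1| * sN lev w 0 n ≤
        sN lev w 1 n * B.d n ^ (θ 1 - θ 0 - ε) := by
  have hsf := sN_fact h.mka hG
  intro ε hε
  have hε8 : 0 < ε / 8 := by positivity
  filter_upwards [h.close 7 0 le_rfl zero_le_one _ hε8,
    h.close 8 0 le_rfl zero_le_one _ hε8, h.close 10 0 le_rfl zero_le_one _ hε8,
    h.close 11 0 le_rfl zero_le_one _ hε8, hd _ hε8,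
    he_of h hz (hsf.mono fun n hn => hn.1) (frL_fact a h.mka hG) hε8,
    ev_const B (c := 30) (by norm_num) hε8, h.mka.wpos 0 0 le_rfl zero_le_one,
    h.mka.wpos 1 0 le_rfl zero_le_one, h.mka.wpos 0 1 zero_le_one le_rfl,
    h.mka.wpos 1 1 zero_le_one le_rfl, mark_L h.mka hG le_rfl zero_le_one,
    pr_ratio h.mka 7 hε8, pr_ratio h.mka 10 hε8]
    with n c7 c8 c10 c11 hdx he h30 p0 p1 p01 p11 hmk r7 r10 x hx
  have g7 := c7 x hx
  have g8 := c8 x hx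
  have g10 := c10 x hx
  have g11 := c11 x hx
  rw [PL_d] at g7 g8 g10 g11
  have hex := he x hx
  have hdx' := hdx x hx
  have r0 := rho_pos3 (lev n 0)
  have r1 := rho_pos3 (lev n 1)
  have hs0 := sN_pos lev w 0 n
  have hs1' := sN_pos lev w 1 n
  have dp := fun a => dpow_pos B n a
  -- the mark
  have hm := hmk x hx
  have hok := hm.ok
  set m := mkL lev f b n 0 x with hmd
  have hsg := KF439.sg_pos hok
  have hs1 := hok.hs1
  have es : w 0 n 0 / rho (lev n 0) = m.sg := by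
    rw [← hm.wide, ← hm.R]
    have := hok.hR
    field_simp
  have es1 : w 1 n 0 / rho (lev n 0) = m.s1 := by
    rw [← hm.thin, ← hm.R]
    have := hok.hR
    field_simp
  have q7 : prN lev w 7 n 0 = m.s1 / m.sg := by
    rw [← es, ← es1]; rfl
  have q8 : prN lev w 8 n 0 = m.s1 / m.sg := q7
  have q10 : prN lev w 10 n 0 = m.s1 := by
    rw [← es1]; rfl
  have q11 : prN lev w 11 n 0 = rho (lev n 0) * m.s1 := by
    rw [← es1]; rfl
  have q71 : prN lev w 7 n 1 = sN lev w 1 n / sN lev w 0 n := by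
    unfold sN
    rw [ps_eq (div_pos p01 r1), ps_eq (div_pos p11 r1)]
    rfl
  have q101 : prN lev w 10 n 1 = sN lev w 1 n := by
    unfold sN
    rw [ps_eq (div_pos p11 r1)]
    rfl
  have b7 : βL (θ 0) (θ 1) 7 = θ 0 - θ 1 := by
    show (-θ 1 : ℝ) - (-θ 0) = _
    ring
  have b10 : βL (θ 0) (θ 1) 10 = -θ 1 := rfl
  rw [q7, q71, b7] at r7
  rw [q10, q101, b10] at r10
  rw [q7] at g7
  rw [q8] at g8
  rw [q10] at g10
  rw [q11] at g11
  have ej : Xd954.bb (frL lev f b a n 0 x) 0 ^ 2 + Xd954.bb (frL lev f b a n 0 x) 1 ^ 2 =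
      ‖grr m.phi (KF439.bray m)‖ ^ 2 := by
    rw [bb_sq]
    exact vb_flM_sq a m
  have hbr : KF439.bray m ∈ m.rays 0 := KF439.bray_mem hm.ray
  have hq0 : 0 < m.s1 / m.sg := div_pos hs1 hsg
  have t0 : |Xd954.bb (frL lev f b a n 0 x) 0 ^ 2 + Xd954.bb (frL lev f b a n 0 x) 1 ^ 2 - 1| ≤
      m.s1 / m.sg := by
    rw [ej, le_div_iff₀ hsg]
    have := gr_sq_sharp hok hbr
    have hM : kM0 = 1 / 100 := rfl
    rw [hM] at this
    linarith
  have hbb : Xd954.bb (frL lev f b a n 0 x) 0 ^ 2 + Xd954.bb (frL lev f b a n 0 x) 1 ^ 2 ≤ 4 := by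
    rw [ej]
    have := (abs_le.1 (KF439.gr_sq hok hbr)).2
    have hM : kM0 = 1 / 100 := rfl
    rw [hM] at this
    linarith
  have hb0 : |Xd954.bb (frL lev f b a n 0 x) 0| ≤ 2 := two_of hbb
  have hb1 : |Xd954.bb (frL lev f b a n 0 x) 1| ≤ 2 := two_of (by rw [add_comm]; exact hbb)
  have hP30 : 30 ≤ B.d n ^ (-(ε / 8)) := by
    rw [Real.rpow_neg (B.pos n).le, le_inv_comm₀ (by norm_num) (dp _)]
    linarith
  have hq1 : m.s1 / m.sg ≤ 1 := by
    rw [div_le_one hsg]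
    exact hok.hsg
  -- the two sizes
  have h7 : m.s1 / m.sg * sN lev w 0 n ≤ sN lev w 1 n * B.d n ^ (θ 1 - θ 0 - ε / 8) := by
    have e1 := mul_le_mul_of_nonneg_right r7 hs0.le
    have e2 : sN lev w 1 n / sN lev w 0 n * B.d n ^ (-(θ 0 - θ 1) - ε / 8) * sN lev w 0 n =
        sN lev w 1 n * B.d n ^ (θ 1 - θ 0 - ε / 8) := by
      rw [show -(θ 0 - θ 1) - ε / 8 = θ 1 - θ 0 - ε / 8 by ring]
      field_simp
    rwa [e2] at e1
  have h1 : m.s1 ≤ sN lev w 1 n * B.d n ^ (θ 1 - θ 0 - ε / 8) := by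
    refine r10.trans (mul_le_mul_of_nonneg_left ?_ hs1'.le)
    exact dpow_le B n (by linarith)
  rw [bb_sq_eq (fl n x) (frL lev f b a n 0 x)]
  refine (core_zeta hs0 hq0.le hP30 hq1 r0 hs1.le h7 h1 t0 hb0 hb1 g7 g8 g10 g11 hex hdx').trans ?_
  have e3 : sN lev w 1 n * B.d n ^ (θ 1 - θ 0 - ε / 8) *
      (B.d n ^ (-(ε / 8)) * B.d n ^ (-(ε / 8)) * B.d n ^ (-(ε / 8))) =
      sN lev w 1 n * B.d n ^ (θ 1 - θ 0 - ε / 2) := by
    rw [mul_assoc, ← dpow_add, ← dpow_add, ← dpow_add]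
    congr 2; ring
  rw [e3]
  refine mul_le_mul_of_nonneg_left ?_ hs1'.le
  exact dpow_le B n (by linarith)

end flags

end Crest.Agent.R116.Bd710
end

-- ▼ part R116/Tw8_468
section

/-!
# R116, K10 (helper468), part 8: composite flags with gradients of length `1`

439's composite flag `flT` with its gradient `b` divided by its length.  The length is `1` up to the
precision of the slot `B` at the level where this precision is smallest, so the flag moves by less than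
the precision of every level (`close_unit`, `tsys_unit`); it is still constant along the lines where
`flT` is (`inv_unit`, `flOK_unit`).
-/

set_option autoImplicit false
set_option linter.unusedVariables false

open Finset Filter Topology

namespace Crest.Agent.R116.Tw468

open Crest.Agent.R138.Ex926 (Base U)
open Crest.Agent.R138.Mk163 (zc zl rho alive own)
open Crest.Agent.R138.MkRef627 (lc kc mem_alive)
open Crest.Agent.R138.Dp76 (dpow_pos dpow_add dpow_le Dense)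
open Crest.Agent.R138.Ps926 (dpow_small)
open Crest.Agent.R136.MkA627
open Crest.Agent.R136.Net191
open Crest.Agent.R136.TD627
open Crest.Agent.R138.Defs (E2)
open Crest.Agent.R116.LZg725
open Crest.Agent.R116.ChL222
open Crest.Agent.R116.Bm903
open Crest.Agent.R116.PL504 (ps ps_pos ps_eq prN βL)
open Crest.Agent.R116.Gd222 (TSet vb rayL)
open Crest.Agent.R116.KI439
open Crest.Agent.R116.KF439 (IsL PL PL_d frL frL_kc psi psm sm sm_grr Sg nsg nsg_sg lvl lvl_mem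
  lvl_zero comp_rayL comp_line mkL mark_L le_norm2 gr_le_two FS βL_one scN spN_pos EndClose
  close_trans comp_close base_close ev_prN_pos prN_cmp tsys_mk)
open Crest.Agent.R116.Rl899 (FlOK SameL)

/-- **composite flag with gradient of length `1`** -/
noncomputable def flN (lev : ℕ → ℚ → ℕ) (f : ℕ → ℚ → ℕ → ℤ → ℕ) (b : ℕ → ℚ → ℕ → TSet) (a : Fin 2)
    (θ : Fin 2 → ℝ) (L : ℕ → ℕ → LRay) (n : ℕ) (x : ℕ × ℝ) : LInc :=
  KF439.comp (L n x.1) x.2
    (sm (‖grr (psi lev f b a n (lvl (βL (θ 0) (θ 1) 7)) x) (L n x.1)‖⁻¹)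
      (psi lev f b a n (lvl (βL (θ 0) (θ 1) 7)) x))
    (psi lev f b a n (lvl (βL (θ 0) (θ 1) 2)) x) (psi lev f b a n (lvl (βL (θ 0) (θ 1) 1)) x)

section

variable {r : ℕ → ℝ} {L : ℕ → ℕ → LRay} {B : Base} {J : ℕ → Finset (ℕ × ℝ)}
    {G : Geo TSet (Fin 2)} {lev : ℕ → ℚ → ℕ} {A : ℕ → ℝ} {g s : ℝ} {θ : Fin 2 → ℝ} {c Λ : ℝ → ℝ}
    {τ : Fin 2 → ℝ → ℝ}
    {f : ℕ → ℚ → ℕ → ℤ → ℕ} {b : ℕ → ℚ → ℕ → TSet} {vm : ℕ → ℚ → ℝ} {w : Fin 2 → ℕ → ℚ → ℝ}
    {a : Fin 2}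

theorem psi_norm (n : ℕ) (v : ℚ) (x : ℕ × ℝ) (r : LRay) :
    ‖grr (psi lev f b a n v x) r‖ = ‖grr (mkL lev f b n v x).phi r‖ := by
  have hσ : Sg (nsg a (mkL lev f b n v x).phi (KF439.bray (mkL lev f b n v x))) := nsg_sg _ _ _
  unfold psi psm
  rw [sm_grr, norm_smul, Real.norm_eq_abs, hσ.abs, one_mul]

/-- the length of the gradients of one level -/
theorem psi_len (h : MkA B J G lev A c Λ τ f b vm w) (hG : IsL G L r) (a : Fin 2) {v : ℚ}
    (h0 : 0 ≤ v) (h1 : v ≤ 1) : ∀ᶠ n in (U : Filter ℕ), ∀ x ∈ J n,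
      |‖grr (psi lev f b a n v x) (L n x.1)‖ ^ 2 - 1| ≤ prN lev w 7 n v := by
  filter_upwards [mark_L h hG h0 h1] with n hmk x hx
  have hm := hmk x hx
  have hok := hm.ok
  rw [psi_norm]
  set m := mkL lev f b n v x with hmd
  have hsg := KF439.sg_pos hok
  have hs1 := hok.hs1
  have hR := hok.hR
  have es : w 0 n v / rho (lev n v) = m.sg := by
    rw [← hm.wide, ← hm.R]
    field_simp
  have es1 : w 1 n v / rho (lev n v) = m.s1 := by
    rw [← hm.thin, ← hm.R]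
    field_simp
  have q7 : prN lev w 7 n v = m.s1 / m.sg := by
    rw [← es, ← es1]; rfl
  rw [q7, le_div_iff₀ hsg]
  have := Bd369.gr_sq_sharp hok hm.ray
  have hM : kM0 = 1 / 100 := rfl
  rw [hM] at this
  linarith

theorem unit_move {g gp : E2} : ‖(‖g‖⁻¹ • g) - gp‖ ≤ |‖g‖ ^ 2 - 1| + ‖g - gp‖ := by
  have e : (‖g‖⁻¹ • g) - gp = (‖g‖⁻¹ • g - g) + (g - gp) := by abel
  rw [e]
  refine (norm_add_le _ _).trans (add_le_add_left ?_ _)
  by_cases hg : ‖g‖ = 0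
  · have : g = 0 := norm_eq_zero.1 hg
    rw [this]; simp
  have hp : 0 < ‖g‖ := lt_of_le_of_ne (norm_nonneg g) (Ne.symm hg)
  have e2 : ‖g‖⁻¹ • g - g = (‖g‖⁻¹ - 1) • g := by rw [sub_smul, one_smul]
  rw [e2, norm_smul, Real.norm_eq_abs]
  have e3 : |‖g‖⁻¹ - 1| * ‖g‖ = |(‖g‖⁻¹ - 1) * ‖g‖| := by rw [abs_mul, abs_norm]
  have e4 : (‖g‖⁻¹ - 1) * ‖g‖ = 1 - ‖g‖ := by
    rw [sub_mul, inv_mul_cancel₀ hg, one_mul]
  rw [e3, e4]
  have e5 : ‖g‖ ^ 2 - 1 = (‖g‖ - 1) * (‖g‖ + 1) := by ring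
  rw [e5, abs_mul, abs_sub_comm]
  have : 1 ≤ |‖g‖ + 1| := by
    rw [abs_of_pos (by linarith)]; linarith
  exact le_mul_of_one_le_right (abs_nonneg _) this

theorem close_unit (h : MkA B J G lev A (fun v => g * v) (fun v => s * v)
    (fun j v => θ j * (1 - v)) f b vm w) (hG : IsL G L r)
    (hE : EndClose J B L lev f b w θ a) (k : Fin 12) (v : ℚ) (h0 : 0 ≤ v) (h1 : v ≤ 1) (ε : ℝ)
    (hε : 0 < ε) : ∀ᶠ n in (U : Filter ℕ), ∀ x ∈ J n,
      |coL (flN lev f b a θ L n x) (frL lev f b a n v x) k| ≤ prN lev w k n v * B.d n ^ (-ε) := by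
  obtain ⟨l0, l1⟩ := lvl_mem (βL (θ 0) (θ 1) 7)
  refine close_trans h h0 h1 (q := fun n x => toL (L n x.1) x.2 (psi lev f b a n v x)) ?_ ?_ k hε
  · intro k ε hε
    have hε2 : 0 < ε / 2 := half_pos hε
    filter_upwards [hE 1 (Or.inl rfl) v h0 h1 ε hε, hE 2 (Or.inr (Or.inl rfl)) v h0 h1 ε hε,
      hE 7 (Or.inr (Or.inr (Or.inl rfl))) v h0 h1 (ε / 2) hε2, ev_prN_pos h h0 h1,
      psi_len h hG a l0 l1, prN_cmp h l0 l1 h0 h1 hε2,
      dpow_small B hε2 (ε := 1 / 2) (by norm_num)] with n a1 a2 a7 a0 al ac ad x hx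
    have c1 := a1 x hx
    have c2 := a2 x hx
    have c7 := a7 x hx
    have hp2 := dpow_pos B n (-(ε / 2))
    have hd2 := dpow_pos B n (ε / 2)
    have two : 2 ≤ B.d n ^ (-(ε / 2)) := by
      rw [Real.rpow_neg (B.pos n).le, le_inv_comm₀ (by norm_num) hd2]
      linarith
    have ee : B.d n ^ (-(ε / 2)) * B.d n ^ (-(ε / 2)) = B.d n ^ (-ε) := by
      rw [← dpow_add]; congr 1; ring
    have p7 := a0 7
    have al1 : prN lev w 7 n (lvl (βL (θ 0) (θ 1) 7)) ≤ prN lev w 7 n v * B.d n ^ (-(ε / 2)) := by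
      refine (ac 7).trans (mul_le_mul_of_nonneg_left (dpow_le B n ?_) p7.le)
      have : 0 ≤ βL (θ 0) (θ 1) 7 * (((lvl (βL (θ 0) (θ 1) 7) : ℚ) : ℝ) - (v : ℝ)) := by
        have v0 : (0 : ℝ) ≤ (v : ℝ) := by exact_mod_cast h0
        have v1 : (v : ℝ) ≤ 1 := by exact_mod_cast h1
        unfold lvl
        split_ifs with hb
        · rw [Rat.cast_one]
          exact mul_nonneg hb.le (by linarith)
        · rw [Rat.cast_zero, zero_sub]
          have := not_lt.1 hb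
          nlinarith
      linarith
    have c7' : ‖grr (dif (sm (‖grr (psi lev f b a n (lvl (βL (θ 0) (θ 1) 7)) x) (L n x.1)‖⁻¹)
        (psi lev f b a n (lvl (βL (θ 0) (θ 1) 7)) x)) (psi lev f b a n v x)) (L n x.1)‖ ≤
        prN lev w 7 n v * B.d n ^ (-ε) := by
      rw [dif_grr, sm_grr]
      refine unit_move.trans ?_
      have b1 := (al x hx).trans al1
      have b2 : ‖grr (psi lev f b a n (lvl (βL (θ 0) (θ 1) 7)) x) (L n x.1) -
          grr (psi lev f b a n v x) (L n x.1)‖ ≤ prN lev w 7 n v * B.d n ^ (-(ε / 2)) := by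
        rw [← dif_grr]
        exact c7
      have b3 : 0 ≤ prN lev w 7 n v * B.d n ^ (-(ε / 2)) := mul_nonneg p7.le hp2.le
      calc _ ≤ 2 * (prN lev w 7 n v * B.d n ^ (-(ε / 2))) := by linarith
        _ ≤ B.d n ^ (-(ε / 2)) * (prN lev w 7 n v * B.d n ^ (-(ε / 2))) :=
            mul_le_mul_of_nonneg_right two b3
        _ = prN lev w 7 n v * B.d n ^ (-ε) := by rw [← ee]; ring
    have key := comp_close (r := L n x.1) (z := x.2) (p := psi lev f b a n v x) c7' c2 c1 k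
    refine key.trans ?_
    have hp := dpow_pos B n (-ε)
    have hk : ∀ k, 0 ≤ prN lev w k n v * B.d n ^ (-ε) := fun k => mul_nonneg (a0 k).le hp.le
    have e8 : prN lev w 8 n v = prN lev w 7 n v := rfl
    fin_cases k
    · exact hk 0
    · exact le_rfl
    · exact le_rfl
    · exact hk 3
    · exact hk 4
    · exact hk 5
    · exact hk 6
    · exact le_rfl
    · exact le_of_eq (by rw [← e8]; rfl)
    · exact hk 9
    · exact hk 10
    · exact hk 11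
  · intro k ε hε
    filter_upwards [mark_L h hG h0 h1, ev_prN_pos h h0 h1,
      dpow_small B hε (ε := 1 / 4) (by norm_num)] with n a1 a2 a3 x hx
    have c1 := base_close (ax := a) (a1 x hx) k
    refine c1.trans ?_
    have hp := dpow_pos B n ε
    have h4 : 4 ≤ B.d n ^ (-ε) := by
      rw [Real.rpow_neg (B.pos n).le, le_inv_comm₀ (by norm_num) hp]
      linarith
    have := mul_le_mul_of_nonneg_left h4 (a2 k).le
    linarith

/-- **`TSys` with the normalised composite flags** -/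
theorem tsys_unit (h : MkA B J G lev A (fun v => g * v) (fun v => s * v)
    (fun j v => θ j * (1 - v)) f b vm w) (hG : IsL G L r)
    (hE : EndClose J B L lev f b w θ a) :
    TSys PL G g s θ (βL (θ 0) (θ 1)) B J lev A f b vm w (frL lev f b a) (prN lev w)
      (flN lev f b a θ L) (scN lev w) :=
  tsys_mk h (fun n v x y hxy => frL_kc lev f b a n v x y hxy) fun k v h0 h1 ε hε =>
    close_unit h hG hE k v h0 h1 ε hε

/-- slots of rate at most `0` are constant along the lines -/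
theorem inv_unit (h : MkA B J G lev A c Λ τ f b vm w) (k : Fin 12) (hk : k ≠ 0)
    (hβ : FS k → βL (θ 0) (θ 1) k ≤ 0) (sc : ℕ → ℝ) (hsc : ∀ n, 0 < sc n) :
    InvT PL B J k (flN lev f b a θ L) sc := by
  intro M
  filter_upwards [h.cell0] with n hn x hx y hy hxy
  have hz := hn y hy x hx
  have e0 : psi lev f b a n 0 y = psi lev f b a n 0 x := by
    unfold psi mkL
    rw [hxy, hz]
  have key : coL (flN lev f b a θ L n x) (flN lev f b a θ L n y) k = 0 := by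
    unfold flN
    rw [hxy]
    refine comp_line hk (fun e => ?_) (fun e => ?_) fun e => ?_
    · subst e
      rw [lvl_zero (hβ (Or.inl rfl)), e0]
    · subst e
      have h2 := hβ (Or.inr (Or.inl rfl))
      have h1 : βL (θ 0) (θ 1) 1 ≤ 0 := by rw [βL_one]; linarith
      rw [lvl_zero h2, lvl_zero h1, e0]
      exact ⟨rfl, rfl⟩
    · have h7 : βL (θ 0) (θ 1) 7 ≤ 0 := by
        rcases e with e | e
        · subst e
          exact hβ (Or.inr (Or.inr (Or.inl rfl)))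
        · subst e
          exact hβ (Or.inr (Or.inr (Or.inr rfl)))
      rw [lvl_zero h7, e0]
  rw [PL_d, key, abs_zero]
  exact mul_nonneg (hsc n).le (dpow_pos B n _).le

theorem flOK_unit (h : MkA B J G lev A c Λ τ f b vm w) (hβ : βL (θ 0) (θ 1) 1 ≤ 0) :
    FlOK J (flN lev f b a θ L) := by
  refine ⟨?_, fun n x => rfl⟩
  filter_upwards [h.cell0] with n hn x hx y hy hxy
  have hz := hn y hy x hx
  have e0 : psi lev f b a n 0 y = psi lev f b a n 0 x := by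
    unfold psi mkL
    rw [hxy, hz]
  unfold flN
  rw [hxy, lvl_zero hβ]
  exact ⟨rfl, rfl, rfl, rfl, rfl, by
    show (psi lev f b a n 0 y).d = (psi lev f b a n 0 x).d
    rw [e0]⟩

theorem vb_flN (n : ℕ) (x : ℕ × ℝ) : vb (flN lev f b a θ L n x) =
    ‖grr (psi lev f b a n (lvl (βL (θ 0) (θ 1) 7)) x) (L n x.1)‖⁻¹ •
      grr (psi lev f b a n (lvl (βL (θ 0) (θ 1) 7)) x) (L n x.1) := by
  rw [← sm_grr]
  ext i
  fin_cases i <;> rfl

/-- **length and axis of the normalised flags** -/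
theorem vb_unit (h : MkA B J G lev A c Λ τ f b vm w) (hG : IsL G L r)
    (hl : ∀ v : ℚ, 0 ≤ v → v ≤ 1 → ∀ᶠ n in (U : Filter ℕ), ∀ x ∈ J n,
      59 / 100 ≤ |grr (mkL lev f b n v x).phi (L n x.1) a|) :
    ∀ᶠ n in (U : Filter ℕ), ∀ x ∈ J n, ‖vb (flN lev f b a θ L n x)‖ = 1 ∧
      1 / 2 ≤ |vb (flN lev f b a θ L n x) a| := by
  obtain ⟨l0, l1⟩ := lvl_mem (βL (θ 0) (θ 1) 7)
  filter_upwards [hl _ l0 l1, mark_L h hG l0 l1] with n hn hm x hx
  have h1 := hn x hx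
  have h2 := gr_le_two (hm x hx).ok (hm x hx).ray
  have h3 : |grr (psi lev f b a n (lvl (βL (θ 0) (θ 1) 7)) x) (L n x.1) a| =
      |grr (mkL lev f b n (lvl (βL (θ 0) (θ 1) 7)) x).phi (L n x.1) a| := by
    have hσ : Sg (nsg a (mkL lev f b n (lvl (βL (θ 0) (θ 1) 7)) x).phi
      (KF439.bray (mkL lev f b n (lvl (βL (θ 0) (θ 1) 7)) x))) := nsg_sg _ _ _
    unfold psi psm
    rw [sm_grr, PiLp.smul_apply, smul_eq_mul, abs_mul, hσ.abs, one_mul]
  rw [vb_flN]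
  have h4 := psi_norm (a := a) (lev := lev) (f := f) (b := b) n (lvl (βL (θ 0) (θ 1) 7)) x
    (L n x.1)
  set gg := grr (psi lev f b a n (lvl (βL (θ 0) (θ 1) 7)) x) (L n x.1) with hgg
  rw [← h3] at h1
  rw [← h4] at h2
  have h5 := le_norm2 gg a
  have hp : 0 < ‖gg‖ := by linarith
  refine ⟨?_, ?_⟩
  · rw [norm_smul, norm_inv, norm_norm, inv_mul_cancel₀ hp.ne']
  · rw [PiLp.smul_apply, smul_eq_mul, abs_mul, abs_of_pos (inv_pos.2 hp), inv_mul_eq_div,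
      le_div_iff₀ hp]
    linarith

end

end Crest.Agent.R116.Tw468
end

-- ▼ part R116/Tw5_468

/-!
# R116, K10 (helper468), part 5: the seam I-c / II-c

* **`OutT`** : thin case: one window (`LWin`), thin marks, classification of the slots (899's
  `NatL3`), `β_D = 0` clause.
* **`OutR`** : round case: one window, flat flags, all slots except the height invisible.
* **`outT_thin`**, **`outR_thick`** : from the linear sequence, 439's `thin_sys`, `thick_sys` and 899's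
  `natL3`; `X, Lo, l0, l1, K` : static range of the test sets.
-/

set_option autoImplicit false
set_option linter.unusedVariables false

open Finset Filter Topology

namespace Crest.Agent.R116.Tw468

open Crest.Agent.R138.Ex926 (Base U)
open Crest.Agent.R138.Mk163 (zc zl rho alive own)
open Crest.Agent.R138.MkRef627 (lc kc mem_alive)
open Crest.Agent.R138.Dp76 (dpow_pos dpow_add dpow_le Dense)
open Crest.Agent.R138.ArgM163 (log_dpow)
open Crest.Agent.R136.MkA627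
open Crest.Agent.R136.Net191
open Crest.Agent.R136.TD627
open Crest.Agent.R136.Lq196
open Crest.Agent.R116.LZg725
open Crest.Agent.R116.ChL222
open Crest.Agent.R116.PL504 (ps ps_pos ps_eq prN βL eL rL oL Shift uL)
open Crest.Agent.R116.Gd222 (TSet AdmR LData sN sN_pos vb rayL PDL DT own_thin dflat LData_of)
open Crest.Agent.R116.KI439
open Crest.Agent.R116.Bm903 (grr)
open Crest.Agent.R116.KF439 (IsL ValL Thin Thick PL PL_d PL_M frL frL_kc TiltL thick_sys flT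
  flF frF scN FlagD flOK_thin mkL psi psm nsg nsg_sg Sg sm_grr lvl lvl_mem le_norm2 gr_le_two
  mark_L vb_thin tsys_thin endClose EndClose inv_thin tilt_norm spN_pos bray βL_zero)
open Crest.Agent.R116.Rl899 (rg rg_zero FlOK monL_two prN_two)
open Crest.Agent.R116.Rm899 (STwL2)
open Crest.Agent.R116.Rn899 (NatL3 TwP natL3)

/-! ### good marks -/

section good

variable {σ : Type*} {I J : ℕ → Finset (ℕ × ℝ)} {lev : ℕ → ℚ → ℕ} {f : ℕ → ℚ → ℕ → ℤ → ℕ}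
    {b : ℕ → ℚ → ℕ → σ} {Gd Gd' : ℕ → ℕ → ℤ → σ → Prop}

theorem GoodM.sub (h : GoodM I lev f b Gd) (hJ : ∀ᶠ n in (U : Filter ℕ), J n ⊆ I n) :
    GoodM J lev f b Gd := by
  intro v h0 h1
  filter_upwards [h v h0 h1, hJ] with n a1 a2 K t ht
  obtain ⟨x, hx, e1, e2⟩ := mem_alive.1 ht
  exact a1 K t (mem_alive.2 ⟨x, a2 hx, e1, e2⟩)

theorem GoodM.and (h : GoodM I lev f b Gd) (h' : GoodM I lev f b Gd') :
    GoodM I lev f b (fun n i J s => Gd n i J s ∧ Gd' n i J s) := by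
  intro v h0 h1
  filter_upwards [h v h0 h1, h' v h0 h1] with n a1 a2 K t ht
  exact ⟨a1 K t ht, a2 K t ht⟩

theorem GoodM.mono (h : GoodM I lev f b Gd) (h' : ∀ n i J s, Gd n i J s → Gd' n i J s) :
    GoodM I lev f b Gd' := by
  intro v h0 h1
  filter_upwards [h v h0 h1] with n a1 K t ht
  exact h' _ _ _ _ (a1 K t ht)

end good

/-! ### 439's `thin_sys` with the axis of the flags -/

/-- the flag is large along the axis `b`, and bounded -/
def AxB (I : ℕ → Finset (ℕ × ℝ)) (fl : ℕ → ℕ × ℝ → LInc) : Prop :=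
  ∃ b : Fin 2, ∀ᶠ n in (U : Filter ℕ), ∀ x ∈ I n, 1 / 2 ≤ |vb (fl n x) b| ∧
    ∀ c, |vb (fl n x) c| ≤ 2

theorem AxB.sub {I J : ℕ → Finset (ℕ × ℝ)} {fl : ℕ → ℕ × ℝ → LInc} (h : AxB I fl)
    (hJ : ∀ᶠ n in (U : Filter ℕ), J n ⊆ I n) : AxB J fl := by
  obtain ⟨b, hb⟩ := h
  exact ⟨b, by filter_upwards [hb, hJ] with n a1 a2 x hx using a1 x (a2 hx)⟩

section axis

variable {r : ℕ → ℝ} {L : ℕ → ℕ → LRay} {B : Base} {I J : ℕ → Finset (ℕ × ℝ)}
    {G : Geo TSet (Fin 2)} {lev : ℕ → ℚ → ℕ} {A : ℕ → ℝ} {g s : ℝ} {θ : Fin 2 → ℝ} {c Λ : ℝ → ℝ}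
    {τ : Fin 2 → ℝ → ℝ}
    {f : ℕ → ℚ → ℕ → ℤ → ℕ} {b : ℕ → ℚ → ℕ → TSet} {vm : ℕ → ℚ → ℝ} {w : Fin 2 → ℕ → ℚ → ℝ}



/-- axis of the normalised flags -/
theorem axB_unit (h : MkA B J G lev A c Λ τ f b vm w) (hG : IsL G L r) {a : Fin 2}
    (hl : ∀ v : ℚ, 0 ≤ v → v ≤ 1 → ∀ᶠ n in (U : Filter ℕ), ∀ x ∈ J n,
      59 / 100 ≤ |grr (mkL lev f b n v x).phi (L n x.1) a|) : AxB J (flN lev f b a θ L) := by
  refine ⟨a, ?_⟩
  filter_upwards [vb_unit (θ := θ) h hG hl] with n hn x hx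
  obtain ⟨h1, h2⟩ := hn x hx
  refine ⟨h2, fun c => (le_norm2 _ c).trans ?_⟩
  rw [h1]
  norm_num

/-- gradients of length `1` -/
def NrB (I : ℕ → Finset (ℕ × ℝ)) (fl : ℕ → ℕ × ℝ → LInc) : Prop :=
  ∀ᶠ n in (U : Filter ℕ), ∀ x ∈ I n, Xd954.bb (fl n x) 0 ^ 2 + Xd954.bb (fl n x) 1 ^ 2 = 1

theorem NrB.sub {I J : ℕ → Finset (ℕ × ℝ)} {fl : ℕ → ℕ × ℝ → LInc} (h : NrB I fl)
    (hJ : ∀ᶠ n in (U : Filter ℕ), J n ⊆ I n) : NrB J fl := by
  filter_upwards [h, hJ] with n a1 a2 x hx using a1 x (a2 hx)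

/-- **439's `thin_sys` with normalised composite flags** -/
theorem thin_sysN (h : MkA B I G lev A (fun v => g * v) (fun v => s * v)
    (fun j v => θ j * (1 - v)) f b vm w) (hG : IsL G L r) {C : ℝ}
    (hT : TiltL B I L lev f b w C) (hThin : Thin B w) :
    ∃ (a : Fin 2) (J : ℕ → Finset (ℕ × ℝ)), Dense B J I ∧
      TSys PL G g s θ (βL (θ 0) (θ 1)) B J lev A f b vm w (frL lev f b a) (prN lev w)
        (flN lev f b a θ L) (scN lev w) ∧
      FlagD J L lev f (frL lev f b a) (flN lev f b a θ L) ∧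
      (∀ k, InvT PL B J k (flN lev f b a θ L) (scN lev w k) ∨ 0 < βL (θ 0) (θ 1) k) ∧
      AxB J (flN lev f b a θ L) ∧ NrB J (flN lev f b a θ L) := by
  obtain ⟨a, J1, hJ1, hax⟩ := Crest.Agent.R116.KFx126.axis h hG
  obtain ⟨J2, h2s, h2d, -, hM2⟩ := h.refine' hJ1
  obtain ⟨J3, h3s, h3d, hlarge, htilt⟩ := tilt_norm hM2 hG (hT.dense (h2d.trans hJ1)) hThin
    (a := a) (hax.mono fun n hn x hx => hn x (h2s n hx))
  obtain ⟨J4, h4s, h4d, -, hM4⟩ := hM2.refine' h3d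
  have hE : EndClose J4 B L lev f b w θ a := endClose hM4 (C := C) fun u v h0 huv h1 ε hε =>
    (htilt u v h0 huv h1 ε hε).mono fun n hn x hx => hn x (h4s n hx)
  have hl4 : ∀ v : ℚ, 0 ≤ v → v ≤ 1 → ∀ᶠ n in (U : Filter ℕ), ∀ x ∈ J4 n,
      59 / 100 ≤ |grr (mkL lev f b n v x).phi (L n x.1) a| := fun v h0 h1 =>
    (hlarge v h0 h1).mono fun n hn x hx => hn x (h4s n hx)
  have hu := vb_unit (θ := θ) hM4 hG hl4
  refine ⟨a, J4, h4d.trans (h3d.trans (h2d.trans hJ1)), tsys_unit hM4 hG hE,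
    ⟨fun n x => KF439.comp_rayL _ _ _ _ _, fun n x => rfl,
      fun n v x y hxy => frL_kc lev f b a n v x y hxy, ?_⟩, fun k => ?_,
    axB_unit hM4 hG hl4, ?_⟩
  · filter_upwards [hu] with n hn x hx
    rw [(hn x hx).1]
    norm_num
  · by_cases hk : 0 < βL (θ 0) (θ 1) k
    · exact Or.inr hk
    · refine Or.inl (inv_unit hM4 k ?_ (fun _ => not_lt.1 hk) _ fun n => spN_pos lev w 0 k n)
      rintro rfl
      exact hk (by rw [βL_zero]; exact one_pos)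
  · filter_upwards [hu] with n hn x hx
    rw [Xd954.bb_sq, (hn x hx).1, one_pow]

end axis

/-! ### output -/

/-- **thin case**: one window of the light-ray chart -/
structure OutT (G : Geo TSet (Fin 2)) (L : ℕ → ℕ → LRay) (r : ℕ → ℝ) (g s : ℝ)
    (θ q : Fin 2 → ℝ) (Rg : ℝ) (B : Base) (I : ℕ → Finset (ℕ × ℝ)) (lev : ℕ → ℚ → ℕ) (A : ℕ → ℝ)
    (f : ℕ → ℚ → ℕ → ℤ → ℕ) (b : ℕ → ℚ → ℕ → TSet) (vm : ℕ → ℚ → ℝ) (w : Fin 2 → ℕ → ℚ → ℝ)
    (fr : ℕ → ℚ → ℕ × ℝ → LInc) (fl : ℕ → ℕ × ℝ → LInc) (sc : Fin 12 → ℕ → ℝ) : Prop where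
  win : LWin G L r g s θ q Rg B I lev A f b vm w fr fl sc
  thin : Thin B w
  /-- the flag is large along a fixed axis -/
  ax : AxB I fl
  /-- `||vb| ^ 2 - 1| s0 ≤ s1 d^(-ε)` (helper369) -/
  nrm : Bd369.FlagN B I fl (sN lev w)
  /-- every slot is constant along the lines, or tied with linear modulus, or the product of visible
  slots -/
  cls : ∀ j, InvT PL B I j fl (sc j) ∨
    (0 < βL (θ 0) (θ 1) j ∧
      RotT PL B I lev j fl (sc j) (βL (θ 0) (θ 1) j) (fun u => βL (θ 0) (θ 1) j * u) ∧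
      TwP PL B I lev j fl (sc j) (βL (θ 0) (θ 1) j)) ∨
    (0 < βL (θ 0) (θ 1) j ∧ ∃ a ∈ monL.mon j,
      ∑ t, (a t : ℝ) * βL (θ 0) (θ 1) t = βL (θ 0) (θ 1) j ∧
      ∀ t, a t ≠ 0 → ¬ InvT PL B I t fl (sc t))
  /-- `k' = 1` -/
  kone : βL (θ 0) (θ 1) 1 = 0 → InvT PL B I 2 fl (sc 2) ∨ STwL2 B I lev fl (sc 2)
  /-- `||vb| ^ 2 - 1| s0 ≤ s1 d^(θ 1 - θ 0 - ε)` (helper710) -/
  nrz : 0 ≤ θ 0 → ∀ ε : ℝ, 0 < ε → ∀ᶠ n in (U : Filter ℕ), ∀ x ∈ I n,
    |Xd954.bb (fl n x) 0 ^ 2 + Xd954.bb (fl n x) 1 ^ 2 - 1| * sN lev w 0 n ≤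
      sN lev w 1 n * B.d n ^ (θ 1 - θ 0 - ε)
  /-- the gradients of the flags have length `1` -/
  nr1 : ∀ᶠ n in (U : Filter ℕ), ∀ x ∈ I n,
    Xd954.bb (fl n x) 0 ^ 2 + Xd954.bb (fl n x) 1 ^ 2 = 1

/-- **round case**: one window, flat flags -/
structure OutR (G : Geo TSet (Fin 2)) (L : ℕ → ℕ → LRay) (r : ℕ → ℝ) (g s : ℝ)
    (θ q : Fin 2 → ℝ) (Rg : ℝ) (a : Fin 2) (B : Base) (I : ℕ → Finset (ℕ × ℝ)) (lev : ℕ → ℚ → ℕ)
    (A : ℕ → ℝ) (f : ℕ → ℚ → ℕ → ℤ → ℕ) (b : ℕ → ℚ → ℕ → TSet) (vm : ℕ → ℚ → ℝ)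
    (w : Fin 2 → ℕ → ℚ → ℝ) : Prop where
  win : LWin G L r g s θ q Rg B I lev A f b vm w (frF lev f b a) (flF a L) (scN lev w)
  thick : Thick B w
  inv : ∀ k, k ≠ 0 → InvT PL B I k (flF a L) (scN lev w k)

section win

variable {G : Geo TSet (Fin 2)} {L : ℕ → ℕ → LRay} {r : ℕ → ℝ} {g s : ℝ} {θ q : Fin 2 → ℝ}
    {Rg K Kw Kx : ℝ} {X Y : Fin 2 → ℕ → ℝ} {Lo Ly : ℕ → ℝ} {l0 l1 k0 k1 : ℕ → ℕ} {B : Base}
    {I : ℕ → Finset (ℕ × ℝ)} {lev : ℕ → ℚ → ℕ} {A : ℕ → ℝ}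
    {f : ℕ → ℚ → ℕ → ℤ → ℕ} {b : ℕ → ℚ → ℕ → TSet} {vm : ℕ → ℚ → ℝ} {w : Fin 2 → ℕ → ℚ → ℝ}
    {fr : ℕ → ℚ → ℕ × ℝ → LInc} {fl : ℕ → ℕ × ℝ → LInc} {sc : Fin 12 → ℕ → ℝ}

/-- **a window of a thin system** -/
theorem lwin_thin (a : Fin 2)
    (h : TSys PL G g s θ (βL (θ 0) (θ 1)) B I lev A f b vm w (frL lev f b a)
      (fun k n v => prN lev w k n v) fl sc) (hG : IsL G L r) (hv : ValL G q)
    (hq : ∀ j, 0 ≤ q j) (hs : s < 1) (hthin : Thin B w)
    (hadm : AdmR B G lev (sN lev w) (2 * kD) 1 Rg)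
    (hz : ∀ n x, (fl n x).z = x.2) (hray : ∀ n x, rayL (fl n x) = L n x.1)
    (hb : ∀ᶠ n in (U : Filter ℕ), ∀ x ∈ I n, 1 / 2 ≤ ‖vb (fl n x)‖) :
    LWin G L r g s θ q Rg B I lev A f b vm w (frL lev f b a) fl sc := by
  have hsf := sN_fact h.mka hG
  have he : ∀ ε : ℝ, 0 < ε → ∀ᶠ n in (U : Filter ℕ), ∀ x ∈ I n,
      |(fl n x).et| * sN lev w 0 n ≤ B.d n ^ (-ε) := fun ε hε =>
    he_of h hz (hsf.mono fun n hn => hn.1) (frL_fact a h.mka hG) hε
  have hd := dflat h.mka hs (fun n => sN_pos lev w 0 n) (fun n x _ => hz n x) he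
    (own_thin (fun k n a b => PL_d k n a b) h (fun _ _ _ => rfl) hthin)
  exact
  { sys := h
    hfr := fun n v x y hxy => frL_kc lev f b a n v x y hxy
    isL := hG
    val := hv
    hz := hz
    ray := hray
    dat := LData_of h.mka hG hv hq le_rfl hadm (fun n x _ => hz n x) (fun n x _ => hray n x) hb he
      (fun ε hε => by
        have := hd ε hε
        rwa [neg_zero, zero_sub])
    s10 := hsf.mono fun n hn => hn.1 }

/-- base of a window -/
theorem win_L {B B' : Base} {H : ℕ → ℝ} (hH : ∀ n, 0 < H n ∧ H n ≤ 1)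
    (hB : ∀ n, B'.d n = B.d n ^ H n) (n : ℕ) : B'.L n ≤ B.L n := by
  have e : B'.L n = H n * B.L n := by
    unfold Base.L
    rw [hB, Real.log_rpow (B.pos n)]
    ring
  rw [e]
  exact mul_le_of_le_one_left (B.L_pos n).le (hH n).2

/-- **from the second zoom to the output.** `X, Lo, l0, l1` : static range of the test sets;
`Y, Ly, k0, k1` : static thin range. -/
theorem outT_of_nat (a : Fin 2)
    (h : NatL3 PL (flagG G (fun n i J s => GdW X Lo l0 l1 Kw n i J s ∧ GdW Y Ly k0 k1 Kx n i J s))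
      g s θ (βL (θ 0) (θ 1)) (βL (θ 0) (θ 1)) fl B I lev f (fun n v a => (true, b n v a)) vm w
      (frL lev f b a) (fun k n v => prN lev w k n v))
    (hG : IsL G L r) (hv : ValL G q) (hq : ∀ j, 0 ≤ q j) (hs : s < 1)
    (hS : AdmS G X Lo l0 l1 K) (hLo : ∀ᶠ n in (U : Filter ℕ), B.L n ≤ Lo n) (hRg : 0 ≤ Rg)
    (hK : Rg + Kw + 2 ≤ K)
    (hY : ∀ j, ∀ᶠ n in (U : Filter ℕ), 0 < Y j n) (hth : STh Y Ly)
    (hLy : ∀ᶠ n in (U : Filter ℕ), B.L n ≤ Ly n)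
    (hz : ∀ n x, (fl n x).z = x.2) (hray : ∀ n x, rayL (fl n x) = L n x.1)
    (hb : ∀ᶠ n in (U : Filter ℕ), ∀ x ∈ I n, 1 / 2 ≤ ‖vb (fl n x)‖) (hax : AxB I fl)
    (hnr : NrB I fl) :
    ∃ (B' : Base) (I' : ℕ → Finset (ℕ × ℝ)) (lev' : ℕ → ℚ → ℕ) (A' : ℕ → ℝ)
      (f' : ℕ → ℚ → ℕ → ℤ → ℕ) (b' : ℕ → ℚ → ℕ → TSet) (vm' : ℕ → ℚ → ℝ)
      (w' : Fin 2 → ℕ → ℚ → ℝ) (fr' : ℕ → ℚ → ℕ × ℝ → LInc) (fl' : ℕ → ℕ × ℝ → LInc)
      (sc' : Fin 12 → ℕ → ℝ), OutT G L r g s θ q Rg B' I' lev' A' f' b' vm' w' fr' fl' sc' := by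
  obtain ⟨H, mm, B', I', A', sc', cc, h1, -, -, h2, h3, -, h4, -, h5, h6⟩ := h
  have hgood : GoodM I' (fun n x => lev n (mm n x)) (fun n x => f n (mm n x))
      (fun n x => b n (mm n x))
      (fun n i J s => GdW X Lo l0 l1 Kw n i J s ∧ GdW Y Ly k0 k1 Kx n i J s) :=
    goodM_unflag (b := fun n x => b n (mm n x)) h4.mka
  have hsys : TSys PL G g s θ (βL (θ 0) (θ 1)) B' I' (fun n x => lev n (mm n x)) A'
      (fun n x => f n (mm n x)) (fun n x => b n (mm n x)) (fun n x => vm n (mm n x))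
      (fun j n x => w j n (mm n x)) (fun n x => frL lev f b a n (mm n x))
      (fun j n x => prN lev w j n (mm n x)) (rg cc fl) sc' :=
    tsys_unflag (b := fun n x => b n (mm n x)) h4
  have hsys' : TSys PL G g s θ (βL (θ 0) (θ 1)) B' I' (fun n x => lev n (mm n x)) A'
      (fun n x => f n (mm n x)) (fun n x => b n (mm n x)) (fun n x => vm n (mm n x))
      (fun j n x => w j n (mm n x))
      (frL (fun n x => lev n (mm n x)) (fun n x => f n (mm n x)) (fun n x => b n (mm n x)) a)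
      (fun k n v => prN (fun n x => lev n (mm n x)) (fun j n x => w j n (mm n x)) k n v)
      (rg cc fl) sc' := hsys
  have hL1 : ∀ᶠ n in (U : Filter ℕ), B'.L n ≤ Lo n :=
    hLo.mono fun n hn => (win_L h1 h2 n).trans hn
  have hL2 : ∀ᶠ n in (U : Filter ℕ), B'.L n ≤ Ly n :=
    hLy.mono fun n hn => (win_L h1 h2 n).trans hn
  have hthin : Thin B' (fun j n x => w j n (mm n x)) :=
    thin_of_static hsys'.mka hG.wid hY hth (hgood.mono fun _ _ _ _ h => h.2) hL2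
  have hadm : AdmR B' G (fun n x => lev n (mm n x))
      (sN (fun n x => lev n (mm n x)) (fun j n x => w j n (mm n x))) (2 * kD) 1 Rg :=
    admR_of_static hsys'.mka hG.wid hS (hgood.mono fun _ _ _ _ h => h.1) hL1 hRg hK
  have hbb : ∀ᶠ n in (U : Filter ℕ), ∀ x ∈ I' n, 1 / 2 ≤ ‖vb (rg cc fl n x)‖ := by
    filter_upwards [hb, h3] with n a1 a2 x hx using a1 x (a2 hx)
  have hwin := lwin_thin a hsys' hG hv hq hs hthin hadm (fun n x => hz n x)
    (fun n x => hray n x) hbb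
  exact ⟨B', I', fun n x => lev n (mm n x), A', fun n x => f n (mm n x),
    fun n x => b n (mm n x), fun n x => vm n (mm n x), fun j n x => w j n (mm n x),
    frL (fun n x => lev n (mm n x)) (fun n x => f n (mm n x)) (fun n x => b n (mm n x)) a,
    rg cc fl, sc', hwin, hthin, hax.sub h3,
    Bd369.flagN_of a hsys' hG (fun n x => hz n x), h5, h6,
    fun h0 => Bd710.flagZ_of a hsys' hG (fun n x => hz n x) h0 (fun ε hε => by
      have := hwin.dat.hd ε hε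
      rwa [neg_zero, zero_sub] at this), hnr.sub h3⟩

/-- **RESULT, thin case.** -/
theorem outT_thin (h : MkA B I G lev A (fun v => g * v) (fun v => s * v)
    (fun j v => θ j * (1 - v)) f b vm w) (hG : IsL G L r) (hv : ValL G q) (hq : ∀ j, 0 ≤ q j)
    (hs : s < 1) {C : ℝ} (hT : TiltL B I L lev f b w C) (hThin : Thin B w)
    (hS : AdmS G X Lo l0 l1 K) (hgood : GoodM I lev f b (GdW X Lo l0 l1 Kw))
    (hLo : ∀ᶠ n in (U : Filter ℕ), B.L n ≤ Lo n) (hRg : 0 ≤ Rg) (hK : Rg + Kw + 2 ≤ K) :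
    ∃ (B' : Base) (I' : ℕ → Finset (ℕ × ℝ)) (lev' : ℕ → ℚ → ℕ) (A' : ℕ → ℝ)
      (f' : ℕ → ℚ → ℕ → ℤ → ℕ) (b' : ℕ → ℚ → ℕ → TSet) (vm' : ℕ → ℚ → ℝ)
      (w' : Fin 2 → ℕ → ℚ → ℝ) (fr' : ℕ → ℚ → ℕ × ℝ → LInc) (fl' : ℕ → ℕ × ℝ → LInc)
      (sc' : Fin 12 → ℕ → ℝ), OutT G L r g s θ q Rg B' I' lev' A' f' b' vm' w' fr' fl' sc' := by
  obtain ⟨a, J, hJ, hsys, hfd, hinv, hax, hnr⟩ := thin_sysN h hG hT hThin
  have hJs : ∀ᶠ n in (U : Filter ℕ), J n ⊆ I n := hJ.1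
  have hKx : ∀ j, |θ j| + 3 ≤ |θ 0| + |θ 1| + 3 := fun j => by
    have h0 := abs_nonneg (θ 0)
    have h1 := abs_nonneg (θ 1)
    fin_cases j
    · show |θ 0| + 3 ≤ _
      linarith
    · show |θ 1| + 3 ≤ _
      linarith
  have hg2 : GoodM J lev f b (GdW (fun j n => w j n 1) B.L (fun n => lev n 0) (fun n => lev n 1)
      (|θ 0| + |θ 1| + 3)) := goodM_init hsys.mka hG.wid hKx
  have hgg := (hgood.sub hJs).and hg2
  have hflag := tsys_flag hsys hgg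
  have hnat := natL3 (C0 := βL (θ 0) (θ 1)) (fun k n a b => PL_d k n a b)
    (fun e he => monL_two e he) (fun h0 => by
      have := KF439.βL_one (θ 0) (θ 1)
      linarith) (fun j => le_rfl) hflag hinv (fun n v => prN_two lev w n v)
      (fun h0 => flOK_unit hsys.mka h0.le)
  exact outT_of_nat a hnat hG hv hq hs hS hLo hRg hK
    (fun j => h.wpos j 1 zero_le_one le_rfl) (sth_of_thin hThin)
    (Eventually.of_forall fun n => le_rfl) hfd.z hfd.ray hfd.vb hax hnr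

/-- **RESULT, round case.** -/
theorem outR_thick (h : MkA B I G lev A (fun v => g * v) (fun v => s * v)
    (fun j v => θ j * (1 - v)) f b vm w) (hG : IsL G L r) (hv : ValL G q) (hq : ∀ j, 0 ≤ q j)
    (hT : Thick B w) (hS : AdmS G X Lo l0 l1 K) (hgood : GoodM I lev f b (GdW X Lo l0 l1 Kw))
    (hLo : ∀ᶠ n in (U : Filter ℕ), B.L n ≤ Lo n) (hRg : 0 ≤ Rg) (hK : Rg + Kw + 2 ≤ K)
    (a : Fin 2) : OutR G L r g s θ q Rg a B I lev A f b vm w := by
  obtain ⟨hsys, hfd, hfl, hinv, -⟩ := thick_sys h hG hT a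
  have hsf := sN_fact h hG
  have hadm := admR_of_static h hG.wid hS hgood hLo hRg hK
  refine ⟨
    { sys := hsys
      hfr := hfd.kc
      isL := hG
      val := hv
      hz := hfd.z
      ray := hfd.ray
      dat := LData_of h hG hv hq le_rfl hadm (fun n x _ => hfd.z n x) (fun n x _ => hfd.ray n x)
        hfd.vb (fun ε _ => Eventually.of_forall fun n x _ => ?_)
        (fun ε _ => Eventually.of_forall fun n x _ => ?_)
      s10 := hsf.mono fun n hn => hn.1 }, hT, hinv⟩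
  · rw [(hfl n x).1, abs_zero, zero_mul]
    exact (dpow_pos B n _).le
  · rw [(hfl n x).2, abs_zero, zero_mul]
    exact (dpow_pos B n _).le

/-! ### `PreQ` of the outputs -/

/-- thin case: `Vis k` = not constant along the lines, `Td k` = tied. -/
theorem OutT.preQ (h : OutT G L r g s θ q Rg B I lev A f b vm w fr fl sc) (hRg : 0 < Rg)
    {κ0 : ℝ} (hκ0 : 0 ≤ κ0) {w0 sa sb δ R : ℝ} (sh : Shift (θ 0) (θ 1) w0 sa sb δ R) :
    PreQ B I G lev A g s (fun j v => θ j * (1 - v)) f b vm w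
      (Crest.Agent.R116.PL504.coN B lev w w0 sa sb fl) monL 2 R 0 w0
      (fun n => A n * vm n 0 * B.d n ^ (-(1 - s))) (PDL w0 sa sb Rg 0 κ0 R)
      (DT g s q θ w0 sa sb) (rL (θ 0) (θ 1) w0 sa sb)
      (oL (θ 0) (θ 1) w0 sa sb R fun k => ¬ InvT PL B I k fl (sc k)) (EL θ g s q)
      (fun k => ¬ InvT PL B I k fl (sc k) ∧ 0 < βL (θ 0) (θ 1) k ∧
        RotT PL B I lev k fl (sc k) (βL (θ 0) (θ 1) k) (fun u => βL (θ 0) (θ 1) k * u)) :=
  h.win.preQ hRg hκ0 (hk_thin h.win.sys.mka h.thin κ0) sh (fun k hk => not_not.1 hk)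
    fun k hk => ⟨hk.1, hk.2.1, _, le_rfl, hk.2.2⟩

/-- round case: all slots except the height are invisible. -/
theorem OutR.preQ {a : Fin 2} (h : OutR G L r g s θ q Rg a B I lev A f b vm w) (hRg : 0 < Rg)
    {w0 sa sb δ R : ℝ} (sh : Shift (θ 0) (θ 1) w0 sa sb δ R) :
    PreQ B I G lev A g s (fun j v => θ j * (1 - v)) f b vm w
      (Crest.Agent.R116.PL504.coN B lev w w0 sa sb (flF a L)) monL 2 R 0 w0
      (fun n => A n * vm n 0 * B.d n ^ (-(1 - s))) (PDL w0 sa sb Rg 0 0 R)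
      (DT g s q θ w0 sa sb) (rL (θ 0) (θ 1) w0 sa sb)
      (oL (θ 0) (θ 1) w0 sa sb R fun k => k = 0) (EL θ g s q) (fun _ => False) :=
  h.win.preQ hRg le_rfl h.win.hk0 sh (fun k hk => h.inv k hk) fun k hk => hk.elim

end win

end Crest.Agent.R116.Tw468
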