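import Mathlib
import Crest.Agent.R116.XaDef_794
import Crest.Agent.R138.MkZoom_779

-- ▼ part R116/Xa1_794
section

/-!
# R116 (K side), block X1-C, part 1 (helper794): finite lemmas

* `extract`  : greedy extraction of classes at one level;
* `extract1` : the same with one common shape (pigeonhole over the `Cl C`-box);
* `cfg_low`  : a marked part with two-sided fibres contains a configuration of a window, hence a
  test set with many lines at the bottom level.
-/

set_option autoImplicit false

open Finset Filter Topology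

namespace Crest.Agent.R116.Xa1794

open Crest.Agent.R138.Ex926 Crest.Agent.R138.Dp76 Crest.Agent.R138.Ps627
open Crest.Agent.R138.Mk163 (zc zl rho alive own)
open Crest.Agent.R138.MkRef627 (lc kc own_one alive_mono mem_alive card_class own_lower)
open Crest.Agent.R116.Xa794

variable {Ln ι S : Type} [Fintype ι]

theorem cap_pos (T : TS Ln ι S) (p : ι → ℝ) (i : ℕ) (a : ι → ℕ) : 0 < T.cap p i a := by
  unfold TS.cap
  exact mul_pos (T.volpos i a) (Real.rpow_pos_of_pos two_pos _)







end Crest.Agent.R116.Xa1794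
end

-- ▼ part R116/Xa2_794

/-!
# R116 (K side), block X1-C, part 2 (helper794): the configuration of a window

`cfg_low` : a marked part with two-sided fibres contains a configuration of the window `[m, m+M]`,
hence (upper bound `UB`) a test set with many lines at the bottom level.
-/

set_option autoImplicit false

open Finset Filter Topology

namespace Crest.Agent.R116.Xa2794

open Crest.Agent.R138.Ex926 Crest.Agent.R138.Dp76 Crest.Agent.R138.Ps627
open Crest.Agent.R138.Mk163 (zc zl rho alive own)
open Crest.Agent.R138.MkRef627 (lc kc own_one alive_mono mem_alive card_class own_lower)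
open Crest.Agent.R138.MkZoom779 (zc_nested)
open Crest.Agent.R116.Xa794 Crest.Agent.R116.Xa1794

variable {Ln ι S : Type} [Fintype ι]

theorem lc_nested {i j : ℕ} (h : i ≤ j) {x y : ℕ × ℝ} (hxy : lc j x = lc j y) :
    lc i x = lc i y := by
  obtain ⟨h1, h2⟩ := Prod.mk.inj hxy
  exact Prod.ext h1 (zc_nested h h2)

open Classical in
/-- class fibres versus class sizes, lower bound. -/
theorem class_fib_ge {A : Finset (ℕ × ℝ)} {i : ℕ} {f : ℕ → ℤ → ℕ} {lo : ℝ}
    (h : ∀ x ∈ A, lo ≤ ((A.filter fun y => lc i y = lc i x).card : ℝ)) (x : ℕ × ℝ) :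
    lo * (((alive A i (zc i x.2)).filter fun s => f s (zc i x.2) = f x.1 (zc i x.2)).card : ℝ) ≤
      ((A.filter fun y => kc i f y = kc i f x).card : ℝ) := by
  rw [card_class A i (zc i x.2) (fun s => f s (zc i x.2)) (f x.1 (zc i x.2))]
  have e : (A.filter fun y => kc i f y = kc i f x) = A.filter fun y => (lc i y).2 = zc i x.2 ∧
      f (lc i y).1 (zc i x.2) = f x.1 (zc i x.2) := by
    ext y
    rw [mem_filter, mem_filter]
    simp only [kc, lc, Prod.mk.injEq]
    constructor
    · rintro ⟨h1, h2, h3⟩; exact ⟨h1, h3, by rw [← h3]; rw [← h3] at h2; exact h2⟩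
    · rintro ⟨h1, h2, h3⟩; exact ⟨h1, by rw [h2]; exact h3, h2⟩
  rw [e]
  have := mul_card_filter_le (n₁ := lo) (lc i) A
    (fun o => o.2 = zc i x.2 ∧ f o.1 (zc i x.2) = f x.1 (zc i x.2))
    (fun y hy => by convert h y hy)
  convert this

open Classical in
/-- class fibres versus class sizes, upper bound. -/
theorem class_fib_le {A : Finset (ℕ × ℝ)} {i : ℕ} {f : ℕ → ℤ → ℕ} {hi : ℝ}
    (h : ∀ x ∈ A, ((A.filter fun y => lc i y = lc i x).card : ℝ) ≤ hi) (x : ℕ × ℝ) :
    ((A.filter fun y => kc i f y = kc i f x).card : ℝ) ≤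
    hi * (((alive A i (zc i x.2)).filter fun s => f s (zc i x.2) = f x.1 (zc i x.2)).card : ℝ) := by
  rw [card_class A i (zc i x.2) (fun s => f s (zc i x.2)) (f x.1 (zc i x.2))]
  have e : (A.filter fun y => kc i f y = kc i f x) = A.filter fun y => (lc i y).2 = zc i x.2 ∧
      f (lc i y).1 (zc i x.2) = f x.1 (zc i x.2) := by
    ext y
    rw [mem_filter, mem_filter]
    simp only [kc, lc, Prod.mk.injEq]
    constructor
    · rintro ⟨h1, h2, h3⟩; exact ⟨h1, h3, by rw [← h3]; rw [← h3] at h2; exact h2⟩
    · rintro ⟨h1, h2, h3⟩; exact ⟨h1, by rw [h2]; exact h3, h2⟩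
  rw [e]
  have := card_filter_le_mul (n₂ := hi) (lc i) A
    (fun o => o.2 = zc i x.2 ∧ f o.1 (zc i x.2) = f x.1 (zc i x.2))
    (fun y hy => by convert h y hy)
  convert this


end Crest.Agent.R116.Xa2794
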