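import Mathlib
import Crest.Agent.R116.Xa2_794

/-!
# R116 (K side), block X1-C, part 3 (helper794): sequences with own profile, LOW

* `Sq` : sequence of incidence sets with two-sided (line, cell) fibres, profile `Λ`;
* `low_seq` : every part `J` with `#J ≥ d^(η/20) #I` of a marked part has a test set at the lower
  level with more than `D0 cap_p` lines, as soon as `D0 ≤ d^η d^(b (v-u) + 2 (Λ v - Λ u)) D1`.
-/

set_option autoImplicit false

open Finset Filter Topology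

namespace Crest.Agent.R116.Xa3794

open Crest.Agent.R138.Ex926 Crest.Agent.R138.Dp76 Crest.Agent.R138.Ps627
open Crest.Agent.R138.Ps926 (dpow_small)
open Crest.Agent.R138.Mk163 (zc zl rho alive own)
open Crest.Agent.R138.MkRef627 (lc kc own_one alive_mono mem_alive card_class own_lower)
open Crest.Agent.R138.MkZoom779 (zc_nested)
open Crest.Agent.R116.Xa794 Crest.Agent.R116.Xa1794 Crest.Agent.R116.Xa2794

variable {Ln ι S : Type} [Fintype ι]

open Classical in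
/-- sequence of incidence sets with own profile `Λ`, one incidence per line and cell of level `1`. -/
structure Sq (B : Base) (I : ℕ → Finset (ℕ × ℝ)) (lev : ℕ → ℚ → ℕ) (Λ : ℝ → ℝ) : Prop where
  ne : ∀ᶠ n in (U : Filter ℕ), (I n).Nonempty
  card : ∀ ε : ℝ, 0 < ε → ∀ᶠ n in (U : Filter ℕ), Real.log ((I n).card : ℝ) ≤ B.d n ^ (-ε)
  lam0 : Λ 0 = 0
  lam : ∀ u v : ℝ, 0 ≤ u → u ≤ v → v ≤ 1 → 0 ≤ Λ v - Λ u ∧ Λ v - Λ u ≤ v - u
  lev_mono : ∀ u v : ℚ, 0 ≤ u → u ≤ v → v ≤ 1 → ∀ᶠ n in (U : Filter ℕ), lev n u ≤ lev n v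
  lev_lim : ∀ u v : ℚ, 0 ≤ u → u ≤ v → v ≤ 1 →
    Tendsto (fun n => ((lev n v : ℝ) - lev n u) * Real.log 2 / B.L n) U (𝓝 ((v : ℝ) - u))
  cell0 : ∀ᶠ n in (U : Filter ℕ), ∀ x ∈ I n, ∀ y ∈ I n, zc (lev n 0) x.2 = zc (lev n 0) y.2
  one : ∀ᶠ n in (U : Filter ℕ), ∀ x ∈ I n, ∀ y ∈ I n, x.1 = y.1 →
    zc (lev n 1) x.2 = zc (lev n 1) y.2 → x = y
  fib : ∀ v : ℚ, 0 ≤ v → v ≤ 1 → ∀ ε : ℝ, 0 < ε → ∀ᶠ n in (U : Filter ℕ), ∀ x ∈ I n,
      B.d n ^ (-(1 - (v : ℝ)) + (Λ 1 - Λ v) + ε) ≤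
        (((I n).filter fun y => lc (lev n v) y = lc (lev n v) x).card : ℝ) ∧
      (((I n).filter fun y => lc (lev n v) y = lc (lev n v) x).card : ℝ) ≤
        B.d n ^ (-(1 - (v : ℝ)) + (Λ 1 - Λ v) - ε)

theorem log_d (B : Base) (n : ℕ) : Real.log (B.d n) = - B.L n := by
  have : B.L n = - Real.log (B.d n) := rfl
  rw [this]; ring

/-- `2 ^ x` against powers of `d`. -/
theorem two_rpow_le {B : Base} {n : ℕ} {x e : ℝ} (h : x * Real.log 2 / B.L n ≤ e) :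
    (2 : ℝ) ^ x ≤ B.d n ^ (-e) := by
  have hL := B.L_pos n
  rw [div_le_iff₀ hL] at h
  rw [← Real.log_le_log_iff (Real.rpow_pos_of_pos two_pos _) (Real.rpow_pos_of_pos (B.pos n) _),
    Real.log_rpow two_pos, Real.log_rpow (B.pos n), log_d]
  linarith

theorem le_two_rpow {B : Base} {n : ℕ} {x e : ℝ} (h : e ≤ x * Real.log 2 / B.L n) :
    B.d n ^ (-e) ≤ (2 : ℝ) ^ x := by
  have hL := B.L_pos n
  rw [le_div_iff₀ hL] at h
  rw [← Real.log_le_log_iff (Real.rpow_pos_of_pos (B.pos n) _) (Real.rpow_pos_of_pos two_pos _),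
    Real.log_rpow two_pos, Real.log_rpow (B.pos n), log_d]
  linarith

section

variable {B : Base} {I : ℕ → Finset (ℕ × ℝ)} {lev : ℕ → ℚ → ℕ} {Λ : ℝ → ℝ}

theorem Sq.lev_ge (h : Sq B I lev Λ) {u v : ℚ} (hu : 0 ≤ u) (huv : u < v) (hv : v ≤ 1) (K : ℕ) :
    ∀ᶠ n in (U : Filter ℕ), lev n u + K ≤ lev n v := by
  have h1 := h.lev_lim u v hu huv.le hv
  have hpos : (0 : ℝ) < (v : ℝ) - u := by
    have : (u : ℝ) < v := by exact_mod_cast huv
    linarith
  have h2 : ∀ᶠ n in (U : Filter ℕ), ((v : ℝ) - u) / 2 <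
      ((lev n v : ℝ) - lev n u) * Real.log 2 / B.L n := h1.eventually_const_lt (by linarith)
  filter_upwards [h2, B.ev_L_ge ((K : ℝ) * 2 / ((v : ℝ) - u))] with n h3 h4
  have hL := B.L_pos n
  rw [lt_div_iff₀ hL] at h3
  rw [div_le_iff₀ hpos] at h4
  have hlog : Real.log 2 ≤ 1 := by
    have := Real.log_two_lt_d9
    linarith
  have hlog0 : 0 < Real.log 2 := Real.log_pos (by norm_num)
  have h5 : (K : ℝ) < ((lev n v : ℝ) - lev n u) * Real.log 2 := by nlinarith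
  have h6 : (0 : ℝ) ≤ (K : ℝ) := Nat.cast_nonneg _
  have h7 : (0 : ℝ) < (lev n v : ℝ) - lev n u := by
    by_contra hneg
    push Not at hneg
    have := mul_nonpos_of_nonpos_of_nonneg hneg hlog0.le
    linarith
  have h8 : (K : ℝ) < (lev n v : ℝ) - lev n u := by nlinarith
  have h9 : ((lev n u + K : ℕ) : ℝ) < (lev n v : ℝ) := by push_cast; linarith
  exact_mod_cast h9.le


end

end Crest.Agent.R116.Xa3794
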