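import Mathlib
import Crest.Agent.R116.Xc1_794
import Crest.Agent.R116.Xa3_794
import Crest.Agent.R138.NatTw_76
import Crest.Agent.R116.XcOut_794

-- ▼ part R116/Xc2_794
section

/-!
# R116 (K side), block X1-C, class `Xc`, part 2 (helper794): LOW for sequences
-/

set_option autoImplicit false

open Finset Filter Topology

namespace Crest.Agent.R116.Xc2794

open Crest.Agent.R138.Ex926 Crest.Agent.R138.Dp76 Crest.Agent.R138.Ps627
open Crest.Agent.R138.Ps926 (dpow_small)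
open Crest.Agent.R138.Mk163 (zc zl rho alive own)
open Crest.Agent.R138.MkRef627 (lc kc own_one alive_mono mem_alive card_class own_lower)
open Crest.Agent.R138.MkZoom779 (zc_nested)
open Crest.Agent.R116.Xa794 (TS)
open Crest.Agent.R116.Xa2794 (lc_nested class_fib_ge class_fib_le)
open Crest.Agent.R116.Xa3794
open Crest.Agent.R116.Xc794 Crest.Agent.R116.Xc1794

variable {Ln ι S : Type} [Fintype ι]

section

variable {B : Base} {I : ℕ → Finset (ℕ × ℝ)} {lev : ℕ → ℚ → ℕ} {Λ : ℝ → ℝ}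

set_option maxHeartbeats 1000000 in
open Classical in
/-- **LOW, sequence form.** -/
theorem low_seqC (h : Sq B I lev Λ) (𝒯 : Set (TS Ln ι S)) (Ψ : ℝ → (ι → ℝ) → ℝ) {bb : ℝ}
    (hUB : UB 𝒯 Ψ bb) {T : ℕ → TS Ln ι S} (hT : ∀ n, T n ∈ 𝒯) {L : ℕ → ℕ → Ln} {N : ℕ → ℕ}
    (hfin : ∀ (n i : ℕ) (J : ℤ) (s : (ι → ℕ) × S), (T n).adm i J s → ∀ j, s.1 j ≤ N n)
    (hNd : ∀ ε : ℝ, 0 < ε → ∀ᶠ n in (U : Filter ℕ), (N n : ℝ) ≤ B.d n ^ (-ε))
    {u v : ℚ} (hu : 0 ≤ u) (huv : u < v) (hv : v ≤ 1)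
    {A : ℕ → Finset (ℕ × ℝ)} (hA : ∀ n, A n ⊆ I n)
    (hcl : ∀ᶠ n in (U : Filter ℕ), ∀ x ∈ A n, ∀ y ∈ I n, lc (lev n v) y = lc (lev n v) x → y ∈ A n)
    {f : ℕ → ℕ → ℤ → ℕ} {b : ℕ → ℕ → (ι → ℕ) × S} {a : ℕ → ι → ℕ}
    (hmk : ∀ᶠ n in (U : Filter ℕ), ∀ x ∈ A n,
      (T n).mem (lev n v) (zc (lev n v) x.2) (b n (f n x.1 (zc (lev n v) x.2))) (L n x.1) ∧
        (T n).adm (lev n v) (zc (lev n v) x.2) (b n (f n x.1 (zc (lev n v) x.2))) ∧
        (b n (f n x.1 (zc (lev n v) x.2))).1 = a n)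
    {D1 : ℕ → ℝ} (hD1 : ∀ n, 0 < D1 n)
    (hsz : ∀ᶠ n in (U : Filter ℕ), ∀ x ∈ A n, D1 n * (T n).vol (lev n v) (a n) ≤
        (((alive (A n) (lev n v) (zc (lev n v) x.2)).filter fun s =>
          f n s (zc (lev n v) x.2) = f n x.1 (zc (lev n v) x.2)).card : ℝ))
    {D0 : ℕ → ℝ} {η : ℝ} (hη : 0 < η)
    (hD : ∀ᶠ n in (U : Filter ℕ),
      D0 n ≤ B.d n ^ (η + bb * ((v : ℝ) - u) + 2 * (Λ v - Λ u)) * D1 n) :
    ∀ᶠ n in (U : Filter ℕ), ∀ J ⊆ A n, B.d n ^ (η / 20) * ((I n).card : ℝ) ≤ (J.card : ℝ) →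
      ∃ (c : ℤ) (s : (ι → ℕ) × S), (T n).adm (lev n u) c s ∧
        D0 n * capP (T n) Ψ (lev n v) (a n) (lev n u) s.1 <
          (((alive J (lev n u) c).filter fun t => (T n).mem (lev n u) c s (L n t)).card : ℝ) := by
  have huvR : (u : ℝ) < v := by exact_mod_cast huv
  have hw0 : (0 : ℝ) < (v : ℝ) - u := by linarith
  have hw1 : (v : ℝ) - u ≤ 1 := by
    have h1 : (v : ℝ) ≤ 1 := by exact_mod_cast hv
    have h2 : (0 : ℝ) ≤ u := by exact_mod_cast hu
    linarith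
  set w : ℝ := (v : ℝ) - u with hw
  obtain ⟨δ0, hδ0, M0, hM0⟩ := hUB (η / 10) (by positivity)
  have hlim := h.lev_lim u v hu huv.le hv
  -- the exponent of `Kf`
  have hlim2 : Tendsto (fun n => ((bb + η / 10 + 2) * ((lev n v : ℝ) - lev n u)) * Real.log 2 /
      B.L n) U (𝓝 ((bb + η / 10 + 2) * w)) := by
    refine (hlim.const_mul (bb + η / 10 + 2)).congr fun n => ?_
    ring
  have hK : ∀ᶠ n in (U : Filter ℕ), ((bb + η / 10 + 2) * ((lev n v : ℝ) - lev n u)) * Real.log 2 /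
      B.L n < (bb + η / 10 + 2) * w + η / 10 := hlim2.eventually_lt_const (by linarith [hη])
  have hlim3 : Tendsto (fun n => (δ0 * ((lev n v : ℝ) - lev n u)) * Real.log 2 /
      B.L n) U (𝓝 (δ0 * w)) := by
    refine (hlim.const_mul δ0).congr fun n => ?_
    ring
  have hK2 : ∀ᶠ n in (U : Filter ℕ), δ0 * w / 2 < (δ0 * ((lev n v : ℝ) - lev n u)) * Real.log 2 /
      B.L n := hlim3.eventually_const_lt (by nlinarith [mul_pos hδ0 hw0])
  have hcard := h.card (δ0 * w / 2) (by positivity)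
  have hNev := hNd (δ0 * w / 2) (by positivity)
  have hfu := h.fib u hu (huv.le.trans hv) (η / 100) (by positivity)
  have hfv := h.fib v (hu.trans huv.le) hv (η / 100) (by positivity)
  have hsm : ∀ᶠ n in (U : Filter ℕ), B.d n ^ (η / 20) < 1 / 4 :=
    dpow_small B (c := η / 20) (by positivity) (by norm_num)
  filter_upwards [hcl, hmk, hsz, hD, hK, hK2, hcard, hfu, hfv, hsm,
    h.lev_ge hu huv hv M0, h.lev_ge hu huv hv 1, h.ne, hNev] with n hcl hmk hsz hD hK hK2 hcard hfu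
    hfv hsm hM0' hM1 hne hNev J hJ hJc
  obtain ⟨M, hM⟩ : ∃ M, lev n v = lev n u + M := ⟨lev n v - lev n u, by omega⟩
  have hMR : (lev n v : ℝ) - lev n u = M := by rw [hM]; push_cast; ring
  have hM0'' : M0 ≤ M := by omega
  have hM1' : 1 ≤ M := by omega
  rw [hMR] at hK hK2
  rw [hM] at hcl hmk hsz hfv ⊢
  have hIc : (0 : ℝ) < ((I n).card : ℝ) := by exact_mod_cast card_pos.2 hne
  refine cfg_lowC (T n) Ψ (N := N n) (Kf := (2 : ℝ) ^ ((bb + η / 10) * M) * 4 ^ M)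
    (Kl := (2 : ℝ) ^ (δ0 * M)) (hfin n) ?_ hM1' (hA n) hJ hcl (L n) (f n) (b n) (a n) hmk (hD1 n) hsz
    (lu := B.d n ^ (-(1 - (u : ℝ)) + (Λ 1 - Λ u) + η / 100))
    (lv := B.d n ^ (-(1 - (v : ℝ)) + (Λ 1 - Λ v) + η / 100))
    (hv := B.d n ^ (-(1 - (v : ℝ)) + (Λ 1 - Λ v) - η / 100))
    (δ := B.d n ^ (η / 10)) (dpow_pos B n _) (dpow_pos B n _) (dpow_pos B n _) (dpow_pos B n _)
    (fun x hx => (hfu x hx).1) hfv ?_ ?_ ?_
  · intro F hF hFM hFN hFc
    have := hM0 (T n) (hT n) F hF (by rw [hFM]; exact hM0'') (by rw [hFM]; exact hFc)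
      (by rw [hFM, hFN]; exact hNev.trans (le_two_rpow hK2.le))
    rw [hFM] at this
    exact this
  · -- density
    have e : B.d n ^ (η / 10) = B.d n ^ (η / 20) * B.d n ^ (η / 20) := by
      rw [← dpow_add]; congr 1; ring
    have hp := dpow_pos B n (η / 20)
    refine lt_of_lt_of_le ?_ hJc
    rw [e]
    have : 3 * (B.d n ^ (η / 20) * B.d n ^ (η / 20)) < B.d n ^ (η / 20) := by nlinarith
    exact mul_lt_mul_of_pos_right this hIc
  · -- logarithmic size
    refine hcard.trans ?_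
    exact le_two_rpow hK2.le
  · -- the numerical inequality
    have e1 : (2 : ℝ) ^ ((bb + η / 10) * M) * 4 ^ M = (2 : ℝ) ^ ((bb + η / 10 + 2) * M) := by
      have : (4 : ℝ) ^ M = (2 : ℝ) ^ (2 * (M : ℝ)) := by
        rw [Real.rpow_mul (by norm_num)]
        norm_num
      rw [this, ← Real.rpow_add two_pos]
      congr 1; ring
    rw [e1]
    have hKf : (2 : ℝ) ^ ((bb + η / 10 + 2) * M) ≤ B.d n ^ (-((bb + η / 10 + 2) * w + η / 10)) :=
      two_rpow_le hK.le
    have hD1n := hD1 n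
    have h1 : (2 : ℝ) ^ ((bb + η / 10 + 2) * M) * D0 n ≤
        (2 : ℝ) ^ ((bb + η / 10 + 2) * M) *
          (B.d n ^ (η + bb * w + 2 * (Λ v - Λ u)) * D1 n) :=
      mul_le_mul_of_nonneg_left hD (Real.rpow_pos_of_pos two_pos _).le
    have h2 : (2 : ℝ) ^ ((bb + η / 10 + 2) * M) *
          (B.d n ^ (η + bb * w + 2 * (Λ v - Λ u)) * D1 n) ≤
        B.d n ^ (-((bb + η / 10 + 2) * w + η / 10)) *
          (B.d n ^ (η + bb * w + 2 * (Λ v - Λ u)) * D1 n) :=
      mul_le_mul_of_nonneg_right hKf (mul_pos (dpow_pos B n _) hD1n).le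
    refine lt_of_le_of_lt (h1.trans h2) ?_
    have e2 : B.d n ^ (-((bb + η / 10 + 2) * w + η / 10)) *
          (B.d n ^ (η + bb * w + 2 * (Λ v - Λ u)) * D1 n) =
        B.d n ^ (η - η / 10 - η / 10 * w - 2 * w + 2 * (Λ v - Λ u)) * D1 n := by
      rw [← mul_assoc, ← dpow_add]
      congr 2; ring
    have e3 : B.d n ^ (η / 10) * B.d n ^ (-(1 - (v : ℝ)) + (Λ 1 - Λ v) + η / 100) /
          B.d n ^ (-(1 - (v : ℝ)) + (Λ 1 - Λ v) - η / 100) * D1 n *
        (B.d n ^ (η / 10) * B.d n ^ (-(1 - (u : ℝ)) + (Λ 1 - Λ u) + η / 100) /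
          B.d n ^ (-(1 - (v : ℝ)) + (Λ 1 - Λ v) - η / 100)) ^ 2 =
        B.d n ^ (3 * (η / 10) + 6 * (η / 100) - 2 * w + 2 * (Λ v - Λ u)) * D1 n := by
      rw [← dpow_add, ← Real.rpow_sub (B.pos n), ← dpow_add, ← Real.rpow_sub (B.pos n),
        ← Real.rpow_natCast, ← Real.rpow_mul (B.pos n).le, mul_right_comm, ← dpow_add]
      congr 2
      rw [hw]; push_cast; ring
    rw [e2, e3]
    refine mul_lt_mul_of_pos_right ?_ hD1n
    refine Real.rpow_lt_rpow_of_exponent_gt (B.pos n) (B.lt n) ?_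
    nlinarith

end

end Crest.Agent.R116.Xc2794
end

-- ▼ part R116/Xc3_794
section

/-!
# R116 (K side), block X1-C, class `Xc`, part 3 (helper794): marks and refinement

* `Mrk` : marks at one level, near-maximal;
* `refine` : a dense part (inside closed parts which carry the marks) contains a dense part which has
  the own profile and all marks.
* `Dmx` : D-max at all levels; `Dmx.of_up`.
-/

set_option autoImplicit false

open Finset Filter Topology

namespace Crest.Agent.R116.Xc3794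

open Crest.Agent.R138.Ex926 Crest.Agent.R138.Dp76 Crest.Agent.R138.Ps627
open Crest.Agent.R138.Ps926 (dpow_small small_of_not_dense Dense.of_subset)
open Crest.Agent.R138.Mk163 (zc zl rho alive own Negl)
open Crest.Agent.R138.MkRef627 (lc kc own_one alive_mono mem_alive card_class own_lower exists_num)
open Crest.Agent.R138.MkZoom779 (zc_nested)
open Crest.Agent.R136.MkA627 (ampA Geo MkA)
open Crest.Agent.R116.Xa794 (TS)
open Crest.Agent.R116.Xa2794 (lc_nested class_fib_ge class_fib_le)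
open Crest.Agent.R116.Xa3794
open Crest.Agent.R116.Xc794 Crest.Agent.R116.Xc1794 Crest.Agent.R116.Xc2794

variable {Ln ι S : Type} [Fintype ι]

open Classical in
/-- marks at the level `v`: one class per line and cell, common widths, near-maximal. -/
structure Mrk (B : Base) (I : ℕ → Finset (ℕ × ℝ)) (T : ℕ → TS Ln ι S) (L : ℕ → ℕ → Ln)
    (lev : ℕ → ℚ → ℕ) (A : ℕ → ℝ) (c : ℝ → ℝ) (V : ℕ → ℕ → (ι → ℕ) → ℝ) (v : ℚ) (f : ℕ → ℕ → ℤ → ℕ) (b : ℕ → ℕ → (ι → ℕ) × S)
    (a : ℕ → ι → ℕ) : Prop where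
  mark : ∀ᶠ n in (U : Filter ℕ), ∀ x ∈ I n,
    (T n).mem (lev n v) (zc (lev n v) x.2) (b n (f n x.1 (zc (lev n v) x.2))) (L n x.1) ∧
      (T n).adm (lev n v) (zc (lev n v) x.2) (b n (f n x.1 (zc (lev n v) x.2))) ∧
      (b n (f n x.1 (zc (lev n v) x.2))).1 = a n
  near : ∀ ε : ℝ, 0 < ε → ∀ᶠ n in (U : Filter ℕ), ∀ x ∈ I n,
    ampA B A c n v * V n (lev n v) (a n) ≤ B.d n ^ (-ε) *
      (((alive (I n) (lev n v) (zc (lev n v) x.2)).filter fun s =>
        f n s (zc (lev n v) x.2) = f n x.1 (zc (lev n v) x.2)).card : ℝ)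

/-- D-max at all levels -/
def Dmx (B : Base) (I : ℕ → Finset (ℕ × ℝ)) (T : ℕ → TS Ln ι S) (L : ℕ → ℕ → Ln)
    (lev : ℕ → ℚ → ℕ) (A : ℕ → ℝ) (c : ℝ → ℝ) (V : ℕ → ℕ → (ι → ℕ) → ℝ) : Prop :=
  open Classical in
  ∀ v : ℚ, 0 ≤ v → v ≤ 1 → ∀ ε : ℝ, 0 < ε → ∀ᶠ n in (U : Filter ℕ), ∀ (J : ℤ) (s : (ι → ℕ) × S),
    (T n).adm (lev n v) J s →
      (((alive (I n) (lev n v) J).filter fun t => (T n).mem (lev n v) J s (L n t)).card : ℝ) ≤
        B.d n ^ (-ε) * ampA B A c n v * V n (lev n v) s.1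

section

variable {B : Base} {I : ℕ → Finset (ℕ × ℝ)} {lev : ℕ → ℚ → ℕ} {Λ : ℝ → ℝ} {T : ℕ → TS Ln ι S}
  {L : ℕ → ℕ → Ln} {A : ℕ → ℝ} {c : ℝ → ℝ} {V : ℕ → ℕ → (ι → ℕ) → ℝ}

theorem Dmx.mono {J : ℕ → Finset (ℕ × ℝ)} (h : Dmx B I T L lev A c V)
    (hJ : ∀ n, J n ⊆ I n) : Dmx B J T L lev A c V := by
  classical
  intro v hv0 hv1 ε hε
  filter_upwards [h v hv0 hv1 ε hε] with n hn J0 s hs
  refine le_trans ?_ (hn J0 s hs)
  exact_mod_cast card_le_card (filter_subset_filter _ (alive_mono (hJ n) _ _))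

/-- the label maps of the refinement -/
noncomputable def hmap (lev : ℕ → ℚ → ℕ) (w : ℕ → ℚ) (Af : ℕ → ℕ → Finset (ℕ × ℝ))
    (f : ℕ → ℕ → ℕ → ℤ → ℕ) (j n : ℕ) (x : ℕ × ℝ) : Option (ℕ × ℤ) :=
  open Classical in
  if j % 2 = 0 then some (lc (lev n (Denumerable.ofNat ℚ (j / 2))) x)
  else if x ∈ Af (j / 2) n then some (kc (lev n (w (j / 2))) (f (j / 2) n) x) else none

theorem hmap_even (lev : ℕ → ℚ → ℕ) (w : ℕ → ℚ) (Af : ℕ → ℕ → Finset (ℕ × ℝ))
    (f : ℕ → ℕ → ℕ → ℤ → ℕ) (j n : ℕ) :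
    hmap lev w Af f (2 * j) n = fun x => some (lc (lev n (Denumerable.ofNat ℚ j)) x) := by
  funext x
  unfold hmap
  have h1 : (2 * j) / 2 = j := by omega
  have h2 : (2 * j) % 2 = 0 := by omega
  rw [if_pos h2, h1]

open Classical in
theorem hmap_odd (lev : ℕ → ℚ → ℕ) (w : ℕ → ℚ) (Af : ℕ → ℕ → Finset (ℕ × ℝ))
    (f : ℕ → ℕ → ℕ → ℤ → ℕ) (j n : ℕ) :
    hmap lev w Af f (2 * j + 1) n =
      fun x => if x ∈ Af j n then some (kc (lev n (w j)) (f j n) x) else none := by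
  funext x
  unfold hmap
  have h1 : (2 * j + 1) / 2 = j := by omega
  have h2 : ¬ (2 * j + 1) % 2 = 0 := by omega
  rw [if_neg h2, h1]

open Classical in
/-- **Refinement.** -/
theorem refine (h : Sq B I lev Λ) {J : ℕ → Finset (ℕ × ℝ)} (hJ : Dense B J I) (w : ℕ → ℚ)
    (hw : ∀ k, 0 ≤ w k ∧ w k ≤ 1) (Af : ℕ → ℕ → Finset (ℕ × ℝ)) (hAf : ∀ k n, Af k n ⊆ I n)
    (hJA : ∀ k, ∀ᶠ n in (U : Filter ℕ), J n ⊆ Af k n)
    (hcl : ∀ k, ∀ᶠ n in (U : Filter ℕ), ∀ x ∈ Af k n, ∀ y ∈ I n,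
      lc (lev n (w k)) y = lc (lev n (w k)) x → y ∈ Af k n)
    (f : ℕ → ℕ → ℕ → ℤ → ℕ) (b : ℕ → ℕ → ℕ → (ι → ℕ) × S) (a : ℕ → ℕ → ι → ℕ)
    (hM : ∀ k, Mrk B (Af k) T L lev A c V (w k) (f k) (b k) (a k)) :
    ∃ J' : ℕ → Finset (ℕ × ℝ), (∀ n, J' n ⊆ J n) ∧ (∀ n, J' n ⊆ I n) ∧ Dense B J' J ∧
      Dense B J' I ∧ Sq B J' lev Λ ∧
      ∀ k, Mrk B J' T L lev A c V (w k) (f k) (b k) (a k) := by
  obtain ⟨J', hsub, hhalf, hfib⟩ := prune_seq (η := fun _ _ => Option (ℕ × ℤ)) hJ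
    (hmap lev w Af f)
  have hJ'J : Dense B J' J := dense_of_half (by
    filter_upwards [hhalf] with n hn using ⟨(hsub n).1, hn⟩)
  have hJ'I : Dense B J' I := hJ'J.trans hJ
  have hne : ∀ᶠ n in (U : Filter ℕ), (J' n).Nonempty := hJ'I.nonempty h.ne
  have fl : ∀ v : ℚ, ∀ ε : ℝ, 0 < ε → ∀ᶠ n in (U : Filter ℕ), ∀ x ∈ J' n,
      B.d n ^ ε * (((I n).filter fun y => lc (lev n v) y = lc (lev n v) x).card : ℝ) ≤
        (((J' n).filter fun y => lc (lev n v) y = lc (lev n v) x).card : ℝ) := by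
    intro v ε hε
    obtain ⟨j, rfl⟩ := exists_num v
    filter_upwards [hfib (2 * j) ε hε] with n hn x hx
    have := hn x hx
    simp only [hmap_even, Option.some.injEq] at this
    exact this
  have fk : ∀ k : ℕ, ∀ ε : ℝ, 0 < ε → ∀ᶠ n in (U : Filter ℕ), ∀ x ∈ J' n,
      B.d n ^ ε * (((Af k n).filter fun y => kc (lev n (w k)) (f k n) y =
        kc (lev n (w k)) (f k n) x).card : ℝ) ≤
        (((J' n).filter fun y => kc (lev n (w k)) (f k n) y =
          kc (lev n (w k)) (f k n) x).card : ℝ) := by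
    intro k ε hε
    filter_upwards [hfib (2 * k + 1) ε hε, hJA k] with n hn hJA x hx
    have h1 := hn x hx
    have hxA := hJA ((hsub n).1 hx)
    simp only [hmap_odd, if_pos hxA] at h1
    have e1 : ((I n).filter fun y => (if y ∈ Af k n then some (kc (lev n (w k)) (f k n) y)
        else none) = some (kc (lev n (w k)) (f k n) x)) =
        (Af k n).filter fun y => kc (lev n (w k)) (f k n) y = kc (lev n (w k)) (f k n) x := by
      ext y
      rw [mem_filter, mem_filter]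
      constructor
      · rintro ⟨hy, h3⟩
        by_cases hyA : y ∈ Af k n
        · rw [if_pos hyA] at h3
          exact ⟨hyA, Option.some.inj h3⟩
        · rw [if_neg hyA] at h3
          exact absurd h3 (by simp)
      · rintro ⟨hy, h3⟩
        refine ⟨hAf k n hy, ?_⟩
        rw [if_pos hy, h3]
    have e2 : ((J' n).filter fun y => (if y ∈ Af k n then some (kc (lev n (w k)) (f k n) y)
        else none) = some (kc (lev n (w k)) (f k n) x)) =
        (J' n).filter fun y => kc (lev n (w k)) (f k n) y = kc (lev n (w k)) (f k n) x := by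
      ext y
      rw [mem_filter, mem_filter]
      constructor
      · rintro ⟨hy, h3⟩
        rw [if_pos (hJA ((hsub n).1 hy))] at h3
        exact ⟨hy, Option.some.inj h3⟩
      · rintro ⟨hy, h3⟩
        refine ⟨hy, ?_⟩
        rw [if_pos (hJA ((hsub n).1 hy)), h3]
    rw [e1, e2] at h1
    exact h1
  refine ⟨J', fun n => (hsub n).1, fun n => (hsub n).2, hJ'J, hJ'I, ?_, ?_⟩
  · refine
      { ne := hne
        card := ?_
        lam0 := h.lam0
        lam := h.lam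
        lev_mono := h.lev_mono
        lev_lim := h.lev_lim
        cell0 := by
          filter_upwards [h.cell0] with n hn x hx y hy using
            hn x ((hsub n).2 hx) y ((hsub n).2 hy)
        one := by
          filter_upwards [h.one] with n hn x hx y hy using
            hn x ((hsub n).2 hx) y ((hsub n).2 hy)
        fib := ?_ }
    · intro ε hε
      filter_upwards [h.card ε hε, hne] with n hn hne
      refine le_trans (Real.log_le_log (by exact_mod_cast card_pos.2 hne)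
        (by exact_mod_cast card_le_card (hsub n).2)) hn
    · intro v hv0 hv1 ε hε
      filter_upwards [h.fib v hv0 hv1 (ε / 2) (by positivity), fl v (ε / 2) (by positivity)]
        with n h1 h2 x hx
      have hxI := (hsub n).2 hx
      refine ⟨?_, ?_⟩
      · refine le_trans ?_ (h2 x hx)
        have h3 := mul_le_mul_of_nonneg_left (h1 x hxI).1 (dpow_pos B n (ε / 2)).le
        rw [← dpow_add] at h3
        refine le_trans (le_of_eq ?_) h3
        congr 1; ring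
      · refine le_trans ?_ ((h1 x hxI).2.trans (dpow_le B n (by linarith)))
        exact_mod_cast card_le_card (filter_subset_filter _ (hsub n).2)
  · intro k
    refine
      { mark := ?_
        near := ?_ }
    · filter_upwards [(hM k).mark, hJA k] with n hn hJA x hx using hn x (hJA ((hsub n).1 hx))
    · intro ε hε
      have hε4 : 0 < ε / 4 := by linarith
      filter_upwards [(hM k).near (ε / 4) hε4, hJA k, fk k (ε / 4) hε4,
        h.fib (w k) (hw k).1 (hw k).2 (ε / 4) hε4, hcl k] with n h1 h2 h3 h4 h5 x hx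
      have hxA := h2 ((hsub n).1 hx)
      have h6 := h1 x hxA
      set m₁ : ℝ := B.d n ^ (-(1 - (w k : ℝ)) + (Λ 1 - Λ (w k)) + ε / 4) with hm₁
      set m₂ : ℝ := B.d n ^ (-(1 - (w k : ℝ)) + (Λ 1 - Λ (w k)) - ε / 4) with hm₂
      have hm1 : 0 < m₁ := dpow_pos B n _
      have hm2 : 0 < m₂ := dpow_pos B n _
      have lowA : ∀ y ∈ Af k n, m₁ ≤ (((Af k n).filter fun z => lc (lev n (w k)) z =
          lc (lev n (w k)) y).card : ℝ) := by
        intro y hy
        refine (h4 y (hAf k n hy)).1.trans ?_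
        have : ((I n).filter fun z => lc (lev n (w k)) z = lc (lev n (w k)) y) ⊆
            (Af k n).filter fun z => lc (lev n (w k)) z = lc (lev n (w k)) y := by
          intro z hz
          rw [mem_filter] at hz ⊢
          exact ⟨h5 y hy z hz.1 hz.2, hz.2⟩
        exact_mod_cast card_le_card this
      have upJ : ∀ y ∈ J' n, (((J' n).filter fun z => lc (lev n (w k)) z =
          lc (lev n (w k)) y).card : ℝ) ≤ m₂ := by
        intro y hy
        refine le_trans ?_ (h4 y ((hsub n).2 hy)).2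
        exact_mod_cast card_le_card (filter_subset_filter _ (hsub n).2)
      have p1 := class_fib_ge (f := f k n) lowA x
      have p2 := class_fib_le (f := f k n) upJ x
      have p3 := h3 x hx
      set NA : ℝ := (((alive (Af k n) (lev n (w k)) (zc (lev n (w k)) x.2)).filter fun s =>
        f k n s (zc (lev n (w k)) x.2) = f k n x.1 (zc (lev n (w k)) x.2)).card : ℝ) with hNA
      set NJ : ℝ := (((alive (J' n) (lev n (w k)) (zc (lev n (w k)) x.2)).filter fun s =>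
        f k n s (zc (lev n (w k)) x.2) = f k n x.1 (zc (lev n (w k)) x.2)).card : ℝ) with hNJ
      have p4 : B.d n ^ (ε / 4) * (m₁ * NA) ≤ m₂ * NJ :=
        (mul_le_mul_of_nonneg_left p1 (dpow_pos B n _).le).trans (p3.trans p2)
      have p5 : NA ≤ B.d n ^ (-(3 * (ε / 4))) * NJ := by
        have hpos : 0 < B.d n ^ (ε / 4) * m₁ := mul_pos (dpow_pos B n _) hm1
        have h7 : m₂ = B.d n ^ (-(3 * (ε / 4))) * (B.d n ^ (ε / 4) * m₁) := by
          rw [hm₁, hm₂, ← dpow_add, ← dpow_add]; congr 1; ring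
        rw [h7] at p4
        have h8 : (B.d n ^ (ε / 4) * m₁) * NA ≤ (B.d n ^ (ε / 4) * m₁) *
            (B.d n ^ (-(3 * (ε / 4))) * NJ) := by linarith
        exact le_of_mul_le_mul_left h8 hpos
      refine h6.trans ?_
      have h9 : B.d n ^ (-ε) = B.d n ^ (-(ε / 4)) * B.d n ^ (-(3 * (ε / 4))) := by
        rw [← dpow_add]; congr 1; ring
      rw [h9, mul_assoc]
      exact mul_le_mul_of_nonneg_left p5 (dpow_pos B n _).le

end

end Crest.Agent.R116.Xc3794
end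

-- ▼ part R116/Xc4_794
section

/-!
# R116 (K side), block X1-C, class `Xc`, part 4 (helper794): (UP), D-max at all levels
-/

set_option autoImplicit false
set_option linter.unusedSectionVars false

open Finset Filter Topology

namespace Crest.Agent.R116.Xc4794

open Crest.Agent.R138.Ex926 Crest.Agent.R138.Dp76 Crest.Agent.R138.Ps627
open Crest.Agent.R138.Ps926 (dpow_small small_of_not_dense Dense.of_subset)
open Crest.Agent.R138.NatTw76 (exists_avoid)
open Crest.Agent.R138.Mk163 (zc zl rho alive own Negl)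
open Crest.Agent.R138.MkRef627 (lc kc own_one alive_mono mem_alive card_class own_lower exists_num)
open Crest.Agent.R138.MkZoom779 (zc_nested)
open Crest.Agent.R136.MkA627 (ampA Geo MkA)
open Crest.Agent.R116.Xa794 (TS)
open Crest.Agent.R116.Xa2794 (lc_nested class_fib_ge class_fib_le)
open Crest.Agent.R116.Xa3794
open Crest.Agent.R116.Xc794 Crest.Agent.R116.Xc1794 Crest.Agent.R116.Xc2794
open Crest.Agent.R116.Xc3794

variable {Ln ι S : Type} [Fintype ι]

/-- superadditivity of the reward -/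
def SupA (Ψ : ℝ → (ι → ℝ) → ℝ) : Prop :=
  ∀ l l' x x', 0 ≤ l → 0 ≤ l' → Ψ l x + Ψ l' x' ≤ Ψ (l + l') (fun j => x j + x' j)

theorem capP_sup (T : TS Ln ι S) {Ψ : ℝ → (ι → ℝ) → ℝ} (hΨ : SupA Ψ) {i m m' : ℕ} (h1 : i ≤ m)
    (h2 : m ≤ m') (s a a' : ι → ℕ) :
    capP T Ψ m' a' i s ≤ (2 : ℝ) ^ (-(Ψ ((m' : ℝ) - m) (rel m a m' a'))) * capP T Ψ m a i s := by
  unfold capP
  have e1 : (m' : ℝ) - i = ((m : ℝ) - i) + ((m' : ℝ) - m) := by ring
  have e2 : rel i s m' a' = fun j => rel i s m a j + rel m a m' a' j := by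
    funext j
    simp only [rel]; ring
  have h3 : (0 : ℝ) ≤ (m : ℝ) - i := by
    have : (i : ℝ) ≤ m := by exact_mod_cast h1
    linarith
  have h4 : (0 : ℝ) ≤ (m' : ℝ) - m := by
    have : (m : ℝ) ≤ m' := by exact_mod_cast h2
    linarith
  have h5 := hΨ _ _ (rel i s m a) (rel m a m' a') h3 h4
  rw [← e1, ← e2] at h5
  have h6 : (2 : ℝ) ^ (-(Ψ ((m' : ℝ) - i) (rel i s m' a'))) ≤
      (2 : ℝ) ^ (-(Ψ ((m' : ℝ) - m) (rel m a m' a'))) *
        (2 : ℝ) ^ (-(Ψ ((m : ℝ) - i) (rel i s m a))) := by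
    rw [← Real.rpow_add two_pos]
    exact Real.rpow_le_rpow_of_exponent_le (by norm_num) (by linarith)
  calc T.vol i s * (2 : ℝ) ^ (-(Ψ ((m' : ℝ) - i) (rel i s m' a'))) ≤
      T.vol i s * ((2 : ℝ) ^ (-(Ψ ((m' : ℝ) - m) (rel m a m' a'))) *
        (2 : ℝ) ^ (-(Ψ ((m : ℝ) - i) (rel i s m a)))) :=
        mul_le_mul_of_nonneg_left h6 (T.volpos i s).le
    _ = _ := by ring

/-- capacity of the sequence -/
noncomputable def VV (T : ℕ → TS Ln ι S) (Ψ : ℝ → (ι → ℝ) → ℝ) (lev : ℕ → ℚ → ℕ)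
    (atop : ℕ → ι → ℕ) (n i : ℕ) (s : ι → ℕ) : ℝ :=
  capP (T n) Ψ (lev n 1) (atop n) i s

section

variable {B : Base} {I : ℕ → Finset (ℕ × ℝ)} {lev : ℕ → ℚ → ℕ} {Λ : ℝ → ℝ} {T : ℕ → TS Ln ι S}
  {L : ℕ → ℕ → Ln} {A : ℕ → ℝ} {Ψ : ℝ → (ι → ℝ) → ℝ} {atop : ℕ → ι → ℕ} {N : ℕ → ℕ}

theorem VV_pos (n i : ℕ) (s : ι → ℕ) : 0 < VV T Ψ lev atop n i s := capP_pos _ _ _ _ _ _

theorem ampA_pos (hA : ∀ n, 0 < A n) (c : ℝ → ℝ) (n : ℕ) (v : ℚ) : 0 < ampA B A c n v :=
  mul_pos (hA n) (dpow_pos B n _)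

theorem dense_of_small {J : ℕ → Finset (ℕ × ℝ)} (h1 : ∀ᶠ n in (U : Filter ℕ), J n ⊆ I n)
    (h2 : ∀ η : ℝ, 0 < η → ∀ᶠ n in (U : Filter ℕ),
      ((I n).card : ℝ) ≤ B.d n ^ (-η) * ((J n).card : ℝ)) : Dense B J I := by
  refine ⟨h1, fun η hη => ?_⟩
  filter_upwards [h2 η hη] with n hn
  have h3 := mul_le_mul_of_nonneg_left hn (dpow_pos B n η).le
  rw [← mul_assoc, ← dpow_add, add_neg_cancel, Real.rpow_zero, one_mul] at h3
  exact h3

/-- the number of shapes is sub-polynomial -/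
theorem boxN_small (hNd : ∀ ε : ℝ, 0 < ε → ∀ᶠ n in (U : Filter ℕ), (N n : ℝ) ≤ B.d n ^ (-ε))
    (k : ℕ) {η : ℝ} (hη : 0 < η) :
    ∀ᶠ n in (U : Filter ℕ), ((N n : ℝ) + 1) ^ k ≤ B.d n ^ (-η) := by
  set e : ℝ := η / (2 * ((k : ℝ) + 1)) with he
  have he0 : 0 < e := by positivity
  filter_upwards [hNd e he0, dpow_small B he0 (ε := 1 / 2) (by norm_num)] with n h1 h2
  have h3 : (2 : ℝ) ≤ B.d n ^ (-e) := by
    rw [Real.rpow_neg (B.pos n).le, ← one_div, le_div_iff₀ (dpow_pos B n e)]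
    linarith
  have h4 : (N n : ℝ) + 1 ≤ B.d n ^ (-(2 * e)) := by
    have e1 : B.d n ^ (-(2 * e)) = B.d n ^ (-e) * B.d n ^ (-e) := by
      rw [← dpow_add]; congr 1; ring
    rw [e1]
    nlinarith
  refine (pow_le_pow_left₀ (by positivity) h4 k).trans ?_
  rw [← Real.rpow_natCast, ← Real.rpow_mul (B.pos n).le]
  refine dpow_le B n ?_
  have h5 : 2 * e * (k : ℝ) ≤ η := by
    have h6 : 2 * e * ((k : ℝ) + 1) = η := by
      rw [he]; field_simp
    nlinarith
  linarith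

open Classical in
theorem up_one [Nonempty S] (h : Sq B I lev Λ) (𝒯 : Set (TS Ln ι S)) (hΨ : SupA Ψ) {g : ℝ}
    (hUB : UB 𝒯 Ψ g) (hT : ∀ n, T n ∈ 𝒯)
    (hfin : ∀ (n i : ℕ) (J : ℤ) (s : (ι → ℕ) × S), (T n).adm i J s → ∀ j, s.1 j ≤ N n)
    (hNd : ∀ ε : ℝ, 0 < ε → ∀ᶠ n in (U : Filter ℕ), (N n : ℝ) ≤ B.d n ^ (-ε))
    (hA : ∀ n, 0 < A n)
    (h0 : ∀ᶠ n in (U : Filter ℕ), ∀ (J0 : ℤ) (s : (ι → ℕ) × S), (T n).adm (lev n 0) J0 s →
      (((alive (I n) (lev n 0) J0).filter fun t => (T n).mem (lev n 0) J0 s (L n t)).card : ℝ) ≤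
        A n * VV T Ψ lev atop n (lev n 0) s.1)
    {v : ℚ} (hv0 : 0 ≤ v) (hv1 : v ≤ 1) {ε : ℝ} (hε : 0 < ε) :
    ∃ E : ℕ → Finset (ℕ × ℝ), Negl B I (fun n x => x ∈ E n) ∧
      ∀ᶠ n in (U : Filter ℕ), ∀ Q ⊆ I n, (∀ x ∈ Q, x ∉ E n) → ∀ (J : ℤ) (s : (ι → ℕ) × S),
        (T n).adm (lev n v) J s →
          (((alive Q (lev n v) J).filter fun t => (T n).mem (lev n v) J s (L n t)).card : ℝ) ≤
            B.d n ^ (-ε) * ampA B A (fun v => g * v + 2 * Λ v) n v *
              VV T Ψ lev atop n (lev n v) s.1 := by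
  rcases hv0.eq_or_lt with rfl | hvpos
  · refine ⟨fun _ => ∅, ⟨1, one_pos, Eventually.of_forall fun n => ?_⟩, ?_⟩
    · simp only [notMem_empty, filter_false, card_empty, Nat.cast_zero]
      exact mul_nonneg (dpow_pos B n _).le (Nat.cast_nonneg _)
    · filter_upwards [h0] with n hn Q hQ _ J s hs
      refine le_trans (by exact_mod_cast card_le_card (filter_subset_filter _
        (alive_mono hQ _ _))) ((hn J s hs).trans ?_)
      refine mul_le_mul_of_nonneg_right ?_ (VV_pos _ _ _).le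
      unfold ampA
      have e1 : -(g * (((0 : ℚ) : ℝ)) + 2 * Λ ((0 : ℚ) : ℝ)) = 0 := by
        rw [Rat.cast_zero, h.lam0]; ring
      simp only [e1, Real.rpow_zero, mul_one]
      have h1 : 1 ≤ B.d n ^ (-ε) := by
        have := dpow_le B n (a := -ε) (b := 0) (by linarith)
        rwa [Real.rpow_zero] at this
      nlinarith [hA n]
  set cc : ℝ → ℝ := fun v => g * v + 2 * Λ v with hcc
  set t : ℕ → ℝ := fun n => B.d n ^ (-ε) * ampA B A cc n v with ht
  have htp : ∀ n, 0 < t n := fun n => mul_pos (dpow_pos B n _) (ampA_pos hA cc n v)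
  have hex := fun n => extractC (T n) (VV T Ψ lev atop n (lev n v)) (VV_pos n (lev n v)) (N n)
    (lev n v) (hfin n (lev n v)) (L n) (I n) (htp n)
  choose A0 hA0 A1 hA1 f b a h1 h2 h3 h4 h5 using hex
  refine ⟨A0, ?_, ?_⟩
  swap
  · exact Eventually.of_forall fun n Q hQ hQA J s hs => h5 n Q hQ hQA J s hs
  -- `A0` is negligible
  have hA0ev : ∀ᶠ n in (U : Filter ℕ), A0 n ⊆ I n := Eventually.of_forall hA0
  by_cases hd : Dense B A0 I
  swap
  · obtain ⟨γ, hγ, h6⟩ := small_of_not_dense hA0ev hd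
    refine ⟨γ, hγ, ?_⟩
    filter_upwards [h6] with n hn
    refine le_trans ?_ hn.le
    refine Nat.cast_le.2 (card_le_card ?_)
    intro x hx
    simp only [mem_filter] at hx
    exact hx.2
  exfalso
  have hd1 : Dense B A1 A0 := by
    refine dense_of_small (Eventually.of_forall hA1) fun η hη => ?_
    filter_upwards [boxN_small hNd (Fintype.card ι) hη] with n hn
    exact (h1 n).trans (mul_le_mul_of_nonneg_right hn (Nat.cast_nonneg _))
  have hd2 : Dense B A1 I := hd1.trans hd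
  have hne := hd2.nonempty h.ne
  set Φ : ℕ → ℝ := fun n =>
    (2 : ℝ) ^ (-(Ψ ((lev n 1 : ℝ) - lev n v) (rel (lev n v) (a n) (lev n 1) (atop n)))) with hΦ
  have hΦp : ∀ n, 0 < Φ n := fun n => Real.rpow_pos_of_pos two_pos _
  have hlow := low_seqC h 𝒯 Ψ hUB hT hfin hNd (u := 0) (v := v) le_rfl hvpos hv1
    (A := A1) (fun n => (hA1 n).trans (hA0 n)) (Eventually.of_forall h2) (f := f) (b := b) (a := a)
    (Eventually.of_forall h3) (D1 := fun n => t n * Φ n)
    (fun n => mul_pos (htp n) (hΦp n))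
    (Eventually.of_forall fun n x hx => by
      refine le_trans (le_of_eq ?_) (h4 n x hx)
      simp only [VV, capP, hΦ]
      ring) (η := ε) hε
    (D0 := fun n => A n * Φ n) (by
      refine Eventually.of_forall fun n => ?_
      have e1 : B.d n ^ (ε + g * ((v : ℝ) - ((0 : ℚ) : ℝ)) + 2 * (Λ v - Λ ((0 : ℚ) : ℝ))) *
          (t n * Φ n) = A n * Φ n := by
        simp only [ht, hcc, ampA]
        rw [Rat.cast_zero, h.lam0]
        have e2 : B.d n ^ (ε + g * ((v : ℝ) - 0) + 2 * (Λ v - 0)) *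
            (B.d n ^ (-ε) * (A n * B.d n ^ (-(g * (v : ℝ) + 2 * Λ v))) * Φ n) =
            A n * Φ n * (B.d n ^ (ε + g * ((v : ℝ) - 0) + 2 * (Λ v - 0)) * B.d n ^ (-ε) *
              B.d n ^ (-(g * (v : ℝ) + 2 * Λ v))) := by ring
        rw [e2, ← dpow_add, ← dpow_add]
        have e3 : ε + g * ((v : ℝ) - 0) + 2 * (Λ v - 0) + -ε + -(g * (v : ℝ) + 2 * Λ v) = 0 := by
          ring
        rw [e3, Real.rpow_zero, mul_one]
      simp only [e1]
      exact le_rfl)
  obtain ⟨n, hn1, hn2, hn3, hn4, hn5⟩ := (hlow.and ((hd2.2 (ε / 20) (by positivity)).and (h0.and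
    ((h.lev_mono 0 v le_rfl hv0 hv1).and (h.lev_mono v 1 hv0 hv1 le_rfl))))).exists
  obtain ⟨c, s, hs1, hs4⟩ := hn1 (A1 n) (Subset.refl _) hn2
  have h6 := hn3 c s hs1
  have h7 : (((alive (A1 n) (lev n 0) c).filter fun t => (T n).mem (lev n 0) c s (L n t)).card : ℝ) ≤
      (((alive (I n) (lev n 0) c).filter fun t => (T n).mem (lev n 0) c s (L n t)).card : ℝ) := by
    exact_mod_cast card_le_card (filter_subset_filter _
      (alive_mono ((hA1 n).trans (hA0 n)) _ _))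
  have h8 := capP_sup (T n) hΨ hn4 hn5 s.1 (a n) (atop n)
  have h9 := mul_le_mul_of_nonneg_left h8 (hA n).le
  have h10 : A n * VV T Ψ lev atop n (lev n 0) s.1 = A n * capP (T n) Ψ (lev n 1) (atop n)
    (lev n 0) s.1 := rfl
  have h11 : A n * Φ n * capP (T n) Ψ (lev n v) (a n) (lev n 0) s.1 =
      A n * ((2 : ℝ) ^ (-(Ψ ((lev n 1 : ℝ) - lev n v) (rel (lev n v) (a n) (lev n 1) (atop n)))) *
        capP (T n) Ψ (lev n v) (a n) (lev n 0) s.1) := by
    simp only [hΦ]; ring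
  linarith

open Classical in
/-- **(UP)**: a dense part has D-max at all levels. -/
theorem exists_dmx [Nonempty S] (h : Sq B I lev Λ) (𝒯 : Set (TS Ln ι S)) (hΨ : SupA Ψ) {g : ℝ}
    (hUB : UB 𝒯 Ψ g) (hT : ∀ n, T n ∈ 𝒯)
    (hfin : ∀ (n i : ℕ) (J : ℤ) (s : (ι → ℕ) × S), (T n).adm i J s → ∀ j, s.1 j ≤ N n)
    (hNd : ∀ ε : ℝ, 0 < ε → ∀ᶠ n in (U : Filter ℕ), (N n : ℝ) ≤ B.d n ^ (-ε))
    (hA : ∀ n, 0 < A n)
    (h0 : ∀ᶠ n in (U : Filter ℕ), ∀ (J0 : ℤ) (s : (ι → ℕ) × S), (T n).adm (lev n 0) J0 s →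
      (((alive (I n) (lev n 0) J0).filter fun t => (T n).mem (lev n 0) J0 s (L n t)).card : ℝ) ≤
        A n * VV T Ψ lev atop n (lev n 0) s.1) :
    ∃ J : ℕ → Finset (ℕ × ℝ), (∀ n, J n ⊆ I n) ∧ Dense B J I ∧
      Dmx B J T L lev A (fun v => g * v + 2 * Λ v) (VV T Ψ lev atop) := by
  have hex : ∀ j : ℕ, ∃ E : ℕ → Finset (ℕ × ℝ), Negl B I (fun n x => x ∈ E n) ∧
      (0 ≤ (Denumerable.ofNat (ℚ × ℕ) j).1 → (Denumerable.ofNat (ℚ × ℕ) j).1 ≤ 1 →
      ∀ᶠ n in (U : Filter ℕ), ∀ Q ⊆ I n, (∀ x ∈ Q, x ∉ E n) → ∀ (J : ℤ) (s : (ι → ℕ) × S),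
        (T n).adm (lev n (Denumerable.ofNat (ℚ × ℕ) j).1) J s →
          (((alive Q (lev n (Denumerable.ofNat (ℚ × ℕ) j).1) J).filter fun t =>
            (T n).mem (lev n (Denumerable.ofNat (ℚ × ℕ) j).1) J s (L n t)).card : ℝ) ≤
            B.d n ^ (-(1 / (((Denumerable.ofNat (ℚ × ℕ) j).2 : ℝ) + 1))) *
              ampA B A (fun v => g * v + 2 * Λ v) n (Denumerable.ofNat (ℚ × ℕ) j).1 *
              VV T Ψ lev atop n (lev n (Denumerable.ofNat (ℚ × ℕ) j).1) s.1) := by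
    intro j
    by_cases h1 : 0 ≤ (Denumerable.ofNat (ℚ × ℕ) j).1 ∧ (Denumerable.ofNat (ℚ × ℕ) j).1 ≤ 1
    · obtain ⟨E, hE1, hE2⟩ := up_one h 𝒯 hΨ hUB hT hfin hNd hA h0 h1.1 h1.2
        (ε := 1 / (((Denumerable.ofNat (ℚ × ℕ) j).2 : ℝ) + 1)) (by positivity)
      exact ⟨E, hE1, fun _ _ => hE2⟩
    · refine ⟨fun _ => ∅, ⟨1, one_pos, Eventually.of_forall fun n => ?_⟩, fun h2 h3 =>
        absurd ⟨h2, h3⟩ h1⟩
      simp only [notMem_empty, filter_false, card_empty, Nat.cast_zero]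
      exact mul_nonneg (dpow_pos B n _).le (Nat.cast_nonneg _)
  choose E hE1 hE2 using hex
  obtain ⟨J, hJI, hJd, hJ⟩ := exists_avoid (B := B) (I := I) (fun j n x => x ∈ E j n) hE1
  refine ⟨J, hJI, hJd, ?_⟩
  intro v hv0 hv1 ε hε
  obtain ⟨k, hk⟩ := exists_nat_one_div_lt hε
  obtain ⟨j, hj⟩ : ∃ j, Denumerable.ofNat (ℚ × ℕ) j = (v, k) :=
    ⟨@Encodable.encode (ℚ × ℕ) Denumerable.toEncodable (v, k), Denumerable.ofNat_encode _⟩
  have h1 := hE2 j (by rw [hj]; exact hv0) (by rw [hj]; exact hv1)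
  rw [hj] at h1
  filter_upwards [h1, hJ j] with n h2 h3 J0 s hs
  refine (h2 (J n) (hJI n) (fun x hx => h3 x hx) J0 s hs).trans ?_
  refine mul_le_mul_of_nonneg_right ?_ (VV_pos _ _ _).le
  refine mul_le_mul_of_nonneg_right (dpow_le B n ?_) (ampA_pos hA _ n v).le
  have h4 : (((v, k) : ℚ × ℕ).2 : ℝ) = (k : ℝ) := rfl
  linarith

end

end Crest.Agent.R116.Xc4794
end

-- ▼ part R116/Xc5_794
section

/-!
# R116 (K side), block X1-C, class `Xc`, part 5 (helper794): own profile of a dense part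

No polynomial bound on the number of incidences is used, only `one` (one incidence per line and cell
of level `1`).
-/

set_option autoImplicit false
set_option linter.unusedSectionVars false

open Finset Filter Topology

namespace Crest.Agent.R116.Xc5794

open Crest.Agent.R138.Ex926 Crest.Agent.R138.Dp76 Crest.Agent.R138.Ps627
open Crest.Agent.R138.Ps926
open Crest.Agent.R138.NatTw76 (exists_avoid)
open Crest.Agent.R138.Mk163 (zc zl rho alive own Negl)
open Crest.Agent.R138.MkRef627 (lc kc own_one alive_mono mem_alive card_class own_lower exists_num)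
open Crest.Agent.R138.MkZoom779 (zc_nested zc_eq)
open Crest.Agent.R116.Xa2794 (lc_nested)
open Crest.Agent.R116.Xa3794

open Classical in
/-- a line meets at most `2^(j-i)` cells of level `j` inside a cell of level `i`. -/
theorem own_card_le {I : Finset (ℕ × ℝ)} {i j : ℕ} (hij : i ≤ j) (x : ℕ × ℝ) :
    (own I i j x).card ≤ 2 ^ (j - i) := by
  set k : ℕ := 2 ^ (j - i) with hk
  have hk0 : (0 : ℤ) < (k : ℤ) := by rw [hk]; positivity
  have hsub : own I i j x ⊆ Finset.Ico (zc i x.2 * k) (zc i x.2 * k + k) := by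
    intro c hc
    unfold own at hc
    obtain ⟨y, hy, rfl⟩ := mem_image.1 hc
    have hy2 := (mem_filter.1 hy).2.2
    rw [zc_eq hij y.2] at hy2
    rw [mem_Ico, ← hy2]
    have h1 := Int.ediv_mul_le (zc j y.2) hk0.ne'
    have h2 := Int.lt_ediv_add_one_mul_self (zc j y.2) hk0
    constructor
    · exact h1
    · linarith
  refine (card_le_card hsub).trans ?_
  rw [Int.card_Ico]
  have : (zc i x.2 * (k : ℤ) + k - zc i x.2 * k) = (k : ℤ) := by ring
  rw [this, Int.toNat_natCast]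

theorem cmax_att {κ : Type*} [DecidableEq κ] (g : ℕ × ℝ → κ) {J : Finset (ℕ × ℝ)}
    (hJ : J.Nonempty) : ∃ x ∈ J, cmax g J = (J.filter fun y => g y = g x).card := by
  classical
  obtain ⟨x, hx, hx2⟩ := exists_mem_eq_sup J hJ
    (fun x => (J.filter fun y => g y = g x).card)
  refine ⟨x, hx, ?_⟩
  unfold cmax
  convert hx2

/-- extension of a monotone 1-Lipschitz function on the rationals of `[0,1]`. -/
theorem exists_ext (F : ℚ → ℝ) (h : ∀ u v : ℚ, 0 ≤ u → u ≤ v → v ≤ 1 →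
    0 ≤ F v - F u ∧ F v - F u ≤ (v : ℝ) - u) :
    ∃ Λ : ℝ → ℝ, (∀ v : ℚ, 0 ≤ v → v ≤ 1 → Λ v = F v - F 0) ∧
      ∀ u v : ℝ, 0 ≤ u → u ≤ v → v ≤ 1 → 0 ≤ Λ v - Λ u ∧ Λ v - Λ u ≤ v - u := by
  set Sx : ℝ → Set ℝ := fun x => {y | ∃ r : ℚ, 0 ≤ r ∧ r ≤ 1 ∧ (r : ℝ) ≤ x ∧ y = F r - F 0} with hS
  have hbdd : ∀ x, BddAbove (Sx x) := by
    intro x
    refine ⟨1, ?_⟩
    rintro y ⟨r, hr0, hr1, -, rfl⟩
    have := (h 0 r le_rfl hr0 hr1).2
    have h2 : (r : ℝ) ≤ 1 := by exact_mod_cast hr1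
    simp only [Rat.cast_zero, sub_zero] at this
    linarith
  have hne : ∀ x : ℝ, 0 ≤ x → (Sx x).Nonempty := fun x hx =>
    ⟨F 0 - F 0, 0, le_rfl, by norm_num, by simpa using hx, rfl⟩
  refine ⟨fun x => sSup (Sx x), ?_, ?_⟩
  · intro v hv0 hv1
    apply le_antisymm
    · refine csSup_le (hne _ (by exact_mod_cast hv0)) ?_
      rintro y ⟨r, hr0, hr1, hrv, rfl⟩
      have hrv' : r ≤ v := by exact_mod_cast hrv
      linarith [(h r v hr0 hrv' hv1).1]
    · exact le_csSup (hbdd _) ⟨v, hv0, hv1, le_rfl, rfl⟩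
  · intro u v hu huv hv
    have hv0 := hu.trans huv
    refine ⟨?_, ?_⟩
    · rw [sub_nonneg]
      refine csSup_le_csSup (hbdd _) (hne u hu) ?_
      rintro y ⟨r, hr0, hr1, hru, rfl⟩
      exact ⟨r, hr0, hr1, hru.trans huv, rfl⟩
    · rw [sub_le_iff_le_add]
      refine csSup_le (hne v hv0) ?_
      rintro y ⟨r, hr0, hr1, hrv, rfl⟩
      rcases le_or_gt (r : ℝ) u with hru | hru
      · have : F r - F 0 ≤ sSup (Sx u) := le_csSup (hbdd _) ⟨r, hr0, hr1, hru, rfl⟩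
        linarith
      · refine le_of_forall_pos_le_add fun ε hε => ?_
        obtain ⟨s, hs0, hsu, hs⟩ : ∃ s : ℚ, 0 ≤ s ∧ (s : ℝ) ≤ u ∧ u - ε ≤ s := by
          rcases hu.eq_or_lt with hu0 | hu0
          · exact ⟨0, le_rfl, by simpa using hu, by rw [← hu0]; simp; linarith⟩
          · obtain ⟨s, hs1, hs2⟩ := exists_rat_btwn (show max 0 (u - ε) < u from
              max_lt hu0 (by linarith))
            have h3 : (0 : ℝ) < s := (le_max_left _ _).trans_lt hs1
            exact ⟨s, by exact_mod_cast h3.le, hs2.le, ((le_max_right _ _).trans_lt hs1).le⟩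
        have hsr : s ≤ r := by
          have : (s : ℝ) ≤ r := hsu.trans hru.le
          exact_mod_cast this
        have h4 := (h s r hs0 hsr hr1).2
        have h5 : F s - F 0 ≤ sSup (Sx u) := le_csSup (hbdd _) ⟨s, hs0, hsr.trans hr1, hsu, rfl⟩
        linarith

open Classical in
/-- **own profile.** -/
theorem exists_profile {B : Base} {I1 : ℕ → Finset (ℕ × ℝ)} {lev : ℕ → ℚ → ℕ}
    (hne : ∀ᶠ n in (U : Filter ℕ), (I1 n).Nonempty)
    (hcard : ∀ ε : ℝ, 0 < ε → ∀ᶠ n in (U : Filter ℕ), Real.log ((I1 n).card : ℝ) ≤ B.d n ^ (-ε))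
    (hlm : ∀ u v : ℚ, 0 ≤ u → u ≤ v → v ≤ 1 → ∀ᶠ n in (U : Filter ℕ), lev n u ≤ lev n v)
    (hll : ∀ u v : ℚ, 0 ≤ u → u ≤ v → v ≤ 1 →
      Tendsto (fun n => ((lev n v : ℝ) - lev n u) * Real.log 2 / B.L n) U (𝓝 ((v : ℝ) - u)))
    (hcell : ∀ᶠ n in (U : Filter ℕ), ∀ x ∈ I1 n, ∀ y ∈ I1 n,
      zc (lev n 0) x.2 = zc (lev n 0) y.2)
    (hone : ∀ᶠ n in (U : Filter ℕ), ∀ x ∈ I1 n, ∀ y ∈ I1 n, x.1 = y.1 →
      zc (lev n 1) x.2 = zc (lev n 1) y.2 → x = y)
    (e : ℕ → ℕ → ℕ × ℝ → ℕ × ℤ) :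
    ∃ (I2 : ℕ → Finset (ℕ × ℝ)) (Λ : ℝ → ℝ), (∀ n, I2 n ⊆ I1 n) ∧ Dense B I2 I1 ∧
      Sq B I2 lev Λ ∧ ∀ j : ℕ, ∀ ε : ℝ, 0 < ε → ∀ᶠ n in (U : Filter ℕ), ∀ x ∈ I2 n,
        B.d n ^ ε * (((I1 n).filter fun y => e j n y = e j n x).card : ℝ) ≤
          (((I2 n).filter fun y => e j n y = e j n x).card : ℝ) := by
  -- the levels
  set w : ℕ → ℚ := fun j => max 0 (min (Denumerable.ofNat ℚ j) 1) with hw
  have hw01 : ∀ j, 0 ≤ w j ∧ w j ≤ 1 := fun j =>
    ⟨le_max_left _ _, max_le (by norm_num) (min_le_right _ _)⟩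
  have hwex : ∀ v : ℚ, 0 ≤ v → v ≤ 1 → ∃ j, w j = v := by
    intro v h0 h1
    obtain ⟨j, hj⟩ := exists_num v
    exact ⟨j, by rw [hw]; simp only [hj]; rw [min_eq_left h1, max_eq_right h0]⟩
  -- fibres are polynomially bounded
  have hfb : ∀ v : ℚ, 0 ≤ v → v ≤ 1 → ∀ᶠ n in (U : Filter ℕ), ∀ x ∈ I1 n,
      (((I1 n).filter fun y => lc (lev n v) y = lc (lev n v) x).card : ℝ) ≤ B.d n ^ (-(2 : ℝ)) := by
    intro v h0 h1
    have h2 := (hll 0 1 le_rfl zero_le_one le_rfl).eventually_lt_const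
      (show ((1 : ℚ) : ℝ) - ((0 : ℚ) : ℝ) < 2 by norm_num)
    filter_upwards [hlm 0 v le_rfl h0 h1, hlm 0 1 le_rfl zero_le_one le_rfl, hone, h2]
      with n h3 h4 h5 h6 x hx
    have h7 : ((I1 n).filter fun y => lc (lev n v) y = lc (lev n v) x) ⊆
        (I1 n).filter fun y => lc (lev n 0) y = lc (lev n 0) x := by
      intro y hy
      rw [mem_filter] at hy ⊢
      exact ⟨hy.1, lc_nested h3 hy.2⟩
    have h8 := card_le_card h7
    rw [← own_one (i := lev n 0) h5 x] at h8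
    have h9 := h8.trans (own_card_le h4 x)
    have h10 : (((I1 n).filter fun y => lc (lev n v) y = lc (lev n v) x).card : ℝ) ≤
        (2 : ℝ) ^ (((lev n 1 : ℝ) - lev n 0)) := by
      have h11 : (((lev n 1 : ℝ) - lev n 0)) = ((lev n 1 - lev n 0 : ℕ) : ℝ) := by
        rw [Nat.cast_sub h4]
      rw [h11, Real.rpow_natCast]
      exact_mod_cast h9
    exact h10.trans (two_rpow_le h6.le)
  -- the functionals
  set Φ : ℕ → ∀ n : ℕ, Finset (ℕ × ℝ) → ℝ := fun j n J => (cmax (lc (lev n (w j))) J : ℝ) with hΦ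
  have hΦM : ∀ j, MonoF B I1 (Φ j) := by
    intro j
    refine ⟨Eventually.of_forall fun n J J' _ h _ => by
      simp only [hΦ]; exact_mod_cast cmax_mono _ h, 2, ?_⟩
    filter_upwards [hfb (w j) (hw01 j).1 (hw01 j).2] with n hn J hJ hJI
    refine ⟨?_, ?_⟩
    · have h1 : (1 : ℝ) ≤ cmax (lc (lev n (w j))) J := by exact_mod_cast one_le_cmax _ hJ
      exact (dpow_le_one B n (by norm_num)).trans h1
    · obtain ⟨x, hx, h2⟩ := cmax_att (lc (lev n (w j))) hJ
      simp only [hΦ]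
      rw [h2]
      refine le_trans ?_ (hn x (hJI hx))
      exact_mod_cast card_le_card (filter_subset_filter _ hJI)
  obtain ⟨I0, hI0, hst⟩ := exists_stableF hne Φ hΦM
  -- make `I0 n ⊆ I1 n` for every `n`
  set I2 : ℕ → Finset (ℕ × ℝ) := fun n => I0 n ∩ I1 n with hI2
  have hI20 : ∀ᶠ n in (U : Filter ℕ), I2 n = I0 n := by
    filter_upwards [hI0.1] with n hn
    exact inter_eq_left.2 hn
  have hI2d : Dense B I2 I1 := by
    refine ⟨Eventually.of_forall fun n => inter_subset_right, fun η hη => ?_⟩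
    filter_upwards [hI0.2 η hη, hI20] with n h1 h2
    rw [h2]; exact h1
  have hI2d0 : Dense B I2 I0 := by
    refine dense_of_half ?_
    filter_upwards [hI20] with n hn
    rw [hn]
    refine ⟨Subset.refl _, ?_⟩
    have : (0 : ℝ) ≤ ((I0 n).card : ℝ) := Nat.cast_nonneg _
    linarith
  have hst2 : ∀ j, StableF B (Φ j) I2 := fun j => (hst j).dense hI2d0
  have hI2I1 : ∀ n, I2 n ⊆ I1 n := fun n => inter_subset_right
  have hI2ne := hI2d.nonempty hne
  have hrefl : ∀ᶠ n in (U : Filter ℕ), I2 n ⊆ I2 n := Eventually.of_forall fun n => Subset.refl _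
  have hΦM2 : ∀ j, MonoF B I2 (Φ j) := fun j => (hΦM j).restrict (Eventually.of_forall hI2I1)
  have hPB : ∀ j, B.PB (fun n => Φ j n (I2 n)) := fun j => (hΦM2 j).pb hrefl hI2ne
  -- small fibres are negligible
  have hneg : ∀ i : ℕ, Negl B I2 (fun n x =>
      (((I2 n).filter fun y => lc (lev n (w (Nat.unpair i).1)) y =
        lc (lev n (w (Nat.unpair i).1)) x).card : ℝ) <
      B.d n ^ (1 / (((Nat.unpair i).2 : ℝ) + 1)) * Φ (Nat.unpair i).1 n (I2 n)) := by
    intro i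
    set j := (Nat.unpair i).1 with hj
    set c : ℝ := 1 / (((Nat.unpair i).2 : ℝ) + 1) with hc
    have hc0 : 0 < c := by rw [hc]; positivity
    set J : ℕ → Finset (ℕ × ℝ) := fun n => (I2 n).filter fun x =>
      (((I2 n).filter fun y => lc (lev n (w j)) y = lc (lev n (w j)) x).card : ℝ) <
        B.d n ^ c * Φ j n (I2 n) with hJ
    have hnd : ¬ Dense B J I2 := by
      refine (hst2 j).not_dense_of_le (hΦM2 j) hI2ne (X := fun n => B.d n ^ c * Φ j n (I2 n))
        ((Base.PB.dpow c).mul (hPB j)) ?_ ?_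
      · rw [Base.ex_mul (Base.PB.dpow c) (hPB j), Base.ex_dpow]
        linarith
      · refine Eventually.of_forall fun n hn => ?_
        obtain ⟨x, hx, h2⟩ := cmax_att (lc (lev n (w j))) hn
        have h3 : Φ j n (J n) =
          (((J n).filter fun y => lc (lev n (w j)) y = lc (lev n (w j)) x).card : ℝ) := by
          simp only [hΦ]; rw [h2]
        rw [h3]
        have h4 := (mem_filter.1 hx).2
        refine le_trans ?_ h4.le
        exact_mod_cast card_le_card (filter_subset_filter _ (filter_subset _ _))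
    obtain ⟨γ, hγ, h5⟩ := small_of_not_dense (Eventually.of_forall fun n => filter_subset _ _) hnd
    refine ⟨γ, hγ, ?_⟩
    filter_upwards [h5] with n hn
    exact hn.le
  obtain ⟨J3, hJ3I, hJ3d, hJ3⟩ := exists_avoid (B := B) (I := I2) _ hneg
  -- pruning relative to `I1`
  obtain ⟨J4, hsub, hhalf, hfib⟩ := prune_seq (η := fun _ _ => ℕ × ℤ) (hJ3d.trans hI2d)
    (fun j n x => if j % 2 = 0 then lc (lev n (w (j / 2))) x else e (j / 2) n x)
  have hJ4J3 : Dense B J4 J3 := dense_of_half (by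
    filter_upwards [hhalf] with n hn using ⟨(hsub n).1, hn⟩)
  have hJ4I1 : Dense B J4 I1 := hJ4J3.trans (hJ3d.trans hI2d)
  have hJ4ne := hJ4I1.nonempty hne
  have fl : ∀ j : ℕ, ∀ ε : ℝ, 0 < ε → ∀ᶠ n in (U : Filter ℕ), ∀ x ∈ J4 n,
      B.d n ^ ε * (((I1 n).filter fun y => lc (lev n (w j)) y = lc (lev n (w j)) x).card : ℝ) ≤
        (((J4 n).filter fun y => lc (lev n (w j)) y = lc (lev n (w j)) x).card : ℝ) := by
    intro j ε hε
    filter_upwards [hfib (2 * j) ε hε] with n hn x hx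
    have h1 := hn x hx
    have h2 : (2 * j) / 2 = j := by omega
    have h3 : (2 * j) % 2 = 0 := by omega
    simp only [h3, h2, if_true] at h1
    exact h1
  have fe : ∀ j : ℕ, ∀ ε : ℝ, 0 < ε → ∀ᶠ n in (U : Filter ℕ), ∀ x ∈ J4 n,
      B.d n ^ ε * (((I1 n).filter fun y => e j n y = e j n x).card : ℝ) ≤
        (((J4 n).filter fun y => e j n y = e j n x).card : ℝ) := by
    intro j ε hε
    filter_upwards [hfib (2 * j + 1) ε hε] with n hn x hx
    have h1 := hn x hx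
    have h2 : (2 * j + 1) / 2 = j := by omega
    have h3 : ¬ (2 * j + 1) % 2 = 0 := by omega
    simp only [h3, h2, if_false] at h1
    exact h1
  -- the exponents
  set κ : ℚ → ℝ := fun v => B.ex (fun n => (cmax (lc (lev n v)) (I2 n) : ℝ)) with hκ
  have hPBv : ∀ v : ℚ, 0 ≤ v → v ≤ 1 → B.PB (fun n => (cmax (lc (lev n v)) (I2 n) : ℝ)) := by
    intro v h0 h1
    obtain ⟨j, rfl⟩ := hwex v h0 h1
    exact hPB j
  have hfib2 : ∀ v : ℚ, 0 ≤ v → v ≤ 1 → ∀ ε : ℝ, 0 < ε → ∀ᶠ n in (U : Filter ℕ), ∀ x ∈ J4 n,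
      B.d n ^ (-κ v + ε) ≤ (((J4 n).filter fun y => lc (lev n v) y = lc (lev n v) x).card : ℝ) ∧
      (((J4 n).filter fun y => lc (lev n v) y = lc (lev n v) x).card : ℝ) ≤
        B.d n ^ (-κ v - ε) := by
    intro v h0 h1 ε hε
    obtain ⟨j, rfl⟩ := hwex v h0 h1
    obtain ⟨k, hk⟩ := exists_nat_one_div_lt (show (0 : ℝ) < ε / 3 by positivity)
    have ha := Base.ex_lt_iff_dpow (hPB j) (a := κ (w j) + ε) (show κ (w j) < κ (w j) + ε by
      linarith)
    have hb := Base.lt_ex_dpow (hPB j) (a := κ (w j) - ε / 3)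
      (show κ (w j) - ε / 3 < κ (w j) by linarith)
    have hav := hJ3 (Nat.pair j k)
    simp only [Nat.unpair_pair] at hav
    filter_upwards [ha, hb, hav, fl j (ε / 3) (by positivity)] with n h2 h3 h4 h5 x hx
    have hxJ3 := (hsub n).1 hx
    have h6 := h4 x hxJ3
    push Not at h6
    have h7 := h5 x hx
    have h8 : (((I2 n).filter fun y => lc (lev n (w j)) y = lc (lev n (w j)) x).card : ℝ) ≤
        (((I1 n).filter fun y => lc (lev n (w j)) y = lc (lev n (w j)) x).card : ℝ) := by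
      exact_mod_cast card_le_card (filter_subset_filter _ (hI2I1 n))
    refine ⟨?_, ?_⟩
    · have h9 : B.d n ^ (ε / 3) * (B.d n ^ (1 / ((k : ℝ) + 1)) * Φ j n (I2 n)) ≤
          (((J4 n).filter fun y => lc (lev n (w j)) y = lc (lev n (w j)) x).card : ℝ) :=
        (mul_le_mul_of_nonneg_left (h6.trans h8) (dpow_pos B n _).le).trans h7
      refine le_trans ?_ h9
      have h10 : B.d n ^ (ε / 3) * (B.d n ^ (ε / 3) * B.d n ^ (-(κ (w j) - ε / 3))) ≤
          B.d n ^ (ε / 3) * (B.d n ^ (1 / ((k : ℝ) + 1)) * Φ j n (I2 n)) := by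
        refine mul_le_mul_of_nonneg_left ?_ (dpow_pos B n _).le
        exact mul_le_mul (dpow_le B n hk.le) h3.le (dpow_pos B n _).le (dpow_pos B n _).le
      refine le_trans (le_of_eq ?_) h10
      rw [← dpow_add, ← dpow_add]
      congr 1; ring
    · have hxI2 := hJ3I n hxJ3
      have h9 : (((I2 n).filter fun y => lc (lev n (w j)) y = lc (lev n (w j)) x).card : ℝ) ≤
          Φ j n (I2 n) := by
        simp only [hΦ]
        exact_mod_cast le_cmax (lc (lev n (w j))) hxI2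
      have h10 : (((J4 n).filter fun y => lc (lev n (w j)) y = lc (lev n (w j)) x).card : ℝ) ≤
          (((I2 n).filter fun y => lc (lev n (w j)) y = lc (lev n (w j)) x).card : ℝ) := by
        exact_mod_cast card_le_card (filter_subset_filter _ ((hsub n).1.trans (hJ3I n)))
      refine (h10.trans (h9.trans h2.le)).trans (le_of_eq ?_)
      congr 1; ring
  -- differences of exponents
  have hdiff : ∀ u v : ℚ, 0 ≤ u → u ≤ v → v ≤ 1 → 0 ≤ κ u - κ v ∧ κ u - κ v ≤ (v : ℝ) - u := by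
    intro u v hu huv hv
    have hPu := hPBv u hu (huv.trans hv)
    have hPv := hPBv v (hu.trans huv) hv
    refine ⟨?_, ?_⟩
    · rw [sub_nonneg]
      refine Base.ex_le hPv hPu ?_
      filter_upwards [hlm u v hu huv hv, hI2ne] with n h1 h2
      obtain ⟨x, hx, h3⟩ := cmax_att (lc (lev n v)) h2
      have h4 := le_cmax (lc (lev n u)) hx
      rw [h3]
      have h5 : ((I2 n).filter fun y => lc (lev n v) y = lc (lev n v) x) ⊆
          (I2 n).filter fun y => lc (lev n u) y = lc (lev n u) x := by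
        intro y hy
        rw [mem_filter] at hy ⊢
        exact ⟨hy.1, lc_nested h1 hy.2⟩
      have h6 := (card_le_card h5).trans (by convert h4)
      exact_mod_cast h6
    · have hlim := hll u v hu huv hv
      have hX : Tendsto (B.lg (fun n => (2 : ℝ) ^ ((lev n v : ℝ) - lev n u))) U
          (𝓝 ((v : ℝ) - u)) := by
        refine hlim.congr fun n => ?_
        simp only [Base.lg]
        rw [Real.log_rpow two_pos]
      have hXp : ∀ᶠ n in (U : Filter ℕ), 0 < (2 : ℝ) ^ ((lev n v : ℝ) - lev n u) :=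
        Eventually.of_forall fun n => Real.rpow_pos_of_pos two_pos _
      have hXPB : B.PB (fun n => (2 : ℝ) ^ ((lev n v : ℝ) - lev n u)) :=
        Base.PB.of_tendsto hXp hX
      have h1 : B.ex (fun n => (cmax (lc (lev n u)) (I2 n) : ℝ)) ≤
          B.ex (fun n => (2 : ℝ) ^ ((lev n v : ℝ) - lev n u) *
            (cmax (lc (lev n v)) (I2 n) : ℝ)) := by
        refine Base.ex_le hPu (hXPB.mul hPv) ?_
        filter_upwards [hlm u v hu huv hv, hI2ne] with n h1 h2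
        obtain ⟨x, hx, h3⟩ := cmax_att (lc (lev n u)) h2
        rw [h3]
        have h4 := own_lower (J := I2 n) (i := lev n u) (j := lev n v) (x := x)
          (m := (cmax (lc (lev n v)) (I2 n) : ℝ)) (fun y hy => by
            exact_mod_cast (by convert le_cmax (lc (lev n v)) hy)) hx
        have h5 := own_card_le (I := I2 n) h1 x
        have h6 : ((own (I2 n) (lev n u) (lev n v) x).card : ℝ) ≤
            (2 : ℝ) ^ ((lev n v : ℝ) - lev n u) := by
          have h11 : (((lev n v : ℝ) - lev n u)) = ((lev n v - lev n u : ℕ) : ℝ) := by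
            rw [Nat.cast_sub h1]
          rw [h11, Real.rpow_natCast]
          exact_mod_cast h5
        refine h4.trans ?_
        rw [mul_comm]
        exact mul_le_mul_of_nonneg_right h6 (Nat.cast_nonneg _)
      rw [Base.ex_mul hXPB hPv, Base.ex_eq_of_tendsto hX] at h1
      have h2 : κ u ≤ (v : ℝ) - u + κ v := h1
      linarith
  have hκ1 : κ 1 = 0 := by
    have h1 : ∀ᶠ n in (U : Filter ℕ), (cmax (lc (lev n 1)) (I2 n) : ℝ) = 1 := by
      filter_upwards [hone, hI2ne] with n h1 h2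
      have h3 : cmax (lc (lev n 1)) (I2 n) ≤ 1 := by
        refine cmax_le _ fun x hx => ?_
        rw [card_le_one]
        intro y hy z hz
        rw [mem_filter] at hy hz
        obtain ⟨a1, a2⟩ := Prod.mk.inj (hy.2.trans hz.2.symm)
        exact h1 y (hI2I1 n hy.1) z (hI2I1 n hz.1) a1 a2
      have h4 := one_le_cmax (lc (lev n 1)) h2
      have h5 : cmax (lc (lev n 1)) (I2 n) = 1 := le_antisymm h3 h4
      rw [h5]; norm_num
    have h2 : κ 1 = B.ex (fun _ => (1 : ℝ)) := Base.ex_congr (hPBv 1 zero_le_one le_rfl) h1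
    rw [h2, Base.ex_const]
  -- the profile
  obtain ⟨Λ, hΛ, hΛ2⟩ := exists_ext (fun v => κ v + (v : ℝ)) (by
    intro u v hu huv hv
    have := hdiff u v hu huv hv
    constructor <;> linarith [this.1, this.2])
  refine ⟨J4, Λ, fun n => (hsub n).2, hJ4I1, ?_, fe⟩
  refine
    { ne := hJ4ne
      card := ?_
      lam0 := ?_
      lam := hΛ2
      lev_mono := hlm
      lev_lim := hll
      cell0 := by
        filter_upwards [hcell] with n hn x hx y hy using hn x ((hsub n).2 hx) y ((hsub n).2 hy)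
      one := by
        filter_upwards [hone] with n hn x hx y hy using hn x ((hsub n).2 hx) y ((hsub n).2 hy)
      fib := ?_ }
  · intro ε hε
    filter_upwards [hcard ε hε, hJ4ne] with n hn hne
    refine le_trans (Real.log_le_log (by exact_mod_cast card_pos.2 hne)
      (by exact_mod_cast card_le_card (hsub n).2)) hn
  · have := hΛ 0 le_rfl zero_le_one
    simpa using this
  · intro v h0 h1 ε hε
    have e1 : -(1 - (v : ℝ)) + (Λ 1 - Λ v) = -κ v := by
      have h2 := hΛ v h0 h1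
      have h3 := hΛ 1 zero_le_one le_rfl
      rw [Rat.cast_one] at h3
      rw [h2, h3, hκ1]
      ring
    rw [e1]
    exact hfib2 v h0 h1 ε hε

end Crest.Agent.R116.Xc5794
end

-- ▼ part R116/Xc6_794
section

/-!
# R116 (K side), block X1-C, class `Xc`, part 6 (helper794): the initial near-extremal sequence
-/

set_option autoImplicit false
set_option linter.unusedSectionVars false

open Finset Filter Topology

namespace Crest.Agent.R116.Xc6794

open Crest.Agent.R138.Ex926 Crest.Agent.R138.Dp76 Crest.Agent.R138.Ps627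
open Crest.Agent.R138.Ps926
open Crest.Agent.R138.Mk163 (zc zl rho alive own Negl)
open Crest.Agent.R138.MkRef627 (lc kc own_one alive_mono mem_alive card_class own_lower exists_num)
open Crest.Agent.R138.MkZoom779 (zc_nested zc_eq exists_rep)
open Crest.Agent.R136.MkA627 (ampA Geo MkA)
open Crest.Agent.R116.Xa794 (TS)
open Crest.Agent.R116.Xa2794 (lc_nested class_fib_ge class_fib_le)
open Crest.Agent.R116.Xa3794
open Crest.Agent.R116.Xc794 Crest.Agent.R116.Xc1794 Crest.Agent.R116.Xc2794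
open Crest.Agent.R116.Xc3794 Crest.Agent.R116.Xc4794 Crest.Agent.R116.Xc5794

variable {Ln ι S : Type} [Fintype ι]

open Classical in
/-- one incidence per line and cell of the top level. -/
theorem rep_ok {T : TS Ln ι S} {Ψ : ℝ → (ι → ℝ) → ℝ} {F : Cfg Ln ι S} (h : F.Ok T Ψ) :
    ∃ F' : Cfg Ln ι S, F'.Ok T Ψ ∧ F'.m = F.m ∧ F'.M = F.M ∧ F'.N = F.N ∧ F'.D0 = F.D0 ∧
      F'.D1 = F.D1 ∧ F'.nu = F.nu ∧ F'.I ⊆ F.I ∧
      ∀ x ∈ F'.I, ∀ y ∈ F'.I, x.1 = y.1 → zc (F.m + F.M) x.2 = zc (F.m + F.M) y.2 → x = y := by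
  obtain ⟨I1, hI1, hone, hfull⟩ := exists_rep F.I (F.m + F.M)
  refine ⟨{ F with I := I1 }, ?_, rfl, rfl, rfl, rfl, rfl, rfl, hI1, hone⟩
  have hal : ∀ J, alive F.I (F.m + F.M) J = alive I1 (F.m + F.M) J := by
    intro J
    ext t
    rw [mem_alive, mem_alive]
    constructor
    · rintro ⟨y, hy, h1, h2⟩
      obtain ⟨x, hx, h3, h4⟩ := hfull y hy
      exact ⟨x, hx, h3.trans h1, h4.trans h2⟩
    · rintro ⟨y, hy, h1, h2⟩
      exact ⟨y, hI1 hy, h1, h2⟩
  refine
    { M1 := h.M1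
      ne := ?_
      cell := fun x hx y hy => h.cell x (hI1 hx) y (hI1 hy)
      D1p := h.D1p
      nup := h.nup
      fin := h.fin
      top := ?_
      low := ?_
      own := ?_
      up := ?_ }
  · obtain ⟨y, hy⟩ := h.ne
    obtain ⟨x, hx, -⟩ := hfull y hy
    exact ⟨x, hx⟩
  · intro J t ht
    exact h.top J t (alive_mono hI1 _ _ ht)
  · intro J t ht
    have h1 := h.low J t (alive_mono hI1 _ _ ht)
    rw [hal J] at h1
    exact h1
  · intro x hx
    have h1 := h.own x (hI1 hx)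
    refine h1.trans ?_
    have : own F.I F.m (F.m + F.M) x ⊆ own I1 F.m (F.m + F.M) x := by
      intro c hc
      unfold own at hc ⊢
      obtain ⟨y, hy, rfl⟩ := mem_image.1 hc
      rw [mem_filter] at hy
      obtain ⟨x', hx', h3, h4⟩ := hfull y hy.1
      refine mem_image.2 ⟨x', mem_filter.2 ⟨hx', h3.trans hy.2.1, ?_⟩, h4⟩
      exact (zc_nested (Nat.le_add_right _ _) h4).trans hy.2.2
    exact_mod_cast card_le_card this
  · intro J s hs
    refine le_trans ?_ (h.up J s hs)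
    exact_mod_cast card_le_card (filter_subset_filter _ (alive_mono hI1 _ _))

open Classical in
/-- **the initial sequence.** -/
theorem exists_init {𝒯 : Set (TS Ln ι S)} {Ψ : ℝ → (ι → ℝ) → ℝ} {g : ℝ}
    (hΨ0 : Ψ 0 (fun _ => 0) = 0) (hlow : ∀ b < g, ¬ UB 𝒯 Ψ b) (hUB : UB 𝒯 Ψ g) :
    ∃ (B : Base) (I : ℕ → Finset (ℕ × ℝ)) (T : ℕ → TS Ln ι S) (L : ℕ → ℕ → Ln)
      (lev : ℕ → ℚ → ℕ) (A : ℕ → ℝ) (Λ : ℝ → ℝ) (f : ℕ → ℕ → ℤ → ℕ) (b : ℕ → ℕ → (ι → ℕ) × S)
      (atop : ℕ → ι → ℕ) (N : ℕ → ℕ),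
      Nonempty S ∧ (∀ n, T n ∈ 𝒯) ∧
      (∀ (n i : ℕ) (J : ℤ) (s : (ι → ℕ) × S), (T n).adm i J s → ∀ j, s.1 j ≤ N n) ∧
      (∀ ε : ℝ, 0 < ε → ∀ᶠ n in (U : Filter ℕ), (N n : ℝ) ≤ B.d n ^ (-ε)) ∧
      (∀ n, 0 < A n) ∧ Sq B I lev Λ ∧
      (∀ᶠ n in (U : Filter ℕ), ∀ (J0 : ℤ) (s : (ι → ℕ) × S), (T n).adm (lev n 0) J0 s →
        (((alive (I n) (lev n 0) J0).filter fun t => (T n).mem (lev n 0) J0 s (L n t)).card : ℝ) ≤
          A n * VV T Ψ lev atop n (lev n 0) s.1) ∧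
      Mrk B I T L lev A (fun v => g * v + 2 * Λ v) (VV T Ψ lev atop) 1 f b atop := by
  -- the configurations
  obtain ⟨δs, hδs, Ms, hMs⟩ := hUB 1 one_pos
  have hex : ∀ n : ℕ, ∃ T ∈ 𝒯, ∃ F : Cfg Ln ι S, F.Ok T Ψ ∧ n ≤ F.M ∧
      Real.log (F.I.card : ℝ) ≤ (2 : ℝ) ^ (1 / ((n : ℝ) + 1) * F.M) ∧
      (F.N : ℝ) ≤ (2 : ℝ) ^ (1 / ((n : ℝ) + 1) * F.M) ∧ 0 < F.D0 ∧
      (2 : ℝ) ^ ((g - 1 / ((n : ℝ) + 1)) * F.M) * 4 ^ F.M * F.D0 ≤ F.D1 * F.nu ^ 2 ∧
      ∀ x ∈ F.I, ∀ y ∈ F.I, x.1 = y.1 → zc (F.m + F.M) x.2 = zc (F.m + F.M) y.2 → x = y := by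
    intro n
    have hp : (0 : ℝ) < 1 / ((n : ℝ) + 1) := by positivity
    have h1 := hlow (g - 1 / ((n : ℝ) + 1)) (by linarith)
    unfold UB at h1
    push Not at h1
    obtain ⟨η, hη, h2⟩ := h1
    obtain ⟨T, hT, F, hF, hM, hc, hN, hlt⟩ := h2 (min (1 / ((n : ℝ) + 1)) δs) (lt_min hp hδs)
      (max n Ms)
    obtain ⟨F', hF', e1, e2, e3, e4, e5, e6, e7, e8⟩ := rep_ok hF
    have hMp : (0 : ℝ) ≤ (F.M : ℝ) := Nat.cast_nonneg _
    have hle1 : (2 : ℝ) ^ (min (1 / ((n : ℝ) + 1)) δs * F.M) ≤ (2 : ℝ) ^ (1 / ((n : ℝ) + 1) * F.M) :=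
      Real.rpow_le_rpow_of_exponent_le (by norm_num)
        (mul_le_mul_of_nonneg_right (min_le_left _ _) hMp)
    have hle2 : (2 : ℝ) ^ (min (1 / ((n : ℝ) + 1)) δs * F.M) ≤ (2 : ℝ) ^ (δs * F.M) :=
      Real.rpow_le_rpow_of_exponent_le (by norm_num)
        (mul_le_mul_of_nonneg_right (min_le_right _ _) hMp)
    have hD0 : 0 < F.D0 := by
      have h3 := hMs T hT F hF ((le_max_right _ _).trans hM) (hc.trans hle2) (hN.trans hle2)
      have h4 : 0 < F.D1 * F.nu ^ 2 := mul_pos hF.D1p (pow_pos hF.nup 2)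
      by_contra hneg
      push Not at hneg
      have h5 : (2 : ℝ) ^ ((g + 1) * F.M) * 4 ^ F.M * F.D0 ≤ 0 :=
        mul_nonpos_of_nonneg_of_nonpos (by positivity) hneg
      linarith
    refine ⟨T, hT, F', hF', by rw [e2]; exact (le_max_left _ _).trans hM, ?_, ?_, by rw [e4]; exact hD0,
      ?_, by rw [e1, e2]; exact e8⟩
    · rw [e2]
      refine le_trans (Real.log_le_log ?_ ?_) (hc.trans hle1)
      · exact_mod_cast card_pos.2 hF'.ne
      · exact_mod_cast card_le_card e7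
    · rw [e2, e3]; exact hN.trans hle1
    · rw [e2, e4, e5, e6]
      refine le_trans ?_ hlt.le
      refine mul_le_mul_of_nonneg_right ?_ hD0.le
      refine mul_le_mul_of_nonneg_right ?_ (by positivity)
      refine Real.rpow_le_rpow_of_exponent_le (by norm_num) ?_
      nlinarith
  choose T hT F hF hM hc hN hD0 hgap hone using hex
  have hM1 : ∀ n, 1 ≤ (F n).M := fun n => (hF n).M1
  have hlog2 : 0 < Real.log 2 := Real.log_pos (by norm_num)
  -- the base
  set B : Base :=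
    { d := fun n => (1 / 2 : ℝ) ^ (F n).M
      pos := fun n => by positivity
      lt := fun n => pow_lt_one₀ (by norm_num) (by norm_num) (by have := hM1 n; omega)
      lim0 := by
        have h1 : Tendsto (fun n : ℕ => (1 / 2 : ℝ) ^ n) U (𝓝 0) :=
          (tendsto_pow_atTop_nhds_zero_of_lt_one (by norm_num) (by norm_num)).mono_left U_le_atTop
        refine squeeze_zero (fun n => by positivity) (fun n => ?_) h1
        exact pow_le_pow_of_le_one (by norm_num) (by norm_num) (hM n) } with hB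
  have hBL : ∀ n, B.L n = (F n).M * Real.log 2 := by
    intro n
    have : B.L n = - Real.log ((1 / 2 : ℝ) ^ (F n).M) := rfl
    rw [this, Real.log_pow, one_div, Real.log_inv]; ring
  have hMpos : ∀ n, (0 : ℝ) < ((F n).M : ℝ) := fun n => by exact_mod_cast hM1 n
  have hdp : ∀ n (e : ℝ), B.d n ^ (-e) = (2 : ℝ) ^ (e * (F n).M) := by
    intro n e
    apply le_antisymm
    · refine le_two_rpow ?_
      rw [hBL]
      rw [show e * ((F n).M : ℝ) * Real.log 2 / (((F n).M : ℝ) * Real.log 2) = e by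
        field_simp [(hMpos n).ne']]
    · refine two_rpow_le ?_
      rw [hBL]
      rw [show e * ((F n).M : ℝ) * Real.log 2 / (((F n).M : ℝ) * Real.log 2) = e by
        field_simp [(hMpos n).ne']]
  have hMlim : Tendsto (fun n => ((F n).M : ℝ)) U atTop := by
    refine tendsto_atTop_mono (fun n => (by exact_mod_cast hM n : (n : ℝ) ≤ (F n).M)) ?_
    exact tendsto_natCast_atTop_atTop.mono_left U_le_atTop
  -- `1/(n+1)` is eventually small
  have hsm : ∀ ε : ℝ, 0 < ε → ∀ᶠ n : ℕ in (U : Filter ℕ), 1 / ((n : ℝ) + 1) ≤ ε := by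
    intro ε hε
    have h1 : Tendsto (fun n : ℕ => 1 / ((n : ℝ) + 1)) U (𝓝 0) :=
      tendsto_one_div_add_atTop_nhds_zero_nat.mono_left U_le_atTop
    filter_upwards [h1.eventually_lt_const hε] with n hn using hn.le
  set lev : ℕ → ℚ → ℕ := fun n v => (F n).m + ⌊(v : ℝ) * (F n).M⌋₊ with hlev
  have hlev0 : ∀ n, lev n 0 = (F n).m := by
    intro n; simp [hlev]
  have hlev1 : ∀ n, lev n 1 = (F n).m + (F n).M := by
    intro n; simp [hlev]
  have hlm : ∀ u v : ℚ, 0 ≤ u → u ≤ v → v ≤ 1 → ∀ᶠ n in (U : Filter ℕ), lev n u ≤ lev n v := by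
    intro u v hu huv hv
    refine Eventually.of_forall fun n => ?_
    refine Nat.add_le_add_left (Nat.floor_mono ?_) _
    exact mul_le_mul_of_nonneg_right (by exact_mod_cast huv) (hMpos n).le
  have hll : ∀ u v : ℚ, 0 ≤ u → u ≤ v → v ≤ 1 →
      Tendsto (fun n => ((lev n v : ℝ) - lev n u) * Real.log 2 / B.L n) U (𝓝 ((v : ℝ) - u)) := by
    intro u v hu huv hv
    have h0u : (0 : ℝ) ≤ u := by exact_mod_cast hu
    have h0v : (0 : ℝ) ≤ v := by exact_mod_cast hu.trans huv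
    have h1 : Tendsto (fun n => 1 / ((F n).M : ℝ)) U (𝓝 0) := by
      have h2 := tendsto_inv_atTop_zero.comp hMlim
      refine h2.congr fun n => ?_
      simp only [Function.comp, one_div]
    rw [tendsto_iff_dist_tendsto_zero]
    refine squeeze_zero (fun n => dist_nonneg) (fun n => ?_) h1
    have hm := hMpos n
    have e1 : ((lev n v : ℝ) - lev n u) * Real.log 2 / B.L n =
        ((⌊(v : ℝ) * (F n).M⌋₊ : ℝ) - ⌊(u : ℝ) * (F n).M⌋₊) / (F n).M := by
      rw [hBL]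
      simp only [hlev]
      push_cast
      field_simp
      ring
    rw [e1, Real.dist_eq]
    have a1 := Nat.floor_le (mul_nonneg h0v hm.le)
    have a2 := Nat.lt_floor_add_one ((v : ℝ) * (F n).M)
    have a3 := Nat.floor_le (mul_nonneg h0u hm.le)
    have a4 := Nat.lt_floor_add_one ((u : ℝ) * (F n).M)
    have e2 : ((⌊(v : ℝ) * (F n).M⌋₊ : ℝ) - ⌊(u : ℝ) * (F n).M⌋₊) / (F n).M - ((v : ℝ) - u) =
        (((⌊(v : ℝ) * (F n).M⌋₊ : ℝ) - (v : ℝ) * (F n).M) -
          ((⌊(u : ℝ) * (F n).M⌋₊ : ℝ) - (u : ℝ) * (F n).M)) / (F n).M := by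
      field_simp
      ring
    rw [e2, abs_div, abs_of_pos hm]
    refine div_le_div_of_nonneg_right ?_ hm.le
    rw [abs_le]
    constructor <;> linarith
  have hcard : ∀ ε : ℝ, 0 < ε → ∀ᶠ n in (U : Filter ℕ),
      Real.log (((F n).I).card : ℝ) ≤ B.d n ^ (-ε) := by
    intro ε hε
    filter_upwards [hsm ε hε] with n hn
    refine (hc n).trans ?_
    rw [← hdp n (1 / ((n : ℝ) + 1))]
    exact dpow_le B n (by linarith)
  obtain ⟨I2, Λ, hI2, hI2d, hSq, hfe⟩ := exists_profile (B := B) (I1 := fun n => (F n).I)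
    (lev := lev) (Eventually.of_forall fun n => (hF n).ne) hcard hlm hll
    (Eventually.of_forall fun n x hx y hy => by rw [hlev0]; exact (hF n).cell x hx y hy)
    (Eventually.of_forall fun n x hx y hy h1 h2 => by
      rw [hlev1] at h2; exact hone n x hx y hy h1 h2)
    (fun j n => if j = 0 then kc (lev n 1) (F n).f else lc (lev n 0))
  refine ⟨B, I2, T, fun n => (F n).L, lev, fun n => (F n).D0, Λ, fun n => (F n).f,
    fun n => (F n).b, fun n => (F n).a, fun n => (F n).N, ⟨((F 0).b 0).2⟩, hT,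
    fun n i J s hs => (hF n).fin i J s hs, ?_, hD0, hSq, ?_, ?_⟩
  · intro ε hε
    filter_upwards [hsm ε hε] with n hn
    refine (hN n).trans ?_
    rw [← hdp n (1 / ((n : ℝ) + 1))]
    exact dpow_le B n (by linarith)
  · refine Eventually.of_forall fun n J0 s hs => ?_
    rw [hlev0] at hs ⊢
    have h1 := (hF n).up J0 s hs
    refine le_trans (by exact_mod_cast card_le_card (filter_subset_filter _
      (alive_mono (hI2 n) _ _))) (h1.trans (le_of_eq ?_))
    unfold VV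
    rw [hlev1]
  · refine { mark := ?_, near := ?_ }
    · refine Eventually.of_forall fun n x hx => ?_
      rw [hlev1]
      exact (hF n).top _ x.1 (mem_alive.2 ⟨x, hI2 n hx, rfl, rfl⟩)
    · intro ε hε
      set e1 : ℝ := ε / 6 with he1
      have he0 : 0 < e1 := by positivity
      filter_upwards [hfe 0 e1 he0, hfe 1 e1 he0, hSq.fib 0 le_rfl zero_le_one e1 he0, hsm e1 he0]
        with n h1 h2 h3 h4 x hx
      have hxI := hI2 n hx
      have h1x := h1 x hx
      have h2x := h2 x hx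
      have h3x := (h3 x hx).2
      simp only [if_true] at h1x
      simp only [one_ne_zero, if_false] at h2x
      -- classes
      have hlo1 : ∀ y ∈ (F n).I, (1 : ℝ) ≤ ((((F n).I).filter fun z =>
          lc (lev n 1) z = lc (lev n 1) y).card : ℝ) := by
        intro y hy
        have : 0 < (((F n).I).filter fun z => lc (lev n 1) z = lc (lev n 1) y).card :=
          card_pos.2 ⟨y, mem_filter.2 ⟨hy, rfl⟩⟩
        exact_mod_cast this
      have hhi1 : ∀ y ∈ I2 n, (((I2 n).filter fun z =>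
          lc (lev n 1) z = lc (lev n 1) y).card : ℝ) ≤ 1 := by
        intro y hy
        have : ((I2 n).filter fun z => lc (lev n 1) z = lc (lev n 1) y).card ≤ 1 := by
          rw [card_le_one]
          intro z hz z' hz'
          rw [mem_filter] at hz hz'
          obtain ⟨a1, a2⟩ := Prod.mk.inj (hz.2.trans hz'.2.symm)
          rw [hlev1] at a2
          exact hone n z (hI2 n hz.1) z' (hI2 n hz'.1) a1 a2
        exact_mod_cast this
      have p1 := class_fib_ge (f := (F n).f) hlo1 x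
      have p2 := class_fib_le (f := (F n).f) hhi1 x
      rw [one_mul] at p1 p2
      have p3 : (F n).D1 * (T n).vol (lev n 1) (F n).a ≤
          (((alive (F n).I (lev n 1) (zc (lev n 1) x.2)).filter fun s =>
            (F n).f s (zc (lev n 1) x.2) = (F n).f x.1 (zc (lev n 1) x.2)).card : ℝ) := by
        rw [hlev1]
        exact (hF n).low _ x.1 (mem_alive.2 ⟨x, hxI, rfl, rfl⟩)
      set NC : ℝ := (((alive (I2 n) (lev n 1) (zc (lev n 1) x.2)).filter fun s =>
        (F n).f s (zc (lev n 1) x.2) = (F n).f x.1 (zc (lev n 1) x.2)).card : ℝ) with hNC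
      have p4 : B.d n ^ e1 * ((F n).D1 * (T n).vol (lev n 1) (F n).a) ≤ NC := by
        refine le_trans ?_ (h1x.trans p2)
        exact mul_le_mul_of_nonneg_left (p3.trans p1) (dpow_pos B n _).le
      -- own counts
      have p5 : (F n).nu ≤ B.d n ^ (-(1 : ℝ) + Λ 1 - 2 * e1) := by
        have q1 := (hF n).own x hxI
        have q2 := own_one (I := (F n).I) (i := (F n).m) (j := (F n).m + (F n).M)
          (fun y hy z hz a1 a2 => hone n y hy z hz a1 a2) x
        rw [q2, ← hlev0 n] at q1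
        have q3 := (mul_le_mul_of_nonneg_left q1 (dpow_pos B n e1).le).trans (h2x.trans h3x)
        rw [Rat.cast_zero, hSq.lam0] at q3
        have q4 : (F n).nu ≤ B.d n ^ (-e1) * B.d n ^ (-(1 - (0 : ℝ)) + (Λ 1 - 0) - e1) := by
          have q5 := mul_le_mul_of_nonneg_left q3 (dpow_pos B n (-e1)).le
          rw [← mul_assoc, ← dpow_add, neg_add_cancel, Real.rpow_zero, one_mul] at q5
          exact q5
        refine q4.trans (le_of_eq ?_)
        rw [← dpow_add]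
        congr 1; ring
      -- the gap
      have hnu := (hF n).nup
      have p6 : (F n).nu ^ 2 ≤ B.d n ^ (-(2 : ℝ) + 2 * Λ 1 - 4 * e1) := by
        refine (pow_le_pow_left₀ hnu.le p5 2).trans (le_of_eq ?_)
        rw [← Real.rpow_natCast, ← Real.rpow_mul (B.pos n).le]
        congr 1; push_cast; ring
      have p7 : B.d n ^ (-(g + 2) + e1) * (F n).D0 ≤ (F n).D1 * (F n).nu ^ 2 := by
        refine le_trans ?_ (hgap n)
        refine mul_le_mul_of_nonneg_right ?_ (hD0 n).le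
        have e4 : (4 : ℝ) ^ (F n).M = (2 : ℝ) ^ (2 * ((F n).M : ℝ)) := by
          rw [Real.rpow_mul (by norm_num)]
          norm_num
        rw [e4, ← Real.rpow_add two_pos]
        have e5 : (g - 1 / ((n : ℝ) + 1)) * ((F n).M : ℝ) + 2 * ((F n).M : ℝ) =
            (g - 1 / ((n : ℝ) + 1) + 2) * (F n).M := by ring
        rw [e5, ← hdp]
        exact dpow_le B n (by linarith)
      have p8 : B.d n ^ (-(g + 2) + e1) * (F n).D0 ≤
          (F n).D1 * B.d n ^ (-(2 : ℝ) + 2 * Λ 1 - 4 * e1) :=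
        p7.trans (mul_le_mul_of_nonneg_left p6 (hF n).D1p.le)
      have p9 : B.d n ^ (-(g + 2 * Λ 1)) * (F n).D0 ≤ B.d n ^ (-(5 * e1)) * (F n).D1 := by
        have q1 := mul_le_mul_of_nonneg_left p8
          (dpow_pos B n ((2 : ℝ) - 2 * Λ 1 - e1)).le
        have q2 : B.d n ^ ((2 : ℝ) - 2 * Λ 1 - e1) * (B.d n ^ (-(g + 2) + e1) * (F n).D0) =
            B.d n ^ (-(g + 2 * Λ 1)) * (F n).D0 := by
          rw [← mul_assoc, ← dpow_add]; congr 2; ring
        have q3 : B.d n ^ ((2 : ℝ) - 2 * Λ 1 - e1) * ((F n).D1 *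
            B.d n ^ (-(2 : ℝ) + 2 * Λ 1 - 4 * e1)) = B.d n ^ (-(5 * e1)) * (F n).D1 := by
          rw [mul_comm (F n).D1, ← mul_assoc, ← dpow_add]; congr 2; ring
        rw [q2, q3] at q1
        exact q1
      -- conclusion
      have hvol := (T n).volpos (lev n 1) (F n).a
      have e6 : ampA B (fun n => (F n).D0) (fun v => g * v + 2 * Λ v) n 1 *
          VV T Ψ lev (fun n => (F n).a) n (lev n 1) (F n).a =
          (B.d n ^ (-(g + 2 * Λ 1)) * (F n).D0) * (T n).vol (lev n 1) (F n).a := by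
        unfold ampA VV capP
        have e7 : rel (lev n 1) (F n).a (lev n 1) (F n).a = fun _ => (0 : ℝ) := by
          funext j; simp [rel]
        rw [e7, sub_self, hΨ0, neg_zero, Real.rpow_zero, mul_one, Rat.cast_one]
        simp only [mul_one]
        ring
      rw [e6]
      have q5 := mul_le_mul_of_nonneg_right p9 hvol.le
      refine q5.trans ?_
      have q6 := mul_le_mul_of_nonneg_left p4 (dpow_pos B n (-(6 * e1))).le
      have q7 : B.d n ^ (-(6 * e1)) * (B.d n ^ e1 * ((F n).D1 * (T n).vol (lev n 1) (F n).a)) =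
          B.d n ^ (-(5 * e1)) * (F n).D1 * (T n).vol (lev n 1) (F n).a := by
        rw [← mul_assoc, ← dpow_add, ← mul_assoc]; congr 3; ring
      rw [q7] at q6
      refine q6.trans (le_of_eq ?_)
      congr 2
      rw [he1]; ring

end Crest.Agent.R116.Xc6794
end

-- ▼ part R116/Xc7_794
section

/-!
# R116 (K side), block X1-C, class `Xc`, part 7 (helper794): one step (finite stage)

`step_fin` : marks at `v`, an upper bound `UB 𝒯 Ψp bb` => for every `η > 0` and almost every `n` a part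
of proportion `≥ d^η` with marks at `u < v`, the reward inequality and near-maximality.
-/

set_option autoImplicit false
set_option linter.unusedSectionVars false

open Finset Filter Topology

namespace Crest.Agent.R116.Xc7794

open Crest.Agent.R138.Ex926 Crest.Agent.R138.Dp76 Crest.Agent.R138.Ps627
open Crest.Agent.R138.Ps926
open Crest.Agent.R138.Mk163 (zc zl rho alive own Negl)
open Crest.Agent.R138.MkRef627 (lc kc own_one alive_mono mem_alive card_class own_lower exists_num)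
open Crest.Agent.R138.MkZoom779 (zc_nested zc_eq exists_rep)
open Crest.Agent.R136.MkA627 (ampA Geo MkA)
open Crest.Agent.R116.Xa794 (TS)
open Crest.Agent.R116.Xa2794 (lc_nested class_fib_ge class_fib_le)
open Crest.Agent.R116.Xa3794
open Crest.Agent.R116.Xc794 Crest.Agent.R116.Xc1794 Crest.Agent.R116.Xc2794
open Crest.Agent.R116.Xc3794 Crest.Agent.R116.Xc4794 Crest.Agent.R116.Xc5794

variable {Ln ι S : Type} [Fintype ι]

/-- all hypotheses on a sequence without marks -/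
structure Cx (𝒯 : Set (TS Ln ι S)) (B : Base) (I : ℕ → Finset (ℕ × ℝ)) (T : ℕ → TS Ln ι S)
    (L : ℕ → ℕ → Ln) (lev : ℕ → ℚ → ℕ) (A : ℕ → ℝ) (Λ : ℝ → ℝ) (g : ℝ)
    (Ψ : ℝ → (ι → ℝ) → ℝ) (atop : ℕ → ι → ℕ) (N : ℕ → ℕ) : Prop where
  hT : ∀ n, T n ∈ 𝒯
  fin : ∀ (n i : ℕ) (J : ℤ) (s : (ι → ℕ) × S), (T n).adm i J s → ∀ j, s.1 j ≤ N n
  Nd : ∀ ε : ℝ, 0 < ε → ∀ᶠ n in (U : Filter ℕ), (N n : ℝ) ≤ B.d n ^ (-ε)
  Apos : ∀ n, 0 < A n
  sq : Sq B I lev Λ
  dmx : Dmx B I T L lev A (fun v => g * v + 2 * Λ v) (VV T Ψ lev atop)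

/-- homogeneity -/
def HomA (Ψ : ℝ → (ι → ℝ) → ℝ) : Prop :=
  ∀ c l x, 0 ≤ c → 0 ≤ l → Ψ (c * l) (fun j => c * x j) = c * Ψ l x

/-- the normalising factor `1 / M` -/
noncomputable def cn (B : Base) (n : ℕ) : ℝ := Real.log 2 / B.L n

theorem cn_pos (B : Base) (n : ℕ) : 0 < cn B n :=
  div_pos (Real.log_pos (by norm_num)) (B.L_pos n)

/-- normalised length -/
noncomputable def len (B : Base) (lev : ℕ → ℚ → ℕ) (n : ℕ) (v : ℚ) : ℝ :=
  cn B n * ((lev n 1 : ℝ) - lev n v)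

/-- normalised relative exponents -/
noncomputable def ys (B : Base) (lev : ℕ → ℚ → ℕ) (atop : ℕ → ι → ℕ) (n : ℕ) (v : ℚ)
    (a : ι → ℕ) : ι → ℝ :=
  fun j => cn B n * rel (lev n v) a (lev n 1) (atop n) j

theorem two_neg (B : Base) (n : ℕ) (z : ℝ) : (2 : ℝ) ^ (-z) = B.d n ^ (cn B n * z) := by
  have hL := B.L_pos n
  apply Real.log_injOn_pos (Set.mem_Ioi.2 (Real.rpow_pos_of_pos two_pos _))
    (Set.mem_Ioi.2 (Real.rpow_pos_of_pos (B.pos n) _))
  rw [Real.log_rpow two_pos, Real.log_rpow (B.pos n), log_d]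
  unfold cn
  field_simp

section

variable {𝒯 : Set (TS Ln ι S)} {B : Base} {I : ℕ → Finset (ℕ × ℝ)} {lev : ℕ → ℚ → ℕ}
  {Λ : ℝ → ℝ} {T : ℕ → TS Ln ι S} {L : ℕ → ℕ → Ln} {A : ℕ → ℝ} {g : ℝ}
  {Ψ Ψp : ℝ → (ι → ℝ) → ℝ} {atop : ℕ → ι → ℕ} {N : ℕ → ℕ}

theorem len_lim (h : Sq B I lev Λ) {v : ℚ} (h0 : 0 ≤ v) (h1 : v ≤ 1) :
    Tendsto (fun n => len B lev n v) U (𝓝 (1 - (v : ℝ))) := by
  have h2 := h.lev_lim v 1 h0 h1 le_rfl
  rw [Rat.cast_one] at h2
  refine h2.congr fun n => ?_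
  unfold len cn
  ring

theorem hom_len (hH : HomA Ψ) (n : ℕ) {v : ℚ} (hv : lev n v ≤ lev n 1) (a : ι → ℕ) :
    Ψ (len B lev n v) (ys B lev atop n v a) =
      cn B n * Ψ ((lev n 1 : ℝ) - lev n v) (rel (lev n v) a (lev n 1) (atop n)) := by
  have h1 : (0 : ℝ) ≤ (lev n 1 : ℝ) - lev n v := by
    have : (lev n v : ℝ) ≤ lev n 1 := by exact_mod_cast hv
    linarith
  exact hH (cn B n) _ (rel (lev n v) a (lev n 1) (atop n)) (cn_pos B n).le h1

theorem hom_len2 (hH : HomA Ψp) (n : ℕ) {u v : ℚ} (hv : lev n u ≤ lev n v) (a a' : ι → ℕ) :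
    Ψp (len B lev n u - len B lev n v)
      (fun j => ys B lev atop n u a' j - ys B lev atop n v a j) =
      cn B n * Ψp ((lev n v : ℝ) - lev n u) (rel (lev n u) a' (lev n v) a) := by
  have h1 : (0 : ℝ) ≤ (lev n v : ℝ) - lev n u := by
    have : (lev n u : ℝ) ≤ lev n v := by exact_mod_cast hv
    linarith
  have h2 := hH (cn B n) _ (rel (lev n u) a' (lev n v) a) (cn_pos B n).le h1
  rw [← h2]
  have e1 : len B lev n u - len B lev n v = cn B n * ((lev n v : ℝ) - lev n u) := by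
    unfold len; ring
  have e2 : (fun j => ys B lev atop n u a' j - ys B lev atop n v a j) =
      fun j => cn B n * rel (lev n u) a' (lev n v) a j := by
    funext j
    simp only [ys, rel]; ring
  rw [e1, e2]

/-- capacity in powers of `d` -/
theorem VV_eq (hH : HomA Ψ) (n : ℕ) {v : ℚ} (hv : lev n v ≤ lev n 1) (a : ι → ℕ) :
    VV T Ψ lev atop n (lev n v) a =
      (T n).vol (lev n v) a * B.d n ^ (Ψ (len B lev n v) (ys B lev atop n v a)) := by
  unfold VV capP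
  rw [two_neg B n, hom_len hH n hv a]

set_option maxHeartbeats 1000000 in
open Classical in
/-- **one step, finite stage.** -/
theorem step_fin [Nonempty S] (h : Cx 𝒯 B I T L lev A Λ g Ψ atop N) (hH : HomA Ψ) (hHp : HomA Ψp)
    {bb : ℝ} (hUB : UB 𝒯 Ψp bb) {u v : ℚ} (hu : 0 ≤ u) (huv : u < v) (hv : v ≤ 1)
    {f : ℕ → ℕ → ℤ → ℕ} {b : ℕ → ℕ → (ι → ℕ) × S} {a : ℕ → ι → ℕ}
    (hM : Mrk B I T L lev A (fun v => g * v + 2 * Λ v) (VV T Ψ lev atop) v f b a)
    {η : ℝ} (hη : 0 < η) :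
    ∀ᶠ n in (U : Filter ℕ), ∃ A' ⊆ I n, ∃ (f' : ℕ → ℤ → ℕ) (b' : ℕ → (ι → ℕ) × S) (a' : ι → ℕ),
      A'.Nonempty ∧ ((I n).card : ℝ) ≤ B.d n ^ (-η) * (A'.card : ℝ) ∧
      (∀ x ∈ A', ∀ y ∈ I n, lc (lev n u) y = lc (lev n u) x → y ∈ A') ∧
      (∀ x ∈ A', (T n).mem (lev n u) (zc (lev n u) x.2) (b' (f' x.1 (zc (lev n u) x.2))) (L n x.1) ∧
        (T n).adm (lev n u) (zc (lev n u) x.2) (b' (f' x.1 (zc (lev n u) x.2))) ∧
        (b' (f' x.1 (zc (lev n u) x.2))).1 = a') ∧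
      Ψ (len B lev n u) (ys B lev atop n u a') ≤
        Ψ (len B lev n v) (ys B lev atop n v (a n)) +
          Ψp (len B lev n u - len B lev n v)
            (fun j => ys B lev atop n u a' j - ys B lev atop n v (a n) j) +
          (bb - g) * ((v : ℝ) - u) + 2 * η ∧
      (∀ x ∈ A', B.d n ^ (η + (bb - g) * ((v : ℝ) - u) +
          Ψ (len B lev n v) (ys B lev atop n v (a n)) +
          Ψp (len B lev n u - len B lev n v)
            (fun j => ys B lev atop n u a' j - ys B lev atop n v (a n) j) -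
          Ψ (len B lev n u) (ys B lev atop n u a')) *
          (ampA B A (fun v => g * v + 2 * Λ v) n u * VV T Ψ lev atop n (lev n u) a') ≤
        (((alive A' (lev n u) (zc (lev n u) x.2)).filter fun s =>
          f' s (zc (lev n u) x.2) = f' x.1 (zc (lev n u) x.2)).card : ℝ)) := by
  set cc : ℝ → ℝ := fun v => g * v + 2 * Λ v with hcc
  set D1 : ℕ → ℝ := fun n => B.d n ^ (η / 2) * ampA B A cc n v *
    B.d n ^ (Ψ (len B lev n v) (ys B lev atop n v (a n))) with hD1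
  have hD1p : ∀ n, 0 < D1 n := fun n =>
    mul_pos (mul_pos (dpow_pos B n _) (ampA_pos h.Apos cc n v)) (dpow_pos B n _)
  set D0 : ℕ → ℝ := fun n => B.d n ^ (η / 2 + bb * ((v : ℝ) - u) + 2 * (Λ v - Λ u)) * D1 n with hD0
  have hD0p : ∀ n, 0 < D0 n := fun n => mul_pos (dpow_pos B n _) (hD1p n)
  have hu1 : u ≤ 1 := huv.le.trans hv
  have hv0 : 0 ≤ v := hu.trans huv.le
  have hlow := low_seqC h.sq 𝒯 Ψp hUB h.hT h.fin h.Nd (u := u) (v := v) hu huv hv
    (A := I) (fun n => Subset.refl _) (Eventually.of_forall fun n x _ y hy _ => hy) (f := f) (b := b)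
    (a := a) hM.mark (D1 := D1) hD1p (by
      filter_upwards [hM.near (η / 2) (by positivity), h.sq.lev_mono v 1 hv0 hv le_rfl]
        with n hn hlv x hx
      have h1 := hn x hx
      rw [VV_eq hH n hlv] at h1
      have h2 := mul_le_mul_of_nonneg_left h1 (dpow_pos B n (η / 2)).le
      rw [← mul_assoc (B.d n ^ (η / 2)) (B.d n ^ (-(η / 2))), ← dpow_add, add_neg_cancel,
        Real.rpow_zero, one_mul] at h2
      refine le_trans (le_of_eq ?_) h2
      simp only [hD1]; ring) (η := η / 2) (by positivity) (D0 := D0)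
    (Eventually.of_forall fun n => le_rfl)
  filter_upwards [hlow, boxN_small h.Nd (Fintype.card ι) (show 0 < η / 2 by positivity),
    dpow_small B (c := η / 2) (by positivity) (ε := 1 / 2) (by norm_num),
    dpow_small B (c := η / 2 / 20) (by positivity) (ε := 1 / 2) (by norm_num), h.sq.ne,
    h.sq.lev_mono u v hu huv.le hv, h.sq.lev_mono v 1 hv0 hv le_rfl,
    h.sq.lev_mono u 1 hu hu1 le_rfl, h.dmx u hu hu1 η hη] with n h1 h2 h3 h4 h5 h6 h7 h8 h9
  have hIc : (0 : ℝ) < ((I n).card : ℝ) := by exact_mod_cast card_pos.2 h5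
  obtain ⟨A0, hA0, A1, hA1, f', b', a', e1, e2, e3, e4, e5⟩ := extractC (T n)
    (capP (T n) Ψp (lev n v) (a n) (lev n u)) (fun s => capP_pos _ _ _ _ _ _) (N n) (lev n u)
    (h.fin n (lev n u)) (L n) (I n) (hD0p n)
  -- the remainder is small
  have hrem : ((I n \ A0).card : ℝ) < B.d n ^ (η / 2 / 20) * ((I n).card : ℝ) := by
    by_contra hcon
    push Not at hcon
    obtain ⟨c, s, hs, hlt⟩ := h1 (I n \ A0) sdiff_subset hcon
    have := e5 (I n \ A0) sdiff_subset (fun x hx => (mem_sdiff.1 hx).2) c s hs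
    linarith
  have hA0c : ((I n).card : ℝ) ≤ 2 * (A0.card : ℝ) := by
    have h10 : ((I n \ A0).card : ℝ) = (I n).card - A0.card := by
      rw [card_sdiff_of_subset hA0, Nat.cast_sub (card_le_card hA0)]
    rw [h10] at hrem
    nlinarith
  have h2p : (2 : ℝ) ≤ B.d n ^ (-(η / 2)) := by
    rw [Real.rpow_neg (B.pos n).le, ← one_div, le_div_iff₀ (dpow_pos B n _)]
    linarith
  have hA1c : ((I n).card : ℝ) ≤ B.d n ^ (-η) * (A1.card : ℝ) := by
    have h10 : (A0.card : ℝ) ≤ B.d n ^ (-(η / 2)) * A1.card :=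
      e1.trans (mul_le_mul_of_nonneg_right h2 (Nat.cast_nonneg _))
    have h11 : B.d n ^ (-η) = B.d n ^ (-(η / 2)) * B.d n ^ (-(η / 2)) := by
      rw [← dpow_add]; congr 1; ring
    rw [h11, mul_assoc]
    refine hA0c.trans ?_
    exact mul_le_mul h2p h10 (Nat.cast_nonneg _) (dpow_pos B n _).le
  have hA1ne : A1.Nonempty := by
    rw [← card_pos]
    by_contra hz
    have hz' : A1.card = 0 := by omega
    rw [hz', Nat.cast_zero, mul_zero] at hA1c
    linarith
  -- thresholds in powers of `d`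
  set Yv : ℝ := Ψ (len B lev n v) (ys B lev atop n v (a n)) with hYv
  set Yd : ℝ := Ψp (len B lev n u - len B lev n v)
    (fun j => ys B lev atop n u a' j - ys B lev atop n v (a n) j) with hYd
  set Yu : ℝ := Ψ (len B lev n u) (ys B lev atop n u a') with hYu
  have hvol := (T n).volpos (lev n u) a'
  have hampu := ampA_pos h.Apos cc n u (B := B)
  have key : D0 n * capP (T n) Ψp (lev n v) (a n) (lev n u) a' =
      B.d n ^ (η + (bb - g) * ((v : ℝ) - u) + Yv + Yd) *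
        (ampA B A cc n u * (T n).vol (lev n u) a') := by
    unfold capP
    rw [two_neg B n, ← hom_len2 (atop := atop) hHp n h6 (a n) a', ← hYd]
    simp only [hD0, hD1, ampA, hcc]
    have e6 : B.d n ^ (η + (bb - g) * ((v : ℝ) - u) + Yv + Yd) *
        (A n * B.d n ^ (-(g * (u : ℝ) + 2 * Λ u)) * (T n).vol (lev n u) a') =
        (B.d n ^ (η + (bb - g) * ((v : ℝ) - u) + Yv + Yd) * B.d n ^ (-(g * (u : ℝ) + 2 * Λ u))) *
        (A n * (T n).vol (lev n u) a') := by ring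
    have e7 : B.d n ^ (η / 2 + bb * ((v : ℝ) - u) + 2 * (Λ v - Λ u)) *
        (B.d n ^ (η / 2) * (A n * B.d n ^ (-(g * (v : ℝ) + 2 * Λ v))) * B.d n ^ Yv) *
        ((T n).vol (lev n u) a' * B.d n ^ Yd) =
        (B.d n ^ (η / 2 + bb * ((v : ℝ) - u) + 2 * (Λ v - Λ u)) * B.d n ^ (η / 2) *
          B.d n ^ (-(g * (v : ℝ) + 2 * Λ v)) * B.d n ^ Yv * B.d n ^ Yd) *
          (A n * (T n).vol (lev n u) a') := by ring
    rw [e6, e7, ← dpow_add, ← dpow_add, ← dpow_add, ← dpow_add, ← dpow_add]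
    congr 2
    ring
  have hVV : VV T Ψ lev atop n (lev n u) a' = (T n).vol (lev n u) a' * B.d n ^ Yu :=
    VV_eq hH n h8 a'
  refine ⟨A1, hA1.trans hA0, f', b', a', hA1ne, hA1c, e2, e3, ?_, ?_⟩
  · -- the inequality
    obtain ⟨x, hx⟩ := hA1ne
    have h10 := e4 x hx
    rw [key] at h10
    obtain ⟨m1, m2, m3⟩ := e3 x hx
    have h11 := h9 (zc (lev n u) x.2) (b' (f' x.1 (zc (lev n u) x.2))) m2
    rw [m3, hVV] at h11
    have hsub : ((alive A1 (lev n u) (zc (lev n u) x.2)).filter fun s =>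
        f' s (zc (lev n u) x.2) = f' x.1 (zc (lev n u) x.2)) ⊆
        (alive (I n) (lev n u) (zc (lev n u) x.2)).filter fun t =>
          (T n).mem (lev n u) (zc (lev n u) x.2) (b' (f' x.1 (zc (lev n u) x.2))) (L n t) := by
      intro t ht
      rw [mem_filter, mem_alive] at ht
      obtain ⟨⟨y, hy, hy1, hy2⟩, ht2⟩ := ht
      have hym := (e3 y hy).1
      rw [hy1, hy2, ht2] at hym
      rw [mem_filter, mem_alive]
      exact ⟨⟨y, hA0 (hA1 hy), hy1, hy2⟩, hym⟩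
    have h12 : (((alive A1 (lev n u) (zc (lev n u) x.2)).filter fun s =>
        f' s (zc (lev n u) x.2) = f' x.1 (zc (lev n u) x.2)).card : ℝ) ≤
        (((alive (I n) (lev n u) (zc (lev n u) x.2)).filter fun t =>
          (T n).mem (lev n u) (zc (lev n u) x.2) (b' (f' x.1 (zc (lev n u) x.2))) (L n t)).card
            : ℝ) := by exact_mod_cast card_le_card hsub
    have h13 := h10.trans (h12.trans h11)
    have h14 : B.d n ^ (-η) * ampA B A cc n u * ((T n).vol (lev n u) a' * B.d n ^ Yu) =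
        B.d n ^ (-η + Yu) * (ampA B A cc n u * (T n).vol (lev n u) a') := by
      rw [dpow_add]; ring
    rw [h14] at h13
    have hpos : 0 < ampA B A cc n u * (T n).vol (lev n u) a' := mul_pos hampu hvol
    have h15 := le_of_mul_le_mul_right h13 hpos
    have h16 : -η + Yu ≤ η + (bb - g) * ((v : ℝ) - u) + Yv + Yd := by
      by_contra hcon
      push Not at hcon
      have := Real.rpow_lt_rpow_of_exponent_gt (B.pos n) (B.lt n) hcon
      linarith
    linarith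
  · intro x hx
    have h10 := e4 x hx
    rw [key] at h10
    refine le_trans (le_of_eq ?_) h10
    rw [hVV]
    have h17 : B.d n ^ (η + (bb - g) * ((v : ℝ) - u) + Yv + Yd - Yu) *
        (ampA B A cc n u * ((T n).vol (lev n u) a' * B.d n ^ Yu)) =
        (B.d n ^ (η + (bb - g) * ((v : ℝ) - u) + Yv + Yd - Yu) * B.d n ^ Yu) *
        (ampA B A cc n u * (T n).vol (lev n u) a') := by ring
    rw [h17, ← dpow_add]
    congr 2
    ring

end

end Crest.Agent.R116.Xc7794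
end

-- ▼ part R116/Xc8_794
section

/-!
# R116 (K side), block X1-C, class `Xc`, part 8 (helper794): the two steps for sequences

* `step_up` : marks at any `u < 1` with `κ (1 - u) ≤ ψ`;
* `step_eq` : marks at any `u < v` with the equality case of the triangle inequality.
-/

set_option autoImplicit false
set_option linter.unusedSectionVars false

open Finset Filter Topology

namespace Crest.Agent.R116.Xc8794

open Crest.Agent.R138.Ex926 Crest.Agent.R138.Dp76 Crest.Agent.R138.Ps627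
open Crest.Agent.R138.Ps926
open Crest.Agent.R138.Mk163 (zc zl rho alive own Negl)
open Crest.Agent.R138.MkRef627 (lc kc own_one alive_mono mem_alive card_class own_lower exists_num)
open Crest.Agent.R138.MkZoom779 (zc_nested zc_eq exists_rep)
open Crest.Agent.R136.MkA627 (ampA Geo MkA)
open Crest.Agent.R116.Xa794 (TS)
open Crest.Agent.R116.Xa2794 (lc_nested class_fib_ge class_fib_le)
open Crest.Agent.R116.Xa3794
open Crest.Agent.R116.Xc794 Crest.Agent.R116.Xc1794 Crest.Agent.R116.Xc2794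
open Crest.Agent.R116.Xc3794 Crest.Agent.R116.Xc4794 Crest.Agent.R116.Xc5794
open Crest.Agent.R116.Xc7794

variable {Ln ι S : Type} [Fintype ι]

section

variable {𝒯 : Set (TS Ln ι S)} {B : Base} {I : ℕ → Finset (ℕ × ℝ)} {lev : ℕ → ℚ → ℕ}
  {Λ : ℝ → ℝ} {T : ℕ → TS Ln ι S} {L : ℕ → ℕ → Ln} {A : ℕ → ℝ} {g : ℝ}
  {Ψ Ψp : ℝ → (ι → ℝ) → ℝ} {atop : ℕ → ι → ℕ} {N : ℕ → ℕ}

/-- an almost everywhere choice: conditions `P e n` for every `e > 0`. -/
theorem exists_rate (P : ℝ → ℕ → Prop) (h : ∀ e : ℝ, 0 < e → ∀ᶠ n in (U : Filter ℕ), P e n) :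
    ∃ e : ℕ → ℝ, (∀ n, 0 < e n) ∧ Tendsto e U (𝓝 0) ∧ ∀ᶠ n in (U : Filter ℕ), P (e n) n := by
  obtain ⟨k, hk, hk2⟩ := exists_diag (fun k n => P (1 / ((k : ℝ) + 1)) n)
    (fun k => h _ (by positivity))
  refine ⟨fun n => 1 / ((k n : ℝ) + 1), fun n => by positivity,
    tendsto_one_div_add_atTop_nhds_zero_nat.comp hk, ?_⟩
  filter_upwards [hk2] with n hn using hn _ le_rfl

open Classical in
/-- **marks from finite stages with errors tending to zero.** -/
theorem diag_marks [Nonempty S] {c : ℝ → ℝ} {V : ℕ → ℕ → (ι → ℕ) → ℝ}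
    (hV : ∀ n i s, 0 < V n i s) (hA : ∀ n, 0 < A n) {u : ℚ}
    (R : ℝ → ℕ → (ι → ℕ) → Prop) (hR : ∀ e e' n a, e ≤ e' → R e n a → R e' n a)
    (hG : ∀ e : ℝ, 0 < e → ∀ᶠ n in (U : Filter ℕ), ∃ A' ⊆ I n, ∃ (f' : ℕ → ℤ → ℕ)
      (b' : ℕ → (ι → ℕ) × S) (a' : ι → ℕ),
      ((I n).card : ℝ) ≤ B.d n ^ (-e) * (A'.card : ℝ) ∧
      (∀ x ∈ A', ∀ y ∈ I n, lc (lev n u) y = lc (lev n u) x → y ∈ A') ∧
      (∀ x ∈ A', (T n).mem (lev n u) (zc (lev n u) x.2) (b' (f' x.1 (zc (lev n u) x.2))) (L n x.1) ∧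
        (T n).adm (lev n u) (zc (lev n u) x.2) (b' (f' x.1 (zc (lev n u) x.2))) ∧
        (b' (f' x.1 (zc (lev n u) x.2))).1 = a') ∧ R e n a' ∧
      (∀ x ∈ A', B.d n ^ e * (ampA B A c n u * V n (lev n u) a') ≤
        (((alive A' (lev n u) (zc (lev n u) x.2)).filter fun s =>
          f' s (zc (lev n u) x.2) = f' x.1 (zc (lev n u) x.2)).card : ℝ))) :
    ∃ (A' : ℕ → Finset (ℕ × ℝ)) (f' : ℕ → ℕ → ℤ → ℕ) (b' : ℕ → ℕ → (ι → ℕ) × S)
      (a' : ℕ → ι → ℕ), (∀ n, A' n ⊆ I n) ∧ Dense B A' I ∧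
      (∀ᶠ n in (U : Filter ℕ), ∀ x ∈ A' n, ∀ y ∈ I n,
        lc (lev n u) y = lc (lev n u) x → y ∈ A' n) ∧
      Mrk B A' T L lev A c V u f' b' a' ∧
      ∀ e : ℝ, 0 < e → ∀ᶠ n in (U : Filter ℕ), R e n (a' n) := by
  obtain ⟨e, he0, hel, he⟩ := exists_rate _ hG
  have hsm : ∀ e' : ℝ, 0 < e' → ∀ᶠ n in (U : Filter ℕ), e n ≤ e' := by
    intro e' he'
    filter_upwards [hel.eventually_lt_const he'] with n hn using hn.le
  have hch : ∀ n, ∃ (A' : Finset (ℕ × ℝ)) (f' : ℕ → ℤ → ℕ) (b' : ℕ → (ι → ℕ) × S) (a' : ι → ℕ),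
      A' ⊆ I n ∧ ((∃ A' ⊆ I n, ∃ (f' : ℕ → ℤ → ℕ)
      (b' : ℕ → (ι → ℕ) × S) (a' : ι → ℕ),
      ((I n).card : ℝ) ≤ B.d n ^ (-(e n)) * (A'.card : ℝ) ∧
      (∀ x ∈ A', ∀ y ∈ I n, lc (lev n u) y = lc (lev n u) x → y ∈ A') ∧
      (∀ x ∈ A', (T n).mem (lev n u) (zc (lev n u) x.2) (b' (f' x.1 (zc (lev n u) x.2))) (L n x.1) ∧
        (T n).adm (lev n u) (zc (lev n u) x.2) (b' (f' x.1 (zc (lev n u) x.2))) ∧
        (b' (f' x.1 (zc (lev n u) x.2))).1 = a') ∧ R (e n) n a' ∧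
      (∀ x ∈ A', B.d n ^ (e n) * (ampA B A c n u * V n (lev n u) a') ≤
        (((alive A' (lev n u) (zc (lev n u) x.2)).filter fun s =>
          f' s (zc (lev n u) x.2) = f' x.1 (zc (lev n u) x.2)).card : ℝ))) →
      (((I n).card : ℝ) ≤ B.d n ^ (-(e n)) * (A'.card : ℝ) ∧
      (∀ x ∈ A', ∀ y ∈ I n, lc (lev n u) y = lc (lev n u) x → y ∈ A') ∧
      (∀ x ∈ A', (T n).mem (lev n u) (zc (lev n u) x.2) (b' (f' x.1 (zc (lev n u) x.2))) (L n x.1) ∧
        (T n).adm (lev n u) (zc (lev n u) x.2) (b' (f' x.1 (zc (lev n u) x.2))) ∧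
        (b' (f' x.1 (zc (lev n u) x.2))).1 = a') ∧ R (e n) n a' ∧
      (∀ x ∈ A', B.d n ^ (e n) * (ampA B A c n u * V n (lev n u) a') ≤
        (((alive A' (lev n u) (zc (lev n u) x.2)).filter fun s =>
          f' s (zc (lev n u) x.2) = f' x.1 (zc (lev n u) x.2)).card : ℝ)))) := by
    intro n
    by_cases hP : (∃ A' ⊆ I n, ∃ (f' : ℕ → ℤ → ℕ)
      (b' : ℕ → (ι → ℕ) × S) (a' : ι → ℕ),
      ((I n).card : ℝ) ≤ B.d n ^ (-(e n)) * (A'.card : ℝ) ∧
      (∀ x ∈ A', ∀ y ∈ I n, lc (lev n u) y = lc (lev n u) x → y ∈ A') ∧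
      (∀ x ∈ A', (T n).mem (lev n u) (zc (lev n u) x.2) (b' (f' x.1 (zc (lev n u) x.2))) (L n x.1) ∧
        (T n).adm (lev n u) (zc (lev n u) x.2) (b' (f' x.1 (zc (lev n u) x.2))) ∧
        (b' (f' x.1 (zc (lev n u) x.2))).1 = a') ∧ R (e n) n a' ∧
      (∀ x ∈ A', B.d n ^ (e n) * (ampA B A c n u * V n (lev n u) a') ≤
        (((alive A' (lev n u) (zc (lev n u) x.2)).filter fun s =>
          f' s (zc (lev n u) x.2) = f' x.1 (zc (lev n u) x.2)).card : ℝ)))
    · obtain ⟨A', hA', f', b', a', h1⟩ := hP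
      exact ⟨A', f', b', a', hA', fun _ => h1⟩
    · exact ⟨∅, fun _ _ => 0, fun _ => (fun _ => 0, Classical.arbitrary S), fun _ => 0,
        empty_subset _, fun h => absurd h hP⟩
  choose A' f' b' a' h1 h2 using hch
  refine ⟨A', f', b', a', h1, ?_, ?_, ?_, ?_⟩
  · refine dense_of_small (Eventually.of_forall h1) fun η hη => ?_
    filter_upwards [he, hsm η hη] with n hn h3
    refine (h2 n hn).1.trans (mul_le_mul_of_nonneg_right ?_ (Nat.cast_nonneg _))
    exact dpow_le B n (by linarith)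
  · filter_upwards [he] with n hn using (h2 n hn).2.1
  · refine { mark := ?_, near := ?_ }
    · filter_upwards [he] with n hn using (h2 n hn).2.2.1
    · intro ε hε
      filter_upwards [he, hsm ε hε] with n hn h3 x hx
      have h4 := (h2 n hn).2.2.2.2 x hx
      have hp : 0 < ampA B A c n u * V n (lev n u) (a' n) :=
        mul_pos (ampA_pos hA c n u) (hV _ _ _)
      have h5 := (mul_le_mul_of_nonneg_right (dpow_le B n h3) hp.le).trans h4
      have h6 := mul_le_mul_of_nonneg_left h5 (dpow_pos B n (-ε)).le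
      rw [← mul_assoc, ← dpow_add, neg_add_cancel, Real.rpow_zero, one_mul] at h6
      exact h6
  · intro e' he'
    filter_upwards [he, hsm e' he'] with n hn h3
    exact hR _ _ _ _ h3 (h2 n hn).2.2.2.1

open Classical in
/-- **equality step.** -/
theorem step_eq [Nonempty S] (h : Cx 𝒯 B I T L lev A Λ g Ψ atop N) (hH : HomA Ψ) (hS : SupA Ψ)
    (hUB : UB 𝒯 Ψ g) {u v : ℚ} (hu : 0 ≤ u) (huv : u < v) (hv : v ≤ 1)
    {f : ℕ → ℕ → ℤ → ℕ} {b : ℕ → ℕ → (ι → ℕ) × S} {a : ℕ → ι → ℕ}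
    (hM : Mrk B I T L lev A (fun v => g * v + 2 * Λ v) (VV T Ψ lev atop) v f b a) :
    ∃ (A' : ℕ → Finset (ℕ × ℝ)) (f' : ℕ → ℕ → ℤ → ℕ) (b' : ℕ → ℕ → (ι → ℕ) × S)
      (a' : ℕ → ι → ℕ), (∀ n, A' n ⊆ I n) ∧ Dense B A' I ∧
      (∀ᶠ n in (U : Filter ℕ), ∀ x ∈ A' n, ∀ y ∈ I n,
        lc (lev n u) y = lc (lev n u) x → y ∈ A' n) ∧
      Mrk B A' T L lev A (fun v => g * v + 2 * Λ v) (VV T Ψ lev atop) u f' b' a' ∧
      ∀ e : ℝ, 0 < e → ∀ᶠ n in (U : Filter ℕ),
        Ψ (len B lev n u) (ys B lev atop n u (a' n)) ≤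
          Ψ (len B lev n v) (ys B lev atop n v (a n)) +
          Ψ (len B lev n u - len B lev n v)
            (fun j => ys B lev atop n u (a' n) j - ys B lev atop n v (a n) j) + e := by
  refine diag_marks (fun n i s => VV_pos n i s) h.Apos (fun e n a' =>
    Ψ (len B lev n u) (ys B lev atop n u a') ≤
          Ψ (len B lev n v) (ys B lev atop n v (a n)) +
          Ψ (len B lev n u - len B lev n v)
            (fun j => ys B lev atop n u a' j - ys B lev atop n v (a n) j) + e)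
    (fun e e' n a he hr => by linarith) ?_
  intro e he
  filter_upwards [step_fin h hH hH hUB hu huv hv hM (η := e / 2) (by positivity),
    h.sq.lev_mono u v hu huv.le hv, h.sq.lev_mono v 1 (hu.trans huv.le) hv le_rfl]
    with n hn h1 h2
  obtain ⟨A', hA', f', b', a', -, e1, e2, e3, e4, e5⟩ := hn
  refine ⟨A', hA', f', b', a', ?_, e2, e3, by linarith, ?_⟩
  · refine e1.trans (mul_le_mul_of_nonneg_right ?_ (Nat.cast_nonneg _))
    exact dpow_le B n (by linarith)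
  · intro x hx
    refine le_trans ?_ (e5 x hx)
    refine mul_le_mul_of_nonneg_right (dpow_le B n ?_)
      (mul_pos (ampA_pos h.Apos _ n u) (VV_pos _ _ _)).le
    have h1' : (0 : ℝ) ≤ (lev n v : ℝ) - lev n u := by
      have : (lev n u : ℝ) ≤ lev n v := by exact_mod_cast h1
      linarith
    have h2' : (0 : ℝ) ≤ (lev n 1 : ℝ) - lev n v := by
      have : (lev n v : ℝ) ≤ lev n 1 := by exact_mod_cast h2
      linarith
    have h3 : 0 ≤ len B lev n v := mul_nonneg (cn_pos B n).le h2'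
    have h4 : 0 ≤ len B lev n u - len B lev n v := by
      have : len B lev n u - len B lev n v = cn B n * ((lev n v : ℝ) - lev n u) := by
        unfold len; ring
      rw [this]
      exact mul_nonneg (cn_pos B n).le h1'
    have h5 := hS _ _ (ys B lev atop n v (a n))
      (fun j => ys B lev atop n u a' j - ys B lev atop n v (a n) j) h3 h4
    have h6 : len B lev n v + (len B lev n u - len B lev n v) = len B lev n u := by ring
    have h7 : (fun j => ys B lev atop n v (a n) j + (ys B lev atop n u a' j -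
        ys B lev atop n v (a n) j)) = ys B lev atop n u a' := by
      funext j; ring
    rw [h6, h7] at h5
    linarith

open Classical in
/-- **UP step.** -/
theorem step_up [Nonempty S] {P : ℝ → ℝ → (ι → ℝ) → ℝ} {ψ : ℝ → (ι → ℝ) → ℝ} {q0 κ δ0 q : ℝ}
    (hP : Rwd P ψ q0) (hch : Chs 𝒯 P q0 κ δ0 q g)
    (h : Cx 𝒯 B I T L lev A Λ g (P q) atop N) {u : ℚ} (hu : 0 ≤ u) (hu1 : u < 1)
    {f : ℕ → ℕ → ℤ → ℕ} {b : ℕ → ℕ → (ι → ℕ) × S}
    (hM : Mrk B I T L lev A (fun v => g * v + 2 * Λ v) (VV T (P q) lev atop) 1 f b atop) :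
    ∃ (A' : ℕ → Finset (ℕ × ℝ)) (f' : ℕ → ℕ → ℤ → ℕ) (b' : ℕ → ℕ → (ι → ℕ) × S)
      (a' : ℕ → ι → ℕ), (∀ n, A' n ⊆ I n) ∧ Dense B A' I ∧
      (∀ᶠ n in (U : Filter ℕ), ∀ x ∈ A' n, ∀ y ∈ I n,
        lc (lev n u) y = lc (lev n u) x → y ∈ A' n) ∧
      Mrk B A' T L lev A (fun v => g * v + 2 * Λ v) (VV T (P q) lev atop) u f' b' a' ∧
      ∀ e : ℝ, 0 < e → ∀ᶠ n in (U : Filter ℕ),
        κ * (1 - (u : ℝ)) - e ≤ ψ (len B lev n u) (ys B lev atop n u (a' n)) := by
  have hq0 : 0 ≤ q := hP.q0pos.le.trans hch.qlo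
  refine diag_marks (fun n i s => VV_pos n i s) h.Apos (fun e n a' =>
    κ * (1 - (u : ℝ)) - e ≤ ψ (len B lev n u) (ys B lev atop n u a'))
    (fun e e' n a he hr => by linarith) ?_
  intro e he
  set δ : ℝ := min δ0 (e / 4) with hδ
  have hδp : 0 < δ := lt_min hch.δ0pos (by positivity)
  have hδ0 : δ ≤ δ0 := min_le_left _ _
  have hδe : δ ≤ e / 4 := min_le_right _ _
  set η : ℝ := min (e / 4) (e * δ / 2) with hη
  have hηp : 0 < η := lt_min (by positivity) (by positivity)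
  have hη1 : η ≤ e / 4 := min_le_left _ _
  have hη2 : η ≤ e * δ / 2 := min_le_right _ _
  have hHq : HomA (P q) := fun c l x hc hl => hP.hom q c l x hq0 hc hl
  have hHp : HomA (P (q + δ)) := fun c l x hc hl => hP.hom (q + δ) c l x (by linarith) hc hl
  have hlen := (len_lim h.sq hu hu1.le).eventually_lt_const
    (show (1 : ℝ) - u < 2 by
      have : (0 : ℝ) ≤ u := by exact_mod_cast hu
      linarith)
  filter_upwards [step_fin h hHq hHp (hch.drop δ hδp hδ0) hu hu1 le_rfl hM (η := η) hηp,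
    h.sq.lev_mono u 1 hu hu1.le le_rfl, hlen] with n hn h1 h2
  obtain ⟨A', hA', f', b', a', -, e1, e2, e3, e4, e5⟩ := hn
  -- simplify the top marks
  have l0 : len B lev n 1 = 0 := by unfold len; ring
  have y0 : ys B lev atop n 1 (atop n) = fun _ => (0 : ℝ) := by
    funext j; simp [ys, rel]
  have hz : P q (len B lev n 1) (ys B lev atop n 1 (atop n)) = 0 := by
    rw [l0, y0]; exact hP.zero q
  have hd : P (q + δ) (len B lev n u - len B lev n 1)
      (fun j => ys B lev atop n u a' j - ys B lev atop n 1 (atop n) j) =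
      P q (len B lev n u) (ys B lev atop n u a') +
        δ * ψ (len B lev n u) (ys B lev atop n u a') := by
    rw [l0, y0, sub_zero]
    have e6 : (fun j => ys B lev atop n u a' j - (0 : ℝ)) = ys B lev atop n u a' := by
      funext j; ring
    rw [e6, hP.aff (q + δ), hP.aff q]; ring
  have h1' : (0 : ℝ) ≤ (lev n 1 : ℝ) - lev n u := by
    have : (lev n u : ℝ) ≤ lev n 1 := by exact_mod_cast h1
    linarith
  have hl0 : 0 ≤ len B lev n u := mul_nonneg (cn_pos B n).le h1'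
  have hψ := hP.le (len B lev n u) (ys B lev atop n u a') hl0
  rw [hz, hd, Rat.cast_one] at e4
  have hκ := hch.κpos
  have hu' : (0 : ℝ) < 1 - u := by
    have : (u : ℝ) < 1 := by exact_mod_cast hu1
    linarith
  refine ⟨A', hA', f', b', a', ?_, e2, e3, ?_, ?_⟩
  · refine e1.trans (mul_le_mul_of_nonneg_right ?_ (Nat.cast_nonneg _))
    exact dpow_le B n (by linarith)
  · have h6 : δ * (κ * (1 - (u : ℝ)) - e) ≤ δ * ψ (len B lev n u) (ys B lev atop n u a') := by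
      nlinarith
    exact le_of_mul_le_mul_left h6 hδp
  · intro x hx
    refine le_trans ?_ (e5 x hx)
    refine mul_le_mul_of_nonneg_right (dpow_le B n ?_)
      (mul_pos (ampA_pos h.Apos _ n u) (VV_pos _ _ _)).le
    rw [hz, hd, Rat.cast_one]
    have h7 : δ * ψ (len B lev n u) (ys B lev atop n u a') ≤ δ * 2 :=
      mul_le_mul_of_nonneg_left (hψ.trans h2.le) hδp.le
    have h8 : 0 < κ * δ * (1 - (u : ℝ)) := by positivity
    nlinarith

end

end Crest.Agent.R116.Xc8794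
end

-- ▼ part R116/Xc9_794
section

/-!
# R116 (K side), block X1-C, class `Xc`, part 9 (helper794): finite mesh

* `refineF` : refinement for a finite set of marked levels;
* `add_mark` : one more marked level;
* `eq_lim` : the equality case of the superadditivity gives the linear widths;
* `mesh` : marks with linear widths at every finite set of levels below `v0`.
-/

set_option autoImplicit false
set_option linter.unusedSectionVars false

open Finset Filter Topology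

namespace Crest.Agent.R116.Xc9794

open Crest.Agent.R138.Ex926 Crest.Agent.R138.Dp76 Crest.Agent.R138.Ps627
open Crest.Agent.R138.Ps926
open Crest.Agent.R138.Mk163 (zc zl rho alive own Negl)
open Crest.Agent.R138.MkRef627 (lc kc own_one alive_mono mem_alive card_class own_lower exists_num)
open Crest.Agent.R138.MkZoom779 (zc_nested zc_eq exists_rep)
open Crest.Agent.R136.MkA627 (ampA Geo MkA)
open Crest.Agent.R116.Xa794 (TS)
open Crest.Agent.R116.Xa2794 (lc_nested class_fib_ge class_fib_le)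
open Crest.Agent.R116.Xa3794
open Crest.Agent.R116.Xc794 Crest.Agent.R116.Xc1794 Crest.Agent.R116.Xc2794
open Crest.Agent.R116.Xc3794 Crest.Agent.R116.Xc4794 Crest.Agent.R116.Xc5794
open Crest.Agent.R116.Xc7794 Crest.Agent.R116.Xc8794

variable {Ln ι S : Type} [Fintype ι]

section

variable {𝒯 : Set (TS Ln ι S)} {B : Base} {I : ℕ → Finset (ℕ × ℝ)} {lev : ℕ → ℚ → ℕ}
  {Λ : ℝ → ℝ} {T : ℕ → TS Ln ι S} {L : ℕ → ℕ → Ln} {A : ℕ → ℝ} {g : ℝ} {c : ℝ → ℝ}
  {V : ℕ → ℕ → (ι → ℕ) → ℝ}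
  {Ψ Ψp : ℝ → (ι → ℝ) → ℝ} {atop : ℕ → ι → ℕ} {N : ℕ → ℕ}

/-- refinement for a finite set of levels -/
theorem refineF (h : Sq B I lev Λ) {J : ℕ → Finset (ℕ × ℝ)} (hJ : Dense B J I) (W : Finset ℚ)
    (hW : ∀ v ∈ W, 0 ≤ v ∧ v ≤ 1) {w0 : ℚ} (hw0 : w0 ∈ W)
    (Af : ℚ → ℕ → Finset (ℕ × ℝ)) (hAf : ∀ v ∈ W, ∀ n, Af v n ⊆ I n)
    (hJA : ∀ v ∈ W, ∀ᶠ n in (U : Filter ℕ), J n ⊆ Af v n)
    (hcl : ∀ v ∈ W, ∀ᶠ n in (U : Filter ℕ), ∀ x ∈ Af v n, ∀ y ∈ I n,
      lc (lev n v) y = lc (lev n v) x → y ∈ Af v n)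
    (f : ℚ → ℕ → ℕ → ℤ → ℕ) (b : ℚ → ℕ → ℕ → (ι → ℕ) × S) (a : ℚ → ℕ → ι → ℕ)
    (hM : ∀ v ∈ W, Mrk B (Af v) T L lev A c V v (f v) (b v) (a v)) :
    ∃ J' : ℕ → Finset (ℕ × ℝ), (∀ n, J' n ⊆ J n) ∧ (∀ n, J' n ⊆ I n) ∧ Dense B J' I ∧
      Sq B J' lev Λ ∧ ∀ v ∈ W, Mrk B J' T L lev A c V v (f v) (b v) (a v) := by
  classical
  set w : ℕ → ℚ := fun k => if Denumerable.ofNat ℚ k ∈ W then Denumerable.ofNat ℚ k else w0 with hw
  have hwW : ∀ k, w k ∈ W := by
    intro k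
    simp only [hw]
    split_ifs with h1
    · exact h1
    · exact hw0
  obtain ⟨J', h1, h2, -, h4, h5, h6⟩ := refine h hJ w (fun k => hW _ (hwW k)) (fun k => Af (w k))
    (fun k => hAf _ (hwW k)) (fun k => hJA _ (hwW k)) (fun k => hcl _ (hwW k)) (fun k => f (w k))
    (fun k => b (w k)) (fun k => a (w k)) (fun k => hM _ (hwW k))
  refine ⟨J', h1, h2, h4, h5, ?_⟩
  intro v hv
  obtain ⟨k, hk⟩ := exists_num v
  have h7 := h6 k
  have h8 : w k = v := by
    simp only [hw, hk, if_pos hv]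
  rw [h8] at h7
  exact h7

/-- one more marked level -/
theorem add_mark (h : Cx 𝒯 B I T L lev A Λ g Ψ atop N) {W : Finset ℚ}
    (hW : ∀ v ∈ W, 0 ≤ v ∧ v ≤ 1) {f : ℚ → ℕ → ℕ → ℤ → ℕ} {b : ℚ → ℕ → ℕ → (ι → ℕ) × S}
    {a : ℚ → ℕ → ι → ℕ}
    (hM : ∀ v ∈ W, Mrk B I T L lev A (fun v => g * v + 2 * Λ v) (VV T Ψ lev atop) v (f v) (b v) (a v))
    {u : ℚ} (hu0 : 0 ≤ u) (hu1 : u ≤ 1) {A' : ℕ → Finset (ℕ × ℝ)} {f' : ℕ → ℕ → ℤ → ℕ}
    {b' : ℕ → ℕ → (ι → ℕ) × S} {a' : ℕ → ι → ℕ} (hA' : ∀ n, A' n ⊆ I n) (hd : Dense B A' I)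
    (hcl : ∀ᶠ n in (U : Filter ℕ), ∀ x ∈ A' n, ∀ y ∈ I n,
      lc (lev n u) y = lc (lev n u) x → y ∈ A' n)
    (hM' : Mrk B A' T L lev A (fun v => g * v + 2 * Λ v) (VV T Ψ lev atop) u f' b' a') :
    ∃ J : ℕ → Finset (ℕ × ℝ), (∀ n, J n ⊆ I n) ∧ Dense B J I ∧
      Cx 𝒯 B J T L lev A Λ g Ψ atop N ∧
      ∀ v ∈ insert u W, Mrk B J T L lev A (fun v => g * v + 2 * Λ v) (VV T Ψ lev atop) v
        (Function.update f u f' v) (Function.update b u b' v) (Function.update a u a' v) := by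
  classical
  obtain ⟨J', h1, h2, h3, h4, h5⟩ := refineF (c := fun v => g * v + 2 * Λ v)
    (V := VV T Ψ lev atop) (T := T) (L := L) (A := A) h.sq hd (insert u W) (by
      intro v hv
      rcases mem_insert.1 hv with rfl | hv
      · exact ⟨hu0, hu1⟩
      · exact hW v hv) (mem_insert_self u W) (Function.update (fun _ => I) u A') (by
      intro v _ n
      by_cases hvu : v = u
      · subst hvu; rw [Function.update_self]; exact hA' n
      · rw [Function.update_of_ne hvu]) (by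
      intro v _
      by_cases hvu : v = u
      · subst hvu
        exact Eventually.of_forall fun n => by rw [Function.update_self]
      · exact Eventually.of_forall fun n => by rw [Function.update_of_ne hvu]; exact hA' n) (by
      intro v _
      by_cases hvu : v = u
      · subst hvu
        rw [Function.update_self]
        exact hcl
      · rw [Function.update_of_ne hvu]
        exact Eventually.of_forall fun n x _ y hy _ => hy)
    (Function.update f u f') (Function.update b u b') (Function.update a u a') (by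
      intro v hv
      by_cases hvu : v = u
      · subst hvu
        simp only [Function.update_self]
        exact hM'
      · simp only [Function.update_of_ne hvu]
        exact hM v ((mem_insert.1 hv).resolve_left hvu))
  exact ⟨J', h2, h3, ⟨h.hT, h.fin, h.Nd, h.Apos, h4, h.dmx.mono h2⟩, h5⟩

/-- limits of vectors along the ultrafilter -/
theorem exists_vlim {y : ℕ → ι → ℝ} {C : ℝ}
    (h : ∀ᶠ n in (U : Filter ℕ), ∀ j, |y n j| ≤ C) :
    ∃ x : ι → ℝ, Tendsto y U (𝓝 x) := by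
  have h1 : ∀ j, ∃ x : ℝ, Tendsto (fun n => y n j) U (𝓝 x) := by
    intro j
    have h2 := exists_tendsto (f := fun n => y n j) (C := C) (by
      filter_upwards [h] with n hn using hn j)
    obtain ⟨x, hx⟩ := h2
    first
      | exact ⟨x, hx⟩
      | exact ⟨x, hx.2⟩
      | exact ⟨x, hx.1⟩
  choose x hx using h1
  exact ⟨x, tendsto_pi_nhds.2 hx⟩

/-- the equality case: linear widths. -/
theorem eq_lim {P : ℝ → ℝ → (ι → ℝ) → ℝ} {ψ : ℝ → (ι → ℝ) → ℝ} {q0 q : ℝ}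
    (hP : Rwd P ψ q0) (hq0 : q0 ≤ q) (hq8 : q ≤ 8) (h : Sq B I lev Λ) {u v : ℚ} (hu : 0 ≤ u)
    (huv : u < v) (hv : v < 1) {a a' : ℕ → ι → ℕ} {θ : ι → ℝ}
    (hθ : ∀ j, Tendsto (fun n => ys B lev atop n v (a n) j) U (𝓝 (θ j * (1 - (v : ℝ)))))
    (hE : ∀ e : ℝ, 0 < e → ∀ᶠ n in (U : Filter ℕ),
        P q (len B lev n u) (ys B lev atop n u (a' n)) ≤
          P q (len B lev n v) (ys B lev atop n v (a n)) +
          P q (len B lev n u - len B lev n v)
            (fun j => ys B lev atop n u (a' n) j - ys B lev atop n v (a n) j) + e) (j : ι) :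
    Tendsto (fun n => ys B lev atop n u (a' n) j) U (𝓝 (θ j * (1 - (u : ℝ)))) := by
  have huR : (0 : ℝ) ≤ u := by exact_mod_cast hu
  have huvR : (u : ℝ) < v := by exact_mod_cast huv
  have hvR : (v : ℝ) < 1 := by exact_mod_cast hv
  have hlv := len_lim h (hu.trans huv.le) hv.le
  have hlu := len_lim h hu (huv.le.trans hv.le)
  set l0 : ℝ := min ((1 - (v : ℝ)) / 2) (((v : ℝ) - u) / 2) with hl0
  have hl0p : 0 < l0 := lt_min (by linarith) (by linarith)
  have hl01 : l0 ≤ (1 - (v : ℝ)) / 2 := min_le_left _ _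
  have hl02 : l0 ≤ ((v : ℝ) - u) / 2 := min_le_right _ _
  -- bound of the widths at `v`
  obtain ⟨R, hR⟩ : ∃ R : ℝ, ∀ j, |θ j * (1 - (v : ℝ))| < R := by
    refine ⟨∑ j, |θ j * (1 - (v : ℝ))| + 1, fun j => ?_⟩
    have := single_le_sum (f := fun j => |θ j * (1 - (v : ℝ))|) (fun i _ => abs_nonneg _)
      (mem_univ j)
    linarith
  have hRev : ∀ᶠ n in (U : Filter ℕ), ∀ j, |ys B lev atop n v (a n) j| ≤ R := by
    rw [Filter.eventually_all]
    intro j
    filter_upwards [(hθ j).abs.eventually_lt_const (hR j)] with n hn using hn.le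
  -- the difference tends to zero
  have hdiff : Tendsto (fun n => ys B lev atop n u (a' n) j -
      len B lev n u / len B lev n v * ys B lev atop n v (a n) j) U (𝓝 0) := by
    rw [Metric.tendsto_nhds]
    intro ε hε
    obtain ⟨δ, hδ, hδ2⟩ := hP.eqc l0 R (ε / 2) hl0p (by positivity)
    filter_upwards [hE δ hδ, hRev, hlv.eventually_const_lt (show l0 < 1 - (v : ℝ) by linarith),
      hlv.eventually_lt_const (show 1 - (v : ℝ) < 2 by linarith),
      (hlu.sub hlv).eventually_const_lt (show l0 < (1 - (u : ℝ)) - (1 - (v : ℝ)) by linarith),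
      (hlu.sub hlv).eventually_lt_const (show (1 - (u : ℝ)) - (1 - (v : ℝ)) < 2 by linarith)]
      with n h1 h2 h3 h4 h5 h6
    have h7 : (fun j => ys B lev atop n v (a n) j + (ys B lev atop n u (a' n) j -
        ys B lev atop n v (a n) j)) = ys B lev atop n u (a' n) := by
      funext j; ring
    have h8 : len B lev n v + (len B lev n u - len B lev n v) = len B lev n u := by ring
    have h9 := hδ2 q (len B lev n v) (len B lev n u - len B lev n v) (ys B lev atop n v (a n))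
      (fun j => ys B lev atop n u (a' n) j - ys B lev atop n v (a n) j) hq0 hq8 h3.le h4.le h5.le
      h6.le h2 (by rw [h7, h8]; exact h1) j
    rw [h8] at h9
    rw [Real.dist_eq, sub_zero]
    have h10 : ys B lev atop n v (a n) j + (ys B lev atop n u (a' n) j -
        ys B lev atop n v (a n) j) = ys B lev atop n u (a' n) j := by ring
    rw [h10] at h9
    linarith
  have hmain : Tendsto (fun n => len B lev n u / len B lev n v * ys B lev atop n v (a n) j) U
      (𝓝 ((1 - (u : ℝ)) / (1 - v) * (θ j * (1 - (v : ℝ))))) :=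
    (hlu.div hlv (by linarith)).mul (hθ j)
  have := hdiff.add hmain
  have e1 : (0 : ℝ) + (1 - (u : ℝ)) / (1 - v) * (θ j * (1 - (v : ℝ))) = θ j * (1 - (u : ℝ)) := by
    have : (1 - (v : ℝ)) ≠ 0 := by linarith
    field_simp
    ring
  rw [e1] at this
  refine this.congr fun n => ?_
  ring

/-- the first marked level: linear direction `θ` -/
theorem first_mark [Nonempty S] {P : ℝ → ℝ → (ι → ℝ) → ℝ} {ψ : ℝ → (ι → ℝ) → ℝ} {q0 κ δ0 q : ℝ}
    (hP : Rwd P ψ q0) (hch : Chs 𝒯 P q0 κ δ0 q g)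
    (h : Cx 𝒯 B I T L lev A Λ g (P q) atop N) {v0 : ℚ} (hv0 : 0 < v0) (hv1 : v0 < 1)
    {f : ℕ → ℕ → ℤ → ℕ} {b : ℕ → ℕ → (ι → ℕ) × S}
    (hM : Mrk B I T L lev A (fun v => g * v + 2 * Λ v) (VV T (P q) lev atop) 1 f b atop) :
    ∃ (J : ℕ → Finset (ℕ × ℝ)) (f : ℚ → ℕ → ℕ → ℤ → ℕ) (b : ℚ → ℕ → ℕ → (ι → ℕ) × S)
      (a : ℚ → ℕ → ι → ℕ) (θ : ι → ℝ), (∀ n, J n ⊆ I n) ∧ Dense B J I ∧
      Cx 𝒯 B J T L lev A Λ g (P q) atop N ∧ a 1 = atop ∧ κ ≤ ψ 1 θ ∧
      ∀ v ∈ (insert 1 (insert v0 ∅) : Finset ℚ),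
        Mrk B J T L lev A (fun v => g * v + 2 * Λ v) (VV T (P q) lev atop) v (f v) (b v) (a v) ∧
        ∀ j, Tendsto (fun n => ys B lev atop n v (a v n) j) U (𝓝 (θ j * (1 - (v : ℝ)))) := by
  classical
  have hv1R : (v0 : ℝ) < 1 := by exact_mod_cast hv1
  have hv0R : (0 : ℝ) < v0 := by exact_mod_cast hv0
  have hκ := hch.κpos
  have hpos : 0 < κ * (1 - (v0 : ℝ)) := mul_pos hκ (by linarith)
  obtain ⟨A', f', b', a', h1, h2, h3, h4, h5⟩ := step_up hP hch h hv0.le hv1 hM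
  -- boundedness
  obtain ⟨R, hR, hR2⟩ := hP.coe (κ / 2) (by linarith)
  have hlen := len_lim h.sq hv0.le hv1.le
  have hbd : ∀ᶠ n in (U : Filter ℕ), ∀ j, |ys B lev atop n v0 (a' n) j| ≤ R * 2 := by
    filter_upwards [h5 (κ * (1 - (v0 : ℝ)) / 4) (by positivity),
      hlen.eventually_lt_const (show 1 - (v0 : ℝ) < (1 - (v0 : ℝ)) * (3 / 2) by linarith),
      hlen.eventually_const_lt (show 0 < 1 - (v0 : ℝ) by linarith)] with n e1 e2 e3 j
    have e4 := hR2 (len B lev n v0) (ys B lev atop n v0 (a' n)) e3.le (by nlinarith) j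
    refine e4.trans (mul_le_mul_of_nonneg_left ?_ hR.le)
    linarith
  obtain ⟨x0, hx0⟩ := exists_vlim hbd
  set θ : ι → ℝ := fun j => x0 j / (1 - (v0 : ℝ)) with hθ
  have hlim : Tendsto (fun n => ψ (len B lev n v0) (ys B lev atop n v0 (a' n))) U
      (𝓝 (ψ (1 - (v0 : ℝ)) x0)) :=
    (hP.contψ.tendsto ((1 - (v0 : ℝ), x0) : ℝ × (ι → ℝ))).comp (hlen.prodMk_nhds hx0)
  have hge : κ * (1 - (v0 : ℝ)) ≤ ψ (1 - (v0 : ℝ)) x0 := by
    refine le_of_forall_pos_le_add fun e he => ?_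
    have h6 := ge_of_tendsto hlim (h5 e he)
    linarith
  have hθψ : κ ≤ ψ 1 θ := by
    have h6 := hP.homψ (1 / (1 - (v0 : ℝ))) (1 - (v0 : ℝ)) x0
      (one_div_nonneg.2 (by linarith)) (by linarith)
    have h7 : 1 / (1 - (v0 : ℝ)) * (1 - (v0 : ℝ)) = 1 :=
      one_div_mul_cancel (by linarith)
    have h8 : (fun j => 1 / (1 - (v0 : ℝ)) * x0 j) = θ := by
      funext j
      simp only [hθ]; ring
    rw [h7, h8] at h6
    rw [h6]
    rw [one_div, ← div_eq_inv_mul, le_div_iff₀ (by linarith)]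
    exact hge
  obtain ⟨J, g1, g2, g3, g4⟩ := add_mark h (W := {1}) (f := fun _ => f) (b := fun _ => b)
    (a := fun _ => atop) (by
      intro v hv
      rw [mem_singleton] at hv
      subst hv
      exact ⟨zero_le_one, le_rfl⟩) (by
      intro v hv
      rw [mem_singleton] at hv
      subst hv
      exact hM) hv0.le hv1.le h1 h2 h3 h4
  refine ⟨J, Function.update (fun _ => f) v0 f', Function.update (fun _ => b) v0 b',
    Function.update (fun _ => atop) v0 a', θ, g1, g2, g3, ?_, hθψ, ?_⟩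
  · exact Function.update_of_ne hv1.ne' _ _
  · intro v hv
    refine ⟨g4 v ?_, ?_⟩
    · rw [mem_insert, mem_insert] at hv
      rw [mem_insert, mem_singleton]
      rcases hv with hv | hv | hv
      · exact Or.inr hv
      · exact Or.inl hv
      · exact absurd hv (notMem_empty v)
    · intro j
      rw [mem_insert, mem_insert] at hv
      rcases hv with rfl | rfl | hv
      · rw [Function.update_of_ne hv1.ne']
        have e1 : θ j * (1 - ((1 : ℚ) : ℝ)) = 0 := by rw [Rat.cast_one]; ring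
        rw [e1]
        refine tendsto_const_nhds.congr fun n => ?_
        simp [ys, rel]
      · rw [Function.update_self]
        have e1 : θ j * (1 - (v : ℝ)) = x0 j := by
          simp only [hθ]
          have : (1 - (v : ℝ)) ≠ 0 := by linarith
          field_simp
        rw [e1]
        exact (tendsto_pi_nhds.1 hx0) j
      · exact absurd hv (notMem_empty v)

/-- **the finite mesh.** -/
theorem mesh [Nonempty S] {P : ℝ → ℝ → (ι → ℝ) → ℝ} {ψ : ℝ → (ι → ℝ) → ℝ} {q0 κ δ0 q : ℝ}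
    (hP : Rwd P ψ q0) (hch : Chs 𝒯 P q0 κ δ0 q g)
    (h : Cx 𝒯 B I T L lev A Λ g (P q) atop N) {v0 : ℚ} (hv0 : 0 < v0) (hv1 : v0 < 1)
    {f : ℕ → ℕ → ℤ → ℕ} {b : ℕ → ℕ → (ι → ℕ) × S}
    (hM : Mrk B I T L lev A (fun v => g * v + 2 * Λ v) (VV T (P q) lev atop) 1 f b atop)
    (W : Finset ℚ) (hW : ∀ u ∈ W, 0 ≤ u ∧ u < v0) :
    ∃ (J : ℕ → Finset (ℕ × ℝ)) (f : ℚ → ℕ → ℕ → ℤ → ℕ) (b : ℚ → ℕ → ℕ → (ι → ℕ) × S)
      (a : ℚ → ℕ → ι → ℕ) (θ : ι → ℝ), (∀ n, J n ⊆ I n) ∧ Dense B J I ∧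
      Cx 𝒯 B J T L lev A Λ g (P q) atop N ∧ a 1 = atop ∧ κ ≤ ψ 1 θ ∧
      ∀ v ∈ insert 1 (insert v0 W),
        Mrk B J T L lev A (fun v => g * v + 2 * Λ v) (VV T (P q) lev atop) v (f v) (b v) (a v) ∧
        ∀ j, Tendsto (fun n => ys B lev atop n v (a v n) j) U (𝓝 (θ j * (1 - (v : ℝ)))) := by
  classical
  have hq0 : 0 ≤ q := hP.q0pos.le.trans hch.qlo
  have hq8 : q ≤ 8 := by linarith [hch.qhi, hch.δ0pos]
  have hHq : HomA (P q) := fun c l x hc hl => hP.hom q c l x hq0 hc hl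
  have hSq : SupA (P q) := fun l l' x x' hl hl' => hP.sup q l l' x x' hq0 hl hl'
  induction W using Finset.induction_on with
  | empty => exact first_mark hP hch h hv0 hv1 hM
  | @insert u W huW ih =>
    obtain ⟨J, f, b, a, θ, h1, h2, h3, h4, h5, h6⟩ := ih
      (fun w hw => hW w (mem_insert_of_mem hw))
    obtain ⟨hu0, huv⟩ := hW u (mem_insert_self u W)
    have hu1 : u < 1 := huv.trans hv1
    obtain ⟨hM0, hy0⟩ := h6 v0 (mem_insert_of_mem (mem_insert_self _ _))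
    obtain ⟨A', f', b', a', e1, e2, e3, e4, e5⟩ := step_eq h3 hHq hSq hch.ub hu0 huv hv1.le hM0
    have hy' := fun j => eq_lim hP hch.qlo hq8 h3.sq hu0 huv hv1 hy0 e5 j
    obtain ⟨J', g1, g2, g3, g4⟩ := add_mark h3 (W := insert 1 (insert v0 W)) (by
      intro v hv
      rw [mem_insert, mem_insert] at hv
      rcases hv with rfl | rfl | hv
      · exact ⟨zero_le_one, le_rfl⟩
      · exact ⟨hv0.le, hv1.le⟩
      · have := hW v (mem_insert_of_mem hv)
        exact ⟨this.1, (this.2.trans hv1).le⟩) (fun v hv => (h6 v hv).1) hu0 hu1.le e1 e2 e3 e4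
    refine ⟨J', _, _, _, θ, fun n => (g1 n).trans (h1 n), g2.trans h2, g3, ?_, h5,
      fun v hv => ⟨g4 v ?_, ?_⟩⟩
    · rw [Function.update_of_ne hu1.ne']
      exact h4
    · simp only [mem_insert] at hv ⊢
      tauto
    · intro j
      by_cases hvu : v = u
      · subst hvu
        rw [Function.update_self]
        exact hy' j
      · rw [Function.update_of_ne hvu]
        refine (h6 v ?_).2 j
        simp only [mem_insert] at hv ⊢
        tauto

end

end Crest.Agent.R116.Xc9794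
end

-- ▼ part R116/XcD_794
section

/-!
# R116 (K side), block X1-C, class `Xc` (helper794): final diagonal
-/

set_option autoImplicit false
set_option linter.unusedSectionVars false

open Finset Filter Topology

namespace Crest.Agent.R116.XcD794

open Crest.Agent.R138.Ex926 Crest.Agent.R138.Dp76 Crest.Agent.R138.Ps627
open Crest.Agent.R138.Ps926
open Crest.Agent.R138.Mk163 (zc zl rho alive own Negl)
open Crest.Agent.R138.MkRef627 (lc kc own_one alive_mono mem_alive card_class own_lower exists_num)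
open Crest.Agent.R138.MkZoom779 (zc_nested zc_eq exists_rep)
open Crest.Agent.R136.MkA627 (ampA Geo MkA)
open Crest.Agent.R116.Xa794 (TS)
open Crest.Agent.R116.Xa3794
open Crest.Agent.R116.Xc794 Crest.Agent.R116.Xc1794 Crest.Agent.R116.Xc2794
open Crest.Agent.R116.Xc3794 Crest.Agent.R116.Xc4794 Crest.Agent.R116.Xc5794
open Crest.Agent.R116.Xc7794 Crest.Agent.R116.Xc8794 Crest.Agent.R116.Xc9794

variable {Ln ι S : Type} [Fintype ι]

section
variable {𝒯 : Set (TS Ln ι S)} {B : Base} {I : ℕ → Finset (ℕ × ℝ)} {lev : ℕ → ℚ → ℕ}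
  {Λ : ℝ → ℝ} {T : ℕ → TS Ln ι S} {L : ℕ → ℕ → Ln} {A : ℕ → ℝ} {g : ℝ}
  {Ψ : ℝ → (ι → ℝ) → ℝ} {atop : ℕ → ι → ℕ} {N : ℕ → ℕ}

open Classical in
/-- finite-level statement at one level `v` with error `e` -/
def Pv (B : Base) (T : ℕ → TS Ln ι S) (L : ℕ → ℕ → Ln) (lev : ℕ → ℚ → ℕ) (A : ℕ → ℝ) (Λ : ℝ → ℝ)
    (g : ℝ) (Ψ : ℝ → (ι → ℝ) → ℝ) (atop : ℕ → ι → ℕ) (n : ℕ) (J : Finset (ℕ × ℝ))
    (f : ℕ → ℤ → ℕ) (b : ℕ → (ι → ℕ) × S) (a : ι → ℕ) (θ : ι → ℝ) (e : ℝ) (v : ℚ) : Prop :=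
  (∀ x ∈ J, (T n).mem (lev n v) (zc (lev n v) x.2) (b (f x.1 (zc (lev n v) x.2))) (L n x.1) ∧
      (T n).adm (lev n v) (zc (lev n v) x.2) (b (f x.1 (zc (lev n v) x.2))) ∧
      (b (f x.1 (zc (lev n v) x.2))).1 = a) ∧
  (∀ x ∈ J, ampA B A (fun v => g * v + 2 * Λ v) n v * VV T Ψ lev atop n (lev n v) a ≤
      B.d n ^ (-e) * (((alive J (lev n v) (zc (lev n v) x.2)).filter fun s =>
        f s (zc (lev n v) x.2) = f x.1 (zc (lev n v) x.2)).card : ℝ)) ∧
  (∀ x ∈ J, B.d n ^ (-(1 - (v : ℝ)) + (Λ 1 - Λ v) + e) ≤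
      ((J.filter fun y => lc (lev n v) y = lc (lev n v) x).card : ℝ)) ∧
  ∀ j, |ys B lev atop n v a j - θ j * (1 - (v : ℝ))| ≤ e

theorem final_diag [Nonempty S] (h : Cx 𝒯 B I T L lev A Λ g Ψ atop N) {κ : ℝ}
    {ψ : ℝ → (ι → ℝ) → ℝ}
    (hψ : Continuous fun z : ℝ × (ι → ℝ) => ψ z.1 z.2)
    (hcoe : ∃ R : ℝ, ∀ x, κ ≤ ψ 1 x → ∀ j, |x j| ≤ R)
    (hk : ∀ v0 : ℚ, 0 < v0 → v0 < 1 → ∀ W : Finset ℚ, (∀ u ∈ W, 0 ≤ u ∧ u < v0) →
      ∃ (J : ℕ → Finset (ℕ × ℝ)) (f : ℚ → ℕ → ℕ → ℤ → ℕ) (b : ℚ → ℕ → ℕ → (ι → ℕ) × S)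
        (a : ℚ → ℕ → ι → ℕ) (θ : ι → ℝ), (∀ n, J n ⊆ I n) ∧ Dense B J I ∧ Sq B J lev Λ ∧
        a 1 = atop ∧ κ ≤ ψ 1 θ ∧ ∀ v ∈ insert 1 (insert v0 W),
          Mrk B J T L lev A (fun v => g * v + 2 * Λ v) (VV T Ψ lev atop) v (f v) (b v) (a v) ∧
          ∀ j, Tendsto (fun n => ys B lev atop n v (a v n) j) U (𝓝 (θ j * (1 - (v : ℝ))))) :
    ∃ (J : ℕ → Finset (ℕ × ℝ)) (f : ℕ → ℚ → ℕ → ℤ → ℕ) (b : ℕ → ℚ → ℕ → (ι → ℕ) × S)
      (a : ℕ → ℚ → ι → ℕ) (θ : ι → ℝ), (∀ n, J n ⊆ I n) ∧ Sq B J lev Λ ∧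
      (∀ n, a n 1 = atop n) ∧ κ ≤ ψ 1 θ ∧ ∀ v : ℚ, 0 ≤ v → v ≤ 1 →
        Mrk B J T L lev A (fun v => g * v + 2 * Λ v) (VV T Ψ lev atop) v (fun n => f n v)
          (fun n => b n v) (fun n => a n v) ∧
        ∀ j, Tendsto (fun n => ys B lev atop n v (a n v) j) U (𝓝 (θ j * (1 - (v : ℝ)))) := by
  classical
  set v0 : ℕ → ℚ := fun k => 1 - 1 / ((k : ℚ) + 2) with hv0
  have hv0p : ∀ k, 0 < v0 k := by
    intro k
    have : 1 / ((k : ℚ) + 2) < 1 := by
      rw [div_lt_one (by positivity)]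
      have : (0 : ℚ) ≤ k := Nat.cast_nonneg k
      linarith
    simp only [hv0]; linarith
  have hv01 : ∀ k, v0 k < 1 := by
    intro k
    have : 0 < 1 / ((k : ℚ) + 2) := by positivity
    simp only [hv0]; linarith
  set W : ℕ → Finset ℚ := fun k =>
    ((range k).image (fun m => Denumerable.ofNat ℚ m)).filter fun u => 0 ≤ u ∧ u < v0 k with hW
  have hex := fun k => hk (v0 k) (hv0p k) (hv01 k) (W k) (fun u hu => (mem_filter.1 hu).2)
  choose J f b a θ hJ hJd hJs ha hθ hM using hex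
  set e : ℕ → ℝ := fun k => 1 / ((k : ℝ) + 1) with he
  have hep : ∀ k, 0 < e k := fun k => by simp only [he]; positivity
  -- the finite statements
  have hP : ∀ k, ∀ᶠ n in (U : Filter ℕ), (J k n).Nonempty ∧
      ∀ v ∈ insert 1 (insert (v0 k) (W k)), Pv B T L lev A Λ g Ψ atop n (J k n) (f k v n)
        (b k v n) (a k v n) (θ k) (e k) v := by
    intro k
    refine ((hJs k).ne).and ?_
    rw [Filter.eventually_all_finset]
    intro v hv
    obtain ⟨hMk, hy⟩ := hM k v hv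
    have hv01' : 0 ≤ v ∧ v ≤ 1 := by
      rw [mem_insert, mem_insert] at hv
      rcases hv with rfl | rfl | hv
      · exact ⟨zero_le_one, le_rfl⟩
      · exact ⟨(hv0p k).le, (hv01 k).le⟩
      · have := (mem_filter.1 hv).2
        exact ⟨this.1, (this.2.trans (hv01 k)).le⟩
    have hyev : ∀ᶠ n in (U : Filter ℕ), ∀ j,
        |ys B lev atop n v (a k v n) j - θ k j * (1 - (v : ℝ))| ≤ e k := by
      rw [Filter.eventually_all]
      intro j
      have := (Metric.tendsto_nhds.1 (hy j)) (e k) (hep k)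
      filter_upwards [this] with n hn
      rw [Real.dist_eq] at hn
      exact hn.le
    filter_upwards [hMk.mark, hMk.near (e k) (hep k), (hJs k).fib v hv01'.1 hv01'.2 (e k) (hep k),
      hyev] with n h1 h2 h3 h4
    exact ⟨h1, h2, fun x hx => (h3 x hx).1, h4⟩
  obtain ⟨kk, hkk, hkP⟩ := exists_diag _ hP
  have hkP' : ∀ᶠ n in (U : Filter ℕ), (J (kk n) n).Nonempty ∧
      ∀ v ∈ insert 1 (insert (v0 (kk n)) (W (kk n))), Pv B T L lev A Λ g Ψ atop n (J (kk n) n)
        (f (kk n) v n) (b (kk n) v n) (a (kk n) v n) (θ (kk n)) (e (kk n)) v := by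
    filter_upwards [hkP] with n hn using hn _ le_rfl
  -- every level is in the mesh
  have hin : ∀ v : ℚ, 0 ≤ v → v ≤ 1 → ∀ᶠ n in (U : Filter ℕ),
      v ∈ insert 1 (insert (v0 (kk n)) (W (kk n))) := by
    intro v h0 h1
    rcases h1.eq_or_lt with rfl | h1
    · exact Eventually.of_forall fun n => mem_insert_self _ _
    obtain ⟨m, hm⟩ := exists_num v
    obtain ⟨K, hK⟩ := exists_nat_gt (1 / (1 - v))
    filter_upwards [hkk.eventually_ge_atTop (max (m + 1) K)] with n hn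
    refine mem_insert_of_mem (mem_insert_of_mem ?_)
    rw [hW, mem_filter, mem_image]
    have h2 : m + 1 ≤ kk n := (le_max_left _ _).trans hn
    have h3 : K ≤ kk n := (le_max_right _ _).trans hn
    refine ⟨⟨m, mem_range.2 (by omega), hm⟩, h0, ?_⟩
    have h4 : (0 : ℚ) < 1 - v := by linarith
    have h5 : (K : ℚ) ≤ kk n := by exact_mod_cast h3
    have h6 : 1 < (K : ℚ) * (1 - v) := by
      rwa [div_lt_iff₀ h4] at hK
    have h7 : 1 / ((kk n : ℚ) + 2) < 1 - v := by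
      rw [div_lt_iff₀ (by positivity)]
      nlinarith
    simp only [hv0]; linarith
  have hesm : ∀ ε : ℝ, 0 < ε → ∀ᶠ n in (U : Filter ℕ), e (kk n) ≤ ε := by
    intro ε hε
    have h1 : Tendsto (fun n => e (kk n)) U (𝓝 0) :=
      tendsto_one_div_add_atTop_nhds_zero_nat.comp hkk
    filter_upwards [h1.eventually_lt_const hε] with n hn using hn.le
  have helim : Tendsto (fun n => e (kk n)) U (𝓝 0) :=
    tendsto_one_div_add_atTop_nhds_zero_nat.comp hkk
  -- the limit direction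
  obtain ⟨R, hR⟩ := hcoe
  obtain ⟨Θ, hΘ⟩ := exists_vlim (y := fun n => θ (kk n)) (C := R)
    (Eventually.of_forall fun n j => hR _ (hθ (kk n)) j)
  have hψΘ : κ ≤ ψ 1 Θ := by
    have h1 : Tendsto (fun n => ψ 1 (θ (kk n))) U (𝓝 (ψ 1 Θ)) :=
      (hψ.tendsto ((1, Θ) : ℝ × (ι → ℝ))).comp (tendsto_const_nhds.prodMk_nhds hΘ)
    exact ge_of_tendsto h1 (Eventually.of_forall fun n => hθ (kk n))
  refine ⟨fun n => J (kk n) n, fun n v => f (kk n) v n, fun n v => b (kk n) v n,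
    fun n v => a (kk n) v n, Θ, fun n => hJ (kk n) n, ?_, ?_, hψΘ, ?_⟩
  · refine
      { ne := by filter_upwards [hkP'] with n hn using hn.1
        card := ?_
        lam0 := h.sq.lam0
        lam := h.sq.lam
        lev_mono := h.sq.lev_mono
        lev_lim := h.sq.lev_lim
        cell0 := by
          filter_upwards [h.sq.cell0] with n hn x hx y hy using
            hn x (hJ (kk n) n hx) y (hJ (kk n) n hy)
        one := by
          filter_upwards [h.sq.one] with n hn x hx y hy using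
            hn x (hJ (kk n) n hx) y (hJ (kk n) n hy)
        fib := ?_ }
    · intro ε hε
      filter_upwards [h.sq.card ε hε, hkP'] with n hn hne
      refine le_trans (Real.log_le_log (by exact_mod_cast card_pos.2 hne.1)
        (by exact_mod_cast card_le_card (hJ (kk n) n))) hn
    · intro v hv0 hv1 ε hε
      filter_upwards [h.sq.fib v hv0 hv1 ε hε, hkP', hin v hv0 hv1, hesm ε hε]
        with n h1 h2 h3 h4 x hx
      refine ⟨?_, ?_⟩
      · refine le_trans (dpow_le B n (by linarith)) ((h2.2 v h3).2.2.1 x hx)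
      · refine le_trans ?_ (h1 x (hJ (kk n) n hx)).2
        exact_mod_cast card_le_card (filter_subset_filter _ (hJ (kk n) n))
  · intro n
    simp only [ha]
  · intro v hv0 hv1
    refine ⟨{ mark := ?_, near := ?_ }, ?_⟩
    · filter_upwards [hkP', hin v hv0 hv1] with n h2 h3 using (h2.2 v h3).1
    · intro ε hε
      filter_upwards [hkP', hin v hv0 hv1, hesm ε hε] with n h2 h3 h4 x hx
      refine ((h2.2 v h3).2.1 x hx).trans ?_
      exact mul_le_mul_of_nonneg_right (dpow_le B n (by linarith)) (Nat.cast_nonneg _)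
    · intro j
      have h1 : Tendsto (fun n => ys B lev atop n v (a (kk n) v n) j -
          θ (kk n) j * (1 - (v : ℝ))) U (𝓝 0) := by
        refine squeeze_zero_norm' ?_ helim
        filter_upwards [hkP', hin v hv0 hv1] with n h2 h3
        rw [Real.norm_eq_abs]
        exact (h2.2 v h3).2.2.2 j
      have h2 : Tendsto (fun n => θ (kk n) j * (1 - (v : ℝ))) U (𝓝 (Θ j * (1 - (v : ℝ)))) :=
        ((tendsto_pi_nhds.1 hΘ) j).mul_const _
      have h3 := h1.add h2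
      rw [zero_add] at h3
      refine h3.congr fun n => ?_
      ring

end

end Crest.Agent.R116.XcD794
end

-- ▼ part R116/XcM_708
section

/-!
# R116 (K side), block X1-C: assembly of `MkA` from the pieces of 794 (helper708)

`mk_assemble` : own profile (`Sq`), D-max (`Dmx`) and marks (`Mrk`) at every rational level with
exactly linear limits of the normalised relative exponents ⟹ `MkA` over `geoP`.
-/

set_option autoImplicit false

open Finset Filter Topology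

namespace Crest.Agent.R116.XcM708

open Crest.Agent.R138.Ex926 Crest.Agent.R138.Dp76 Crest.Agent.R138.Ps627
open Crest.Agent.R138.Mk163 (zc zl rho alive own)
open Crest.Agent.R138.MkRef627 (lc kc own_one alive_mono mem_alive card_class own_lower)
open Crest.Agent.R136.MkA627 (ampA Geo MkA)
open Crest.Agent.R116.Xa794 (TS)
open Crest.Agent.R116.Xa2794 (lc_nested)
open Crest.Agent.R116.Xa3794
open Crest.Agent.R116.Xc794 Crest.Agent.R116.Xc3794 Crest.Agent.R116.Xc4794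
open Crest.Agent.R116.Xc7794

open Classical in
/-- own counts times the least fine fibre are at most the coarse fibre. -/
theorem own_upper {J : Finset (ℕ × ℝ)} {i j : ℕ} (hij : i ≤ j) {x : ℕ × ℝ} {m : ℝ}
    (h : ∀ y ∈ J, m ≤ ((J.filter fun y' => lc j y' = lc j y).card : ℝ)) :
    m * ((own J i j x).card : ℝ) ≤ ((J.filter fun y => lc i y = lc i x).card : ℝ) := by
  set F := J.filter fun y => y.1 = x.1 ∧ zc i y.2 = zc i x.2 with hF
  have e0 : (J.filter fun y => lc i y = lc i x) = F := by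
    ext y; simp only [hF, mem_filter, lc, Prod.mk.injEq]
  rw [e0]
  have e1 : (F.card : ℝ) = ∑ c ∈ F.image (fun y => zc j y.2),
      ((F.filter fun y => zc j y.2 = c).card : ℝ) := by
    rw [card_eq_sum_card_image (fun y : ℕ × ℝ => zc j y.2) F]
    push_cast; rfl
  have e2 : own J i j x = F.image (fun y => zc j y.2) := rfl
  rw [e1, e2, mul_comm, ← nsmul_eq_mul]
  refine card_nsmul_le_sum _ _ _ fun c hc => ?_
  obtain ⟨y, hy, rfl⟩ := mem_image.1 hc
  have hyJ : y ∈ J := (mem_filter.1 hy).1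
  refine (h y hyJ).trans ?_
  have hsub : (J.filter fun y' => lc j y' = lc j y) ⊆ F.filter fun z => zc j z.2 = zc j y.2 := by
    intro z hz
    rw [mem_filter] at hz
    have h1 := lc_nested hij hz.2
    obtain ⟨h2, h3⟩ := Prod.mk.inj hz.2
    obtain ⟨h4, h5⟩ := Prod.mk.inj h1
    rw [hF, mem_filter] at hy
    rw [mem_filter, hF, mem_filter]
    exact ⟨⟨hz.1, h4.trans hy.2.1, h5.trans hy.2.2⟩, h3⟩
  exact_mod_cast card_le_card hsub

variable {Ln ι S : Type} [Fintype ι]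

section

variable {B : Base} {I : ℕ → Finset (ℕ × ℝ)} {lev : ℕ → ℚ → ℕ} {Λ : ℝ → ℝ} {T : ℕ → TS Ln ι S}
  {L : ℕ → ℕ → Ln} {A : ℕ → ℝ} {g : ℝ} {Ψ : ℝ → (ι → ℝ) → ℝ} {atop : ℕ → ι → ℕ}

open Classical in
/-- own profile from two-sided fibres. -/
theorem own_of_fib (sq : Sq B I lev Λ) (u v : ℚ) (hu : 0 ≤ u) (huv : u ≤ v) (hv : v ≤ 1) (ε : ℝ)
    (hε : 0 < ε) : ∀ᶠ n in (U : Filter ℕ), ∀ x ∈ I n,
      B.d n ^ (-((v : ℝ) - u) + (Λ v - Λ u) + ε) ≤ ((own (I n) (lev n u) (lev n v) x).card : ℝ) ∧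
      ((own (I n) (lev n u) (lev n v) x).card : ℝ) ≤
        B.d n ^ (-((v : ℝ) - u) + (Λ v - Λ u) - ε) := by
  filter_upwards [sq.fib u hu (huv.trans hv) (ε / 2) (by positivity),
    sq.fib v (hu.trans huv) hv (ε / 2) (by positivity), sq.lev_mono u v hu huv hv] with n h1 h2 h3 x hx
  have l1 := own_lower (i := lev n u) (j := lev n v)
    (m := B.d n ^ (-(1 - (v : ℝ)) + (Λ 1 - Λ v) - ε / 2)) (fun y hy => (h2 y hy).2) hx
  have l2 := own_upper h3 (x := x)
    (m := B.d n ^ (-(1 - (v : ℝ)) + (Λ 1 - Λ v) + ε / 2)) (fun y hy => (h2 y hy).1)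
  constructor
  · have l3 := (h1 x hx).1.trans l1
    have hpos := dpow_pos B n (-(1 - (v : ℝ)) + (Λ 1 - Λ v) - ε / 2)
    have e : B.d n ^ (-(1 - (u : ℝ)) + (Λ 1 - Λ u) + ε / 2) =
        B.d n ^ (-(1 - (v : ℝ)) + (Λ 1 - Λ v) - ε / 2) *
          B.d n ^ (-((v : ℝ) - u) + (Λ v - Λ u) + ε) := by
      rw [← dpow_add]; congr 1; ring
    rw [e] at l3
    exact le_of_mul_le_mul_left l3 hpos
  · have l3 := l2.trans (h1 x hx).2
    have hpos := dpow_pos B n (-(1 - (v : ℝ)) + (Λ 1 - Λ v) + ε / 2)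
    have e : B.d n ^ (-(1 - (u : ℝ)) + (Λ 1 - Λ u) - ε / 2) =
        B.d n ^ (-(1 - (v : ℝ)) + (Λ 1 - Λ v) + ε / 2) *
          B.d n ^ (-((v : ℝ) - u) + (Λ v - Λ u) - ε) := by
      rw [← dpow_add]; congr 1; ring
    rw [e] at l3
    exact le_of_mul_le_mul_left l3 hpos

/-- **assembly of `MkA`.** -/
theorem mk_assemble (hA : ∀ n, 0 < A n) (sq : Sq B I lev Λ)
    (dmx : Dmx B I T L lev A (fun v => g * v + 2 * Λ v) (VV T Ψ lev atop))
    (f : ℕ → ℚ → ℕ → ℤ → ℕ) (b : ℕ → ℚ → ℕ → (ι → ℕ) × S) (a : ℕ → ℚ → ι → ℕ) (θ : ι → ℝ)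
    (htop : ∀ n, a n 1 = atop n)
    (hm : ∀ v : ℚ, 0 ≤ v → v ≤ 1 → Mrk B I T L lev A (fun v => g * v + 2 * Λ v)
      (VV T Ψ lev atop) v (fun n => f n v) (fun n => b n v) (fun n => a n v))
    (hy : ∀ v : ℚ, 0 ≤ v → v ≤ 1 → ∀ j, Tendsto (fun n => ys B lev atop n v (a n v) j) U
      (𝓝 (θ j * (1 - (v : ℝ))))) :
    MkA B I (geoP T Ψ (fun n => lev n 1) atop L) lev A (fun v => g * v + 2 * Λ v) Λ
      (fun j v => θ j * (1 - v)) f b (fun n v => VV T Ψ lev atop n (lev n v) (a n v))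
      (fun j n v => (1 / 2 : ℝ) ^ (a n v j)) := by
  classical
  refine
    { ne := sq.ne
      card := sq.card
      Apos := hA
      c0 := by rw [sq.lam0]; ring
      lam0 := sq.lam0
      lam := sq.lam
      tau1 := fun j => by ring
      lev_mono := sq.lev_mono
      lev_lim := sq.lev_lim
      cell0 := sq.cell0
      one := sq.one
      own := fun u v hu huv hv ε hε => own_of_fib sq u v hu huv hv ε hε
      dmax := ?_
      mark := ?_
      near := ?_
      vpos := fun v _ _ => Eventually.of_forall fun n => VV_pos _ _ _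
      wpos := fun j v _ _ => Eventually.of_forall fun n => by positivity
      tau := ?_ }
  · intro v hv0 hv1 ε hε
    filter_upwards [dmx v hv0 hv1 ε hε] with n hn J s hs
    exact hn J s hs
  · intro v hv0 hv1
    filter_upwards [(hm v hv0 hv1).mark] with n hn J t ht
    obtain ⟨x, hx, h1, h2⟩ := mem_alive.1 ht
    have h3 := hn x hx
    rw [h1, h2] at h3
    obtain ⟨m1, m2, m3⟩ := h3
    refine ⟨m1, m2, ?_, fun j => ?_⟩
    · show capP (T n) Ψ (lev n 1) (atop n) (lev n v) (b n v (f n v t J)).1 = _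
      rw [m3]
      rfl
    · show (1 / 2 : ℝ) ^ ((b n v (f n v t J)).1 j) = _
      rw [m3]
  · intro v hv0 hv1 ε hε
    filter_upwards [(hm v hv0 hv1).near ε hε] with n hn J t ht
    obtain ⟨x, hx, h1, h2⟩ := mem_alive.1 ht
    have h3 := hn x hx
    rw [h1, h2] at h3
    exact h3
  · intro j v hv0 hv1
    refine (hy v hv0 hv1 j).congr fun n => ?_
    have hr : ∀ (i k : ℕ), rho i / (1 / 2 : ℝ) ^ k = (2 : ℝ) ^ ((k : ℝ) - i) := by
      intro i k
      rw [Real.rpow_sub two_pos, Real.rpow_natCast, Real.rpow_natCast]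
      unfold rho
      rw [one_div_pow]
      field_simp
    rw [hr, hr, ← Real.rpow_sub two_pos, Real.log_rpow two_pos, htop]
    unfold ys cn rel
    ring

end

end Crest.Agent.R116.XcM708
end

-- ▼ part R116/XcF_794

/-!
# R116 (K side), block X1-C: the theorem (helper794)

`xoutQ`, `xoutP` : `Rwd P ψ q0 → Chs 𝒯 P q0 κ δ0 q g → ∃ θ, XOutQ 𝒯 (P q) ψ κ g θ` (resp. `XOutP`).
-/

set_option autoImplicit false
set_option linter.unusedSectionVars false

open Finset Filter Topology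

namespace Crest.Agent.R116.XcF794

open Crest.Agent.R138.Ex926 Crest.Agent.R138.Dp76 Crest.Agent.R138.Ps627
open Crest.Agent.R138.Ps926
open Crest.Agent.R138.Mk163 (zc zl rho alive own Negl)
open Crest.Agent.R138.MkRef627 (lc kc own_one alive_mono mem_alive card_class own_lower exists_num)
open Crest.Agent.R138.MkZoom779 (zc_nested zc_eq exists_rep)
open Crest.Agent.R136.MkA627 (ampA Geo MkA)
open Crest.Agent.R116.Xa794 (TS)
open Crest.Agent.R116.Xa3794
open Crest.Agent.R116.Xc794 Crest.Agent.R116.Xc1794 Crest.Agent.R116.Xc2794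
open Crest.Agent.R116.Xc3794 Crest.Agent.R116.Xc4794 Crest.Agent.R116.Xc5794
open Crest.Agent.R116.Xc7794 Crest.Agent.R116.Xc8794 Crest.Agent.R116.Xc9794

variable {Ln ι S : Type} [Fintype ι]

/-- **X1-C.** -/
theorem xoutQ {𝒯 : Set (TS Ln ι S)} {P : ℝ → ℝ → (ι → ℝ) → ℝ} {ψ : ℝ → (ι → ℝ) → ℝ}
    {q0 κ δ0 q g : ℝ} (hP : Rwd P ψ q0) (hch : Chs 𝒯 P q0 κ δ0 q g) :
    ∃ θ : ι → ℝ, XOutQ 𝒯 (P q) ψ κ g θ := by
  classical
  have hq0 : 0 ≤ q := hP.q0pos.le.trans hch.qlo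
  have hSq : SupA (P q) := fun l l' x x' hl hl' => hP.sup q l l' x x' hq0 hl hl'
  obtain ⟨B, I, T, L, lev, A, Λ, f, b, atop, N, hS, hT, hfin, hNd, hA, hsq, h0, hM⟩ :=
    Crest.Agent.R116.Xc6794.exists_init (hP.zero q) hch.low hch.ub
  obtain ⟨J, hJI, hJd, hdm⟩ := exists_dmx hsq 𝒯 hSq hch.ub hT hfin hNd hA h0
  obtain ⟨J1, h1, h2, h3, h4, h5⟩ := refineF hsq hJd {1} (by
      intro v hv
      rw [mem_singleton] at hv
      subst hv
      exact ⟨zero_le_one, le_rfl⟩) (mem_singleton_self _) (fun _ => I)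
    (fun _ _ n => Subset.refl _) (fun _ _ => Eventually.of_forall fun n => hJI n)
    (fun _ _ => Eventually.of_forall fun n x _ y hy _ => hy) (fun _ => f) (fun _ => b)
    (fun _ => atop) (by
      intro v hv
      rw [mem_singleton] at hv
      subst hv
      exact hM)
  have hCx : Cx 𝒯 B J1 T L lev A Λ g (P q) atop N := ⟨hT, hfin, hNd, hA, h4, hdm.mono h1⟩
  have hM1 := h5 1 (mem_singleton_self _)
  obtain ⟨J2, f2, b2, a2, θ, g1, g2, g3, g4, g5⟩ := Crest.Agent.R116.XcD794.final_diag hCx (κ := κ) (ψ := ψ) hP.contψ (by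
      obtain ⟨R, hR, hR2⟩ := hP.coe κ hch.κpos
      exact ⟨R * 1, fun x hx j => hR2 1 x zero_le_one (by rw [mul_one]; exact hx) j⟩) (by
      intro v0 hv0 hv1 W hW
      obtain ⟨J, f, b, a, θ, e1, e2, e3, e4, e5, e6⟩ := mesh hP hch hCx hv0 hv1 hM1 W hW
      exact ⟨J, f, b, a, θ, e1, e2, e3.sq, e4, e5, e6⟩)
  refine ⟨θ, B, J2, T, L, lev, A, Λ, f2, b2, fun n v => VV T (P q) lev atop n (lev n v) (a2 n v),
    fun j n v => (1 / 2 : ℝ) ^ (a2 n v j), atop, N, a2, hT, hfin, hNd, g4,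
    Crest.Agent.R116.XcM708.mk_assemble hA g2 (hCx.dmx.mono g1) f2 b2 a2 θ g3 (fun v h0 h1 => (g5 v h0 h1).1)
      (fun v h0 h1 => (g5 v h0 h1).2), g3, fun n v j => rfl, fun n v => rfl, ?_⟩
  intro v hv0 hv1
  filter_upwards [(g5 v hv0 hv1).1.mark, g2.ne] with n hn hne
  obtain ⟨x, hx⟩ := hne
  obtain ⟨-, m2, m3⟩ := hn x hx
  exact ⟨_, _, m2, m3⟩


end Crest.Agent.R116.XcF794
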