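import Mathlib
import Crest.Agent.R116.ZlDef_139
import Crest.Agent.R136.ZoomA_102
import Crest.Agent.R138.MkPoint_627
import Crest.Agent.R116.Rv1_883
import Crest.Agent.R116.KF2_439
import Crest.Agent.R136.TD3_627

-- ▼ part R116/Zl1_139
section

/-!
# R116 (K side), block X1-C, leaf [ZLIN], part 1 (helper139): the linearisation in a short window

* `pure_core` : `LinAt` in a window of relative length `H` near a point of the ray: error `ε H`.
* `lin_core` : the same for the test sets of a zoomed window (`rg`).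
-/

set_option autoImplicit false

open Finset Filter Topology

namespace Crest.Agent.R116.Zl139

open Crest.Agent.R138.Ex926 (Base U)
open Crest.Agent.R138.Mk163 (zc zl rho alive own)
open Crest.Agent.R136.MkA627 (Geo MkA)
open Crest.Agent.R116.Xa794 (TS geo)
open Crest.Agent.R116.Xc794

theorem pure_core {ι : Type} [Fintype ι] {Ψ : ℝ → (ι → ℝ) → ℝ} {θ : ι → ℝ} {g0 : ℝ} {p : ι → ℝ}
    (hΨ : LinAt Ψ θ g0 p) {t D ε : ℝ} (ht : 0 < t) (hD : 0 ≤ D) (hε : 0 < ε) :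
    ∃ κ : ℝ, 0 < κ ∧ ∀ (lam H l l' : ℝ) (x x' : ι → ℝ), 0 < lam → 0 < H → H ≤ κ →
      t / 2 ≤ lam * l' → (∀ j, |lam * x' j - θ j * (lam * l')| ≤ κ) →
      |lam * (l - l')| ≤ D * H → (∀ j, |lam * (x j - x' j)| ≤ D * H) →
      lam * |Ψ l x - Ψ l' x' - g0 * (l - l') - ∑ j, p j * (x j - x' j)| ≤ ε * H := by
  set N : ℝ := (Fintype.card ι : ℝ) with hN
  have hN0 : 0 ≤ N := Nat.cast_nonneg _
  set Θ : ℝ := ∑ j, |θ j| with hΘ
  have hΘ0 : 0 ≤ Θ := Finset.sum_nonneg fun j _ => abs_nonneg _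
  have hΘj : ∀ j, |θ j| ≤ Θ := fun j =>
    Finset.single_le_sum (f := fun j => |θ j|) (fun i _ => abs_nonneg _) (Finset.mem_univ j)
  have hE : 0 < D * (1 + N) + 1 := by positivity
  obtain ⟨δ, hδ, hlin⟩ := hΨ (ε / (D * (1 + N) + 1)) (by positivity)
  have hF : 0 < D + 1 + Θ * D := by positivity
  refine ⟨min (t / (4 * (D + 1))) (δ * t / (4 * (D + 1 + Θ * D))), by positivity, ?_⟩
  intro lam H l l' x x' hlam hH hHκ hl' hx' hl hx
  have k1 : H ≤ t / (4 * (D + 1)) := hHκ.trans (min_le_left _ _)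
  have k2 : H ≤ δ * t / (4 * (D + 1 + Θ * D)) := hHκ.trans (min_le_right _ _)
  have k3 : ∀ j, |lam * x' j - θ j * (lam * l')| ≤ δ * t / (4 * (D + 1 + Θ * D)) := fun j =>
    (hx' j).trans (min_le_right _ _)
  rw [le_div_iff₀ (by positivity)] at k1 k2
  have k4 : D * H ≤ t / 4 := by nlinarith
  have hl0 : t / 4 ≤ lam * l := by
    have := (abs_le.1 hl).1
    nlinarith
  have pl' : 0 < l' := by
    by_contra h
    have : lam * l' ≤ 0 := mul_nonpos_of_nonneg_of_nonpos hlam.le (not_lt.1 h)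
    linarith
  have pl : 0 < l := by
    by_contra h
    have : lam * l ≤ 0 := mul_nonpos_of_nonneg_of_nonpos hlam.le (not_lt.1 h)
    linarith
  have k5 : δ * t / (4 * (D + 1 + Θ * D)) ≤ δ * t / 4 := by
    apply div_le_div_of_nonneg_left (by positivity) (by norm_num)
    nlinarith [mul_nonneg hΘ0 hD]
  have a1 : ∀ j, |x' j - θ j * l'| ≤ δ * l' := by
    intro j
    have e : lam * |x' j - θ j * l'| = |lam * x' j - θ j * (lam * l')| := by
      rw [← abs_of_pos hlam, ← abs_mul, abs_of_pos hlam]; congr 1; ring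
    have h1 : lam * |x' j - θ j * l'| ≤ lam * (δ * l') := by
      rw [e]
      refine ((k3 j).trans k5).trans ?_
      nlinarith
    exact le_of_mul_le_mul_left h1 hlam
  have a2 : ∀ j, |x j - θ j * l| ≤ δ * l := by
    intro j
    have e : lam * |x j - θ j * l| = |lam * (x j - x' j) + (lam * x' j - θ j * (lam * l')) -
        θ j * (lam * (l - l'))| := by
      rw [← abs_of_pos hlam, ← abs_mul, abs_of_pos hlam]; congr 1; ring
    have h0 : |θ j * (lam * (l - l'))| ≤ Θ * (D * H) := by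
      rw [abs_mul]
      exact mul_le_mul (hΘj j) hl (abs_nonneg _) hΘ0
    have h2 : |lam * (x j - x' j) + (lam * x' j - θ j * (lam * l')) -
        θ j * (lam * (l - l'))| ≤ D * H + δ * t / (4 * (D + 1 + Θ * D)) + Θ * (D * H) := by
      refine (abs_sub _ _).trans (add_le_add ((abs_add_le _ _).trans (add_le_add (hx j) (k3 j))) h0)
    have h3 : D * H + δ * t / (4 * (D + 1 + Θ * D)) + Θ * (D * H) ≤ δ * t / 4 := by
      have h4 : H ≤ δ * t / (4 * (D + 1 + Θ * D)) := by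
        rw [le_div_iff₀ (by positivity)]; exact k2
      have h5 : (D + Θ * D) * H ≤ (D + Θ * D) * (δ * t / (4 * (D + 1 + Θ * D))) :=
        mul_le_mul_of_nonneg_left h4 (by positivity)
      have h6 : (D + 1 + Θ * D) * (δ * t / (4 * (D + 1 + Θ * D))) = δ * t / 4 := by
        field_simp
      nlinarith
    have h1 : lam * |x j - θ j * l| ≤ lam * (δ * l) := by
      rw [e]
      refine (h2.trans h3).trans ?_
      nlinarith
    exact le_of_mul_le_mul_left h1 hlam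
  have h7 := hlin l l' x x' pl pl' a2 a1
  have h8 : lam * (|l - l'| + ∑ j, |x j - x' j|) ≤ D * H * (1 + N) := by
    rw [mul_add, Finset.mul_sum]
    have e1 : lam * |l - l'| = |lam * (l - l')| := by rw [abs_mul, abs_of_pos hlam]
    have e2 : ∀ j, lam * |x j - x' j| = |lam * (x j - x' j)| := fun j => by
      rw [abs_mul, abs_of_pos hlam]
    rw [e1]
    simp only [e2]
    have h9 : ∑ j, |lam * (x j - x' j)| ≤ ∑ _j : ι, D * H := Finset.sum_le_sum fun j _ => hx j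
    rw [Finset.sum_const, Finset.card_univ, nsmul_eq_mul] at h9
    nlinarith
  calc lam * |Ψ l x - Ψ l' x' - g0 * (l - l') - ∑ j, p j * (x j - x' j)|
      ≤ lam * (ε / (D * (1 + N) + 1) * (|l - l'| + ∑ j, |x j - x' j|)) :=
        mul_le_mul_of_nonneg_left h7 hlam.le
    _ = ε / (D * (1 + N) + 1) * (lam * (|l - l'| + ∑ j, |x j - x' j|)) := by ring
    _ ≤ ε / (D * (1 + N) + 1) * (D * H * (1 + N)) :=
        mul_le_mul_of_nonneg_left h8 (by positivity)
    _ ≤ ε * H := by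
        rw [div_mul_eq_mul_div, div_le_iff₀ hE]
        nlinarith [mul_pos hε hH]

/-- exponent of a width -/
noncomputable def ee {ι : Type} (w : ι → ℕ → ℚ → ℝ) (n : ℕ) (v : ℚ) (j : ι) : ℝ :=
  -Real.log (w j n v) / Real.log 2

section

variable {Ln ι S σ : Type} [Fintype ι] {B' : Base} {I' : ℕ → Finset (ℕ × ℝ)}
    {G : Geo σ ι} {lev' : ℕ → ℚ → ℕ}
    {A' : ℕ → ℝ} {c' Λ' : ℝ → ℝ} {θ : ι → ℝ} {f' : ℕ → ℚ → ℕ → ℤ → ℕ} {b' : ℕ → ℚ → ℕ → σ}
    {vm' : ℕ → ℚ → ℝ} {w' : ι → ℕ → ℚ → ℝ}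

omit [Fintype ι] in
/-- exponents of the marks of the window relative to its top. -/
theorem ee_lim (hz : MkA B' I' G lev' A' c' Λ' (fun j v => θ j * (1 - v)) f' b' vm' w') {v : ℚ}
    (h0 : 0 ≤ v) (h1 : v ≤ 1) (j : ι) :
    Tendsto (fun n => ((ee w' n v j - ee w' n 1 j) * Real.log 2) / B'.L n) U
      (𝓝 ((θ j - 1) * (1 - v))) := by
  have t1 := hz.tau j v h0 h1
  have t2 := hz.lev_lim v 1 h0 h1 le_rfl
  have t3 := t1.sub t2
  have e0 : θ j * (1 - (v : ℝ)) - (((1 : ℚ) : ℝ) - v) = (θ j - 1) * (1 - v) := by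
    push_cast; ring
  rw [e0] at t3
  refine t3.congr' ?_
  filter_upwards [hz.wpos j v h0 h1, hz.wpos j 1 zero_le_one le_rfl] with n p1 p2
  have hr : ∀ i : ℕ, 0 < rho i := fun i => by
    unfold Crest.Agent.R138.Mk163.rho; positivity
  have hlr : ∀ i : ℕ, Real.log (rho i) = -(i * Real.log 2) := fun i => by
    unfold Crest.Agent.R138.Mk163.rho
    rw [Real.log_div one_ne_zero (by positivity), Real.log_one, Real.log_pow]
    ring
  have h2 : Real.log 2 ≠ 0 := (Real.log_pos one_lt_two).ne'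
  rw [Real.log_div (div_pos (hr _) p1).ne' (div_pos (hr _) p2).ne',
    Real.log_div (hr _).ne' p1.ne', Real.log_div (hr _).ne' p2.ne', hlr, hlr]
  unfold ee
  have hL := (B'.L_pos n).ne'
  field_simp
  ring

/-- **linearisation of the reward in a short window.** -/
theorem lin_core {Ψ : ℝ → (ι → ℝ) → ℝ} {g0 : ℝ} {p : ι → ℝ} (hΨ : LinAt Ψ θ g0 p) {B : Base}
    {H : ℕ → ℝ} (hH : ∀ n, 0 < H n) (hH0 : Tendsto H U (𝓝 0))
    (hL : ∀ n, B'.L n = H n * B.L n) {mt : ℕ → ℕ} {atop : ℕ → ι → ℕ} {t R : ℝ} (ht : 0 < t)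
    (hR : 0 ≤ R)
    (hz : MkA B' I' G lev' A' c' Λ' (fun j v => θ j * (1 - v)) f' b' vm' w')
    (hlen : Tendsto (fun n => ((mt n : ℝ) - lev' n 0) * Real.log 2 / B.L n) U (𝓝 t))
    (hrel : ∀ j, Tendsto (fun n => (-Real.log (w' j n 0) - (lev' n 0 : ℝ) * Real.log 2 -
      ((atop n j : ℝ) - mt n) * Real.log 2) / B.L n) U (𝓝 (θ j * t)))
    {v : ℚ} (h0 : 0 ≤ v) (h1 : v ≤ 1) {ε : ℝ} (hε : 0 < ε) :
    ∀ᶠ n in (U : Filter ℕ), ∀ s : ι → ℕ,
      (∀ j, B'.d n ^ R * w' j n 1 ≤ (1 / 2 : ℝ) ^ (s j) ∧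
        (1 / 2 : ℝ) ^ (s j) ≤ B'.d n ^ (-R) * w' j n 1) →
      Real.log 2 * |Ψ ((mt n : ℝ) - lev' n v) (rel (lev' n v) s (mt n) (atop n)) -
        Ψ ((mt n : ℝ) - lev' n 0) (fun j => (ee w' n 0 j - lev' n 0) - ((atop n j : ℝ) - mt n)) -
        g0 * ((lev' n 0 : ℝ) - lev' n v) -
        ∑ j, p j * (((s j : ℝ) - lev' n v) - (ee w' n 0 j - lev' n 0))| ≤ ε * B'.L n := by
  have l2 : 0 < Real.log 2 := Real.log_pos one_lt_two
  set Θ : ℝ := ∑ j, |θ j| with hΘ
  have hΘ0 : 0 ≤ Θ := Finset.sum_nonneg fun j _ => abs_nonneg _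
  have hΘj : ∀ j, |θ j| ≤ Θ := fun j =>
    Finset.single_le_sum (f := fun j => |θ j|) (fun i _ => abs_nonneg _) (Finset.mem_univ j)
  obtain ⟨κ, hκ, hcore⟩ := pure_core hΨ (t := t) (D := R + Θ + 4) (ε := ε) ht (by positivity) hε
  have f1 : ∀ᶠ n in (U : Filter ℕ), H n ≤ κ := hH0.eventually (eventually_le_nhds hκ)
  have f2 : ∀ᶠ n in (U : Filter ℕ), t / 2 ≤ ((mt n : ℝ) - lev' n 0) * Real.log 2 / B.L n :=
    hlen.eventually (eventually_ge_nhds (by linarith))
  have f3 : ∀ᶠ n in (U : Filter ℕ), ∀ j, |(-Real.log (w' j n 0) - (lev' n 0 : ℝ) * Real.log 2 -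
      ((atop n j : ℝ) - mt n) * Real.log 2) / B.L n -
      θ j * (((mt n : ℝ) - lev' n 0) * Real.log 2 / B.L n)| ≤ κ := by
    rw [Filter.eventually_all]
    intro j
    have h3 := (hrel j).sub (hlen.const_mul (θ j))
    rw [sub_self] at h3
    have h4 := h3.abs
    rw [abs_zero] at h4
    exact h4.eventually (eventually_le_nhds hκ)
  have f4 : ∀ᶠ n in (U : Filter ℕ),
      |((lev' n v : ℝ) - lev' n 0) * Real.log 2 / B'.L n| ≤ 2 := by
    have h3 := (hz.lev_lim 0 v le_rfl h0 h1).abs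
    refine h3.eventually (eventually_le_nhds ?_)
    have hv0 : (0 : ℝ) ≤ v := by exact_mod_cast h0
    have hv1 : (v : ℝ) ≤ 1 := by exact_mod_cast h1
    push_cast
    rw [sub_zero, abs_of_nonneg hv0]
    linarith
  have f5 : ∀ᶠ n in (U : Filter ℕ), ∀ j,
      |((ee w' n 0 j - ee w' n 1 j) * Real.log 2) / B'.L n| ≤ Θ + 2 := by
    rw [Filter.eventually_all]
    intro j
    have h3 := (ee_lim hz le_rfl zero_le_one j).abs
    refine h3.eventually (eventually_le_nhds ?_)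
    push_cast
    rw [sub_zero, mul_one]
    refine (abs_sub _ _).trans_lt ?_
    have := hΘj j
    rw [abs_one]
    linarith
  have f6 : ∀ᶠ n in (U : Filter ℕ), ∀ j, 0 < w' j n 1 := by
    rw [Filter.eventually_all]
    exact fun j => hz.wpos j 1 zero_le_one le_rfl
  filter_upwards [f1, f2, f3, f4, f5, f6] with n a1 a2 a3 a4 a5 a6 s hs
  have hLp := B.L_pos n
  have hLp' := B'.L_pos n
  have hHn := hH n
  have hlam : 0 < Real.log 2 / B.L n := div_pos l2 hLp
  have eL : H n = B'.L n / B.L n := by rw [hL]; field_simp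
  have hc := hcore (Real.log 2 / B.L n) (H n) ((mt n : ℝ) - lev' n v) ((mt n : ℝ) - lev' n 0)
    (rel (lev' n v) s (mt n) (atop n))
    (fun j => (ee w' n 0 j - lev' n 0) - ((atop n j : ℝ) - mt n)) hlam hHn a1
    (by rw [div_mul_eq_mul_div, mul_comm (Real.log 2)]; exact a2)
    (by
      intro j
      refine le_trans (le_of_eq ?_) (a3 j)
      congr 1
      unfold ee
      field_simp)
    (by
      have e1 : Real.log 2 / B.L n * (((mt n : ℝ) - lev' n v) - ((mt n : ℝ) - lev' n 0)) =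
          -(((lev' n v : ℝ) - lev' n 0) * Real.log 2 / B'.L n * H n) := by
        rw [hL]; field_simp; ring
      rw [e1, abs_neg, abs_mul, abs_of_pos hHn]
      nlinarith)
    (by
      intro j
      have e1 : Real.log 2 / B.L n * (rel (lev' n v) s (mt n) (atop n) j -
          ((ee w' n 0 j - lev' n 0) - ((atop n j : ℝ) - mt n))) =
          ((((s j : ℝ) * Real.log 2 - ee w' n 1 j * Real.log 2) / B'.L n) -
            ((ee w' n 0 j - ee w' n 1 j) * Real.log 2) / B'.L n -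
            ((lev' n v : ℝ) - lev' n 0) * Real.log 2 / B'.L n) * H n := by
        rw [hL]
        unfold rel
        field_simp
        ring
      have e2 : |((s j : ℝ) * Real.log 2 - ee w' n 1 j * Real.log 2) / B'.L n| ≤ R := by
        obtain ⟨s1, s2⟩ := hs j
        have hw := a6 j
        have d1 := B'.pos n
        have e3 : ee w' n 1 j * Real.log 2 = -Real.log (w' j n 1) := by
          unfold ee; field_simp
        have e4 : Real.log ((1 / 2 : ℝ) ^ (s j)) = -((s j : ℝ) * Real.log 2) := by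
          rw [Real.log_pow, one_div, Real.log_inv]; ring
        have e5 : ∀ a : ℝ, Real.log (B'.d n ^ a * w' j n 1) = -(a * B'.L n) + Real.log (w' j n 1) := by
          intro a
          rw [Real.log_mul (Real.rpow_pos_of_pos d1 _).ne' hw.ne', Real.log_rpow d1]
          unfold Base.L
          ring
        have s3 := Real.log_le_log (mul_pos (Real.rpow_pos_of_pos d1 _) hw) s1
        have s4 := Real.log_le_log (by positivity) s2
        rw [e5, e4] at s3
        rw [e5, e4] at s4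
        rw [abs_div, abs_of_pos hLp', div_le_iff₀ hLp', e3, abs_le]
        constructor <;> linarith
      rw [e1, abs_mul, abs_of_pos hHn]
      refine mul_le_mul_of_nonneg_right ?_ hHn.le
      refine (abs_sub _ _).trans ((add_le_add (abs_sub _ _) a4).trans ?_)
      have := a5 j
      linarith)
  have e6 : Real.log 2 / B.L n * B.L n = Real.log 2 := by field_simp
  have h7 := mul_le_mul_of_nonneg_right hc hLp.le
  rw [mul_assoc ε, ← hL] at h7
  refine le_trans (le_of_eq ?_) h7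
  have e8 : (((mt n : ℝ) - lev' n v) - ((mt n : ℝ) - lev' n 0)) = (lev' n 0 : ℝ) - lev' n v := by
    ring
  have e9 : ∀ j, rel (lev' n v) s (mt n) (atop n) j -
      ((ee w' n 0 j - lev' n 0) - ((atop n j : ℝ) - mt n)) =
      ((s j : ℝ) - lev' n v) - (ee w' n 0 j - lev' n 0) := fun j => by
    unfold rel; ring
  simp only [e8, e9]
  field_simp

end

end Crest.Agent.R116.Zl139
end

-- ▼ part R116/Zl2_139
section

/-!
# R116 (K side), block X1-C, leaf [ZLIN], part 2 (helper139): from `Ψ`-valued to linear rewards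

`lin_of` : in a short window (`H → 0`) whose marks lie near the ray `(1, θ)` relative to the virtual
top, the `Ψ`-valued marked sequence is also a marked sequence with linear rewards `p = ∇_x Ψ (1,θ)`,
growth exponent increased by `g0 = ∂_len Ψ (1,θ)`, for the test sets of width range `d^(±R)` around
the marks.
-/

set_option autoImplicit false

open Finset Filter Topology

namespace Crest.Agent.R116.Zl139

open Crest.Agent.R138.Ex926 (Base U)
open Crest.Agent.R138.Dp76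
open Crest.Agent.R138.Mk163 (zc zl rho alive own)
open Crest.Agent.R138.MkRef627 (mem_alive)
open Crest.Agent.R136.MkA627 (Geo MkA ampA)
open Crest.Agent.R116.Xa794 (TS geo)
open Crest.Agent.R116.Xc794

section

variable {Ln ι S : Type} [Fintype ι] {B' : Base} {I' : ℕ → Finset (ℕ × ℝ)}
    {T : ℕ → TS Ln ι S} {L : ℕ → ℕ → Ln} {lev' : ℕ → ℚ → ℕ}
    {A' : ℕ → ℝ} {c' Λ' : ℝ → ℝ} {θ : ι → ℝ} {f' : ℕ → ℚ → ℕ → ℤ → ℕ}
    {b' : ℕ → ℚ → ℕ → (ι → ℕ) × S}
    {vm' : ℕ → ℚ → ℝ} {w' : ι → ℕ → ℚ → ℝ}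
    {Ψ : ℝ → (ι → ℝ) → ℝ} {g0 : ℝ} {p : ι → ℝ}
    {B : Base} {H : ℕ → ℝ} {mt : ℕ → ℕ} {atop : ℕ → ι → ℕ} {t R : ℝ}

/-- reward of the marks of level `0` -/
noncomputable def Psi0 (Ψ : ℝ → (ι → ℝ) → ℝ) (lev' : ℕ → ℚ → ℕ) (w' : ι → ℕ → ℚ → ℝ) (mt : ℕ → ℕ)
    (atop : ℕ → ι → ℕ) (n : ℕ) : ℝ :=
  Ψ ((mt n : ℝ) - lev' n 0) (fun j => (ee w' n 0 j - lev' n 0) - ((atop n j : ℝ) - mt n))

/-- the constant of the stage -/
noncomputable def EE (Ψ : ℝ → (ι → ℝ) → ℝ) (p : ι → ℝ) (lev' : ℕ → ℚ → ℕ) (w' : ι → ℕ → ℚ → ℝ)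
    (mt : ℕ → ℕ) (atop : ℕ → ι → ℕ) (n : ℕ) : ℝ :=
  (2 : ℝ) ^ (-(Psi0 Ψ lev' w' mt atop n) + ∑ j, p j * (ee w' n 0 j - lev' n 0))

omit [Fintype ι] in
/-- the marks of all levels are within the range. -/
theorem mark_rg {G : Geo ((ι → ℕ) × S) ι}
    (hz : MkA B' I' G lev' A' c' Λ' (fun j v => θ j * (1 - v)) f' b' vm' w')
    {v : ℚ} (h0 : 0 ≤ v) (h1 : v ≤ 1) (j : ι) (hR : 1 + |θ j| < R) :
    ∀ᶠ n in (U : Filter ℕ), B'.d n ^ R * w' j n 1 ≤ w' j n v ∧
      w' j n v ≤ B'.d n ^ (-R) * w' j n 1 := by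
  have t1 := (ee_lim hz h0 h1 j).abs
  have hv0 : (0 : ℝ) ≤ v := by exact_mod_cast h0
  have hv1 : (v : ℝ) ≤ 1 := by exact_mod_cast h1
  have t2 : |(θ j - 1) * (1 - (v : ℝ))| < R := by
    rw [abs_mul]
    have a1 : |1 - (v : ℝ)| ≤ 1 := by rw [abs_le]; constructor <;> linarith
    have a2 : |θ j - 1| ≤ |θ j| + 1 := by
      refine (abs_sub _ _).trans ?_
      rw [abs_one]
    calc |θ j - 1| * |1 - (v : ℝ)| ≤ (|θ j| + 1) * 1 :=
          mul_le_mul a2 a1 (abs_nonneg _) (by positivity)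
      _ < R := by linarith
  filter_upwards [t1.eventually (eventually_lt_nhds t2), hz.wpos j v h0 h1,
    hz.wpos j 1 zero_le_one le_rfl] with n a1 p1 p2
  have hL := B'.L_pos n
  have l2 : 0 < Real.log 2 := Real.log_pos one_lt_two
  have e1 : ∀ a : ℝ, Real.log (B'.d n ^ a * w' j n 1) = -(a * B'.L n) + Real.log (w' j n 1) := by
    intro a
    rw [Real.log_mul (Real.rpow_pos_of_pos (B'.pos n) _).ne' p2.ne', Real.log_rpow (B'.pos n)]
    unfold Base.L
    ring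
  have e2 : (ee w' n v j - ee w' n 1 j) * Real.log 2 =
      Real.log (w' j n 1) - Real.log (w' j n v) := by
    unfold ee; field_simp; ring
  rw [e2, abs_div, abs_of_pos hL, div_lt_iff₀ hL, abs_lt] at a1
  have q1 : 0 < B'.d n ^ R * w' j n 1 := mul_pos (Real.rpow_pos_of_pos (B'.pos n) _) p2
  have q2 : 0 < B'.d n ^ (-R) * w' j n 1 := mul_pos (Real.rpow_pos_of_pos (B'.pos n) _) p2
  constructor
  · rw [← Real.log_le_log_iff q1 p1, e1]
    linarith [a1.2]
  · rw [← Real.log_le_log_iff p1 q2, e1]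
    linarith [a1.1]

/-- **comparison of the sizes**, both directions. -/
theorem val_cmp (hΨ : LinAt Ψ θ g0 p) (hH : ∀ n, 0 < H n) (hH0 : Tendsto H U (𝓝 0))
    (hL : ∀ n, B'.L n = H n * B.L n) (ht : 0 < t) (hR : 0 ≤ R)
    (hz : MkA B' I' (geoP T Ψ mt atop L) lev' A' c' Λ' (fun j v => θ j * (1 - v)) f' b' vm' w')
    (hlen : Tendsto (fun n => ((mt n : ℝ) - lev' n 0) * Real.log 2 / B.L n) U (𝓝 t))
    (hrel : ∀ j, Tendsto (fun n => (-Real.log (w' j n 0) - (lev' n 0 : ℝ) * Real.log 2 -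
      ((atop n j : ℝ) - mt n) * Real.log 2) / B.L n) U (𝓝 (θ j * t)))
    {v : ℚ} (h0 : 0 ≤ v) (h1 : v ≤ 1) {ε : ℝ} (hε : 0 < ε) :
    ∀ᶠ n in (U : Filter ℕ), ∀ s : ι → ℕ,
      (∀ j, B'.d n ^ R * w' j n 1 ≤ (1 / 2 : ℝ) ^ (s j) ∧
        (1 / 2 : ℝ) ^ (s j) ≤ B'.d n ^ (-R) * w' j n 1) →
      capP (T n) Ψ (mt n) (atop n) (lev' n v) s ≤
        B'.d n ^ (-ε) * (EE Ψ p lev' w' mt atop n * B'.d n ^ (-(g0 * v))) *
          (T n).cap p (lev' n v) s ∧
      (EE Ψ p lev' w' mt atop n * B'.d n ^ (-(g0 * v))) * (T n).cap p (lev' n v) s ≤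
        B'.d n ^ (-ε) * capP (T n) Ψ (mt n) (atop n) (lev' n v) s := by
  have l2 : 0 < Real.log 2 := Real.log_pos one_lt_two
  have hc := lin_core hΨ hH hH0 hL ht hR hz hlen hrel h0 h1 (ε := ε / 2) (by positivity)
  have f4 : ∀ᶠ n in (U : Filter ℕ),
      |((lev' n v : ℝ) - lev' n 0) * Real.log 2 / B'.L n - v| ≤ ε / (2 * (|g0| + 1)) := by
    have h3 := (hz.lev_lim 0 v le_rfl h0 h1).sub_const (v : ℝ)
    have e : ((v : ℝ) - ((0 : ℚ) : ℝ)) - (v : ℝ) = 0 := by push_cast; ring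
    rw [e] at h3
    have h4 := h3.abs
    rw [abs_zero] at h4
    exact h4.eventually (eventually_le_nhds (by positivity))
  filter_upwards [hc, f4] with n a1 a2 s hs
  have hLp := B'.L_pos n
  have b1 := a1 s hs
  -- logarithms
  set P : ℝ := Ψ ((mt n : ℝ) - lev' n v) (rel (lev' n v) s (mt n) (atop n)) with hP
  set P0 : ℝ := Psi0 Ψ lev' w' mt atop n with hP0
  set X : ℝ := ∑ j, p j * ((s j : ℝ) - lev' n v) with hX
  set Y : ℝ := ∑ j, p j * (ee w' n 0 j - lev' n 0) with hY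
  have e1 : ∑ j, p j * (((s j : ℝ) - lev' n v) - (ee w' n 0 j - lev' n 0)) = X - Y := by
    rw [hX, hY, ← Finset.sum_sub_distrib]
    refine Finset.sum_congr rfl fun j _ => ?_
    ring
  rw [e1] at b1
  set i : ℝ := (lev' n v : ℝ) - lev' n 0 with hi
  have b1' : Real.log 2 * |P - P0 - g0 * (-i) - (X - Y)| ≤ ε / 2 * B'.L n := by
    have e2 : -i = (lev' n 0 : ℝ) - lev' n v := by rw [hi]; ring
    rw [e2]; exact b1
  have b2 : |g0 * (i * Real.log 2) - g0 * (v * B'.L n)| ≤ ε / 2 * B'.L n := by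
    have e3 : i * Real.log 2 / B'.L n - v = (i * Real.log 2 - v * B'.L n) / B'.L n := by
      field_simp
    rw [e3, abs_div, abs_of_pos hLp, div_le_iff₀ hLp] at a2
    rw [← mul_sub, abs_mul]
    have h5 : |g0| * |i * Real.log 2 - v * B'.L n| ≤ |g0| * (ε / (2 * (|g0| + 1)) * B'.L n) :=
      mul_le_mul_of_nonneg_left a2 (abs_nonneg _)
    have h6 : |g0| * (ε / (2 * (|g0| + 1)) * B'.L n) =
        (|g0| / (|g0| + 1)) * (ε / 2 * B'.L n) := by
      field_simp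
    have h7 : |g0| / (|g0| + 1) ≤ 1 := by
      rw [div_le_one (by positivity)]; linarith
    rw [h6] at h5
    have h8 : 0 ≤ ε / 2 * B'.L n := by positivity
    nlinarith
  have b3 : |Real.log 2 * (P - P0 - g0 * (-i) - (X - Y))| ≤ ε / 2 * B'.L n := by
    rw [abs_mul, abs_of_pos l2]; exact b1'
  rw [abs_le] at b2 b3
  have d1 := B'.pos n
  have vp := (T n).volpos (lev' n v) s
  have pw : ∀ a : ℝ, (2 : ℝ) ^ a = Real.exp (Real.log 2 * a) := fun a => by
    rw [Real.rpow_def_of_pos two_pos]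
  have pd : ∀ a : ℝ, B'.d n ^ a = Real.exp (-(a * B'.L n)) := fun a => by
    rw [Real.rpow_def_of_pos d1]
    unfold Base.L
    congr 1; ring
  unfold capP TS.cap EE
  rw [← hP, ← hX, ← hP0, ← hY, pw, pw, pw, pd, pd]
  constructor
  · calc (T n).vol (lev' n v) s * Real.exp (Real.log 2 * -P)
        ≤ (T n).vol (lev' n v) s * Real.exp (-(-ε * B'.L n) + (Real.log 2 * (-P0 + Y) +
            -(-(g0 * v) * B'.L n)) + Real.log 2 * -X) := by
          refine mul_le_mul_of_nonneg_left (Real.exp_le_exp.2 ?_) vp.le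
          nlinarith [b2.1, b2.2, b3.1, b3.2]
      _ = _ := by
          rw [Real.exp_add, Real.exp_add, Real.exp_add]; ring
  · calc (Real.exp (Real.log 2 * (-P0 + Y)) * Real.exp (-(-(g0 * v) * B'.L n))) *
          ((T n).vol (lev' n v) s * Real.exp (Real.log 2 * -X))
        = (T n).vol (lev' n v) s * Real.exp ((Real.log 2 * (-P0 + Y) +
            -(-(g0 * v) * B'.L n)) + Real.log 2 * -X) := by
          rw [Real.exp_add, Real.exp_add]; ring
      _ ≤ (T n).vol (lev' n v) s * Real.exp (-(-ε * B'.L n) + Real.log 2 * -P) := by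
          refine mul_le_mul_of_nonneg_left (Real.exp_le_exp.2 ?_) vp.le
          nlinarith [b2.1, b2.2, b3.1, b3.2]
      _ = _ := by
          rw [Real.exp_add]; ring

open Classical in
/-- linear size of the marks -/
noncomputable def vm2 (T : ℕ → TS Ln ι S) (p : ι → ℝ) (lev' : ℕ → ℚ → ℕ) (w' : ι → ℕ → ℚ → ℝ)
    (n : ℕ) (v : ℚ) : ℝ :=
  if h : ∃ a : ι → ℕ, ∀ j, (1 / 2 : ℝ) ^ (a j) = w' j n v then (T n).cap p (lev' n v) h.choose
  else 1

theorem vm2_eq {n : ℕ} {v : ℚ} {a : ι → ℕ} (h : ∀ j, (1 / 2 : ℝ) ^ (a j) = w' j n v) :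
    vm2 T p lev' w' n v = (T n).cap p (lev' n v) a := by
  have hex : ∃ a : ι → ℕ, ∀ j, (1 / 2 : ℝ) ^ (a j) = w' j n v := ⟨a, h⟩
  unfold vm2
  rw [dif_pos hex]
  congr 1
  funext j
  have h1 := hex.choose_spec j
  rw [← h j] at h1
  exact (pow_right_injective₀ (by norm_num) (by norm_num)) h1

theorem cap_pos (T : TS Ln ι S) (p : ι → ℝ) (i : ℕ) (a : ι → ℕ) : 0 < T.cap p i a := by
  unfold TS.cap
  have := T.volpos i a
  positivity

theorem vm2_pos (n : ℕ) (v : ℚ) : 0 < vm2 T p lev' w' n v := by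
  unfold vm2
  split_ifs with h
  · exact cap_pos _ _ _ _
  · exact one_pos

/-- **the linear marked sequence of the window**, test sets of range `R`. -/
theorem lin_of (hΨ : LinAt Ψ θ g0 p) (hH : ∀ n, 0 < H n) (hH0 : Tendsto H U (𝓝 0))
    (hL : ∀ n, B'.L n = H n * B.L n) (ht : 0 < t) (hR : ∀ j, 1 + |θ j| < R) (hR0 : 0 ≤ R)
    (hz : MkA B' I' (geoP T Ψ mt atop L) lev' A' c' Λ' (fun j v => θ j * (1 - v)) f' b' vm' w')
    (hlen : Tendsto (fun n => ((mt n : ℝ) - lev' n 0) * Real.log 2 / B.L n) U (𝓝 t))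
    (hrel : ∀ j, Tendsto (fun n => (-Real.log (w' j n 0) - (lev' n 0 : ℝ) * Real.log 2 -
      ((atop n j : ℝ) - mt n) * Real.log 2) / B.L n) U (𝓝 (θ j * t))) :
    MkA B' I' (rg B' w' R (geo T p L)) lev' (fun n => A' n * EE Ψ p lev' w' mt atop n)
      (fun v => c' v + g0 * v) Λ' (fun j v => θ j * (1 - v)) f' b' (vm2 T p lev' w') w' := by
  have hcmp := fun (v : ℚ) (h0 : 0 ≤ v) (h1 : v ≤ 1) (ε : ℝ) (hε : 0 < ε) =>
    val_cmp (R := R) hΨ hH hH0 hL ht hR0 hz hlen hrel h0 h1 hε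
  have hrng : ∀ v : ℚ, 0 ≤ v → v ≤ 1 → ∀ᶠ n in (U : Filter ℕ), ∀ j,
      B'.d n ^ R * w' j n 1 ≤ w' j n v ∧ w' j n v ≤ B'.d n ^ (-R) * w' j n 1 := by
    intro v h0 h1
    rw [Filter.eventually_all]
    exact fun j => mark_rg hz h0 h1 j (hR j)
  refine Rv883.reval hz (G' := rg B' w' R (geo T p L)) rfl rfl
    (fun v h0 h1 => Eventually.of_forall fun n J s hs => hs.1)
    (E := EE Ψ p lev' w' mt atop) (fun n => Real.rpow_pos_of_pos two_pos _)
    (e := fun v => g0 * v) (by simp) (vm' := vm2 T p lev' w') ?_ ?_ ?_ ?_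
  · intro v h0 h1 ε hε
    filter_upwards [hcmp v h0 h1 ε hε] with n hn J s hs
    exact (hn s.1 hs.2).1
  · intro v h0 h1
    filter_upwards [hz.mark v h0 h1, hrng v h0 h1] with n hn hr J t ht
    obtain ⟨m1, m2, m3, m4⟩ := hn J t ht
    refine ⟨⟨m2, fun j => ?_⟩, ?_⟩
    · have := hr j
      rw [← m4 j] at this
      exact this
    · exact (vm2_eq (fun j => m4 j)).symm
  · intro v h0 h1
    exact Eventually.of_forall fun n => vm2_pos n v
  · intro v h0 h1 ε hε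
    filter_upwards [hcmp v h0 h1 ε hε, hz.mark v h0 h1, hrng v h0 h1, hz.ne] with n hn hm hr hne
    obtain ⟨x, hx⟩ := hne
    have hal : x.1 ∈ alive (I' n) (lev' n v) (zc (lev' n v) x.2) := mem_alive.2 ⟨x, hx, rfl, rfl⟩
    obtain ⟨m1, m2, m3, m4⟩ := hm _ _ hal
    have h4 := (hn _ (fun j => by
      have := hr j
      rw [← m4 j] at this
      exact this)).2
    rw [← vm2_eq (T := T) (p := p) (lev' := lev') (fun j => m4 j)] at h4
    refine h4.trans (le_of_eq ?_)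
    congr 1

end

end Crest.Agent.R116.Zl139
end

-- ▼ part R116/KL2_388
section

/-!
# R116 (K side), [KL2]: one more zoom makes the marks infinitely thin or round (helper388)

`kl2` : from a linear marked sequence with two widths (`κ = Fin 2`, wide `w 0`, thin `w 1`) with
`w 1 ≤ w 0` to a window in which the marks of every level are infinitely thin (`Thin`) or round
(`Thick`); same exponents.
-/

set_option autoImplicit false
set_option linter.unusedVariables false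

open Finset Filter Topology

namespace Crest.Agent.R116.KL388

open Crest.Agent.R138.Ex926 (Base U exists_diag exists_tendsto ev_em U_le_atTop)
open Crest.Agent.R138.Mk163 (rho alive own)
open Crest.Agent.R138.MkPoint627 (exists_affine)
open Crest.Agent.R138.MkZoom779 (Fq Fq_mem ev_mem_Fq)
open Crest.Agent.R136.MkA627
open Crest.Agent.R136.ZoomA102
open Crest.Agent.R116.KF439 (Thin Thick Win)

section

variable {σ : Type*} {B : Base} {I : ℕ → Finset (ℕ × ℝ)} {G : Geo σ (Fin 2)} {lev : ℕ → ℚ → ℕ}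
    {A : ℕ → ℝ} {f : ℕ → ℚ → ℕ → ℤ → ℕ} {b : ℕ → ℚ → ℕ → σ}
    {vm : ℕ → ℚ → ℝ} {w : Fin 2 → ℕ → ℚ → ℝ} {g s : ℝ} {θ : Fin 2 → ℝ}

/-- exponent of the thinness of the marks of level `v` -/
noncomputable def rr (B : Base) (w : Fin 2 → ℕ → ℚ → ℝ) (n : ℕ) (v : ℚ) : ℝ :=
  Real.log (w 0 n v / w 1 n v) / B.L n

theorem rr_diff {c Λ : ℝ → ℝ} {τ : Fin 2 → ℝ → ℝ} (h : MkA B I G lev A c Λ τ f b vm w) {v : ℚ}
    (h0 : 0 ≤ v) (h1 : v ≤ 1) :
    Tendsto (fun n => rr B w n v - rr B w n 1) U (𝓝 (τ 1 v - τ 0 v)) := by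
  have a0 := h.tau 0 v h0 h1
  have a1 := h.tau 1 v h0 h1
  refine (a1.sub a0).congr' ?_
  filter_upwards [h.wpos 0 v h0 h1, h.wpos 1 v h0 h1, h.wpos 0 1 zero_le_one le_rfl,
    h.wpos 1 1 zero_le_one le_rfl] with n p0 p1 q0 q1
  have hr : ∀ i, rho i ≠ 0 := fun i => by unfold rho; positivity
  have e : ∀ j, 0 < w j n v → 0 < w j n 1 →
      Real.log ((rho (lev n v) / w j n v) / (rho (lev n 1) / w j n 1)) =
      (Real.log (rho (lev n v)) - Real.log (w j n v)) -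
        (Real.log (rho (lev n 1)) - Real.log (w j n 1)) := fun j x1 x2 => by
    rw [Real.log_div (div_ne_zero (hr _) x1.ne') (div_ne_zero (hr _) x2.ne'),
      Real.log_div (hr _) x1.ne', Real.log_div (hr _) x2.ne']
  unfold rr
  rw [e 0 p0 q0, e 1 p1 q1, Real.log_div p0.ne' p1.ne', Real.log_div q0.ne' q1.ne']
  ring

/-- from the exponent to the widths -/
theorem thin_of {n : ℕ} {v : ℚ} {a : ℝ} (p0 : 0 < w 0 n v) (p1 : 0 < w 1 n v)
    (h : a ≤ rr B w n v) : w 1 n v ≤ B.d n ^ a * w 0 n v := by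
  have hL := B.L_pos n
  unfold rr at h
  rw [le_div_iff₀ hL, Real.log_div p0.ne' p1.ne'] at h
  have e : B.d n ^ a = Real.exp (-(a * B.L n)) := by
    rw [Real.rpow_def_of_pos (B.pos n)]
    congr 1
    unfold Base.L
    ring
  rw [e]
  have h2 : Real.log (w 1 n v) ≤ -(a * B.L n) + Real.log (w 0 n v) := by linarith
  have h3 := Real.exp_le_exp.2 h2
  rw [Real.exp_add, Real.exp_log p0, Real.exp_log p1] at h3
  exact h3

theorem thick_of {n : ℕ} {v : ℚ} {a : ℝ} (p0 : 0 < w 0 n v) (p1 : 0 < w 1 n v)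
    (h : rr B w n v ≤ a) : B.d n ^ a * w 0 n v ≤ w 1 n v := by
  have hL := B.L_pos n
  unfold rr at h
  rw [div_le_iff₀ hL, Real.log_div p0.ne' p1.ne'] at h
  have e : B.d n ^ a = Real.exp (-(a * B.L n)) := by
    rw [Real.rpow_def_of_pos (B.pos n)]
    congr 1
    unfold Base.L
    ring
  rw [e]
  have h2 : -(a * B.L n) + Real.log (w 0 n v) ≤ Real.log (w 1 n v) := by linarith
  have h3 := Real.exp_le_exp.2 h2
  rw [Real.exp_add, Real.exp_log p0, Real.exp_log p1] at h3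
  exact h3

theorem rr_nonneg {n : ℕ} {v : ℚ} (p1 : 0 < w 1 n v) (h : w 1 n v ≤ w 0 n v) :
    0 ≤ rr B w n v := by
  unfold rr
  refine div_nonneg (Real.log_nonneg ?_) (B.L_pos n).le
  rwa [one_le_div p1]



end

end Crest.Agent.R116.KL388
end

-- ▼ part R116/Zl3_139

/-!
# R116 (K side), block X1-C / K4 (helper139): the master window

* `rgK`, `lin_ofK` : range `d^(±K n)`, `K n → ∞`.
* `zoomL` : zoom to a linear loss with any diagonal property.
* `thinthick` : Thin / Thick as a diagonal property.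
* **`master`** : ONE short window which carries the `Ψ`-valued marked sequence (all admissible test
  sets), the marked sequence with linear rewards (test sets of growing range) and is Thin or Thick.
-/

set_option autoImplicit false

open Finset Filter Topology

namespace Crest.Agent.R116.Zl139

open Crest.Agent.R138.Ex926 (Base U exists_diag exists_tendsto ev_em)
open Crest.Agent.R138.Dp76
open Crest.Agent.R138.Mk163 (zc zl rho alive own)
open Crest.Agent.R138.MkRef627 (mem_alive)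
open Crest.Agent.R138.MkPoint627 (exists_affine)
open Crest.Agent.R138.MkZoom779 (Fq Fq_mem ev_mem_Fq)
open Crest.Agent.R136.MkA627 (Geo MkA ampA exists_point_fam)
open Crest.Agent.R136.ZoomA102 (zoomA)
open Crest.Agent.R116.Xa794 (TS geo)
open Crest.Agent.R116.Xc794
open Crest.Agent.R116.KF439 (Thin Thick Win)
open Crest.Agent.R116.KL388 (rr rr_diff thin_of thick_of rr_nonneg)

/-- restriction to the test sets whose widths are within `d^(±K n)` of those of the marks of level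
`1`. -/
def rgK {σ ι : Type*} (B : Base) (w : ι → ℕ → ℚ → ℝ) (K : ℕ → ℝ) (G : Geo σ ι) : Geo σ ι :=
  { G with adm := fun n i J s => G.adm n i J s ∧
      ∀ j, B.d n ^ (K n) * w j n 1 ≤ G.wid j s ∧ G.wid j s ≤ B.d n ^ (-(K n)) * w j n 1 }

section growing

variable {σ ι : Type} [Fintype ι] {B : Base} {I : ℕ → Finset (ℕ × ℝ)} {G : Geo σ ι}
    {lev : ℕ → ℚ → ℕ} {A : ℕ → ℝ} {c Λ : ℝ → ℝ} {τ : ι → ℝ → ℝ} {f : ℕ → ℚ → ℕ → ℤ → ℕ}
    {b : ℕ → ℚ → ℕ → σ} {vm : ℕ → ℚ → ℝ} {w : ι → ℕ → ℚ → ℝ}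

omit [Fintype ι] in
theorem rng_mono {n : ℕ} {w1 x R R' : ℝ} (hw : 0 ≤ w1) (h : R ≤ R')
    (hx : B.d n ^ R * w1 ≤ x ∧ x ≤ B.d n ^ (-R) * w1) :
    B.d n ^ R' * w1 ≤ x ∧ x ≤ B.d n ^ (-R') * w1 :=
  ⟨(mul_le_mul_of_nonneg_right (dpow_le B n h) hw).trans hx.1,
    hx.2.trans (mul_le_mul_of_nonneg_right (dpow_le B n (neg_le_neg h)) hw)⟩

/-- from every fixed range to a growing range. -/
theorem growK {R0 : ℝ} (h : ∀ R : ℝ, R0 ≤ R → MkA B I (rg B w R G) lev A c Λ τ f b vm w) :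
    ∃ K1 : ℕ → ℝ, Tendsto K1 U atTop ∧ ∀ K : ℕ → ℝ, Tendsto K U atTop →
      (∀ᶠ n in (U : Filter ℕ), K n ≤ K1 n) →
      MkA B I (rgK B w K G) lev A c Λ τ f b vm w := by
  classical
  have hR0 := h R0 le_rfl
  obtain ⟨k, hk, hk2⟩ := exists_diag (fun k n => (∀ j, 0 < w j n 1) ∧ ∀ v ∈ Fq k, ∀ J : ℤ, ∀ s : σ,
    (rg B w (k : ℝ) G).adm n (lev n v) J s →
      (((alive (I n) (lev n v) J).filter fun t => G.mem n (lev n v) J s t).card : ℝ) ≤
        B.d n ^ (-(1 / ((k : ℝ) + 1))) * ampA B A c n v * G.val n (lev n v) J s) (by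
    intro k
    have e1 : ∀ᶠ n in (U : Filter ℕ), ∀ j, 0 < w j n 1 := by
      rw [Filter.eventually_all]
      exact fun j => hR0.wpos j 1 zero_le_one le_rfl
    refine e1.and ?_
    rw [Filter.eventually_all_finset]
    intro v hv
    obtain ⟨hv0, hv1⟩ := Fq_mem hv
    filter_upwards [(h (max R0 k) (le_max_left _ _)).dmax v hv0 hv1 (1 / ((k : ℝ) + 1))
      (by positivity), e1] with n hn hw J s hs
    refine hn J s ⟨hs.1, fun j => ?_⟩
    exact rng_mono (hw j).le (le_max_right _ _) (hs.2 j))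
  refine ⟨fun n => (k n : ℝ), tendsto_natCast_atTop_atTop.comp hk, fun K hK hle => ?_⟩
  refine
    { ne := hR0.ne, card := hR0.card, Apos := hR0.Apos, c0 := hR0.c0, lam0 := hR0.lam0
      lam := hR0.lam, tau1 := hR0.tau1, lev_mono := hR0.lev_mono, lev_lim := hR0.lev_lim
      cell0 := hR0.cell0, one := hR0.one, own := hR0.own, dmax := ?_, mark := ?_
      near := hR0.near, vpos := hR0.vpos, wpos := hR0.wpos, tau := hR0.tau }
  · intro v h0 h1 ε hε
    have hF : ∀ᶠ n in (U : Filter ℕ), v ∈ Fq (k n) := hk.eventually (ev_mem_Fq h0 h1)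
    have hE : ∀ᶠ n in (U : Filter ℕ), 1 / ε ≤ (k n : ℝ) :=
      (tendsto_natCast_atTop_atTop.comp hk).eventually_ge_atTop (1 / ε)
    have hdm := hR0.dmax v h0 h1 ε hε
    filter_upwards [hF, hE, hk2, hle] with n a1 a2 a3 a4 J s hs
    obtain ⟨a5, a6⟩ := a3 (k n) le_rfl
    have h2 := a6 v a1 J s ⟨hs.1, fun j => rng_mono (a5 j).le a4 (hs.2 j)⟩
    have hp : 0 < ampA B A c n v := mul_pos (hR0.Apos n) (dpow_pos B n _)
    have hval : 0 ≤ G.val n (lev n v) J s := by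
      by_contra hneg
      have h3 := mul_neg_of_pos_of_neg (mul_pos (dpow_pos B n (-(1 / ((k n : ℝ) + 1)))) hp)
        (not_le.1 hneg)
      have h4 : (0 : ℝ) ≤ (((alive (I n) (lev n v) J).filter fun t =>
        G.mem n (lev n v) J s t).card : ℝ) := by positivity
      linarith
    refine h2.trans ?_
    show _ ≤ B.d n ^ (-ε) * ampA B A c n v * G.val n (lev n v) J s
    refine mul_le_mul_of_nonneg_right (mul_le_mul_of_nonneg_right (dpow_le B n ?_) hp.le) hval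
    rw [neg_le_neg_iff, one_div]
    rw [one_div] at a2
    have : (ε⁻¹) ≤ (k n : ℝ) + 1 := by linarith
    calc ((k n : ℝ) + 1)⁻¹ ≤ (ε⁻¹)⁻¹ := inv_anti₀ (by positivity) this
      _ = ε := inv_inv ε
  · intro v h0 h1
    have e1 : ∀ᶠ n in (U : Filter ℕ), ∀ j, 0 < w j n 1 := by
      rw [Filter.eventually_all]
      exact fun j => hR0.wpos j 1 zero_le_one le_rfl
    filter_upwards [hR0.mark v h0 h1, hK.eventually_ge_atTop R0, e1] with n hn hKn hw J t ht
    obtain ⟨m1, m2, m3, m4⟩ := hn J t ht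
    exact ⟨m1, ⟨m2.1, fun j => rng_mono (hw j).le hKn (m2.2 j)⟩, m3, m4⟩

end growing

section zoom

variable {σ κ : Type} [Countable κ] {B : Base} {I : ℕ → Finset (ℕ × ℝ)} {G : Geo σ κ}
    {lev : ℕ → ℚ → ℕ} {A : ℕ → ℝ} {g : ℝ} {Λ : ℝ → ℝ} {θ : κ → ℝ}
    {f : ℕ → ℚ → ℕ → ℤ → ℕ} {b : ℕ → ℚ → ℕ → σ} {vm : ℕ → ℚ → ℝ} {w : κ → ℕ → ℚ → ℝ}

/-- **zoom to a linear loss with a diagonal property** (391's `kl1` + 388's `zoomQ`). -/
theorem zoomL
    (h : MkA B I G lev A (fun v => g * v + 2 * Λ v) Λ (fun j v => θ j * (1 - v)) f b vm w)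
    (Q : ((ℕ → ℝ) × (ℕ → ℚ → ℚ)) → ℕ → ℕ → Prop)
    (hQ : ∀ (η : ℕ → ℝ) (m : ℕ → ℚ → ℚ), (∀ k, 0 < η k) →
      (∀ k, ∀ x : ℚ, 0 ≤ x → x ≤ 1 → 0 ≤ m k x ∧ m k x ≤ 1) →
      ∀ k, ∀ᶠ n in (U : Filter ℕ), Q (η, m) k n) :
    ∃ (η : ℕ → ℝ) (m : ℕ → ℚ → ℚ) (v0 : ℝ) (t : ℕ → ℕ) (B' : Base) (I' : ℕ → Finset (ℕ × ℝ))
      (A' : ℕ → ℝ) (s : ℝ),
      0 ≤ s ∧ s ≤ 1 ∧ 0 < v0 ∧ v0 < 1 ∧
      (∀ k, 0 < η k) ∧ (∀ k, η k ≤ 1) ∧ Tendsto η atTop (𝓝 0) ∧ Tendsto t U atTop ∧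
      (∀ x : ℚ, Tendsto (fun k => ((m k x : ℚ) : ℝ)) atTop (𝓝 v0)) ∧
      Win B I B' I' (fun n => η (t n)) (fun n => m (t n)) ∧
      MkA B' I' G (fun n x => lev n (m (t n) x)) A' (fun v => (g + 2 * s) * v) (fun v => s * v)
        (fun j v => θ j * (1 - v)) (fun n x => f n (m (t n) x)) (fun n x => b n (m (t n) x))
        (fun n x => vm n (m (t n) x)) (fun j n x => w j n (m (t n) x)) ∧
      ∀ᶠ n in (U : Filter ℕ), Q (η, m) (t n) n := by
  have hlam : ∀ u v : ℚ, 0 ≤ u → u ≤ v → v ≤ 1 → 0 ≤ Λ v - Λ u ∧ Λ v - Λ u ≤ (v : ℝ) - u := by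
    intro u v hu huv hv
    exact h.lam u v (by exact_mod_cast hu) (by exact_mod_cast huv) (by exact_mod_cast hv)
  obtain ⟨F', h1, -, v0, hv0, D, hD⟩ := exists_point_fam (ι := Unit) (F := fun _ => Λ)
    (C := fun _ => 0) (fun _ u v hu huv hv => by
      have := (hlam u v hu huv hv).1
      show -(0 * ((v : ℝ) - u)) ≤ Λ v - Λ u
      linarith)
  obtain ⟨η, m, hη, hη1, hη0, hm, hmono, hq, hpt, hlim⟩ := exists_affine hv0.1 hv0.2
  have hΛ : ∀ x y : ℚ, 0 ≤ x → x ≤ 1 → 0 ≤ y → y ≤ 1 →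
      Tendsto (fun k => (Λ (m k y) - Λ (m k x)) / η k) atTop (𝓝 (D () * ((y : ℝ) - x))) := by
    intro x y hx0 hx1 hy0 hy1
    refine (hlim (F' ()) (D ()) (hD ()) x y).congr fun k => ?_
    rw [h1 () _ (hm k x hx0 hx1).1 (hm k x hx0 hx1).2, h1 () _ (hm k y hy0 hy1).1 (hm k y hy0 hy1).2]
  have e : D () * (((1 : ℚ) : ℝ) - ((0 : ℚ) : ℝ)) = D () := by push_cast; ring
  have hT := hΛ 0 1 le_rfl zero_le_one zero_le_one le_rfl
  rw [e] at hT
  have hstep : ∀ k, 0 ≤ Λ (m k 1) - Λ (m k 0) ∧ Λ (m k 1) - Λ (m k 0) ≤ η k := fun k => by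
    have h4 := hlam (m k 0) (m k 1) (hm k 0 le_rfl zero_le_one).1 (hmono k 0 1 zero_le_one)
      (hm k 1 zero_le_one le_rfl).2
    have h5 := hq k 0 1
    rw [div_eq_iff (hη k).ne'] at h5
    push_cast at h5
    exact ⟨h4.1, by linarith [h4.2]⟩
  have hs0 : 0 ≤ D () := ge_of_tendsto' hT fun k => div_nonneg (hstep k).1 (hη k).le
  have hs1 : D () ≤ 1 := le_of_tendsto' hT fun k => by
    rw [div_le_one (hη k)]; exact (hstep k).2
  obtain ⟨s0, hs0t, hz⟩ := zoomA h η m (fun v => (g + 2 * D ()) * v) (fun v => D () * v)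
    (fun j v => θ j * (1 - v)) hη hη1 hm
    (fun x y _ hxy _ => Eventually.of_forall fun k => hmono k x y hxy)
    (fun x y _ _ _ => by
      simp only [hq]
      exact tendsto_const_nhds)
    (fun x hx0 hx1 => by
      have a1 := hΛ 0 x le_rfl zero_le_one hx0 hx1
      have a2 : Tendsto (fun k => g * (((m k x : ℝ) - m k 0) / η k)) atTop
          (𝓝 (g * ((x : ℝ) - ((0 : ℚ) : ℝ)))) := by
        simp only [hq]
        exact tendsto_const_nhds
      have a3 := a2.add (a1.const_mul 2)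
      have a4 : g * ((x : ℝ) - ((0 : ℚ) : ℝ)) + 2 * (D () * ((x : ℝ) - ((0 : ℚ) : ℝ))) =
          (g + 2 * D ()) * (x : ℝ) := by push_cast; ring
      rw [a4] at a3
      refine a3.congr fun k => ?_
      ring)
    (fun x hx0 hx1 => by
      have := hΛ 0 x le_rfl zero_le_one hx0 hx1
      simpa using this)
    (fun j x hx0 hx1 => by
      have a2 : Tendsto (fun k => -(θ j * (((m k x : ℝ) - m k 1) / η k))) atTop
          (𝓝 (-(θ j * ((x : ℝ) - ((1 : ℚ) : ℝ))))) := by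
        simp only [hq]
        exact tendsto_const_nhds
      have a4 : -(θ j * ((x : ℝ) - ((1 : ℚ) : ℝ))) = θ j * (1 - (x : ℝ)) := by push_cast; ring
      rw [a4] at a2
      refine a2.congr fun k => ?_
      ring)
    (fun u v hu huv hv => by
      constructor
      · nlinarith
      · nlinarith) (by simp) (by simp) (by simp)
  obtain ⟨s1, hs1t, hs1'⟩ := exists_diag (Q (η, m)) (hQ η m hη hm)
  set t : ℕ → ℕ := fun n => min (s0 n) (s1 n) with ht
  have htt : Tendsto t U atTop := by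
    rw [tendsto_atTop]
    intro c
    filter_upwards [tendsto_atTop.1 hs0t c, tendsto_atTop.1 hs1t c] with n h1 h2
    exact le_min h1 h2
  obtain ⟨B', I', A', hB', hI', hMk⟩ := hz t htt (Eventually.of_forall fun n => min_le_left _ _)
  refine ⟨η, m, v0, t, B', I', A', D (), hs0, hs1, hv0.1, hv0.2, hη, hη1, hη0, htt, hpt, ?_, hMk,
    ?_⟩
  · exact
    { pos := fun n => ⟨hη _, hη1 _⟩
      lim := hη0.comp htt
      mem := fun n => hm _
      aff := fun n x y => by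
        have h5 := hq (t n) x y
        rw [div_eq_iff (hη _).ne'] at h5
        linarith
      pt := ⟨v0, hv0, fun x => (hpt x).comp htt⟩
      base := hB'
      sub := hI' }
  · filter_upwards [hs1'] with n hn using hn (t n) (min_le_right _ _)

end zoom

section tt

variable {σ : Type} {B : Base} {I : ℕ → Finset (ℕ × ℝ)} {G : Geo σ (Fin 2)} {lev : ℕ → ℚ → ℕ}
    {A : ℕ → ℝ} {c Λ : ℝ → ℝ} {θ : Fin 2 → ℝ} {f : ℕ → ℚ → ℕ → ℤ → ℕ} {b : ℕ → ℚ → ℕ → σ}
    {vm : ℕ → ℚ → ℝ} {w : Fin 2 → ℕ → ℚ → ℝ}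

/-- **Thin / Thick as a diagonal property.** -/
theorem thinthick (h : MkA B I G lev A c Λ (fun j v => θ j * (1 - v)) f b vm w)
    (hle : ∀ v : ℚ, 0 ≤ v → v ≤ 1 → ∀ᶠ n in (U : Filter ℕ), w 1 n v ≤ w 0 n v) :
    ∃ Q : ((ℕ → ℝ) × (ℕ → ℚ → ℚ)) → ℕ → ℕ → Prop,
      (∀ (η : ℕ → ℝ) (m : ℕ → ℚ → ℚ), (∀ k, 0 < η k) →
        (∀ k, ∀ x : ℚ, 0 ≤ x → x ≤ 1 → 0 ≤ m k x ∧ m k x ≤ 1) →
        ∀ k, ∀ᶠ n in (U : Filter ℕ), Q (η, m) k n) ∧
      ∀ (η : ℕ → ℝ) (m : ℕ → ℚ → ℚ) (v0 : ℝ) (t : ℕ → ℕ) (B' : Base), (∀ k, 0 < η k) →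
        (∀ k, η k ≤ 1) →
        Tendsto η atTop (𝓝 0) → Tendsto t U atTop → 0 < v0 → v0 < 1 →
        (∀ x : ℚ, Tendsto (fun k => ((m k x : ℚ) : ℝ)) atTop (𝓝 v0)) →
        (∀ n, B'.d n = B.d n ^ η (t n)) → (∀ᶠ n in (U : Filter ℕ), Q (η, m) (t n) n) →
        Thin B' (fun j n x => w j n (m (t n) x)) ∨ Thick B' (fun j n x => w j n (m (t n) x)) := by
  classical
  set Δ : ℝ := θ 1 - θ 0 with hΔ
  have hd : ∀ v : ℚ, 0 ≤ v → v ≤ 1 →
      Tendsto (fun n => rr B w n v - rr B w n 1) U (𝓝 (Δ * (1 - v))) := fun v h0 h1 => by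
    have := rr_diff h h0 h1
    have e : Δ * (1 - (v : ℝ)) = θ 1 * (1 - v) - θ 0 * (1 - v) := by rw [hΔ]; ring
    rw [e]
    exact this
  have hpos : ∀ v : ℚ, 0 ≤ v → v ≤ 1 → ∀ᶠ n in (U : Filter ℕ), 0 ≤ rr B w n v := fun v h0 h1 => by
    filter_upwards [h.wpos 1 v h0 h1, hle v h0 h1] with n a1 a2 using rr_nonneg a1 a2
  by_cases hA : Tendsto (fun n => rr B w n 1) U atTop
  · refine ⟨fun p k n => ∀ x ∈ Fq k, (k : ℝ) ≤ rr B w n (p.2 k x) ∧ 0 < w 0 n (p.2 k x) ∧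
        0 < w 1 n (p.2 k x), ?_, ?_⟩
    · intro η m hη hm k
      rw [Filter.eventually_all_finset]
      intro x hx
      obtain ⟨hx0, hx1⟩ := Fq_mem hx
      obtain ⟨hm0, hm1⟩ := hm k x hx0 hx1
      have e1 := (Metric.tendsto_nhds.1 (hd (m k x) hm0 hm1)) 1 one_pos
      filter_upwards [e1, hA.eventually_ge_atTop ((k : ℝ) + 1 + |Δ * (1 - (m k x : ℝ))|),
        h.wpos 0 (m k x) hm0 hm1, h.wpos 1 (m k x) hm0 hm1] with n a1 a2 a3 a4
      refine ⟨?_, a3, a4⟩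
      rw [Real.dist_eq] at a1
      have b1 := (abs_lt.1 a1).1
      have b2 := neg_abs_le (Δ * (1 - (m k x : ℝ)))
      show (k : ℝ) ≤ rr B w n (m k x)
      linarith
    · intro η m v0 t B' hη hη1 hη0 htt hv0 hv1 hmv hB hQ
      left
      intro M v h0 h1
      have hF : ∀ᶠ n in (U : Filter ℕ), v ∈ Fq (t n) := htt.eventually (ev_mem_Fq h0 h1)
      have hK : ∀ᶠ n in (U : Filter ℕ), |M| ≤ (t n : ℝ) :=
        (tendsto_natCast_atTop_atTop.comp htt).eventually_ge_atTop |M|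
      filter_upwards [hF, hK, hQ] with n a1 a2 a3
      obtain ⟨b1, b2, b3⟩ := a3 v a1
      have e : B'.d n ^ M = B.d n ^ (η (t n) * M) := by
        rw [hB, ← Real.rpow_mul (B.pos n).le]
      show w 1 n (m (t n) v) ≤ B'.d n ^ M * w 0 n (m (t n) v)
      rw [e]
      refine thin_of b2 b3 (le_trans ?_ (a2.trans b1))
      calc η (t n) * M ≤ η (t n) * |M| := mul_le_mul_of_nonneg_left (le_abs_self _) (hη _).le
        _ ≤ 1 * |M| := mul_le_mul_of_nonneg_right (hη1 _) (abs_nonneg _)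
        _ = |M| := one_mul _
  · have hbd : ∃ C : ℝ, ∀ᶠ n in (U : Filter ℕ), |rr B w n 1| ≤ C := by
      rw [tendsto_atTop] at hA
      push Not at hA
      obtain ⟨C, hC⟩ := hA
      refine ⟨C, ?_⟩
      have hC' : ∀ᶠ n in (U : Filter ℕ), ¬ (C ≤ rr B w n 1) := by
        rcases ev_em (fun n => C ≤ rr B w n 1) with h1 | h1
        · exact absurd h1 (by simpa using hC)
        · exact h1
      filter_upwards [hC', hpos 1 zero_le_one le_rfl] with n a1 a2
      rw [abs_of_nonneg a2]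
      exact (not_le.1 a1).le
    obtain ⟨C, hC⟩ := hbd
    obtain ⟨r1, hr1, -⟩ := exists_tendsto hC
    have hlim : ∀ v : ℚ, 0 ≤ v → v ≤ 1 →
        Tendsto (fun n => rr B w n v) U (𝓝 (r1 + Δ * (1 - v))) := fun v h0 h1 => by
      have := (hd v h0 h1).add hr1
      have e : (fun n => rr B w n v - rr B w n 1 + rr B w n 1) = fun n => rr B w n v := by
        funext n; ring
      rw [e] at this
      rwa [add_comm r1]
    have hge : ∀ v : ℚ, 0 ≤ v → v ≤ 1 → 0 ≤ r1 + Δ * (1 - (v : ℝ)) := fun v h0 h1 =>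
      ge_of_tendsto (hlim v h0 h1) (hpos v h0 h1)
    refine ⟨fun p k n => ∀ x ∈ Fq k, |rr B w n (p.2 k x) - (r1 + Δ * (1 - (p.2 k x : ℝ)))| ≤
        p.1 k / ((k : ℝ) + 1) ∧ 0 < w 0 n (p.2 k x) ∧ 0 < w 1 n (p.2 k x), ?_, ?_⟩
    · intro η m hη hm k
      rw [Filter.eventually_all_finset]
      intro x hx
      obtain ⟨hx0, hx1⟩ := Fq_mem hx
      obtain ⟨hm0, hm1⟩ := hm k x hx0 hx1
      have hk : 0 < η k / ((k : ℝ) + 1) := div_pos (hη k) (by positivity)
      have e1 := (Metric.tendsto_nhds.1 (hlim (m k x) hm0 hm1)) _ hk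
      filter_upwards [e1, h.wpos 0 (m k x) hm0 hm1, h.wpos 1 (m k x) hm0 hm1] with n a1 a3 a4
      rw [Real.dist_eq] at a1
      exact ⟨a1.le, a3, a4⟩
    · intro η m v0 t B' hη hη1 hη0 htt hv0 hv1 hmv hB hQ
      have hB' : ∀ n (y : ℝ), B'.d n ^ y = B.d n ^ (η (t n) * y) := fun n y => by
        rw [hB, ← Real.rpow_mul (B.pos n).le]
      have hkk : ∀ ε : ℝ, 0 < ε → ∀ᶠ n in (U : Filter ℕ), η (t n) / ((t n : ℝ) + 1) ≤
          ε * η (t n) := fun ε hε => by
        have hK : ∀ᶠ n in (U : Filter ℕ), 1 / ε ≤ (t n : ℝ) :=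
          (tendsto_natCast_atTop_atTop.comp htt).eventually_ge_atTop (1 / ε)
        filter_upwards [hK] with n a2
        have hp := hη (t n)
        have hp' : (0 : ℝ) < (t n : ℝ) + 1 := by positivity
        rw [div_le_iff₀ hp']
        have : 1 ≤ ε * ((t n : ℝ) + 1) := by
          rw [div_le_iff₀ hε] at a2
          nlinarith
        nlinarith
      have g0 := hge 0 le_rfl zero_le_one
      have g1 := hge 1 zero_le_one le_rfl
      push_cast at g0 g1
      have hc0 : r1 + Δ * (1 - v0) = (1 - v0) * (r1 + Δ * (1 - 0)) + v0 * (r1 + Δ * (1 - 1)) := by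
        ring
      have hcn : 0 ≤ r1 + Δ * (1 - v0) := by
        rw [hc0]
        exact add_nonneg (mul_nonneg (by linarith) g0) (mul_nonneg hv0.le g1)
      rcases hcn.lt_or_eq with hc | hc
      · left
        intro M v h0 h1
        have hF : ∀ᶠ n in (U : Filter ℕ), v ∈ Fq (t n) := htt.eventually (ev_mem_Fq h0 h1)
        have hlim2 : Tendsto (fun n => r1 + Δ * (1 - (m (t n) v : ℝ))) U
            (𝓝 (r1 + Δ * (1 - v0))) := by
          have h2 := (hmv v).comp htt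
          exact (((h2.const_sub 1).const_mul Δ).const_add r1)
        have hη' : Tendsto (fun n => η (t n)) U (𝓝 0) := hη0.comp htt
        have e1 := hlim2.eventually_const_lt
          (show (r1 + Δ * (1 - v0)) / 2 < r1 + Δ * (1 - v0) by linarith)
        have e2 : ∀ᶠ n in (U : Filter ℕ), η (t n) * (|M| + 1) < (r1 + Δ * (1 - v0)) / 2 := by
          have h3 := hη'.mul_const (|M| + 1)
          rw [zero_mul] at h3
          exact h3.eventually_lt_const (by positivity)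
        filter_upwards [hF, hQ, e1, e2, hkk 1 one_pos] with n a1 a2 a3 a4 a5
        obtain ⟨b1, b2, b3⟩ := a2 v a1
        show w 1 n (m (t n) v) ≤ B'.d n ^ M * w 0 n (m (t n) v)
        rw [hB']
        refine thin_of b2 b3 ?_
        have b4 := (abs_le.1 b1).1
        have b5 : η (t n) * M ≤ η (t n) * |M| :=
          mul_le_mul_of_nonneg_left (le_abs_self _) (hη _).le
        linarith
      · right
        rw [hc0] at hc
        have z0 : (1 - v0) * (r1 + Δ * (1 - 0)) = 0 := by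
          have q1 := mul_nonneg (show 0 ≤ 1 - v0 by linarith) g0
          have q2 := mul_nonneg hv0.le g1
          linarith
        have z1 : v0 * (r1 + Δ * (1 - 1)) = 0 := by linarith
        have z0' : r1 + Δ * (1 - 0) = 0 := by
          rcases mul_eq_zero.1 z0 with q | q
          · exact absurd q (by linarith [sub_pos.2 hv1])
          · exact q
        have z1' : r1 + Δ * (1 - 1) = 0 := by
          rcases mul_eq_zero.1 z1 with q | q
          · exact absurd q hv0.ne'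
          · exact q
        have hr0 : r1 = 0 := by linarith
        have hD0 : Δ = 0 := by linarith
        intro ε hε v h0 h1
        have hF : ∀ᶠ n in (U : Filter ℕ), v ∈ Fq (t n) := htt.eventually (ev_mem_Fq h0 h1)
        filter_upwards [hF, hQ, hkk ε hε] with n a1 a2 a5
        obtain ⟨b1, b2, b3⟩ := a2 v a1
        show B'.d n ^ ε * w 0 n (m (t n) v) ≤ w 1 n (m (t n) v)
        rw [hB']
        refine thick_of b2 b3 ?_
        rw [hD0, hr0] at b1
        have b4 := (abs_le.1 b1).2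
        linarith

end tt

section master

variable {Ln S : Type} {B : Base} {I : ℕ → Finset (ℕ × ℝ)} {T : ℕ → TS Ln (Fin 2) S}
    {L : ℕ → ℕ → Ln} {lev : ℕ → ℚ → ℕ} {A : ℕ → ℝ} {g : ℝ} {Λ : ℝ → ℝ} {θ : Fin 2 → ℝ}
    {f : ℕ → ℚ → ℕ → ℤ → ℕ} {b : ℕ → ℚ → ℕ → (Fin 2 → ℕ) × S} {vm : ℕ → ℚ → ℝ}
    {w : Fin 2 → ℕ → ℚ → ℝ} {Ψ : ℝ → (Fin 2 → ℝ) → ℝ} {g0 : ℝ} {p : Fin 2 → ℝ} {mt : ℕ → ℕ}
    {atop : ℕ → Fin 2 → ℕ} {T0 : ℝ}

/-- **the master window**: one short window with the `Ψ`-valued sequence, the linear sequence with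
growing range, Thin or Thick, and any further diagonal property `Q`. -/
theorem master
    (h : MkA B I (geoP T Ψ mt atop L) lev A (fun v => g * v + 2 * Λ v) Λ
      (fun j v => θ j * (1 - v)) f b vm w)
    (hT : TopPos B lev w mt atop θ T0) (hT0 : 1 ≤ T0) (hΨ : LinAt Ψ θ g0 p)
    (hle : ∀ v : ℚ, 0 ≤ v → v ≤ 1 → ∀ᶠ n in (U : Filter ℕ), w 1 n v ≤ w 0 n v)
    (Q : ((ℕ → ℝ) × (ℕ → ℚ → ℚ)) → ℕ → ℕ → Prop)
    (hQ : ∀ (η : ℕ → ℝ) (m : ℕ → ℚ → ℚ), (∀ k, 0 < η k) →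
      (∀ k, ∀ x : ℚ, 0 ≤ x → x ≤ 1 → 0 ≤ m k x ∧ m k x ≤ 1) →
      ∀ k, ∀ᶠ n in (U : Filter ℕ), Q (η, m) k n) :
    ∃ (η : ℕ → ℝ) (m : ℕ → ℚ → ℚ) (t : ℕ → ℕ) (B' : Base) (I' : ℕ → Finset (ℕ × ℝ))
      (A' A2 : ℕ → ℝ) (vm2 : ℕ → ℚ → ℝ) (s : ℝ) (K1 : ℕ → ℝ),
      0 ≤ s ∧ s ≤ 1 ∧ (∀ k, 0 < η k) ∧ Tendsto η atTop (𝓝 0) ∧ Tendsto t U atTop ∧
      Win B I B' I' (fun n => η (t n)) (fun n => m (t n)) ∧
      MkA B' I' (geoP T Ψ mt atop L) (fun n x => lev n (m (t n) x)) A'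
        (fun v => (g + 2 * s) * v) (fun v => s * v)
        (fun j v => θ j * (1 - v)) (fun n x => f n (m (t n) x)) (fun n x => b n (m (t n) x))
        (fun n x => vm n (m (t n) x)) (fun j n x => w j n (m (t n) x)) ∧
      Tendsto K1 U atTop ∧
      (∀ K : ℕ → ℝ, Tendsto K U atTop → (∀ᶠ n in (U : Filter ℕ), K n ≤ K1 n) →
        MkA B' I' (rgK B' (fun j n x => w j n (m (t n) x)) K (geo T p L))
          (fun n x => lev n (m (t n) x)) A2
          (fun v => (g + g0 + 2 * s) * v) (fun v => s * v)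
          (fun j v => θ j * (1 - v)) (fun n x => f n (m (t n) x)) (fun n x => b n (m (t n) x))
          vm2 (fun j n x => w j n (m (t n) x))) ∧
      (Thin B' (fun j n x => w j n (m (t n) x)) ∨ Thick B' (fun j n x => w j n (m (t n) x))) ∧
      ∀ᶠ n in (U : Filter ℕ), Q (η, m) (t n) n := by
  classical
  obtain ⟨QT, hQT, hTT⟩ := thinthick h hle
  obtain ⟨η, m, v0, t, B', I', A', s, hs0, hs1, hv0, hv1, hη, hη1, hη0, htt, hpt, hW, hM, hD⟩ :=
    zoomL h (fun q k n => QT q k n ∧ Q q k n ∧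
      |((mt n : ℝ) - lev n (q.2 k 0)) * Real.log 2 / B.L n - (T0 - (q.2 k 0 : ℝ))| ≤
        1 / ((k : ℝ) + 1) ∧
      ∀ j, |(-Real.log (w j n (q.2 k 0)) - (lev n (q.2 k 0) : ℝ) * Real.log 2 -
        ((atop n j : ℝ) - mt n) * Real.log 2) / B.L n - θ j * (T0 - (q.2 k 0 : ℝ))| ≤
        1 / ((k : ℝ) + 1)) (by
      intro η m hη hm k
      obtain ⟨hm0, hm1⟩ := hm k 0 le_rfl zero_le_one
      have hk : (0 : ℝ) < 1 / ((k : ℝ) + 1) := by positivity
      have e1 := (Metric.tendsto_nhds.1 (hT.len (m k 0) hm0 hm1)) _ hk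
      have e2 : ∀ᶠ n in (U : Filter ℕ), ∀ j,
          |(-Real.log (w j n (m k 0)) - (lev n (m k 0) : ℝ) * Real.log 2 -
          ((atop n j : ℝ) - mt n) * Real.log 2) / B.L n - θ j * (T0 - (m k 0 : ℝ))| ≤
          1 / ((k : ℝ) + 1) := by
        rw [Filter.eventually_all]
        intro j
        filter_upwards [(Metric.tendsto_nhds.1 (hT.rel j (m k 0) hm0 hm1)) _ hk] with n hn
        rw [Real.dist_eq] at hn
        exact hn.le
      filter_upwards [hQT η m hη hm k, hQ η m hη hm k, e1, e2] with n a1 a2 a3 a4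
      rw [Real.dist_eq] at a3
      exact ⟨a1, a2, a3.le, a4⟩)
  have hH : ∀ n, 0 < η (t n) := fun n => hη _
  have hH0 : Tendsto (fun n => η (t n)) U (𝓝 0) := hη0.comp htt
  have hL : ∀ n, B'.L n = η (t n) * B.L n := fun n => by
    unfold Base.L
    rw [hW.base, Real.log_rpow (B.pos n)]
    ring
  have h1k : Tendsto (fun n => 1 / ((t n : ℝ) + 1)) U (𝓝 0) :=
    tendsto_one_div_add_atTop_nhds_zero_nat.comp htt
  have hm0 : Tendsto (fun n => ((m (t n) 0 : ℚ) : ℝ)) U (𝓝 v0) := (hpt 0).comp htt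
  have hlen : Tendsto (fun n => ((mt n : ℝ) - lev n (m (t n) 0)) * Real.log 2 / B.L n) U
      (𝓝 (T0 - v0)) := by
    have h1 : Tendsto (fun n => ((mt n : ℝ) - lev n (m (t n) 0)) * Real.log 2 / B.L n -
        (T0 - ((m (t n) 0 : ℚ) : ℝ))) U (𝓝 0) := by
      refine squeeze_zero_norm' ?_ h1k
      filter_upwards [hD] with n hn using hn.2.2.1
    have h2 := h1.add (hm0.const_sub T0)
    rw [zero_add] at h2
    refine h2.congr fun n => ?_
    ring
  have hrel : ∀ j, Tendsto (fun n => (-Real.log (w j n (m (t n) 0)) -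
      (lev n (m (t n) 0) : ℝ) * Real.log 2 - ((atop n j : ℝ) - mt n) * Real.log 2) / B.L n) U
      (𝓝 (θ j * (T0 - v0))) := by
    intro j
    have h1 : Tendsto (fun n => (-Real.log (w j n (m (t n) 0)) -
        (lev n (m (t n) 0) : ℝ) * Real.log 2 - ((atop n j : ℝ) - mt n) * Real.log 2) / B.L n -
        θ j * (T0 - ((m (t n) 0 : ℚ) : ℝ))) U (𝓝 0) := by
      refine squeeze_zero_norm' ?_ h1k
      filter_upwards [hD] with n hn using hn.2.2.2 j
    have h2 := h1.add ((hm0.const_sub T0).const_mul (θ j))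
    rw [zero_add] at h2
    refine h2.congr fun n => ?_
    ring
  have hlin : ∀ R : ℝ, 2 + (|θ 0| + |θ 1|) ≤ R →
      MkA B' I' (rg B' (fun j n x => w j n (m (t n) x)) R (geo T p L))
        (fun n x => lev n (m (t n) x)) (fun n => A' n * EE Ψ p (fun n x => lev n (m (t n) x))
          (fun j n x => w j n (m (t n) x)) mt atop n)
        (fun v => (g + g0 + 2 * s) * v) (fun v => s * v)
        (fun j v => θ j * (1 - v)) (fun n x => f n (m (t n) x)) (fun n x => b n (m (t n) x))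
        (vm2 T p (fun n x => lev n (m (t n) x)) (fun j n x => w j n (m (t n) x)))
        (fun j n x => w j n (m (t n) x)) := by
    intro R hR
    have h1 := lin_of (lev' := fun n x => lev n (m (t n) x)) (w' := fun j n x => w j n (m (t n) x))
      (t := T0 - v0) (R := R) hΨ hH hH0 hL (by linarith) (by
        intro j
        have a0 := abs_nonneg (θ 0)
        have a1 := abs_nonneg (θ 1)
        fin_cases j
        · show 1 + |θ 0| < R; linarith
        · show 1 + |θ 1| < R; linarith) (by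
        have a0 := abs_nonneg (θ 0)
        have a1 := abs_nonneg (θ 1)
        linarith) hM hlen hrel
    refine h1.congr (fun v _ _ => ?_) (fun j v _ _ => rfl)
    ring
  obtain ⟨K1, hK1, hK⟩ := growK (R0 := 2 + (|θ 0| + |θ 1|)) hlin
  exact ⟨η, m, t, B', I', A', _, _, s, K1, hs0, hs1, hη, hη0, htt, hW, hM, hK1, hK,
    hTT η m v0 t B' hη hη1 hη0 htt hv0 hv1 hpt hW.base (hD.mono fun n hn => hn.1),
    hD.mono fun n hn => hn.2.1⟩

end master

end Crest.Agent.R116.Zl139
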