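import Mathlib
import Crest.Agent.R116.Zl4_139
import Crest.Agent.R116.XcCut_794
import Crest.Agent.R116.XcOut_794
import Crest.Agent.R116.RmDef_635
import Crest.Agent.R116.Tw5_468
import Crest.Agent.R116.Ext3_803
import Crest.Agent.R116.KF2_439
import Crest.Agent.R138.Ps1_926
import Crest.Agent.R136.MkF_627
import Crest.Agent.R138.TiltU1_51
import Crest.Agent.R116.Td3_809
import Crest.Agent.R116.Gd1_222
import Crest.Agent.R116.Psi2_635
import Crest.Agent.R116.Ks9_79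
import Crest.Agent.R116.XcF_794

-- ▼ part R116/Zl5_139
section

/-!
# R116 (K side), block X1-C / K4 (helper139): the final window of the cut classes

`exists_winL_cut` : the classes `cut K0 (R n) (TSL (r n))` (794), `r n ≤ 2^(-R n)`, `θ j ≤ K0`.
-/

set_option autoImplicit false

open Finset Filter Topology

namespace Crest.Agent.R116.Zl139

open Crest.Agent.R138.Ex926 (Base U)
open Crest.Agent.R138.Dp76
open Crest.Agent.R138.Mk163 (zc zl rho alive own)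
open Crest.Agent.R138.MkRef627 (mem_alive)
open Crest.Agent.R136.MkA627 (Geo MkA ampA)
open Crest.Agent.R116.Xa794 (TS geo)
open Crest.Agent.R116.Xc794
open Crest.Agent.R116.LZg725
open Crest.Agent.R116.KI439
open Crest.Agent.R116.KF439

theorem isTL_cut (K0 R : ℕ) (r : ℝ) : IsTL (cut K0 R (TSL r)) r where
  mem := fun _ _ _ _ => Iff.rfl
  adm := fun _ _ _ h => h.1
  vol := fun _ _ => rfl

/-- range of a cut class at level `i` -/
noncomputable def Rc (K0 : ℕ) (R : ℕ → ℕ) (n i : ℕ) : ℝ := (R n : ℝ) - K0 * i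

theorem rng_cut (K0 : ℕ) (R : ℕ → ℕ) (r : ℕ → ℝ) (mc : ℕ → ℕ) (hr : ∀ n, r n ≤ (1 / 2 : ℝ) ^ (R n)) :
    Rng (fun n => cut K0 (R n) (TSL (r n))) r mc (Rc K0 R) where
  adm := fun n i J a m h _ ha => ⟨h, fun j => by
    have h1 := ha j
    unfold Rc at h1
    have h2 : (a j : ℝ) + K0 * i ≤ R n := by linarith
    exact_mod_cast h2⟩
  anti := fun n i i' hi _ => by
    unfold Rc
    have h1 : (i : ℝ) ≤ i' := by exact_mod_cast hi
    have h2 : (K0 : ℝ) * i ≤ K0 * i' := mul_le_mul_of_nonneg_left h1 (Nat.cast_nonneg _)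
    linarith
  res := fun n i _ => by
    refine (hr n).trans ?_
    unfold Rc
    rw [one_div, inv_pow, ← Real.rpow_natCast, ← Real.rpow_neg two_pos.le]
    refine Real.rpow_le_rpow_of_exponent_le one_le_two ?_
    have : (0 : ℝ) ≤ (K0 : ℝ) * i := by positivity
    linarith

theorem grow_cut (K0 : ℕ) (R : ℕ → ℕ) (n i i' : ℕ) :
    Rc K0 R n i' + (K0 : ℝ) * ((i' : ℝ) - i) ≤ Rc K0 R n i := by
  unfold Rc
  linarith

/-- **the final window of the cut classes.** -/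
theorem exists_winL_cut {B : Base} {I : ℕ → Finset (ℕ × ℝ)} {K0 : ℕ} {R : ℕ → ℕ}
    {L : ℕ → ℕ → LRay} {r : ℕ → ℝ}
    {Ψ : ℝ → (Fin 2 → ℝ) → ℝ} {atop : ℕ → Fin 2 → ℕ} {lev : ℕ → ℚ → ℕ} {A : ℕ → ℝ}
    {f : ℕ → ℚ → ℕ → ℤ → ℕ} {b : ℕ → ℚ → ℕ → SL} {vm : ℕ → ℚ → ℝ} {w : Fin 2 → ℕ → ℚ → ℝ}
    {g g0 : ℝ} {Λ : ℝ → ℝ} {θ p : Fin 2 → ℝ}
    (hr : ∀ n, r n ≤ (1 / 2 : ℝ) ^ (R n))
    (h : MkA B I (geoP (fun n => cut K0 (R n) (TSL (r n))) Ψ (fun n => lev n 1) atop L) lev A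
      (fun v => g * v + 2 * Λ v) Λ (fun j v => θ j * (1 - v)) f b vm w)
    (hat : ∀ j, ∀ᶠ n in (U : Filter ℕ), w j n 1 = (1 / 2 : ℝ) ^ (atop n j))
    (hK0 : ∀ j, θ j ≤ K0) (hΨ : LinAt Ψ θ g0 p) :
    ∃ (s : ℝ) (B' : Base) (I' : ℕ → Finset (ℕ × ℝ)) (H : ℕ → ℝ)
      (mm : ℕ → ℚ → ℚ) (A' A2 : ℕ → ℝ) (vm2 : ℕ → ℚ → ℝ) (K : ℕ → ℝ),
      WinL B I (fun n => cut K0 (R n) (TSL (r n))) L r Ψ (fun n => lev n 1) atop lev f b vm w
        g g0 s θ p B' I' H mm A' A2 vm2 K := by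
  have hmc : ∀ᶠ n in (U : Filter ℕ), lev n 1 ≤ (fun n => lev n 1) n :=
    Eventually.of_forall fun n => le_rfl
  have htop : ∀ j, ∀ᶠ n in (U : Filter ℕ), ee w n 1 j ≤ Rc K0 R n (lev n 1) := by
    intro j
    filter_upwards [h.mark 1 zero_le_one le_rfl, h.ne] with n hn hne
    obtain ⟨x, hx⟩ := hne
    obtain ⟨-, m2, -, m4⟩ := hn (zc (lev n 1) x.2) x.1 (mem_alive.2 ⟨x, hx, rfl, rfl⟩)
    have m5 : (1 / 2 : ℝ) ^ ((b n 1 (f n 1 x.1 (zc (lev n 1) x.2))).1 j) = w j n 1 := m4 j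
    have m6 := m2.2 j
    have e : ee w n 1 j = ((b n 1 (f n 1 x.1 (zc (lev n 1) x.2))).1 j : ℝ) := by
      unfold ee
      rw [← m5, Real.log_pow, one_div, Real.log_inv]
      have := (Real.log_pos one_lt_two).ne'
      field_simp
    rw [e]
    unfold Rc
    have m7 : (((b n 1 (f n 1 x.1 (zc (lev n 1) x.2))).1 j : ℝ)) + K0 * lev n 1 ≤ R n := by
      exact_mod_cast m6
    linarith
  exact exists_winL (fun n => isTL_cut K0 (R n) (r n)) h (topPos_of h hat) le_rfl hΨ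
    (rng_cut K0 R r (fun n => lev n 1) hr) hmc (κ0 := 1 / 2) (by norm_num)
    (fun v h0 h1 j => room_of h (fun n i i' _ _ => grow_cut K0 R n i i') hmc (hK0 j) (htop j) h0 h1)

/-- the family of the cut classes of the light-ray instance, resolution below the range. -/
def TSK (K0 : ℕ) : Set (TS LRay (Fin 2) Mem) :=
  {T | ∃ (R : ℕ) (r : ℝ), 0 < r ∧ r ≤ (1 / 2 : ℝ) ^ R ∧ T = cut K0 R (TSL r)}

end Crest.Agent.R116.Zl139
end

-- ▼ part R116/Zl7_139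
section

/-!
# R116 (K side) (helper139): from the output `XOutQ (TSK K0)` of X1-C to the final window
-/

set_option autoImplicit false

open Finset Filter Topology

namespace Crest.Agent.R116.Zl139

open Crest.Agent.R138.Ex926 (Base U)
open Crest.Agent.R136.MkA627 (Geo MkA ampA)
open Crest.Agent.R116.Xa794 (TS geo)
open Crest.Agent.R116.Xc794
open Crest.Agent.R116.LZg725
open Crest.Agent.R116.KI439
open Crest.Agent.R116.KF439

/-- **X1-C output ⊢ final window.** -/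
theorem winL_of_XOutQ {K0 : ℕ} {Ψ ψ : ℝ → (Fin 2 → ℝ) → ℝ} {κ g g0 : ℝ} {θ p : Fin 2 → ℝ}
    (hX : XOutQ (Rm635.TSK K0) Ψ ψ κ g θ) (hK0 : ∀ j, θ j ≤ K0) (hΨ : LinAt Ψ θ g0 p) :
    κ ≤ ψ 1 θ ∧
    ∃ (R : ℕ → ℕ) (r : ℕ → ℝ), (∀ n, 0 < r n) ∧ (∀ n, r n ≤ (1 / 2 : ℝ) ^ (R n)) ∧
    ∃ (B : Base) (I : ℕ → Finset (ℕ × ℝ)) (L : ℕ → ℕ → LRay) (lev : ℕ → ℚ → ℕ)
      (f : ℕ → ℚ → ℕ → ℤ → ℕ) (b : ℕ → ℚ → ℕ → SL) (vm : ℕ → ℚ → ℝ) (w : Fin 2 → ℕ → ℚ → ℝ)
      (atop : ℕ → Fin 2 → ℕ)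
      (s : ℝ) (B' : Base) (I' : ℕ → Finset (ℕ × ℝ)) (H : ℕ → ℝ)
      (mm : ℕ → ℚ → ℚ) (A' A2 : ℕ → ℝ) (vm2 : ℕ → ℚ → ℝ) (K : ℕ → ℝ),
      WinL B I (fun n => cut K0 (R n) (TSL (r n))) L r Ψ (fun n => lev n 1) atop lev f b vm w
        g g0 s θ p B' I' H mm A' A2 vm2 K := by
  obtain ⟨B, I, T, L, lev, A, Λ, f, b, vm, w, atop, N, a, h1, h2, h3, h4, h5, h6, h7, h8, h9⟩ := hX
  choose r R hr0 hr hT using h1
  obtain rfl : T = fun n => cut K0 (R n) (TSL (r n)) := funext hT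
  obtain ⟨s, B', I', H, mm, A', A2, vm2, K, hW⟩ := exists_winL_cut hr h5
    (fun j => Eventually.of_forall fun n => by rw [h7, h6]) hK0 hΨ
  exact ⟨h4, R, r, hr0, hr, B, I, L, lev, f, b, vm, w, atop, s, B', I', H, mm, A', A2, vm2, K, hW⟩

end Crest.Agent.R116.Zl139
end

-- ▼ part R116/Tw6_468
section

/-!
# R116, K10 (helper468), part 6: from 139's final window `WinL` to the seam `OutT` / `OutR`
-/

set_option autoImplicit false
set_option linter.unusedVariables false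

open Finset Filter Topology

namespace Crest.Agent.R116.Tw468

open Crest.Agent.R138.Ex926 (Base U)
open Crest.Agent.R138.Mk163 (zc zl rho alive own)
open Crest.Agent.R138.Dp76 (dpow_pos dpow_add dpow_le Dense)
open Crest.Agent.R136.MkA627
open Crest.Agent.R116.LZg725
open Crest.Agent.R116.Gd222 (TSet)
open Crest.Agent.R116.KI439
open Crest.Agent.R116.Xa794 (TS)
open Crest.Agent.R116.KF439 (IsL ValL Thin Thick TiltL)
open Crest.Agent.R116.Zl139

section winL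

variable {B : Base} {I : ℕ → Finset (ℕ × ℝ)} {T : ℕ → TS LRay (Fin 2) Mem}
    {L : ℕ → ℕ → LRay} {r : ℕ → ℝ}
    {Ψ : ℝ → (Fin 2 → ℝ) → ℝ} {mt : ℕ → ℕ} {atop : ℕ → Fin 2 → ℕ} {lev : ℕ → ℚ → ℕ}
    {f : ℕ → ℚ → ℕ → ℤ → ℕ} {b : ℕ → ℚ → ℕ → TSet} {vm : ℕ → ℚ → ℝ} {w : Fin 2 → ℕ → ℚ → ℝ}
    {g g0 s : ℝ} {θ p : Fin 2 → ℝ} {B' : Base} {I' : ℕ → Finset (ℕ × ℝ)} {H : ℕ → ℝ}
    {mm : ℕ → ℚ → ℚ} {A' A2 : ℕ → ℝ} {vm2 : ℕ → ℚ → ℝ} {K : ℕ → ℝ}

/-- **the static class of the final window**, every constant `K1`. -/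
theorem admS_winL (h : WinL B I T L r Ψ mt atop lev f b vm w g g0 s θ p B' I' H mm A' A2 vm2 K)
    (K1 : ℝ) : AdmS (GW T L w p B' mm K) (fun j n => w j n (mm n 1)) B'.L
      (fun n => lev n (mm n 0)) (fun n => lev n (mm n 1)) K1 := by
  filter_upwards [h.adm, h.Klim.eventually_ge_atTop K1, h.room,
    h.mkL.wpos 0 1 zero_le_one le_rfl, h.mkL.wpos 1 1 zero_le_one le_rfl]
    with n a1 a2 a3 p0 p1 i i0 i1 J a m hok hR hs0 hsg e0 e1 hin
  have hp : ∀ j, 0 < w j n (mm n 1) := fun j => by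
    fin_cases j
    · exact p0
    · exact p1
  have hrg : ∀ j, B'.d n ^ (K n) * w j n (mm n 1) ≤ (1 / 2 : ℝ) ^ (a j) ∧
      (1 / 2 : ℝ) ^ (a j) ≤ B'.d n ^ (-(K n)) * w j n (mm n 1) := fun j =>
    of_abs_log B' (hp j) (by positivity) a2 (hin j)
  refine ⟨a1 i i0 i1 J a m (admL_of hok (by rw [hR, Gd222.rho_half])
    (by rw [hs0, Gd222.rho_half]) hsg e0 e1 ?_) fun j => (hrg j).1, hrg⟩
  rw [e1]
  exact a3.trans (hrg 1).1

/-- the marks of the final window are in the range -/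
theorem goodM_winL (hTL : ∀ n, IsTL (T n) (r n))
    (h : WinL B I T L r Ψ mt atop lev f b vm w g g0 s θ p B' I' H mm A' A2 vm2 K) :
    GoodM I' (fun n x => lev n (mm n x)) (fun n x => f n (mm n x)) (fun n x => b n (mm n x))
      (GdW (fun j n => w j n (mm n 1)) B'.L (fun n => lev n (mm n 0)) (fun n => lev n (mm n 1))
        (|θ 0| + |θ 1| + 3)) := by
  refine goodM_init h.mkL (isL_GW hTL L w p B' mm K).wid fun j => ?_
  have h0 := abs_nonneg (θ 0)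
  have h1 := abs_nonneg (θ 1)
  fin_cases j
  · show |θ 0| + 3 ≤ _
    linarith
  · show |θ 1| + 3 ≤ _
    linarith

/-- **RESULT: the seam I-c / II-c from 139's final window.** -/
theorem out_winL (hTL : ∀ n, IsTL (T n) (r n))
    (h : WinL B I T L r Ψ mt atop lev f b vm w g g0 s θ p B' I' H mm A' A2 vm2 K)
    (hp : ∀ j, 0 ≤ p j) (hs : s < 1)
    (hT : Thin B' (fun j n x => w j n (mm n x)) → ∃ C : ℝ, TiltL B' I' L
      (fun n x => lev n (mm n x)) (fun n x => f n (mm n x)) (fun n x => b n (mm n x))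
      (fun j n x => w j n (mm n x)) C) {Rg : ℝ} (hRg : 0 ≤ Rg) (a : Fin 2) :
    (∃ (B1 : Base) (I1 : ℕ → Finset (ℕ × ℝ)) (lev1 : ℕ → ℚ → ℕ) (A1 : ℕ → ℝ)
      (f1 : ℕ → ℚ → ℕ → ℤ → ℕ) (b1 : ℕ → ℚ → ℕ → TSet) (vm1 : ℕ → ℚ → ℝ)
      (w1 : Fin 2 → ℕ → ℚ → ℝ) (fr1 : ℕ → ℚ → ℕ × ℝ → ChL222.LInc)
      (fl1 : ℕ → ℕ × ℝ → ChL222.LInc) (sc1 : Fin 12 → ℕ → ℝ),
      OutT (GW T L w p B' mm K) L r (g + g0 + 2 * s) s θ p Rg B1 I1 lev1 A1 f1 b1 vm1 w1 fr1 fl1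
        sc1) ∨
    OutR (GW T L w p B' mm K) L r (g + g0 + 2 * s) s θ p Rg a B' I' (fun n x => lev n (mm n x)) A2
      (fun n x => f n (mm n x)) (fun n x => b n (mm n x)) vm2 (fun j n x => w j n (mm n x)) := by
  have hG := isL_GW hTL L w p B' mm K
  have hv := valL_GW hTL L w p B' mm K
  have hS := admS_winL h (Rg + (|θ 0| + |θ 1| + 3) + 2)
  have hgood := goodM_winL hTL h
  rcases h.tt with ht | ht
  · left
    obtain ⟨C, hC⟩ := hT ht
    exact outT_thin h.mkL hG hv hp hs hC ht hS hgood (Eventually.of_forall fun n => le_rfl) hRg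
      le_rfl
  · right
    exact outR_thick h.mkL hG hv hp ht hS hgood (Eventually.of_forall fun n => le_rfl) hRg le_rfl a

end winL

end Crest.Agent.R116.Tw468
end

-- ▼ part R116/KS1_439
section

/-!
# R116 (K side), I-c (helper439): growth of the density at most `2`, hence `s < 1`

`growth_le` : in a marked sequence over light rays with linear exponents `γ v` and linear rewards `q`
`γ + q 0 + q 1 ≤ 2` (803's `cover_one` : the lines of one mark of level `1` are covered by `8^ℓ`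
members of the same absolute widths over the cell of level `0`).  `s_lt_one`.
-/

set_option autoImplicit false
set_option linter.unusedVariables false

open Finset Filter Topology

namespace Crest.Agent.R116.KS439

open Crest.Agent.R138.Ex926
open Crest.Agent.R138.Dp76
open Crest.Agent.R138.Mk163 (zc zl rho alive own Negl)
open Crest.Agent.R138.MkRef627 (lc mem_alive)
open Crest.Agent.R138.TiltU51 (zc_nest)
open Crest.Agent.R136.MkA627
open Crest.Agent.R116.LZg725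
open Crest.Agent.R116.KI439
open Crest.Agent.R116.KF439
open Crest.Agent.R116.Ext803

variable {r : ℕ → ℝ} {L : ℕ → ℕ → LRay} {B : Base} {I : ℕ → Finset (ℕ × ℝ)}
    {G : Geo SL (Fin 2)} {lev : ℕ → ℚ → ℕ} {A : ℕ → ℝ} {γ : ℝ} {Λ : ℝ → ℝ} {τ : Fin 2 → ℝ → ℝ}
    {f : ℕ → ℚ → ℕ → ℤ → ℕ} {b : ℕ → ℚ → ℕ → SL} {vm : ℕ → ℚ → ℝ} {w : Fin 2 → ℕ → ℚ → ℝ}
    {q : Fin 2 → ℝ}

theorem KC_pos : 0 < KC := by unfold KC; norm_num

open Classical in
/-- one stage -/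
theorem growth_step {n : ℕ} (hG : IsL G L r) (hv : ValL G q)
    (hadm : ∀ (J : ℤ) (a : Fin 2 → ℕ) (m : Mem), (∀ j, (1 / 2 : ℝ) ^ (a j) = w j n 1) →
      AdmL (r n) (lev n 0) J a m → G.adm n (lev n 0) J (a, m))
    (hne : (I n).Nonempty) (hlev : lev n 0 ≤ lev n 1) {ε : ℝ} (hA : 0 < A n) (hvm : 0 < vm n 1)
    (hd : ∀ J : ℤ, ∀ s : SL, G.adm n (lev n 0) J s →
      (((alive (I n) (lev n 0) J).filter fun t => G.mem n (lev n 0) J s t).card : ℝ) ≤
        B.d n ^ (-ε) * ampA B A (fun v => γ * v) n 0 * G.val n (lev n 0) J s)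
    (hm : ∀ J : ℤ, ∀ t ∈ alive (I n) (lev n 1) J,
      G.mem n (lev n 1) J (b n 1 (f n 1 t J)) t ∧ G.adm n (lev n 1) J (b n 1 (f n 1 t J)) ∧
      G.val n (lev n 1) J (b n 1 (f n 1 t J)) = vm n 1 ∧
      ∀ j, G.wid j (b n 1 (f n 1 t J)) = w j n 1)
    (hn : ∀ J : ℤ, ∀ t ∈ alive (I n) (lev n 1) J,
      ampA B A (fun v => γ * v) n 1 * vm n 1 ≤ B.d n ^ (-ε) *
        (((alive (I n) (lev n 1) J).filter fun s => f n 1 s J = f n 1 t J).card : ℝ)) :
    B.d n ^ (-γ) ≤ KC * (B.d n ^ (-ε) * B.d n ^ (-ε)) *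
      (2 : ℝ) ^ ((2 - (q 0 + q 1)) * ((lev n 1 : ℝ) - lev n 0)) := by
  classical
  obtain ⟨x, hx⟩ := hne
  set i := lev n 1 with hi
  set i1 := lev n 0 with hi1
  set J := zc i x.2 with hJ
  set J1 := zc i1 x.2 with hJ1
  have hal : x.1 ∈ alive (I n) i J := mem_alive.2 ⟨x, hx, rfl, rfl⟩
  set F := (alive (I n) i J).filter fun s => f n 1 s J = f n 1 x.1 J with hF
  have hxF : x.1 ∈ F := by rw [hF, mem_filter]; exact ⟨hal, rfl⟩
  obtain ⟨c1, c2, c3, c4⟩ := hm J x.1 hal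
  set s := b n 1 (f n 1 x.1 J) with hs
  have hAdm := hG.adm _ _ _ _ c2
  have hS : ∀ t ∈ F, L n t ∈ s.2.rays 0 := by
    intro t ht
    rw [hF, mem_filter] at ht
    have h1 := (hm J t ht.1).1
    rw [ht.2] at h1
    exact (hG.mem _ _ _ _ _).1 h1
  have hanc : Anc i J i1 J1 := anc_of_zc hlev (z := x.2) rfl rfl
  obtain ⟨m1, hm1, S', hS', hrays, hcard⟩ := cover_one hAdm hlev hanc F ⟨_, hxF⟩ (L n) hS
  have hwid : ∀ j, (1 / 2 : ℝ) ^ (s.1 j) = w j n 1 := fun j => by rw [← c4 j, hG.wid]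
  have hadm1 := hadm J1 s.1 m1 hwid hm1
  have hd1 := hd J1 _ hadm1
  have hsub : S' ⊆ (alive (I n) i1 J1).filter fun t => G.mem n i1 J1 (s.1, m1) t := by
    intro t ht
    have h1 := hS' ht
    rw [hF, mem_filter] at h1
    obtain ⟨y, hy, hy1, hy2⟩ := mem_alive.1 h1.1
    rw [mem_filter, hG.mem]
    refine ⟨mem_alive.2 ⟨y, hy, hy1, ?_⟩, hrays t ht⟩
    exact zc_nest hlev (hy2.trans hJ)
  have hS'c : (S'.card : ℝ) ≤ B.d n ^ (-ε) * ampA B A (fun v => γ * v) n 0 *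
      G.val n i1 J1 (s.1, m1) := le_trans (by exact_mod_cast card_le_card hsub) hd1
  have hn1 := hn J x.1 hal
  -- values
  have hv1 : G.val n i1 J1 (s.1, m1) = vm n 1 *
      (2 : ℝ) ^ (-((1 + (q 0 + q 1)) * ((i : ℝ) - i1))) := by
    rw [← c3, hv, hv]
    have e1 : (2 : ℝ) ^ (i : ℕ) = (2 : ℝ) ^ (i : ℝ) := (Real.rpow_natCast 2 i).symm
    have e2 : (2 : ℝ) ^ (i1 : ℕ) = (2 : ℝ) ^ (i1 : ℝ) := (Real.rpow_natCast 2 i1).symm
    unfold volL
    rw [e1, e2, Fin.sum_univ_two, Fin.sum_univ_two]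
    have e3 : ∀ x : ℝ, 0 < (2 : ℝ) ^ x := fun x => Real.rpow_pos_of_pos two_pos x
    show (1 / 2 : ℝ) ^ (3 * s.1 0 + s.1 1) * (2 : ℝ) ^ (i1 : ℝ) *
        (2 : ℝ) ^ (-(q 0 * ((s.1 0 : ℝ) - i1) + q 1 * ((s.1 1 : ℝ) - i1))) =
      (1 / 2 : ℝ) ^ (3 * s.1 0 + s.1 1) * (2 : ℝ) ^ (i : ℝ) *
        (2 : ℝ) ^ (-(q 0 * ((s.1 0 : ℝ) - i) + q 1 * ((s.1 1 : ℝ) - i))) *
          (2 : ℝ) ^ (-((1 + (q 0 + q 1)) * ((i : ℝ) - i1)))
    rw [mul_assoc, mul_assoc, mul_assoc, ← Real.rpow_add two_pos, ← Real.rpow_add two_pos,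
      ← Real.rpow_add two_pos]
    congr 2
    ring
  rw [hv1] at hS'c
  have e8 : (8 : ℝ) ^ (i - i1) = (2 : ℝ) ^ (3 * ((i : ℝ) - i1)) := by
    have h8 : (8 : ℝ) = 2 ^ (3 : ℕ) := by norm_num
    rw [h8, ← pow_mul, ← Real.rpow_natCast]
    congr 1
    push_cast [Nat.cast_sub hlev]
    ring
  rw [e8] at hcard
  have ha0 : ampA B A (fun v => γ * v) n 0 = A n := by
    show A n * B.d n ^ (-(γ * ((0 : ℚ) : ℝ))) = A n
    rw [Rat.cast_zero, mul_zero, neg_zero, Real.rpow_zero, mul_one]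
  have ha1 : ampA B A (fun v => γ * v) n 1 = A n * B.d n ^ (-γ) := by
    show A n * B.d n ^ (-(γ * ((1 : ℚ) : ℝ))) = A n * B.d n ^ (-γ)
    rw [Rat.cast_one, mul_one]
  rw [ha0] at hS'c
  rw [ha1] at hn1
  have P := fun t => dpow_pos B n t
  have T := fun t : ℝ => Real.rpow_pos_of_pos (two_pos : (0 : ℝ) < 2) t
  have hKC := KC_pos
  have key : A n * B.d n ^ (-γ) * vm n 1 ≤ (A n * vm n 1) * (KC * (B.d n ^ (-ε) * B.d n ^ (-ε)) *
      (2 : ℝ) ^ ((2 - (q 0 + q 1)) * ((i : ℝ) - i1))) := by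
    calc A n * B.d n ^ (-γ) * vm n 1 ≤ B.d n ^ (-ε) * (F.card : ℝ) := hn1
      _ ≤ B.d n ^ (-ε) * (KC * (2 : ℝ) ^ (3 * ((i : ℝ) - i1)) * S'.card) :=
          mul_le_mul_of_nonneg_left hcard (P _).le
      _ ≤ B.d n ^ (-ε) * (KC * (2 : ℝ) ^ (3 * ((i : ℝ) - i1)) * (B.d n ^ (-ε) * A n *
            (vm n 1 * (2 : ℝ) ^ (-((1 + (q 0 + q 1)) * ((i : ℝ) - i1)))))) := by
          refine mul_le_mul_of_nonneg_left (mul_le_mul_of_nonneg_left hS'c ?_) (P _).le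
          exact mul_nonneg hKC.le (T _).le
      _ = (A n * vm n 1) * (KC * (B.d n ^ (-ε) * B.d n ^ (-ε)) *
            ((2 : ℝ) ^ (3 * ((i : ℝ) - i1)) *
              (2 : ℝ) ^ (-((1 + (q 0 + q 1)) * ((i : ℝ) - i1))))) := by ring
      _ = _ := by
          rw [← Real.rpow_add two_pos]
          congr 3
          ring
  have hpos : 0 < A n * vm n 1 := mul_pos hA hvm
  refine le_of_mul_le_mul_left (le_trans (le_of_eq ?_) key) hpos
  ring

/-- **the growth of the density is at most `2`.** -/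
theorem growth_le (h : MkA B I G lev A (fun v => γ * v) Λ τ f b vm w) (hG : IsL G L r)
    (hv : ValL G q)
    (hadm : ∀ᶠ n in (U : Filter ℕ), ∀ (J : ℤ) (a : Fin 2 → ℕ) (m : Mem),
      (∀ j, (1 / 2 : ℝ) ^ (a j) = w j n 1) →
      AdmL (r n) (lev n 0) J a m → G.adm n (lev n 0) J (a, m)) : γ + (q 0 + q 1) ≤ 2 := by
  by_contra hcon
  push Not at hcon
  set Q := q 0 + q 1 with hQ
  set ε := (γ + Q - 2) / 4 with hε
  have hε0 : 0 < ε := by rw [hε]; linarith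
  set δ := ε / (|2 - Q| + 1) with hδ
  have hδ0 : 0 < δ := by rw [hδ]; positivity
  have hlim := h.lev_lim 0 1 le_rfl zero_le_one le_rfl
  have hl1 := hlim.eventually (gt_mem_nhds (show (((1 : ℚ) : ℝ)) - ((0 : ℚ) : ℝ) <
    (((1 : ℚ) : ℝ)) - ((0 : ℚ) : ℝ) + δ by linarith))
  have hl2 := hlim.eventually (lt_mem_nhds (show (((1 : ℚ) : ℝ)) - ((0 : ℚ) : ℝ) - δ <
    (((1 : ℚ) : ℝ)) - ((0 : ℚ) : ℝ) by linarith))
  have hfin : ∀ᶠ n in (U : Filter ℕ), False := by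
    filter_upwards [hl1, hl2, h.ne, h.lev_mono 0 1 le_rfl zero_le_one le_rfl,
      h.vpos 1 zero_le_one le_rfl, h.dmax 0 le_rfl zero_le_one (ε / 2) (by positivity),
      h.mark 1 zero_le_one le_rfl, h.near 1 zero_le_one le_rfl (ε / 2) (by positivity), hadm,
      Crest.Agent.R138.Ps926.dpow_small B hε0 (ε := 1 / KC) (by
        have := KC_pos; positivity)] with n b1 b2 b3 b4 b5 b6 b7 b8 b9 b10
    have key := growth_step (q := q) (A := A) (γ := γ) (ε := ε / 2) hG hv b9 b3 b4 (h.Apos n) b5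
      (fun J s hs => by convert b6 J s hs) b7 (fun J t ht => by convert b8 J t ht)
    have hL := B.L_pos n
    rw [Rat.cast_one, Rat.cast_zero, sub_zero] at b1 b2
    rw [div_lt_iff₀ hL] at b1
    rw [lt_div_iff₀ hL] at b2
    have hK := KC_pos
    have P := fun t => dpow_pos B n t
    have e1 : (2 : ℝ) ^ ((2 - (q 0 + q 1)) * ((lev n 1 : ℝ) - lev n 0)) ≤
        B.d n ^ (-(2 - Q) - ε) := by
      rw [← Real.log_le_log_iff (Real.rpow_pos_of_pos two_pos _) (P _),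
        Real.log_rpow two_pos, Crest.Agent.R138.ArgM163.log_dpow]
      have h3 : |(((lev n 1 : ℝ) - lev n 0) * Real.log 2) - B.L n| ≤ δ * B.L n := by
        rw [abs_le]; constructor <;> linarith
      have h4 : (2 - Q) * ((((lev n 1 : ℝ) - lev n 0) * Real.log 2) - B.L n) ≤ ε * B.L n := by
        calc (2 - Q) * ((((lev n 1 : ℝ) - lev n 0) * Real.log 2) - B.L n)
            ≤ |2 - Q| * (δ * B.L n) := by
              refine (le_abs_self _).trans ?_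
              rw [abs_mul]
              exact mul_le_mul_of_nonneg_left h3 (abs_nonneg _)
          _ ≤ (|2 - Q| + 1) * (δ * B.L n) := by
              refine mul_le_mul_of_nonneg_right (by linarith) (by positivity)
          _ = ε * B.L n := by rw [hδ]; field_simp
      have e5 : (2 - (q 0 + q 1)) * ((lev n 1 : ℝ) - lev n 0) * Real.log 2 =
          (2 - Q) * ((((lev n 1 : ℝ) - lev n 0) * Real.log 2) - B.L n) + (2 - Q) * B.L n := by
        rw [hQ]; ring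
      rw [e5]
      linarith
    have e2 : B.d n ^ (-γ) ≤ KC * (B.d n ^ (-(ε / 2)) * B.d n ^ (-(ε / 2))) *
        B.d n ^ (-(2 - Q) - ε) :=
      key.trans (mul_le_mul_of_nonneg_left e1 (mul_nonneg hK.le (mul_nonneg (P _).le (P _).le)))
    have e3 : KC * (B.d n ^ (-(ε / 2)) * B.d n ^ (-(ε / 2))) * B.d n ^ (-(2 - Q) - ε) =
        (KC * B.d n ^ ε) * (B.d n ^ ε * B.d n ^ (-γ)) := by
      have : B.d n ^ (-(ε / 2)) * B.d n ^ (-(ε / 2)) * B.d n ^ (-(2 - Q) - ε) =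
          B.d n ^ ε * (B.d n ^ ε * B.d n ^ (-γ)) := by
        rw [← dpow_add, ← dpow_add, ← dpow_add, ← dpow_add]
        congr 1
        rw [hε]; ring
      rw [mul_assoc, this]; ring
    rw [e3] at e2
    have e4 : KC * B.d n ^ ε < 1 := by
      rw [lt_div_iff₀ hK] at b10
      linarith
    have e5 : B.d n ^ ε < 1 := Real.rpow_lt_one (B.pos n).le (B.lt n) hε0
    have e6 : (KC * B.d n ^ ε) * (B.d n ^ ε * B.d n ^ (-γ)) < 1 * (1 * B.d n ^ (-γ)) := by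
      exact mul_lt_mul'' e4 (mul_lt_mul_of_pos_right e5 (P _)) (mul_nonneg hK.le (P _).le)
        (mul_nonneg (P _).le (P _).le)
    rw [one_mul, one_mul] at e6
    linarith
  exact (U.neBot.ne (Filter.eventually_false_iff_eq_bot.1 hfin)).elim

/-- **`s < 1`** -/
theorem s_lt_one {g s : ℝ} (h : MkA B I G lev A (fun v => (g + 2 * s) * v) Λ τ f b vm w)
    (hG : IsL G L r) (hv : ValL G q) (hg : 0 < g) (hq : 0 ≤ q 0 + q 1)
    (hadm : ∀ᶠ n in (U : Filter ℕ), ∀ (J : ℤ) (a : Fin 2 → ℕ) (m : Mem),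
      (∀ j, (1 / 2 : ℝ) ^ (a j) = w j n 1) →
      AdmL (r n) (lev n 0) J a m → G.adm n (lev n 0) J (a, m)) : s < 1 := by
  have := growth_le h hG hv hadm
  linarith

end Crest.Agent.R116.KS439
end

-- ▼ part R116/Tw7_468
section

/-!
# R116, K10 (helper468), part 7: `s < 1` in 139's final window (439's `s_lt_one`), `out_winL'`
-/

set_option autoImplicit false
set_option linter.unusedVariables false

open Finset Filter Topology

namespace Crest.Agent.R116.Tw468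

open Crest.Agent.R138.Ex926 (Base U)
open Crest.Agent.R138.Mk163 (zc zl rho alive own)
open Crest.Agent.R138.Dp76 (dpow_pos dpow_add dpow_le Dense)
open Crest.Agent.R136.MkA627
open Crest.Agent.R116.LZg725
open Crest.Agent.R116.Gd222 (TSet)
open Crest.Agent.R116.KI439
open Crest.Agent.R116.Xa794 (TS)
open Crest.Agent.R116.KF439 (IsL ValL Thin Thick TiltL)
open Crest.Agent.R116.Zl139

section winL

variable {B : Base} {I : ℕ → Finset (ℕ × ℝ)} {T : ℕ → TS LRay (Fin 2) Mem}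
    {L : ℕ → ℕ → LRay} {r : ℕ → ℝ}
    {Ψ : ℝ → (Fin 2 → ℝ) → ℝ} {mt : ℕ → ℕ} {atop : ℕ → Fin 2 → ℕ} {lev : ℕ → ℚ → ℕ}
    {f : ℕ → ℚ → ℕ → ℤ → ℕ} {b : ℕ → ℚ → ℕ → TSet} {vm : ℕ → ℚ → ℝ} {w : Fin 2 → ℕ → ℚ → ℝ}
    {g g0 s : ℝ} {θ p : Fin 2 → ℝ} {B' : Base} {I' : ℕ → Finset (ℕ × ℝ)} {H : ℕ → ℝ}
    {mm : ℕ → ℚ → ℚ} {A' A2 : ℕ → ℝ} {vm2 : ℕ → ℚ → ℝ} {K : ℕ → ℝ}

/-- in the final window, members with the widths of the marks of level `1` are admissible over the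
cells of level `0` -/
theorem adm0_winL (h : WinL B I T L r Ψ mt atop lev f b vm w g g0 s θ p B' I' H mm A' A2 vm2 K) :
    ∀ᶠ n in (U : Filter ℕ), ∀ (J : ℤ) (a : Fin 2 → ℕ) (m : Mem),
      (∀ j, (1 / 2 : ℝ) ^ (a j) = w j n (mm n 1)) → AdmL (r n) (lev n (mm n 0)) J a m →
        (GW T L w p B' mm K).adm n (lev n (mm n 0)) J (a, m) := by
  filter_upwards [h.adm, h.Klim.eventually_ge_atTop 0, h.mkL.lev_mono 0 1 le_rfl zero_le_one le_rfl]
    with n a1 a2 a3 J a m ha hm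
  have hd : B'.d n ^ (K n) ≤ 1 := Real.rpow_le_one (B'.pos n).le (B'.lt n).le a2
  have hd' : 1 ≤ B'.d n ^ (-(K n)) :=
    Real.one_le_rpow_of_pos_of_le_one_of_nonpos (B'.pos n) (B'.lt n).le (by linarith)
  have hw : ∀ j, 0 < w j n (mm n 1) := fun j => by rw [← ha j]; positivity
  have hrg : ∀ j, B'.d n ^ (K n) * w j n (mm n 1) ≤ (1 / 2 : ℝ) ^ (a j) ∧
      (1 / 2 : ℝ) ^ (a j) ≤ B'.d n ^ (-(K n)) * w j n (mm n 1) := fun j => by
    rw [ha j]
    exact ⟨mul_le_of_le_one_left (hw j).le hd, le_mul_of_one_le_left (hw j).le hd'⟩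
  exact ⟨a1 _ le_rfl a3 J a m hm fun j => (hrg j).1, hrg⟩

/-- **`s < 1`** -/
theorem s_lt_winL (hTL : ∀ n, IsTL (T n) (r n))
    (h : WinL B I T L r Ψ mt atop lev f b vm w g g0 s θ p B' I' H mm A' A2 vm2 K)
    (hp : ∀ j, 0 ≤ p j) (hg : 0 < g + g0) : s < 1 :=
  KS439.s_lt_one h.mkL (isL_GW hTL L w p B' mm K) (valL_GW hTL L w p B' mm K) hg
    (add_nonneg (hp 0) (hp 1)) (adm0_winL h)

/-- **growth** -/
theorem growth_winL (hTL : ∀ n, IsTL (T n) (r n))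
    (h : WinL B I T L r Ψ mt atop lev f b vm w g g0 s θ p B' I' H mm A' A2 vm2 K) :
    g + g0 + 2 * s + (p 0 + p 1) ≤ 2 :=
  KS439.growth_le h.mkL (isL_GW hTL L w p B' mm K) (valL_GW hTL L w p B' mm K) (adm0_winL h)

/-- **RESULT: the seam I-c / II-c from 139's final window**, no condition on `s`. -/
theorem out_winL' (hTL : ∀ n, IsTL (T n) (r n))
    (h : WinL B I T L r Ψ mt atop lev f b vm w g g0 s θ p B' I' H mm A' A2 vm2 K)
    (hp : ∀ j, 0 ≤ p j) (hg : 0 < g + g0)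
    (hT : Thin B' (fun j n x => w j n (mm n x)) → ∃ C : ℝ, TiltL B' I' L
      (fun n x => lev n (mm n x)) (fun n x => f n (mm n x)) (fun n x => b n (mm n x))
      (fun j n x => w j n (mm n x)) C) {Rg : ℝ} (hRg : 0 ≤ Rg) (a : Fin 2) :
    (∃ (B1 : Base) (I1 : ℕ → Finset (ℕ × ℝ)) (lev1 : ℕ → ℚ → ℕ) (A1 : ℕ → ℝ)
      (f1 : ℕ → ℚ → ℕ → ℤ → ℕ) (b1 : ℕ → ℚ → ℕ → TSet) (vm1 : ℕ → ℚ → ℝ)
      (w1 : Fin 2 → ℕ → ℚ → ℝ) (fr1 : ℕ → ℚ → ℕ × ℝ → ChL222.LInc)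
      (fl1 : ℕ → ℕ × ℝ → ChL222.LInc) (sc1 : Fin 12 → ℕ → ℝ),
      OutT (GW T L w p B' mm K) L r (g + g0 + 2 * s) s θ p Rg B1 I1 lev1 A1 f1 b1 vm1 w1 fr1 fl1
        sc1) ∨
    OutR (GW T L w p B' mm K) L r (g + g0 + 2 * s) s θ p Rg a B' I' (fun n x => lev n (mm n x)) A2
      (fun n x => f n (mm n x)) (fun n x => b n (mm n x)) vm2 (fun j n x => w j n (mm n x)) :=
  out_winL hTL h hp (s_lt_winL hTL h hp hg) hT hRg a

end winL

end Crest.Agent.R116.Tw468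
end

-- ▼ part R116/Td1_809
section

/-!
# R116, K side, TILT, part 1 (helper809): counting of two class systems

`two_sys` : two systems of near-maximal classes over one cell (`f` on `S1`, `g` on `S2`), a
discrepancy `D a b` of two classes, dyadic scales `θ 2^k`.  If the classes `b` at discrepancy
`~ θ 2^k` which meet the class `a` contain at most `Th k` lines, two such classes share at most `Sh k`
lines, and `Th k * Sh k ≤ K m1 m2 r^k` with `r < 1`, then the lines whose two classes have discrepancy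
at least `θ` are at most the share `E1 E2 K / (1 - r)` of `S1`.
-/

set_option autoImplicit false
set_option linter.unusedVariables false

open Finset

namespace Crest.Agent.R116.Td809

/-- dyadic scale of a number. -/
theorem exists_dyadic {θ y : ℝ} (hθ : 0 < θ) (hy : θ ≤ y) :
    ∃ k : ℕ, θ * 2 ^ k ≤ y ∧ y < θ * 2 ^ (k + 1) := by
  have hex : ∃ k : ℕ, y < θ * 2 ^ (k + 1) := by
    obtain ⟨N, hN⟩ := pow_unbounded_of_one_lt (y / θ) (by norm_num : (1 : ℝ) < 2)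
    refine ⟨N, ?_⟩
    rw [div_lt_iff₀ hθ] at hN
    have : (0 : ℝ) < 2 ^ N := by positivity
    calc y < 2 ^ N * θ := hN
      _ ≤ θ * 2 ^ (N + 1) := by rw [pow_succ]; nlinarith
  classical
  refine ⟨Nat.find hex, ?_, Nat.find_spec hex⟩
  rcases Nat.eq_zero_or_pos (Nat.find hex) with h0 | h0
  · rw [h0, pow_zero, mul_one]; exact hy
  · have := Nat.find_min hex (m := Nat.find hex - 1) (by omega)
    rw [not_lt, Nat.sub_add_cancel h0] at this
    exact this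

open Classical in
/-- bad lines of one class of the first system. -/
theorem two_sys_class (S1 S2 : Finset ℕ) (f : ℕ → ℕ) (g : ℕ → ℕ)
    (D : ℕ → ℕ → ℝ) {θ m1 m2 E2 K r : ℝ} (Th Sh : ℕ → ℝ) (hθ : 0 < θ)
    (hm1 : 0 ≤ m1) (hm2 : 0 < m2) (hE2 : 0 ≤ E2) (hK : 0 ≤ K) (hr0 : 0 ≤ r) (hr1 : r < 1)
    (hSh0 : ∀ k, 0 ≤ Sh k)
    (low2 : ∀ t ∈ S2, m2 ≤ E2 * ((S2.filter fun s => g s = g t).card : ℝ)) (a : ℕ)
    (thick : ∀ k, ((S2.filter fun s => ∃ t ∈ S1, t ∈ S2 ∧ f t = a ∧ g t = g s ∧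
        θ * 2 ^ k ≤ D a (g s) ∧ D a (g s) < θ * 2 ^ (k + 1)).card : ℝ) ≤ Th k)
    (share : ∀ k, ∀ b, θ * 2 ^ k ≤ D a b → D a b < θ * 2 ^ (k + 1) →
      ((S1.filter fun t => t ∈ S2 ∧ f t = a ∧ g t = b).card : ℝ) ≤ Sh k)
    (prod : ∀ k, Th k * Sh k ≤ K * m1 * m2 * r ^ k) :
    ((S1.filter fun t => t ∈ S2 ∧ f t = a ∧ θ ≤ D a (g t)).card : ℝ) ≤
      E2 * K / (1 - r) * m1 := by
  have h1r : 0 < 1 - r := by linarith
  set J : ℕ → Finset ℕ := fun k => (S2.image g).filter fun b => ∃ t ∈ S1, t ∈ S2 ∧ f t = a ∧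
    g t = b ∧ θ * 2 ^ k ≤ D a b ∧ D a b < θ * 2 ^ (k + 1) with hJ
  set P : ℕ → Finset ℕ := fun b => S1.filter fun t => t ∈ S2 ∧ f t = a ∧ g t = b with hP
  -- number of classes
  have hJc : ∀ k, ((J k).card : ℝ) * m2 ≤ E2 * Th k := by
    intro k
    have h1 : ((J k).card : ℝ) * m2 ≤
        ∑ b ∈ J k, E2 * ((S2.filter fun s => g s = b).card : ℝ) := by
      rw [← nsmul_eq_mul, ← sum_const]
      refine sum_le_sum fun b hb => ?_
      rw [hJ, mem_filter] at hb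
      obtain ⟨-, t, -, ht2, -, rfl, -, -⟩ := hb
      exact low2 t ht2
    refine h1.trans ?_
    rw [← mul_sum]
    refine mul_le_mul_of_nonneg_left (le_trans (le_of_eq ?_) (thick k)) hE2
    have h2 : (∑ b ∈ J k, ((S2.filter fun s => g s = b).card : ℝ)) =
        (((S2.filter fun s => g s ∈ J k).card : ℕ) : ℝ) := by
      rw [card_eq_sum_card_fiberwise (s := S2.filter fun s => g s ∈ J k) (f := g) (t := J k)
        (fun s hs => (mem_filter.1 (mem_coe.1 hs)).2)]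
      push_cast
      refine sum_congr rfl fun b hb => ?_
      congr 2
      ext s
      simp only [mem_filter]
      constructor
      · rintro ⟨h, h'⟩; exact ⟨⟨h, h' ▸ hb⟩, h'⟩
      · rintro ⟨⟨h, -⟩, h'⟩; exact ⟨h, h'⟩
    rw [h2]
    congr 2
    ext s
    simp only [hJ, mem_filter, mem_image]
    constructor
    · rintro ⟨hs, -, t, ht1, ht2, hfa, hgt, hd1, hd2⟩
      exact ⟨hs, t, ht1, ht2, hfa, hgt, hd1, hd2⟩
    · rintro ⟨hs, t, ht1, ht2, hfa, hgt, hd1, hd2⟩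
      exact ⟨hs, ⟨s, hs, rfl⟩, t, ht1, ht2, hfa, hgt, hd1, hd2⟩
  -- one scale
  set Bd := S1.filter fun t => t ∈ S2 ∧ f t = a ∧ θ ≤ D a (g t) with hBd
  -- finitely many scales
  obtain ⟨N, hN⟩ : ∃ N : ℕ, ∀ t ∈ Bd, D a (g t) < θ * 2 ^ N := by
    have : ∀ t : ℕ, ∃ N : ℕ, D a (g t) < θ * 2 ^ N := by
      intro t
      obtain ⟨N, hN⟩ := pow_unbounded_of_one_lt (D a (g t) / θ) (by norm_num : (1 : ℝ) < 2)
      refine ⟨N, ?_⟩
      rw [div_lt_iff₀ hθ] at hN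
      linarith [mul_comm θ ((2 : ℝ) ^ N)]
    choose N hN using this
    refine ⟨Bd.sup N, fun t ht => (hN t).trans_le ?_⟩
    exact mul_le_mul_of_nonneg_left (pow_le_pow_right₀ (by norm_num) (le_sup (f := N) ht)) hθ.le
  have hsub : Bd ⊆ (range N).biUnion fun k => (J k).biUnion P := by
    intro t ht
    have hb := hN t ht
    rw [hBd, mem_filter] at ht
    obtain ⟨ht1, ht2, hfa, hd⟩ := ht
    obtain ⟨k, hk1, hk2⟩ := exists_dyadic hθ hd
    have hkN : k < N := by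
      by_contra hcon
      have : θ * 2 ^ N ≤ θ * 2 ^ k :=
        mul_le_mul_of_nonneg_left (pow_le_pow_right₀ (by norm_num) (not_lt.1 hcon)) hθ.le
      linarith
    rw [mem_biUnion]
    refine ⟨k, mem_range.2 hkN, mem_biUnion.2 ⟨g t, ?_, ?_⟩⟩
    · rw [hJ, mem_filter, mem_image]
      exact ⟨⟨t, ht2, rfl⟩, t, ht1, ht2, hfa, rfl, hk1, hk2⟩
    · rw [hP, mem_filter]
      exact ⟨ht1, ht2, hfa, rfl⟩
  have hscale : ∀ k, ((((J k).biUnion P).card : ℕ) : ℝ) ≤ E2 * K * m1 * r ^ k := by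
    intro k
    have h1 : ((((J k).biUnion P).card : ℕ) : ℝ) ≤ ((J k).card : ℝ) * Sh k := by
      have h0 : ((((J k).biUnion P).card : ℕ) : ℝ) ≤ ∑ b ∈ J k, ((P b).card : ℝ) := by
        exact_mod_cast card_biUnion_le
      refine h0.trans ?_
      rw [← nsmul_eq_mul, ← sum_const]
      refine sum_le_sum fun b hb => ?_
      rw [hJ, mem_filter] at hb
      obtain ⟨-, t, -, -, -, -, hd1, hd2⟩ := hb
      exact share k b hd1 hd2
    refine h1.trans ?_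
    have h2 := mul_le_mul_of_nonneg_right (hJc k) (hSh0 k)
    have h3 := mul_le_mul_of_nonneg_left (prod k) hE2
    have h4 : (((J k).card : ℝ) * Sh k) * m2 ≤ (E2 * K * m1 * r ^ k) * m2 := by
      calc (((J k).card : ℝ) * Sh k) * m2 = ((J k).card : ℝ) * m2 * Sh k := by ring
        _ ≤ E2 * Th k * Sh k := h2
        _ = E2 * (Th k * Sh k) := by ring
        _ ≤ E2 * (K * m1 * m2 * r ^ k) := h3
        _ = _ := by ring
    exact le_of_mul_le_mul_right h4 hm2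
  have hgeom : ∑ k ∈ range N, r ^ k ≤ 1 / (1 - r) := by
    rw [geom_sum_eq hr1.ne, le_div_iff₀ h1r, div_mul_eq_mul_div, div_le_iff_of_neg (by linarith)]
    have : 0 ≤ r ^ N := pow_nonneg hr0 N
    nlinarith
  calc ((Bd.card : ℕ) : ℝ)
      ≤ ((((range N).biUnion fun k => (J k).biUnion P).card : ℕ) : ℝ) := by
        exact_mod_cast card_le_card hsub
    _ ≤ ∑ k ∈ range N, ((((J k).biUnion P).card : ℕ) : ℝ) := by
        exact_mod_cast card_biUnion_le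
    _ ≤ ∑ k ∈ range N, E2 * K * m1 * r ^ k := sum_le_sum fun k _ => hscale k
    _ = E2 * K * m1 * ∑ k ∈ range N, r ^ k := by rw [mul_sum]
    _ ≤ E2 * K * m1 * (1 / (1 - r)) := mul_le_mul_of_nonneg_left hgeom (by positivity)
    _ = _ := by ring

open Classical in
/-- **counting of two class systems over one cell.** -/
theorem two_sys (S1 S2 : Finset ℕ) (f : ℕ → ℕ) (g : ℕ → ℕ)
    (D : ℕ → ℕ → ℝ) {θ m1 m2 E1 E2 K r : ℝ} (Th Sh : ℕ → ℝ) (hθ : 0 < θ)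
    (hm1 : 0 ≤ m1) (hm2 : 0 < m2) (hE1 : 0 ≤ E1) (hE2 : 0 ≤ E2) (hK : 0 ≤ K) (hr0 : 0 ≤ r)
    (hr1 : r < 1) (hSh0 : ∀ k, 0 ≤ Sh k)
    (low1 : ∀ t ∈ S1, m1 ≤ E1 * ((S1.filter fun s => f s = f t).card : ℝ))
    (low2 : ∀ t ∈ S2, m2 ≤ E2 * ((S2.filter fun s => g s = g t).card : ℝ))
    (thick : ∀ k, ∀ a ∈ S1.image f, ((S2.filter fun s => ∃ t ∈ S1, t ∈ S2 ∧ f t = a ∧ g t = g s ∧
        θ * 2 ^ k ≤ D a (g s) ∧ D a (g s) < θ * 2 ^ (k + 1)).card : ℝ) ≤ Th k)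
    (share : ∀ k, ∀ a ∈ S1.image f, ∀ b, θ * 2 ^ k ≤ D a b → D a b < θ * 2 ^ (k + 1) →
      ((S1.filter fun t => t ∈ S2 ∧ f t = a ∧ g t = b).card : ℝ) ≤ Sh k)
    (prod : ∀ k, Th k * Sh k ≤ K * m1 * m2 * r ^ k) :
    ((S1.filter fun t => t ∈ S2 ∧ θ ≤ D (f t) (g t)).card : ℝ) ≤
      E1 * E2 * K / (1 - r) * (S1.card : ℝ) := by
  have h1r : 0 < 1 - r := by linarith
  have h1 : ((S1.filter fun t => t ∈ S2 ∧ θ ≤ D (f t) (g t)).card : ℝ) =
      ∑ a ∈ S1.image f, ((S1.filter fun t => t ∈ S2 ∧ f t = a ∧ θ ≤ D a (g t)).card : ℝ) := by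
    rw [card_eq_sum_card_fiberwise (f := f) (t := S1.image f)
      (fun s hs => mem_image_of_mem f (mem_filter.1 (mem_coe.1 hs)).1)]
    push_cast
    refine sum_congr rfl fun a ha => ?_
    congr 2
    ext s
    simp only [mem_filter]
    constructor
    · rintro ⟨⟨h, h', h''⟩, rfl⟩; exact ⟨h, h', rfl, h''⟩
    · rintro ⟨h, h', rfl, h''⟩; exact ⟨⟨h, h', h''⟩, rfl⟩
  have h2 : ((S1.card : ℕ) : ℝ) = ∑ a ∈ S1.image f, ((S1.filter fun t => f t = a).card : ℝ) := by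
    rw [card_eq_sum_card_fiberwise (f := f) (t := S1.image f)
      (fun s hs => mem_image_of_mem f hs)]
    push_cast
    rfl
  rw [h1, h2, mul_sum]
  refine sum_le_sum fun a ha => ?_
  have h3 := two_sys_class S1 S2 f g D Th Sh hθ hm1 hm2 hE2 hK hr0 hr1 hSh0 low2 a
    (fun k => thick k a ha) (fun k b => share k a ha b) prod
  refine h3.trans ?_
  rw [mem_image] at ha
  obtain ⟨t, ht, rfl⟩ := ha
  have h4 := low1 t ht
  have hc : 0 ≤ E2 * K / (1 - r) := by positivity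
  calc E2 * K / (1 - r) * m1
      ≤ E2 * K / (1 - r) * (E1 * ((S1.filter fun s => f s = f t).card : ℝ)) :=
        mul_le_mul_of_nonneg_left h4 hc
    _ = _ := by ring

end Crest.Agent.R116.Td809
end

-- ▼ part R116/Td2_809
section

/-!
# R116, K side, TILT, part 2 (helper809): the sequence half over the abstract marked sequence

PRODUCER: geometry `TiltGeo` (SHARE + THICK, helper334 Tc1-Tc3).
CONSUMER: `ArgA1_163`, `J2_627` (through `TiltTwoA`).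

`tilt_two` : in a marked sequence `MkA` the classes of the levels `u < v` of one incidence have
discrepancy at most `d^(-C (v-u) - ε)` outside a negligible set, as soon as the test sets satisfy
SHARE and THICK with a gain `X^(-γ)`.
-/

set_option autoImplicit false
set_option linter.unusedVariables false
set_option linter.unusedSectionVars false

open Finset Filter Topology

namespace Crest.Agent.R116.Td809

open Crest.Agent.R138.Ex926 (Base U)
open Crest.Agent.R138.Dp76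
open Crest.Agent.R138.Mk163 (zc zl rho alive own Negl)
open Crest.Agent.R138.MkRef627 (lc kc)
open Crest.Agent.R136.MkA627
open Crest.Agent.R138.TiltU51 (zc_nest card_cells mem_alive alive_subset sum_bad le_dpow ev_const)

variable {σ κ φ ι : Type*}

/-- finite cover of a set of lines by admissible test sets of total value at most `V`. -/
def Cov (G : Geo σ κ) (n i : ℕ) (J : ℤ) (T : Finset ℕ) (V : ℝ) : Prop :=
  ∃ (m : ℕ) (τ : Fin m → σ), (∀ k, G.adm n i J (τ k)) ∧ ∑ k, G.val n i J (τ k) ≤ V ∧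
    ∀ t ∈ T, ∃ k, G.mem n i J (τ k) t

open Classical in
/-- **counting form** of a cover: a set of lines with at most `M val` lines in every admissible test
set has at most `M V` lines. -/
def Cnt (G : Geo σ κ) (n i : ℕ) (J : ℤ) (T : Finset ℕ) (V : ℝ) : Prop :=
  ∀ M : ℝ, 0 ≤ M → (∀ s : σ, G.adm n i J s →
    ((T.filter fun t => G.mem n i J s t).card : ℝ) ≤ M * G.val n i J s) → (T.card : ℝ) ≤ M * V

/-- admissible test set of given value and widths. -/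
def Cls (G : Geo σ κ) (n i : ℕ) (J : ℤ) (V : ℝ) (W : κ → ℝ) (s : σ) : Prop :=
  G.adm n i J s ∧ G.val n i J s = V ∧ ∀ k, G.wid k s = W k

/-- `s'` (over `J'`, level `i'`) has a common line with `s` (over `J`, level `i`) and discrepancy in
`[X, 2X]`. -/
def Meet (G : Geo σ κ) (n i i' : ℕ) (J J' : ℤ) (V' : ℝ) (W' : κ → ℝ) (Ds : ℝ) (X : ℝ)
    (s s' : σ) : Prop :=
  Cls G n i' J' V' W' s' ∧ (∃ t0, G.mem n i J s t0 ∧ G.mem n i' J' s' t0) ∧ X ≤ Ds ∧ Ds ≤ 2 * X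

/-- **geometric input of the tilt lemma**: SHARE and THICK for the levels `u < v`.
`D n u v J J' s s'` = discrepancy of the test set `s` of level `u` over the cell `J` and of the test
set `s'` of level `v` over the subcell `J'`, in units of the coarser precision. -/
def TiltGeo (B : Base) (G : Geo σ κ) (lev : ℕ → ℚ → ℕ) (vm : ℕ → ℚ → ℝ) (w : κ → ℕ → ℚ → ℝ)
    (D : ℕ → ℚ → ℚ → ℤ → ℤ → σ → σ → ℝ) (γ C1 : ℝ) : Prop :=
  ∀ u v : ℚ, 0 ≤ u → u < v → v ≤ 1 → ∀ η : ℝ, 0 < η → ∀ᶠ n in (U : Filter ℕ),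
    ∃ Tv Sv : ℝ → ℝ,
      (∀ X : ℝ, 1 ≤ X → 0 ≤ Tv X ∧ 0 ≤ Sv X ∧
        Tv X * Sv X ≤ B.d n ^ (-(C1 * ((v : ℝ) - u)) - η) * X ^ (-γ) * (vm n u * vm n v)) ∧
      ∀ J J' : ℤ, (∃ z : ℝ, zc (lev n u) z = J ∧ zc (lev n v) z = J') →
      ∀ s : σ, Cls G n (lev n u) J (vm n u) (fun k => w k n u) s → ∀ X : ℝ, 1 ≤ X →
        (∀ s' : σ, Meet G n (lev n u) (lev n v) J J' (vm n v) (fun k => w k n v)
            (D n u v J J' s s') X s s' →
          ∀ T : Finset ℕ, (∀ t ∈ T, G.mem n (lev n u) J s t ∧ G.mem n (lev n v) J' s' t) →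
            Cnt G n (lev n u) J T (Sv X)) ∧
        (∀ T : Finset ℕ, (∀ t ∈ T, ∃ s' : σ, Meet G n (lev n u) (lev n v) J J' (vm n v)
            (fun k => w k n v) (D n u v J J' s s') X s s' ∧ G.mem n (lev n v) J' s' t) →
          Cnt G n (lev n u) J T (Tv X))

/-! ### small facts -/

theorem dpos (B : Base) (n : ℕ) (t : ℝ) : 0 < B.d n ^ t := Real.rpow_pos_of_pos (B.pos n) t

theorem danti (B : Base) (n : ℕ) {s t : ℝ} (h : s ≤ t) : B.d n ^ t ≤ B.d n ^ s :=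
  Real.rpow_le_rpow_of_exponent_ge (B.pos n) (B.lt n).le h

theorem dadd (B : Base) (n : ℕ) (s t : ℝ) : B.d n ^ (s + t) = B.d n ^ s * B.d n ^ t :=
  Real.rpow_add (B.pos n) s t

open Classical in
/-- a covered set of alive lines is small. -/
theorem Cov.card_le {G : Geo σ κ} {n i : ℕ} {J : ℤ} {T S : Finset ℕ} {V M : ℝ}
    (h : Cov G n i J T V) (hM : 0 ≤ M) (hT : T ⊆ S)
    (hd : ∀ s : σ, G.adm n i J s → ((S.filter fun t => G.mem n i J s t).card : ℝ) ≤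
      M * G.val n i J s) : (T.card : ℝ) ≤ M * V := by
  classical
  obtain ⟨m, τ, h1, h2, h3⟩ := h
  have hsub : T ⊆ (univ : Finset (Fin m)).biUnion fun k => S.filter fun t => G.mem n i J (τ k) t := by
    intro t ht
    obtain ⟨k, hk⟩ := h3 t ht
    rw [mem_biUnion]
    exact ⟨k, mem_univ k, mem_filter.2 ⟨hT ht, hk⟩⟩
  calc (T.card : ℝ)
      ≤ (((univ : Finset (Fin m)).biUnion fun k =>
          S.filter fun t => G.mem n i J (τ k) t).card : ℝ) := by exact_mod_cast card_le_card hsub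
    _ ≤ ∑ k : Fin m, ((S.filter fun t => G.mem n i J (τ k) t).card : ℝ) := by
        exact_mod_cast card_biUnion_le
    _ ≤ ∑ k : Fin m, M * G.val n i J (τ k) := sum_le_sum fun k _ => hd _ (h1 k)
    _ = M * ∑ k : Fin m, G.val n i J (τ k) := by rw [mul_sum]
    _ ≤ M * V := mul_le_mul_of_nonneg_left h2 hM

/-- a cover gives the counting form. -/
theorem Cov.cnt {G : Geo σ κ} {n i : ℕ} {J : ℤ} {T : Finset ℕ} {V : ℝ} (h : Cov G n i J T V) :
    Cnt G n i J T V := by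
  classical
  intro M hM hd
  exact h.card_le hM (Finset.Subset.refl T) (fun s hs => by convert hd s hs)

/-- a single test set. -/
theorem Cnt.one {G : Geo σ κ} {n i : ℕ} {J : ℤ} {T : Finset ℕ} {V : ℝ} {s : σ}
    (hs : G.adm n i J s) (hV : G.val n i J s ≤ V) (hT : ∀ t ∈ T, G.mem n i J s t) :
    Cnt G n i J T V :=
  Cov.cnt ⟨1, fun _ => s, fun _ => hs, by simpa using hV, fun t ht => ⟨0, hT t ht⟩⟩

open Classical in
theorem Cnt.card_le {G : Geo σ κ} {n i : ℕ} {J : ℤ} {T S : Finset ℕ} {V M : ℝ}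
    (h : Cnt G n i J T V) (hM : 0 ≤ M) (hT : T ⊆ S)
    (hd : ∀ s : σ, G.adm n i J s → ((S.filter fun t => G.mem n i J s t).card : ℝ) ≤
      M * G.val n i J s) : (T.card : ℝ) ≤ M * V := by
  refine h M hM fun s hs => le_trans ?_ (hd s hs)
  exact_mod_cast card_le_card (filter_subset_filter _ hT)

section

variable {B : Base} {I : ℕ → Finset (ℕ × ℝ)} {G : Geo σ κ} {lev : ℕ → ℚ → ℕ}
    {A : ℕ → ℝ} {c Λ : ℝ → ℝ} {τ : κ → ℝ → ℝ} {f : ℕ → ℚ → ℕ → ℤ → ℕ} {b : ℕ → ℚ → ℕ → σ}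
    {vm : ℕ → ℚ → ℝ} {w : κ → ℕ → ℚ → ℝ}

theorem ampA_pos (h : MkA B I G lev A c Λ τ f b vm w) (n : ℕ) (v : ℚ) : 0 < ampA B A c n v :=
  mul_pos (h.Apos n) (dpos B n _)

/-- the number of cells. -/
theorem ev_R (h : MkA B I G lev A c Λ τ f b vm w) {u v : ℚ} (hu : 0 ≤ u) (huv : u ≤ v)
    (hv : v ≤ 1) {η : ℝ} (hη : 0 < η) :
    ∀ᶠ n in (U : Filter ℕ), lev n u ≤ lev n v ∧
      (2 : ℝ) ^ (lev n v - lev n u) ≤ B.d n ^ (-((v : ℝ) - u) - η) := by
  have h1 := (h.lev_lim u v hu huv hv).eventually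
    (gt_mem_nhds (show (v : ℝ) - u < v - u + η by linarith))
  filter_upwards [h1, h.lev_mono u v hu huv hv] with n hn h2
  refine ⟨h2, ?_⟩
  have h3 : B.d n ^ (-((v : ℝ) - u) - η) = B.d n ^ (-((v : ℝ) - u + η)) := by congr 1; ring
  rw [h3]
  refine le_dpow (by positivity) ?_
  rw [Real.log_pow]
  have h4 : ((lev n v - lev n u : ℕ) : ℝ) = (lev n v : ℝ) - lev n u := Nat.cast_sub h2
  rw [h4]
  exact hn.le

open Classical in
/-- number of incidences of a line in a cell of level `v`. -/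
theorem ev_nu (h : MkA B I G lev A c Λ τ f b vm w) {v : ℚ} (h0 : 0 ≤ v)
    (h1 : v ≤ 1) {η : ℝ} (hη : 0 < η) :
    ∀ᶠ n in (U : Filter ℕ), ∀ x ∈ I n,
      B.d n ^ (-(1 - (v : ℝ)) + (Λ 1 - Λ v) + η) ≤
        (((I n).filter fun y => y.1 = x.1 ∧ zc (lev n v) y.2 = zc (lev n v) x.2).card : ℝ) ∧
      (((I n).filter fun y => y.1 = x.1 ∧ zc (lev n v) y.2 = zc (lev n v) x.2).card : ℝ) ≤
        B.d n ^ (-(1 - (v : ℝ)) + (Λ 1 - Λ v) - η) := by
  filter_upwards [fib_bounds h v h0 h1 hη] with n hn x hx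
  have h3 := hn x hx
  have h4 : ((I n).filter fun y => lc (lev n v) y = lc (lev n v) x) =
      (I n).filter fun y => y.1 = x.1 ∧ zc (lev n v) y.2 = zc (lev n v) x.2 := by
    ext y
    simp only [mem_filter, lc, Prod.mk.injEq]
  rw [h4] at h3
  exact h3

end

/-! ### one stage -/

open Classical in
/-- bad lines of one small cell, one stage. -/
theorem cell_two {G : Geo σ κ} {n : ℕ} {In : Finset (ℕ × ℝ)} {i j : ℕ} (hij : i ≤ j)
    {f g : ℕ → ℤ → ℕ} {b b' : ℕ → σ} {v1 v2 : ℝ} {W1 W2 : κ → ℝ}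
    {D : ℤ → ℤ → σ → σ → ℝ} {a1 a2 E M X0 K r : ℝ} (Tv Sv : ℝ → ℝ)
    (hX0 : 1 ≤ X0) (hE : 0 ≤ E) (hM : 0 ≤ M) (ha1 : 0 ≤ a1 * v1) (ha2 : 0 < a2 * v2)
    (hK : 0 ≤ K) (hr0 : 0 ≤ r) (hr1 : r < 1)
    (mk1 : ∀ J, ∀ t ∈ alive In i J, G.mem n i J (b (f t J)) t ∧ Cls G n i J v1 W1 (b (f t J)))
    (mk2 : ∀ J, ∀ t ∈ alive In j J, G.mem n j J (b' (g t J)) t ∧ Cls G n j J v2 W2 (b' (g t J)))
    (n1 : ∀ J, ∀ t ∈ alive In i J, a1 * v1 ≤
      E * (((alive In i J).filter fun s => f s J = f t J).card : ℝ))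
    (n2 : ∀ J, ∀ t ∈ alive In j J, a2 * v2 ≤
      E * (((alive In j J).filter fun s => g s J = g t J).card : ℝ))
    (dm : ∀ J, ∀ s : σ, G.adm n i J s → (((alive In i J).filter fun t => G.mem n i J s t).card : ℝ) ≤
      M * G.val n i J s)
    (hTS : ∀ X : ℝ, 1 ≤ X → 0 ≤ Tv X ∧ 0 ≤ Sv X)
    (hprod : ∀ k : ℕ, (M * Tv (X0 * 2 ^ k)) * (M * Sv (X0 * 2 ^ k)) ≤
      K * (a1 * v1) * (a2 * v2) * r ^ k)
    (hgeo : ∀ J J' : ℤ, (∃ z : ℝ, zc i z = J ∧ zc j z = J') →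
      ∀ s : σ, Cls G n i J v1 W1 s → ∀ X : ℝ, 1 ≤ X →
        (∀ s' : σ, Meet G n i j J J' v2 W2 (D J J' s s') X s s' →
          ∀ T : Finset ℕ, (∀ t ∈ T, G.mem n i J s t ∧ G.mem n j J' s' t) →
            Cnt G n i J T (Sv X)) ∧
        (∀ T : Finset ℕ, (∀ t ∈ T, ∃ s' : σ, Meet G n i j J J' v2 W2 (D J J' s s') X s s' ∧
            G.mem n j J' s' t) → Cnt G n i J T (Tv X)))
    {x0 : ℕ × ℝ} (hx0 : x0 ∈ In) :
    (((In.filter fun x => zc j x.2 = zc j x0.2 ∧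
        X0 ≤ D (zc i x.2) (zc j x.2) (b (f x.1 (zc i x.2))) (b' (g x.1 (zc j x.2)))).image
          Prod.fst).card : ℝ) ≤
      E * E * K / (1 - r) * (((In.filter fun x => zc i x.2 = zc i x0.2).image Prod.fst).card : ℝ) := by
  set J : ℤ := zc i x0.2 with hJ
  set J' : ℤ := zc j x0.2 with hJ'
  have hX0p : 0 < X0 := by linarith
  have hk1 : ∀ k : ℕ, (1 : ℝ) ≤ X0 * 2 ^ k := by
    intro k
    have : (1 : ℝ) ≤ 2 ^ k := one_le_pow₀ (by norm_num)
    nlinarith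
  have hsub : alive In j J' ⊆ alive In i J := alive_subset hij hx0
  have hz : ∃ z : ℝ, zc i z = J ∧ zc j z = J' := ⟨x0.2, rfl, rfl⟩
  have key := two_sys (alive In i J) (alive In j J') (fun t => f t J) (fun t => g t J')
    (fun a a' => D J J' (b a) (b' a')) (θ := X0) (m1 := a1 * v1) (m2 := a2 * v2) (E1 := E)
    (E2 := E) (K := K) (r := r) (fun k => M * Tv (X0 * 2 ^ k)) (fun k => M * Sv (X0 * 2 ^ k))
    hX0p ha1 ha2 hE hE hK hr0 hr1 (fun k => mul_nonneg hM (hTS _ (hk1 k)).2) (n1 J) (n2 J')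
    (by
      intro k a ha
      rw [mem_image] at ha
      obtain ⟨ta, hta, rfl⟩ := ha
      refine ((hgeo J J' hz _ (mk1 J ta hta).2 _ (hk1 k)).2 _ ?_).card_le hM
        ((filter_subset _ _).trans hsub) (dm J)
      intro t ht
      rw [mem_filter] at ht
      obtain ⟨ht, t0, ht0, ht0', hf0, hg0, hd1, hd2⟩ := ht
      obtain ⟨m1, m2⟩ := mk2 J' t ht
      refine ⟨b' (g t J'), ⟨m2, ⟨t0, ?_, ?_⟩, hd1, ?_⟩, m1⟩
      · have := (mk1 J t0 ht0).1
        rw [hf0] at this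
        exact this
      · have := (mk2 J' t0 ht0').1
        rw [hg0] at this
        exact this
      · rw [pow_succ] at hd2
        linarith)
    (by
      intro k a ha a' hd1 hd2
      rw [mem_image] at ha
      obtain ⟨ta, hta, rfl⟩ := ha
      rcases ((alive In i J).filter fun t => t ∈ alive In j J' ∧ f t J = f ta J ∧
        g t J' = a').eq_empty_or_nonempty with hE0 | ⟨t0, ht0⟩
      · rw [hE0, card_empty, Nat.cast_zero]
        exact mul_nonneg hM (hTS _ (hk1 k)).2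
      rw [mem_filter] at ht0
      obtain ⟨ht0, ht0', hf0, hg0⟩ := ht0
      refine ((hgeo J J' hz _ (mk1 J ta hta).2 _ (hk1 k)).1 (b' a') ⟨?_, ⟨t0, ?_, ?_⟩, hd1, ?_⟩ _
        ?_).card_le hM (filter_subset _ _) (dm J)
      · rw [← hg0]; exact (mk2 J' t0 ht0').2
      · rw [← hf0]; exact (mk1 J t0 ht0).1
      · rw [← hg0]; exact (mk2 J' t0 ht0').1
      · rw [pow_succ] at hd2
        linarith
      · intro t ht
        rw [mem_filter] at ht
        obtain ⟨ht, ht', hf, hg⟩ := ht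
        refine ⟨?_, ?_⟩
        · rw [← hf]; exact (mk1 J t ht).1
        · rw [← hg]; exact (mk2 J' t ht').1)
    hprod
  refine le_trans ?_ key
  norm_cast
  refine card_le_card ?_
  intro t ht
  rw [mem_image] at ht
  obtain ⟨x, hx, rfl⟩ := ht
  rw [mem_filter] at hx
  obtain ⟨hxI, hxc, hxb⟩ := hx
  have hxi : zc i x.2 = J := zc_nest hij hxc
  have hm : x.1 ∈ alive In j J' := mem_alive.2 ⟨x, hxI, hxc, rfl⟩
  rw [mem_filter]
  refine ⟨hsub hm, hm, ?_⟩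
  rw [hxc, hxi] at hxb
  exact hxb

/-! ### the sequence -/

section

variable {B : Base} {I : ℕ → Finset (ℕ × ℝ)} {G : Geo σ κ} {lev : ℕ → ℚ → ℕ}
    {A : ℕ → ℝ} {c Λ : ℝ → ℝ} {τ : κ → ℝ → ℝ} {f : ℕ → ℚ → ℕ → ℤ → ℕ} {b : ℕ → ℚ → ℕ → σ}
    {vm : ℕ → ℚ → ℝ} {w : κ → ℕ → ℚ → ℝ}

set_option maxHeartbeats 1000000 in
/-- **(T), joint form**: outside a negligible set the classes of the levels `u < v` of one incidence
have discrepancy at most `d^(-C (v - u) - ε)`. -/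
theorem tilt_two (h : MkA B I G lev A c Λ τ f b vm w)
    {D : ℕ → ℚ → ℚ → ℤ → ℤ → σ → σ → ℝ} {γ C1 Cc C : ℝ} (hγ : 0 < γ) (hC1 : 0 ≤ C1)
    (hCc : 0 ≤ Cc)
    (hc : ∀ u v : ℚ, 0 ≤ u → u ≤ v → v ≤ 1 → c u - c v ≤ Cc * ((v : ℝ) - u))
    (hg : TiltGeo B G lev vm w D γ C1) (hC : C1 + Cc + 1 ≤ C * γ) :
    ∀ u v : ℚ, 0 ≤ u → u < v → v ≤ 1 → ∀ ε : ℝ, 0 < ε →
      Negl B I fun n x => B.d n ^ (-(C * ((v : ℝ) - u)) - ε) ≤
        D n u v (zc (lev n u) x.2) (zc (lev n v) x.2) (b n u (f n u x.1 (zc (lev n u) x.2)))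
          (b n v (f n v x.1 (zc (lev n v) x.2))) := by
  classical
  intro u v hu huv hv ε hε
  have huvR : (u : ℝ) < v := by exact_mod_cast huv
  have hu1 : u ≤ 1 := huv.le.trans hv
  have hv0 : 0 ≤ v := hu.trans huv.le
  set Δ : ℝ := (v : ℝ) - u with hΔ
  have hΔ0 : 0 ≤ Δ := by linarith
  set η : ℝ := γ * ε / 20 with hη
  have hη0 : 0 < η := by positivity
  have hηε : 20 * η = γ * ε := by rw [hη]; ring
  set r : ℝ := (2 : ℝ) ^ (-γ) with hr
  have hr0 : 0 < r := by positivity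
  have hr1 : r < 1 := Real.rpow_lt_one_of_one_lt_of_neg (by norm_num) (by linarith)
  refine ⟨γ * ε / 2, by positivity, ?_⟩
  filter_upwards [h.near u hu hu1 η hη0, h.near v hv0 hv η hη0, h.dmax u hu hu1 η hη0,
    h.mark u hu hu1, h.mark v hv0 hv, h.vpos u hu hu1, h.vpos v hv0 hv,
    ev_R h hu huv.le hv hη0, ev_nu h hu hu1 hη0, ev_nu h hv0 hv hη0, hg u v hu huv hv η hη0,
    ev_const B (1 / (1 - r)) hη0] with
    n nu nv dm mu mv pu pv hR cu cv hgeo k1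
  have P := dpos B n
  obtain ⟨hij, hR2⟩ := hR
  obtain ⟨Tv, Sv, hTS, hgeo⟩ := hgeo
  have hau := ampA_pos h n u
  have hav := ampA_pos h n v
  set R : ℝ := 2 ^ (lev n v - lev n u) with hRdef
  have hR1 : 1 ≤ R := one_le_pow₀ (by norm_num)
  have hC0 : 0 ≤ C := by
    by_contra hcon
    push Not at hcon
    nlinarith
  set X0 : ℝ := B.d n ^ (-(C * Δ) - ε) with hX0
  have hX01 : 1 ≤ X0 := by
    rw [hX0]
    exact Real.one_le_rpow_of_pos_of_le_one_of_nonpos (B.pos n) (B.lt n).le (by nlinarith)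
  have hX0p : 0 < X0 := by linarith
  set au : ℝ := ampA B A c n u with hau_def
  set av : ℝ := ampA B A c n v with hav_def
  set M : ℝ := B.d n ^ (-η) * au with hM
  have hM0 : 0 ≤ M := (mul_pos (P _) hau).le
  have hamp : au ≤ B.d n ^ (-(Cc * Δ)) * av := by
    rw [hau_def, hav_def]
    unfold ampA
    have h2 := hc u v hu huv.le hv
    have h3 : B.d n ^ (-(c u)) ≤ B.d n ^ (-(Cc * Δ)) * B.d n ^ (-(c v)) := by
      rw [← dadd]
      apply danti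
      linarith
    have hA := h.Apos n
    calc A n * B.d n ^ (-(c (u : ℝ))) ≤ A n * (B.d n ^ (-(Cc * Δ)) * B.d n ^ (-(c v))) :=
          mul_le_mul_of_nonneg_left h3 hA.le
      _ = _ := by ring
  -- constant of the count
  set K : ℝ := B.d n ^ (-(3 * η) - (C1 + Cc) * Δ) * X0 ^ (-γ) with hK
  have hK0 : 0 ≤ K := by
    have := P (-(3 * η) - (C1 + Cc) * Δ)
    positivity
  have hprod : ∀ k : ℕ, (M * Tv (X0 * 2 ^ k)) * (M * Sv (X0 * 2 ^ k)) ≤
      K * (au * vm n u) * (av * vm n v) * r ^ k := by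
    intro k
    have hk1 : (1 : ℝ) ≤ X0 * 2 ^ k := by
      have : (1 : ℝ) ≤ 2 ^ k := one_le_pow₀ (by norm_num)
      nlinarith
    have h1 := (hTS _ hk1).2.2
    have h2 : (X0 * 2 ^ k) ^ (-γ) = X0 ^ (-γ) * r ^ k := by
      rw [Real.mul_rpow hX0p.le (by positivity)]
      congr 1
      rw [hr, ← Real.rpow_natCast, ← Real.rpow_natCast, ← Real.rpow_mul (by norm_num),
        ← Real.rpow_mul (by norm_num)]
      congr 1
      ring
    rw [h2] at h1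
    have h3 := P (-(C1 * Δ) - η)
    have h4 : 0 ≤ B.d n ^ (-(C1 * Δ) - η) * (X0 ^ (-γ) * r ^ k) * (vm n u * vm n v) := by
      positivity
    calc (M * Tv (X0 * 2 ^ k)) * (M * Sv (X0 * 2 ^ k))
        = (M * M) * (Tv (X0 * 2 ^ k) * Sv (X0 * 2 ^ k)) := by ring
      _ ≤ (M * M) * (B.d n ^ (-(C1 * Δ) - η) * (X0 ^ (-γ) * r ^ k) * (vm n u * vm n v)) :=
          mul_le_mul_of_nonneg_left h1 (mul_nonneg hM0 hM0)
      _ = (B.d n ^ (-η) * B.d n ^ (-η) * au) *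
            (B.d n ^ (-(C1 * Δ) - η) * (X0 ^ (-γ) * r ^ k) * (vm n u * vm n v)) * au := by
          rw [hM]; ring
      _ ≤ (B.d n ^ (-η) * B.d n ^ (-η) * au) *
            (B.d n ^ (-(C1 * Δ) - η) * (X0 ^ (-γ) * r ^ k) * (vm n u * vm n v)) *
              (B.d n ^ (-(Cc * Δ)) * av) := by
          refine mul_le_mul_of_nonneg_left hamp (mul_nonneg ?_ h4)
          have := P (-η)
          positivity
      _ = (B.d n ^ (-η) * B.d n ^ (-η) * B.d n ^ (-(C1 * Δ) - η) * B.d n ^ (-(Cc * Δ))) *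
            X0 ^ (-γ) * (au * vm n u) * (av * vm n v) * r ^ k := by ring
      _ = _ := by
          rw [hK]
          congr 4
          rw [← dadd, ← dadd, ← dadd]
          congr 1
          ring
  set Kt : ℝ := B.d n ^ (-η) * B.d n ^ (-η) * K / (1 - r) with hKt
  have h1r : 0 < 1 - r := by linarith
  have hKt0 : 0 ≤ Kt := by
    have := P (-η)
    positivity
  have hcell : ∀ x0 ∈ I n, ((((I n).filter fun x => zc (lev n v) x.2 = zc (lev n v) x0.2 ∧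
        X0 ≤ D n u v (zc (lev n u) x.2) (zc (lev n v) x.2) (b n u (f n u x.1 (zc (lev n u) x.2)))
          (b n v (f n v x.1 (zc (lev n v) x.2)))).image Prod.fst).card : ℝ) ≤
      Kt * ((((I n).filter fun x => zc (lev n u) x.2 = zc (lev n u) x0.2).image
        Prod.fst).card : ℝ) := by
    intro x0 hx0
    exact cell_two (G := G) (n := n) (In := I n) hij (f := fun t J => f n u t J)
      (g := fun t J => f n v t J) (b := b n u) (b' := b n v) (v1 := vm n u) (v2 := vm n v)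
      (W1 := fun k => w k n u) (W2 := fun k => w k n v) (D := D n u v) (a1 := au) (a2 := av)
      (E := B.d n ^ (-η)) (M := M) (X0 := X0) (K := K) (r := r) Tv Sv hX01 (P _).le hM0
      (mul_pos hau pu).le (mul_pos hav pv) hK0 hr0.le hr1
      (fun J t ht => ⟨(mu J t ht).1, (mu J t ht).2.1, (mu J t ht).2.2.1, (mu J t ht).2.2.2⟩)
      (fun J t ht => ⟨(mv J t ht).1, (mv J t ht).2.1, (mv J t ht).2.2.1, (mv J t ht).2.2.2⟩)
      nu nv (fun J s hs => by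
        have := dm J s hs
        rw [hM]
        convert this using 2)
      (fun X hX => ⟨(hTS X hX).1, (hTS X hX).2.1⟩) hprod hgeo hx0
  have hν1 := P (-(1 - (u : ℝ)) + (Λ 1 - Λ u) + η)
  have hν2 := P (-(1 - (v : ℝ)) + (Λ 1 - Λ v) - η)
  have hsum := sum_bad (I := I n) (obj := Prod.fst) (c := fun x => zc (lev n u) x.2)
    (c' := fun x => zc (lev n v) x.2)
    (bad := fun x => X0 ≤ D n u v (zc (lev n u) x.2) (zc (lev n v) x.2)
      (b n u (f n u x.1 (zc (lev n u) x.2))) (b n v (f n v x.1 (zc (lev n v) x.2))))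
    (K := Kt) (N := R) hKt0 (fun x _ y _ hxy => zc_nest hij hxy) hcell hν2.le hν1.le
    (fun x hx => by
      have := card_cells hij (I n) (zc (lev n u) x.2)
      rw [hRdef]
      exact_mod_cast this)
    (fun x hx => (cv x hx).2) (fun x hx => (cu x hx).1)
  -- exponents
  have hνν : B.d n ^ (-(1 - (v : ℝ)) + (Λ 1 - Λ v) - η) ≤
      B.d n ^ (-(2 * η)) * B.d n ^ (-(1 - (u : ℝ)) + (Λ 1 - Λ u) + η) := by
    rw [← dadd]
    apply danti
    have := (h.lam u v (by exact_mod_cast hu) huvR.le (by exact_mod_cast hv)).2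
    linarith
  have hX0γ : X0 ^ (-γ) = B.d n ^ (γ * (C * Δ) + γ * ε) := by
    rw [hX0, ← Real.rpow_mul (B.pos n).le]
    congr 1
    ring
  have hfin : B.d n ^ (-(2 * η)) * R * Kt ≤ B.d n ^ (γ * ε / 2) := by
    have e1 : Kt ≤ B.d n ^ (-η) * B.d n ^ (-η) * K * B.d n ^ (-η) := by
      rw [hKt, div_eq_mul_one_div]
      refine mul_le_mul_of_nonneg_left k1 ?_
      have := P (-η)
      positivity
    calc B.d n ^ (-(2 * η)) * R * Kt
        ≤ B.d n ^ (-(2 * η)) * B.d n ^ (-Δ - η) *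
            (B.d n ^ (-η) * B.d n ^ (-η) * K * B.d n ^ (-η)) := by
          refine mul_le_mul (mul_le_mul_of_nonneg_left hR2 (P _).le) e1 hKt0 ?_
          have := P (-(2 * η)); have := P (-Δ - η); positivity
      _ = B.d n ^ (-(2 * η) + (-Δ - η) + -η + -η + (-(3 * η) - (C1 + Cc) * Δ) +
            (γ * (C * Δ) + γ * ε) + -η) := by
          rw [hK, hX0γ]
          simp only [dadd]
          ring
      _ ≤ B.d n ^ (γ * ε / 2) := by
          apply danti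
          nlinarith [mul_nonneg hΔ0 (sub_nonneg.2 hC)]
  have hI0 : (0 : ℝ) ≤ (I n).card := Nat.cast_nonneg _
  refine le_of_mul_le_mul_right (hsum.trans ?_) hν1
  calc B.d n ^ (-(1 - (v : ℝ)) + (Λ 1 - Λ v) - η) * R * Kt * ((I n).card : ℝ)
      = B.d n ^ (-(1 - (v : ℝ)) + (Λ 1 - Λ v) - η) * (R * Kt * ((I n).card : ℝ)) := by ring
    _ ≤ (B.d n ^ (-(2 * η)) * B.d n ^ (-(1 - (u : ℝ)) + (Λ 1 - Λ u) + η)) *
          (R * Kt * ((I n).card : ℝ)) := mul_le_mul_of_nonneg_right hνν (by positivity)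
    _ = (B.d n ^ (-(2 * η)) * R * Kt) * ((I n).card : ℝ) *
          B.d n ^ (-(1 - (u : ℝ)) + (Λ 1 - Λ u) + η) := by ring
    _ ≤ B.d n ^ (γ * ε / 2) * ((I n).card : ℝ) *
          B.d n ^ (-(1 - (u : ℝ)) + (Λ 1 - Λ u) + η) :=
        mul_le_mul_of_nonneg_right (mul_le_mul_of_nonneg_right hfin hI0) hν1.le


end

end Crest.Agent.R116.Td809
end

-- ▼ part R116/Td4_809
section

/-!
# R116, K side, TILT, part 4 (helper809): NUMBER for light-ray members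

`dil_of` : the rays of a member `m'` (short cell) which meets `m` (long cell) with discrepancy `≤ 2X`
lie in a dilate of the box of `m` and have values `≤ 678 X Λ³ s1 R` of the function of `m`.
`number_mem` : the number of such rays, from the D-max over the long cell: `≤ C Λ^16 X^(1+q') N0`.
-/

set_option autoImplicit false
set_option linter.unusedVariables false

open Finset

namespace Crest.Agent.R116.Td809

open Crest.Agent.R138.Defs (E2)
open Crest.Agent.R116.CDef480 (E3 lat pt normsq2 inner2)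
open Crest.Agent.R116.LZg725
open Crest.Agent.R116.Bm903
open Crest.Agent.R116.KI439
open Crest.Agent.R116.KF439

/-! ### rays in a dilate of a member -/

/-- the ray `r` lies in the `L`-dilate of the box of `m` and has values `≤ κ s1 R`. -/
structure Dil (L κ : ℝ) (m : Mem) (r : LRay) : Prop where
  c : ‖r.1 - m.c‖ ≤ L * m.sg
  x : ‖rx r.1 r.2.1 m.s0 - lat m.X0‖ ≤ L * (m.sg * m.R)
  n : |nrm m.c (rx r.1 r.2.1 m.s0) (ry r.1 r.2.2 m.s0) m.s0 - nrm m.c (lat m.X0) (m.X0 2) m.s0| ≤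
    L ^ 2 * (m.sg ^ 2 * m.R)
  v : ∀ s, |s - m.s0| ≤ m.R → |evr m.phi r s| ≤ κ * (m.s1 * m.R)

/-- sizes of the difference of the two functions on a common ray. -/
theorem dil_cf {M M' Λ X : ℝ} {m m' : Mem} (h : m.Ok M 0) (h' : m'.Ok M' 0) (hρ : Rat Λ m m')
    (hX : 1 ≤ X) {σ : ℝ} (hσ : Sg σ) {r0 : LRay} (h0 : r0 ∈ m.rays 0) (h0' : r0 ∈ m'.rays 0)
    (h11 : dsc (m'.sg * m'.R) m'.R m.phi (sm σ m'.phi) r0 m'.s0 ≤ X * (m'.s1 * m'.R)) :
    CfB (2 * Λ ^ 2 * X * m'.s1) m'.sg m'.R (dif m.phi (sm σ m'.phi)) r0 m'.s0 := by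
  have hΛ := hρ.one
  have hΛ0 : 0 < Λ := by linarith
  have hR := h.hR
  have hR' := h'.hR
  have hsg' := sg_pos h'
  have hs1 := h.hs1
  have hs1' := h'.hs1
  have c00' := self_s0 h'
  have hX0 : 0 < X := by linarith
  obtain ⟨s1, s2, s3⟩ := slots_of_dsc (by positivity) hR' h11
  set P := dif m.phi (sm σ m'.phi) with hP
  have hΛ2 : 1 ≤ Λ ^ 2 := one_le_pow₀ hΛ
  have hΛ2X : Λ ^ 2 ≤ Λ ^ 2 * X := le_mul_of_one_le_right (by positivity) hX
  have hΛΛ : Λ ≤ Λ ^ 2 := by rw [pow_two]; exact le_mul_of_one_le_left hΛ0.le hΛ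
  set A := 2 * Λ ^ 2 * X * m'.s1 with hA
  have hA0 : 0 < A := by positivity
  have hXA : X * m'.s1 ≤ A := by
    rw [hA]
    have h1 : 1 ≤ 2 * Λ ^ 2 := by linarith
    have := mul_le_mul_of_nonneg_right h1 (by positivity : 0 ≤ X * m'.s1)
    linarith
  have v1 := ray_val h0 hρ.s0
  have v2 := ray_val h0' c00'
  have v3 := ray_slr hR h0
  have v4 := ray_slr hR' h0'
  have w1 : m.s1 ≤ Λ ^ 2 * X * m'.s1 :=
    hρ.t1.trans (mul_le_mul_of_nonneg_right (hΛΛ.trans hΛ2X) hs1'.le)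
  have w2 : m'.s1 ≤ Λ ^ 2 * X * m'.s1 := le_mul_of_one_le_left hs1'.le (hΛ2.trans hΛ2X)
  have w3 : m.s1 * m.R ≤ Λ ^ 2 * X * m'.s1 * m'.R := by
    have a1 := mul_le_mul hρ.t1 hρ.R2 hR.le (by positivity)
    have a2 : Λ ^ 2 * m'.s1 * m'.R ≤ X * (Λ ^ 2 * m'.s1 * m'.R) :=
      le_mul_of_one_le_left (by positivity) hX
    calc m.s1 * m.R ≤ Λ * m'.s1 * (Λ * m'.R) := a1
      _ = Λ ^ 2 * m'.s1 * m'.R := by ring
      _ ≤ X * (Λ ^ 2 * m'.s1 * m'.R) := a2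
      _ = _ := by ring
  have w4 := mul_le_mul_of_nonneg_right w2 hR'.le
  refine ⟨?_, ?_, ?_, ?_, ?_⟩
  · rw [hP, dif_evr, sm_evr]
    refine (abs_sub _ _).trans ?_
    rw [abs_mul, hσ.abs, one_mul]
    calc |evr m.phi r0 m'.s0| + |evr m'.phi r0 m'.s0| ≤ m.s1 * m.R + m'.s1 * m'.R :=
          add_le_add v1 v2
      _ ≤ Λ ^ 2 * X * m'.s1 * m'.R + Λ ^ 2 * X * m'.s1 * m'.R := add_le_add w3 w4
      _ = A * m'.R := by rw [hA]; ring
  · rw [hP, dif_slr]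
    have e : slr (sm σ m'.phi) r0 = σ * slr m'.phi r0 := by
      have e1 := evr_move (sm σ m'.phi) r0 0 1
      have e2 := evr_move m'.phi r0 0 1
      rw [sm_evr, sm_evr, e2] at e1
      linarith
    rw [e]
    refine (abs_sub _ _).trans ?_
    rw [abs_mul, hσ.abs, one_mul]
    calc |slr m.phi r0| + |slr m'.phi r0| ≤ m.s1 + m'.s1 := add_le_add v3 v4
      _ ≤ Λ ^ 2 * X * m'.s1 + Λ ^ 2 * X * m'.s1 := add_le_add w1 w2
      _ = A := by rw [hA]; ring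
  · refine s1.trans ?_
    have e : X * (m'.s1 * m'.R) / (m'.sg * m'.R) = X * m'.s1 / m'.sg := by field_simp
    rw [e]
    exact div_le_div_of_nonneg_right hXA hsg'.le
  · refine s2.trans ?_
    have e : X * (m'.s1 * m'.R) * m'.R / (m'.sg * m'.R) ^ 2 = X * m'.s1 / m'.sg ^ 2 := by
      field_simp
    rw [e]
    exact div_le_div_of_nonneg_right hXA (by positivity)
  · refine s3.trans ?_
    have e : X * (m'.s1 * m'.R) / (m'.sg * m'.R) ^ 2 = X * m'.s1 / (m'.sg ^ 2 * m'.R) := by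
      field_simp
    rw [e]
    exact div_le_div_of_nonneg_right hXA (by positivity)

/-- the values of the function of `m` on the rays of `m'`. -/
theorem dil_val {M M' Λ X : ℝ} {m m' : Mem} (h : m.Ok M 0) (h' : m'.Ok M' 0) (hρ : Rat Λ m m')
    (hX : 1 ≤ X) (hD : Dd m m' ≤ 2 * X) {r0 r : LRay} (h0 : r0 ∈ m.rays 0) (h0' : r0 ∈ m'.rays 0)
    (hr : r ∈ m'.rays 0) {s : ℝ} (hs : |s - m.s0| ≤ m.R) :
    |evr m.phi r s| ≤ 700 * Λ ^ 3 * X * (m.s1 * m.R) := by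
  have hΛ := hρ.one
  have hΛ0 : 0 < Λ := by linarith
  have hR := h.hR
  have hR' := h'.hR
  have hsg' := sg_pos h'
  have hs1 := h.hs1
  have hs1' := h'.hs1
  have c00' := self_s0 h'
  have hX0 : 0 < X := by linarith
  have f1 := two_slope h0' hr
  have f2 := two_lat h0' hr c00'
  have f3 := two_nur h0' hr c00'
  rw [T0] at f3
  have f3' : |nur r0 r m'.s0| ≤ 4 * (m'.sg ^ 2 * m'.R) := by linarith
  obtain ⟨σ, hσ, h9⟩ := dm_of_Dd' h' hD
  have h10 := dsc_ray (a := 1) hsg' hR' zero_le_one (p := m.phi) (q := sm σ m'.phi)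
    (r := cray m') (r' := r0) (z := m'.s0) (by rw [one_mul]; exact ray_slope h0')
    (by
      rw [one_mul, rx_cray]
      have := ray_lat h0' c00'
      rwa [sub_self, zero_smul, add_zero] at this)
  have h11 : dsc (m'.sg * m'.R) m'.R m.phi (sm σ m'.phi) r0 m'.s0 ≤ X * (m'.s1 * m'.R) := by
    unfold dm at h9
    have : 0 ≤ X * (m'.s1 * m'.R) := by positivity
    linarith
  have hcf := dil_cf h h' hρ hX hσ h0 h0' h11
  have hA0 : 0 < 2 * Λ ^ 2 * X * m'.s1 := by positivity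
  have a1 : 2 * Λ ^ 2 * X * m'.s1 ≤ 2 * Λ ^ 3 * X * m.s1 := by
    have := mul_le_mul_of_nonneg_left hρ.t2 (by positivity : 0 ≤ 2 * Λ ^ 2 * X)
    calc 2 * Λ ^ 2 * X * m'.s1 ≤ 2 * Λ ^ 2 * X * (Λ * m.s1) := this
      _ = _ := by ring
  generalize 2 * Λ ^ 2 * X * m'.s1 = A at hcf hA0 a1
  set P := dif m.phi (sm σ m'.phi) with hP
  have hcf2 := hcf.ray (r' := r) hsg' hR' (k := 4) (by norm_num)
    (f1.trans (by linarith)) (f2.trans (by
      have : 0 < m'.sg * m'.R := by positivity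
      linarith)) f3'
  have k1 : |evr P r s| ≤ 336 * A * m.R := by
    rw [evr_move P r m'.s0 s]
    refine (abs_add_le _ _).trans ?_
    rw [abs_mul]
    have a0 : |s - m'.s0| ≤ 2 * m.R := by
      have e : s - m'.s0 = (s - m.s0) - (m'.s0 - m.s0) := by ring
      rw [e]
      exact (abs_sub _ _).trans (by linarith [hρ.s0])
    have b1 := mul_le_mul a0 hcf2.sl (abs_nonneg _) (by positivity)
    have b2 := hcf2.ev
    have b3 := mul_le_mul_of_nonneg_left hρ.R1 hA0.le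
    calc |evr P r m'.s0| + |s - m'.s0| * |slr P r| ≤
          7 * 4 ^ 2 * A * m'.R + 2 * m.R * (7 * 4 ^ 2 * A) := add_le_add b2 b1
      _ = 112 * (A * m'.R) + 224 * A * m.R := by ring
      _ ≤ 336 * A * m.R := by linarith
  have k2 := ext_val h' hr (R := m.R) (s0 := m.s0) (s := s) hρ.R1 hρ.s0 hs
  have e : evr m.phi r s = evr P r s + σ * evr m'.phi r s := by
    rw [hP, dif_evr, sm_evr]; ring
  rw [e]
  refine (abs_add_le _ _).trans ?_
  rw [abs_mul, hσ.abs, one_mul]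
  have a2 : m'.s1 ≤ Λ ^ 3 * X * m.s1 := by
    refine hρ.t2.trans (mul_le_mul_of_nonneg_right ?_ hs1.le)
    have h1 : 1 ≤ Λ ^ 2 := one_le_pow₀ hΛ
    have h2 : Λ ≤ Λ ^ 3 := by
      calc Λ = Λ * 1 := by ring
        _ ≤ Λ * Λ ^ 2 := mul_le_mul_of_nonneg_left h1 hΛ0.le
        _ = Λ ^ 3 := by ring
    exact h2.trans (le_mul_of_one_le_right (by positivity) hX)
  have a3 := mul_le_mul_of_nonneg_right a1 hR.le
  have a4 := mul_le_mul_of_nonneg_right a2 hR.le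
  have a5 : 0 ≤ Λ ^ 3 * X * m.s1 * m.R := by positivity
  calc |evr P r s| + |evr m'.phi r s| ≤ 336 * A * m.R + 3 * (m'.s1 * m.R) := add_le_add k1 k2
    _ ≤ 336 * (2 * Λ ^ 3 * X * m.s1 * m.R) + 3 * (Λ ^ 3 * X * m.s1 * m.R) := by linarith
    _ ≤ 700 * Λ ^ 3 * X * (m.s1 * m.R) := by linarith

theorem dil_of {M M' Λ X : ℝ} {m m' : Mem} (h : m.Ok M 0) (h' : m'.Ok M' 0) (hρ : Rat Λ m m')
    (hX : 1 ≤ X) (hD : Dd m m' ≤ 2 * X) {r0 r : LRay} (h0 : r0 ∈ m.rays 0) (h0' : r0 ∈ m'.rays 0)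
    (hr : r ∈ m'.rays 0) : Dil (5 * Λ) (700 * Λ ^ 3 * X) m r := by
  have hΛ := hρ.one
  have hΛ0 : 0 < Λ := by linarith
  have hR := h.hR
  have hR' := h'.hR
  have hsg := sg_pos h
  have hsg' := sg_pos h'
  have c00 := self_s0 h
  have c00' := self_s0 h'
  -- frame of `r0`
  have f1 := two_slope h0' hr
  have f2 := two_lat h0' hr c00'
  have f3 := two_nur h0' hr c00'
  rw [T0] at f3
  have f3' : |nur r0 r m'.s0| ≤ 4 * (m'.sg ^ 2 * m'.R) := by linarith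
  have hgR : m'.sg * m'.R ≤ Λ * (m.sg * m.R) := by
    have := mul_le_mul hρ.g2 hρ.R1 hR'.le (by positivity)
    linarith
  have hgg : m'.sg ^ 2 ≤ Λ ^ 2 * m.sg ^ 2 := by
    have := pow_le_pow_left₀ hsg'.le hρ.g2 2
    rwa [mul_pow] at this
  have hg2R : m'.sg ^ 2 * m'.R ≤ Λ ^ 2 * (m.sg ^ 2 * m.R) := by
    have a1 := mul_le_mul hgg hρ.R1 hR'.le (by positivity)
    linarith
  have hs00 : |m.s0 - m'.s0| ≤ m.R := by rw [abs_sub_comm]; exact hρ.s0
  have hRg : m.R * (2 * m'.sg) ≤ 2 * (Λ * (m.sg * m.R)) := by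
    have := mul_le_mul_of_nonneg_left hρ.g2 hR.le
    linarith
  have b2 : ‖rx r.1 r.2.1 m.s0 - rx r0.1 r0.2.1 m.s0‖ ≤ 4 * (Λ * (m.sg * m.R)) := by
    rw [rx_move r0 r m'.s0 m.s0]
    refine (norm_sub_le _ _).trans ?_
    rw [norm_smul, Real.norm_eq_abs]
    have a2 := mul_le_mul hs00 f1 (norm_nonneg _) hR.le
    linarith
  refine ⟨?_, ?_, ?_, fun s hs => dil_val h h' hρ hX hD h0 h0' hr hs⟩
  · have g1 := ray_slope h0
    have e : r.1 - m.c = (r.1 - r0.1) + (r0.1 - m.c) := by abel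
    rw [e]
    refine (norm_add_le _ _).trans ?_
    have h1 := hρ.g2
    have h2 : m.sg ≤ Λ * m.sg := le_mul_of_one_le_left hsg.le hΛ
    linarith
  · have g1 := ray_lat h0 c00
    rw [sub_self, zero_smul, add_zero] at g1
    have e : rx r.1 r.2.1 m.s0 - lat m.X0 = (rx r.1 r.2.1 m.s0 - rx r0.1 r0.2.1 m.s0) +
        (rx r0.1 r0.2.1 m.s0 - lat m.X0) := by abel
    rw [e]
    refine (norm_add_le _ _).trans ?_
    have a4 : m.sg * m.R ≤ Λ * (m.sg * m.R) := le_mul_of_one_le_left (by positivity) hΛ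
    linarith
  · have g1 := ray_nrm h0 c00
    rw [T0] at g1
    have g2 := ray_slope h0
    have b1 : |nur r0 r m.s0| ≤ 6 * (Λ ^ 2 * (m.sg ^ 2 * m.R)) := by
      rw [nur_move r0 r m'.s0 m.s0]
      refine (abs_add_le _ _).trans ?_
      rw [abs_mul, abs_of_nonneg (by positivity : 0 ≤ ‖r.1 - r0.1‖ ^ 2 / 2)]
      have a1 : ‖r.1 - r0.1‖ ^ 2 / 2 ≤ 2 * m'.sg ^ 2 := by
        have := pow_le_pow_left₀ (norm_nonneg _) f1 2
        rw [mul_pow] at this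
        linarith
      have a2 := mul_le_mul hs00 a1 (by positivity) hR.le
      have a3 : m.R * (2 * m'.sg ^ 2) ≤ 2 * (Λ ^ 2 * (m.sg ^ 2 * m.R)) := by
        have := mul_le_mul_of_nonneg_left hgg hR.le
        linarith
      linarith
    have e := nrm_two m.c r0.1 (rx r0.1 r0.2.1 m.s0) (rx r.1 r.2.1 m.s0) (ry r0.1 r0.2.2 m.s0)
      (ry r.1 r.2.2 m.s0) m.s0
    have e1 : nrm m.c (rx r.1 r.2.1 m.s0) (ry r.1 r.2.2 m.s0) m.s0 -
        nrm m.c (lat m.X0) (m.X0 2) m.s0 =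
        (nur r0 r m.s0 + inner ℝ (m.c - r0.1) (rx r.1 r.2.1 m.s0 - rx r0.1 r0.2.1 m.s0)) +
        (nrm m.c (rx r0.1 r0.2.1 m.s0) (ry r0.1 r0.2.2 m.s0) m.s0 -
          nrm m.c (lat m.X0) (m.X0 2) m.s0) := by
      unfold nur
      linarith
    rw [e1]
    refine (abs_add_le _ _).trans ?_
    have b3 := abs_add_le (nur r0 r m.s0)
      (inner ℝ (m.c - r0.1) (rx r.1 r.2.1 m.s0 - rx r0.1 r0.2.1 m.s0))
    have b4 : |inner ℝ (m.c - r0.1) (rx r.1 r.2.1 m.s0 - rx r0.1 r0.2.1 m.s0)| ≤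
        m.sg * (4 * (Λ * (m.sg * m.R))) := by
      refine (abs_real_inner_le_norm _ _).trans (mul_le_mul ?_ b2 (norm_nonneg _) hsg.le)
      rw [norm_sub_rev]; exact g2
    have b5 : m.sg * (4 * (Λ * (m.sg * m.R))) ≤ 4 * (Λ ^ 2 * (m.sg ^ 2 * m.R)) := by
      have h1 : Λ ≤ Λ ^ 2 := by rw [pow_two]; exact le_mul_of_one_le_left hΛ0.le hΛ
      have := mul_le_mul_of_nonneg_right h1 (by positivity : 0 ≤ m.sg ^ 2 * m.R)
      linarith
    have b6 : m.sg ^ 2 * m.R ≤ Λ ^ 2 * (m.sg ^ 2 * m.R) :=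
      le_mul_of_one_le_left (by positivity) (one_le_pow₀ hΛ)
    have b7 : 0 ≤ Λ ^ 2 * (m.sg ^ 2 * m.R) := by positivity
    have e5 : (5 * Λ) ^ 2 * (m.sg ^ 2 * m.R) = 25 * (Λ ^ 2 * (m.sg ^ 2 * m.R)) := by ring
    rw [e5]
    linarith

/-! ### two kinds of test sets -/

/-- the fat member around the ray `r`: the same function, thickness `s1 2^k`. -/
noncomputable def fat (m : Mem) (k : ℕ) (r : LRay) : Mem where
  c := r.1
  sg := m.sg
  s1 := m.s1 * 2 ^ k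
  R := m.R
  X0 := rpos r m.s0
  s0 := m.s0
  phi := m.phi

/-- a unit vector -/
noncomputable def uv : E2 := !₂[1, 0]

theorem uv_norm : ‖uv‖ = 1 := by
  have h : ‖uv‖ ^ 2 = 1 := by
    rw [normsq2]
    unfold uv
    norm_num
  nlinarith [norm_nonneg uv]

/-- the whole box around the ray `r`. -/
noncomputable def bx (m : Mem) (r : LRay) : Mem where
  c := r.1
  sg := m.sg
  s1 := m.sg
  R := m.R
  X0 := rpos r m.s0
  s0 := m.s0
  phi := Gd222.mk0 r.1 (rx r.1 r.2.1 m.s0) (ry r.1 r.2.2 m.s0) m.s0 uv 0 0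

section tests

variable {ρ : ℝ} {i : ℕ} {J : ℤ} {a : Fin 2 → ℕ} {m : Mem} {r r' : LRay}

theorem bx_adm (h : AdmL ρ i J a m) (r : LRay) : AdmL ρ i J ![a 0, a 0] (bx m r) := by
  have hR := h.ok.hR
  have hsg := sg_pos h.ok
  have hny : ∀ s, (bx m r).phi.ny s = 0 := by
    intro s
    show (Gd222.mk0 r.1 (rx r.1 r.2.1 m.s0) (ry r.1 r.2.2 m.s0) m.s0 uv 0 0).ny s = 0
    rw [Gd222.mk0_ny]; ring
  refine ⟨⟨hR, hsg, le_rfl, ?_⟩, h.hR, h.hs0, h.sg1, h.wide, h.wide, ?_, ?_, ?_⟩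
  · refine ⟨?_, ?_, ?_, ?_⟩
    · show (Gd222.mk0 r.1 (rx r.1 r.2.1 m.s0) (ry r.1 r.2.2 m.s0) m.s0 uv 0 0).disc = 1
      rw [Gd222.mk0_disc, uv_norm]; norm_num
    · intro s hs
      rw [hny, abs_zero, zero_mul]
      unfold kM0
      show 0 ≤ 1 / 100 * m.sg
      positivity
    · show |(Gd222.mk0 r.1 (rx r.1 r.2.1 m.s0) (ry r.1 r.2.2 m.s0) m.s0 uv 0 0).ld r.1
        (lat (rpos r m.s0)) ((rpos r m.s0) 2) m.s0| ≤ kM0 * m.sg
      rw [lat_rpos, rpos_two, Gd222.mk0_ld, abs_zero]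
      unfold kM0
      positivity
    · show |(Gd222.mk0 r.1 (rx r.1 r.2.1 m.s0) (ry r.1 r.2.2 m.s0) m.s0 uv 0 0).ev
        (lat (rpos r m.s0)) ((rpos r m.s0) 2) m.s0| ≤ kM0 * m.sg * m.R
      rw [lat_rpos, rpos_two, Gd222.mk0_ev0, abs_zero]
      unfold kM0
      positivity
  · show ρ ≤ m.sg * m.R
    exact h.res.trans (mul_le_mul_of_nonneg_right h.ok.hsg hR.le)
  · show |(0:ℝ)| * (m.sg * m.R) ≤ kD
    unfold kD
    norm_num
  · rw [hny, abs_zero, zero_mul]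
    unfold kD
    norm_num

theorem bx_ray (hR : 0 < m.R) (hsg : 0 < m.sg) {p : Cf E2} {w : ℝ}
    (h : RayIn r.1 m.sg (m.sg ^ 2) m.R (rx r.1 r.2.1 m.s0) (ry r.1 r.2.2 m.s0) m.s0 p w
      r'.1 r'.2.1 r'.2.2) : r' ∈ (bx m r).rays 0 := by
  rw [Mem.mem_rays, T0]
  show RayIn r.1 m.sg (m.sg ^ 2) m.R (lat (rpos r m.s0)) ((rpos r m.s0) 2) m.s0
    (Gd222.mk0 r.1 (rx r.1 r.2.1 m.s0) (ry r.1 r.2.2 m.s0) m.s0 uv 0 0) (m.sg * m.R)
    r'.1 r'.2.1 r'.2.2
  rw [lat_rpos, rpos_two]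
  obtain ⟨h1, h2⟩ := h
  refine ⟨h1, fun s hs => ⟨(h2 s hs).1, ?_⟩⟩
  rw [Gd222.mk0_ev, zero_mul, zero_mul, add_zero, add_zero]
  refine (abs_real_inner_le_norm _ _).trans ?_
  rw [uv_norm, one_mul]
  exact (h2 s hs).1.2.1

theorem fat_adm (h : AdmL ρ i J a m) {k a1 : ℕ} (hk : a1 + k = a 1) {κ : ℝ}
    (h1 : m.s1 * 2 ^ k ≤ m.sg) (hκ : 100 * (κ * m.s1) ≤ m.sg)
    (hv : ∀ s, |s - m.s0| ≤ m.R → |evr m.phi r s| ≤ κ * (m.s1 * m.R)) :
    AdmL ρ i J ![a 0, a1] (fat m k r) := by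
  have hR := h.ok.hR
  have hsg := sg_pos h.ok
  have hs1 := h.ok.hs1
  have h00 := self_s0 h.ok
  have hsl : |slr m.phi r| ≤ κ * m.s1 := by
    have b1 := hv (m.s0 + m.R) (by rw [add_sub_cancel_left, abs_of_pos hR])
    have b2 := hv (m.s0 - m.R) (by rw [sub_sub_cancel_left, abs_neg, abs_of_pos hR])
    have b3 := evr_move m.phi r (m.s0 - m.R) (m.s0 + m.R)
    have e : 2 * m.R * slr m.phi r = evr m.phi r (m.s0 + m.R) - evr m.phi r (m.s0 - m.R) := by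
      rw [b3]; ring
    have b4 : |2 * m.R * slr m.phi r| ≤ 2 * m.R * (κ * m.s1) := by
      rw [e]
      refine (abs_sub _ _).trans ?_
      linarith
    rw [abs_mul, abs_of_pos (by positivity)] at b4
    exact le_of_mul_le_mul_left b4 (by positivity)
  refine ⟨⟨hR, ?_, h1, ?_⟩, h.hR, h.hs0, h.sg1, h.wide, ?_, ?_, h.dd, h.nn⟩
  · show 0 < m.s1 * 2 ^ k
    positivity
  · refine ⟨h.ok.adm.disc, ?_, ?_, ?_⟩
    · intro s hs
      have := h.ok.adm.ny s hs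
      rw [T0] at this ⊢
      exact this
    · show |m.phi.ld r.1 (lat (rpos r m.s0)) ((rpos r m.s0) 2) m.s0| ≤ kM0 * m.sg
      rw [lat_rpos, rpos_two, slr_eq]
      unfold kM0
      linarith
    · show |m.phi.ev (lat (rpos r m.s0)) ((rpos r m.s0) 2) m.s0| ≤ kM0 * m.sg * m.R
      rw [lat_rpos, rpos_two]
      have h1 : |evr m.phi r m.s0| ≤ κ * (m.s1 * m.R) := hv m.s0 h00
      refine h1.trans ?_
      rw [← mul_assoc]
      refine mul_le_mul_of_nonneg_right ?_ hR.le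
      unfold kM0
      linarith
  · show m.s1 * 2 ^ k * m.R = (1 / 2 : ℝ) ^ a1
    have e : m.s1 * m.R = (1 / 2 : ℝ) ^ (a1 + k) := by rw [hk]; exact h.thin
    calc m.s1 * 2 ^ k * m.R = (m.s1 * m.R) * 2 ^ k := by ring
      _ = (1 / 2 : ℝ) ^ a1 * ((1 / 2 : ℝ) ^ k * 2 ^ k) := by rw [e, pow_add]; ring
      _ = (1 / 2 : ℝ) ^ a1 := by rw [← mul_pow]; norm_num
  · show ρ ≤ m.s1 * 2 ^ k * m.R
    refine h.res.trans (mul_le_mul_of_nonneg_right ?_ hR.le)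
    exact le_mul_of_one_le_right hs1.le (one_le_pow₀ (by norm_num))

theorem fat_ray {k : ℕ} {κ : ℝ} (hR : 0 < m.R) (hs1 : 0 < m.s1) (hκ : κ ≤ 2 ^ k)
    (h : RayIn r.1 m.sg (m.sg ^ 2) m.R (rx r.1 r.2.1 m.s0) (ry r.1 r.2.2 m.s0) m.s0 m.phi
      (κ * (m.s1 * m.R)) r'.1 r'.2.1 r'.2.2) : r' ∈ (fat m k r).rays 0 := by
  rw [Mem.mem_rays, T0]
  show RayIn r.1 m.sg (m.sg ^ 2) m.R (lat (rpos r m.s0)) ((rpos r m.s0) 2) m.s0
    m.phi (m.s1 * 2 ^ k * m.R) r'.1 r'.2.1 r'.2.2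
  rw [lat_rpos, rpos_two]
  refine rayIn_mono h hR.le le_rfl le_rfl ?_
  have := mul_le_mul_of_nonneg_right hκ (by positivity : 0 ≤ m.s1 * m.R)
  linarith

end tests

/-! ### NUMBER -/

section number

variable {ρ : ℝ} {i : ℕ} {J : ℤ} {a : Fin 2 → ℕ} {m : Mem}

/-- the label of the cover -/
noncomputable def labN (ray : ℕ → LRay) (m : Mem) (L : ℝ) (t0 t : ℕ) :
    ((ℤ × ℤ) × (ℤ × ℤ)) × ℤ :=
  (Tc334.cell4 (Tc334.csR ray m.sg m.R m.s0) (1 / (32 * L)) t,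
    ⌊(Tc334.csR ray m.sg m.R m.s0).N t0 t / (1 / 8)⌋)

/-- two rays in the dilated box, in the units of the box. -/
theorem dil_pair {ray : ℕ → LRay} {L κ : ℝ} (hR : 0 < m.R) (hsg : 0 < m.sg) (hL : 1 ≤ L) {t t' : ℕ}
    (h : Dil L κ m (ray t)) (h' : Dil L κ m (ray t')) :
    ‖(Tc334.csR ray m.sg m.R m.s0).x t' - (Tc334.csR ray m.sg m.R m.s0).x t‖ ≤ 2 * L ∧
    ‖(Tc334.csR ray m.sg m.R m.s0).v t' - (Tc334.csR ray m.sg m.R m.s0).v t‖ ≤ 2 * L ∧
    |(Tc334.csR ray m.sg m.R m.s0).N t t'| ≤ 4 * L ^ 2 := by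
  have hL0 : 0 < L := by linarith
  have h1 : ‖rx (ray t').1 (ray t').2.1 m.s0 - rx (ray t).1 (ray t).2.1 m.s0‖ ≤
      2 * L * (m.sg * m.R) := by
    have e : rx (ray t').1 (ray t').2.1 m.s0 - rx (ray t).1 (ray t).2.1 m.s0 =
        (rx (ray t').1 (ray t').2.1 m.s0 - lat m.X0) -
        (rx (ray t).1 (ray t).2.1 m.s0 - lat m.X0) := by abel
    rw [e]
    refine (norm_sub_le _ _).trans ?_
    have := h.x
    have := h'.x
    linarith
  refine ⟨?_, ?_, ?_⟩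
  · rw [Tc334.csR_dx, norm_smul, Real.norm_of_nonneg (by positivity : 0 ≤ (m.sg * m.R)⁻¹)]
    have := mul_le_mul_of_nonneg_left h1 (by positivity : 0 ≤ (m.sg * m.R)⁻¹)
    refine this.trans (le_of_eq ?_)
    field_simp
  · rw [Tc334.csR_dv, norm_neg, norm_smul, Real.norm_of_nonneg (by positivity : 0 ≤ m.sg⁻¹)]
    have e : (ray t').1 - (ray t).1 = ((ray t').1 - m.c) - ((ray t).1 - m.c) := by abel
    have h2 : ‖(ray t').1 - (ray t).1‖ ≤ 2 * L * m.sg := by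
      rw [e]
      refine (norm_sub_le _ _).trans ?_
      have := h.c
      have := h'.c
      linarith
    have := mul_le_mul_of_nonneg_left h2 (by positivity : 0 ≤ m.sg⁻¹)
    refine this.trans (le_of_eq ?_)
    field_simp
  · rw [Tc334.csR_N ray m.s0 hsg hR, abs_mul, abs_of_pos (by positivity : 0 < (m.sg ^ 2 * m.R)⁻¹)]
    rw [nrm_two (ray t).1 m.c]
    have e : nrm m.c (rx (ray t').1 (ray t').2.1 m.s0) (ry (ray t').1 (ray t').2.2 m.s0) m.s0 -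
        nrm m.c (rx (ray t).1 (ray t).2.1 m.s0) (ry (ray t).1 (ray t).2.2 m.s0) m.s0 =
        (nrm m.c (rx (ray t').1 (ray t').2.1 m.s0) (ry (ray t').1 (ray t').2.2 m.s0) m.s0 -
          nrm m.c (lat m.X0) (m.X0 2) m.s0) -
        (nrm m.c (rx (ray t).1 (ray t).2.1 m.s0) (ry (ray t).1 (ray t).2.2 m.s0) m.s0 -
          nrm m.c (lat m.X0) (m.X0 2) m.s0) := by ring
    rw [e]
    have h3 : |inner ℝ ((ray t).1 - m.c)
        (rx (ray t').1 (ray t').2.1 m.s0 - rx (ray t).1 (ray t).2.1 m.s0)| ≤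
        (L * m.sg) * (2 * L * (m.sg * m.R)) :=
      (abs_real_inner_le_norm _ _).trans (mul_le_mul h.c h1 (norm_nonneg _) (by positivity))
    have h4 := h.n
    have h5 := h'.n
    have h6 := abs_sub (nrm m.c (rx (ray t').1 (ray t').2.1 m.s0) (ry (ray t').1 (ray t').2.2 m.s0)
      m.s0 - nrm m.c (lat m.X0) (m.X0 2) m.s0)
      (nrm m.c (rx (ray t).1 (ray t).2.1 m.s0) (ry (ray t).1 (ray t).2.2 m.s0) m.s0 -
        nrm m.c (lat m.X0) (m.X0 2) m.s0)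
    have h7 := abs_add_le ((nrm m.c (rx (ray t').1 (ray t').2.1 m.s0)
      (ry (ray t').1 (ray t').2.2 m.s0) m.s0 - nrm m.c (lat m.X0) (m.X0 2) m.s0) -
      (nrm m.c (rx (ray t).1 (ray t).2.1 m.s0) (ry (ray t).1 (ray t).2.2 m.s0) m.s0 -
        nrm m.c (lat m.X0) (m.X0 2) m.s0))
      (inner ℝ ((ray t).1 - m.c)
        (rx (ray t').1 (ray t').2.1 m.s0 - rx (ray t).1 (ray t).2.1 m.s0))
    have h8 := h7.trans (show _ ≤ 4 * L ^ 2 * (m.sg ^ 2 * m.R) by nlinarith)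
    have := mul_le_mul_of_nonneg_left h8 (by positivity : 0 ≤ (m.sg ^ 2 * m.R)⁻¹)
    refine this.trans (le_of_eq ?_)
    field_simp

/-- two rays of the same label are close. -/
theorem lab_near {ray : ℕ → LRay} {L κ : ℝ} (hR : 0 < m.R) (hsg : 0 < m.sg) (hL : 1 ≤ L)
    {t0 t t' : ℕ} (h0 : Dil L κ m (ray t0)) (h : Dil L κ m (ray t)) (h' : Dil L κ m (ray t'))
    (hl : labN ray m L t0 t' = labN ray m L t0 t) :
    RayIn (ray t).1 m.sg (m.sg ^ 2) m.R (rx (ray t).1 (ray t).2.1 m.s0)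
      (ry (ray t).1 (ray t).2.2 m.s0) m.s0 m.phi (κ * (m.s1 * m.R))
      (ray t').1 (ray t').2.1 (ray t').2.2 := by
  have hL0 : 0 < L := by linarith
  unfold labN at hl
  rw [Prod.mk.injEq] at hl
  obtain ⟨l1, l2⟩ := hl
  have hs : (0:ℝ) < 1 / (32 * L) := by positivity
  obtain ⟨g1, g2⟩ := Tc334.cell4_eq _ hs l1
  have g3 := Tc334.abs_sub_le_of_floor (by norm_num : (0:ℝ) < 1 / 8) l2
  have hsmall : 2 * (1 / (32 * L)) ≤ 1 / 16 := by
    have : 1 / (32 * L) ≤ 1 / 32 := by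
      apply one_div_le_one_div_of_le (by norm_num)
      linarith
    linarith
  have g4 := (dil_pair hR hsg hL h0 h).2.1
  have g5 : |(Tc334.csR ray m.sg m.R m.s0).N t t'| ≤ 1 / 4 := by
    rw [(Tc334.csR ray m.sg m.R m.s0).N_cocycle t0 t t']
    refine (abs_sub _ _).trans ?_
    have a1 : |inner ℝ ((Tc334.csR ray m.sg m.R m.s0).v t - (Tc334.csR ray m.sg m.R m.s0).v t0)
        ((Tc334.csR ray m.sg m.R m.s0).x t' - (Tc334.csR ray m.sg m.R m.s0).x t)| ≤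
        (2 * L) * (2 * (1 / (32 * L))) :=
      (abs_real_inner_le_norm _ _).trans (mul_le_mul g4 g1 (norm_nonneg _) (by positivity))
    have a2 : (2 * L) * (2 * (1 / (32 * L))) = 1 / 8 := by field_simp; norm_num
    linarith
  have h9 := Tc334.ray_near (ray := ray) (s0 := m.s0) (sg := m.sg) (R := m.R)
    (w := κ * (m.s1 * m.R)) (p := m.phi) hsg hR (i := t) (j := t') (σ := 1 / 2) (by norm_num)
    (g1.trans (by linarith)) (g2.trans (by linarith)) (g5.trans (by norm_num)) h'.v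
  have e : 2 * (1 / 2 : ℝ) * m.sg = m.sg := by ring
  rwa [e] at h9

/-- the number of labels. -/
theorem lab_card {ray : ℕ → LRay} {L κ : ℝ} (hR : 0 < m.R) (hsg : 0 < m.sg) (hL : 1 ≤ L)
    (T : Finset ℕ) (hT : ∀ t ∈ T, Dil L κ m (ray t)) {t0 : ℕ} (h0 : t0 ∈ T) :
    ((T.image (labN ray m L t0)).card : ℝ) ≤ (130 * L ^ 2) ^ 4 * (130 * L ^ 2) := by
  classical
  have hL0 : 0 < L := by linarith
  have hL2 : 1 ≤ L ^ 2 := one_le_pow₀ hL
  have hs : (0:ℝ) < 1 / (32 * L) := by positivity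
  have hsub : T.image (labN ray m L t0) ⊆
      (T.image (Tc334.cell4 (Tc334.csR ray m.sg m.R m.s0) (1 / (32 * L)))) ×ˢ
      (T.image fun t => ⌊(Tc334.csR ray m.sg m.R m.s0).N t0 t / (1 / 8)⌋) := by
    intro z hz
    obtain ⟨t, ht, rfl⟩ := mem_image.1 hz
    rw [mem_product]
    exact ⟨mem_image_of_mem _ ht, mem_image_of_mem (fun t =>
      ⌊(Tc334.csR ray m.sg m.R m.s0).N t0 t / (1 / 8)⌋) ht⟩
  have hc := card_le_card hsub
  rw [card_product] at hc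
  have c1 := Tc334.cell4_card (Tc334.csR ray m.sg m.R m.s0) T (L := 2 * L) hs (by positivity)
    (fun t ht t' ht' => (dil_pair hR hsg hL (hT t ht) (hT t' ht')).1)
    (fun t ht t' ht' => (dil_pair hR hsg hL (hT t ht) (hT t' ht')).2.1)
  have c2 := Tc334.floor_image T (fun t => (Tc334.csR ray m.sg m.R m.s0).N t0 t) (L := 8 * L ^ 2)
    (δ := 1 / 8) (by norm_num) (by positivity) (fun t ht t' ht' => by
      have a1 := (dil_pair hR hsg hL (hT t0 h0) (hT t ht)).2.2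
      have a2 := (dil_pair hR hsg hL (hT t0 h0) (hT t' ht')).2.2
      refine (abs_sub _ _).trans ?_
      linarith)
  have e1 : 2 * (2 * L) / (1 / (32 * L)) + 2 ≤ 130 * L ^ 2 := by
    have : 2 * (2 * L) / (1 / (32 * L)) = 128 * L ^ 2 := by field_simp; norm_num
    rw [this]; linarith
  have e2 : 2 * (8 * L ^ 2) / (1 / 8) + 2 ≤ 130 * L ^ 2 := by
    have : 2 * (8 * L ^ 2) / (1 / 8) = 128 * L ^ 2 := by ring
    rw [this]; linarith
  have e0 : 0 ≤ 2 * (2 * L) / (1 / (32 * L)) + 2 := by positivity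
  calc ((T.image (labN ray m L t0)).card : ℝ)
      ≤ (((T.image (Tc334.cell4 (Tc334.csR ray m.sg m.R m.s0) (1 / (32 * L)))).card *
        (T.image fun t => ⌊(Tc334.csR ray m.sg m.R m.s0).N t0 t / (1 / 8)⌋).card : ℕ) : ℝ) := by
        exact_mod_cast hc
    _ = ((T.image (Tc334.cell4 (Tc334.csR ray m.sg m.R m.s0) (1 / (32 * L)))).card : ℝ) *
        ((T.image fun t => ⌊(Tc334.csR ray m.sg m.R m.s0).N t0 t / (1 / 8)⌋).card : ℝ) := by
        push_cast; ring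
    _ ≤ (130 * L ^ 2) ^ 4 * (130 * L ^ 2) := by
        refine mul_le_mul (c1.trans (pow_le_pow_left₀ e0 e1 4)) (c2.trans e2) (Nat.cast_nonneg _)
          (by positivity)

open Classical in
/-- **NUMBER**: rays in a dilate of the member with values `≤ κ s1 R`. -/
theorem number_dil (h : AdmL ρ i J a m) {L κ q N0 : ℝ} (hL : 1 ≤ L) (hκ : 1 ≤ κ) (hq : 0 ≤ q)
    (hN0 : 0 ≤ N0) (ray : ℕ → LRay) (T : Finset ℕ) (hT : ∀ t ∈ T, Dil L κ m (ray t))
    (hD : ∀ (k a1 : ℕ) (m1 : Mem), a1 + k = a 1 → AdmL ρ i J ![a 0, a1] m1 →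
      ((T.filter fun t => ray t ∈ m1.rays 0).card : ℝ) ≤ N0 * (2 : ℝ) ^ ((1 + q) * k)) :
    (T.card : ℝ) ≤ (130 * L ^ 2) ^ 5 * (N0 * (100 * κ) ^ (1 + q)) := by
  have hR := h.ok.hR
  have hsg := sg_pos h.ok
  have hs1 := h.ok.hs1
  rcases T.eq_empty_or_nonempty with rfl | ⟨t0, ht0⟩
  · rw [card_empty, Nat.cast_zero]
    have : 0 ≤ (100 * κ) ^ (1 + q) := by positivity
    positivity
  have hcl : ∀ t ∈ T, ((T.filter fun t' => labN ray m L t0 t' = labN ray m L t0 t).card : ℝ) ≤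
      N0 * (100 * κ) ^ (1 + q) := by
    intro t ht
    rcases le_or_gt (100 * (κ * m.s1)) m.sg with hc | hc
    · -- fat slab
      obtain ⟨k, hk1, hk2⟩ := exists_dyadic (θ := 1 / 2) (y := κ) (by norm_num) (by linarith)
      have hk3 : κ ≤ 2 ^ k := by
        rw [pow_succ] at hk2; linarith
      have hk4 : (2:ℝ) ^ k ≤ 2 * κ := by linarith
      have hks : m.s1 * 2 ^ k ≤ m.sg := by
        have := mul_le_mul_of_nonneg_left hk4 hs1.le
        have : 0 < κ * m.s1 := by positivity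
        nlinarith
      have hka : k ≤ a 1 := by
        by_contra hcon
        push Not at hcon
        have e1 := h.thin
        have e2 : m.s1 * 2 ^ k * m.R ≤ 1 := by
          have a1 := mul_le_mul_of_nonneg_right (hks.trans h.sg1) hR.le
          have a2 : m.R ≤ 1 := by
            rw [h.hR]; exact pow_le_one₀ (by norm_num) (by norm_num)
          linarith
        have e3 : m.s1 * 2 ^ k * m.R = 2 ^ k * (1 / 2 : ℝ) ^ (a 1) := by rw [← e1]; ring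
        have e4 : (2:ℝ) ^ (a 1) * (1 / 2 : ℝ) ^ (a 1) = 1 := by rw [← mul_pow]; norm_num
        have e5 : (2:ℝ) ^ (a 1) < 2 ^ k := pow_lt_pow_right₀ (by norm_num) hcon
        have e6 : (0:ℝ) < (1 / 2 : ℝ) ^ (a 1) := by positivity
        nlinarith
      have hadm := fat_adm (r := ray t) h (k := k) (a1 := a 1 - k) (by omega) hks hc (hT t ht).v
      have h1 := hD k (a 1 - k) _ (by omega) hadm
      have h2 : (T.filter fun t' => labN ray m L t0 t' = labN ray m L t0 t).card ≤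
          (T.filter fun t' => ray t' ∈ (fat m k (ray t)).rays 0).card := by
        refine card_le_card fun t' ht' => ?_
        rw [mem_filter] at ht' ⊢
        exact ⟨ht'.1, fat_ray hR hs1 hk3
          (lab_near hR hsg hL (hT t0 ht0) (hT t ht) (hT t' ht'.1) ht'.2)⟩
      refine le_trans (by exact_mod_cast h2) (h1.trans (mul_le_mul_of_nonneg_left ?_ hN0))
      have e1 : (2 : ℝ) ^ ((1 + q) * (k : ℝ)) = ((2 : ℝ) ^ k) ^ (1 + q) := by
        rw [← Real.rpow_natCast, ← Real.rpow_mul (by norm_num)]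
        congr 1
        ring
      rw [e1]
      exact Real.rpow_le_rpow (by positivity) (by linarith) (by linarith)
    · -- the whole box
      have hadm := bx_adm h (ray t)
      have hle : a 0 ≤ a 1 := by
        by_contra hcon
        push Not at hcon
        have e1 : m.s1 * m.R ≤ m.sg * m.R := mul_le_mul_of_nonneg_right h.ok.hsg hR.le
        rw [h.thin, h.wide] at e1
        have e2 : (1 / 2 : ℝ) ^ (a 0) < (1 / 2 : ℝ) ^ (a 1) :=
          pow_lt_pow_right_of_lt_one₀ (by norm_num) (by norm_num) hcon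
        linarith
      have h1 := hD (a 1 - a 0) (a 0) _ (by omega) hadm
      have h2 : (T.filter fun t' => labN ray m L t0 t' = labN ray m L t0 t).card ≤
          (T.filter fun t' => ray t' ∈ (bx m (ray t)).rays 0).card := by
        refine card_le_card fun t' ht' => ?_
        rw [mem_filter] at ht' ⊢
        exact ⟨ht'.1, bx_ray hR hsg
          (lab_near hR hsg hL (hT t0 ht0) (hT t ht) (hT t' ht'.1) ht'.2)⟩
      refine le_trans (by exact_mod_cast h2) (h1.trans (mul_le_mul_of_nonneg_left ?_ hN0))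
      have e1 : (2 : ℝ) ^ ((1 + q) * ((a 1 - a 0 : ℕ) : ℝ)) =
          ((2 : ℝ) ^ (a 1 - a 0)) ^ (1 + q) := by
        rw [← Real.rpow_natCast, ← Real.rpow_mul (by norm_num)]
        congr 1
        ring
      rw [e1]
      refine Real.rpow_le_rpow (by positivity) ?_ (by linarith)
      have e2 : (2 : ℝ) ^ (a 1 - a 0) * (m.s1 * m.R) = m.sg * m.R := by
        rw [h.thin, h.wide]
        have e3 : a 1 = (a 1 - a 0) + a 0 := by omega
        conv_lhs => rw [e3, Nat.add_sub_cancel, pow_add, ← mul_assoc, ← mul_pow]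
        norm_num
      have e4 : (2 : ℝ) ^ (a 1 - a 0) * m.s1 = m.sg := by
        have : ((2 : ℝ) ^ (a 1 - a 0) * m.s1) * m.R = m.sg * m.R := by rw [← e2]; ring
        exact mul_right_cancel₀ hR.ne' this
      have : (2 : ℝ) ^ (a 1 - a 0) * m.s1 ≤ 100 * κ * m.s1 := by rw [e4]; linarith
      exact le_of_mul_le_mul_right this hs1
  have h1 := Tc334.card_le_cells T (labN ray m L t0) _ hcl
  have h2 := lab_card hR hsg hL T hT ht0
  have h3 : 0 ≤ N0 * (100 * κ) ^ (1 + q) := by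
    have : 0 ≤ (100 * κ) ^ (1 + q) := by positivity
    positivity
  refine h1.trans ?_
  have h4 := mul_le_mul_of_nonneg_right h2 h3
  refine h4.trans (le_of_eq ?_)
  ring

open Classical in
/-- **NUMBER for two levels**: the rays of the members `m'` which meet `m` with discrepancy at most
`2X`. -/
theorem number_mem (h : AdmL ρ i J a m) {Λ X q N0 : ℝ} (hΛ : 1 ≤ Λ) (hX : 1 ≤ X) (hq : 0 ≤ q)
    (hq1 : q ≤ 1) (hN0 : 0 ≤ N0) (ray : ℕ → LRay) (T : Finset ℕ)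
    (hT : ∀ t ∈ T, ∃ m' : Mem, m'.Ok kM0 0 ∧ Rat Λ m m' ∧ Dd m m' ≤ 2 * X ∧
      (∃ r0, r0 ∈ m.rays 0 ∧ r0 ∈ m'.rays 0) ∧ ray t ∈ m'.rays 0)
    (hD : ∀ (k a1 : ℕ) (m1 : Mem), a1 + k = a 1 → AdmL ρ i J ![a 0, a1] m1 →
      ((T.filter fun t => ray t ∈ m1.rays 0).card : ℝ) ≤ N0 * (2 : ℝ) ^ ((1 + q) * k)) :
    (T.card : ℝ) ≤ 10 ^ 40 * Λ ^ 16 * N0 * X ^ (1 + q) := by
  have hΛ0 : 0 < Λ := by linarith
  have hX0 : 0 < X := by linarith
  have h1 := number_dil h (L := 5 * Λ) (κ := 700 * Λ ^ 3 * X) (by linarith) (by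
      have : 1 ≤ Λ ^ 3 := one_le_pow₀ hΛ
      nlinarith) hq hN0 ray T (fun t ht => by
      obtain ⟨m', h', hρ, hd, ⟨r0, h0, h0'⟩, hr⟩ := hT t ht
      exact dil_of h.ok h' hρ hX hd h0 h0' hr) hD
  refine h1.trans ?_
  have e1 : (100 * (700 * Λ ^ 3 * X)) ^ (1 + q) = (70000 * Λ ^ 3) ^ (1 + q) * X ^ (1 + q) := by
    rw [← Real.mul_rpow (by positivity) hX0.le]
    congr 1
    ring
  have e2 : (70000 * Λ ^ 3) ^ (1 + q) ≤ (70000 * Λ ^ 3) ^ 2 := by
    have hb : 1 ≤ 70000 * Λ ^ 3 := by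
      have : 1 ≤ Λ ^ 3 := one_le_pow₀ hΛ
      linarith
    calc (70000 * Λ ^ 3) ^ (1 + q) ≤ (70000 * Λ ^ 3) ^ (2 : ℝ) :=
          Real.rpow_le_rpow_of_exponent_le hb (by linarith)
      _ = (70000 * Λ ^ 3) ^ 2 := by norm_cast
  have hXq : 0 < X ^ (1 + q) := Real.rpow_pos_of_pos hX0 _
  rw [e1]
  calc (130 * (5 * Λ) ^ 2) ^ 5 * (N0 * ((70000 * Λ ^ 3) ^ (1 + q) * X ^ (1 + q)))
      ≤ (130 * (5 * Λ) ^ 2) ^ 5 * (N0 * ((70000 * Λ ^ 3) ^ 2 * X ^ (1 + q))) := by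
        refine mul_le_mul_of_nonneg_left (mul_le_mul_of_nonneg_left
          (mul_le_mul_of_nonneg_right e2 hXq.le) hN0) (by positivity)
    _ = ((130 * 25) ^ 5 * 70000 ^ 2) * (Λ ^ 16 * N0 * X ^ (1 + q)) := by ring
    _ ≤ 10 ^ 40 * (Λ ^ 16 * N0 * X ^ (1 + q)) :=
        mul_le_mul_of_nonneg_right (by norm_num) (by positivity)
    _ = _ := by ring

end number

end Crest.Agent.R116.Td809
end

-- ▼ part R116/Td5_809
section

/-!
# R116, K side, TILT, part 5 (helper809): `TiltGeo` and `TiltL` for the light-ray geometry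

* `ValD G r q q'` : the members of resolution `r n` whose width exponents are at most the thin exponent
  of an admissible test set over the same cell are admissible (true for all `AdmL` members and for
  helper794's / 635's cut classes); the size function decreases by
  `2^-(3+q)` per dyadic step of the aperture and increases at most by `2^(1+q')` per step of the
  thickness.
* `ev_rat` : the ratios of apertures, thicknesses and lengths of the marks of two levels.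
* `tiltGeo` : `TiltGeo` with the gain `γ = q/2 - q'`.
* **`tiltL`** : helper439's `TiltL`.
-/

set_option autoImplicit false
set_option linter.unusedVariables false

open Finset Filter Topology

namespace Crest.Agent.R116.Td809

open Crest.Agent.R138.Defs (E2)
open Crest.Agent.R138.Ex926 (Base U)
open Crest.Agent.R138.Dp76
open Crest.Agent.R138.Mk163 (zc zl rho alive own Negl)
open Crest.Agent.R136.MkA627
open Crest.Agent.R116.LZg725
open Crest.Agent.R116.Bm903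
open Crest.Agent.R116.KI439
open Crest.Agent.R116.KF439
open Crest.Agent.R138.TiltU51 (ev_const)

/-- sizes of the light-ray geometry. -/
structure ValD (G : Geo SL (Fin 2)) (r : ℕ → ℝ) (q q' : ℝ) : Prop where
  adm : ∀ n i J (s s' : SL), G.adm n i J s → AdmL (r n) i J s'.1 s'.2 →
    (∀ j, s'.1 j ≤ s.1 1) → G.adm n i J s'
  nar : ∀ n i J (s : SL) (k : ℕ) (m1 : Mem), G.val n i J (![s.1 0 + k, s.1 1], m1) ≤
    (2 : ℝ) ^ (-(3 + q) * (k : ℝ)) * G.val n i J s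
  thi : ∀ n i J (s : SL) (k a1 : ℕ) (m1 : Mem), a1 + k = s.1 1 →
    G.val n i J (![s.1 0, a1], m1) ≤ (2 : ℝ) ^ ((1 + q') * (k : ℝ)) * G.val n i J s

/-- the thin exponent dominates the wide one. -/
theorem adm_exp {ρ : ℝ} {i : ℕ} {J : ℤ} {a : Fin 2 → ℕ} {m : Mem} (h : AdmL ρ i J a m) :
    a 0 ≤ a 1 := by
  by_contra hcon
  push Not at hcon
  have e1 : m.s1 * m.R ≤ m.sg * m.R := mul_le_mul_of_nonneg_right h.ok.hsg h.ok.hR.le
  rw [h.thin, h.wide] at e1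
  have e2 : (1 / 2 : ℝ) ^ (a 0) < (1 / 2 : ℝ) ^ (a 1) :=
    pow_lt_pow_right_of_lt_one₀ (by norm_num) (by norm_num) hcon
  linarith

/-- exponent bound from a limit. -/
theorem ev_le_of_lim {B : Base} {X : ℕ → ℝ} {x t : ℝ} (hp : ∀ᶠ n in (U : Filter ℕ), 0 < X n)
    (h : Tendsto (fun n => Real.log (X n) / B.L n) U (𝓝 x)) (hx : x < t) :
    ∀ᶠ n in (U : Filter ℕ), X n ≤ B.d n ^ (-t) := by
  filter_upwards [hp, h.eventually (gt_mem_nhds hx)] with n hn h1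
  have hL := B.L_pos n
  rw [div_lt_iff₀ hL] at h1
  have e : B.d n ^ (-t) = Real.exp (t * B.L n) := by
    rw [Real.rpow_def_of_pos (B.pos n)]
    unfold Base.L
    congr 1
    ring
  rw [e, ← Real.log_le_iff_le_exp hn]
  exact h1.le

section

variable {B : Base} {I : ℕ → Finset (ℕ × ℝ)} {G : Geo SL (Fin 2)} {lev : ℕ → ℚ → ℕ}
    {A : ℕ → ℝ} {c Λ : ℝ → ℝ} {τ : Fin 2 → ℝ → ℝ} {f : ℕ → ℚ → ℕ → ℤ → ℕ} {b : ℕ → ℚ → ℕ → SL}
    {vm : ℕ → ℚ → ℝ} {w : Fin 2 → ℕ → ℚ → ℝ} {L : ℕ → ℕ → LRay} {r : ℕ → ℝ}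

/-- ratio of the relative widths of two levels. -/
theorem ev_ratio (h : MkA B I G lev A c Λ τ f b vm w) (j : Fin 2) {u v : ℚ} (hu : 0 ≤ u)
    (hu1 : u ≤ 1) (hv : 0 ≤ v) (hv1 : v ≤ 1) {t : ℝ} (ht : τ j u - τ j v < t) :
    ∀ᶠ n in (U : Filter ℕ), w j n v / rho (lev n v) ≤ B.d n ^ (-t) * (w j n u / rho (lev n u)) := by
  have hp : ∀ᶠ n in (U : Filter ℕ), 0 < w j n u ∧ 0 < w j n v ∧ 0 < w j n 1 :=
    (h.wpos j u hu hu1).and ((h.wpos j v hv hv1).and (h.wpos j 1 zero_le_one le_rfl))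
  have hlim : Tendsto (fun n => Real.log ((w j n v / rho (lev n v)) / (w j n u / rho (lev n u))) /
      B.L n) U (𝓝 (τ j u - τ j v)) := by
    refine ((h.tau j u hu hu1).sub (h.tau j v hv hv1)).congr' ?_
    filter_upwards [hp] with n hn
    obtain ⟨h1, h2, h3⟩ := hn
    have hu0 := rho_pos' (lev n u)
    have hv0 := rho_pos' (lev n v)
    have h10 := rho_pos' (lev n 1)
    rw [← sub_div, ← Real.log_div (by positivity) (by positivity)]
    congr 2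
    field_simp
  have h1 := ev_le_of_lim (B := B) (hp.mono fun n hn => by
    obtain ⟨h1, h2, h3⟩ := hn
    have hu0 := rho_pos' (lev n u)
    have hv0 := rho_pos' (lev n v)
    exact div_pos (div_pos h2 hv0) (div_pos h1 hu0)) hlim ht
  filter_upwards [h1, hp] with n hn hpn
  have hu0 := rho_pos' (lev n u)
  have : 0 < w j n u / rho (lev n u) := div_pos hpn.1 hu0
  rwa [div_le_iff₀ this] at hn

theorem zc_half (i : ℕ) (z : ℝ) :
    |z - (((zc i z : ℤ) : ℝ) + 1 / 2) * (1 / 2 : ℝ) ^ i| ≤ (1 / 2 : ℝ) ^ i / 2 := by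
  have h1 := Int.floor_le ((2 : ℝ) ^ i * z)
  have h2 := Int.lt_floor_add_one ((2 : ℝ) ^ i * z)
  have hp : (0 : ℝ) < (1 / 2 : ℝ) ^ i := by positivity
  have e : (1 / 2 : ℝ) ^ i * (2 : ℝ) ^ i = 1 := by
    rw [← mul_pow]; norm_num
  have e1 : z - (((zc i z : ℤ) : ℝ) + 1 / 2) * (1 / 2 : ℝ) ^ i =
      (1 / 2 : ℝ) ^ i * ((2 : ℝ) ^ i * z - (((zc i z : ℤ) : ℝ) + 1 / 2)) := by
    rw [mul_sub, ← mul_assoc, e]; ring
  rw [e1, abs_mul, abs_of_pos hp, show (1 / 2 : ℝ) ^ i / 2 = (1 / 2 : ℝ) ^ i * (1 / 2) by ring]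
  refine mul_le_mul_of_nonneg_left ?_ hp.le
  unfold zc
  rw [abs_le]
  constructor <;> linarith

/-- the loss factor. -/
noncomputable def lo (B : Base) (K η : ℝ) (u v : ℚ) (n : ℕ) : ℝ :=
  B.d n ^ (-(K * ((v : ℝ) - u)) - η)

/-- **ratios of two marks.** -/
theorem ev_rat (h : MkA B I G lev A c Λ τ f b vm w) (hG : IsL G L r) {Kt : ℝ} (hK1 : 1 ≤ Kt)
    (ht : ∀ j, ∀ u v : ℚ, 0 ≤ u → u ≤ v → v ≤ 1 → |τ j u - τ j v| ≤ Kt * ((v : ℝ) - u))
    {u v : ℚ} (hu : 0 ≤ u) (huv : u < v) (hv : v ≤ 1) {η : ℝ} (hη : 0 < η) :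
    ∀ᶠ n in (U : Filter ℕ), 1 ≤ lo B Kt η u v n ∧ lev n u ≤ lev n v ∧
      rho (lev n u) ≤ lo B Kt η u v n * rho (lev n v) ∧
      ∀ (V V' : ℝ) (J J' : ℤ), (∃ z : ℝ, zc (lev n u) z = J ∧ zc (lev n v) z = J') →
      ∀ s s' : SL, Cls G n (lev n u) J V (fun k => w k n u) s →
        Cls G n (lev n v) J' V' (fun k => w k n v) s' → Rat (lo B Kt η u v n) s.2 s'.2 := by
  have hu1 : u ≤ 1 := huv.le.trans hv
  have hv0 : 0 ≤ v := hu.trans huv.le
  have huvR : (u : ℝ) < v := by exact_mod_cast huv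
  have hlt : ∀ j, τ j u - τ j v < Kt * ((v : ℝ) - u) + η := fun j => by
    have := (abs_le.1 (ht j u v hu huv.le hv)).2
    linarith
  have hlt' : ∀ j, τ j v - τ j u < Kt * ((v : ℝ) - u) + η := fun j => by
    have := (abs_le.1 (ht j u v hu huv.le hv)).1
    linarith
  have h01 := Filter.eventually_all.2 fun j => ev_ratio h j hu hu1 hv0 hv (hlt j)
  have h02 := Filter.eventually_all.2 fun j => ev_ratio h j hv0 hv hu hu1 (hlt' j)
  have h03 := ev_R h hu huv.le hv hη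
  filter_upwards [h01, h02, h03] with n h1 h2 h3
  have hlo : lo B Kt η u v n = B.d n ^ (-(Kt * ((v : ℝ) - u) + η)) := by
    unfold lo; congr 1; ring
  have hone : 1 ≤ lo B Kt η u v n := by
    rw [hlo]
    refine Real.one_le_rpow_of_pos_of_le_one_of_nonpos (B.pos n) (B.lt n).le ?_
    have : 0 ≤ Kt * ((v : ℝ) - u) := mul_nonneg (by linarith) (by linarith)
    linarith
  have hrr : rho (lev n u) ≤ lo B Kt η u v n * rho (lev n v) := by
    have e1 : rho (lev n u) = 2 ^ (lev n v - lev n u) * rho (lev n v) := by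
      rw [rho_eq, rho_eq]
      have e2 : lev n v = (lev n v - lev n u) + lev n u := by omega
      conv_rhs => rw [e2, Nat.add_sub_cancel, pow_add, ← mul_assoc, ← mul_pow]
      norm_num
    rw [e1]
    refine mul_le_mul_of_nonneg_right (h3.2.trans ?_) (rho_pos' _).le
    rw [hlo]
    apply danti
    have : (1 : ℝ) * ((v : ℝ) - u) ≤ Kt * ((v : ℝ) - u) :=
      mul_le_mul_of_nonneg_right hK1 (by linarith)
    linarith
  refine ⟨hone, h3.1, hrr, fun V V' J J' hz s s' hs hs' => ?_⟩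
  obtain ⟨z, hzJ, hzJ'⟩ := hz
  have a1 := hG.adm _ _ _ _ hs.1
  have a2 := hG.adm _ _ _ _ hs'.1
  have hwu : ∀ j, (1 / 2 : ℝ) ^ (s.1 j) = w j n u := fun j => by
    have := hs.2.2 j
    rwa [hG.wid] at this
  have hwv : ∀ j, (1 / 2 : ℝ) ^ (s'.1 j) = w j n v := fun j => by
    have := hs'.2.2 j
    rwa [hG.wid] at this
  have hR : s.2.R = rho (lev n u) := by rw [rho_eq]; exact a1.hR
  have hR' : s'.2.R = rho (lev n v) := by rw [rho_eq]; exact a2.hR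
  have hg : s.2.sg = w 0 n u / rho (lev n u) := by
    rw [eq_div_iff (rho_pos' _).ne', ← hR, ← hwu 0]; exact a1.wide
  have hg' : s'.2.sg = w 0 n v / rho (lev n v) := by
    rw [eq_div_iff (rho_pos' _).ne', ← hR', ← hwv 0]; exact a2.wide
  have ht : s.2.s1 = w 1 n u / rho (lev n u) := by
    rw [eq_div_iff (rho_pos' _).ne', ← hR, ← hwu 1]; exact a1.thin
  have ht' : s'.2.s1 = w 1 n v / rho (lev n v) := by
    rw [eq_div_iff (rho_pos' _).ne', ← hR', ← hwv 1]; exact a2.thin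
  have hRR : rho (lev n v) ≤ rho (lev n u) := by
    rw [rho_eq, rho_eq]
    exact pow_le_pow_of_le_one (by norm_num) (by norm_num) h3.1
  refine ⟨hone, ?_, ?_, ?_, ?_, ?_, ?_, ?_⟩
  · rw [a1.hs0, a2.hs0, a1.hR, ← hzJ, ← hzJ']
    have b1 := zc_half (lev n u) z
    have b2 := zc_half (lev n v) z
    have b3 : (1 / 2 : ℝ) ^ (lev n v) ≤ (1 / 2 : ℝ) ^ (lev n u) := by
      rw [rho_eq, rho_eq] at hRR; exact hRR
    have e : (((zc (lev n v) z : ℤ) : ℝ) + 1 / 2) * (1 / 2 : ℝ) ^ (lev n v) -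
        (((zc (lev n u) z : ℤ) : ℝ) + 1 / 2) * (1 / 2 : ℝ) ^ (lev n u) =
        (z - (((zc (lev n u) z : ℤ) : ℝ) + 1 / 2) * (1 / 2 : ℝ) ^ (lev n u)) -
        (z - (((zc (lev n v) z : ℤ) : ℝ) + 1 / 2) * (1 / 2 : ℝ) ^ (lev n v)) := by ring
    rw [e]
    refine (abs_sub _ _).trans ?_
    linarith
  · rw [hR, hR']; exact hRR
  · rw [hR, hR']; exact hrr
  · rw [hg, hg', hlo]; exact h2 0
  · rw [hg, hg', hlo]; exact h1 0
  · rw [ht, ht', hlo]; exact h2 1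
  · rw [ht, ht', hlo]; exact h1 1

theorem lo_pow (K η : ℝ) (u v : ℚ) (n p : ℕ) :
    lo B K η u v n ^ p = B.d n ^ (-((p : ℝ) * K * ((v : ℝ) - u)) - p * η) := by
  unfold lo
  rw [← Real.rpow_natCast, ← Real.rpow_mul (B.pos n).le]
  congr 1
  ring

open Classical in
/-- SHARE in counting form. -/
theorem share_cnt (hG : IsL G L r) {q q' X Lo : ℝ} (hV : ValD G r q q') (hq0 : 0 ≤ q) (hq2 : q ≤ 2)
    {n i i' : ℕ} {J J' : ℤ} {s s' : SL} (hs : G.adm n i J s) (hs' : G.adm n i' J' s')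
    (hρ : Rat Lo s.2 s'.2) (hX0 : 0 < X) (hX : X ≤ Dd s.2 s'.2) (hV0 : 0 ≤ G.val n i J s)
    (T : Finset ℕ) (hT : ∀ t ∈ T, G.mem n i J s t ∧ G.mem n i' J' s' t) :
    Cnt G n i J T (10 ^ 200 * Lo ^ 48 * G.val n i J s * X ^ (-(1 + q / 2))) := by
  intro M hM hd
  have as := hG.adm _ _ _ _ hs
  have as' := hG.adm _ _ _ _ hs'
  have hD0 : (T.card : ℝ) ≤ M * G.val n i J s := by
    have h1 := hd s hs
    refine le_trans ?_ h1
    exact Nat.cast_le.2 (card_le_card fun t ht => mem_filter.2 ⟨ht, (hT t ht).1⟩)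
  have hD : ∀ (k : ℕ) (m1 : Mem), AdmL (r n) i J ![s.1 0 + k, s.1 1] m1 →
      ((T.filter fun t => L n t ∈ m1.rays 0).card : ℝ) ≤
        M * G.val n i J s * (2 : ℝ) ^ (-(3 + q) * (k : ℝ)) := by
    intro k m1 hm1
    have h0 : G.adm n i J (![s.1 0 + k, s.1 1], m1) :=
      hV.adm n i J s (![s.1 0 + k, s.1 1], m1) hs hm1 (by
        have h9 := adm_exp hm1
        intro j
        fin_cases j
        · exact h9
        · exact le_rfl)
    have h1 := hd (![s.1 0 + k, s.1 1], m1) h0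
    have h2 := hV.nar n i J s k m1
    have h3 : (T.filter fun t => L n t ∈ m1.rays 0).card ≤
        (T.filter fun t => G.mem n i J (![s.1 0 + k, s.1 1], m1) t).card := by
      refine card_le_card fun t ht => ?_
      rw [mem_filter] at ht ⊢
      exact ⟨ht.1, (hG.mem n i J (![s.1 0 + k, s.1 1], m1) t).2 ht.2⟩
    have h4 := mul_le_mul_of_nonneg_left h2 hM
    have h5 : ((T.filter fun t => L n t ∈ m1.rays 0).card : ℝ) ≤
        ((T.filter fun t => G.mem n i J (![s.1 0 + k, s.1 1], m1) t).card : ℝ) := Nat.cast_le.2 h3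
    calc ((T.filter fun t => L n t ∈ m1.rays 0).card : ℝ)
        ≤ M * ((2 : ℝ) ^ (-(3 + q) * (k : ℝ)) * G.val n i J s) := h5.trans (h1.trans h4)
      _ = _ := by ring
  have key := share_mem as as' hρ hq0 hq2 hX0 hX (N0 := M * G.val n i J s)
    (mul_nonneg hM hV0) (L n) T
    (fun t ht => ⟨(hG.mem _ _ _ _ _).1 (hT t ht).1, (hG.mem _ _ _ _ _).1 (hT t ht).2⟩) hD0 hD
  refine key.trans (le_of_eq ?_)
  generalize (10 : ℝ) ^ 200 = K0
  ring

open Classical in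
/-- NUMBER in counting form. -/
theorem number_cnt (hG : IsL G L r) {q q' X Lo : ℝ} (hV : ValD G r q q') (hq0 : 0 ≤ q')
    (hq1 : q' ≤ 1) {n i : ℕ} {J : ℤ} {s : SL} (hs : G.adm n i J s)
    (hone : 1 ≤ Lo) (hX : 1 ≤ X) (hV0 : 0 ≤ G.val n i J s)
    (T : Finset ℕ) (hT : ∀ t ∈ T, ∃ m' : Mem, m'.Ok kM0 0 ∧ Rat Lo s.2 m' ∧ Dd s.2 m' ≤ 2 * X ∧
      (∃ r0, r0 ∈ s.2.rays 0 ∧ r0 ∈ m'.rays 0) ∧ L n t ∈ m'.rays 0) :
    Cnt G n i J T (10 ^ 40 * Lo ^ 16 * G.val n i J s * X ^ (1 + q')) := by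
  intro M hM hd
  have as := hG.adm _ _ _ _ hs
  have hD : ∀ (k a1 : ℕ) (m1 : Mem), a1 + k = s.1 1 → AdmL (r n) i J ![s.1 0, a1] m1 →
      ((T.filter fun t => L n t ∈ m1.rays 0).card : ℝ) ≤
        M * G.val n i J s * (2 : ℝ) ^ ((1 + q') * (k : ℝ)) := by
    intro k a1 m1 hk hm1
    have h0 : G.adm n i J (![s.1 0, a1], m1) :=
      hV.adm n i J s (![s.1 0, a1], m1) hs hm1 (by
        have h9 : s.1 0 ≤ a1 := adm_exp hm1
        have h8 : a1 ≤ s.1 1 := by omega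
        intro j
        fin_cases j
        · exact h9.trans h8
        · exact h8)
    have h1 := hd (![s.1 0, a1], m1) h0
    have h2 := hV.thi n i J s k a1 m1 hk
    have h3 : (T.filter fun t => L n t ∈ m1.rays 0).card ≤
        (T.filter fun t => G.mem n i J (![s.1 0, a1], m1) t).card := by
      refine card_le_card fun t ht => ?_
      rw [mem_filter] at ht ⊢
      exact ⟨ht.1, (hG.mem n i J (![s.1 0, a1], m1) t).2 ht.2⟩
    have h4 := mul_le_mul_of_nonneg_left h2 hM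
    have h5 : ((T.filter fun t => L n t ∈ m1.rays 0).card : ℝ) ≤
        ((T.filter fun t => G.mem n i J (![s.1 0, a1], m1) t).card : ℝ) := Nat.cast_le.2 h3
    calc ((T.filter fun t => L n t ∈ m1.rays 0).card : ℝ)
        ≤ M * ((2 : ℝ) ^ ((1 + q') * (k : ℝ)) * G.val n i J s) := h5.trans (h1.trans h4)
      _ = _ := by ring
  have key := number_mem (ρ := r n) as hone hX hq0 hq1 (N0 := M * G.val n i J s)
    (mul_nonneg hM hV0) (L n) T hT hD
  refine key.trans (le_of_eq ?_)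
  generalize (10 : ℝ) ^ 40 = K0
  ring

/-- **`TiltGeo` for the light-ray geometry.** -/
theorem tiltGeo (h : MkA B I G lev A c Λ τ f b vm w) (hG : IsL G L r) {q q' Kt Kv : ℝ}
    (hV : ValD G r q q') (hq0 : 0 ≤ q) (hq2 : q ≤ 2) (hq'0 : 0 ≤ q') (hq'1 : q' ≤ 1)
    (hK1 : 1 ≤ Kt)
    (ht : ∀ j, ∀ u v : ℚ, 0 ≤ u → u ≤ v → v ≤ 1 → |τ j u - τ j v| ≤ Kt * ((v : ℝ) - u))
    (hvm : ∀ u v : ℚ, 0 ≤ u → u < v → v ≤ 1 → ∀ η : ℝ, 0 < η → ∀ᶠ n in (U : Filter ℕ),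
      vm n u ≤ B.d n ^ (-(Kv * ((v : ℝ) - u)) - η) * vm n v) :
    TiltGeo B G lev vm w (fun _ _ _ _ _ s s' => Dd s.2 s'.2) (q / 2 - q') (64 * Kt + Kv) := by
  intro u v hu huv hv η hη
  have hu1 : u ≤ 1 := huv.le.trans hv
  have hv0 : 0 ≤ v := hu.trans huv.le
  have huvR : (u : ℝ) < v := by exact_mod_cast huv
  set η1 : ℝ := η / 100 with hη1
  have hη10 : 0 < η1 := by positivity
  filter_upwards [ev_rat h hG hK1 ht hu huv hv hη10, hvm u v hu huv hv η1 hη10,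
    h.vpos u hu hu1, h.vpos v hv0 hv, ev_const B (10 ^ 240) hη10] with n hrat hvu pu pv k1
  obtain ⟨hone, hij, hrr, hrat⟩ := hrat
  have e2 : lo B Kt η1 u v n ^ 64 = B.d n ^ (-(64 * Kt * ((v : ℝ) - u)) - 64 * η1) := by
    rw [lo_pow]
    norm_num
  generalize lo B Kt η1 u v n = Lo at hone hrr hrat e2
  have hLo0 : 0 < Lo := by linarith
  refine ⟨fun X => 10 ^ 40 * Lo ^ 16 * vm n u * X ^ (1 + q'),
    fun X => 10 ^ 200 * Lo ^ 48 * vm n u * X ^ (-(1 + q / 2)), ?_, ?_⟩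
  · intro X hX
    have hX0 : 0 < X := by linarith
    have p1 := Real.rpow_pos_of_pos hX0 (1 + q')
    have p2 := Real.rpow_pos_of_pos hX0 (-(1 + q / 2))
    have e1 : X ^ (1 + q') * X ^ (-(1 + q / 2)) = X ^ (-(q / 2 - q')) := by
      rw [← Real.rpow_add hX0]; congr 1; ring
    have p3 := Real.rpow_pos_of_pos hX0 (-(q / 2 - q'))
    have K240 : (10 : ℝ) ^ 240 = 10 ^ 40 * 10 ^ 200 := by rw [← pow_add]
    have K40 : (0 : ℝ) < 10 ^ 40 := by positivity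
    have K200 : (0 : ℝ) < 10 ^ 200 := by positivity
    rw [K240] at k1
    generalize (10 : ℝ) ^ 40 = K1 at k1 K40 ⊢
    generalize (10 : ℝ) ^ 200 = K2 at k1 K200 ⊢
    refine ⟨by positivity, by positivity, ?_⟩
    have e3 : K1 * K2 * Lo ^ 64 * B.d n ^ (-(Kv * ((v : ℝ) - u)) - η1) ≤
        B.d n ^ (-((64 * Kt + Kv) * ((v : ℝ) - u)) - η) := by
      rw [e2]
      calc K1 * K2 * B.d n ^ (-(64 * Kt * ((v : ℝ) - u)) - 64 * η1) *
            B.d n ^ (-(Kv * ((v : ℝ) - u)) - η1)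
          ≤ B.d n ^ (-η1) * B.d n ^ (-(64 * Kt * ((v : ℝ) - u)) - 64 * η1) *
            B.d n ^ (-(Kv * ((v : ℝ) - u)) - η1) := by
            have q1 := dpos B n (-(64 * Kt * ((v : ℝ) - u)) - 64 * η1)
            have q2 := dpos B n (-(Kv * ((v : ℝ) - u)) - η1)
            exact mul_le_mul_of_nonneg_right (mul_le_mul_of_nonneg_right k1 q1.le) q2.le
        _ = B.d n ^ (-η1 + (-(64 * Kt * ((v : ℝ) - u)) - 64 * η1) +
            (-(Kv * ((v : ℝ) - u)) - η1)) := by rw [dadd, dadd]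
        _ ≤ _ := by
            apply danti
            linarith
    calc K1 * Lo ^ 16 * vm n u * X ^ (1 + q') * (K2 * Lo ^ 48 * vm n u * X ^ (-(1 + q / 2)))
        = K1 * K2 * Lo ^ 64 * (X ^ (1 + q') * X ^ (-(1 + q / 2))) * (vm n u * vm n u) := by
          ring
      _ = K1 * K2 * Lo ^ 64 * X ^ (-(q / 2 - q')) * (vm n u * vm n u) := by rw [e1]
      _ ≤ K1 * K2 * Lo ^ 64 * X ^ (-(q / 2 - q')) *
          (vm n u * (B.d n ^ (-(Kv * ((v : ℝ) - u)) - η1) * vm n v)) := by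
          refine mul_le_mul_of_nonneg_left (mul_le_mul_of_nonneg_left hvu pu.le) (by positivity)
      _ = (K1 * K2 * Lo ^ 64 * B.d n ^ (-(Kv * ((v : ℝ) - u)) - η1)) *
          (X ^ (-(q / 2 - q')) * (vm n u * vm n v)) := by ring
      _ ≤ B.d n ^ (-((64 * Kt + Kv) * ((v : ℝ) - u)) - η) *
          (X ^ (-(q / 2 - q')) * (vm n u * vm n v)) :=
          mul_le_mul_of_nonneg_right e3 (by positivity)
      _ = _ := by ring
  · intro J J' hz s hs X hX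
    have hX0 : 0 < X := by linarith
    have hval : 0 ≤ G.val n (lev n u) J s := by rw [hs.2.1]; exact pu.le
    constructor
    · intro s' hm T hT
      have key := share_cnt hG hV hq0 hq2 hs.1 hm.1.1 (hrat _ _ J J' hz s s' hs hm.1) hX0
        hm.2.2.1 hval T hT
      rw [hs.2.1] at key
      exact key
    · intro T hT
      have key := number_cnt hG hV hq'0 hq'1 hs.1 hone hX hval T (by
        intro t ht
        obtain ⟨s', hm, hmem⟩ := hT t ht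
        have hρ := hrat _ _ J J' hz s s' hs hm.1
        have as' := hG.adm _ _ _ _ hm.1.1
        obtain ⟨-, ⟨t0, g1, g2⟩, -, g3⟩ := hm
        exact ⟨s'.2, as'.ok, hρ, g3, ⟨L n t0, (hG.mem _ _ _ _ _).1 g1,
          (hG.mem _ _ _ _ _).1 g2⟩, (hG.mem _ _ _ _ _).1 hmem⟩)
      rw [hs.2.1] at key
      exact key

open Classical in
/-- **TILT for the light-ray geometry**: helper439's `TiltL`. -/
theorem tiltL (h : MkA B I G lev A c Λ τ f b vm w) (hG : IsL G L r) {q q' Kt Kv Cc : ℝ}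
    (hV : ValD G r q q') (hq0 : 0 ≤ q) (hq2 : q ≤ 2) (hq'0 : 0 ≤ q') (hq'1 : q' ≤ 1)
    (hqq : q' < q / 2) (hK1 : 1 ≤ Kt) (hKv : 0 ≤ Kv) (hCc : 0 ≤ Cc)
    (ht : ∀ j, ∀ u v : ℚ, 0 ≤ u → u ≤ v → v ≤ 1 → |τ j u - τ j v| ≤ Kt * ((v : ℝ) - u))
    (hc : ∀ u v : ℚ, 0 ≤ u → u ≤ v → v ≤ 1 → c u - c v ≤ Cc * ((v : ℝ) - u))
    (hvm : ∀ u v : ℚ, 0 ≤ u → u < v → v ≤ 1 → ∀ η : ℝ, 0 < η → ∀ᶠ n in (U : Filter ℕ),
      vm n u ≤ B.d n ^ (-(Kv * ((v : ℝ) - u)) - η) * vm n v) :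
    ∃ C : ℝ, 0 ≤ C ∧ TiltL B I L lev f b w C := by
  have hγ : 0 < q / 2 - q' := by linarith
  have hC1 : 0 ≤ 64 * Kt + Kv := by linarith
  have hgeo := tiltGeo h hG hV hq0 hq2 hq'0 hq'1 hK1 ht hvm
  set C : ℝ := (64 * Kt + Kv + Cc + 1) / (q / 2 - q') with hCdef
  have hC : 64 * Kt + Kv + Cc + 1 ≤ C * (q / 2 - q') := by
    rw [hCdef, div_mul_cancel₀ _ hγ.ne']
  have hC0 : 0 ≤ C := div_nonneg (by linarith) hγ.le
  have key := tilt_two h hγ hC1 hCc hc hgeo hC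
  refine ⟨C, hC0, fun u v hu huv hv ε hε => ?_⟩
  have hu1 : u ≤ 1 := huv.le.trans hv
  have hv0 : 0 ≤ v := hu.trans huv.le
  obtain ⟨ξ, hξ, hN⟩ := key u v hu huv hv ε hε
  refine ⟨ξ, hξ, ?_⟩
  filter_upwards [hN, mark_L h hG hv0 hv] with n h1 h2
  refine le_trans (Nat.cast_le.2 (card_le_card fun x hx => ?_)) h1
  rw [mem_filter] at hx ⊢
  refine ⟨hx.1, ?_⟩
  have h3 := h2 x hx.1
  refine le_Dd (m := mkL lev f b n u x) (m' := mkL lev f b n v x) h3.ok h3.ray h3.z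
    (fun σ hσ => ?_)
  have h4 := hx.2 σ hσ
  rw [h3.wide, h3.thin, h3.R]
  exact h4

end

end Crest.Agent.R116.Td809
end

-- ▼ part R116/Td6_809
section

/-!
# R116, K side, TILT, part 6 (helper809): the plug over the `Ψ`-valued light-ray sequence

* `Slp Ψ q q' C` : slopes of the reward (`≥ q` in the aperture, `≤ q'` in the thickness), Lipschitz
  constant `C`; `slp_Psi` : helper635's `Psi`.
* `TD T r` : the class `T` consists of light-ray members of resolution `r`, closed under members over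
  the same cell whose exponents are at most the thin exponent; `td_TSL`, `td_cut`.
* `isL_geoP`, `valD_geoP`, `vm_geoP`.
* **`tiltL_geoP`** : `TiltL` of every marked sequence over `geoP T Ψ mt atop L` (any `mt`, `atop`),
  `TD (T n) (r n)`.
* **`tiltL_Psi`** : the same for `Psi p w μ q`, linear widths `θ_j (1 - v)` and linear `c`.
-/

set_option autoImplicit false
set_option linter.unusedVariables false

open Finset Filter Topology

namespace Crest.Agent.R116.Td809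

open Crest.Agent.R138.Defs (E2)
open Crest.Agent.R138.Ex926 (Base U)
open Crest.Agent.R138.Dp76
open Crest.Agent.R138.Mk163 (zc zl rho alive own Negl)
open Crest.Agent.R138.MkRef627 (mem_alive)
open Crest.Agent.R136.MkA627
open Crest.Agent.R116.LZg725
open Crest.Agent.R116.Bm903
open Crest.Agent.R116.KI439
open Crest.Agent.R116.KF439
open Crest.Agent.R116.Xa794 (TS)
open Crest.Agent.R116.Xc794 (geoP capP rel cut)

/-- slopes of a reward. -/
structure Slp (Ψ : ℝ → (Fin 2 → ℝ) → ℝ) (q q' C : ℝ) : Prop where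
  C0 : 0 ≤ C
  nar : ∀ l x x', x 0 ≤ x' 0 → x' 1 = x 1 → q * (x' 0 - x 0) ≤ Ψ l x' - Ψ l x
  thi : ∀ l x x', x 1 ≤ x' 1 → x' 0 = x 0 → Ψ l x' - Ψ l x ≤ q' * (x' 1 - x 1)
  lip : ∀ l l' x x', |Ψ l' x' - Ψ l x| ≤ C * (|l' - l| + ∑ j, |x' j - x j|)

theorem slp_Psi {p w : Fin 2 → ℝ} {μ q : ℝ} (hw : ∀ j, 0 ≤ w j) (hμ : 0 ≤ μ) (hμ1 : μ ≤ 1)
    (hq : 0 ≤ q) {a a' : ℝ} (ha : a ≤ p 0 - q * w 0 * μ) (ha' : p 1 + q * w 1 ≤ a') :
    ∃ C : ℝ, Slp (Psi635.Psi p w μ q) a a' C := by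
  obtain ⟨C, hC0, hC⟩ := Psi2635.Psi_lip (p := p) hw hμ hμ1 hq
  refine ⟨C, hC0, ?_, ?_, hC⟩
  · intro l x x' h1 h2
    have h3 := (Psi2635.Psi_slope (p := p) hw hμ hq l x x' 0 h1 (by
      intro j hj
      fin_cases j
      · exact absurd rfl hj
      · exact h2)).1
    exact (mul_le_mul_of_nonneg_right ha (sub_nonneg.2 h1)).trans h3
  · intro l x x' h1 h2
    have h3 := (Psi2635.Psi_slope (p := p) hw hμ hq l x x' 1 h1 (by
      intro j hj
      fin_cases j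
      · exact h2
      · exact absurd rfl hj)).2
    exact h3.trans (mul_le_mul_of_nonneg_right ha' (sub_nonneg.2 h1))

/-- light-ray class closed under members of smaller exponents. -/
structure TD (T : TS LRay (Fin 2) Mem) (r : ℝ) : Prop where
  mem : ∀ i J s l, T.mem i J s l ↔ l ∈ s.2.rays 0
  adm : ∀ i J s, T.adm i J s → AdmL r i J s.1 s.2
  vol : ∀ i a, T.vol i a = volL i a
  down : ∀ i J (s s' : SL), T.adm i J s → AdmL r i J s'.1 s'.2 → (∀ j, s'.1 j ≤ s.1 1) →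
    T.adm i J s'


theorem td_cut (K0 R : ℕ) (r : ℝ) : TD (cut K0 R (TSL r)) r where
  mem := fun _ _ _ _ => Iff.rfl
  adm := fun _ _ _ h => h.1
  vol := fun _ _ => rfl
  down := fun i J s s' h h' hj => ⟨h', fun j => by
    have h1 := h.2 1
    have h2 := hj j
    omega⟩

section

variable {T : ℕ → TS LRay (Fin 2) Mem} {Ψ : ℝ → (Fin 2 → ℝ) → ℝ} {mt : ℕ → ℕ}
    {atop : ℕ → Fin 2 → ℕ} {L : ℕ → ℕ → LRay} {r : ℕ → ℝ}

theorem isL_geoP (hT : ∀ n, TD (T n) (r n)) : IsL (geoP T Ψ mt atop L) L r where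
  mem := fun n i J s t => (hT n).mem i J s (L n t)
  adm := fun n i J s h => (hT n).adm i J s h
  wid := fun j s => rfl

theorem val_geoP (hT : ∀ n, TD (T n) (r n)) (n i : ℕ) (J : ℤ) (s : SL) :
    (geoP T Ψ mt atop L).val n i J s =
      volL i s.1 * (2 : ℝ) ^ (-(Ψ ((mt n : ℝ) - i) (rel i s.1 (mt n) (atop n)))) := by
  show capP (T n) Ψ (mt n) (atop n) i s.1 = _
  unfold capP
  rw [(hT n).vol]

theorem valD_geoP (hT : ∀ n, TD (T n) (r n)) {q q' C : ℝ} (hS : Slp Ψ q q' C) :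
    ValD (geoP T Ψ mt atop L) r q q' where
  adm := fun n i J s s' h h' hj => (hT n).down i J s s' h h' hj
  nar := by
    intro n i J s k m1
    rw [val_geoP hT, val_geoP hT]
    have hv : volL i ![s.1 0 + k, s.1 1] = (2 : ℝ) ^ (-(3 * (k : ℝ))) * volL i s.1 := by
      unfold volL
      simp only [Matrix.cons_val_zero, Matrix.cons_val_one]
      have e1 : (2 : ℝ) ^ (-(3 * (k : ℝ))) = (1 / 2 : ℝ) ^ (3 * k) := by
        rw [Real.rpow_neg two_pos.le, one_div, inv_pow]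
        congr 1
        rw [← Real.rpow_natCast]
        push_cast; rfl
      rw [e1, show 3 * (s.1 0 + k) + s.1 1 = 3 * k + (3 * s.1 0 + s.1 1) by ring, pow_add]
      ring
    have h := hS.nar ((mt n : ℝ) - i) (rel i s.1 (mt n) (atop n))
      (rel i ![s.1 0 + k, s.1 1] (mt n) (atop n)) (by simp [rel]) (by simp [rel])
    have hx : rel i ![s.1 0 + k, s.1 1] (mt n) (atop n) 0 - rel i s.1 (mt n) (atop n) 0 = k := by
      simp [rel]
    rw [hx] at h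
    have hvp := volL_pos i s.1
    have hp : 0 < (2 : ℝ) ^ (-(3 * (k : ℝ))) := Real.rpow_pos_of_pos two_pos _
    have h5 : (2 : ℝ) ^ (-(Ψ ((mt n : ℝ) - i) (rel i ![s.1 0 + k, s.1 1] (mt n) (atop n)))) ≤
        (2 : ℝ) ^ (-(q * k)) * (2 : ℝ) ^ (-(Ψ ((mt n : ℝ) - i) (rel i s.1 (mt n) (atop n)))) := by
      rw [← Real.rpow_add two_pos]
      exact Real.rpow_le_rpow_of_exponent_le one_le_two (by linarith)
    have e2 : (2 : ℝ) ^ (-(3 + q) * (k : ℝ)) = (2 : ℝ) ^ (-(3 * (k : ℝ))) * (2 : ℝ) ^ (-(q * k)) := by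
      rw [← Real.rpow_add two_pos]; congr 1; ring
    show volL i ![s.1 0 + k, s.1 1] * _ ≤ _
    rw [hv, e2]
    calc (2 : ℝ) ^ (-(3 * (k : ℝ))) * volL i s.1 *
          (2 : ℝ) ^ (-(Ψ ((mt n : ℝ) - i) (rel i ![s.1 0 + k, s.1 1] (mt n) (atop n))))
        ≤ (2 : ℝ) ^ (-(3 * (k : ℝ))) * volL i s.1 * ((2 : ℝ) ^ (-(q * k)) *
          (2 : ℝ) ^ (-(Ψ ((mt n : ℝ) - i) (rel i s.1 (mt n) (atop n))))) :=
          mul_le_mul_of_nonneg_left h5 (by positivity)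
      _ = _ := by ring
  thi := by
    intro n i J s k a1 m1 hk
    rw [val_geoP hT, val_geoP hT]
    have hv : volL i ![s.1 0, a1] = (2 : ℝ) ^ (k : ℝ) * volL i s.1 := by
      unfold volL
      simp only [Matrix.cons_val_zero, Matrix.cons_val_one]
      rw [← hk, Real.rpow_natCast]
      have e1 : (1 / 2 : ℝ) ^ (3 * s.1 0 + (a1 + k)) =
          (1 / 2 : ℝ) ^ (3 * s.1 0 + a1) * (1 / 2) ^ k := by
        rw [← pow_add]; congr 1; ring
      have e2 : (2 : ℝ) ^ k * (1 / 2) ^ k = 1 := by rw [← mul_pow]; norm_num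
      rw [e1]
      calc (1 / 2 : ℝ) ^ (3 * s.1 0 + a1) * 2 ^ i
          = ((2 : ℝ) ^ k * (1 / 2) ^ k) * ((1 / 2 : ℝ) ^ (3 * s.1 0 + a1) * 2 ^ i) := by
            rw [e2, one_mul]
        _ = _ := by ring
    have h := hS.thi ((mt n : ℝ) - i) (rel i ![s.1 0, a1] (mt n) (atop n))
      (rel i s.1 (mt n) (atop n)) (by
        simp only [rel, Matrix.cons_val_one, Matrix.cons_val_fin_one]
        have : (a1 : ℝ) ≤ s.1 1 := by
          rw [← hk]; push_cast; linarith [Nat.cast_nonneg (α := ℝ) k]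
        linarith) (by simp [rel])
    have hx : rel i s.1 (mt n) (atop n) 1 - rel i ![s.1 0, a1] (mt n) (atop n) 1 = k := by
      simp only [rel, Matrix.cons_val_one, Matrix.cons_val_fin_one]
      rw [← hk]; push_cast; ring
    rw [hx] at h
    have hvp := volL_pos i s.1
    have hp : 0 < (2 : ℝ) ^ (k : ℝ) := Real.rpow_pos_of_pos two_pos _
    have h5 : (2 : ℝ) ^ (-(Ψ ((mt n : ℝ) - i) (rel i ![s.1 0, a1] (mt n) (atop n)))) ≤
        (2 : ℝ) ^ (q' * k) * (2 : ℝ) ^ (-(Ψ ((mt n : ℝ) - i) (rel i s.1 (mt n) (atop n)))) := by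
      rw [← Real.rpow_add two_pos]
      exact Real.rpow_le_rpow_of_exponent_le one_le_two (by linarith)
    have e2 : (2 : ℝ) ^ ((1 + q') * (k : ℝ)) = (2 : ℝ) ^ (k : ℝ) * (2 : ℝ) ^ (q' * k) := by
      rw [← Real.rpow_add two_pos]; congr 1; ring
    show volL i ![s.1 0, a1] * _ ≤ _
    rw [hv, e2]
    calc (2 : ℝ) ^ (k : ℝ) * volL i s.1 *
          (2 : ℝ) ^ (-(Ψ ((mt n : ℝ) - i) (rel i ![s.1 0, a1] (mt n) (atop n))))
        ≤ (2 : ℝ) ^ (k : ℝ) * volL i s.1 * ((2 : ℝ) ^ (q' * k) *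
          (2 : ℝ) ^ (-(Ψ ((mt n : ℝ) - i) (rel i s.1 (mt n) (atop n))))) :=
          mul_le_mul_of_nonneg_left h5 (by positivity)
      _ = _ := by ring

/-- logarithm of a ratio of dyadic numbers. -/
theorem abs_exp_le {x y Lo : ℝ} (hLo : 1 ≤ Lo) {X Y : ℝ} (hX : X = (2 : ℝ) ^ (-x))
    (hY : Y = (2 : ℝ) ^ (-y)) (h1 : X ≤ Lo * Y) (h2 : Y ≤ Lo * X) :
    |x - y| ≤ Real.logb 2 Lo := by
  have hL0 : 0 < Lo := by linarith
  have e : (2 : ℝ) ^ Real.logb 2 Lo = Lo :=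
    Real.rpow_logb two_pos (by norm_num) hL0
  rw [hX, hY] at h1 h2
  rw [← e, ← Real.rpow_add two_pos] at h1 h2
  have g1 := (Real.rpow_le_rpow_left_iff (one_lt_two)).1 h1
  have g2 := (Real.rpow_le_rpow_left_iff (one_lt_two)).1 h2
  rw [abs_le]
  constructor <;> linarith

/-- values of two marks. -/
theorem val_two (hT : ∀ n, TD (T n) (r n)) {q q' C : ℝ} (hS : Slp Ψ q q' C) {n i i' : ℕ}
    {J J' : ℤ} {s s' : SL} (hs : AdmL (r n) i J s.1 s.2) (hs' : AdmL (r n) i' J' s'.1 s'.2)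
    {Lo : ℝ} (hρ : Rat Lo s.2 s'.2) :
    (geoP T Ψ mt atop L).val n i J s ≤ Lo ^ (7 + 3 * C) * (geoP T Ψ mt atop L).val n i' J' s' := by
  have hone := hρ.one
  have hLo0 : 0 < Lo := by linarith
  have hR := hs.ok.hR
  have hR' := hs'.ok.hR
  have hg := sg_pos hs.ok
  have hg' := sg_pos hs'.ok
  have h1 := hs.ok.hs1
  have h1' := hs'.ok.hs1
  rw [val_geoP hT, val_geoP hT]
  have hvol : volL i s.1 ≤ Lo ^ 7 * volL i' s'.1 := by
    rw [← volL_eq hs, ← volL_eq hs']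
    unfold Mem.scost
    rw [T0, T0]
    have a1 := hρ.t1
    have a2 := pow_le_pow_left₀ hg.le hρ.g1 3
    have a3 := pow_le_pow_left₀ hR.le hρ.R2 3
    calc s.2.s1 * s.2.sg * s.2.sg ^ 2 * s.2.R ^ 3 = s.2.s1 * s.2.sg ^ 3 * s.2.R ^ 3 := by ring
      _ ≤ (Lo * s'.2.s1) * (Lo * s'.2.sg) ^ 3 * (Lo * s'.2.R) ^ 3 := by
          refine mul_le_mul (mul_le_mul a1 a2 (by positivity) (by positivity)) a3 (by positivity)
            (by positivity)
      _ = _ := by ring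
  -- differences of the exponents
  have half : ∀ k : ℕ, (1 / 2 : ℝ) ^ k = (2 : ℝ) ^ (-(k : ℝ)) := by
    intro k
    rw [Real.rpow_neg two_pos.le, Real.rpow_natCast, one_div, inv_pow]
  have d0 : |(i : ℝ) - i'| ≤ Real.logb 2 Lo := by
    refine abs_exp_le hone (X := s.2.R) (Y := s'.2.R) ?_ ?_ hρ.R2 ?_
    · rw [hs.hR, half]
    · rw [hs'.hR, half]
    · exact hρ.R1.trans (le_mul_of_one_le_left hR.le hone)
  have d1 : ∀ j, |((s.1 j : ℝ) - i) - ((s'.1 j : ℝ) - i')| ≤ Real.logb 2 Lo := by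
    intro j
    fin_cases j
    · refine abs_exp_le hone (X := s.2.sg) (Y := s'.2.sg) ?_ ?_ hρ.g1 hρ.g2
      · have e := hs.wide
        rw [hs.hR, half, half] at e
        have e2 : (2 : ℝ) ^ (-((s.1 0 : ℝ) - i)) = (2 : ℝ) ^ (-(s.1 0 : ℝ)) * (2 : ℝ) ^ (i : ℝ) := by
          rw [← Real.rpow_add two_pos]; congr 1; ring
        have e3 : (2 : ℝ) ^ (-(i : ℝ)) * (2 : ℝ) ^ (i : ℝ) = 1 := by
          rw [← Real.rpow_add two_pos]; simp
        show s.2.sg = (2 : ℝ) ^ (-((s.1 0 : ℝ) - i))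
        rw [e2, ← e, mul_assoc, e3, mul_one]
      · have e := hs'.wide
        rw [hs'.hR, half, half] at e
        have e2 : (2 : ℝ) ^ (-((s'.1 0 : ℝ) - i')) =
            (2 : ℝ) ^ (-(s'.1 0 : ℝ)) * (2 : ℝ) ^ (i' : ℝ) := by
          rw [← Real.rpow_add two_pos]; congr 1; ring
        have e3 : (2 : ℝ) ^ (-(i' : ℝ)) * (2 : ℝ) ^ (i' : ℝ) = 1 := by
          rw [← Real.rpow_add two_pos]; simp
        show s'.2.sg = (2 : ℝ) ^ (-((s'.1 0 : ℝ) - i'))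
        rw [e2, ← e, mul_assoc, e3, mul_one]
    · refine abs_exp_le hone (X := s.2.s1) (Y := s'.2.s1) ?_ ?_ hρ.t1 hρ.t2
      · have e := hs.thin
        rw [hs.hR, half, half] at e
        have e2 : (2 : ℝ) ^ (-((s.1 1 : ℝ) - i)) = (2 : ℝ) ^ (-(s.1 1 : ℝ)) * (2 : ℝ) ^ (i : ℝ) := by
          rw [← Real.rpow_add two_pos]; congr 1; ring
        have e3 : (2 : ℝ) ^ (-(i : ℝ)) * (2 : ℝ) ^ (i : ℝ) = 1 := by
          rw [← Real.rpow_add two_pos]; simp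
        show s.2.s1 = (2 : ℝ) ^ (-((s.1 1 : ℝ) - i))
        rw [e2, ← e, mul_assoc, e3, mul_one]
      · have e := hs'.thin
        rw [hs'.hR, half, half] at e
        have e2 : (2 : ℝ) ^ (-((s'.1 1 : ℝ) - i')) =
            (2 : ℝ) ^ (-(s'.1 1 : ℝ)) * (2 : ℝ) ^ (i' : ℝ) := by
          rw [← Real.rpow_add two_pos]; congr 1; ring
        have e3 : (2 : ℝ) ^ (-(i' : ℝ)) * (2 : ℝ) ^ (i' : ℝ) = 1 := by
          rw [← Real.rpow_add two_pos]; simp
        show s'.2.s1 = (2 : ℝ) ^ (-((s'.1 1 : ℝ) - i'))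
        rw [e2, ← e, mul_assoc, e3, mul_one]
  have hlip := hS.lip ((mt n : ℝ) - i) ((mt n : ℝ) - i') (rel i s.1 (mt n) (atop n))
    (rel i' s'.1 (mt n) (atop n))
  have hsum : |((mt n : ℝ) - i') - ((mt n : ℝ) - i)| +
      ∑ j, |rel i' s'.1 (mt n) (atop n) j - rel i s.1 (mt n) (atop n) j| ≤
      3 * Real.logb 2 Lo := by
    rw [Fin.sum_univ_two]
    have f0 : |((mt n : ℝ) - i') - ((mt n : ℝ) - i)| = |(i : ℝ) - i'| := by
      congr 1; ring
    have f1 : ∀ j, |rel i' s'.1 (mt n) (atop n) j - rel i s.1 (mt n) (atop n) j| =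
        |((s.1 j : ℝ) - i) - ((s'.1 j : ℝ) - i')| := by
      intro j
      rw [abs_sub_comm]
      unfold rel
      congr 1
      ring
    rw [f0, f1, f1]
    have := d1 0
    have := d1 1
    linarith
  have hΨ := hlip.trans (mul_le_mul_of_nonneg_left hsum hS.C0)
  have hΨ1 := (abs_le.1 hΨ).2
  have hpow : (2 : ℝ) ^ (C * (3 * Real.logb 2 Lo)) = Lo ^ (3 * C) := by
    have e : C * (3 * Real.logb 2 Lo) = Real.logb 2 Lo * (3 * C) := by ring
    rw [e, Real.rpow_mul two_pos.le, Real.rpow_logb two_pos (by norm_num) hLo0]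
  have h5 : (2 : ℝ) ^ (-(Ψ ((mt n : ℝ) - i) (rel i s.1 (mt n) (atop n)))) ≤
      Lo ^ (3 * C) * (2 : ℝ) ^ (-(Ψ ((mt n : ℝ) - i') (rel i' s'.1 (mt n) (atop n)))) := by
    rw [← hpow, ← Real.rpow_add two_pos]
    exact Real.rpow_le_rpow_of_exponent_le one_le_two (by linarith)
  have e7 : Lo ^ (7 + 3 * C) = Lo ^ 7 * Lo ^ (3 * C) := by
    rw [Real.rpow_add hLo0]
    norm_num
  rw [e7]
  have hvp := volL_pos i' s'.1
  have hvp0 := volL_pos i s.1
  have p1 : 0 < (2 : ℝ) ^ (-(Ψ ((mt n : ℝ) - i) (rel i s.1 (mt n) (atop n)))) :=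
    Real.rpow_pos_of_pos two_pos _
  calc volL i s.1 * (2 : ℝ) ^ (-(Ψ ((mt n : ℝ) - i) (rel i s.1 (mt n) (atop n))))
      ≤ (Lo ^ 7 * volL i' s'.1) *
        (Lo ^ (3 * C) * (2 : ℝ) ^ (-(Ψ ((mt n : ℝ) - i') (rel i' s'.1 (mt n) (atop n))))) :=
        mul_le_mul hvol h5 p1.le (by positivity)
    _ = _ := by ring

variable {B : Base} {I : ℕ → Finset (ℕ × ℝ)} {lev : ℕ → ℚ → ℕ}
    {A : ℕ → ℝ} {c Λ : ℝ → ℝ} {τ : Fin 2 → ℝ → ℝ} {f : ℕ → ℚ → ℕ → ℤ → ℕ} {b : ℕ → ℚ → ℕ → SL}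
    {vm : ℕ → ℚ → ℝ} {w : Fin 2 → ℕ → ℚ → ℝ}

theorem vm_geoP (h : MkA B I (geoP T Ψ mt atop L) lev A c Λ τ f b vm w)
    (hT : ∀ n, TD (T n) (r n)) {q q' C : ℝ} (hS : Slp Ψ q q' C) {Kt : ℝ} (hK1 : 1 ≤ Kt)
    (ht : ∀ j, ∀ u v : ℚ, 0 ≤ u → u ≤ v → v ≤ 1 → |τ j u - τ j v| ≤ Kt * ((v : ℝ) - u)) :
    ∀ u v : ℚ, 0 ≤ u → u < v → v ≤ 1 → ∀ η : ℝ, 0 < η → ∀ᶠ n in (U : Filter ℕ),
      vm n u ≤ B.d n ^ (-((7 + 3 * C) * Kt * ((v : ℝ) - u)) - η) * vm n v := by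
  intro u v hu huv hv η hη
  have hu1 : u ≤ 1 := huv.le.trans hv
  have hv0 : 0 ≤ v := hu.trans huv.le
  have hC := hS.C0
  have hpos : 0 < 7 + 3 * C := by linarith
  filter_upwards [ev_rat h (isL_geoP hT) hK1 ht hu huv hv
    (div_pos hη hpos : 0 < η / (7 + 3 * C)), h.ne, h.mark u hu hu1, h.mark v hv0 hv] with
    n hrat hne mu mv
  obtain ⟨hone, hij, hrr, hrat⟩ := hrat
  obtain ⟨x, hx⟩ := hne
  obtain ⟨a1, a2, a3, a4⟩ := mu (zc (lev n u) x.2) x.1 (mem_alive.2 ⟨x, hx, rfl, rfl⟩)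
  obtain ⟨b1, b2, b3, b4⟩ := mv (zc (lev n v) x.2) x.1 (mem_alive.2 ⟨x, hx, rfl, rfl⟩)
  have hρ := hrat (vm n u) (vm n v) _ _ ⟨x.2, rfl, rfl⟩ _ _ ⟨a2, a3, a4⟩ ⟨b2, b3, b4⟩
  have key := val_two (mt := mt) (atop := atop) (L := L) hT hS
    ((isL_geoP hT).adm _ _ _ _ a2) ((isL_geoP hT).adm _ _ _ _ b2) hρ
  rw [a3, b3] at key
  have e : lo B Kt (η / (7 + 3 * C)) u v n ^ (7 + 3 * C) =
      B.d n ^ (-((7 + 3 * C) * Kt * ((v : ℝ) - u)) - η) := by
    unfold lo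
    rw [← Real.rpow_mul (B.pos n).le]
    congr 1
    field_simp
  rwa [e] at key

/-- **TILT over the `Ψ`-valued light-ray sequence.** -/
theorem tiltL_geoP (h : MkA B I (geoP T Ψ mt atop L) lev A c Λ τ f b vm w)
    (hT : ∀ n, TD (T n) (r n)) {q q' C : ℝ} (hS : Slp Ψ q q' C)
    (hq2 : q ≤ 2) (hq'0 : 0 ≤ q') (hqq : q' < q / 2) {Kt Cc : ℝ}
    (ht : ∀ j, ∀ u v : ℚ, 0 ≤ u → u ≤ v → v ≤ 1 → |τ j u - τ j v| ≤ Kt * ((v : ℝ) - u))
    (hc : ∀ u v : ℚ, 0 ≤ u → u ≤ v → v ≤ 1 → c u - c v ≤ Cc * ((v : ℝ) - u)) :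
    ∃ C' : ℝ, 0 ≤ C' ∧ TiltL B I L lev f b w C' := by
  have hC := hS.C0
  have ht' : ∀ j, ∀ u v : ℚ, 0 ≤ u → u ≤ v → v ≤ 1 →
      |τ j u - τ j v| ≤ max 1 Kt * ((v : ℝ) - u) := fun j u v hu huv hv => by
    refine (ht j u v hu huv hv).trans (mul_le_mul_of_nonneg_right (le_max_right _ _) ?_)
    have : (u : ℝ) ≤ v := by exact_mod_cast huv
    linarith
  have hc' : ∀ u v : ℚ, 0 ≤ u → u ≤ v → v ≤ 1 → c u - c v ≤ max 0 Cc * ((v : ℝ) - u) :=
    fun u v hu huv hv => by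
      refine (hc u v hu huv hv).trans (mul_le_mul_of_nonneg_right (le_max_right _ _) ?_)
      have : (u : ℝ) ≤ v := by exact_mod_cast huv
      linarith
  have hK1 : 1 ≤ max 1 Kt := le_max_left _ _
  exact tiltL h (isL_geoP hT) (valD_geoP hT hS) (by linarith) hq2 hq'0 (by linarith) hqq hK1
    (Kv := (7 + 3 * C) * max 1 Kt) (by positivity) (le_max_left _ _) ht' hc'
    (vm_geoP h hT hS hK1 ht')

/-- **TILT for helper635's reward, linear widths and linear amplitude** (the window of helper139's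
`master`: `c v = (g + 2 s) v`, `τ_j v = θ_j (1 - v)`). -/
theorem tiltL_Psi {p wt : Fin 2 → ℝ} {μ q : ℝ} (hw : ∀ j, 0 ≤ wt j) (hμ : 0 ≤ μ) (hμ1 : μ ≤ 1)
    (hq : 0 ≤ q) {qn qt : ℝ} (hqn : qn ≤ p 0 - q * wt 0 * μ) (hqn2 : qn ≤ 2) (hqt0 : 0 ≤ qt)
    (hqt : p 1 + q * wt 1 ≤ qt) (hqq : qt < qn / 2) {g : ℝ} {θ : Fin 2 → ℝ}
    (h : MkA B I (geoP T (Psi635.Psi p wt μ q) mt atop L) lev A (fun v => g * v) Λ
      (fun j v => θ j * (1 - v)) f b vm w) (hT : ∀ n, TD (T n) (r n)) :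
    ∃ C' : ℝ, 0 ≤ C' ∧ TiltL B I L lev f b w C' := by
  obtain ⟨C, hS⟩ := slp_Psi hw hμ hμ1 hq hqn hqt
  refine tiltL_geoP (Kt := |θ 0| + |θ 1|) (Cc := |g|) h hT hS hqn2 hqt0 hqq ?_ ?_
  · intro j u v hu huv hv
    have huvR : (0 : ℝ) ≤ (v : ℝ) - u := by
      have : (u : ℝ) ≤ v := by exact_mod_cast huv
      linarith
    have e : θ j * (1 - (u : ℝ)) - θ j * (1 - (v : ℝ)) = θ j * ((v : ℝ) - u) := by ring
    rw [e, abs_mul, abs_of_nonneg huvR]
    refine mul_le_mul_of_nonneg_right ?_ huvR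
    fin_cases j
    · exact le_add_of_nonneg_right (abs_nonneg _)
    · exact le_add_of_nonneg_left (abs_nonneg _)
  · intro u v hu huv hv
    have huvR : (0 : ℝ) ≤ (v : ℝ) - u := by
      have : (u : ℝ) ≤ v := by exact_mod_cast huv
      linarith
    have e : g * (u : ℝ) - g * v = (-g) * ((v : ℝ) - u) := by ring
    rw [e]
    exact mul_le_mul_of_nonneg_right (neg_le_abs g) huvR


end

end Crest.Agent.R116.Td809
end

-- ▼ part R116/KTopA_387

/-!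
# R116, K-side skeleton, first half (helper387)

`EnemyAt2 (Rm635.TSK K0) b0` for all `K0` ⊢ the seam `OutT | OutR` (468) with all numerical relations.

* `NumL η g s θ q` : numerical relations of the linear window (`c = (g + 2 s) v`).
* `TopW η` : the seam: numbers with `NumL`, and for every range `Rg` and axis `a` a window
  `OutT` (thin) or `OutR` (round).
* `tilt_par` : 809's tilt in the final window.
* **`topW_of`** : enemy ⊢ `TopW η`.
* **`lkm_of`** : enemy + (`TopW η → False`) ⊢ `LKM`.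
-/

set_option autoImplicit false
set_option linter.unusedVariables false

open Finset Filter Topology

namespace Crest.Agent.R116.KTop387

open Crest.Agent.R138.Ex926 (Base U)
open Crest.Agent.R138.Mk163 (zc zl rho alive own)
open Crest.Agent.R136.MkA627
open Crest.Agent.R116.LZg725
open Crest.Agent.R116.KI439
open Crest.Agent.R116.KF439 (IsL ValL Thin Thick TiltL)
open Crest.Agent.R116.Xa794 (TS)
open Crest.Agent.R116.Xc794
open Crest.Agent.R116.Zl139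
open Crest.Agent.R116.Psi635
open Crest.Agent.R116.Psi2635
open Crest.Agent.R116.Yb2635 (EnemyAt2)
open Crest.Agent.R116.Rm635 (trivB_K)
open Crest.Agent.R116.Gd222 (TSet)
open Crest.Agent.R116.Tw468 (OutT OutR out_winL' growth_winL s_lt_winL)

/-- numerical relations of the linear window with exponents `c = (g + 2 s) v`, `Λ = s v`,
`τ_j = θ_j (1 - v)`, line rewards `q`. -/
structure NumL (η g s : ℝ) (θ q : Fin 2 → ℝ) : Prop where
  gpos : 0 < g
  s0 : 0 ≤ s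
  s1 : s < 1
  qa : 0 < q 0
  qb : 0 < q 1
  qbg : q 1 ≤ η * g
  qba : q 1 ≤ η * q 0
  θa : 0 < θ 0
  grow : g + 2 * s + (q 0 + q 1) ≤ 2

/-- **the seam between the two halves of the K side**: for every range `Rg` and axis `a` a thin or a
round window. -/
def TopW (η : ℝ) : Prop :=
  ∃ (g s : ℝ) (θ q : Fin 2 → ℝ), NumL η g s θ q ∧ ∀ (Rg : ℝ), 0 ≤ Rg → ∀ a : Fin 2,
    (∃ (G : Geo TSet (Fin 2)) (L : ℕ → ℕ → LRay) (r : ℕ → ℝ) (B : Base) (I : ℕ → Finset (ℕ × ℝ))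
      (lev : ℕ → ℚ → ℕ) (A : ℕ → ℝ) (f : ℕ → ℚ → ℕ → ℤ → ℕ) (b : ℕ → ℚ → ℕ → TSet)
      (vm : ℕ → ℚ → ℝ) (w : Fin 2 → ℕ → ℚ → ℝ) (fr : ℕ → ℚ → ℕ × ℝ → ChL222.LInc)
      (fl : ℕ → ℕ × ℝ → ChL222.LInc) (sc : Fin 12 → ℕ → ℝ),
      OutT G L r (g + 2 * s) s θ q Rg B I lev A f b vm w fr fl sc) ∨
    (∃ (G : Geo TSet (Fin 2)) (L : ℕ → ℕ → LRay) (r : ℕ → ℝ) (B : Base) (I : ℕ → Finset (ℕ × ℝ))
      (lev : ℕ → ℚ → ℕ) (A : ℕ → ℝ) (f : ℕ → ℚ → ℕ → ℤ → ℕ) (b : ℕ → ℚ → ℕ → TSet)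
      (vm : ℕ → ℚ → ℝ) (w : Fin 2 → ℕ → ℚ → ℝ),
      OutR G L r (g + 2 * s) s θ q Rg a B I lev A f b vm w)

/-- the tilt in the final window (809) -/
theorem tilt_par {η b0 : ℝ} {p w : Fin 2 → ℝ} {μ q0 g0 κ q : ℝ} (hP : Par η b0 p w μ q0 g0 κ)
    (hη : η ≤ 1 / 4) (hq : 0 ≤ q) (hq8 : q ≤ 8) {B : Base} {I : ℕ → Finset (ℕ × ℝ)} {K0 : ℕ}
    {R : ℕ → ℕ} {r : ℕ → ℝ} {mt : ℕ → ℕ} {atop : ℕ → Fin 2 → ℕ} {L : ℕ → ℕ → LRay}
    {lev : ℕ → ℚ → ℕ} {A : ℕ → ℝ} {g s : ℝ} {θ : Fin 2 → ℝ} {f : ℕ → ℚ → ℕ → ℤ → ℕ}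
    {b : ℕ → ℚ → ℕ → TSet} {vm : ℕ → ℚ → ℝ} {w' : Fin 2 → ℕ → ℚ → ℝ}
    (h : MkA B I (geoP (fun n => cut K0 (R n) (TSL (r n))) (Psi p w μ q) mt atop L) lev A
      (fun v => g * v) (fun v => s * v) (fun j v => θ j * (1 - v)) f b vm w') :
    ∃ C : ℝ, TiltL B I L lev f b w' C := by
  have hw : ∀ j, 0 ≤ w j := by
    intro j
    fin_cases j
    · show 0 ≤ w 0; rw [hP.cw0]; norm_num
    · exact hP.cw1.le
  have hp0 := hP.cp0
  have hp1 := hP.cp1
  have hp0' := hP.cp0'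
  have hμ := hP.cm0
  have hμ1 := hP.cm1
  have hμp := hP.cmp
  have hw1 := hP.cw1
  have hw1p := hP.cwp
  have hep := hP.cep
  have a1 : q * μ ≤ 8 * μ := mul_le_mul_of_nonneg_right hq8 hμ.le
  have a2 : q * w 1 ≤ 8 * w 1 := mul_le_mul_of_nonneg_right hq8 hw1.le
  have a3 : η * (p 0 / 2) ≤ 1 / 4 * (p 0 / 2) := mul_le_mul_of_nonneg_right hη (by linarith)
  obtain ⟨C, -, hC⟩ := Td809.tiltL_Psi (qn := p 0 / 2) (qt := 2 * p 1) (θ := θ) hw hμ.le
    (by linarith) hq (by rw [hP.cw0, mul_one]; linarith) (by linarith) (by linarith)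
    (by linarith) (by linarith) h fun n => Td809.td_cut _ _ _
  exact ⟨C, hC⟩

/-- **first half of the K side.** -/
theorem topW_of {η : ℝ} (hη : 0 < η) (hη4 : η ≤ 1 / 4)
    (hE : ∃ b0 : ℝ, 0 < b0 ∧ ∀ K0 : ℕ, EnemyAt2 (Rm635.TSK K0) b0) : TopW η := by
  obtain ⟨b0, hb0, hE⟩ := hE
  obtain ⟨p, w, μ, q0, g0, κ, hP⟩ := exists_par hb0 hη
  obtain ⟨K0, hK0⟩ := exists_nat_ge (2 / μ + 2 / (w 1 * μ))
  obtain ⟨q, β, δ0, hq, hq8, hβ, hβ2, hR, hC⟩ := chsL2 (trivB_K K0) (hE K0) hP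
  obtain ⟨θ, hX⟩ := XcF794.xoutQ hR hC
  have hκp : 0 < κ := hC.κpos
  have hX' : XOutQ (Rm635.TSK K0) (Psi p w μ q) (psi w μ) κ β θ := hX
  have hκ : κ ≤ psi w μ 1 θ := by
    obtain ⟨B, I, T, L, lev, A, Λ, f, b, vm, w', atop, N, a, h1, h2, h3, h4, -⟩ := hX'
    exact h4
  obtain ⟨t0, t1, t2⟩ := hP.theta hκ
  have hμ := hP.cm0
  have hw1 := hP.cw1
  have hθ : ∀ j, θ j ≤ K0 := by
    have e1 : 0 ≤ 2 / μ := by positivity
    have e2 : 0 ≤ 2 / (w 1 * μ) := by positivity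
    intro j
    fin_cases j
    · show θ 0 ≤ K0
      linarith
    · show θ 1 ≤ K0
      linarith [le_abs_self (θ 1)]
  obtain ⟨-, R, r, hr0, hr, B, I, L, lev, f, b, vm, w', atop, s, B', I', H, mm, A', A2, vm2, K,
    hW⟩ := winL_of_XOutQ hX' hθ (Rv883.linAt_Psi hμ.le θ)
  obtain ⟨d0, d1, d2, d3⟩ := hP.dwid hq.le hq8.le θ
  have hp0 := hP.cp0
  have hp1 := hP.cp1
  have hg0 := hP.cg0
  have hTL : ∀ n, IsTL (cut K0 (R n) (TSL (r n))) (r n) := fun n => isTL_cut _ _ _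
  have hpp : ∀ j, 0 ≤ Rv883.dwid p w μ q θ j := by
    intro j
    fin_cases j
    · show 0 ≤ Rv883.dwid p w μ q θ 0
      linarith
    · show 0 ≤ Rv883.dwid p w μ q θ 1
      linarith
  have hgp : 0 < β + Rv883.dlen w μ q θ := by linarith
  refine ⟨β + Rv883.dlen w μ q θ, s, θ, Rv883.dwid p w μ q θ, ?_, fun Rg hRg a => ?_⟩
  · refine
      { gpos := hgp, s0 := hW.s0, s1 := s_lt_winL hTL hW hpp hgp, qa := by linarith
        qb := by linarith, qbg := ?_, qba := ?_, θa := by linarith, grow := growth_winL hTL hW }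
    · have h1 := hP.ceg
      have h2 : η * g0 ≤ η * (β + Rv883.dlen w μ q θ) := mul_le_mul_of_nonneg_left (by linarith) hη.le
      linarith
    · have h1 := hP.cep
      have h2 : η * (p 0 / 2) ≤ η * Rv883.dwid p w μ q θ 0 := mul_le_mul_of_nonneg_left d1 hη.le
      linarith
  · rcases out_winL' hTL hW hpp hgp (fun _ => tilt_par hP hη4 hq.le hq8.le hW.mkP) hRg a with
      ⟨B1, I1, lev1, A1, f1, b1, vm1, w1, fr1, fl1, sc1, h⟩ | h
    · exact Or.inl ⟨_, L, r, B1, I1, lev1, A1, f1, b1, vm1, w1, fr1, fl1, sc1, h⟩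
    · exact Or.inr ⟨_, L, r, B', I', _, A2, _, _, vm2, _, h⟩

/-- **the K side from the enemy (618 / 79) and the second half (`TopW η → False`).** -/
theorem lkm_of {η : ℝ} (hη : 0 < η) (hη4 : η ≤ 1 / 4)
    (hE : ¬ Ks79.LKMseq 68 → ∃ b0 : ℝ, 0 < b0 ∧ ∀ K0 : ℕ, EnemyAt2 (Rm635.TSK K0) b0)
    (hB : TopW η → False) : LKMDef299.LKM :=
  Ks79.lkm_of_lkmseq (M := 68) (by norm_num) (by
    by_contra h
    exact hB (topW_of hη hη4 (hE h)))

end Crest.Agent.R116.KTop387
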