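import Crest.Agent.R116.SgR1_337

/-!
# R116, K-TEXT II-c, Lemma SIG (helper194, doc 2383): from the record to the plane `Σ` (helper337)

Part 2: over `ExtQ` (196) / `PL504`, the plane
`SigB lam v t = update (nb w0 sa sb v (θa (1 - t)) (θb (1 - t))) 1 lam` (natural boxes over the record
point of height `t`, coarser height `v ≤ t`, slot `D` frozen at `lam`):

* `sig_all` : for `(v, t)` near `(v0, v0)`, `v ≤ t`, `0 ≤ y ≤ κ`:
  `q0 y ≤ ν (Sig) - ν (Sig + y C)`, `q1 y ≤ ν (Sig) - ν (Sig + y (E, B, P))`,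
  `(g + q0 + q1) y ≤ ν (Sig) - ν (Sig + y (C, P))`, `F ≤ 0`, `F = 0` on the record.
-/

set_option autoImplicit false

open Finset

namespace Crest.Agent.R116.Sg337

open Crest.Agent.R138.Ex926 (Base U)
open Crest.Agent.R136.Net191
open Crest.Agent.R136.Lq196
open Crest.Agent.R116.ChL222
open Crest.Agent.R116.PL504 (nb rL DN Shift)
open Crest.Agent.R116.Xd954 (cs xs FlagX Mrg)
open Crest.Agent.R116

/-- the slots `C` -/
def uC : Fin 12 → ℝ := bx9 0 0 0 1 0 0 0 0 0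
/-- the slots `E, B, P` -/
def uP : Fin 12 → ℝ := bx9 0 0 1 0 0 1 0 1 0
/-- the slots `C, P` -/
def uCP : Fin 12 → ℝ := bx9 0 0 0 1 0 0 0 1 0

theorem fC_add (lam z C P y : ℝ) : fC lam z C P y = frz lam z C P + y • uC := by
  funext k
  fin_cases k <;> simp [fC, frz, uC, bx9]

theorem fP_add (lam z C P y : ℝ) : fP lam z C P y = frz lam z C P + y • uP := by
  funext k
  fin_cases k <;> simp [fP, frz, uP, bx9]

theorem fCP_add (lam z C P y : ℝ) : fCP lam z C P y = frz lam z C P + y • uCP := by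
  funext k
  fin_cases k <;> simp [fCP, frz, uCP, bx9]

/-- the frozen natural box over the record point of height `t`, at the height `v` -/
noncomputable def SigB (θa θb w0 sa sb lam v t : ℝ) : Fin 12 → ℝ :=
  Function.update (nb w0 sa sb v (θa * (1 - t)) (θb * (1 - t))) 1 lam


theorem DN_Dm (g s q0 q1 θa θb w0 sa sb v a b : ℝ) : DN g s q0 q1 θa θb v a b =
    Dm g s q0 q1 (w0 + v) (sa + a) (sb + b) - Dm g s q0 q1 w0 (sa + θa) (sb + θb) := by
  unfold DN Dm; ring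

section ext

variable {B : Base} {I0 I : ℕ → Finset (ℕ × ℝ)} {lev : ℕ → ℚ → ℕ} {inc : ℕ → ℕ × ℝ → LInc}
    {σ : Fin 2 → ℕ → ℝ} {k0 ϑ w0 sa sb g q0 q1 θa θb : ℝ} {a b : Fin 2}
    {C R s c₀ : ℝ} {PD : Set (Fin 12 → ℝ)} {D : (Fin 12 → ℝ) → ℝ}
    {o : ℝ → Fin 12 → ℝ} {E : ℝ → ℝ} {T : Fin 12 → Prop} {ν own : (Fin 12 → ℝ) → ℝ}



end ext

end Crest.Agent.R116.Sg337
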