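import Crest.Agent.R116.D0n3_878
import Crest.Agent.R116.SgR2_337
import Crest.Agent.R116.D0T_794
import Crest.Agent.R116.Kg8_330
import Crest.Agent.R116.Rcx6_363

-- ▼ part R116/D0n4_878
section

/-!
# R116 (K side), LEMMA D0, part 4 (helper878): the set of `D`-live heights is null
-/

set_option autoImplicit false
set_option linter.unusedVariables false

open Set Filter Topology MeasureTheory
open scoped NNReal

namespace Crest.Agent.R116.D0n878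

open Crest.Agent.R138
open Crest.Agent.R136
open Crest.Agent.R136.Net191
open Crest.Agent.R136.Dg219 (gC dhC)
open Crest.Agent.R116.ChL222
open Crest.Agent.R116.Sg337 (bx9 natB Dm uC)
open Crest.Agent.R116.SgF665 (wl)
open Crest.Agent.R116.D0F878

/-- Lipschitz constant of `ν` on the plane -/
theorem plane_lip {R K : ℝ} {ν : (Fin 12 → ℝ) → ℝ} (hK : 0 ≤ K)
    (hν : ∀ p ∈ Leg monL R, ∀ q ∈ Leg monL R, |ν p - ν q| ≤ K * ‖p - q‖)
    {x0 a b : Fin 12 → ℝ} {S : Set (ℝ × ℝ)}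
    (hS : ∀ z ∈ S, Dg262.X x0 a b (z.2, z.1) ∈ Leg monL R) :
    LipschitzOnWith (K.toNNReal * (‖a‖₊ + ‖b‖₊)) (fun z : ℝ × ℝ => -ν (Dg262.X x0 a b (z.2, z.1))) S := by
  refine LipschitzOnWith.of_dist_le_mul fun z hz z' hz' => ?_
  rw [Real.dist_eq]
  have h1 := hν _ (hS z hz) _ (hS z' hz')
  have e1 : -ν (Dg262.X x0 a b (z.2, z.1)) - -ν (Dg262.X x0 a b (z'.2, z'.1)) =
      -(ν (Dg262.X x0 a b (z.2, z.1)) - ν (Dg262.X x0 a b (z'.2, z'.1))) := by ring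
  rw [e1, abs_neg]
  refine h1.trans ?_
  have e2 : Dg262.X x0 a b (z.2, z.1) - Dg262.X x0 a b (z'.2, z'.1) =
      (z.2 - z'.2) • a + (z.1 - z'.1) • b := by
    funext k
    simp only [Dg262.X, Pi.sub_apply, Pi.add_apply, Pi.smul_apply, smul_eq_mul]
    ring
  have h2 : ‖Dg262.X x0 a b (z.2, z.1) - Dg262.X x0 a b (z'.2, z'.1)‖ ≤
      (‖a‖ + ‖b‖) * dist z z' := by
    rw [e2]
    refine (norm_add_le _ _).trans ?_
    rw [norm_smul, norm_smul, Prod.dist_eq, Real.norm_eq_abs, Real.norm_eq_abs]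
    have h3 : |z.2 - z'.2| ≤ max (dist z.1 z'.1) (dist z.2 z'.2) := by
      rw [← Real.dist_eq]; exact le_max_right _ _
    have h4 : |z.1 - z'.1| ≤ max (dist z.1 z'.1) (dist z.2 z'.2) := by
      rw [← Real.dist_eq]; exact le_max_left _ _
    have h5 := norm_nonneg a
    have h6 := norm_nonneg b
    nlinarith
  have h3 : ((K.toNNReal * (‖a‖₊ + ‖b‖₊) : ℝ≥0) : ℝ) = K * (‖a‖ + ‖b‖) := by
    push_cast
    rw [Real.coe_toNNReal K hK]
  rw [h3, mul_assoc]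
  exact mul_le_mul_of_nonneg_left h2 hK

/-! ### geometry of the wedge -/

section geo

variable {θa θb w0 sa sb v0 ε κ τ v : ℝ}

/-- below the record box with the same `D` -/
theorem pt_le_D (hκ : 9 * κ = 2 * θa - θb - 1) (h1 : 0 ≤ (1 - κ) * (v - v0) + τ)
    (h2 : θa * (v - v0) ≤ ε * τ) :
    natB (w0 + v0 + κ * (v - v0) + -τ) (sa + θa * (1 - v0) + ε * -τ)
      (sb + θb * (1 - v0) + 10 * κ * (v - v0) + (1 + 2 * ε) * -τ) ≤ rc θa θb w0 sa sb v := by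
  have e : θb = 2 * θa - 1 - 9 * κ := by linarith
  subst e
  refine natB_le ?_ ?_ (le_of_eq ?_)
  · linarith
  · linarith
  · ring

/-- below the record box with the same `C` -/
theorem pt_le_C (hθ : 0 < θa) (hκ : 9 * κ = 2 * θa - θb - 1) (hκ0 : 0 ≤ κ) {x : ℝ}
    (hx : θa * x = ε * τ) (h1 : 0 ≤ x - κ * (v - v0) + τ) (h2 : v - v0 ≤ x) :
    natB (w0 + v0 + κ * (v - v0) + -τ) (sa + θa * (1 - v0) + ε * -τ)
      (sb + θb * (1 - v0) + 10 * κ * (v - v0) + (1 + 2 * ε) * -τ) ≤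
      rc θa θb w0 sa sb (v0 + x) := by
  have e : θb = 2 * θa - 1 - 9 * κ := by linarith
  subst e
  have h3 : 0 ≤ κ * (x - (v - v0)) := mul_nonneg hκ0 (by linarith)
  refine natB_le ?_ (le_of_eq ?_) ?_
  · linarith
  · linarith
  · linarith

/-- the box of the plane -/
theorem pt_low (hκ : 0 < κ) (hε : 0 < ε) (hε4 : ε ≤ 1 / 4) {m0 u0 t1 : ℝ}
    (hm : ∀ k, m0 ≤ rc θa θb w0 sa sb v0 k) (hv : |v - v0| ≤ u0) (hτ0 : 0 ≤ τ) (hτ1 : τ ≤ t1)
    (h : u0 * (11 * κ) + 3 * t1 < m0) (k : Fin 12) :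
    0 < natB (w0 + v0 + κ * (v - v0) + -τ) (sa + θa * (1 - v0) + ε * -τ)
      (sb + θb * (1 - v0) + 10 * κ * (v - v0) + (1 + 2 * ε) * -τ) k := by
  have c1 := hm k
  have hu : 0 ≤ u0 := (abs_nonneg _).trans hv
  have c2 : natB (w0 + v0 + κ * (v - v0) + -τ) (sa + θa * (1 - v0) + ε * -τ)
      (sb + θb * (1 - v0) + 10 * κ * (v - v0) + (1 + 2 * ε) * -τ) k =
      rc θa θb w0 sa sb v0 k + (v - v0) * natB κ 0 (10 * κ) k - τ * natB 1 ε (1 + 2 * ε) k := by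
    unfold rc
    fin_cases k <;> simp [natB, bx9] <;> ring
  have c3 : 0 ≤ natB 1 ε (1 + 2 * ε) k ∧ natB 1 ε (1 + 2 * ε) k ≤ 3 := by
    fin_cases k <;> simp [natB, bx9] <;> constructor <;> linarith
  have c4 : 0 ≤ natB κ 0 (10 * κ) k ∧ natB κ 0 (10 * κ) k ≤ 11 * κ := by
    fin_cases k <;> simp [natB, bx9] <;> first | (constructor <;> linarith) | linarith
  have c5 : |(v - v0) * natB κ 0 (10 * κ) k| ≤ u0 * (11 * κ) := by
    rw [abs_mul, abs_of_nonneg c4.1]; exact mul_le_mul hv c4.2 c4.1 hu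
  have c6 := (abs_le.1 c5).1
  have c7 : τ * natB 1 ε (1 + 2 * ε) k ≤ t1 * 3 :=
    mul_le_mul hτ1 c3.2 c3.1 (hτ0.trans hτ1)
  rw [c2]
  linarith

/-- the budget of the segment -/
theorem pt_Dm {g s q0 q1 : ℝ} :
    Dm g s q0 q1 (w0 + v0 + κ * (v - v0) + -τ) (sa + θa * (1 - v0) + ε * -τ)
      (sb + θb * (1 - v0) + 10 * κ * (v - v0) + (1 + 2 * ε) * -τ) -
      Dm g s q0 q1 (w0 + v) (sa + θa * (1 - v)) (sb + θb * (1 - v)) =
    (5 - s - g + q1 + ε * (5 + q0 + 2 * q1)) * τ +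
      ((4 - s - g) * (1 - κ) - (3 + q0) * θa - (1 + q1) * (10 * κ + θb)) * (v - v0) := by
  unfold Dm; ring

end geo

/-- constants of the wedge -/
theorem exists_cst {θa κ ε L A q δ1 δ m0 v0 v1 v2 : ℝ} (hθ : 0 < θa) (hκ : 0 < κ) (hε : 0 < ε)
    (hL : 0 < L) (hδ1 : 0 < δ1) (hδ : 0 < δ) (hm0 : 0 < m0) (h1 : v1 < v0) (h2 : v0 < v2) :
    ∃ t1 t0 u0 : ℝ, 0 < t0 ∧ t0 < t1 ∧ 0 < u0 ∧ t1 ≤ δ ∧ t1 * ε / θa ≤ v2 - v0 ∧
      u0 ≤ v0 - v1 ∧ u0 ≤ v2 - v0 ∧ u0 * (11 * κ) + 3 * t1 < m0 ∧ (1 + κ) * u0 ≤ t0 ∧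
      θa * u0 ≤ ε * t0 ∧ 10 * κ * u0 * L ≤ ε * t0 ∧
      |A| * u0 + (q + δ1) * t0 ≤ δ1 * t1 := by
  set t1 : ℝ := min (min δ (m0 / 8)) ((v2 - v0) * θa / ε) with ht1d
  have hv20 : 0 < v2 - v0 := by linarith
  have ht1 : 0 < t1 := lt_min (lt_min hδ (by positivity)) (by positivity)
  have ht1δ : t1 ≤ δ := (min_le_left _ _).trans (min_le_left _ _)
  have ht1m : t1 ≤ m0 / 8 := (min_le_left _ _).trans (min_le_right _ _)
  have ht1v : t1 * ε / θa ≤ v2 - v0 := by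
    have h6 : t1 ≤ (v2 - v0) * θa / ε := min_le_right _ _
    rw [le_div_iff₀ hε] at h6
    rw [div_le_iff₀ hθ]
    exact h6
  set M : ℝ := θa / ε + 1 + κ + 10 * κ * L / ε with hMd
  have hM : 0 < M := by positivity
  have e1 : ε * M = θa + ε * (1 + κ) + 10 * κ * L := by rw [hMd]; field_simp; ring
  have p1 : 0 ≤ ε * (1 + κ) := by positivity
  have p2 : 0 ≤ 10 * κ * L := by positivity
  have hM2 : 1 + κ ≤ M := by
    rw [hMd]
    have : 0 ≤ θa / ε := by positivity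
    have : 0 ≤ 10 * κ * L / ε := by positivity
    linarith
  have hden : 0 < |A| + (|q| + δ1) * M + 1 := by positivity
  clear_value t1 M
  set u0 : ℝ := min (min (min (v0 - v1) (v2 - v0)) (m0 / (100 * κ)))
    (min (t1 / (2 * M)) (δ1 * t1 / (|A| + (|q| + δ1) * M + 1))) with hu0d
  have hu0 : 0 < u0 := by
    refine lt_min (lt_min (lt_min (by linarith) (by linarith)) (by positivity))
      (lt_min (by positivity) (by positivity))
  have hu1 : u0 ≤ v0 - v1 := ((min_le_left _ _).trans (min_le_left _ _)).trans (min_le_left _ _)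
  have hu2 : u0 ≤ v2 - v0 := ((min_le_left _ _).trans (min_le_left _ _)).trans (min_le_right _ _)
  have hu3 : u0 * (100 * κ) ≤ m0 := by
    have h6 : u0 ≤ m0 / (100 * κ) := (min_le_left _ _).trans (min_le_right _ _)
    rwa [le_div_iff₀ (by positivity)] at h6
  have hu4 : u0 * (2 * M) ≤ t1 := by
    have h6 : u0 ≤ t1 / (2 * M) := (min_le_right _ _).trans (min_le_left _ _)
    rwa [le_div_iff₀ (by positivity)] at h6
  have hu5 : u0 * (|A| + (|q| + δ1) * M + 1) ≤ δ1 * t1 := by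
    have h6 : u0 ≤ δ1 * t1 / (|A| + (|q| + δ1) * M + 1) := (min_le_right _ _).trans (min_le_right _ _)
    rwa [le_div_iff₀ hden] at h6
  clear_value u0
  have hMu : 0 < M * u0 := by positivity
  refine ⟨t1, M * u0, u0, hMu, by nlinarith, hu0, ht1δ, ht1v, hu1, hu2, ?_, ?_, ?_, ?_, ?_⟩
  · nlinarith
  · nlinarith
  · have : ε * (M * u0) = (ε * M) * u0 := by ring
    rw [this, e1]; nlinarith
  · have : ε * (M * u0) = (ε * M) * u0 := by ring
    rw [this, e1]; nlinarith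
  · have h7 : (q + δ1) * (M * u0) ≤ (|q| + δ1) * (M * u0) :=
      mul_le_mul_of_nonneg_right (by linarith [le_abs_self q]) hMu.le
    nlinarith


end Crest.Agent.R116.D0n878
end

-- ▼ part R116/D0n5_878
section

/-!
# R116 (K side), LEMMA D0, part 5 (helper878): `null_E` with the facts read at a constant base
-/

set_option autoImplicit false
set_option linter.unusedVariables false

open Set Filter Topology MeasureTheory
open scoped NNReal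

namespace Crest.Agent.R116.D0n878

open Crest.Agent.R138
open Crest.Agent.R136
open Crest.Agent.R136.Net191
open Crest.Agent.R136.Dg219 (gC dhC)
open Crest.Agent.R116.ChL222
open Crest.Agent.R116.Sg337 (bx9 natB Dm uC)
open Crest.Agent.R116.SgF665 (wl)
open Crest.Agent.R116.D0F878

/-- **the set of heights at which `D` is live is null**, `beta_D > 0`, `s < 1/2`. -/
theorem null_EF {J : Type*} [Finite J] {f : J → (Fin 12 → ℝ) → ℝ} {j0 : J}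
    {R K s g q0 q1 θa θb w0 sa sb K0 δ L v1 v2 ρ : ℝ}
    {Do : ℝ → ℝ → ℝ → Prop} (hK : 0 ≤ K)
    (hν : ∀ j, ∀ p ∈ Leg monL R, ∀ q ∈ Leg monL R, |f j p - f j q| ≤ K * ‖p - q‖)
    (hm : ∀ p ∈ Leg monL R, ∀ q ∈ Leg monL R, p ≤ q →
      f j0 q ≤ f j0 p ∧ f j0 p - f j0 q ≤ ∑ i, (q i - p i))
    (hs : ∀ p ∈ Leg monL R, ∀ q ∈ Leg monL R, p ⊓ q ∈ Leg monL R →
      f j0 p + f j0 q ≤ f j0 (p ⊔ q) + f j0 (p ⊓ q))
    (hθ : 0 < θa) (hβ : 0 < 2 * θa - θb - 1) (s2 : 2 * s < 1) (hq0 : 0 < q0) (hq1 : 0 ≤ q1)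
    (hg : 2 * s + q1 < g) (hδ : 0 < δ) (hL : 0 < L)
    (hbx : ∀ v ∈ Icc v1 v2, ∀ k, 0 < rc θa θb w0 sa sb v k ∧ rc θa θb w0 sa sb v k < R)
    (hrec : ∀ v ∈ Icc v1 v2, K0 + Dm g s q0 q1 (w0 + v) (sa + θa * (1 - v)) (sb + θb * (1 - v)) ≤
      f j0 (rc θa θb w0 sa sb v))
    (hC : ∀ v ∈ Icc v1 v2, ∀ᶠ y in 𝓝[>] (0:ℝ), q0 * y ≤
      f j0 (rc θa θb w0 sa sb v) - f j0 (rc θa θb w0 sa sb v + y • uC))
    (hdom : ∀ v ∈ Icc v1 v2, ∀ e t x y : ℝ, 0 < e → e ≤ 1 / 4 → 0 < t → t ≤ δ →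
      |x| ≤ e * t / L → |y| ≤ e * t / L →
      Do (w0 + v - t + x) (sa + θa * (1 - v) - e * t) (sb + θb * (1 - v) - (1 + 2 * e) * t + y))
    (hDm : ∀ z c p, Do z c p → f j0 (natB z c p) ≤ K0 + Dm g s q0 q1 z c p)
    (hown : ∀ z c p, Do z c p → ∀ᶠ y in 𝓝[>] (0:ℝ), (1 - s) * y ≤
      f j0 (natB z c p) - f j0 (natB z c p + y • uZ))
    (hFct : ∀ z c p, Do z c p → ∀ (h : ℕ → ℝ) (rz rX rH rF gC gP gE gB gD : ℝ),
      LinTanD (Leg monL R) f j0 (fun _ => natB z c p) h rz rX rH rF gC gP gE gB gD →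
      1 - s ≤ rz → (0 < gC → 1 - s ≤ rX) ∧ (0 < gC → rX ≤ rH) ∧ (0 < gD → rH ≤ gP) ∧
        (s < gP → 1 ≤ rF)) (hρ : 0 < ρ) :
    volume {v : ℝ | v ∈ Ioo v1 v2 ∧ ∃ᶠ y in 𝓝[>] (0:ℝ), ρ * y ≤
      f j0 (rc θa θb w0 sa sb v) - f j0 (rc θa θb w0 sa sb v + y • uD)} = 0 := by
  set E : Set ℝ := {v : ℝ | v ∈ Ioo v1 v2 ∧ ∃ᶠ y in 𝓝[>] (0:ℝ), ρ * y ≤
      f j0 (rc θa θb w0 sa sb v) - f j0 (rc θa θb w0 sa sb v + y • uD)} with hEd
  by_contra hE
  obtain ⟨v0, hv0E, hv0⟩ := exists_mem_forall_mem_nhdsWithin_pos_measure (μ := volume) hE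
  obtain ⟨hva, hvb⟩ := hv0E.1
  have hv0I : v0 ∈ Icc v1 v2 := ⟨hva.le, hvb.le⟩
  obtain ⟨κ, hκ, hκ9⟩ : ∃ κ : ℝ, 0 < κ ∧ 9 * κ = 2 * θa - θb - 1 :=
    ⟨(2 * θa - θb - 1) / 9, by positivity, by ring⟩
  -- constants
  obtain ⟨gap, hgap⟩ : ∃ gap : ℝ, gap = 1 - 3 * s + g - q1 := ⟨_, rfl⟩
  have hgap0 : 0 < gap := by rw [hgap]; linarith
  have h5 : 0 < 8 * (5 + q0 + 2 * q1) := by positivity
  obtain ⟨ε, hε, hε4, hεg⟩ : ∃ ε : ℝ, 0 < ε ∧ ε ≤ 1 / 4 ∧ ε * (5 + q0 + 2 * q1) ≤ gap / 8 := by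
    refine ⟨min (1 / 4) (gap / (8 * (5 + q0 + 2 * q1))), lt_min (by norm_num)
      (div_pos hgap0 h5), min_le_left _ _, ?_⟩
    have h6 : min (1 / 4) (gap / (8 * (5 + q0 + 2 * q1))) ≤ gap / (8 * (5 + q0 + 2 * q1)) :=
      min_le_right _ _
    rw [le_div_iff₀ h5] at h6
    linarith
  obtain ⟨q, hqd⟩ : ∃ q : ℝ, q = 5 - s - g + q1 + ε * (5 + q0 + 2 * q1) := ⟨_, rfl⟩
  obtain ⟨A, hAd⟩ : ∃ A : ℝ, A = (4 - s - g) * (1 - κ) - (3 + q0) * θa -
      (1 + q1) * (10 * κ + θb) := ⟨_, rfl⟩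
  have hδ1 : 0 < gap / 8 := by positivity
  obtain ⟨m0, hm0, hm0k⟩ : ∃ m0 : ℝ, 0 < m0 ∧ ∀ k, m0 ≤ rc θa θb w0 sa sb v0 k := by
    have hne : (Finset.univ : Finset (Fin 12)).Nonempty := Finset.univ_nonempty
    refine ⟨Finset.univ.inf' hne (rc θa θb w0 sa sb v0), ?_, fun k =>
      Finset.inf'_le _ (Finset.mem_univ k)⟩
    rw [Finset.lt_inf'_iff]
    exact fun k _ => (hbx v0 hv0I k).1
  obtain ⟨t1, t0, u0, ht0, ht01, hu0, ht1δ, ht1v, hu1, hu2, hc1, hc2, hc3, hc4, hc5⟩ :=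
    exists_cst (A := A) (q := q) hθ hκ hε hL hδ1 hδ hm0 hva hvb
  -- the bad heights near `v0`
  set V : Set ℝ := E ∩ Ioo (v0 - u0) (v0 + u0) with hVd
  have hV : volume V ≠ 0 := by
    refine (hv0 V ?_).ne'
    exact inter_mem self_mem_nhdsWithin
      (mem_nhdsWithin_of_mem_nhds (Ioo_mem_nhds (by linarith) (by linarith)))
  have hVu : ∀ v ∈ V, |v - v0| ≤ u0 := by
    intro v hv
    rw [abs_le]
    exact ⟨by linarith [hv.2.1], by linarith [hv.2.2]⟩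
  have hVI : ∀ v ∈ V, v ∈ Icc v1 v2 := fun v hv => ⟨hv.1.1.1.le, hv.1.1.2.le⟩
  -- pointwise geometry
  have hle : ∀ τ v : ℝ, t0 ≤ τ → |v - v0| ≤ u0 →
      natB (w0 + v0 + κ * (v - v0) + -τ) (sa + θa * (1 - v0) + ε * -τ)
        (sb + θb * (1 - v0) + 10 * κ * (v - v0) + (1 + 2 * ε) * -τ) ≤
        rc θa θb w0 sa sb v := by
    intro τ v hτ hv
    obtain ⟨b1, b2⟩ := abs_le.1 hv
    have c2 : ε * t0 ≤ ε * τ := mul_le_mul_of_nonneg_left hτ hε.le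
    have c3 : θa * (v - v0) ≤ θa * u0 := mul_le_mul_of_nonneg_left b2 hθ.le
    have c4 : κ * (v - v0) ≤ κ * u0 := mul_le_mul_of_nonneg_left b2 hκ.le
    refine pt_le_D hκ9 ?_ (by linarith)
    have e1 : (1 - κ) * (v - v0) = (v - v0) - κ * (v - v0) := by ring
    rw [e1]; linarith
  have hle' : ∀ τ v : ℝ, t0 ≤ τ → |v - v0| ≤ u0 →
      natB (w0 + v0 + κ * (v - v0) + -τ) (sa + θa * (1 - v0) + ε * -τ)
        (sb + θb * (1 - v0) + 10 * κ * (v - v0) + (1 + 2 * ε) * -τ) ≤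
        rc θa θb w0 sa sb (v0 + τ * ε / θa) := by
    intro τ v hτ hv
    obtain ⟨b1, b2⟩ := abs_le.1 hv
    have c2 : ε * t0 ≤ ε * τ := mul_le_mul_of_nonneg_left hτ hε.le
    have c4 : κ * (v - v0) ≤ κ * u0 := mul_le_mul_of_nonneg_left b2 hκ.le
    have c5 : u0 ≤ τ * ε / θa := by rw [le_div_iff₀ hθ]; linarith
    exact pt_le_C hθ hκ9 hκ.le (by field_simp) (by linarith) (by linarith)
  have hdo : ∀ τ v : ℝ, t0 ≤ τ → τ ≤ t1 → |v - v0| ≤ u0 →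
      Do (w0 + v0 + κ * (v - v0) + -τ) (sa + θa * (1 - v0) + ε * -τ)
        (sb + θb * (1 - v0) + 10 * κ * (v - v0) + (1 + 2 * ε) * -τ) := by
    intro τ v hτ hτ1 hv
    have c1 : 10 * κ * |v - v0| ≤ ε * τ / L := by
      rw [le_div_iff₀ hL]
      have c2 : 10 * κ * |v - v0| * L ≤ 10 * κ * u0 * L :=
        mul_le_mul_of_nonneg_right (mul_le_mul_of_nonneg_left hv (by positivity)) hL.le
      have c4 : ε * t0 ≤ ε * τ := mul_le_mul_of_nonneg_left hτ hε.le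
      linarith
    have c0 : 0 ≤ κ * |v - v0| := by positivity
    have h6 := hdom v0 hv0I ε τ (κ * (v - v0)) (10 * κ * (v - v0)) hε hε4 (by linarith)
      (by linarith) (by rw [abs_mul, abs_of_pos hκ]; linarith)
      (by rw [abs_mul, abs_of_pos (by positivity : (0:ℝ) < 10 * κ)]; exact c1)
    have e1 : w0 + v0 + κ * (v - v0) + -τ = w0 + v0 - τ + κ * (v - v0) := by ring
    have e2 : sa + θa * (1 - v0) + ε * -τ = sa + θa * (1 - v0) - ε * τ := by ring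
    have e3 : sb + θb * (1 - v0) + 10 * κ * (v - v0) + (1 + 2 * ε) * -τ =
        sb + θb * (1 - v0) - (1 + 2 * ε) * τ + 10 * κ * (v - v0) := by ring
    rw [e1, e2, e3]
    exact h6
  have hbox : ∀ τ v : ℝ, t0 ≤ τ → τ ≤ t1 → |v - v0| ≤ u0 → v ∈ Icc v1 v2 →
      ∀ k, 0 < natB (w0 + v0 + κ * (v - v0) + -τ) (sa + θa * (1 - v0) + ε * -τ)
        (sb + θb * (1 - v0) + 10 * κ * (v - v0) + (1 + 2 * ε) * -τ) k ∧
        natB (w0 + v0 + κ * (v - v0) + -τ) (sa + θa * (1 - v0) + ε * -τ)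
        (sb + θb * (1 - v0) + 10 * κ * (v - v0) + (1 + 2 * ε) * -τ) k < R :=
    fun τ v hτ hτ1 hv hvI k => ⟨pt_low hκ hε hε4 hm0k hv (by linarith) hτ1 hc1 k,
      (hle τ v hτ hv k).trans_lt (hbx v hvI k).2⟩
  -- the good set
  obtain ⟨G, hG, eng⟩ : ∃ G : ℝ × ℝ → Prop, (∀ y, G y →
      (∀ k, 0 < Dg262.X (natB (w0 + v0 - κ * v0) (sa + θa * (1 - v0))
        (sb + θb * (1 - v0) - 10 * κ * v0)) (natB 1 ε (1 + 2 * ε)) (natB κ 0 (10 * κ)) y k ∧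
        Dg262.X (natB (w0 + v0 - κ * v0) (sa + θa * (1 - v0))
        (sb + θb * (1 - v0) - 10 * κ * v0)) (natB 1 ε (1 + 2 * ε)) (natB κ 0 (10 * κ)) y k < R) →
      ∃ D : ℝ × ℝ →L[ℝ] ℝ,
        HasFDerivAt (fun y => f j0 (Dg262.X (natB (w0 + v0 - κ * v0) (sa + θa * (1 - v0))
        (sb + θb * (1 - v0) - 10 * κ * v0)) (natB 1 ε (1 + 2 * ε)) (natB κ 0 (10 * κ)) y)) D y ∧
        ∀ h : ℕ → ℝ, (∀ l, 0 < h l) → Tendsto h atTop (𝓝 0) →
          ∃ ψ : ℕ → ℕ, StrictMono ψ ∧ ∃ ρ : Fin 12 → ℝ, (∀ i ∈ S9, 0 ≤ ρ i) ∧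
            LinTanD (Leg monL R) f j0
              (fun _ => Dg262.X (natB (w0 + v0 - κ * v0) (sa + θa * (1 - v0))
        (sb + θb * (1 - v0) - 10 * κ * v0)) (natB 1 ε (1 + 2 * ε)) (natB κ 0 (10 * κ)) y)
              (fun l => h (ψ l)) (ρ 0) (ρ 5) (ρ 9) (ρ 11) (ρ 3) (ρ 10) (ρ 2) (ρ 7) (ρ 1) ∧
            D (1, 0) = -∑ i ∈ S9, ρ i * natB 1 ε (1 + 2 * ε) i) ∧ ∀ᵐ y, G y := by
    refine ⟨_, fun y hy => hy, ?_⟩
    filter_upwards [engine (j0 := j0) hK hν hm hs (z := w0 + v0 - κ * v0)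
      (c := sa + θa * (1 - v0)) (p := sb + θb * (1 - v0) - 10 * κ * v0) (z1 := 1) (c1 := ε)
      (p1 := 1 + 2 * ε) (z2 := κ) (c2 := 0) (p2 := 10 * κ) (aN_nonneg hε)
      (alone hε hε4 hκ.ne') (dh_ne hε hκ.ne')] with y hy hb
    obtain ⟨D, hD, H⟩ := hy hb
    refine ⟨D, hD, fun h hp h0 => ?_⟩
    obtain ⟨ψ, hψ, r, h1, h2, h3, -⟩ := H h hp h0
    exact ⟨ψ, hψ, r, h1, h2, h3⟩
  have hN : ∀ᵐ z : ℝ × ℝ, z ∈ {z : ℝ × ℝ | G (z.2, z.1)} := by
    have hsw : Measure.QuasiMeasurePreserving (Prod.swap : ℝ × ℝ → ℝ × ℝ) volume volume := by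
      rw [Measure.volume_eq_prod]
      exact Measure.measurePreserving_swap.quasiMeasurePreserving
    exact hsw.ae eng
  have hXp := X_pt θa θb w0 sa sb v0 ε κ
  set x0 : Fin 12 → ℝ := natB (w0 + v0 - κ * v0) (sa + θa * (1 - v0))
    (sb + θb * (1 - v0) - 10 * κ * v0) with hx0
  set a : Fin 12 → ℝ := natB 1 ε (1 + 2 * ε) with ha
  set b : Fin 12 → ℝ := natB κ 0 (10 * κ) with hb
  set S : Set (ℝ × ℝ) := {z | ∀ k, 0 < Dg262.X x0 a b (z.2, z.1) k ∧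
    Dg262.X x0 a b (z.2, z.1) k < R} with hS
  have hSo : IsOpen S := by
    have hc : Continuous fun z : ℝ × ℝ => Dg262.X x0 a b (z.2, z.1) := by
      unfold Dg262.X
      fun_prop
    have e : S = (fun z : ℝ × ℝ => Dg262.X x0 a b (z.2, z.1)) ⁻¹'
        (Set.pi Set.univ fun _ => Ioo 0 R) := by
      ext z
      simp [hS, Set.mem_pi]
    rw [e]
    exact (isOpen_set_pi Set.finite_univ fun _ _ => isOpen_Ioo).preimage hc
  have hleg : ∀ z ∈ S, Dg262.X x0 a b (z.2, z.1) ∈ Leg monL R := by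
    intro z hz
    have hz' : ∀ k, 0 < Dg262.X x0 a b (z.2, z.1) k ∧ Dg262.X x0 a b (z.2, z.1) k < R := hz
    rw [hXp] at hz' ⊢
    exact nat_leg (fun k => (hz' k).1.le) fun k => (hz' k).2.le
  have hmemS : ∀ v ∈ V, ∀ t ∈ Icc (-t1) (-t0), (v, t) ∈ S := by
    intro v hv t ht
    have h6 := hbox (-t) v (by linarith [ht.2]) (by linarith [ht.1]) (hVu v hv) (hVI v hv)
    intro k
    show 0 < Dg262.X x0 a b (t, v) k ∧ Dg262.X x0 a b (t, v) k < R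
    rw [hXp]
    have h7 := h6 k
    rw [neg_neg] at h7
    exact h7
  have hbud : ∀ v ∈ V, -f j0 (Dg262.X x0 a b (-t0, v)) - -f j0 (Dg262.X x0 a b (-t1, v)) ≤
      (q + gap / 8) * (-t0 - -t1) := by
    intro v hv
    have h1 := hle t0 v le_rfl (hVu v hv)
    have hb0 := hmemS v hv (-t0) ⟨by linarith, le_rfl⟩
    have hb1 := hmemS v hv (-t1) ⟨le_rfl, by linarith⟩
    have h2 := hleg _ hb0
    have h3 := (hm _ h2 _ (nat_leg (fun k => (hbx v (hVI v hv) k).1.le)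
      fun k => (hbx v (hVI v hv) k).2.le) (by
        show Dg262.X x0 a b (-t0, v) ≤ _
        rw [hXp]; exact h1)).1
    have h4 := hrec v (hVI v hv)
    have h5' := hDm _ _ _ (hdo t1 v (by linarith) le_rfl (hVu v hv))
    have h6 := pt_Dm (θa := θa) (θb := θb) (w0 := w0) (sa := sa) (sb := sb) (v0 := v0) (ε := ε)
      (κ := κ) (τ := t1) (v := v) (g := g) (s := s) (q0 := q0) (q1 := q1)
    rw [← hqd, ← hAd] at h6
    have h7 : A * (v - v0) ≤ |A| * u0 := by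
      refine (le_abs_self _).trans ?_
      rw [abs_mul]
      exact mul_le_mul_of_nonneg_left (hVu v hv) (abs_nonneg _)
    rw [hXp (-t1) v]
    have h3' : f j0 (rc θa θb w0 sa sb v) ≤ f j0 (Dg262.X x0 a b (-t0, v)) := h3
    have e1 : (q + gap / 8) * (-t0 - -t1) = q * t1 + gap / 8 * t1 - (q + gap / 8) * t0 := by ring
    rw [e1]
    linarith
  obtain ⟨v, hvV, t, ht, hgood, -, hder⟩ := Sg388.exists_pt_fib hSo
    (plane_lip hK (hν j0) hleg) hV (y0 := -t1) (y := -t0) (a := q + gap / 8) (by linarith) hmemS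
    hbud hδ1 hN
  have htI : t ∈ Icc (-t1) (-t0) := ⟨ht.1.le, ht.2.le⟩
  have hbz : ∀ k, 0 < Dg262.X x0 a b (t, v) k ∧ Dg262.X x0 a b (t, v) k < R :=
    hmemS v hvV t htI
  obtain ⟨D, hD, H⟩ := hG (t, v) hgood hbz
  rw [fderiv_swap hD] at hder
  -- the scales
  obtain ⟨ns, hns, hns2⟩ := exists_seq_forall_of_frequently
    (hvV.1.2.and_eventually self_mem_nhdsWithin)
  have hpos : ∀ l, 0 < ns l := fun l => (hns2 l).2
  have hns0 : Tendsto ns atTop (𝓝 0) := tendsto_nhds_of_tendsto_nhdsWithin hns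
  obtain ⟨ψ, hψ, r, hr, T, hsum⟩ := H ns hpos hns0
  have hnψ : Tendsto (fun l => ns (ψ l)) atTop (𝓝[>] 0) := hns.comp hψ.tendsto_atTop
  have hXt := hXp t v
  -- the base
  obtain ⟨τ, hτ⟩ : ∃ τ : ℝ, t = -τ := ⟨-t, by ring⟩
  subst hτ
  have hτ0 : t0 ≤ τ := by linarith [htI.2]
  have hτ1 : τ ≤ t1 := by linarith [htI.1]
  have hvu := hVu v hvV
  have hvI := hVI v hvV
  set p : Fin 12 → ℝ := Dg262.X x0 a b (-τ, v) with hp
  have hpL : p ∈ Leg monL R := by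
    have := hleg (v, -τ) hbz
    exact this
  have hrI : v0 + τ * ε / θa ∈ Icc v1 v2 := by
    have h6 : 0 ≤ τ * ε / θa := by
      have : 0 < τ := by linarith
      positivity
    have h7 : τ * ε / θa ≤ t1 * ε / θa := by
      rw [div_le_div_iff_of_pos_right hθ]
      exact mul_le_mul_of_nonneg_right hτ1 hε.le
    exact ⟨by linarith, by linarith⟩
  have hq1L : rc θa θb w0 sa sb v ∈ Leg monL R :=
    nat_leg (fun k => (hbx v hvI k).1.le) fun k => (hbx v hvI k).2.le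
  have hq2L : rc θa θb w0 sa sb (v0 + τ * ε / θa) ∈ Leg monL R :=
    nat_leg (fun k => (hbx _ hrI k).1.le) fun k => (hbx _ hrI k).2.le
  -- rates
  have hzero := zero_mem
  have hgD : ρ ≤ r 1 := by
    have h1 := incr_le hs hpL hq1L (by rw [hp, hXp]; exact hle τ v hτ0 hvu) uD_nonneg uD_z
      (fun k hk => ?_) (fun k => (hbx v hvI k).2)
    · have h2 := rate_ge (q := ρ) T (z := 0) (d := 1) (E := 0) (C := 0) (x := 0) (B := 0)
        (H := 0) (p := 0) (F := 0) (lm_raise uD_nonneg uD_z) hzero (by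
          filter_upwards [hnψ.eventually h1] with l hl
          exact (hns2 (ψ l)).1.trans hl)
      simpa using h2
    · rw [hp, hXp]
      have hk1 : k = 1 := by
        by_contra hne
        exact hk (by fin_cases k <;> simp [uD, bx9] at hne ⊢)
      subst hk1
      have e : θb = 2 * θa - 1 - 9 * κ := by linarith
      simp only [rc, natB, bx9]
      simp
      rw [e]
      ring
  have hgC : q0 ≤ r 3 := by
    have h1 := incr_le hs hpL hq2L (by rw [hp, hXp]; exact hle' τ v hτ0 hvu) uC_nonneg uC_z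
      (fun k hk => ?_) (fun k => (hbx _ hrI k).2)
    · have h2 := rate_ge (q := q0) T (z := 0) (d := 0) (E := 0) (C := 1) (x := 0) (B := 0)
        (H := 0) (p := 0) (F := 0) (lm_raise uC_nonneg uC_z) hzero (by
          filter_upwards [hnψ.eventually h1, hnψ.eventually (hC _ hrI)] with l hl hl2
          exact hl2.trans hl)
      simpa using h2
    · rw [hp, hXp]
      have e1 : θa * (1 - (v0 + τ * ε / θa)) = θa * (1 - v0) - ε * τ := by
        field_simp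
        ring
      have hk1 : k = 3 ∨ k = 4 := by
        by_contra hne
        push Not at hne
        exact hk (by fin_cases k <;> simp [uC, bx9] at hne ⊢)
      rcases hk1 with rfl | rfl
      · simp only [rc, natB, bx9]
        simp
        linarith
      · simp only [rc, natB, bx9]
        simp
        linarith
  have hdov := hdo τ v hτ0 hτ1 hvu
  have hrz : 1 - s ≤ r 0 := by
    have h1 := hown _ _ _ hdov
    have h2 := rate_ge (q := 1 - s) T (z := 1) (d := 0) (E := 0) (C := 0) (x := 0) (B := 0)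
      (H := 0) (p := 0) (F := 0) uZ_mem hzero (by
        filter_upwards [hnψ.eventually h1] with l hl
        rw [← hXp] at hl
        exact hl)
    simpa using h2
  -- facts
  have hpe : p = natB (w0 + v0 + κ * (v - v0) + -τ) (sa + θa * (1 - v0) + ε * -τ)
        (sb + θb * (1 - v0) + 10 * κ * (v - v0) + (1 + 2 * ε) * -τ) := hXp _ _
  have T' := T
  rw [hpe] at T'
  obtain ⟨k1, h1', s3, k2⟩ := hFct _ _ _ hdov _ _ _ _ _ _ _ _ _ _ T' hrz
  have hC0 : 0 < r 3 := by linarith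
  have hD0 : 0 < r 1 := by linarith
  have hal := d0_alg (q1 := q1) (g := g) hε s2 hrz (hr 2 (by decide)) (hr 3 (by decide))
    (hr 7 (by decide)) (k1 hC0) (h1' hC0) (s3 hD0) k2
  rw [hsum, sum_aN, neg_neg] at hder
  linarith


end Crest.Agent.R116.D0n878
end

-- ▼ part R116/D0r_708
section

/-!
# R116, K-TEXT II-c, Lemma D0: increments at the record over natural `D` (helper708)

For 878's `d0_micro`: at the record box `rL v` (natural `D`, any flags)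

* `recN_C` : `q0 y ≤ ν (R) - ν (R + y uC)`;
* `recN_CP` : `(g - 1 + q0 + c q1) y ≤ ν (R) - ν (R + y uC)`, from the box `(v - y; a + y, b + c y)`,
  `0 ≤ c ≤ 1` (`c = 1` untied and κ-tie `k' ≤ 1`, `c = 1 - k` at an e-tie `k ≤ 1`);
* `own_e0`, `frz_leg`, `frz_e0_leg` : own increments at boxes with any `D` finer than natural.
-/

set_option autoImplicit false

open Finset

namespace Crest.Agent.R116.D0r708

open Crest.Agent.R138.Ex926 (Base U)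
open Crest.Agent.R136.Net191
open Crest.Agent.R136.Lq196
open Crest.Agent.R116.ChL222
open Crest.Agent.R116.PL504 (nb rL DN Shift)
open Crest.Agent.R116.Xd954 (cs xs FlagX Mrg)
open Crest.Agent.R116.Sg337
open Crest.Agent.R116

/-- what is used of the profile near the box `c` (no own increments: ties allowed) -/
structure ProfN (R δ : ℝ) (a b : Fin 2) (c : Fin 12 → ℝ) (ν : (Fin 12 → ℝ) → ℝ) : Prop where
  ab : a ≠ b
  anti : ∀ p ∈ Leg monL R, ∀ q ∈ Leg monL R, p ≤ q → ν q ≤ ν p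
  cost : ∀ p ∈ Leg monL R, ∀ q ∈ Leg monL R, p ≤ q → (∀ k, |p k - c k| ≤ δ) →
    (∀ k, |q k - c k| ≤ δ) → (q (cs b) ≤ p (cs b) ∨ q (cs b) ≤ q (cs a)) →
    (q (xs b) ≤ p (xs b) ∨ q (xs b) ≤ q (xs a)) →
    ν p - ν q ≤ ∑ k ∈ ({cs b, xs b} : Finset (Fin 12))ᶜ, (q k - p k)

section core

variable {R w0 s δ m z0 C0 P0 z C P y : ℝ} {a b : Fin 2} {ν : (Fin 12 → ℝ) → ℝ}

/-- box over the natural one: `D` natural, `C + y3`, `X + y4`, `N + y6`, `P + y7` -/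
def nB (z C P y3 y4 y6 y7 : ℝ) : Fin 12 → ℝ :=
  bx9 z (P - 2 * C - z) (P - 2 * C) (C + y3) (z + C + y4) (P - C) (z + 2 * C + y6) (P + y7) (z + P)

theorem nB_leg (h : Ctr R w0 δ m z0 C0 P0) (n : Nr m z0 C0 P0 z C P) {y3 y4 y6 y7 : ℝ}
    (h3 : 0 ≤ y3 ∧ y3 ≤ m) (h4 : 0 ≤ y4 ∧ y4 ≤ y3) (h6 : 0 ≤ y6 ∧ y6 ≤ y3 + y4)
    (h7 : 0 ≤ y7 ∧ y7 ≤ y3 ∧ y7 ≤ y6) : nB z C P y3 y4 y6 y7 ∈ Leg monL R := by
  obtain ⟨m1, m2, m3, m4, m5, m6, m7, m8⟩ := h
  obtain ⟨n1, n2, n3, n4, n5, n6⟩ := n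
  obtain ⟨a1, a2⟩ := h3
  obtain ⟨b1, b2⟩ := h4
  obtain ⟨c1, c2⟩ := h6
  obtain ⟨d1, d2, d3⟩ := h7
  refine leg9 ⟨?_, ?_, ?_, ?_, ?_, ?_, ?_, ?_, ?_⟩ ⟨?_, ?_, ?_, ?_, ?_, ?_, ?_, ?_, ?_, ?_⟩
    ⟨?_, ?_, ?_, ?_, ?_, ?_, ?_, ?_, ?_⟩ <;> linarith

theorem nB_near (h : Ctr R w0 δ m z0 C0 P0) (n : Nr m z0 C0 P0 z C P) {y3 y4 y6 y7 : ℝ}
    (h3 : 0 ≤ y3 ∧ y3 ≤ m) (h4 : 0 ≤ y4 ∧ y4 ≤ y3) (h6 : 0 ≤ y6 ∧ y6 ≤ y3 + y4)
    (h7 : 0 ≤ y7 ∧ y7 ≤ y3 ∧ y7 ≤ y6) :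
    ∀ k, |nB z C P y3 y4 y6 y7 k - natB z0 C0 P0 k| ≤ δ := by
  obtain ⟨m1, m2, m3, m4, m5, m6, m7, m8⟩ := h
  obtain ⟨n1, n2, n3, n4, n5, n6⟩ := n
  obtain ⟨a1, a2⟩ := h3
  obtain ⟨b1, b2⟩ := h4
  obtain ⟨c1, c2⟩ := h6
  obtain ⟨d1, d2, d3⟩ := h7
  refine bx9_near ?_ ?_ ?_ ?_ ?_ ?_ ?_ ?_ ?_ <;> rw [abs_le] <;> constructor <;> linarith

theorem nB_cost (H : ProfN R δ a b (natB z0 C0 P0) ν) (h : Ctr R w0 δ m z0 C0 P0)
    (n : Nr m z0 C0 P0 z C P) {y3 y4 y6 y7 x3 x4 x6 x7 : ℝ}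
    (h3 : 0 ≤ y3 ∧ y3 ≤ m) (h4 : 0 ≤ y4 ∧ y4 ≤ y3) (h6 : 0 ≤ y6 ∧ y6 ≤ y3 + y4)
    (h7 : 0 ≤ y7 ∧ y7 ≤ y3 ∧ y7 ≤ y6)
    (g3 : 0 ≤ x3 ∧ x3 ≤ m) (g4 : 0 ≤ x4 ∧ x4 ≤ x3) (g6 : 0 ≤ x6 ∧ x6 ≤ x3 + x4)
    (g7 : 0 ≤ x7 ∧ x7 ≤ x3 ∧ x7 ≤ x6) (l3 : y3 ≤ x3) (l4 : y4 ≤ x4) (l6 : y6 ≤ x6)
    (l7 : y7 ≤ x7) :
    ν (nB z C P y3 y4 y6 y7) - ν (nB z C P x3 x4 x6 x7) ≤
      (x3 - y3) + (x4 - y4) + (x6 - y6) + (x7 - y7) := by
  have hab := H.ab
  refine (H.cost _ (nB_leg h n h3 h4 h6 h7) _ (nB_leg h n g3 g4 g6 g7) ?_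
    (nB_near h n h3 h4 h6 h7) (nB_near h n g3 g4 g6 g7) (Or.inr ?_) (Or.inr ?_)).trans
    (le_of_eq ?_)
  · exact bx9_le le_rfl le_rfl le_rfl (by linarith) (by linarith) le_rfl (by linarith)
      (by linarith) le_rfl
  · fin_cases a <;> fin_cases b <;> exact le_rfl
  · fin_cases a <;> fin_cases b <;> exact le_rfl
  · unfold nB
    rw [bx9_sum hab]
    ring


theorem nB_uC : nB z C P y 0 0 0 = natB z C P + y • uC := by
  funext k
  fin_cases k <;> simp [nB, natB, uC, bx9]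

variable {g q0 q1 K c : ℝ}

/-- **(iii)** at the record, natural `D` -/
theorem recN_C (H : ProfN R δ a b (natB z0 C0 P0) ν) (h : Ctr R w0 δ m z0 C0 P0)
    (n : Nr m z0 C0 P0 z C P) (n' : Nr m z0 C0 P0 z (C + y) P)
    (y0 : 0 ≤ y) (ym : y ≤ m) (hrec : K + Dm g s q0 q1 z C P ≤ ν (natB z C P))
    (hD : ν (natB z (C + y) P) ≤ K + Dm g s q0 q1 z (C + y) P) :
    q0 * y ≤ ν (natB z C P) - ν (natB z C P + y • uC) := by
  have hm := h.m0.le
  have hc := nB_cost H h n (y3 := y) (y4 := 0) (y6 := 0) (y7 := 0) (x3 := y) (x4 := y)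
    (x6 := 2 * y) (x7 := 0) ⟨y0, ym⟩ ⟨le_rfl, y0⟩ ⟨le_rfl, by linarith⟩ ⟨le_rfl, y0, le_rfl⟩
    ⟨y0, ym⟩ ⟨y0, le_rfl⟩ ⟨by linarith, by linarith⟩ ⟨le_rfl, y0, by linarith⟩ le_rfl y0
    (by linarith) le_rfl
  have hl : natB z (C + y) P ≤ nB z C P y y (2 * y) 0 :=
    bx9_le le_rfl (by linarith) (by linarith) le_rfl (by linarith) (by linarith) (by linarith)
      (by linarith) le_rfl
  have ha := H.anti _ (natB_leg h n') _ (nB_leg h n ⟨y0, ym⟩ ⟨y0, le_rfl⟩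
    ⟨by linarith, by linarith⟩ ⟨le_rfl, y0, by linarith⟩) hl
  rw [← nB_uC]
  unfold Dm at hrec hD
  nlinarith

/-- the box `(v - y; a + y, b + c y)` over the height `v` -/
def qB (z C P y c : ℝ) : Fin 12 → ℝ :=
  bx9 z (P - 2 * C - z + (c - 1) * y) (P - 2 * C + (c - 2) * y) (C + y) (z + C)
    (P - C + (c - 1) * y) (z + 2 * C + y) (P + c * y) (z + P + (c - 1) * y)

theorem qB_eq : qB z C P y c = natB (z - y) (C + y) (P + c * y) + y • Pi.single 0 1 := by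
  funext k
  fin_cases k <;> simp [qB, natB, bx9] <;> ring

theorem qB_leg (h : Ctr R w0 δ m z0 C0 P0) (n : Nr m z0 C0 P0 z C P) (y0 : 0 ≤ y) (ym : y ≤ m)
    (c0 : 0 ≤ c) (c1 : c ≤ 1) : qB z C P y c ∈ Leg monL R := by
  have e1 : 0 ≤ c * y := mul_nonneg c0 y0
  have e2 : c * y ≤ y := by nlinarith
  have e3 : (c - 1) * y = c * y - y := by ring
  have e4 : (c - 2) * y = c * y - 2 * y := by ring
  obtain ⟨m1, m2, m3, m4, m5, m6, m7, m8⟩ := h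
  obtain ⟨n1, n2, n3, n4, n5, n6⟩ := n
  unfold qB
  rw [e3, e4]
  refine leg9 ⟨?_, ?_, ?_, ?_, ?_, ?_, ?_, ?_, ?_⟩ ⟨?_, ?_, ?_, ?_, ?_, ?_, ?_, ?_, ?_, ?_⟩
    ⟨?_, ?_, ?_, ?_, ?_, ?_, ?_, ?_, ?_⟩ <;> linarith

/-- **(iv)** at the record, natural `D`: `C` costs at least `(g - 1 + q0 + c q1) y` -/
theorem recN_CP (H : ProfN R δ a b (natB z0 C0 P0) ν) (h : Ctr R w0 δ m z0 C0 P0)
    (n : Nr m z0 C0 P0 z C P) (y0 : 0 ≤ y) (ym : y ≤ m) (c0 : 0 ≤ c) (c1 : c ≤ 1)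
    (hrec : K + Dm g s q0 q1 z C P ≤ ν (natB z C P))
    (hD : ν (natB (z - y) (C + y) (P + c * y)) ≤ K + Dm g s q0 q1 (z - y) (C + y) (P + c * y))
    (hown : (1 - s) * y ≤ ν (natB (z - y) (C + y) (P + c * y)) -
      ν (natB (z - y) (C + y) (P + c * y) + y • Pi.single 0 1)) :
    (g - 1 + q0 + c * q1) * y ≤ ν (natB z C P) - ν (natB z C P + y • uC) := by
  have e1 : 0 ≤ c * y := mul_nonneg c0 y0
  have e2 : c * y ≤ y := by nlinarith
  have hc := nB_cost H h n (y3 := y) (y4 := 0) (y6 := 0) (y7 := 0) (x3 := y) (x4 := 0)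
    (x6 := y) (x7 := c * y) ⟨y0, ym⟩ ⟨le_rfl, y0⟩ ⟨le_rfl, by linarith⟩ ⟨le_rfl, y0, le_rfl⟩
    ⟨y0, ym⟩ ⟨le_rfl, y0⟩ ⟨y0, by linarith⟩ ⟨e1, e2, e2⟩ le_rfl le_rfl y0 e1
  have hl : qB z C P y c ≤ nB z C P y 0 y (c * y) := by
    have e3 : (c - 1) * y = c * y - y := by ring
    have e4 : (c - 2) * y = c * y - 2 * y := by ring
    unfold qB nB
    rw [e3, e4]
    exact bx9_le le_rfl (by linarith) (by linarith) le_rfl (by linarith) (by linarith)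
      (by linarith) (by linarith) (by linarith)
  have ha := H.anti _ (qB_leg h n y0 ym c0 c1) _ (nB_leg h n ⟨y0, ym⟩ ⟨le_rfl, y0⟩
    ⟨y0, by linarith⟩ ⟨e1, e2, e2⟩) hl
  rw [← qB_eq] at hown
  rw [← nB_uC]
  unfold Dm at hrec hD
  nlinarith

end core




section ext

variable {B : Base} {I0 I : ℕ → Finset (ℕ × ℝ)} {lev : ℕ → ℚ → ℕ} {inc : ℕ → ℕ × ℝ → LInc}
    {σ : Fin 2 → ℕ → ℝ} {k0 ϑ w0 sa sb g q0 q1 θa θb : ℝ} {a b : Fin 2}
    {C R s c₀ : ℝ} {PD : Set (Fin 12 → ℝ)} {D : (Fin 12 → ℝ) → ℝ}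
    {o : ℝ → Fin 12 → ℝ} {E : ℝ → ℝ} {T : Fin 12 → Prop} {ν own : (Fin 12 → ℝ) → ℝ}

/-- **own increments in the height** -/
theorem own_e0
    (h : ExtQ B I0 I (Gd222.coN B lev inc σ w0 sa sb) monL C R 0 w0 s PD D
      (rL θa θb w0 sa sb) o E T ν own c₀) {p : Fin 12 → ℝ} {v y : ℝ}
    (hp : p ∈ Leg monL R) (hq : p + y • Pi.single 0 1 ∈ Leg monL R) (hy : 0 ≤ y)
    (hv0 : 0 ≤ v) (hv1 : v + y ≤ 1) (hpz : p 0 = w0 + v) (hpo : ∀ k, p k ≤ o v k) :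
    (1 - s) * y ≤ ν p - ν (p + y • Pi.single 0 1) := by
  have h1 := PL504.own_inc h hp hq (by
    intro k
    have : 0 ≤ (y • (Pi.single 0 1 : Fin 12 → ℝ)) k := by
      rw [Pi.smul_apply, smul_eq_mul]
      refine mul_nonneg hy ?_
      by_cases hk : k = 0
      · subst hk; simp
      · simp [hk]
    show p k ≤ p k + _
    linarith) (v := v) (v' := v + y) hv0 (by linarith) (by linarith) hv1 hpz (by
      show p 0 + (y • (Pi.single 0 1 : Fin 12 → ℝ)) 0 = _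
      rw [hpz]; simp; ring) hpo
  have e : v + y - v = y := by ring
  rwa [e] at h1

/-- the profile near a natural box, ties allowed -/
theorem profN_of
    (h : ExtQ B I0 I (Gd222.coN B lev inc σ w0 sa sb) monL C R 0 w0 s PD D
      (rL θa θb w0 sa sb) o E T ν own c₀)
    (hF : FlagX B I lev inc σ k0 ϑ a b) {v t y δ : ℝ} (hm : Mrg k0 ϑ v t y δ) :
    ProfN R δ a b (natB (w0 + v) (sa + t) (sb + y)) ν where
  ab := hF.ab
  anti := fun p hp q hq hpq => by linarith [(h.lip p hp q hq hpq).1]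
  cost := fun p hp q hq hpq h1 h2 h3 h4 => by
    rw [← nb_natB] at h1 h2
    exact Xd954.nu_lip_nat h hF hm hp hq hpq h1 h2 h3 h4

theorem rL_natB (θa θb w0 sa sb t : ℝ) : rL θa θb w0 sa sb t =
    natB (w0 + t) (sa + θa * (1 - t)) (sb + θb * (1 - t)) := by
  rw [PL504.rL_nb, nb_natB]

/-- **`D0`, inputs (a), (b) of 878**: `C`-increments at the record, natural `D`.  `c = 1` untied and
at a κ-tie `k' ≤ 1`, `c = 1 - k` at an e-tie `k ≤ 1`; `hoq` = the box `(v - y; a + y, b + c y)` is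
below the own box of the height `v - y` (untied: `hoq_untied`). -/
theorem d0r_all
    (h : ExtQ B I0 I (Gd222.coN B lev inc σ w0 sa sb) monL C R 0 w0 s PD D
      (rL θa θb w0 sa sb) o E T ν own c₀)
    (hF : FlagX B I lev inc σ k0 ϑ a b)
    (hD : ∀ v a b : ℝ, D (nb w0 sa sb v a b) = DN g s q0 q1 θa θb v a b)
    (hE : ∀ v : ℝ, 0 ≤ v → v ≤ 1 → E v = DN g s q0 q1 θa θb v (θa * (1 - v)) (θb * (1 - v)))
    {v0 δ κ0 c : ℝ} (hv0 : 0 < v0) (hv1 : v0 < 1)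
    (hm : Mrg k0 ϑ v0 (θa * (1 - v0)) (θb * (1 - v0)) δ)
    (hw : 0 < w0) (hC : 0 < sa + θa * (1 - v0))
    (hDn : 0 < (sb + θb * (1 - v0)) - 2 * (sa + θa * (1 - v0)) - (w0 + v0))
    (hR : (w0 + v0) + (sb + θb * (1 - v0)) < R)
    (hκ0 : 0 < κ0) (hc0 : 0 ≤ c) (hc1 : c ≤ 1)
    (hPD : ∀ v a b : ℝ, |v - v0| ≤ κ0 → |a - θa * (1 - v0)| ≤ κ0 → |b - θb * (1 - v0)| ≤ κ0 →
      nb w0 sa sb v a b ∈ PD)
    (hoq : ∀ v y : ℝ, |v - v0| ≤ κ0 → 0 ≤ y → y ≤ κ0 → 0 ≤ v - y → v ≤ 1 →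
      nb w0 sa sb (v - y) (θa * (1 - v) + y) (θb * (1 - v) + c * y) ∈ Leg monL R →
      ∀ k, nb w0 sa sb (v - y) (θa * (1 - v) + y) (θb * (1 - v) + c * y) k ≤ o (v - y) k) :
    ∃ κ : ℝ, 0 < κ ∧ κ < v0 ∧ v0 + κ < 1 ∧ κ ≤ κ0 ∧ ∀ v y : ℝ, |v - v0| ≤ κ → 0 ≤ y → y ≤ κ →
      rL θa θb w0 sa sb v ∈ Leg monL R ∧ rL θa θb w0 sa sb v + y • uC ∈ Leg monL R ∧
      q0 * y ≤ ν (rL θa θb w0 sa sb v) - ν (rL θa θb w0 sa sb v + y • uC) ∧
      (g - 1 + q0 + c * q1) * y ≤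
        ν (rL θa θb w0 sa sb v) - ν (rL θa θb w0 sa sb v + y • uC) := by
  set A0 : ℝ := sa + θa * (1 - v0) with hA0
  set Q0 : ℝ := sb + θb * (1 - v0) with hQ0
  set z0 : ℝ := w0 + v0 with hz0
  set m0 : ℝ := min (min (min δ v0) (min (1 - v0) A0)) (min (min (Q0 - 2 * A0 - z0)
    (R - (z0 + Q0))) κ0) with hm0
  have hpos : 0 < m0 := by
    rw [hm0]
    refine lt_min (lt_min (lt_min hm.pos hv0) (lt_min (by linarith) hC))
      (lt_min (lt_min hDn (by linarith)) hκ0)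
  have e1 : m0 ≤ δ := ((min_le_left _ _).trans (min_le_left _ _)).trans (min_le_left _ _)
  have e2 : m0 ≤ v0 := ((min_le_left _ _).trans (min_le_left _ _)).trans (min_le_right _ _)
  have e3 : m0 ≤ 1 - v0 := ((min_le_left _ _).trans (min_le_right _ _)).trans (min_le_left _ _)
  have e4 : m0 ≤ A0 := ((min_le_left _ _).trans (min_le_right _ _)).trans (min_le_right _ _)
  have e5 : m0 ≤ Q0 - 2 * A0 - z0 :=
    ((min_le_right _ _).trans (min_le_left _ _)).trans (min_le_left _ _)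
  have e6 : m0 ≤ R - (z0 + Q0) :=
    ((min_le_right _ _).trans (min_le_left _ _)).trans (min_le_right _ _)
  have e7 : m0 ≤ κ0 := (min_le_right _ _).trans (min_le_right _ _)
  set m : ℝ := m0 / 40 with hmd
  have mpos : 0 < m := by positivity
  have em : m0 = 40 * m := by rw [hmd]; ring
  set L : ℝ := 1 + |θa| + |θb| with hL
  have hL1 : 1 ≤ L := by rw [hL]; linarith [abs_nonneg θa, abs_nonneg θb]
  set κ : ℝ := m / (2 * L) with hκ
  have κpos : 0 < κ := by positivity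
  have hκm : L * κ = m / 2 := by rw [hκ]; field_simp
  have κm : κ ≤ m / 2 := by nlinarith
  have hctr' : Ctr R w0 δ m z0 A0 Q0 := by
    constructor <;> linarith
  have dev : ∀ t : ℝ, |t - v0| ≤ κ → |θa * (1 - t) - θa * (1 - v0)| ≤ m / 2 ∧
      |θb * (1 - t) - θb * (1 - v0)| ≤ m / 2 := by
    intro t ht
    constructor
    · have e : θa * (1 - t) - θa * (1 - v0) = -(θa * (t - v0)) := by ring
      rw [e, abs_neg, abs_mul]
      have : |θa| * |t - v0| ≤ L * κ := mul_le_mul (by rw [hL]; linarith [abs_nonneg θb]) ht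
        (abs_nonneg _) (by linarith)
      linarith
    · have e : θb * (1 - t) - θb * (1 - v0) = -(θb * (t - v0)) := by ring
      rw [e, abs_neg, abs_mul]
      have : |θb| * |t - v0| ≤ L * κ := mul_le_mul (by rw [hL]; linarith [abs_nonneg θa]) ht
        (abs_nonneg _) (by linarith)
      linarith
  have hnr : ∀ t x1 x2 x3 : ℝ, |t - v0| ≤ κ → |x1| ≤ κ → |x2| ≤ κ → |x3| ≤ κ →
      Nr m z0 A0 Q0 (w0 + t + x1) (sa + θa * (1 - t) + x2) (sb + θb * (1 - t) + x3) := by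
    intro t x1 x2 x3 h2 h3 h4 h5
    obtain ⟨d1, d2⟩ := dev t h2
    rw [abs_le] at h2 h3 h4 h5 d1 d2
    constructor <;> linarith [h2.1, h2.2, h3.1, h3.2, h4.1, h4.2, h5.1, h5.2, d1.1, d1.2, d2.1,
      d2.2]
  set K : ℝ := c₀ - Dm g s q0 q1 w0 (sa + θa) (sb + θb) with hK
  have hdm : ∀ t x1 x2 x3 : ℝ, |t - v0| ≤ κ → |x1| ≤ κ → |x2| ≤ κ → |x3| ≤ κ →
      ν (natB (w0 + t + x1) (sa + θa * (1 - t) + x2) (sb + θb * (1 - t) + x3)) ≤
        K + Dm g s q0 q1 (w0 + t + x1) (sa + θa * (1 - t) + x2) (sb + θb * (1 - t) + x3) := by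
    intro t x1 x2 x3 h2 h3 h4 h5
    obtain ⟨d1, d2⟩ := dev t h2
    have g1 : nb w0 sa sb (t + x1) (θa * (1 - t) + x2) (θb * (1 - t) + x3) ∈ PD := by
      refine hPD _ _ _ ?_ ?_ ?_
      · rw [abs_le] at h2 h3 ⊢; constructor <;> linarith [h2.1, h2.2, h3.1, h3.2]
      · rw [abs_le] at h4 d1 ⊢; constructor <;> linarith [h4.1, h4.2, d1.1, d1.2]
      · rw [abs_le] at h5 d2 ⊢; constructor <;> linarith [h5.1, h5.2, d2.1, d2.2]
    have g2 := h.dmax _ g1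
    rw [hD, DN_Dm g s q0 q1 θa θb w0 sa sb, nb_natB] at g2
    rw [← add_assoc w0, ← add_assoc sa, ← add_assoc sb] at g2
    linarith
  have H : ProfN R δ a b (natB z0 A0 Q0) ν := profN_of h hF hm
  refine ⟨κ, κpos, by linarith, by linarith, by linarith, ?_⟩
  intro v y hv y0 y1
  have ay : |y| ≤ κ := by rwa [abs_of_nonneg y0]
  have ay' : |-y| ≤ κ := by rwa [abs_neg]
  have a0 : |(0 : ℝ)| ≤ κ := by simpa using κpos.le
  have acy : |c * y| ≤ κ := by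
    rw [abs_mul, abs_of_nonneg hc0, abs_of_nonneg y0]
    nlinarith
  have hv' := abs_le.1 hv
  have hn : Nr m z0 A0 Q0 (w0 + v) (sa + θa * (1 - v)) (sb + θb * (1 - v)) := by
    simpa using hnr v 0 0 0 hv a0 a0 a0
  have hnC : Nr m z0 A0 Q0 (w0 + v) (sa + θa * (1 - v) + y) (sb + θb * (1 - v)) := by
    simpa using hnr v 0 y 0 hv a0 ay a0
  have hrec : K + Dm g s q0 q1 (w0 + v) (sa + θa * (1 - v)) (sb + θb * (1 - v)) ≤
      ν (natB (w0 + v) (sa + θa * (1 - v)) (sb + θb * (1 - v))) := by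
    have g1 := h.record v (by linarith) (by linarith)
    rw [hE v (by linarith) (by linarith), DN_Dm g s q0 q1 θa θb w0 sa sb, rL_natB] at g1
    linarith
  have hleg1 := natB_leg hctr' hn
  have hym : y ≤ m := by linarith
  have hleg2 : natB (w0 + v) (sa + θa * (1 - v)) (sb + θb * (1 - v)) + y • uC ∈ Leg monL R := by
    rw [← nB_uC]
    exact nB_leg hctr' hn ⟨y0, hym⟩ ⟨le_rfl, y0⟩ ⟨le_rfl, by linarith⟩ ⟨le_rfl, y0, le_rfl⟩
  rw [rL_natB]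
  refine ⟨hleg1, hleg2, ?_, ?_⟩
  · exact recN_C H hctr' hn hnC y0 hym hrec (by simpa using hdm v 0 y 0 hv a0 ay a0)
  · have hvy : 0 ≤ v - y := by linarith
    have hq1 : natB (w0 + v - y) (sa + θa * (1 - v) + y) (sb + θb * (1 - v) + c * y) ∈
        Leg monL R := by
      have := natB_leg hctr' (hnr v (-y) y (c * y) hv ay' ay acy)
      rwa [← sub_eq_add_neg] at this
    have hown := own_e0 h (p := natB (w0 + v - y) (sa + θa * (1 - v) + y)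
      (sb + θb * (1 - v) + c * y)) (v := v - y) (y := y) hq1 (by
        rw [← qB_eq]
        exact qB_leg hctr' hn y0 hym hc0 hc1) y0 hvy (by linarith) (by
        show w0 + v - y = _
        ring) (by
        intro k
        have e : w0 + (v - y) = w0 + v - y := by ring
        have h9 : nb w0 sa sb (v - y) (θa * (1 - v) + y) (θb * (1 - v) + c * y) =
            natB (w0 + v - y) (sa + θa * (1 - v) + y) (sb + θb * (1 - v) + c * y) := by
          rw [nb_natB, e, ← add_assoc, ← add_assoc]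
        have := hoq v y (by linarith) y0 (by linarith) hvy (by linarith) (by rw [h9]; exact hq1) k
        rw [h9] at this
        exact this)
    refine recN_CP H hctr' hn y0 hym hc0 hc1 hrec ?_ hown
    have := hdm v (-y) y (c * y) hv ay' ay acy
    rwa [← sub_eq_add_neg] at this


end ext

end Crest.Agent.R116.D0r708
end

-- ▼ part R116/D0p_878

/-!
# R116 (K side), LEMMA D0, `beta_D > 0`, `s < 1/2`: the end over `CtxT` (helper878)

* `own_vis` : own increments at natural boxes, visible slots allowed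
* `near_box` : natural boxes near a record box are D-max boxes
* **`D0pos`** : `D0T η (fun s θ => s < 1/2 ∧ 1 < 2 * θ 0 - θ 1)`
-/

set_option autoImplicit false
set_option linter.unusedVariables false

open Finset Filter Topology MeasureTheory Set

namespace Crest.Agent.R116.D0p878

open Crest.Agent.R138.Ex926 (Base U IsTan)
open Crest.Agent.R136
open Crest.Agent.R136.MkA627
open Crest.Agent.R136.TD627
open Crest.Agent.R136.Net191
open Crest.Agent.R136.Lq196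
open Crest.Agent.R116.ChL222
open Crest.Agent.R116.PL504 (nb rL DN eL βL oL Shift)
open Crest.Agent.R116.Xd954 (cs xs FlagX Mrg exists_mrg)
open Crest.Agent.R116.Sg337 (bx9 natB Dm uC eL_bx9 nb_natB DN_Dm)
open Crest.Agent.R116.Gd222 (TSet sN PDL DT)
open Crest.Agent.R116.KI439
open Crest.Agent.R116.KF439 (PL)
open Crest.Agent.R116.Tw468 (OutT OutR)
open Crest.Agent.R116.CtxB468
open Crest.Agent.R116.KTop387 (NumL)
open Crest.Agent.R116.KTie794 (D0T Mic)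
open Crest.Agent.R116.D0n878
open Crest.Agent.R116.D0F878 (LinTanD)
open Crest.Agent.R116.D0r708 (rL_natB d0r_all own_e0)

theorem uZ_eq : uZ = (Pi.single 0 1 : Fin 12 → ℝ) := by
  funext k
  fin_cases k <;> simp [uZ, bx9]

theorem uD_eq : uD = (Pi.single 1 1 : Fin 12 → ℝ) := by
  funext k
  fin_cases k <;> simp [uD, bx9]

/-- deviation of two natural boxes -/
theorem natB_dev {z c p z' c' p' κ : ℝ} (hz : |z - z'| ≤ κ) (hc : |c - c'| ≤ κ)
    (hp : |p - p'| ≤ κ) (k : Fin 12) : |natB z c p k - natB z' c' p' k| ≤ 4 * κ := by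
  rw [abs_le] at hz hc hp ⊢
  fin_cases k <;> simp [natB, bx9] <;> constructor <;> linarith

theorem n_0 (z c p : ℝ) : natB z c p 0 = z := by simp [natB, bx9]
theorem n_1 (z c p : ℝ) : natB z c p 1 = p - 2 * c - z := by simp [natB, bx9]
theorem n_3 (z c p : ℝ) : natB z c p 3 = c := by simp [natB, bx9]
theorem n_11 (z c p : ℝ) : natB z c p 11 = z + p := by simp [natB, bx9]
theorem n_2 (z c p : ℝ) : natB z c p 2 = p - 2 * c := by simp [natB, bx9]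
theorem n_7 (z c p : ℝ) : natB z c p 7 = p - c := by simp [natB, bx9]
theorem n_8 (z c p : ℝ) : natB z c p 8 = p - c := by simp [natB, bx9]

theorem vis_set : ∀ k : Fin 12, k ≠ 0 → k ≠ 1 → k ≠ 2 → k ≠ 7 → k ≠ 8 →
    k ∈ ({3, 4, 5, 6, 9, 10, 11} : Finset (Fin 12)) := by decide

section ctx

variable {G : Geo TSet (Fin 2)} {L : ℕ → ℕ → LRay} {r : ℕ → ℝ} {g s : ℝ} {θ q : Fin 2 → ℝ}
    {Rg : ℝ} {B : Base} {I : ℕ → Finset (ℕ × ℝ)} {lev : ℕ → ℚ → ℕ} {A : ℕ → ℝ}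
    {f : ℕ → ℚ → ℕ → ℤ → ℕ} {b : ℕ → ℚ → ℕ → TSet} {vm : ℕ → ℚ → ℝ} {w : Fin 2 → ℕ → ℚ → ℝ}
    {fr : ℕ → ℚ → ℕ × ℝ → LInc} {fl : ℕ → ℕ × ℝ → LInc} {sc : Fin 12 → ℕ → ℝ}
    {w0 sa sb δ R : ℝ} {I0 I' : ℕ → Finset (ℕ × ℝ)} {ν own : (Fin 12 → ℝ) → ℝ} {c₀ : ℝ}

/-- natural boxes below the own exponents -/
theorem le_oL (H : CtxT G L r g s θ q Rg B I lev A f b vm w fr fl sc w0 sa sb δ R I0 I' ν own c₀)
    (hV1 : InvT PL B I 1 fl (sc 1)) {z c p : ℝ}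
    (h78 : (VisT B I fl sc 7 ∨ VisT B I fl sc 8) → p - c ≤
      (sb + θ 1 * (1 - (z - w0))) - (sa + θ 0 * (1 - (z - w0))))
    (h2 : VisT B I fl sc 2 → p - 2 * c ≤
      (sb + θ 1 * (1 - (z - w0))) - 2 * (sa + θ 0 * (1 - (z - w0))))
    (hR : ∀ k, natB z c p k ≤ R) (k : Fin 12) :
    natB z c p k ≤ oL (θ 0) (θ 1) w0 sa sb R (VisT B I fl sc) (z - w0) k := by
  by_cases hk0 : k = 0
  · rw [hk0, oz, n_0]; linarith
  by_cases hv : VisT B I fl sc k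
  · rw [oV hv, rL_natB]
    have hk : k = 1 ∨ k = 2 ∨ k = 7 ∨ k = 8 := by
      by_contra hcon
      push Not at hcon
      exact hv (H.out.inv_ray (vis_set k hk0 hcon.1 hcon.2.1 hcon.2.2.1 hcon.2.2.2))
    rcases hk with rfl | rfl | rfl | rfl
    · exact absurd hV1 hv
    · rw [n_2, n_2]; exact h2 hv
    · rw [n_7, n_7]; exact h78 (Or.inl hv)
    · rw [n_8, n_8]; exact h78 (Or.inr hv)
  · rw [oR hk0 hv]; exact hR k

/-- **own increments at natural boxes**, visible slots allowed -/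
theorem own_vis
    (H : CtxT G L r g s θ q Rg B I lev A f b vm w fr fl sc w0 sa sb δ R I0 I' ν own c₀)
    (hV1 : InvT PL B I 1 fl (sc 1)) {z c p : ℝ}
    (h78 : (VisT B I fl sc 7 ∨ VisT B I fl sc 8) → p - c ≤
      (sb + θ 1 * (1 - (z - w0))) - (sa + θ 0 * (1 - (z - w0))))
    (h2 : VisT B I fl sc 2 → p - 2 * c ≤
      (sb + θ 1 * (1 - (z - w0))) - 2 * (sa + θ 0 * (1 - (z - w0))))
    (hz0 : w0 ≤ z) (hz1 : z < w0 + 1) (hbox : ∀ k, 0 < natB z c p k ∧ natB z c p k < R) :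
    ∀ᶠ y in 𝓝[>] (0 : ℝ), (1 - s) * y ≤ ν (natB z c p) - ν (natB z c p + y • uZ) := by
  have hp : natB z c p ∈ Leg monL R := nat_leg (fun k => (hbox k).1.le) fun k => (hbox k).2.le
  have hzR' := (hbox 0).2
  rw [n_0] at hzR'
  have h1 : ∀ᶠ y in 𝓝[>] (0 : ℝ), y ≤ min (R - z) (w0 + 1 - z) :=
    nhdsWithin_le_nhds (Iic_mem_nhds (lt_min (by linarith) (by linarith)))
  filter_upwards [h1, self_mem_nhdsWithin] with y hy hy0
  have hy0' : (0 : ℝ) < y := hy0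
  have hyR := hy.trans (min_le_left _ _)
  have hy1 := hy.trans (min_le_right _ _)
  rw [uZ_eq]
  have hq : natB z c p + y • (Pi.single 0 1 : Fin 12 → ℝ) ∈ Leg monL R := by
    refine ⟨⟨fun k => ?_, fun k e he => ?_⟩, fun k => ?_⟩
    · have := (hbox k).1
      rw [Pi.add_apply, Pi.smul_apply, smul_eq_mul]
      by_cases hk : k = 0
      · subst hk; rw [Pi.single_eq_same]; linarith
      · rw [Pi.single_eq_of_ne hk]; linarith
    · have hk : k ≠ 0 := hd0 k e he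
      have h3 := hp.1.wall k e he
      rw [Pi.add_apply, Pi.smul_apply, smul_eq_mul, Pi.single_eq_of_ne hk, mul_zero, add_zero]
      refine h3.trans (Finset.sum_le_sum fun t _ => ?_)
      refine mul_le_mul_of_nonneg_left ?_ (Nat.cast_nonneg _)
      rw [Pi.add_apply, Pi.smul_apply, smul_eq_mul]
      by_cases ht : t = 0
      · subst ht; rw [Pi.single_eq_same]; linarith
      · rw [Pi.single_eq_of_ne ht]; linarith
    · rw [Pi.add_apply, Pi.smul_apply, smul_eq_mul]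
      by_cases hk : k = 0
      · subst hk
        rw [Pi.single_eq_same, n_0]
        linarith
      · rw [Pi.single_eq_of_ne hk]
        have := (hbox k).2
        linarith
  have h2' := PL504.own_inc H.ext hp hq (fun k => by
      rw [Pi.add_apply, Pi.smul_apply, smul_eq_mul]
      by_cases hk : k = 0
      · subst hk; rw [Pi.single_eq_same]; linarith
      · rw [Pi.single_eq_of_ne hk]; linarith) (v := z - w0) (v' := z - w0 + y) (by linarith)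
    (by linarith) (by linarith) (by linarith) (by rw [n_0]; ring)
    (by rw [Pi.add_apply, Pi.smul_apply, smul_eq_mul, Pi.single_eq_same, n_0]; ring)
    (le_oL H hV1 h78 h2 fun k => (hbox k).2.le)
  have e : z - w0 + y - (z - w0) = y := by ring
  rwa [e] at h2'

/-- **natural boxes near a record box** -/
theorem near_box
    (H : CtxT G L r g s θ q Rg B I lev A f b vm w fr fl sc w0 sa sb δ R I0 I' ν own c₀)
    (hR0 : w0 + (θ 1 + sb) < R) (hR1 : w0 + 1 + sb < R) (hθ : 0 < θ 0)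
    (hRg : θ 0 + |θ 1| + 1 ≤ Rg) {v0 : ℝ} (hv0 : 0 < v0) (hv1 : v0 < 1) :
    ∃ κ : ℝ, 0 < κ ∧ ∀ z c p : ℝ, |z - (w0 + v0)| ≤ κ → |c - (sa + θ 0 * (1 - v0))| ≤ κ →
      |p - (sb + θ 1 * (1 - v0))| ≤ κ →
      (∀ k, 0 < natB z c p k ∧ natB z c p k < R) ∧ w0 < z ∧ z < w0 + 1 ∧ sa < c ∧
        natB z c p ∈ PDL w0 sa sb Rg 0 (θ 0 + |θ 1| + 2) R := by
  have hbx : ∀ k, 0 < rL (θ 0) (θ 1) w0 sa sb v0 k ∧ rL (θ 0) (θ 1) w0 sa sb v0 k < R := by
    intro k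
    have h1 := H.sh.rL_pos hv0.le hv1.le k
    refine ⟨H.sh.d0.trans_le h1, ?_⟩
    have sh' : Shift (θ 0) (θ 1) w0 sa sb δ (max (w0 + (θ 1 + sb)) (w0 + 1 + sb)) :=
      ⟨H.sh.d0, H.sh.z, H.sh.c0, H.sh.c1, H.sh.D0, H.sh.D1, le_max_left _ _, le_max_right _ _⟩
    exact ((sh'.rL_leg hv0.le hv1.le).2 k).trans_lt (max_lt hR0 hR1)
  obtain ⟨m0, hm0, hm⟩ : ∃ m0 : ℝ, 0 < m0 ∧ ∀ k, m0 ≤ rL (θ 0) (θ 1) w0 sa sb v0 k ∧
      rL (θ 0) (θ 1) w0 sa sb v0 k + m0 ≤ R := by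
    have hne : (Finset.univ : Finset (Fin 12)).Nonempty := Finset.univ_nonempty
    refine ⟨Finset.univ.inf' hne fun k => min (rL (θ 0) (θ 1) w0 sa sb v0 k)
      (R - rL (θ 0) (θ 1) w0 sa sb v0 k), ?_, fun k => ?_⟩
    · rw [Finset.lt_inf'_iff]
      exact fun k _ => lt_min (hbx k).1 (by linarith [(hbx k).2])
    · have h1 := Finset.inf'_le (fun k => min (rL (θ 0) (θ 1) w0 sa sb v0 k)
        (R - rL (θ 0) (θ 1) w0 sa sb v0 k)) (Finset.mem_univ k)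
      have h2 := h1.trans (min_le_left _ _)
      have h3 := h1.trans (min_le_right _ _)
      exact ⟨h2, by linarith⟩
  have hθv : 0 < θ 0 * (1 - v0) := mul_pos hθ (by linarith)
  obtain ⟨κ, hκ, e1, e2, e3, e4, e5⟩ : ∃ κ : ℝ, 0 < κ ∧ 5 * κ ≤ m0 ∧ 2 * κ ≤ v0 ∧ 2 * κ ≤ 1 - v0 ∧
      2 * κ ≤ 1 ∧ 2 * κ ≤ θ 0 * (1 - v0) := by
    refine ⟨min (m0 / 5) (min (min (v0 / 2) ((1 - v0) / 2)) (min (1 / 2) (θ 0 * (1 - v0) / 2))),
      lt_min (by positivity) (lt_min (lt_min (by positivity) (by linarith))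
        (lt_min (by norm_num) (by positivity))), ?_, ?_, ?_, ?_, ?_⟩
    · have := min_le_left (m0 / 5) (min (min (v0 / 2) ((1 - v0) / 2))
        (min (1 / 2) (θ 0 * (1 - v0) / 2)))
      linarith
    · have := (min_le_right (m0 / 5) (min (min (v0 / 2) ((1 - v0) / 2))
        (min (1 / 2) (θ 0 * (1 - v0) / 2)))).trans ((min_le_left _ _).trans (min_le_left _ _))
      linarith
    · have := (min_le_right (m0 / 5) (min (min (v0 / 2) ((1 - v0) / 2))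
        (min (1 / 2) (θ 0 * (1 - v0) / 2)))).trans ((min_le_left _ _).trans (min_le_right _ _))
      linarith
    · have := (min_le_right (m0 / 5) (min (min (v0 / 2) ((1 - v0) / 2))
        (min (1 / 2) (θ 0 * (1 - v0) / 2)))).trans ((min_le_right _ _).trans (min_le_left _ _))
      linarith
    · have := (min_le_right (m0 / 5) (min (min (v0 / 2) ((1 - v0) / 2))
        (min (1 / 2) (θ 0 * (1 - v0) / 2)))).trans ((min_le_right _ _).trans (min_le_right _ _))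
      linarith
  refine ⟨κ, hκ, fun z c p hz hc hp => ?_⟩
  have hbox : ∀ k, 0 < natB z c p k ∧ natB z c p k < R := by
    intro k
    have h1 := natB_dev hz hc hp k
    have h2 := hm k
    rw [rL_natB] at h2
    rw [abs_le] at h1
    constructor <;> linarith [h1.1, h1.2, h2.1, h2.2]
  have hl : natB z c p ∈ Leg monL R := nat_leg (fun k => (hbox k).1.le) fun k => (hbox k).2.le
  have hen : nb w0 sa sb (z - w0) (c - sa) (p - sb) = natB z c p := by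
    rw [nb_natB]
    congr 1 <;> ring
  have hz' := abs_le.1 hz
  have hc' := abs_le.1 hc
  have hp' := abs_le.1 hp
  have t1 : |θ 1 * (1 - v0)| ≤ |θ 1| := by
    rw [abs_mul, abs_of_pos (by linarith : (0:ℝ) < 1 - v0)]
    exact mul_le_of_le_one_right (abs_nonneg _) (by linarith)
  have t2 := abs_le.1 t1
  have t3 : θ 0 * (1 - v0) ≤ θ 0 := mul_le_of_le_one_right hθ.le (by linarith)
  refine ⟨hbox, by linarith [hz'.1], by linarith [hz'.2], by linarith [hc'.1], ?_⟩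
  rw [← hen]
  refine nb_PD (by rw [hen]; exact hl) (by linarith [hz'.1]) (by linarith [hz'.2])
    (by linarith [hc'.1]) (by linarith [hc'.2, abs_nonneg (θ 1)]) ?_ ?_
  · rw [abs_lt]
    constructor <;> linarith [hp'.1, hp'.2, t2.1, t2.2]
  · linarith [hc'.2, hp'.1, t2.1]

/-- the `C`-increments at the record -/
theorem hC_T {g : ℝ}
    (H : CtxT G L r g s θ q Rg B I lev A f b vm w fr fl sc w0 sa sb δ R I0 I' ν own c₀)
    (hR0 : w0 + (θ 1 + sb) < R) (hR1 : w0 + 1 + sb < R) (hθ : 0 < θ 0)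
    (hRg : θ 0 + |θ 1| + 1 ≤ Rg) (hV1 : InvT PL B I 1 fl (sc 1))
    (h78 : (VisT B I fl sc 7 ∨ VisT B I fl sc 8) → θ 0 - θ 1 ≤ 1)
    (h2 : VisT B I fl sc 2 → 2 * θ 0 - θ 1 ≤ 2) {v : ℝ} (hv0 : 0 < v) (hv1 : v < 1) :
    ∀ᶠ y in 𝓝[>] (0 : ℝ), q 0 * y ≤
      ν (rL (θ 0) (θ 1) w0 sa sb v) - ν (rL (θ 0) (θ 1) w0 sa sb v + y • uC) := by
  obtain ⟨a, b', hX⟩ := H.fX
  obtain ⟨κ, hκ, hn⟩ := near_box H hR0 hR1 hθ hRg hv0 hv1
  have hθv : 0 < θ 0 * (1 - v) := mul_pos hθ (by linarith)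
  have t1 : |θ 1 * (1 - v)| ≤ |θ 1| := by
    rw [abs_mul, abs_of_pos (by linarith : (0:ℝ) < 1 - v)]
    exact mul_le_of_le_one_right (abs_nonneg _) (by linarith)
  have t2 := abs_le.1 t1
  have t3 : θ 0 * (1 - v) ≤ θ 0 := mul_le_of_le_one_right hθ.le (by linarith)
  obtain ⟨d, hm⟩ := exists_mrg (k0 := θ 0 + |θ 1| + 2) (ϑ := 0) (v := v) (t := θ 0 * (1 - v))
    (y := θ 1 * (1 - v)) hθv (by linarith [t2.1]) (by linarith)
  have hF := hX I' H.sub' (θ 0 + |θ 1| + 2)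
  have hE := H.extK (θ 0 + |θ 1| + 2)
  rw [← Gd222.coN_eq] at hE
  obtain ⟨hb0, -⟩ := hn (w0 + v) (sa + θ 0 * (1 - v)) (sb + θ 1 * (1 - v))
    (by rw [sub_self, abs_zero]; exact hκ.le) (by rw [sub_self, abs_zero]; exact hκ.le)
    (by rw [sub_self, abs_zero]; exact hκ.le)
  have b1 := (hb0 1).1
  have b3 := (hb0 3).1
  have b11 := (hb0 11).2
  rw [n_1] at b1
  rw [n_3] at b3
  rw [n_11] at b11
  obtain ⟨κ', h1, -, -, -, h5⟩ := d0r_all (c := 0) hE hF DT_nb (fun v _ _ => EL_DN v) hv0 hv1 hm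
    (H.sh.d0.trans_le H.sh.z) b3 (by linarith) (by linarith) hκ le_rfl zero_le_one
    (fun v' a' b'' e1 e2 e3 => by
      rw [nb_natB]
      refine (hn _ _ _ ?_ ?_ ?_).2.2.2.2
      · rwa [add_sub_add_left_eq_sub]
      · rwa [add_sub_add_left_eq_sub]
      · rwa [add_sub_add_left_eq_sub])
    (fun v' y e1 e2 e3 e4 e5 hl k => by
      have hRk : ∀ k, nb w0 sa sb (v' - y) (θ 0 * (1 - v') + y) (θ 1 * (1 - v') + 0 * y) k ≤ R :=
        hl.2
      rw [nb_natB] at hRk ⊢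
      have h6 := le_oL H hV1 (z := w0 + (v' - y)) (c := sa + (θ 0 * (1 - v') + y))
        (p := sb + (θ 1 * (1 - v') + 0 * y)) (fun hv => by
          have := h78 hv
          have e7 : w0 + (v' - y) - w0 = v' - y := by ring
          rw [e7]
          nlinarith) (fun hv => by
          have := h2 hv
          have e7 : w0 + (v' - y) - w0 = v' - y := by ring
          rw [e7]
          nlinarith) hRk k
      have e7 : w0 + (v' - y) - w0 = v' - y := by ring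
      rw [e7] at h6
      exact h6)
  have h6 : ∀ᶠ y in 𝓝[>] (0 : ℝ), y ≤ κ' := nhdsWithin_le_nhds (Iic_mem_nhds h1)
  filter_upwards [h6, self_mem_nhdsWithin] with y hy hy0
  have hy0' : (0 : ℝ) < y := hy0
  exact (h5 v y (by rw [sub_self, abs_zero]; exact h1.le) hy0'.le hy).2.2.1

/-- from the null sets of `D`-live heights to the micro form -/
theorem mic_of
    (H : CtxT G L r g s θ q Rg B I lev A f b vm w fr fl sc w0 sa sb δ R I0 I' ν own c₀)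
    (hR0 : w0 + (θ 1 + sb) < R) (hR1 : w0 + 1 + sb < R)
    (hloc : ∀ v0 : ℝ, 0 < v0 → v0 < 1 → ∃ v1 v2 : ℝ, v1 < v0 ∧ v0 < v2 ∧ ∀ ρ : ℝ, 0 < ρ →
      volume {v : ℝ | v ∈ Ioo v1 v2 ∧ ∃ᶠ y in 𝓝[>] (0:ℝ), ρ * y ≤
        ν (rL (θ 0) (θ 1) w0 sa sb v) - ν (rL (θ 0) (θ 1) w0 sa sb v + y • uD)} = 0) :
    Mic ν (θ 0) (θ 1) w0 sa sb := by
  have key : ∀ n : ℕ, ∀ᵐ v : ℝ, v ∈ Ioo (0:ℝ) 1 → ¬ ∃ᶠ y in 𝓝[>] (0:ℝ), 1 / ((n:ℝ) + 1) * y ≤
      ν (rL (θ 0) (θ 1) w0 sa sb v) - ν (rL (θ 0) (θ 1) w0 sa sb v + y • uD) := by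
    intro n
    have hn : (0:ℝ) < 1 / ((n:ℝ) + 1) := by positivity
    rw [ae_iff]
    have e : {v : ℝ | ¬ (v ∈ Ioo (0:ℝ) 1 → ¬ ∃ᶠ y in 𝓝[>] (0:ℝ), 1 / ((n:ℝ) + 1) * y ≤
        ν (rL (θ 0) (θ 1) w0 sa sb v) - ν (rL (θ 0) (θ 1) w0 sa sb v + y • uD))} =
        {v : ℝ | v ∈ Ioo (0:ℝ) 1 ∧ ∃ᶠ y in 𝓝[>] (0:ℝ), 1 / ((n:ℝ) + 1) * y ≤
        ν (rL (θ 0) (θ 1) w0 sa sb v) - ν (rL (θ 0) (θ 1) w0 sa sb v + y • uD)} := by
      ext v
      simp only [Set.mem_ofPred_eq, not_forall, not_not, exists_prop]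
    rw [e]
    refine measure_null_of_locally_null _ fun v0 hv0 => ?_
    obtain ⟨v1, v2, h1, h2, h3⟩ := hloc v0 hv0.1.1 hv0.1.2
    refine ⟨_, ?_, h3 _ hn⟩
    refine mem_of_superset (inter_mem self_mem_nhdsWithin
      (mem_nhdsWithin_of_mem_nhds (Ioo_mem_nhds h1 h2))) fun v hv => ⟨hv.2, hv.1.2⟩
  unfold Mic
  filter_upwards [ae_all_iff.2 key] with v hv hvI
  obtain ⟨ρ, hρ, hl⟩ := Rcx363.leg_e1 H.sh hR0 hR1 hvI.1.le hvI.2.le
  have h6 : ∀ᶠ y in 𝓝[>] (0 : ℝ), y ≤ ρ := nhdsWithin_le_nhds (Iic_mem_nhds hρ)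
  have m0 := hl 0 le_rfl hρ.le
  rw [zero_smul, add_zero] at m0
  have hnn : ∀ᶠ y in 𝓝[>] (0 : ℝ), 0 ≤ (ν (rL (θ 0) (θ 1) w0 sa sb v) -
      ν (rL (θ 0) (θ 1) w0 sa sb v + y • (Pi.single 1 1 : Fin 12 → ℝ))) / y := by
    filter_upwards [h6, self_mem_nhdsWithin] with y hy1 hy2
    have hy2' : (0 : ℝ) < y := hy2
    refine div_nonneg ((H.ext.lip _ m0 _ (hl y hy2'.le hy1) fun k => ?_).1) hy2'.le
    rw [Pi.add_apply, Pi.smul_apply, smul_eq_mul]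
    have : (0:ℝ) ≤ (Pi.single 1 1 : Fin 12 → ℝ) k := by
      by_cases hk : k = 1
      · subst hk; simp
      · rw [Pi.single_eq_of_ne hk]
    have := mul_nonneg hy2'.le this
    linarith
  refine tendsto_order.2 ⟨fun a ha => ?_, fun a ha => ?_⟩
  · filter_upwards [hnn] with y hy
    exact ha.trans_le hy
  · obtain ⟨n, hn⟩ := exists_nat_one_div_lt ha
    have h7 := hv n hvI
    rw [not_frequently] at h7
    filter_upwards [h7, self_mem_nhdsWithin] with y hy hy2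
    have hy2' : (0 : ℝ) < y := hy2
    rw [not_le, uD_eq] at hy
    rw [div_lt_iff₀ hy2']
    exact hy.trans (mul_lt_mul_of_pos_right hn hy2')

/-- **the set of `D`-live heights is locally null**, `beta_D > 0`, `s < 1/2` -/
theorem loc_pos
    (H : CtxT G L r (g + 2 * s) s θ q Rg B I lev A f b vm w fr fl sc w0 sa sb δ R I0 I' ν own c₀)
    (hs0 : 0 ≤ s) (hs1 : s < 1) (hq0 : 0 < q 0) (hq1 : 0 ≤ q 1) (hqg : q 1 < g)
    (hR0 : w0 + (θ 1 + sb) < R) (hR1 : w0 + 1 + sb < R) (hθ : 0 < θ 0)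
    (hRg : θ 0 + |θ 1| + 1 ≤ Rg) (hV1 : InvT PL B I 1 fl (sc 1))
    (h78 : (VisT B I fl sc 7 ∨ VisT B I fl sc 8) → θ 0 - θ 1 ≤ 1)
    (h2 : ¬ VisT B I fl sc 2) (s2 : s < 1 / 2) (hβ : 1 < 2 * θ 0 - θ 1) {v0 : ℝ} (hv0 : 0 < v0)
    (hv1 : v0 < 1) :
    ∃ v1 v2 : ℝ, v1 < v0 ∧ v0 < v2 ∧ ∀ ρ : ℝ, 0 < ρ →
      volume {v : ℝ | v ∈ Ioo v1 v2 ∧ ∃ᶠ y in 𝓝[>] (0:ℝ), ρ * y ≤
        ν (rL (θ 0) (θ 1) w0 sa sb v) - ν (rL (θ 0) (θ 1) w0 sa sb v + y • uD)} = 0 := by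
  obtain ⟨κ, hκ, hn⟩ := near_box H hR0 hR1 hθ hRg hv0 hv1
  obtain ⟨M, hM1, hMa, hMb⟩ : ∃ M : ℝ, 1 ≤ M ∧ θ 0 ≤ M ∧ |θ 1| ≤ M :=
    ⟨1 + θ 0 + |θ 1|, by linarith [abs_nonneg (θ 1)], by linarith [abs_nonneg (θ 1)], by linarith⟩
  obtain ⟨d, hd, hdκ, hd0, hd1⟩ : ∃ d : ℝ, 0 < d ∧ 8 * (M * d) ≤ κ ∧ d < v0 ∧ d < 1 - v0 := by
    refine ⟨min (κ / (8 * M)) (min (v0 / 2) ((1 - v0) / 2)), lt_min (by positivity)
      (lt_min (by positivity) (by linarith)), ?_, ?_, ?_⟩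
    · have h1 : min (κ / (8 * M)) (min (v0 / 2) ((1 - v0) / 2)) ≤ κ / (8 * M) := min_le_left _ _
      rw [le_div_iff₀ (by positivity)] at h1
      linarith
    · have h1 := (min_le_right (κ / (8 * M)) (min (v0 / 2) ((1 - v0) / 2))).trans (min_le_left _ _)
      linarith
    · have h1 := (min_le_right (κ / (8 * M)) (min (v0 / 2) ((1 - v0) / 2))).trans (min_le_right _ _)
      linarith
  have hdM : d ≤ M * d := le_mul_of_one_le_left hd.le hM1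
  have dev : ∀ v : ℝ, v ∈ Icc (v0 - d) (v0 + d) → |v - v0| ≤ κ / 8 ∧
      |θ 0 * (v - v0)| ≤ κ / 8 ∧ |θ 1 * (v - v0)| ≤ κ / 8 := by
    intro v hv
    have h1 : |v - v0| ≤ d := by rw [abs_le]; constructor <;> linarith [hv.1, hv.2]
    refine ⟨by linarith, ?_, ?_⟩
    · rw [abs_mul, abs_of_pos hθ]
      have := mul_le_mul hMa h1 (abs_nonneg _) (by linarith)
      linarith
    · rw [abs_mul]
      have := mul_le_mul hMb h1 (abs_nonneg _) (by linarith)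
      linarith
  have hvI : ∀ v : ℝ, v ∈ Icc (v0 - d) (v0 + d) → 0 < v ∧ v < 1 := fun v hv =>
    ⟨by linarith [hv.1], by linarith [hv.2]⟩
  refine ⟨v0 - d, v0 + d, by linarith, by linarith, fun ρ hρ => ?_⟩
  set K0 : ℝ := c₀ - Dm (g + 2 * s) s (q 0) (q 1) w0 (sa + θ 0) (sb + θ 1) with hK0
  have hrc : ∀ v : ℝ, rc (θ 0) (θ 1) w0 sa sb v = rL (θ 0) (θ 1) w0 sa sb v := fun v => by
    rw [rL_natB]; rfl
  have hns : ∀ v : ℝ, v ∈ Icc (v0 - d) (v0 + d) → ∀ x y z : ℝ, |x| ≤ 3 * κ / 4 → |y| ≤ 3 * κ / 4 →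
      |z| ≤ 3 * κ / 4 → (∀ k, 0 < natB (w0 + v + x) (sa + θ 0 * (1 - v) + y)
        (sb + θ 1 * (1 - v) + z) k ∧ natB (w0 + v + x) (sa + θ 0 * (1 - v) + y)
        (sb + θ 1 * (1 - v) + z) k < R) ∧ |w0 + v + x - (w0 + v0)| ≤ κ ∧
        |sa + θ 0 * (1 - v) + y - (sa + θ 0 * (1 - v0))| ≤ κ ∧
        |sb + θ 1 * (1 - v) + z - (sb + θ 1 * (1 - v0))| ≤ κ := by
    intro v hv x y z hx hy hz
    obtain ⟨a1, a2, a3⟩ := dev v hv
    rw [abs_le] at a1 a2 a3 hx hy hz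
    have b1 : |w0 + v + x - (w0 + v0)| ≤ κ := by
      rw [abs_le]; constructor <;> linarith [a1.1, a1.2, hx.1, hx.2]
    have b2 : |sa + θ 0 * (1 - v) + y - (sa + θ 0 * (1 - v0))| ≤ κ := by
      rw [abs_le]; constructor <;> linarith [a2.1, a2.2, hy.1, hy.2]
    have b3 : |sb + θ 1 * (1 - v) + z - (sb + θ 1 * (1 - v0))| ≤ κ := by
      rw [abs_le]; constructor <;> linarith [a3.1, a3.2, hz.1, hz.2]
    exact ⟨(hn _ _ _ b1 b2 b3).1, b1, b2, b3⟩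
  have hbx : ∀ v ∈ Icc (v0 - d) (v0 + d), ∀ k, 0 < rc (θ 0) (θ 1) w0 sa sb v k ∧
      rc (θ 0) (θ 1) w0 sa sb v k < R := by
    intro v hv k
    have h3 : (0:ℝ) ≤ 3 * κ / 4 := by positivity
    have h1 := (hns v hv 0 0 0 (by rwa [abs_zero]) (by rwa [abs_zero]) (by rwa [abs_zero])).1 k
    rw [add_zero, add_zero, add_zero] at h1
    exact h1
  set Do : ℝ → ℝ → ℝ → Prop := fun z c p =>
    (|z - (w0 + v0)| ≤ κ ∧ |c - (sa + θ 0 * (1 - v0))| ≤ κ ∧ |p - (sb + θ 1 * (1 - v0))| ≤ κ) ∧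
    ((VisT B I fl sc 7 ∨ VisT B I fl sc 8) → p - c ≤
      (sb + θ 1 * (1 - (z - w0))) - (sa + θ 0 * (1 - (z - w0)))) with hDo
  have hlipν : ∀ j : Unit, ∀ p ∈ Leg monL R, ∀ q ∈ Leg monL R,
      |(fun _ : Unit => ν) j p - (fun _ : Unit => ν) j q| ≤ (12:ℝ) * ‖p - q‖ := by
    intro j p hp q hq
    have h1 := Rcx363.fo_lip H 0 p hp q hq
    rw [dist_eq_norm] at h1
    exact h1
  have hmono : ∀ p ∈ Leg monL R, ∀ q ∈ Leg monL R, p ≤ q →
      (fun _ : Unit => ν) () q ≤ (fun _ : Unit => ν) () p ∧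
      (fun _ : Unit => ν) () p - (fun _ : Unit => ν) () q ≤ ∑ i, (q i - p i) := by
    intro p hp q hq hpq
    have h1 := H.ext.lip p hp q hq hpq
    exact ⟨by show ν q ≤ ν p; linarith [h1.1], h1.2⟩
  have h9 := null_EF (J := Unit) (f := fun _ => ν) (j0 := ()) (R := R) (K := 12) (s := s)
    (g := g + 2 * s) (q0 := q 0) (q1 := q 1) (θa := θ 0) (θb := θ 1) (w0 := w0) (sa := sa)
    (sb := sb) (K0 := K0) (δ := κ / 8) (L := 1 + |θ 1 - θ 0|) (v1 := v0 - d) (v2 := v0 + d)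
    (ρ := ρ) (Do := Do) (by norm_num) hlipν hmono H.ext.submod hθ (by linarith) (by linarith) hq0
    hq1 (by linarith) (by positivity) (by linarith [abs_nonneg (θ 1 - θ 0)]) hbx ?_ ?_ ?_ ?_ ?_ ?_ hρ
  · simp only [hrc] at h9
    exact h9
  · -- record
    intro v hv
    have h1 := H.ext.record v (hvI v hv).1.le (hvI v hv).2.le
    rw [EL_DN, DN_Dm (g + 2 * s) s (q 0) (q 1) (θ 0) (θ 1) w0 sa sb] at h1
    show K0 + _ ≤ ν (rc (θ 0) (θ 1) w0 sa sb v)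
    rw [hrc, hK0]
    linarith
  · -- `C`
    intro v hv
    rw [hrc]
    exact hC_T H hR0 hR1 hθ hRg hV1 h78 (fun h => absurd h h2) (hvI v hv).1 (hvI v hv).2
  · -- domain
    intro v hv e t x y he he4 ht htd hx hy
    have hL1 : 1 ≤ 1 + |θ 1 - θ 0| := by linarith [abs_nonneg (θ 1 - θ 0)]
    have hL0 : 0 < 1 + |θ 1 - θ 0| := by linarith
    have het : 0 < e * t := mul_pos he ht
    have het2 : e * t ≤ κ / 32 := by nlinarith
    have hxt : |x| ≤ e * t := hx.trans (div_le_self het.le hL1)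
    have hyt : |y| ≤ e * t := hy.trans (div_le_self het.le hL1)
    have e1 : w0 + v - t + x = w0 + v + (x - t) := by ring
    have e2 : sa + θ 0 * (1 - v) - e * t = sa + θ 0 * (1 - v) + (-(e * t)) := by ring
    have e3 : sb + θ 1 * (1 - v) - (1 + 2 * e) * t + y =
        sb + θ 1 * (1 - v) + (y - (1 + 2 * e) * t) := by ring
    have hx' := abs_le.1 hxt
    have hy' := abs_le.1 hyt
    have hb := (hns v hv (x - t) (-(e * t)) (y - (1 + 2 * e) * t)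
      (by rw [abs_le]; constructor <;> linarith [hx'.1, hx'.2])
      (by rw [abs_neg, abs_of_pos het]; linarith)
      (by rw [abs_le]; constructor <;> linarith [hy'.1, hy'.2])).2
    rw [e1, e2, e3]
    refine ⟨hb, fun hvis => ?_⟩
    have h10 := h78 hvis
    rw [le_div_iff₀ hL0] at hx hy
    have h13 : |y| + |θ 1 - θ 0| * |x| ≤ e * t := by
      have h14 : (|y| + |θ 1 - θ 0| * |x|) * (1 + |θ 1 - θ 0|) ≤ e * t * (1 + |θ 1 - θ 0|) := by
        have h15 := mul_le_mul_of_nonneg_left hx (abs_nonneg (θ 1 - θ 0))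
        have e4 : (|y| + |θ 1 - θ 0| * |x|) * (1 + |θ 1 - θ 0|) =
            |y| * (1 + |θ 1 - θ 0|) + |θ 1 - θ 0| * (|x| * (1 + |θ 1 - θ 0|)) := by ring
        have e5 : e * t * (1 + |θ 1 - θ 0|) = e * t + |θ 1 - θ 0| * (e * t) := by ring
        rw [e4, e5]
        linarith
      exact le_of_mul_le_mul_right h14 hL0
    have h16 : (θ 1 - θ 0) * x ≤ |θ 1 - θ 0| * |x| := by
      rw [← abs_mul]; exact le_abs_self _
    have h17 : -t ≤ (θ 1 - θ 0) * t := by nlinarith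
    have h18 := le_abs_self y
    have e6 : w0 + v + (x - t) - w0 = v + x - t := by ring
    rw [e6]
    nlinarith
  · -- D-max
    rintro z c p ⟨⟨h1, h3, h4⟩, -⟩
    have h5 := (hn z c p h1 h3 h4).2.2.2.2
    have h6 := H.dmax _ _ h5
    have hen : natB z c p = nb w0 sa sb (z - w0) (c - sa) (p - sb) := by
      rw [nb_natB]
      congr 1 <;> ring
    rw [hen, DT_nb, DN_Dm (g + 2 * s) s (q 0) (q 1) (θ 0) (θ 1) w0 sa sb, ← hen] at h6
    have e1 : w0 + (z - w0) = z := by ring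
    have e2 : sa + (c - sa) = c := by ring
    have e3 : sb + (p - sb) = p := by ring
    rw [e1, e2, e3] at h6
    show ν (natB z c p) ≤ K0 + _
    rw [hK0]
    linarith
  · -- own
    rintro z c p ⟨⟨h1, h3, h4⟩, h5⟩
    obtain ⟨b1, b2, b3, b4, b5⟩ := hn z c p h1 h3 h4
    exact own_vis H hV1 h5 (fun h => absurd h h2) b2.le b3 b1
  · -- facts
    rintro z c p ⟨⟨h1, h3, h4⟩, -⟩ h rz rX rH rF gC gP gE gB gD T hrz
    obtain ⟨b1, b2, b3, b4, b5⟩ := hn z c p h1 h3 h4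
    obtain ⟨D, lam, hD, htan, hlin⟩ := T.ex
    have h6 := Kg330.facts_nat H (zz := z) (cc := c) (pp := p) (h := h) (D := D) (lam := lam ())
      hs0 hs1.le b4 (by linarith) T.hpos T.h0 (by
        have := htan ()
        simp only [← eL_bx9] at this
        exact this) hD (fun z d C p E B x H F hm => hlin z d C p E B x H F hm) hrz
    exact ⟨h6.1.1, h6.2.2.1.1, h6.2.2.2.2.1, h6.2.1.2⟩

/-- **LEMMA D0 for `beta_D > 0`, `s < 1/2`** -/
theorem D0pos {η : ℝ} (hη : η < 1) : D0T η fun s θ => s < 1 / 2 ∧ 1 < 2 * θ 0 - θ 1 := by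
  intro G L r g s θ q Rg B I lev A f b vm w fr fl sc w0 sa sb δ R I0 I' ν own c₀ H N hX hR0 hR1 hRg
    hV1 h78 h2
  obtain ⟨hs2, hβ⟩ := hX
  have hq1g : q 1 < g := by
    have h1 := N.qbg
    have h3 : η * g < 1 * g := mul_lt_mul_of_pos_right hη N.gpos
    linarith
  have v2 : ¬ VisT B I fl sc 2 := by
    intro hv
    rcases H.out.clsE with h | h | h
    · exact hv h
    · linarith [h2 h]
    · exact h.vis hV1
  have v78 : (VisT B I fl sc 7 ∨ VisT B I fl sc 8) → θ 0 - θ 1 ≤ 1 := by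
    rintro (hv | hv)
    · rcases H.out.clsB (Or.inl rfl) with h | h
      · exact absurd h hv
      · exact h78 (Or.inl h)
    · rcases H.out.clsB (Or.inr rfl) with h | h
      · exact absurd h hv
      · exact h78 (Or.inr h)
  exact mic_of H hR0 hR1 fun v0 a1 a2 => loc_pos H N.s0 N.s1 N.qa N.qb.le hq1g hR0 hR1 N.θa hRg hV1
    v78 v2 hs2 hβ a1 a2

end ctx

end Crest.Agent.R116.D0p878
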