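import Crest.Agent.R116.D0h1_708
import Crest.Agent.R116.D0n2_878
import Crest.Agent.R116.PL3_504
import Crest.Agent.R116.Kg8_330
import Crest.Agent.R116.OwV_363
import Crest.Agent.R116.Ap3_954
import Crest.Agent.R116.D0T_794
import Crest.Agent.R116.D0y1_219
import Crest.Agent.R116.D0ln_665
import Crest.Agent.R116.D0bs_332
import Crest.Agent.R116.D0E_188
import Crest.Agent.R116.D0p_878

-- ▼ part R116/D0h2_708
section

/-!
# R116 (K side), LEMMA D0 at `5 θ ≥ 3 + β` (helper708; row of helper538, 21269 (B), 878's plane)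

`θ = θa`, `β = 2 θa - θb - 1` (slope of `D` along the record), `-θ < β ≤ θ`, `-1 < β < 1`, `β ≠ 0`.
Plane `R(v) + t (-1; -ε, -1 - 2 ε)`, slanted direction `(-1, q)`, `q (3 + 5 ε) = 5 θ - β - 3`.

* `aloneR`, `dhR` : all nine slots are alone
* `rowH` : the row
* **`d0h`** : `D` has zero rate at almost every record box
-/

set_option autoImplicit false
set_option linter.unusedVariables false

open Set Filter Topology MeasureTheory
open scoped NNReal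

namespace Crest.Agent.R116.D0h708

open Crest.Agent.R138
open Crest.Agent.R136
open Crest.Agent.R136.Net191
open Crest.Agent.R136.Dg219 (mw gC dhC nC gC_eq gC_zero)
open Crest.Agent.R116.ChL222
open Crest.Agent.R116.PL504
open Crest.Agent.R116.Sg337 (bx9 natB nb_natB)
open Crest.Agent.R116.D0F878
open Crest.Agent.R116.D0n878

/-! ### the plane -/

/-- the record direction with `θb = 2 θ - 1 - β` -/
def rN (θ β : ℝ) : Fin 12 → ℝ := natB 1 (-θ) (-(2 * θ - 1 - β))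

theorem rN_val (θ β : ℝ) : rN θ β 0 = 1 ∧ rN θ β 1 = β ∧ rN θ β 2 = β + 1 ∧ rN θ β 3 = -θ ∧
    rN θ β 5 = 1 - θ ∧ rN θ β 7 = β + 1 - θ ∧ rN θ β 9 = 1 - 2 * θ ∧ rN θ β 10 = β + 1 - 2 * θ ∧
    rN θ β 11 = β + 2 - 2 * θ := by
  refine ⟨?_, ?_, ?_, ?_, ?_, ?_, ?_, ?_, ?_⟩ <;> simp [rN, natB, bx9] <;> ring

theorem aN_val (ε : ℝ) : aN ε 0 = 1 ∧ aN ε 1 = 0 ∧ aN ε 2 = 1 ∧ aN ε 3 = ε ∧
    aN ε 5 = 1 + ε ∧ aN ε 7 = 1 + ε ∧ aN ε 9 = 1 + 2 * ε ∧ aN ε 10 = 1 + 2 * ε ∧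
    aN ε 11 = 2 + 2 * ε := by
  refine ⟨?_, ?_, ?_, ?_, ?_, ?_, ?_, ?_, ?_⟩ <;> simp [aN, natB, bx9] <;> ring

theorem dhR {ε θ β : ℝ} (hε : 0 < ε) (hβ : β ≠ 0) : ∀ i ∈ S9, dhC (aN ε) (rN θ β) i ≠ 0 := by
  intro i hi
  unfold dhC
  by_cases h1 : i = 1
  · subst h1
    rw [if_pos (aN_one ε), (rN_val θ β).2.1]
    exact hβ
  · have := aN_ne hε i hi h1
    rw [if_neg this]
    exact this

/-- **all nine slots are alone** -/
theorem aloneR {ε θ β : ℝ} (hε : 0 < ε) (hθ : 0 < θ) (h1 : -θ < β) (h2 : β ≤ θ) (h3 : -1 < β)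
    (h4 : β < 1) (h5 : β ≠ 0) (h6 : ε ≤ θ + β) :
    ∀ i ∈ S9, ∀ j ∈ S9, gC (aN ε) (rN θ β) i = gC (aN ε) (rN θ β) j → i = j := by
  intro i hi j hj h
  by_cases k1 : i = 1
  · subst k1
    rw [gC_zero.2 (aN_one ε)] at h
    by_contra k2
    exact aN_ne hε j hj (fun e => k2 e.symm) (gC_zero.1 h.symm)
  by_cases k2 : j = 1
  · subst k2
    rw [gC_zero.2 (aN_one ε)] at h
    exact absurd (gC_zero.1 h) (aN_ne hε i hi k1)
  have n1 := aN_ne hε i hi k1
  have n2 := aN_ne hε j hj k2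
  rw [gC_eq n1 n2, div_eq_div_iff n1 n2] at h
  obtain ⟨r0, -, r2, r3, r5, r7, r9, r10, r11⟩ := rN_val θ β
  obtain ⟨a0, -, a2, a3, a5, a7, a9, a10, a11⟩ := aN_val ε
  have e1 : -ε < ε * β := by nlinarith
  have e2 : ε * β < ε := by nlinarith
  simp only [S9, Finset.mem_insert, Finset.mem_singleton] at hi hj
  rcases lt_or_gt_of_ne h5 with hb | hb
  · have e3 : ε * β < 0 := mul_neg_of_pos_of_neg hε hb
    rcases hi with rfl | rfl | rfl | rfl | rfl | rfl | rfl | rfl | rfl <;>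
      rcases hj with rfl | rfl | rfl | rfl | rfl | rfl | rfl | rfl | rfl <;>
      first
        | rfl
        | exact absurd rfl k1
        | exact absurd rfl k2
        | (exfalso
           simp only [r0, r2, r3, r5, r7, r9, r10, r11, a0, a2, a3, a5, a7, a9, a10, a11] at h
           ring_nf at h e1 e2 e3
           linarith)
  · have e3 : 0 < ε * β := mul_pos hε hb
    rcases hi with rfl | rfl | rfl | rfl | rfl | rfl | rfl | rfl | rfl <;>
      rcases hj with rfl | rfl | rfl | rfl | rfl | rfl | rfl | rfl | rfl <;>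
      first
        | rfl
        | exact absurd rfl k1
        | exact absurd rfl k2
        | (exfalso
           simp only [r0, r2, r3, r5, r7, r9, r10, r11, a0, a2, a3, a5, a7, a9, a10, a11] at h
           ring_nf at h e1 e2 e3
           linarith)

/-! ### the row -/

/-- **the row** -/
theorem rowH {θ β ε q S c s q0 q1 rz rX rH rF gC gP gE gB gD : ℝ} (hε : 0 < ε)
    (h3 : -1 < β) (h4 : β < 1) (h6 : ε ≤ θ + β) (hq0 : 0 ≤ q0) (hq1 : 0 ≤ q1)
    (hc : 1 + q1 < c) (hq : 0 ≤ q) (hqe : q * (3 + 5 * ε) = 5 * θ - β - 3) (hS : S = 1 + q)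
    (own : 1 - s ≤ rz) (pC : 0 ≤ gC) (pP : 0 ≤ gP) (pE : 0 ≤ gE) (pB : 0 ≤ gB) (pD : 0 ≤ gD)
    (P1 : gC ≤ rX) (P2 : gP ≤ rF) (P3 : gD ≤ gE) (P4 : gC ≤ rH) (S3 : rH ≤ gP) :
    c - 1 - q1 ≤ rz * S + gD * β + gE * (S + β) - gC * (θ - q * ε) + rX * (S - (θ - q * ε)) +
      gB * (S + β - (θ - q * ε)) + rH * (S - 2 * (θ - q * ε)) +
      gP * (S + β - 2 * (θ - q * ε)) + rF * (2 * S + β - 2 * (θ - q * ε)) +
      S * (c - 4 + s) + (3 + q0) * (θ - q * ε) + (1 + q1) * (2 * (θ - q * ε) - S - β) := by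
  have hμ : θ - q * ε = (3 * S + β) / 5 := by
    rw [hS]; linarith
  rw [hμ]
  have hS1 : 1 ≤ S := by rw [hS]; linarith
  have hT : 0 ≤ S + 2 * β := by
    have e1 : (3 + 5 * ε) * (S + 2 * β) = 5 * (θ + β + ε * (1 + 2 * β)) := by
      rw [hS]; linarith
    have e2 : -ε ≤ ε * (1 + 2 * β) := by nlinarith
    have e3 : 0 ≤ (3 + 5 * ε) * (S + 2 * β) := by rw [e1]; linarith
    exact nonneg_of_mul_nonneg_right e3 (by positivity)
  set T : ℝ := S + 2 * β with hTd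
  have m1 : 0 ≤ (2 * S - β) * (rX - gC) := mul_nonneg (by linarith) (by linarith)
  have m2 : 0 ≤ T * (rH - gC) := mul_nonneg hT (by linarith)
  have m3 : 0 ≤ T * (gP - rH) := mul_nonneg hT (by linarith)
  have m4 : 0 ≤ (4 * S + 3 * β) * (rF - gP) := mul_nonneg (by linarith) (by linarith)
  have m5 : 0 ≤ T * gP := mul_nonneg hT pP
  have m6 : 0 ≤ T * gB := mul_nonneg hT pB
  have m7 : 0 ≤ gD * β + gE * (S + β) := by
    rcases le_total 0 β with hb | hb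
    · have := mul_nonneg pD hb
      have := mul_nonneg pE (show 0 ≤ S + β by linarith)
      linarith
    · have a1 : 0 ≤ (gE - gD) * (-β) := mul_nonneg (by linarith) (by linarith)
      have a2 : 0 ≤ T * gE := mul_nonneg hT pE
      rw [hTd] at a2
      nlinarith
  have m8 : 0 ≤ (rz - (1 - s)) * S := mul_nonneg (by linarith) (by linarith)
  have m9 : 0 ≤ q0 * (3 * S + β) := mul_nonneg hq0 (by linarith)
  have m10 : 0 ≤ q1 * (6 * S - 3 * β) := mul_nonneg hq1 (by linarith)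
  have m11 : 0 ≤ (S - 1) * (c - 1 - q1) := mul_nonneg (by linarith) (by linarith)
  rw [hTd] at m2 m3 m5 m6
  nlinarith

/-! ### boxes -/

theorem natB_eL (z c p : ℝ) : natB z c p = eL z c p := by
  funext k
  fin_cases k <;> simp [natB, bx9, eL]

/-- the box of the plane -/
def XP (θa θb w0 sa sb ε v t : ℝ) : Fin 12 → ℝ :=
  natB (w0 + v - t) (sa + θa * (1 - v) - ε * t) (sb + θb * (1 - v) - (1 + 2 * ε) * t)

theorem X_XP (θa θb w0 sa sb ε v t : ℝ) :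
    Dg262.X (natB w0 (sa + θa) (sb + θb)) (natB 1 ε (1 + 2 * ε)) (natB 1 (-θa) (-θb)) (-t, v) =
      XP θa θb w0 sa sb ε v t := by
  rw [X_nat, XP]
  congr 1 <;> ring

theorem rL_XP (θa θb w0 sa sb ε v : ℝ) : rL θa θb w0 sa sb v = XP θa θb w0 sa sb ε v 0 := by
  rw [rL_nb, nb_natB, XP]
  congr 1 <;> ring

theorem natB_pos' {z c p : ℝ} (hz : 0 < z) (hc : 0 < c) (hD : 0 < p - 2 * c - z) (k : Fin 12) :
    0 < natB z c p k := by
  fin_cases k <;> simp [natB, bx9] <;> linarith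

theorem natB_le' {z c p R : ℝ} (hz : 0 < z) (hc : 0 < c) (hD : 0 < p - 2 * c - z) (hR : z + p < R)
    (k : Fin 12) : natB z c p k < R := by
  fin_cases k <;> simp [natB, bx9] <;> linarith

theorem wall_hd4 : ∀ k : Fin 12, ∀ e ∈ mfL k, k ≠ 0 ∧ k ≠ 1 ∧ k ≠ 3 ∧ k ≠ 4 := by decide

theorem lm_raise0 {u : Fin 12 → ℝ} (h0 : ∀ k, 0 ≤ u k)
    (hz : ∀ k, k ≠ 0 → k ≠ 1 → k ≠ 3 → k ≠ 4 → u k = 0) : u ∈ LM := by
  intro k e he
  have hk := wall_hd4 k e he
  rw [hz k hk.1 hk.2.1 hk.2.2.1 hk.2.2.2]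
  exact Finset.sum_nonneg fun s _ => mul_nonneg (Nat.cast_nonneg _) (h0 s)

theorem single_one : (Pi.single 1 1 : Fin 12 → ℝ) = bx9 0 1 0 0 0 0 0 0 0 := by
  funext k
  fin_cases k <;> simp [bx9, Pi.single, Function.update]

/-- sums over the nine slots -/
theorem sum9 (T : Fin 12 → ℝ) : ∑ i ∈ S9, T i =
    T 0 + T 1 + T 2 + T 3 + T 5 + T 7 + T 9 + T 10 + T 11 := by
  simp only [S9]
  rw [Finset.sum_insert (by decide), Finset.sum_insert (by decide), Finset.sum_insert (by decide),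
    Finset.sum_insert (by decide), Finset.sum_insert (by decide), Finset.sum_insert (by decide),
    Finset.sum_insert (by decide), Finset.sum_insert (by decide), Finset.sum_singleton]
  ring

/-- `(v, t) ↦ (-t, v)` preserves the measure -/
theorem ae_rot {P : ℝ × ℝ → Prop} (h : ∀ᵐ y : ℝ × ℝ, P y) : ∀ᵐ z : ℝ × ℝ, P (-z.2, z.1) := by
  have h1 : MeasurePreserving (fun z : ℝ × ℝ => (-z.1, z.2)) volume volume :=
    (Measure.measurePreserving_neg (volume : Measure ℝ)).prod (MeasurePreserving.id volume)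
  have h2 : MeasurePreserving (Prod.swap : ℝ × ℝ → ℝ × ℝ) volume volume :=
    Measure.measurePreserving_swap
  exact ((h1.comp h2).quasiMeasurePreserving).ae h

end Crest.Agent.R116.D0h708
end

-- ▼ part R116/D0h3_708
section

/-!
# R116 (K side), LEMMA D0 at `5 θ ≥ 3 + β`, the theorem (helper708)
-/

set_option autoImplicit false
set_option linter.unusedVariables false

open Set Filter Topology MeasureTheory
open scoped NNReal

namespace Crest.Agent.R116.D0h708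

open Crest.Agent.R138
open Crest.Agent.R136
open Crest.Agent.R136.Net191
open Crest.Agent.R136.Dg219 (mw gC dhC nC gC_eq gC_zero X_lip)
open Crest.Agent.R116.ChL222
open Crest.Agent.R116.PL504
open Crest.Agent.R116.Sg337 (bx9 natB nb_natB)
open Crest.Agent.R116.D0F878
open Crest.Agent.R116.D0n878

section

variable {J : Type*} {f : J → (Fin 12 → ℝ) → ℝ} {j0 : J}
  {R K w0 sa sb θa θb δ c s q0 q1 c₀ ε t0 v1 v2 : ℝ}

/-- the positions used -/
theorem XP_box (sh : Shift θa θb w0 sa sb δ R) (hε : 0 < ε) (hε1 : ε ≤ 1) (ht : 4 * t0 ≤ δ)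
    {v t : ℝ} (hv0 : 0 ≤ v) (hv1 : v ≤ 1) (h0 : 0 < t) (h1 : t ≤ t0) (k : Fin 12) :
    0 < XP θa θb w0 sa sb ε v t k ∧ XP θa θb w0 sa sb ε v t k < R := by
  have b1 := sh.bz hv0
  have b2 := sh.bc hv0 hv1
  have b3 := sh.bD hv0 hv1
  have b4 := sh.bR hv0 hv1
  have hd := sh.d0
  have e1 : ε * t ≤ 1 * t := mul_le_mul_of_nonneg_right hε1 h0.le
  have e2 : 0 < ε * t := mul_pos hε h0
  have c1 : 0 < w0 + v - t := by linarith
  have c2 : 0 < sa + θa * (1 - v) - ε * t := by linarith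
  have c3 : 0 < (sb + θb * (1 - v) - (1 + 2 * ε) * t) - 2 * (sa + θa * (1 - v) - ε * t) -
      (w0 + v - t) := by
    nlinarith
  exact ⟨natB_pos' c1 c2 c3 k, natB_le' c1 c2 c3 (by nlinarith) k⟩

theorem XP_leg (sh : Shift θa θb w0 sa sb δ R) (hε : 0 < ε) (hε1 : ε ≤ 1) (ht : 4 * t0 ≤ δ)
    {v t : ℝ} (hv0 : 0 ≤ v) (hv1 : v ≤ 1) (h0 : 0 < t) (h1 : t ≤ t0) :
    XP θa θb w0 sa sb ε v t ∈ Leg monL R :=
  nat_leg (fun k => (XP_box sh hε hε1 ht hv0 hv1 h0 h1 k).1.le)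
    (fun k => (XP_box sh hε hε1 ht hv0 hv1 h0 h1 k).2.le)

theorem rL_mem (sh : Shift θa θb w0 sa sb δ R) {v : ℝ} (hv0 : 0 ≤ v) (hv1 : v ≤ 1) :
    rL θa θb w0 sa sb v ∈ Leg monL R := by
  have b1 := sh.bz hv0
  have b2 := sh.bc hv0 hv1
  have b3 := sh.bD hv0 hv1
  have b4 := sh.bR hv0 hv1
  have hd := sh.d0
  rw [rL_nb]
  exact nb_leg.2 ⟨by linarith, by linarith, by linarith, by linarith⟩

theorem rLD_mem (sh : Shift θa θb w0 sa sb δ R) {v y : ℝ} (hv0 : 0 ≤ v) (hv1 : v ≤ 1)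
    (hy0 : 0 ≤ y) (hy : y ≤ δ) :
    rL θa θb w0 sa sb v + y • (Pi.single 1 1 : Fin 12 → ℝ) ∈ Leg monL R := by
  have b1 := sh.bz hv0
  have b2 := sh.bc hv0 hv1
  have b3 := sh.bD hv0 hv1
  have b4 := sh.bR hv0 hv1
  have hd := sh.d0
  refine leg_raise (rL_mem sh hv0 hv1) (fun k => ?_) (fun k hk _ _ => ?_) (fun k => ?_)
  · rw [Pi.smul_apply, smul_eq_mul]
    refine mul_nonneg hy0 ?_
    by_cases h : k = 1
    · subst h; simp
    · rw [Pi.single_eq_of_ne h]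
  · rw [Pi.smul_apply, Pi.single_eq_of_ne hk, smul_zero]
  · by_cases h : k = 1
    · subst h
      rw [Pi.smul_apply, Pi.single_eq_same, smul_eq_mul, mul_one, rL_nb]
      have : nb w0 sa sb v (θa * (1 - v)) (θb * (1 - v)) 1 =
        (sb + θb * (1 - v)) - 2 * (sa + θa * (1 - v)) - (w0 + v) := rfl
      rw [this]
      linarith
    · rw [Pi.smul_apply, Pi.single_eq_of_ne h, smul_zero, add_zero]
      exact (rL_mem sh hv0 hv1).2 k

/-- the set of the record boxes with `D`-rate `> 1 / (m + 1)` at some size in `(0, 1/(k+1))` -/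
def VU (f : (Fin 12 → ℝ) → ℝ) (θa θb w0 sa sb δ v1 v2 : ℝ) (m k : ℕ) : Set ℝ :=
  {v | v ∈ Ioo v1 v2 ∧ ∃ y : ℝ, 0 < y ∧ y ≤ δ ∧ y < 1 / ((k : ℝ) + 1) ∧
    y / ((m : ℝ) + 1) < f (rL θa θb w0 sa sb v) -
      f (rL θa θb w0 sa sb v + y • (Pi.single 1 1 : Fin 12 → ℝ))}

theorem rL_cont (θa θb w0 sa sb : ℝ) : Continuous (rL θa θb w0 sa sb) := by
  refine continuous_pi fun k => ?_
  fin_cases k <;> simp [rL, eL] <;> fun_prop

theorem VU_open (hK : 0 ≤ K)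
    (hν : ∀ p ∈ Leg monL R, ∀ q ∈ Leg monL R, |f j0 p - f j0 q| ≤ K * ‖p - q‖)
    (sh : Shift θa θb w0 sa sb δ R) (hv1 : 0 ≤ v1) (hv2 : v2 ≤ 1) (m k : ℕ) :
    IsOpen (VU (f j0) θa θb w0 sa sb δ v1 v2 m k) := by
  have hc : ContinuousOn (f j0) (Leg monL R) := by
    have : LipschitzOnWith ⟨K, hK⟩ (f j0) (Leg monL R) :=
      LipschitzOnWith.of_dist_le_mul fun p hp q hq => by
        rw [Real.dist_eq, dist_eq_norm]; exact hν p hp q hq
    exact this.continuousOn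
  have e : VU (f j0) θa θb w0 sa sb δ v1 v2 m k = ⋃ y ∈ {y : ℝ | 0 < y ∧ y ≤ δ ∧
      y < 1 / ((k : ℝ) + 1)}, (Ioo v1 v2 ∩ (fun v => f j0 (rL θa θb w0 sa sb v) -
      f j0 (rL θa θb w0 sa sb v + y • (Pi.single 1 1 : Fin 12 → ℝ))) ⁻¹'
        Ioi (y / ((m : ℝ) + 1))) := by
    ext v
    simp only [VU, mem_ofPred_eq, mem_iUnion, mem_inter_iff, mem_preimage, mem_Ioi, exists_prop]
    constructor
    · rintro ⟨h1, y, h2, h3, h4, h5⟩
      exact ⟨y, ⟨h2, h3, h4⟩, h1, h5⟩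
    · rintro ⟨y, ⟨h2, h3, h4⟩, h1, h5⟩
      exact ⟨h1, y, h2, h3, h4, h5⟩
  rw [e]
  refine isOpen_biUnion fun y hy => ?_
  refine ContinuousOn.isOpen_inter_preimage ?_ isOpen_Ioo isOpen_Ioi
  refine ContinuousOn.sub ?_ ?_
  · exact hc.comp (rL_cont _ _ _ _ _).continuousOn fun v hv =>
      rL_mem sh (hv1.trans hv.1.le) (hv.2.le.trans hv2)
  · exact hc.comp ((rL_cont _ _ _ _ _).add continuous_const).continuousOn fun v hv =>
      rLD_mem sh (hv1.trans hv.1.le) (hv.2.le.trans hv2) hy.1.le hy.2.1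

/-- the D-max exponent is linear on the plane -/
theorem DN_lin (v t : ℝ) : DN c s q0 q1 θa θb (v - t) (θa * (1 - v) - ε * t)
    (θb * (1 - v) - (1 + 2 * ε) * t) =
      ((c - 4 + s) + (3 + q0) * θa + (1 + q1) * θb) * v +
      (-(c - 4 + s) + (3 + q0) * ε + (1 + q1) * (1 + 2 * ε)) * t := by
  unfold DN
  ring

set_option maxHeartbeats 4000000 in
/-- **LEMMA D0 at `3 + β ≤ 5 θ`**: zero rate of the slot `D` at almost every record box. -/
theorem d0h [Finite J] (hK : 0 ≤ K)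
    (hν : ∀ j, ∀ p ∈ Leg monL R, ∀ q ∈ Leg monL R, |f j p - f j q| ≤ K * ‖p - q‖)
    (hm : ∀ p ∈ Leg monL R, ∀ q ∈ Leg monL R, p ≤ q →
      f j0 q ≤ f j0 p ∧ f j0 p - f j0 q ≤ ∑ i, (q i - p i))
    (hs : ∀ p ∈ Leg monL R, ∀ q ∈ Leg monL R, p ⊓ q ∈ Leg monL R →
      f j0 p + f j0 q ≤ f j0 (p ⊔ q) + f j0 (p ⊓ q))
    (sh : Shift θa θb w0 sa sb δ R)
    (h1 : -θa < 2 * θa - θb - 1) (h2 : 2 * θa - θb - 1 ≤ θa) (h3 : -1 < 2 * θa - θb - 1)
    (h4 : 2 * θa - θb - 1 < 1) (h5 : 2 * θa - θb - 1 ≠ 0) (h7 : 3 + (2 * θa - θb - 1) ≤ 5 * θa)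
    (hq0 : 0 ≤ q0) (hq1 : 0 ≤ q1) (hc : 1 + q1 < c)
    (hε : 0 < ε) (hε1 : ε ≤ 1) (h6 : ε ≤ θa + (2 * θa - θb - 1))
    (ht0 : 0 < t0) (ht : 4 * t0 ≤ δ) (hv1 : 0 ≤ v1) (hv2 : v2 ≤ 1)
    (hrec : ∀ v ∈ Ioo v1 v2, c₀ + DN c s q0 q1 θa θb v (θa * (1 - v)) (θb * (1 - v)) ≤
      f j0 (rL θa θb w0 sa sb v))
    (hdm : ∀ v ∈ Ioo v1 v2, ∀ t ∈ Ioo 0 t0, f j0 (XP θa θb w0 sa sb ε v t) ≤
      c₀ + DN c s q0 q1 θa θb (v - t) (θa * (1 - v) - ε * t) (θb * (1 - v) - (1 + 2 * ε) * t))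
    (hown : ∀ v ∈ Ioo v1 v2, ∀ t ∈ Ioo 0 t0, ∀ᶠ y in 𝓝[>] (0 : ℝ), (1 - s) * y ≤
      f j0 (XP θa θb w0 sa sb ε v t) -
        f j0 (XP θa θb w0 sa sb ε v t + y • bx9 1 0 0 0 0 0 0 0 0))
    (hfac : ∀ v ∈ Ioo v1 v2, ∀ t ∈ Ioo 0 t0, ∀ (h : ℕ → ℝ) (rz rX rH rF gC gP gE gB gD : ℝ),
      LinTanD (Leg monL R) f j0 (fun _ => XP θa θb w0 sa sb ε v t) h rz rX rH rF gC gP gE gB gD →
      1 - s ≤ rz → gC ≤ rX ∧ gP ≤ rF ∧ gD ≤ gE ∧ (0 < gC → rX ≤ rH) ∧ (0 < gD → rH ≤ gP)) :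
    ∀ᵐ v : ℝ, v ∈ Ioo v1 v2 → Tendsto (fun y : ℝ => (f j0 (rL θa θb w0 sa sb v) -
      f j0 (rL θa θb w0 sa sb v + y • (Pi.single 1 1 : Fin 12 → ℝ))) / y) (𝓝[>] 0) (𝓝 0) := by
  have hδ := sh.d0
  set β : ℝ := 2 * θa - θb - 1 with hβ
  have hθ : 0 < θa := by linarith
  have e35 : 0 < 3 + 5 * ε := by linarith
  set q : ℝ := (5 * θa - β - 3) / (3 + 5 * ε) with hqd
  have hq : 0 ≤ q := div_nonneg (by linarith) e35.le
  have hqe : q * (3 + 5 * ε) = 5 * θa - β - 3 := by rw [hqd]; field_simp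
  set κ : ℝ := c - 1 - q1 with hκd
  have hκ : 0 < κ := by rw [hκd]; linarith
  set A1 : ℝ := (c - 4 + s) + (3 + q0) * θa + (1 + q1) * θb with hA1
  set A2 : ℝ := -(c - 4 + s) + (3 + q0) * ε + (1 + q1) * (1 + 2 * ε) with hA2
  set ℓ : ℝ × ℝ →L[ℝ] ℝ := A1 • ContinuousLinearMap.fst ℝ ℝ ℝ +
    A2 • ContinuousLinearMap.snd ℝ ℝ ℝ with hℓ
  have ℓ_val : ∀ z : ℝ × ℝ, ℓ z = A1 * z.1 + A2 * z.2 := fun z => by simp [hℓ]
  set x0 : Fin 12 → ℝ := natB w0 (sa + θa) (sb + θb) with hx0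
  set G : ℝ × ℝ → ℝ := fun y => f j0 (Dg262.X x0 (natB 1 ε (1 + 2 * ε)) (natB 1 (-θa) (-θb)) y)
    with hG
  set F : ℝ × ℝ → ℝ := fun z => G (-z.2, z.1) - c₀ - ℓ z with hF
  have GX : ∀ v t : ℝ, G (-t, v) = f j0 (XP θa θb w0 sa sb ε v t) := fun v t => by
    simp only [hG, hx0]; rw [X_XP]
  set Ω : Set (ℝ × ℝ) := Ioo v1 v2 ×ˢ Ioo 0 t0 with hΩ
  have hin : ∀ z ∈ Ω, 0 ≤ z.1 ∧ z.1 ≤ 1 ∧ 0 < z.2 ∧ z.2 ≤ t0 := fun z hz =>
    ⟨hv1.trans hz.1.1.le, hz.1.2.le.trans hv2, hz.2.1, hz.2.2.le⟩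
  have hleg : ∀ z ∈ Ω, XP θa θb w0 sa sb ε z.1 z.2 ∈ Leg monL R := fun z hz => by
    obtain ⟨a1, a2, a3, a4⟩ := hin z hz
    exact XP_leg sh hε hε1 ht a1 a2 a3 a4
  -- `F ≤ 0`
  have hup : ∀ z ∈ Ω, F z ≤ 0 := fun z hz => by
    have e1 := hdm z.1 hz.1 z.2 hz.2
    rw [DN_lin] at e1
    simp only [hF]
    rw [GX, ℓ_val]
    linarith
  -- lower bound
  set K' : ℝ := K * ‖natB 1 ε (1 + 2 * ε)‖ + |A2| with hK'
  have hlow : ∀ z ∈ Ω, -(K' * z.2) ≤ F z := fun z hz => by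
    obtain ⟨a1, a2, a3, a4⟩ := hin z hz
    have e1 := hrec z.1 hz.1
    have e2 := DN_lin (c := c) (s := s) (q0 := q0) (q1 := q1) (θa := θa) (θb := θb) (ε := ε) z.1 0
    simp only [mul_zero, sub_zero, add_zero] at e2
    rw [e2] at e1
    have e3 := hν j0 _ (rL_mem sh a1 a2) _ (hleg z hz)
    have e4 : rL θa θb w0 sa sb z.1 - XP θa θb w0 sa sb ε z.1 z.2 =
        z.2 • natB 1 ε (1 + 2 * ε) := by
      rw [rL_XP θa θb w0 sa sb ε, XP, XP, natB_smul, sub_eq_iff_eq_add, natB_add]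
      congr 1 <;> ring
    rw [e4, norm_smul, Real.norm_eq_abs, abs_of_pos a3] at e3
    have e5 := (abs_le.1 e3).2
    have e6 := mul_le_mul_of_nonneg_right (le_abs_self A2) a3.le
    simp only [hF]
    rw [GX, ℓ_val, hK']
    linarith
  -- Lipschitz
  obtain ⟨K1, hK1⟩ : ∃ K1 : ℝ≥0, (K1 : ℝ) = K := ⟨⟨K, hK⟩, rfl⟩
  have hlip : LipschitzOnWith (K1 * (‖natB 1 ε (1 + 2 * ε)‖₊ + ‖natB 1 (-θa) (-θb)‖₊) + ‖ℓ‖₊) F
      Ω := by
    refine LipschitzOnWith.of_dist_le_mul fun z hz z' hz' => ?_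
    have e1 := hν j0 _ (hleg z hz) _ (hleg z' hz')
    have e2 := (X_lip x0 (natB 1 ε (1 + 2 * ε)) (natB 1 (-θa) (-θb))).dist_le_mul
      (-z.2, z.1) (-z'.2, z'.1)
    rw [hx0, X_XP, X_XP, dist_eq_norm] at e2
    have e3 : dist ((-z.2, z.1) : ℝ × ℝ) (-z'.2, z'.1) = dist z z' := by
      rw [Prod.dist_eq, Prod.dist_eq, dist_neg_neg, max_comm]
    rw [e3] at e2
    have e4 : |ℓ z - ℓ z'| ≤ ‖ℓ‖ * dist z z' := by
      rw [← map_sub, ← Real.norm_eq_abs, dist_eq_norm]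
      exact ℓ.le_opNorm _
    have e5 : F z - F z' = (f j0 (XP θa θb w0 sa sb ε z.1 z.2) -
        f j0 (XP θa θb w0 sa sb ε z'.1 z'.2)) - (ℓ z - ℓ z') := by
      simp only [hF]; rw [GX, GX]; ring
    rw [Real.dist_eq, e5]
    refine (abs_sub _ _).trans ?_
    have e6 : K * ‖XP θa θb w0 sa sb ε z.1 z.2 - XP θa θb w0 sa sb ε z'.1 z'.2‖ ≤
        K * (((‖natB 1 ε (1 + 2 * ε)‖₊ + ‖natB 1 (-θa) (-θb)‖₊ : ℝ≥0) : ℝ) * dist z z') :=
      mul_le_mul_of_nonneg_left e2 hK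
    have e7 : (((K1 * (‖natB 1 ε (1 + 2 * ε)‖₊ + ‖natB 1 (-θa) (-θb)‖₊) + ‖ℓ‖₊ : ℝ≥0)) : ℝ) *
        dist z z' = K * (((‖natB 1 ε (1 + 2 * ε)‖₊ + ‖natB 1 (-θa) (-θb)‖₊ : ℝ≥0) : ℝ) *
        dist z z') + ‖ℓ‖ * dist z z' := by
      rw [NNReal.coe_add, NNReal.coe_mul, hK1, coe_nnnorm]; ring
    rw [e7]
    linarith
  -- the engine
  have hal := aloneR (θ := θa) (β := β) hε hθ h1 h2 h3 h4 h5 h6
  have hdh := dhR (θ := θa) (β := β) hε h5
  have eR : rN θa β = natB 1 (-θa) (-θb) := by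
    rw [rN]; congr 1; rw [hβ]; ring
  rw [eR] at hal hdh
  have hen := ae_rot (engine (j0 := j0) hK hν hm hs (z := w0) (c := sa + θa) (p := sb + θb)
    (z1 := 1) (c1 := ε) (p1 := 1 + 2 * ε) (z2 := 1) (c2 := -θa) (p2 := -θb) (aN_nonneg hε) hal hdh)
  -- null sets
  have hnull : ∀ m : ℕ, volume (⋂ k, VU (f j0) θa θb w0 sa sb δ v1 v2 m k) = 0 := by
    intro m
    set V : Set ℝ := ⋂ k, VU (f j0) θa θb w0 sa sb δ v1 v2 m k with hV
    have hVm : MeasurableSet V :=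
      MeasurableSet.iInter fun k => (VU_open hK (hν j0) sh hv1 hv2 m k).measurableSet
    have hsub : V ∩ Ioo v1 v2 = V := inter_eq_left.2 fun v hv => (mem_iInter.1 hv 0).1
    rw [← hsub]
    refine slant (F := F) (K' := K') (κ := κ) (q := q) ht0 hq hκ hlip hlow hup hVm ?_
    filter_upwards [hen] with z hz hzΩ hzV _
    obtain ⟨a1, a2, a3, a4⟩ := hin z hzΩ
    have hXz : Dg262.X (natB w0 (sa + θa) (sb + θb)) (natB 1 ε (1 + 2 * ε))
        (natB 1 (-θa) (-θb)) (-z.2, z.1) = XP θa θb w0 sa sb ε z.1 z.2 := X_XP _ _ _ _ _ _ _ _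
    obtain ⟨D, hD, hT⟩ := hz (fun k => by
      rw [hXz]; exact XP_box sh hε hε1 ht a1 a2 a3 a4 k)
    choose y hy0 hyδ hyk hy using fun k => (mem_iInter.1 hzV k).2
    have hy1 : Tendsto y atTop (𝓝 0) :=
      squeeze_zero (fun k => (hy0 k).le) (fun k => (hyk k).le)
        tendsto_one_div_add_atTop_nhds_zero_nat
    obtain ⟨ψ, hψ, ρ, hρ, T, d1, d2⟩ := hT y hy0 hy1
    rw [hXz] at T
    have z0L : (0 : Fin 12 → ℝ) ∈ LM := zero_mem
    -- the rate of `D`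
    have hgD : 0 < ρ 1 := by
      have hmem : bx9 0 1 0 0 0 0 0 0 0 ∈ LM := by
        refine lm_raise0 (fun k => ?_) (fun k k0 k1 k3 k4 => ?_)
        · fin_cases k <;> simp [bx9]
        · fin_cases k <;> first | rfl | exact absurd rfl k0 | exact absurd rfl k1
      have key := rate_ge T (q := 1 / ((m : ℝ) + 1)) hmem z0L (Eventually.of_forall fun l => by
        have e1 := hy (ψ l)
        rw [← single_one]
        have e2 := incr (ν := f j0) hs (p := XP θa θb w0 sa sb ε z.1 z.2)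
          (q := rL θa θb w0 sa sb z.1) (u := y (ψ l) • (Pi.single 1 1 : Fin 12 → ℝ)) ?_ ?_ ?_
          (hleg z hzΩ) (rL_mem sh a1 a2) ?_
        · have e3 : 1 / ((m : ℝ) + 1) * y (ψ l) = y (ψ l) / ((m : ℝ) + 1) := by ring
          rw [e3]
          exact e1.le.trans e2
        · rw [rL_XP θa θb w0 sa sb ε]
          intro k
          have e4 : 0 < ε * z.2 := mul_pos hε a3
          fin_cases k <;> simp [XP, natB, bx9] <;> nlinarith
        · intro k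
          rw [Pi.smul_apply, smul_eq_mul]
          refine mul_nonneg (hy0 _).le ?_
          by_cases h : k = 1
          · subst h; simp
          · rw [Pi.single_eq_of_ne h]
        · intro k hk
          by_cases h : k = 1
          · subst h
            rw [rL_XP θa θb w0 sa sb ε]
            simp [XP, natB, bx9]
            ring
          · exfalso
            apply hk
            rw [Pi.smul_apply, Pi.single_eq_of_ne h, smul_zero]
        · refine leg_raise (hleg z hzΩ) (fun k => ?_) (fun k hk _ _ => ?_) (fun k => ?_)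
          · rw [Pi.smul_apply, smul_eq_mul]
            refine mul_nonneg (hy0 _).le ?_
            by_cases h : k = 1
            · subst h; simp
            · rw [Pi.single_eq_of_ne h]
          · rw [Pi.smul_apply, Pi.single_eq_of_ne hk, smul_zero]
          · have e5 : XP θa θb w0 sa sb ε z.1 z.2 1 = rL θa θb w0 sa sb z.1 1 := by
              rw [rL_XP θa θb w0 sa sb ε]
              simp [XP, natB, bx9]
              ring
            by_cases h : k = 1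
            · subst h
              rw [e5]
              exact (rLD_mem sh a1 a2 (hy0 (ψ l)).le (hyδ _)).2 1
            · rw [Pi.smul_apply, Pi.single_eq_of_ne h, smul_zero, add_zero]
              exact (hleg z hzΩ).2 k)
      have e1 : (0 : ℝ) < 1 / ((m : ℝ) + 1) := by positivity
      linarith
    -- the own rate
    have hgz : 1 - s ≤ ρ 0 := by
      have hmem : bx9 1 0 0 0 0 0 0 0 0 ∈ LM := by
        refine lm_raise0 (fun k => ?_) (fun k k0 k1 k3 k4 => ?_)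
        · fin_cases k <;> simp [bx9]
        · fin_cases k <;> first | rfl | exact absurd rfl k0 | exact absurd rfl k1
      have hT0 : Tendsto (fun l => y (ψ l)) atTop (𝓝[>] (0 : ℝ)) :=
        tendsto_nhdsWithin_iff.2 ⟨hy1.comp hψ.tendsto_atTop, Eventually.of_forall fun l => hy0 _⟩
      have key := rate_ge T (q := 1 - s) hmem z0L (hT0.eventually (hown z.1 hzΩ.1 z.2 hzΩ.2))
      linarith
    obtain ⟨P1, P2, P3, H1, S3⟩ := hfac z.1 hzΩ.1 z.2 hzΩ.2 _ _ _ _ _ _ _ _ _ _ T hgz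
    have r0 : 0 ≤ ρ 3 := hρ 3 (by decide)
    have r1 : 0 ≤ ρ 10 := hρ 10 (by decide)
    have r2 : 0 ≤ ρ 2 := hρ 2 (by decide)
    have r3 : 0 ≤ ρ 7 := hρ 7 (by decide)
    have r4 : 0 ≤ ρ 9 := hρ 9 (by decide)
    have P4 : ρ 3 ≤ ρ 9 := by
      rcases r0.lt_or_eq with h | h
      · exact P1.trans (H1 h)
      · rw [← h]; exact r4
    have hrow := rowH (θ := θa) (β := β) (ε := ε) (q := q) (S := 1 + q) (c := c) (s := s)
      (q0 := q0) (q1 := q1) hε h3 h4 h6 hq0 hq1 hc hq hqe rfl hgz r0 r1 r2 r3 hgD.le P1 P2 P3 P4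
      (S3 hgD)
    -- the derivative
    have hder : HasFDerivAt F (D.comp ((-(ContinuousLinearMap.snd ℝ ℝ ℝ)).prod
        (ContinuousLinearMap.fst ℝ ℝ ℝ)) - ℓ) z := by
      have e1 : HasFDerivAt (fun z : ℝ × ℝ => ((-z.2, z.1) : ℝ × ℝ))
          ((-(ContinuousLinearMap.snd ℝ ℝ ℝ)).prod (ContinuousLinearMap.fst ℝ ℝ ℝ)) z :=
        ((-(ContinuousLinearMap.snd ℝ ℝ ℝ)).prod
          (ContinuousLinearMap.fst ℝ ℝ ℝ)).hasFDerivAt
      have e2 : HasFDerivAt G D (-z.2, z.1) := hD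
      exact ((e2.comp z e1).sub_const c₀).sub ℓ.hasFDerivAt
    rw [hder.fderiv]
    have e1 : (D.comp ((-(ContinuousLinearMap.snd ℝ ℝ ℝ)).prod
        (ContinuousLinearMap.fst ℝ ℝ ℝ)) - ℓ) (-1, q) =
        -(q * D (1, 0)) - D (0, 1) - (A1 * (-1) + A2 * q) := by
      rw [sub_apply, ℓ_val]
      have e2 : (D.comp ((-(ContinuousLinearMap.snd ℝ ℝ ℝ)).prod
          (ContinuousLinearMap.fst ℝ ℝ ℝ))) (-1, q) = D (-q, -1) := rfl
      have e3 : ((-q, -1) : ℝ × ℝ) = (-q) • ((1, 0) : ℝ × ℝ) + (-1 : ℝ) • ((0, 1) : ℝ × ℝ) := by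
        ext <;> simp
      rw [e2, e3, map_add, map_smul, map_smul, smul_eq_mul, smul_eq_mul]
      ring
    rw [e1, d1, d2, sum9, sum9]
    refine hrow.trans (le_of_eq ?_)
    simp only [natB, bx9]
    simp
    rw [hA1, hA2, hβ]
    ring
  -- the limit
  have hae : ∀ᵐ v : ℝ, ∀ m : ℕ, v ∉ ⋂ k, VU (f j0) θa θb w0 sa sb δ v1 v2 m k :=
    ae_all_iff.2 fun m => measure_eq_zero_iff_ae_notMem.1 (hnull m)
  filter_upwards [hae] with v hv hvI
  have a1 : 0 ≤ v := hv1.trans hvI.1.le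
  have a2 : v ≤ 1 := hvI.2.le.trans hv2
  rw [Metric.tendsto_nhds]
  intro e he
  obtain ⟨m, hm'⟩ := exists_nat_one_div_lt he
  have h8 := hv m
  rw [mem_iInter] at h8
  push Not at h8
  obtain ⟨k, hk⟩ := h8
  have e1 : ∀ᶠ y : ℝ in 𝓝[>] (0 : ℝ), y < min δ (1 / ((k : ℝ) + 1)) := by
    refine (eventually_lt_nhds ?_).filter_mono nhdsWithin_le_nhds
    exact lt_min hδ (by positivity)
  filter_upwards [e1, self_mem_nhdsWithin] with y hy hy0
  have hy0' : (0 : ℝ) < y := hy0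
  have hyδ : y ≤ δ := hy.le.trans (min_le_left _ _)
  have e2 : f j0 (rL θa θb w0 sa sb v) -
      f j0 (rL θa θb w0 sa sb v + y • (Pi.single 1 1 : Fin 12 → ℝ)) ≤ y / ((m : ℝ) + 1) := by
    by_contra hcon
    push Not at hcon
    exact hk ⟨hvI, y, hy0', hyδ, hy.trans_le (min_le_right _ _), hcon⟩
  have e3 : 0 ≤ f j0 (rL θa θb w0 sa sb v) -
      f j0 (rL θa θb w0 sa sb v + y • (Pi.single 1 1 : Fin 12 → ℝ)) := by
    have := (hm _ (rL_mem sh a1 a2) _ (rLD_mem sh a1 a2 hy0'.le hyδ) (by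
      intro i
      rw [Pi.add_apply, Pi.smul_apply, smul_eq_mul]
      have : 0 ≤ (Pi.single 1 1 : Fin 12 → ℝ) i := by
        by_cases h : i = 1
        · subst h; simp
        · rw [Pi.single_eq_of_ne h]
      have := mul_nonneg hy0'.le this
      linarith)).1
    linarith
  rw [Real.dist_eq, sub_zero, abs_of_nonneg (div_nonneg e3 hy0'.le), div_lt_iff₀ hy0']
  have e4 : y / ((m : ℝ) + 1) = 1 / ((m : ℝ) + 1) * y := by ring
  rw [e4] at e2
  have e5 := mul_lt_mul_of_pos_right hm' hy0'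
  linarith

end

end Crest.Agent.R116.D0h708
end

-- ▼ part R116/D0h4_708
section

/-!
# R116 (K side), LEMMA D0 at `5 θ ≥ 3 + β` over the contexts (helper708)

* `d0H_ctx` : `CtxT` (visible slots allowed) ⊢ `Mic`
* **`d0H`** : `D0T η` in the region `RegH`
-/

set_option autoImplicit false
set_option linter.unusedVariables false

open Set Filter Topology MeasureTheory

namespace Crest.Agent.R116.D0h708

open Crest.Agent.R138.Ex926 (Base U IsTan)
open Crest.Agent.R136.MkA627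
open Crest.Agent.R136.TD627
open Crest.Agent.R136.Net191
open Crest.Agent.R136.Lq196
open Crest.Agent.R116.ChL222
open Crest.Agent.R116.PL504 (nb rL DN eL βL oL Shift rL_nb)
open Crest.Agent.R116.Sg337 (bx9 natB nb_natB)
open Crest.Agent.R116.Gd222 (TSet sN PDL DT)
open Crest.Agent.R116.KI439
open Crest.Agent.R116.KF439 (PL)
open Crest.Agent.R116.Tw468 (OutT)
open Crest.Agent.R116.CtxB468
open Crest.Agent.R116.KTop387
open Crest.Agent.R116.KTie794
open Crest.Agent.R116.D0F878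
open Crest.Agent.R116.D0n878

section ctx

variable {G : Geo TSet (Fin 2)} {L : ℕ → ℕ → LRay} {r : ℕ → ℝ} {g s : ℝ} {θ q : Fin 2 → ℝ}
    {Rg : ℝ} {B : Base} {I : ℕ → Finset (ℕ × ℝ)} {lev : ℕ → ℚ → ℕ} {A : ℕ → ℝ}
    {f : ℕ → ℚ → ℕ → ℤ → ℕ} {b : ℕ → ℚ → ℕ → TSet} {vm : ℕ → ℚ → ℝ} {w : Fin 2 → ℕ → ℚ → ℝ}
    {fr : ℕ → ℚ → ℕ × ℝ → LInc} {fl : ℕ → ℕ × ℝ → LInc} {sc : Fin 12 → ℕ → ℝ}
    {w0 sa sb δ R : ℝ} {I0 I' : ℕ → Finset (ℕ × ℝ)} {ν own : (Fin 12 → ℝ) → ℝ} {c₀ : ℝ}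

theorem XP_nb (θa θb w0 sa sb ε v t : ℝ) : XP θa θb w0 sa sb ε v t =
    nb w0 sa sb (v - t) (θa * (1 - v) - ε * t) (θb * (1 - v) - (1 + 2 * ε) * t) := by
  rw [nb_natB, XP]
  congr 1 <;> ring

/-- **LEMMA D0 at `3 + β ≤ 5 θ`** over the context -/
theorem d0H_ctx
    (H : CtxT G L r g s θ q Rg B I lev A f b vm w fr fl sc w0 sa sb δ R I0 I' ν own c₀)
    (hs0 : 0 ≤ s) (hs1 : s < 1) (hq0 : 0 ≤ q 0) (hq1 : 0 ≤ q 1) (hc : 1 + q 1 < g)
    (hRg : θ 0 + |θ 1| + 1 ≤ Rg)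
    (h1 : -θ 0 < 2 * θ 0 - θ 1 - 1) (h2 : 2 * θ 0 - θ 1 - 1 ≤ θ 0) (h3 : -1 < 2 * θ 0 - θ 1 - 1)
    (h4 : 2 * θ 0 - θ 1 - 1 < 1) (h5 : 2 * θ 0 - θ 1 - 1 ≠ 0)
    (h7 : 3 + (2 * θ 0 - θ 1 - 1) ≤ 5 * θ 0)
    (hB : VisT B I fl sc 7 ∨ VisT B I fl sc 8 → θ 0 - θ 1 ≤ 1)
    (hE : VisT B I fl sc 2 ∨ VisT B I fl sc 1 → 2 * θ 0 - θ 1 ≤ 1) :
    Mic ν (θ 0) (θ 1) w0 sa sb := by
  have sh := H.sh
  have hδ := sh.d0
  have hθ : 0 < θ 0 := by linarith
  have hN := WinU954.nprof_of_ext (sh.d0.le.trans sh.R_pos) (H.extK (|θ 0| + |θ 1|))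
  -- the constant `ε`
  set ε : ℝ := min 1 (θ 0 + (2 * θ 0 - θ 1 - 1)) with hεd
  have hε : 0 < ε := lt_min one_pos (by linarith)
  have hε1 : ε ≤ 1 := min_le_left _ _
  have h6 : ε ≤ θ 0 + (2 * θ 0 - θ 1 - 1) := min_le_right _ _
  have key : ∀ n : ℕ, ∀ᵐ v : ℝ, v ∈ Ioo (1 / ((n : ℝ) + 2)) (1 - 1 / ((n : ℝ) + 2)) →
      Tendsto (fun y : ℝ => (ν (rL (θ 0) (θ 1) w0 sa sb v) -
        ν (rL (θ 0) (θ 1) w0 sa sb v + y • (Pi.single 1 1 : Fin 12 → ℝ))) / y) (𝓝[>] 0) (𝓝 0) := by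
    intro n
    set v1 : ℝ := 1 / ((n : ℝ) + 2) with hv1d
    have hv1 : 0 < v1 := by positivity
    have hv1' : v1 ≤ 1 / 2 := by
      rw [hv1d]
      exact one_div_le_one_div_of_le two_pos (by linarith [Nat.cast_nonneg (α := ℝ) n])
    set t0 : ℝ := min (δ / 4) (min (v1 / 4) (θ 0 * v1 / 2)) with ht0d
    have ht0 : 0 < t0 := lt_min (by positivity) (lt_min (by positivity) (by positivity))
    have htδ : 4 * t0 ≤ δ := by
      have := min_le_left (δ / 4) (min (v1 / 4) (θ 0 * v1 / 2)); linarith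
    have htv : t0 ≤ v1 / 4 := (min_le_right _ _).trans (min_le_left _ _)
    have htθ : t0 ≤ θ 0 * v1 / 2 := (min_le_right _ _).trans (min_le_right _ _)
    -- the region
    have reg : ∀ v ∈ Ioo v1 (1 - v1), ∀ t ∈ Ioo (0 : ℝ) t0,
        0 < v - t ∧ v - t < 1 ∧ 0 < θ 0 * (1 - v) - ε * t ∧ ε * t ≤ t ∧ 0 < ε * t := by
      intro v hv t ht
      have e1 : θ 0 * v1 ≤ θ 0 * (1 - v) := mul_le_mul_of_nonneg_left (by linarith [hv.2]) hθ.le
      have e2 : ε * t ≤ 1 * t := mul_le_mul_of_nonneg_right hε1 ht.1.le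
      have e3 : 0 < ε * t := mul_pos hε ht.1
      refine ⟨by linarith [hv.1, ht.2], by linarith [hv.2, ht.1], by linarith [ht.2], by linarith,
        e3⟩
    have hbox : ∀ v ∈ Ioo v1 (1 - v1), ∀ t ∈ Ioo (0 : ℝ) t0, ∀ k,
        0 < XP (θ 0) (θ 1) w0 sa sb ε v t k ∧ XP (θ 0) (θ 1) w0 sa sb ε v t k < R :=
      fun v hv t ht k => XP_box sh hε hε1 htδ (by linarith [hv.1]) (by linarith [hv.2]) ht.1
        ht.2.le k
    have hleg : ∀ v ∈ Ioo v1 (1 - v1), ∀ t ∈ Ioo (0 : ℝ) t0,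
        XP (θ 0) (θ 1) w0 sa sb ε v t ∈ Leg monL R :=
      fun v hv t ht => XP_leg sh hε hε1 htδ (by linarith [hv.1]) (by linarith [hv.2]) ht.1 ht.2.le
    have main := d0h (J := Unit) (f := fun _ => ν) (j0 := ()) (K := ((12 : ℕ) : ℝ)) (c := g)
      (s := s) (q0 := q 0) (q1 := q 1) (c₀ := c₀) (t0 := t0) (v1 := v1) (v2 := 1 - v1)
      (by positivity) (fun _ => hN.lip)
      (fun p hp q hq hpq => ⟨hN.anti p hp q hq hpq, hN.sharp p hp q hq hpq⟩) hN.submod sh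
      h1 h2 h3 h4 h5 h7 hq0 hq1 hc hε hε1 h6 ht0 htδ hv1.le (by linarith) ?_ ?_ ?_ ?_
    · exact main
    · intro v hv
      have e1 := H.ext.record v (by linarith [hv.1]) (by linarith [hv.2])
      rw [EL_DN] at e1
      exact e1
    · intro v hv t ht
      obtain ⟨r1, r2, r3, r4, r5⟩ := reg v hv t ht
      have hl := hleg v hv t ht
      have aθ := le_abs_self (θ 1)
      have bθ := neg_abs_le (θ 1)
      have h01 : 0 ≤ 1 - v := by linarith [hv.2]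
      have h02 : 1 - v ≤ 1 := by linarith [hv.1]
      have u1 : θ 0 * (1 - v) ≤ θ 0 * 1 := mul_le_mul_of_nonneg_left h02 hθ.le
      have u2 : |θ 1 * (1 - v)| ≤ |θ 1| * 1 := by
        rw [abs_mul, abs_of_nonneg h01]
        exact mul_le_mul_of_nonneg_left h02 (abs_nonneg _)
      have u3 := abs_le.1 u2
      have t8 : t < 1 / 8 := by linarith [ht.2]
      rw [XP_nb] at hl ⊢
      have hp := nb_PD (Rg := Rg) (k0 := θ 0 + |θ 1| + 1) hl r1.le r2.le r3 (by linarith [ht.1])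
        (by rw [abs_lt]; constructor <;> nlinarith [ht.1]) (by nlinarith [ht.1])
      have e1 := (H.extK (θ 0 + |θ 1| + 1)).dmax _ hp
      rw [DT_nb] at e1
      exact e1
    · intro v hv t ht
      obtain ⟨r1, r2, r3, r4, r5⟩ := reg v hv t ht
      have hl := hleg v hv t ht
      have hR := hbox v hv t ht 0
      have e1 : ∀ᶠ y : ℝ in 𝓝[>] (0 : ℝ), y < min (1 - (v - t))
          (R - XP (θ 0) (θ 1) w0 sa sb ε v t 0) := by
        refine (eventually_lt_nhds ?_).filter_mono nhdsWithin_le_nhds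
        exact lt_min (by linarith) (by linarith [hR.2])
      filter_upwards [e1, self_mem_nhdsWithin] with y hy hy0
      have hy0' : (0 : ℝ) < y := hy0
      have hy1 : y < 1 - (v - t) := hy.trans_le (min_le_left _ _)
      have hy2 : y < R - XP (θ 0) (θ 1) w0 sa sb ε v t 0 := hy.trans_le (min_le_right _ _)
      have hnn : ∀ k : Fin 12, 0 ≤ bx9 1 0 0 0 0 0 0 0 0 k := fun k => by
        fin_cases k <;> simp [bx9]
      have hne : ∀ k : Fin 12, k ≠ 0 → bx9 1 0 0 0 0 0 0 0 0 k = 0 := fun k hk => by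
        fin_cases k <;> first | exact absurd rfl hk | rfl
      have hz : XP (θ 0) (θ 1) w0 sa sb ε v t 0 = w0 + (v - t) := by rw [XP_nb]; rfl
      have hs0' : bx9 1 0 0 0 0 0 0 0 0 0 = (1 : ℝ) := rfl
      have hl2 : XP (θ 0) (θ 1) w0 sa sb ε v t + y • bx9 1 0 0 0 0 0 0 0 0 ∈ Leg monL R := by
        refine ⟨⟨fun k => ?_, fun k e he => ?_⟩, fun k => ?_⟩
        · have a1 := hl.1.nonneg k
          have a2 := mul_nonneg hy0'.le (hnn k)
          rw [Pi.add_apply, Pi.smul_apply, smul_eq_mul]; linarith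
        · have a1 := hl.1.wall k e he
          have hk := wall_hd4 k e he
          rw [Pi.add_apply, Pi.smul_apply, hne k hk.1, smul_zero, add_zero]
          refine a1.trans (Finset.sum_le_sum fun i _ => ?_)
          rw [Pi.add_apply, Pi.smul_apply, smul_eq_mul]
          have a2 := mul_nonneg (Nat.cast_nonneg (α := ℝ) (e i)) (mul_nonneg hy0'.le (hnn i))
          nlinarith
        · rw [Pi.add_apply, Pi.smul_apply, smul_eq_mul]
          by_cases hk : k = 0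
          · subst hk; rw [hs0']; linarith
          · rw [hne k hk, mul_zero, add_zero]; exact hl.2 k
      have hV := OwV363.vis_Y (θ := θ) (v := v) (t := t) (ε := ε) ht.1.le hε.le
      have key := PL504.own_inc H.ext hl hl2 (fun k => by
          simp only [Pi.add_apply, Pi.smul_apply, smul_eq_mul]
          have := mul_nonneg hy0'.le (hnn k)
          linarith) (v := v - t) (v' := v - t + y) r1.le r2.le (by linarith) (by linarith)
        hz (by simp only [Pi.add_apply, Pi.smul_apply, smul_eq_mul, hs0', hz]; ring)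
        (fun k => by
          by_cases hk : k = 0
          · rw [hk, hz]
            exact (oz (VisT B I fl sc) (v - t)).ge
          · by_cases hkv : VisT B I fl sc k
            · rw [oV hkv, XP_nb]
              exact OwV363.vis_nat H (fun h => hV.1 (hB h)) (fun h => hV.2 (hE h)) k hk hkv
            · exact (hl.2 k).trans (oR hk hkv _).ge)
      have e2 : (1 - s) * (v - t + y - (v - t)) = (1 - s) * y := by ring
      rw [e2] at key
      exact key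
    · intro v hv t ht hh rz rX rH rF gC gP gE gB gD T hrz
      obtain ⟨r1, r2, r3, r4, r5⟩ := reg v hv t ht
      obtain ⟨D, lam, hD, htan, hlin⟩ := T.ex
      have eX : XP (θ 0) (θ 1) w0 sa sb ε v t = eL (w0 + v - t)
          (sa + θ 0 * (1 - v) - ε * t) (sb + θ 1 * (1 - v) - (1 + 2 * ε) * t) := by
        rw [XP, natB_eL]
      have ht0' := htan ()
      rw [eX] at ht0'
      have hb := hbox v hv t ht
      rw [eX] at hb
      have P := Ap954.pins_T H hs1 (w0 + v - t) (sa + θ 0 * (1 - v) - ε * t)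
        (sb + θ 1 * (1 - v) - (1 + 2 * ε) * t) hb (by linarith) (by linarith) hh D (lam ())
        T.hpos T.h0 ht0' hD rz rX rH rF gC gP gE gB gD
        (fun z d C p E B x H F hm => hlin z d C p E B x H F hm) hrz
      have F := Kg330.facts_nat H hs0 hs1.le (by linarith) (by linarith) T.hpos T.h0 ht0' hD
        (fun z d C p E B x H F hm => hlin z d C p E B x H F hm) hrz
      exact ⟨P.1, P.2.1, P.2.2, F.2.2.1.1, F.2.2.2.2.1⟩
  have hall := ae_all_iff.2 key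
  unfold Mic
  filter_upwards [hall] with v hv hvI
  obtain ⟨n1, hn1⟩ := exists_nat_one_div_lt (lt_min hvI.1 (sub_pos.2 hvI.2))
  refine hv n1 ⟨?_, ?_⟩
  · have e1 : 1 / ((n1 : ℝ) + 2) ≤ 1 / ((n1 : ℝ) + 1) :=
      one_div_le_one_div_of_le (by positivity) (by linarith)
    have := hn1.trans_le (min_le_left _ _)
    linarith
  · have e1 : 1 / ((n1 : ℝ) + 2) ≤ 1 / ((n1 : ℝ) + 1) :=
      one_div_le_one_div_of_le (by positivity) (by linarith)
    have := hn1.trans_le (min_le_right _ _)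
    linarith

end ctx



end Crest.Agent.R116.D0h708
end

-- ▼ part R116/D0h5_708
section

/-!
# R116 (K side), LEMMA D0 at `5 θ ≥ 3 + β` with any `0 < β ≤ θ` (helper708)

`D0h3_708 / D0h4_708` have `-1 < β < 1`.  Here `0 < β` without upper bound; only
`β = θ = 1` is excluded (there the slots 5 and 10 are never separated).

* `aloneP`, `rowP`, `d0p`, `d0P_ctx`
* **`d0H2`** : `D0T η` in the region `RegH2`
-/

set_option autoImplicit false
set_option linter.unusedVariables false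

open Set Filter Topology MeasureTheory
open scoped NNReal

namespace Crest.Agent.R116.D0h708

open Crest.Agent.R138.Ex926 (Base U IsTan)
open Crest.Agent.R136.MkA627
open Crest.Agent.R136.TD627
open Crest.Agent.R136.Net191
open Crest.Agent.R136.Lq196
open Crest.Agent.R116.ChL222
open Crest.Agent.R116.PL504 (nb rL DN eL βL oL Shift rL_nb)
open Crest.Agent.R116.Sg337 (bx9 natB nb_natB)
open Crest.Agent.R116.Gd222 (TSet sN PDL DT)
open Crest.Agent.R116.KI439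
open Crest.Agent.R116.KF439 (PL)
open Crest.Agent.R116.Tw468 (OutT)
open Crest.Agent.R116.CtxB468
open Crest.Agent.R116.KTop387
open Crest.Agent.R116.KTie794
open Crest.Agent.R116.D0F878
open Crest.Agent.R116.D0n878
open Crest.Agent.R136.Dg219 (mw gC dhC nC gC_eq gC_zero X_lip)

section

open Crest.Agent.R138
open Crest.Agent.R136

variable {J : Type*} {f : J → (Fin 12 → ℝ) → ℝ} {j0 : J}
  {R K w0 sa sb θa θb δ c s q0 q1 c₀ ε t0 v1 v2 : ℝ}

/-- **all nine slots are alone** -/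
theorem aloneP {ε θ β : ℝ} (hε : 0 < ε) (h2 : β ≤ θ) (h5 : 0 < β)
    (h6 : (θ - β) + ε * (1 - β) ≠ 0) :
    ∀ i ∈ S9, ∀ j ∈ S9, gC (aN ε) (rN θ β) i = gC (aN ε) (rN θ β) j → i = j := by
  intro i hi j hj h
  by_cases k1 : i = 1
  · subst k1
    rw [gC_zero.2 (aN_one ε)] at h
    by_contra k2
    exact aN_ne hε j hj (fun e => k2 e.symm) (gC_zero.1 h.symm)
  by_cases k2 : j = 1
  · subst k2
    rw [gC_zero.2 (aN_one ε)] at h
    exact absurd (gC_zero.1 h) (aN_ne hε i hi k1)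
  have n1 := aN_ne hε i hi k1
  have n2 := aN_ne hε j hj k2
  rw [gC_eq n1 n2, div_eq_div_iff n1 n2] at h
  obtain ⟨r0, -, r2, r3, r5, r7, r9, r10, r11⟩ := rN_val θ β
  obtain ⟨a0, -, a2, a3, a5, a7, a9, a10, a11⟩ := aN_val ε
  have hθ : 0 < θ := h5.trans_le h2
  have e3 : 0 < ε * β := mul_pos hε h5
  have e4 : θ - β + (ε - ε * β) ≠ 0 := fun e => h6 (by linarith)
  simp only [S9, Finset.mem_insert, Finset.mem_singleton] at hi hj
  rcases hi with rfl | rfl | rfl | rfl | rfl | rfl | rfl | rfl | rfl <;>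
    rcases hj with rfl | rfl | rfl | rfl | rfl | rfl | rfl | rfl | rfl <;>
    first
      | rfl
      | exact absurd rfl k1
      | exact absurd rfl k2
      | (exfalso
         simp only [r0, r2, r3, r5, r7, r9, r10, r11, a0, a2, a3, a5, a7, a9, a10, a11] at h
         first
           | (ring_nf at h e3
              linarith)
           | (refine e4 ?_
              ring_nf at h ⊢
              linarith))

/-- **the row** -/
theorem rowP {θ β ε q S c s q0 q1 rz rX rH rF gC gP gE gB gD : ℝ} (hε : 0 < ε) (hε1 : ε ≤ 1)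
    (h3 : 0 < β) (h4 : β ≤ θ) (hq0 : 0 ≤ q0) (hq1 : 0 ≤ q1)
    (hc : 1 + q1 < c) (hq : 0 ≤ q) (hqe : q * (3 + 5 * ε) = 5 * θ - β - 3) (hS : S = 1 + q)
    (own : 1 - s ≤ rz) (pC : 0 ≤ gC) (pP : 0 ≤ gP) (pE : 0 ≤ gE) (pB : 0 ≤ gB) (pD : 0 ≤ gD)
    (P1 : gC ≤ rX) (P2 : gP ≤ rF) (P3 : gD ≤ gE) (P4 : gC ≤ rH) (S3 : rH ≤ gP) :
    c - 1 - q1 ≤ rz * S + gD * β + gE * (S + β) - gC * (θ - q * ε) + rX * (S - (θ - q * ε)) +
      gB * (S + β - (θ - q * ε)) + rH * (S - 2 * (θ - q * ε)) +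
      gP * (S + β - 2 * (θ - q * ε)) + rF * (2 * S + β - 2 * (θ - q * ε)) +
      S * (c - 4 + s) + (3 + q0) * (θ - q * ε) + (1 + q1) * (2 * (θ - q * ε) - S - β) := by
  have hμ : θ - q * ε = (3 * S + β) / 5 := by
    rw [hS]; linarith
  rw [hμ]
  have hS1 : 1 ≤ S := by rw [hS]; linarith
  have hT : 0 ≤ S + 2 * β := by linarith
  have hS2 : 0 ≤ 2 * S - β := by
    have e1 : (3 + 5 * ε) * (2 * S - β) = 10 * (θ - β) + 10 * ε + 5 * β * (1 - ε) := by
      rw [hS]; linarith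
    have e2 : 0 ≤ 5 * β * (1 - ε) := mul_nonneg (by linarith) (by linarith)
    have e3 : 0 ≤ (3 + 5 * ε) * (2 * S - β) := by rw [e1]; linarith
    exact nonneg_of_mul_nonneg_right e3 (by positivity)
  set T : ℝ := S + 2 * β with hTd
  have m1 : 0 ≤ (2 * S - β) * (rX - gC) := mul_nonneg hS2 (by linarith)
  have m2 : 0 ≤ T * (rH - gC) := mul_nonneg hT (by linarith)
  have m3 : 0 ≤ T * (gP - rH) := mul_nonneg hT (by linarith)
  have m4 : 0 ≤ (4 * S + 3 * β) * (rF - gP) := mul_nonneg (by linarith) (by linarith)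
  have m5 : 0 ≤ T * gP := mul_nonneg hT pP
  have m6 : 0 ≤ T * gB := mul_nonneg hT pB
  have m7 : 0 ≤ gD * β + gE * (S + β) := by
    have := mul_nonneg pD h3.le
    have := mul_nonneg pE (show 0 ≤ S + β by linarith)
    linarith
  have m8 : 0 ≤ (rz - (1 - s)) * S := mul_nonneg (by linarith) (by linarith)
  have m9 : 0 ≤ q0 * (3 * S + β) := mul_nonneg hq0 (by linarith)
  have m10 : 0 ≤ q1 * (6 * S - 3 * β) := mul_nonneg hq1 (by linarith)
  have m11 : 0 ≤ (S - 1) * (c - 1 - q1) := mul_nonneg (by linarith) (by linarith)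
  rw [hTd] at m2 m3 m5 m6
  nlinarith

set_option maxHeartbeats 4000000 in
/-- **LEMMA D0 at `3 + β ≤ 5 θ`, `0 < β`**: zero rate of the slot `D` at almost every record box. -/
theorem d0p [Finite J] (hK : 0 ≤ K)
    (hν : ∀ j, ∀ p ∈ Leg monL R, ∀ q ∈ Leg monL R, |f j p - f j q| ≤ K * ‖p - q‖)
    (hm : ∀ p ∈ Leg monL R, ∀ q ∈ Leg monL R, p ≤ q →
      f j0 q ≤ f j0 p ∧ f j0 p - f j0 q ≤ ∑ i, (q i - p i))
    (hs : ∀ p ∈ Leg monL R, ∀ q ∈ Leg monL R, p ⊓ q ∈ Leg monL R →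
      f j0 p + f j0 q ≤ f j0 (p ⊔ q) + f j0 (p ⊓ q))
    (sh : Shift θa θb w0 sa sb δ R)
    (h2 : 2 * θa - θb - 1 ≤ θa) (h5 : 0 < 2 * θa - θb - 1)
    (h7 : 3 + (2 * θa - θb - 1) ≤ 5 * θa)
    (hq0 : 0 ≤ q0) (hq1 : 0 ≤ q1) (hc : 1 + q1 < c)
    (hε : 0 < ε) (hε1 : ε ≤ 1) (h6 : (θa - (2 * θa - θb - 1)) + ε * (1 - (2 * θa - θb - 1)) ≠ 0)
    (ht0 : 0 < t0) (ht : 4 * t0 ≤ δ) (hv1 : 0 ≤ v1) (hv2 : v2 ≤ 1)
    (hrec : ∀ v ∈ Ioo v1 v2, c₀ + DN c s q0 q1 θa θb v (θa * (1 - v)) (θb * (1 - v)) ≤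
      f j0 (rL θa θb w0 sa sb v))
    (hdm : ∀ v ∈ Ioo v1 v2, ∀ t ∈ Ioo 0 t0, f j0 (XP θa θb w0 sa sb ε v t) ≤
      c₀ + DN c s q0 q1 θa θb (v - t) (θa * (1 - v) - ε * t) (θb * (1 - v) - (1 + 2 * ε) * t))
    (hown : ∀ v ∈ Ioo v1 v2, ∀ t ∈ Ioo 0 t0, ∀ᶠ y in 𝓝[>] (0 : ℝ), (1 - s) * y ≤
      f j0 (XP θa θb w0 sa sb ε v t) -
        f j0 (XP θa θb w0 sa sb ε v t + y • bx9 1 0 0 0 0 0 0 0 0))
    (hfac : ∀ v ∈ Ioo v1 v2, ∀ t ∈ Ioo 0 t0, ∀ (h : ℕ → ℝ) (rz rX rH rF gC gP gE gB gD : ℝ),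
      LinTanD (Leg monL R) f j0 (fun _ => XP θa θb w0 sa sb ε v t) h rz rX rH rF gC gP gE gB gD →
      1 - s ≤ rz → gC ≤ rX ∧ gP ≤ rF ∧ gD ≤ gE ∧ (0 < gC → rX ≤ rH) ∧ (0 < gD → rH ≤ gP)) :
    ∀ᵐ v : ℝ, v ∈ Ioo v1 v2 → Tendsto (fun y : ℝ => (f j0 (rL θa θb w0 sa sb v) -
      f j0 (rL θa θb w0 sa sb v + y • (Pi.single 1 1 : Fin 12 → ℝ))) / y) (𝓝[>] 0) (𝓝 0) := by
  have hδ := sh.d0
  set β : ℝ := 2 * θa - θb - 1 with hβ
  have hθ : 0 < θa := by linarith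
  have e35 : 0 < 3 + 5 * ε := by linarith
  set q : ℝ := (5 * θa - β - 3) / (3 + 5 * ε) with hqd
  have hq : 0 ≤ q := div_nonneg (by linarith) e35.le
  have hqe : q * (3 + 5 * ε) = 5 * θa - β - 3 := by rw [hqd]; field_simp
  set κ : ℝ := c - 1 - q1 with hκd
  have hκ : 0 < κ := by rw [hκd]; linarith
  set A1 : ℝ := (c - 4 + s) + (3 + q0) * θa + (1 + q1) * θb with hA1
  set A2 : ℝ := -(c - 4 + s) + (3 + q0) * ε + (1 + q1) * (1 + 2 * ε) with hA2
  set ℓ : ℝ × ℝ →L[ℝ] ℝ := A1 • ContinuousLinearMap.fst ℝ ℝ ℝ +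
    A2 • ContinuousLinearMap.snd ℝ ℝ ℝ with hℓ
  have ℓ_val : ∀ z : ℝ × ℝ, ℓ z = A1 * z.1 + A2 * z.2 := fun z => by simp [hℓ]
  set x0 : Fin 12 → ℝ := natB w0 (sa + θa) (sb + θb) with hx0
  set G : ℝ × ℝ → ℝ := fun y => f j0 (Dg262.X x0 (natB 1 ε (1 + 2 * ε)) (natB 1 (-θa) (-θb)) y)
    with hG
  set F : ℝ × ℝ → ℝ := fun z => G (-z.2, z.1) - c₀ - ℓ z with hF
  have GX : ∀ v t : ℝ, G (-t, v) = f j0 (XP θa θb w0 sa sb ε v t) := fun v t => by
    simp only [hG, hx0]; rw [X_XP]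
  set Ω : Set (ℝ × ℝ) := Ioo v1 v2 ×ˢ Ioo 0 t0 with hΩ
  have hin : ∀ z ∈ Ω, 0 ≤ z.1 ∧ z.1 ≤ 1 ∧ 0 < z.2 ∧ z.2 ≤ t0 := fun z hz =>
    ⟨hv1.trans hz.1.1.le, hz.1.2.le.trans hv2, hz.2.1, hz.2.2.le⟩
  have hleg : ∀ z ∈ Ω, XP θa θb w0 sa sb ε z.1 z.2 ∈ Leg monL R := fun z hz => by
    obtain ⟨a1, a2, a3, a4⟩ := hin z hz
    exact XP_leg sh hε hε1 ht a1 a2 a3 a4
  -- `F ≤ 0`
  have hup : ∀ z ∈ Ω, F z ≤ 0 := fun z hz => by
    have e1 := hdm z.1 hz.1 z.2 hz.2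
    rw [DN_lin] at e1
    simp only [hF]
    rw [GX, ℓ_val]
    linarith
  -- lower bound
  set K' : ℝ := K * ‖natB 1 ε (1 + 2 * ε)‖ + |A2| with hK'
  have hlow : ∀ z ∈ Ω, -(K' * z.2) ≤ F z := fun z hz => by
    obtain ⟨a1, a2, a3, a4⟩ := hin z hz
    have e1 := hrec z.1 hz.1
    have e2 := DN_lin (c := c) (s := s) (q0 := q0) (q1 := q1) (θa := θa) (θb := θb) (ε := ε) z.1 0
    simp only [mul_zero, sub_zero, add_zero] at e2
    rw [e2] at e1
    have e3 := hν j0 _ (rL_mem sh a1 a2) _ (hleg z hz)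
    have e4 : rL θa θb w0 sa sb z.1 - XP θa θb w0 sa sb ε z.1 z.2 =
        z.2 • natB 1 ε (1 + 2 * ε) := by
      rw [rL_XP θa θb w0 sa sb ε, XP, XP, natB_smul, sub_eq_iff_eq_add, natB_add]
      congr 1 <;> ring
    rw [e4, norm_smul, Real.norm_eq_abs, abs_of_pos a3] at e3
    have e5 := (abs_le.1 e3).2
    have e6 := mul_le_mul_of_nonneg_right (le_abs_self A2) a3.le
    simp only [hF]
    rw [GX, ℓ_val, hK']
    linarith
  -- Lipschitz
  obtain ⟨K1, hK1⟩ : ∃ K1 : ℝ≥0, (K1 : ℝ) = K := ⟨⟨K, hK⟩, rfl⟩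
  have hlip : LipschitzOnWith (K1 * (‖natB 1 ε (1 + 2 * ε)‖₊ + ‖natB 1 (-θa) (-θb)‖₊) + ‖ℓ‖₊) F
      Ω := by
    refine LipschitzOnWith.of_dist_le_mul fun z hz z' hz' => ?_
    have e1 := hν j0 _ (hleg z hz) _ (hleg z' hz')
    have e2 := (X_lip x0 (natB 1 ε (1 + 2 * ε)) (natB 1 (-θa) (-θb))).dist_le_mul
      (-z.2, z.1) (-z'.2, z'.1)
    rw [hx0, X_XP, X_XP, dist_eq_norm] at e2
    have e3 : dist ((-z.2, z.1) : ℝ × ℝ) (-z'.2, z'.1) = dist z z' := by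
      rw [Prod.dist_eq, Prod.dist_eq, dist_neg_neg, max_comm]
    rw [e3] at e2
    have e4 : |ℓ z - ℓ z'| ≤ ‖ℓ‖ * dist z z' := by
      rw [← map_sub, ← Real.norm_eq_abs, dist_eq_norm]
      exact ℓ.le_opNorm _
    have e5 : F z - F z' = (f j0 (XP θa θb w0 sa sb ε z.1 z.2) -
        f j0 (XP θa θb w0 sa sb ε z'.1 z'.2)) - (ℓ z - ℓ z') := by
      simp only [hF]; rw [GX, GX]; ring
    rw [Real.dist_eq, e5]
    refine (abs_sub _ _).trans ?_
    have e6 : K * ‖XP θa θb w0 sa sb ε z.1 z.2 - XP θa θb w0 sa sb ε z'.1 z'.2‖ ≤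
        K * (((‖natB 1 ε (1 + 2 * ε)‖₊ + ‖natB 1 (-θa) (-θb)‖₊ : ℝ≥0) : ℝ) * dist z z') :=
      mul_le_mul_of_nonneg_left e2 hK
    have e7 : (((K1 * (‖natB 1 ε (1 + 2 * ε)‖₊ + ‖natB 1 (-θa) (-θb)‖₊) + ‖ℓ‖₊ : ℝ≥0)) : ℝ) *
        dist z z' = K * (((‖natB 1 ε (1 + 2 * ε)‖₊ + ‖natB 1 (-θa) (-θb)‖₊ : ℝ≥0) : ℝ) *
        dist z z') + ‖ℓ‖ * dist z z' := by
      rw [NNReal.coe_add, NNReal.coe_mul, hK1, coe_nnnorm]; ring
    rw [e7]
    linarith
  -- the engine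
  have hal := aloneP (θ := θa) (β := β) hε h2 h5 h6
  have hdh := dhR (θ := θa) (β := β) hε h5.ne'
  have eR : rN θa β = natB 1 (-θa) (-θb) := by
    rw [rN]; congr 1; rw [hβ]; ring
  rw [eR] at hal hdh
  have hen := ae_rot (engine (j0 := j0) hK hν hm hs (z := w0) (c := sa + θa) (p := sb + θb)
    (z1 := 1) (c1 := ε) (p1 := 1 + 2 * ε) (z2 := 1) (c2 := -θa) (p2 := -θb) (aN_nonneg hε) hal hdh)
  -- null sets
  have hnull : ∀ m : ℕ, volume (⋂ k, VU (f j0) θa θb w0 sa sb δ v1 v2 m k) = 0 := by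
    intro m
    set V : Set ℝ := ⋂ k, VU (f j0) θa θb w0 sa sb δ v1 v2 m k with hV
    have hVm : MeasurableSet V :=
      MeasurableSet.iInter fun k => (VU_open hK (hν j0) sh hv1 hv2 m k).measurableSet
    have hsub : V ∩ Ioo v1 v2 = V := inter_eq_left.2 fun v hv => (mem_iInter.1 hv 0).1
    rw [← hsub]
    refine slant (F := F) (K' := K') (κ := κ) (q := q) ht0 hq hκ hlip hlow hup hVm ?_
    filter_upwards [hen] with z hz hzΩ hzV _
    obtain ⟨a1, a2, a3, a4⟩ := hin z hzΩ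
    have hXz : Dg262.X (natB w0 (sa + θa) (sb + θb)) (natB 1 ε (1 + 2 * ε))
        (natB 1 (-θa) (-θb)) (-z.2, z.1) = XP θa θb w0 sa sb ε z.1 z.2 := X_XP _ _ _ _ _ _ _ _
    obtain ⟨D, hD, hT⟩ := hz (fun k => by
      rw [hXz]; exact XP_box sh hε hε1 ht a1 a2 a3 a4 k)
    choose y hy0 hyδ hyk hy using fun k => (mem_iInter.1 hzV k).2
    have hy1 : Tendsto y atTop (𝓝 0) :=
      squeeze_zero (fun k => (hy0 k).le) (fun k => (hyk k).le)
        tendsto_one_div_add_atTop_nhds_zero_nat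
    obtain ⟨ψ, hψ, ρ, hρ, T, d1, d2⟩ := hT y hy0 hy1
    rw [hXz] at T
    have z0L : (0 : Fin 12 → ℝ) ∈ LM := zero_mem
    -- the rate of `D`
    have hgD : 0 < ρ 1 := by
      have hmem : bx9 0 1 0 0 0 0 0 0 0 ∈ LM := by
        refine lm_raise0 (fun k => ?_) (fun k k0 k1 k3 k4 => ?_)
        · fin_cases k <;> simp [bx9]
        · fin_cases k <;> first | rfl | exact absurd rfl k0 | exact absurd rfl k1
      have key := rate_ge T (q := 1 / ((m : ℝ) + 1)) hmem z0L (Eventually.of_forall fun l => by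
        have e1 := hy (ψ l)
        rw [← single_one]
        have e2 := incr (ν := f j0) hs (p := XP θa θb w0 sa sb ε z.1 z.2)
          (q := rL θa θb w0 sa sb z.1) (u := y (ψ l) • (Pi.single 1 1 : Fin 12 → ℝ)) ?_ ?_ ?_
          (hleg z hzΩ) (rL_mem sh a1 a2) ?_
        · have e3 : 1 / ((m : ℝ) + 1) * y (ψ l) = y (ψ l) / ((m : ℝ) + 1) := by ring
          rw [e3]
          exact e1.le.trans e2
        · rw [rL_XP θa θb w0 sa sb ε]
          intro k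
          have e4 : 0 < ε * z.2 := mul_pos hε a3
          fin_cases k <;> simp [XP, natB, bx9] <;> nlinarith
        · intro k
          rw [Pi.smul_apply, smul_eq_mul]
          refine mul_nonneg (hy0 _).le ?_
          by_cases h : k = 1
          · subst h; simp
          · rw [Pi.single_eq_of_ne h]
        · intro k hk
          by_cases h : k = 1
          · subst h
            rw [rL_XP θa θb w0 sa sb ε]
            simp [XP, natB, bx9]
            ring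
          · exfalso
            apply hk
            rw [Pi.smul_apply, Pi.single_eq_of_ne h, smul_zero]
        · refine leg_raise (hleg z hzΩ) (fun k => ?_) (fun k hk _ _ => ?_) (fun k => ?_)
          · rw [Pi.smul_apply, smul_eq_mul]
            refine mul_nonneg (hy0 _).le ?_
            by_cases h : k = 1
            · subst h; simp
            · rw [Pi.single_eq_of_ne h]
          · rw [Pi.smul_apply, Pi.single_eq_of_ne hk, smul_zero]
          · have e5 : XP θa θb w0 sa sb ε z.1 z.2 1 = rL θa θb w0 sa sb z.1 1 := by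
              rw [rL_XP θa θb w0 sa sb ε]
              simp [XP, natB, bx9]
              ring
            by_cases h : k = 1
            · subst h
              rw [e5]
              exact (rLD_mem sh a1 a2 (hy0 (ψ l)).le (hyδ _)).2 1
            · rw [Pi.smul_apply, Pi.single_eq_of_ne h, smul_zero, add_zero]
              exact (hleg z hzΩ).2 k)
      have e1 : (0 : ℝ) < 1 / ((m : ℝ) + 1) := by positivity
      linarith
    -- the own rate
    have hgz : 1 - s ≤ ρ 0 := by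
      have hmem : bx9 1 0 0 0 0 0 0 0 0 ∈ LM := by
        refine lm_raise0 (fun k => ?_) (fun k k0 k1 k3 k4 => ?_)
        · fin_cases k <;> simp [bx9]
        · fin_cases k <;> first | rfl | exact absurd rfl k0 | exact absurd rfl k1
      have hT0 : Tendsto (fun l => y (ψ l)) atTop (𝓝[>] (0 : ℝ)) :=
        tendsto_nhdsWithin_iff.2 ⟨hy1.comp hψ.tendsto_atTop, Eventually.of_forall fun l => hy0 _⟩
      have key := rate_ge T (q := 1 - s) hmem z0L (hT0.eventually (hown z.1 hzΩ.1 z.2 hzΩ.2))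
      linarith
    obtain ⟨P1, P2, P3, H1, S3⟩ := hfac z.1 hzΩ.1 z.2 hzΩ.2 _ _ _ _ _ _ _ _ _ _ T hgz
    have r0 : 0 ≤ ρ 3 := hρ 3 (by decide)
    have r1 : 0 ≤ ρ 10 := hρ 10 (by decide)
    have r2 : 0 ≤ ρ 2 := hρ 2 (by decide)
    have r3 : 0 ≤ ρ 7 := hρ 7 (by decide)
    have r4 : 0 ≤ ρ 9 := hρ 9 (by decide)
    have P4 : ρ 3 ≤ ρ 9 := by
      rcases r0.lt_or_eq with h | h
      · exact P1.trans (H1 h)
      · rw [← h]; exact r4
    have hrow := rowP (θ := θa) (β := β) (ε := ε) (q := q) (S := 1 + q) (c := c) (s := s)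
      (q0 := q0) (q1 := q1) hε hε1 h5 h2 hq0 hq1 hc hq hqe rfl hgz r0 r1 r2 r3 hgD.le P1 P2 P3 P4
      (S3 hgD)
    -- the derivative
    have hder : HasFDerivAt F (D.comp ((-(ContinuousLinearMap.snd ℝ ℝ ℝ)).prod
        (ContinuousLinearMap.fst ℝ ℝ ℝ)) - ℓ) z := by
      have e1 : HasFDerivAt (fun z : ℝ × ℝ => ((-z.2, z.1) : ℝ × ℝ))
          ((-(ContinuousLinearMap.snd ℝ ℝ ℝ)).prod (ContinuousLinearMap.fst ℝ ℝ ℝ)) z :=
        ((-(ContinuousLinearMap.snd ℝ ℝ ℝ)).prod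
          (ContinuousLinearMap.fst ℝ ℝ ℝ)).hasFDerivAt
      have e2 : HasFDerivAt G D (-z.2, z.1) := hD
      exact ((e2.comp z e1).sub_const c₀).sub ℓ.hasFDerivAt
    rw [hder.fderiv]
    have e1 : (D.comp ((-(ContinuousLinearMap.snd ℝ ℝ ℝ)).prod
        (ContinuousLinearMap.fst ℝ ℝ ℝ)) - ℓ) (-1, q) =
        -(q * D (1, 0)) - D (0, 1) - (A1 * (-1) + A2 * q) := by
      rw [sub_apply, ℓ_val]
      have e2 : (D.comp ((-(ContinuousLinearMap.snd ℝ ℝ ℝ)).prod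
          (ContinuousLinearMap.fst ℝ ℝ ℝ))) (-1, q) = D (-q, -1) := rfl
      have e3 : ((-q, -1) : ℝ × ℝ) = (-q) • ((1, 0) : ℝ × ℝ) + (-1 : ℝ) • ((0, 1) : ℝ × ℝ) := by
        ext <;> simp
      rw [e2, e3, map_add, map_smul, map_smul, smul_eq_mul, smul_eq_mul]
      ring
    rw [e1, d1, d2, sum9, sum9]
    refine hrow.trans (le_of_eq ?_)
    simp only [natB, bx9]
    simp
    rw [hA1, hA2, hβ]
    ring
  -- the limit
  have hae : ∀ᵐ v : ℝ, ∀ m : ℕ, v ∉ ⋂ k, VU (f j0) θa θb w0 sa sb δ v1 v2 m k :=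
    ae_all_iff.2 fun m => measure_eq_zero_iff_ae_notMem.1 (hnull m)
  filter_upwards [hae] with v hv hvI
  have a1 : 0 ≤ v := hv1.trans hvI.1.le
  have a2 : v ≤ 1 := hvI.2.le.trans hv2
  rw [Metric.tendsto_nhds]
  intro e he
  obtain ⟨m, hm'⟩ := exists_nat_one_div_lt he
  have h8 := hv m
  rw [mem_iInter] at h8
  push Not at h8
  obtain ⟨k, hk⟩ := h8
  have e1 : ∀ᶠ y : ℝ in 𝓝[>] (0 : ℝ), y < min δ (1 / ((k : ℝ) + 1)) := by
    refine (eventually_lt_nhds ?_).filter_mono nhdsWithin_le_nhds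
    exact lt_min hδ (by positivity)
  filter_upwards [e1, self_mem_nhdsWithin] with y hy hy0
  have hy0' : (0 : ℝ) < y := hy0
  have hyδ : y ≤ δ := hy.le.trans (min_le_left _ _)
  have e2 : f j0 (rL θa θb w0 sa sb v) -
      f j0 (rL θa θb w0 sa sb v + y • (Pi.single 1 1 : Fin 12 → ℝ)) ≤ y / ((m : ℝ) + 1) := by
    by_contra hcon
    push Not at hcon
    exact hk ⟨hvI, y, hy0', hyδ, hy.trans_le (min_le_right _ _), hcon⟩
  have e3 : 0 ≤ f j0 (rL θa θb w0 sa sb v) -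
      f j0 (rL θa θb w0 sa sb v + y • (Pi.single 1 1 : Fin 12 → ℝ)) := by
    have := (hm _ (rL_mem sh a1 a2) _ (rLD_mem sh a1 a2 hy0'.le hyδ) (by
      intro i
      rw [Pi.add_apply, Pi.smul_apply, smul_eq_mul]
      have : 0 ≤ (Pi.single 1 1 : Fin 12 → ℝ) i := by
        by_cases h : i = 1
        · subst h; simp
        · rw [Pi.single_eq_of_ne h]
      have := mul_nonneg hy0'.le this
      linarith)).1
    linarith
  rw [Real.dist_eq, sub_zero, abs_of_nonneg (div_nonneg e3 hy0'.le), div_lt_iff₀ hy0']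
  have e4 : y / ((m : ℝ) + 1) = 1 / ((m : ℝ) + 1) * y := by ring
  rw [e4] at e2
  have e5 := mul_lt_mul_of_pos_right hm' hy0'
  linarith

end

section ctx

variable {G : Geo TSet (Fin 2)} {L : ℕ → ℕ → LRay} {r : ℕ → ℝ} {g s : ℝ} {θ q : Fin 2 → ℝ}
    {Rg : ℝ} {B : Base} {I : ℕ → Finset (ℕ × ℝ)} {lev : ℕ → ℚ → ℕ} {A : ℕ → ℝ}
    {f : ℕ → ℚ → ℕ → ℤ → ℕ} {b : ℕ → ℚ → ℕ → TSet} {vm : ℕ → ℚ → ℝ} {w : Fin 2 → ℕ → ℚ → ℝ}
    {fr : ℕ → ℚ → ℕ × ℝ → LInc} {fl : ℕ → ℕ × ℝ → LInc} {sc : Fin 12 → ℕ → ℝ}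
    {w0 sa sb δ R : ℝ} {I0 I' : ℕ → Finset (ℕ × ℝ)} {ν own : (Fin 12 → ℝ) → ℝ} {c₀ : ℝ}

/-- **LEMMA D0 at `3 + β ≤ 5 θ`, `0 < β`** over the context -/
theorem d0P_ctx
    (H : CtxT G L r g s θ q Rg B I lev A f b vm w fr fl sc w0 sa sb δ R I0 I' ν own c₀)
    (hs0 : 0 ≤ s) (hs1 : s < 1) (hq0 : 0 ≤ q 0) (hq1 : 0 ≤ q 1) (hc : 1 + q 1 < g)
    (hRg : θ 0 + |θ 1| + 1 ≤ Rg)
    (h2 : 2 * θ 0 - θ 1 - 1 ≤ θ 0) (h5 : 0 < 2 * θ 0 - θ 1 - 1)
    (h8 : ¬ (2 * θ 0 - θ 1 - 1 = θ 0 ∧ θ 0 = 1)) (h7 : 3 + (2 * θ 0 - θ 1 - 1) ≤ 5 * θ 0)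
    (hB : VisT B I fl sc 7 ∨ VisT B I fl sc 8 → θ 0 - θ 1 ≤ 1)
    (hE : VisT B I fl sc 2 ∨ VisT B I fl sc 1 → 2 * θ 0 - θ 1 ≤ 1) :
    Mic ν (θ 0) (θ 1) w0 sa sb := by
  have sh := H.sh
  have hδ := sh.d0
  have hθ : 0 < θ 0 := by linarith
  have hN := WinU954.nprof_of_ext (sh.d0.le.trans sh.R_pos) (H.extK (|θ 0| + |θ 1|))
  -- the constant `ε`
  obtain ⟨ε, hε, hε1, h6⟩ : ∃ ε : ℝ, 0 < ε ∧ ε ≤ 1 ∧
      (θ 0 - (2 * θ 0 - θ 1 - 1)) + ε * (1 - (2 * θ 0 - θ 1 - 1)) ≠ 0 := by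
    by_cases e1 : (θ 0 - (2 * θ 0 - θ 1 - 1)) + 1 * (1 - (2 * θ 0 - θ 1 - 1)) = 0
    · refine ⟨1 / 2, by norm_num, by norm_num, fun e2 => h8 ⟨?_, ?_⟩⟩ <;> linarith
    · exact ⟨1, one_pos, le_refl _, e1⟩
  have key : ∀ n : ℕ, ∀ᵐ v : ℝ, v ∈ Ioo (1 / ((n : ℝ) + 2)) (1 - 1 / ((n : ℝ) + 2)) →
      Tendsto (fun y : ℝ => (ν (rL (θ 0) (θ 1) w0 sa sb v) -
        ν (rL (θ 0) (θ 1) w0 sa sb v + y • (Pi.single 1 1 : Fin 12 → ℝ))) / y) (𝓝[>] 0) (𝓝 0) := by
    intro n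
    set v1 : ℝ := 1 / ((n : ℝ) + 2) with hv1d
    have hv1 : 0 < v1 := by positivity
    have hv1' : v1 ≤ 1 / 2 := by
      rw [hv1d]
      exact one_div_le_one_div_of_le two_pos (by linarith [Nat.cast_nonneg (α := ℝ) n])
    set t0 : ℝ := min (δ / 4) (min (v1 / 4) (θ 0 * v1 / 2)) with ht0d
    have ht0 : 0 < t0 := lt_min (by positivity) (lt_min (by positivity) (by positivity))
    have htδ : 4 * t0 ≤ δ := by
      have := min_le_left (δ / 4) (min (v1 / 4) (θ 0 * v1 / 2)); linarith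
    have htv : t0 ≤ v1 / 4 := (min_le_right _ _).trans (min_le_left _ _)
    have htθ : t0 ≤ θ 0 * v1 / 2 := (min_le_right _ _).trans (min_le_right _ _)
    -- the region
    have reg : ∀ v ∈ Ioo v1 (1 - v1), ∀ t ∈ Ioo (0 : ℝ) t0,
        0 < v - t ∧ v - t < 1 ∧ 0 < θ 0 * (1 - v) - ε * t ∧ ε * t ≤ t ∧ 0 < ε * t := by
      intro v hv t ht
      have e1 : θ 0 * v1 ≤ θ 0 * (1 - v) := mul_le_mul_of_nonneg_left (by linarith [hv.2]) hθ.le
      have e2 : ε * t ≤ 1 * t := mul_le_mul_of_nonneg_right hε1 ht.1.le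
      have e3 : 0 < ε * t := mul_pos hε ht.1
      refine ⟨by linarith [hv.1, ht.2], by linarith [hv.2, ht.1], by linarith [ht.2], by linarith,
        e3⟩
    have hbox : ∀ v ∈ Ioo v1 (1 - v1), ∀ t ∈ Ioo (0 : ℝ) t0, ∀ k,
        0 < XP (θ 0) (θ 1) w0 sa sb ε v t k ∧ XP (θ 0) (θ 1) w0 sa sb ε v t k < R :=
      fun v hv t ht k => XP_box sh hε hε1 htδ (by linarith [hv.1]) (by linarith [hv.2]) ht.1
        ht.2.le k
    have hleg : ∀ v ∈ Ioo v1 (1 - v1), ∀ t ∈ Ioo (0 : ℝ) t0,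
        XP (θ 0) (θ 1) w0 sa sb ε v t ∈ Leg monL R :=
      fun v hv t ht => XP_leg sh hε hε1 htδ (by linarith [hv.1]) (by linarith [hv.2]) ht.1 ht.2.le
    have main := d0p (J := Unit) (f := fun _ => ν) (j0 := ()) (K := ((12 : ℕ) : ℝ)) (c := g)
      (s := s) (q0 := q 0) (q1 := q 1) (c₀ := c₀) (t0 := t0) (v1 := v1) (v2 := 1 - v1)
      (by positivity) (fun _ => hN.lip)
      (fun p hp q hq hpq => ⟨hN.anti p hp q hq hpq, hN.sharp p hp q hq hpq⟩) hN.submod sh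
      h2 h5 h7 hq0 hq1 hc hε hε1 h6 ht0 htδ hv1.le (by linarith) ?_ ?_ ?_ ?_
    · exact main
    · intro v hv
      have e1 := H.ext.record v (by linarith [hv.1]) (by linarith [hv.2])
      rw [EL_DN] at e1
      exact e1
    · intro v hv t ht
      obtain ⟨r1, r2, r3, r4, r5⟩ := reg v hv t ht
      have hl := hleg v hv t ht
      have aθ := le_abs_self (θ 1)
      have bθ := neg_abs_le (θ 1)
      have h01 : 0 ≤ 1 - v := by linarith [hv.2]
      have h02 : 1 - v ≤ 1 := by linarith [hv.1]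
      have u1 : θ 0 * (1 - v) ≤ θ 0 * 1 := mul_le_mul_of_nonneg_left h02 hθ.le
      have u2 : |θ 1 * (1 - v)| ≤ |θ 1| * 1 := by
        rw [abs_mul, abs_of_nonneg h01]
        exact mul_le_mul_of_nonneg_left h02 (abs_nonneg _)
      have u3 := abs_le.1 u2
      have t8 : t < 1 / 8 := by linarith [ht.2]
      rw [XP_nb] at hl ⊢
      have hp := nb_PD (Rg := Rg) (k0 := θ 0 + |θ 1| + 1) hl r1.le r2.le r3 (by linarith [ht.1])
        (by rw [abs_lt]; constructor <;> nlinarith [ht.1]) (by nlinarith [ht.1])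
      have e1 := (H.extK (θ 0 + |θ 1| + 1)).dmax _ hp
      rw [DT_nb] at e1
      exact e1
    · intro v hv t ht
      obtain ⟨r1, r2, r3, r4, r5⟩ := reg v hv t ht
      have hl := hleg v hv t ht
      have hR := hbox v hv t ht 0
      have e1 : ∀ᶠ y : ℝ in 𝓝[>] (0 : ℝ), y < min (1 - (v - t))
          (R - XP (θ 0) (θ 1) w0 sa sb ε v t 0) := by
        refine (eventually_lt_nhds ?_).filter_mono nhdsWithin_le_nhds
        exact lt_min (by linarith) (by linarith [hR.2])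
      filter_upwards [e1, self_mem_nhdsWithin] with y hy hy0
      have hy0' : (0 : ℝ) < y := hy0
      have hy1 : y < 1 - (v - t) := hy.trans_le (min_le_left _ _)
      have hy2 : y < R - XP (θ 0) (θ 1) w0 sa sb ε v t 0 := hy.trans_le (min_le_right _ _)
      have hnn : ∀ k : Fin 12, 0 ≤ bx9 1 0 0 0 0 0 0 0 0 k := fun k => by
        fin_cases k <;> simp [bx9]
      have hne : ∀ k : Fin 12, k ≠ 0 → bx9 1 0 0 0 0 0 0 0 0 k = 0 := fun k hk => by
        fin_cases k <;> first | exact absurd rfl hk | rfl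
      have hz : XP (θ 0) (θ 1) w0 sa sb ε v t 0 = w0 + (v - t) := by rw [XP_nb]; rfl
      have hs0' : bx9 1 0 0 0 0 0 0 0 0 0 = (1 : ℝ) := rfl
      have hl2 : XP (θ 0) (θ 1) w0 sa sb ε v t + y • bx9 1 0 0 0 0 0 0 0 0 ∈ Leg monL R := by
        refine ⟨⟨fun k => ?_, fun k e he => ?_⟩, fun k => ?_⟩
        · have a1 := hl.1.nonneg k
          have a2 := mul_nonneg hy0'.le (hnn k)
          rw [Pi.add_apply, Pi.smul_apply, smul_eq_mul]; linarith
        · have a1 := hl.1.wall k e he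
          have hk := wall_hd4 k e he
          rw [Pi.add_apply, Pi.smul_apply, hne k hk.1, smul_zero, add_zero]
          refine a1.trans (Finset.sum_le_sum fun i _ => ?_)
          rw [Pi.add_apply, Pi.smul_apply, smul_eq_mul]
          have a2 := mul_nonneg (Nat.cast_nonneg (α := ℝ) (e i)) (mul_nonneg hy0'.le (hnn i))
          nlinarith
        · rw [Pi.add_apply, Pi.smul_apply, smul_eq_mul]
          by_cases hk : k = 0
          · subst hk; rw [hs0']; linarith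
          · rw [hne k hk, mul_zero, add_zero]; exact hl.2 k
      have hV := OwV363.vis_Y (θ := θ) (v := v) (t := t) (ε := ε) ht.1.le hε.le
      have key := PL504.own_inc H.ext hl hl2 (fun k => by
          simp only [Pi.add_apply, Pi.smul_apply, smul_eq_mul]
          have := mul_nonneg hy0'.le (hnn k)
          linarith) (v := v - t) (v' := v - t + y) r1.le r2.le (by linarith) (by linarith)
        hz (by simp only [Pi.add_apply, Pi.smul_apply, smul_eq_mul, hs0', hz]; ring)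
        (fun k => by
          by_cases hk : k = 0
          · rw [hk, hz]
            exact (oz (VisT B I fl sc) (v - t)).ge
          · by_cases hkv : VisT B I fl sc k
            · rw [oV hkv, XP_nb]
              exact OwV363.vis_nat H (fun h => hV.1 (hB h)) (fun h => hV.2 (hE h)) k hk hkv
            · exact (hl.2 k).trans (oR hk hkv _).ge)
      have e2 : (1 - s) * (v - t + y - (v - t)) = (1 - s) * y := by ring
      rw [e2] at key
      exact key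
    · intro v hv t ht hh rz rX rH rF gC gP gE gB gD T hrz
      obtain ⟨r1, r2, r3, r4, r5⟩ := reg v hv t ht
      obtain ⟨D, lam, hD, htan, hlin⟩ := T.ex
      have eX : XP (θ 0) (θ 1) w0 sa sb ε v t = eL (w0 + v - t)
          (sa + θ 0 * (1 - v) - ε * t) (sb + θ 1 * (1 - v) - (1 + 2 * ε) * t) := by
        rw [XP, natB_eL]
      have ht0' := htan ()
      rw [eX] at ht0'
      have hb := hbox v hv t ht
      rw [eX] at hb
      have P := Ap954.pins_T H hs1 (w0 + v - t) (sa + θ 0 * (1 - v) - ε * t)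
        (sb + θ 1 * (1 - v) - (1 + 2 * ε) * t) hb (by linarith) (by linarith) hh D (lam ())
        T.hpos T.h0 ht0' hD rz rX rH rF gC gP gE gB gD
        (fun z d C p E B x H F hm => hlin z d C p E B x H F hm) hrz
      have F := Kg330.facts_nat H hs0 hs1.le (by linarith) (by linarith) T.hpos T.h0 ht0' hD
        (fun z d C p E B x H F hm => hlin z d C p E B x H F hm) hrz
      exact ⟨P.1, P.2.1, P.2.2, F.2.2.1.1, F.2.2.2.2.1⟩
  have hall := ae_all_iff.2 key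
  unfold Mic
  filter_upwards [hall] with v hv hvI
  obtain ⟨n1, hn1⟩ := exists_nat_one_div_lt (lt_min hvI.1 (sub_pos.2 hvI.2))
  refine hv n1 ⟨?_, ?_⟩
  · have e1 : 1 / ((n1 : ℝ) + 2) ≤ 1 / ((n1 : ℝ) + 1) :=
      one_div_le_one_div_of_le (by positivity) (by linarith)
    have := hn1.trans_le (min_le_left _ _)
    linarith
  · have e1 : 1 / ((n1 : ℝ) + 2) ≤ 1 / ((n1 : ℝ) + 1) :=
      one_div_le_one_div_of_le (by positivity) (by linarith)
    have := hn1.trans_le (min_le_right _ _)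
    linarith

end ctx

/-- region of `d0H2` -/
def RegH2 (s : ℝ) (θ : Fin 2 → ℝ) : Prop :=
  1 / 2 ≤ s ∧ -θ 0 < 2 * θ 0 - θ 1 - 1 ∧ 2 * θ 0 - θ 1 - 1 ≤ θ 0 ∧ -1 < 2 * θ 0 - θ 1 - 1 ∧
    2 * θ 0 - θ 1 - 1 ≠ 0 ∧ 3 + (2 * θ 0 - θ 1 - 1) ≤ 5 * θ 0 ∧
    ¬ (2 * θ 0 - θ 1 - 1 = θ 0 ∧ θ 0 = 1)

/-- **D0 for `1/2 ≤ s`**, without upper bound on `β` -/
theorem d0H2 {η : ℝ} (hη : η < 1) : D0T η RegH2 := by
  intro G L r g s θ q Rg B I lev A f b vm w fr fl sc w0 sa sb δ R I0 I' ν own c₀ C N hX hR0 hR1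
    hRg hI hT1 hT2
  obtain ⟨x1, x2, x3, x4, x5, x6, x7⟩ := hX
  have hq1 : q 1 < g := by
    have := N.qbg
    have := mul_lt_mul_of_pos_right hη N.gpos
    linarith
  have hB : VisT B I fl sc 7 ∨ VisT B I fl sc 8 → θ 0 - θ 1 ≤ 1 := by
    rintro (h | h)
    · exact hT1 (Or.inl ((C.out.clsB (Or.inl rfl)).resolve_left h))
    · exact hT1 (Or.inr ((C.out.clsB (Or.inr rfl)).resolve_left h))
  have hE : VisT B I fl sc 2 ∨ VisT B I fl sc 1 → 2 * θ 0 - θ 1 ≤ 1 := by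
    rintro (h | h)
    · rcases C.out.clsE with h8 | h8 | h8
      · exact absurd h8 h
      · exact (hT2 h8).le
      · exact absurd hI h8.1
    · exact absurd hI h
  rcases lt_or_ge (2 * θ 0 - θ 1 - 1) 1 with h | h
  · exact d0H_ctx C N.s0 N.s1 N.qa.le N.qb.le (by linarith) hRg x2 x3 x4 h x5 x6 hB hE
  · exact d0P_ctx C N.s0 N.s1 N.qa.le N.qb.le (by linarith) hRg x3 (by linarith) x7 x6 hB hE

end Crest.Agent.R116.D0h708
end

-- ▼ part R116/D0h0_894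
section

/-!
# R116 (K side), LEMMA D0 at `β = 2 θa - θb - 1 = 0`, `3 ≤ 5 θa` (helper894)

On the plane `R(v) + t (-1; -ε, -1 - 2 ε)` the slot `D` is constant (and `E || z`, `B || X || F`,
`P || H`), so only `D` is alone there: second level along the record + plane direction
`natB 5 (-3) (-1)`, natural offsets `natB 1 1 4`.

* `exists_psi` : the slot `D` is decoupled in the first tangent
* `slope_b` : slope of the first tangent along `natB 5 (-3) (-1)` from the rows at the second level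
* **`d0h0`** : `D` has zero rate at almost every record box
-/

set_option autoImplicit false
set_option linter.unusedVariables false

open Set Filter Topology MeasureTheory
open scoped NNReal

namespace Crest.Agent.R116.D0h0894

open Crest.Agent.R138
open Crest.Agent.R136
open Crest.Agent.R136.Net191
open Crest.Agent.R136.Dg219 (mw gC dhC nC gset lf gC_eq gC_zero Walls OutS dirC leg_outC leg_legal
  X_lip mem_gset bup_of_tan Tn)
open Crest.Agent.R116.ChL222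
open Crest.Agent.R116.PL504
open Crest.Agent.R116.Sg337 (bx9 natB nb_natB)
open Crest.Agent.R116.SgF665 (wl)
open Crest.Agent.R116.D0F878
open Crest.Agent.R116.D0n878
open Crest.Agent.R116.D0h708
open Crest.Agent.R116.SgO219 (tan_lim tan_ev)
open Dg262 (SupOn)

/-! ### the plane of the second level -/

theorem v14 : natB 1 1 4 0 = 1 ∧ natB 1 1 4 1 = 1 ∧ natB 1 1 4 2 = 2 ∧ natB 1 1 4 3 = 1 ∧
    natB 1 1 4 5 = 2 ∧ natB 1 1 4 7 = 3 ∧ natB 1 1 4 9 = 3 ∧ natB 1 1 4 10 = 4 ∧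
    natB 1 1 4 11 = 5 := by
  refine ⟨?_, ?_, ?_, ?_, ?_, ?_, ?_, ?_, ?_⟩ <;> simp [natB, bx9] <;> norm_num

theorem v53 : natB 5 (-3) (-1) 0 = 5 ∧ natB 5 (-3) (-1) 1 = 0 ∧ natB 5 (-3) (-1) 2 = 5 ∧
    natB 5 (-3) (-1) 3 = -3 ∧ natB 5 (-3) (-1) 5 = 2 ∧ natB 5 (-3) (-1) 7 = 2 ∧
    natB 5 (-3) (-1) 9 = -1 ∧ natB 5 (-3) (-1) 10 = -1 ∧ natB 5 (-3) (-1) 11 = 4 := by
  refine ⟨?_, ?_, ?_, ?_, ?_, ?_, ?_, ?_, ?_⟩ <;> simp [natB, bx9] <;> norm_num

theorem ne14 : ∀ i, natB 1 1 4 i ≠ 0 := fun i => (natB_pos i).ne'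

theorem dh5 : ∀ i ∈ S9, dhC (natB 1 1 4) (natB 5 (-3) (-1)) i ≠ 0 := by
  intro i _
  unfold dhC
  rw [if_neg (ne14 i)]
  exact ne14 i

theorem alone5 : ∀ i ∈ S9, ∀ j ∈ S9, gC (natB 1 1 4) (natB 5 (-3) (-1)) i =
    gC (natB 1 1 4) (natB 5 (-3) (-1)) j → i = j := by
  intro i hi j hj h
  rw [gC_eq (ne14 i) (ne14 j)] at h
  obtain ⟨a0, a1, a2, a3, a5, a7, a9, a10, a11⟩ := v14
  obtain ⟨b0, b1, b2, b3, b5, b7, b9, b10, b11⟩ := v53
  simp only [S9, Finset.mem_insert, Finset.mem_singleton] at hi hj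
  rcases hi with rfl | rfl | rfl | rfl | rfl | rfl | rfl | rfl | rfl <;>
    rcases hj with rfl | rfl | rfl | rfl | rfl | rfl | rfl | rfl | rfl <;>
    first
      | rfl
      | (exfalso
         simp only [a0, a1, a2, a3, a5, a7, a9, a10, a11, b0, b1, b2, b3, b5, b7, b9, b10, b11] at h
         norm_num at h)

/-! ### the slot `D` in the first tangent -/

theorem natB00 (d : ℝ) : natB 0 0 d 1 = d := by simp [natB, bx9]

/-- **`D` is decoupled** -/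
theorem exists_psi {a b : Fin 12 → ℝ} (ha1 : a 1 = 0) (ha : ∀ i, i ≠ 1 → a i ≠ 0)
    {lam : (Fin 12 → ℝ) → ℝ} {A : ℝ × ℝ} {φ : ℕ → (Fin 12 → ℝ) → ℝ} {r : ℕ → ℝ}
    (H : OutS (gC a b) LM (dhC a b) (nC a b) lam A φ r) :
    ∃ ψ : ℝ → ℝ, (∀ d d', d ≤ d' → 0 ≤ ψ d - ψ d' ∧ ψ d - ψ d' ≤ d' - d) ∧
      ∀ c ∈ LM, ∀ y : ℝ, c + y • uD ∈ LM → lam c - lam (c + y • uD) = ψ (c 1) - ψ (c 1 + y) := by
  have h1 : ∀ i, gC a b i = 0 ↔ i = 1 := fun i => by
    rw [gC_zero]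
    constructor
    · intro h
      by_contra h2
      exact ha i h2 h
    · rintro rfl
      exact ha1
  have hl : ∀ c : Fin 12 → ℝ, φ 0 c = φ 0 (natB 0 0 (c 1)) := fun c =>
    H.loc 0 _ _ fun i hi => by
      rw [(h1 i).1 hi, natB00]
  have hfil : Finset.univ.filter (fun i => gC a b i = 0) = {1} := by
    ext i
    simp only [Finset.mem_filter, Finset.mem_univ, true_and, Finset.mem_singleton]
    exact h1 i
  refine ⟨fun d => φ 0 (natB 0 0 d), fun d d' hd => ?_, fun c hc y hc' => ?_⟩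
  · have h2 := H.mono 0 _ (natB_mem 0 0 d) _ (natB_mem 0 0 d') fun i hi => by
      rw [(h1 i).1 hi, natB00, natB00]; exact hd
    rw [hfil, Finset.sum_singleton, natB00, natB00] at h2
    exact h2
  · rw [H.sum c hc, H.sum _ hc', ← Finset.sum_sub_distrib]
    have hm : (0 : ℕ) ∈ gset (gC a b) := by
      have := mem_gset (grp := gC a b) 1
      rwa [(h1 1).2 rfl] at this
    rw [Finset.sum_eq_single_of_mem 0 hm]
    · have e1 : (c + y • uD) 1 = c 1 + y := by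
        simp [uD, bx9]
      rw [hl c, hl (c + y • uD), e1]
    · intro k _ hk
      have : φ k c = φ k (c + y • uD) := H.loc k _ _ fun i hi => by
        have hi1 : i ≠ 1 := fun e => hk (by rw [← hi, e]; exact (h1 1).2 rfl)
        have : uD i = 0 := by
          fin_cases i <;> first | rfl | exact absurd rfl hi1
        simp [this]
      rw [this, sub_self]

/-- the tangent along the plane -/
theorem lam_plane {a b : Fin 12 → ℝ} {lam : (Fin 12 → ℝ) → ℝ} {A : ℝ × ℝ}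
    {φ : ℕ → (Fin 12 → ℝ) → ℝ} {r : ℕ → ℝ} (H : OutS (gC a b) LM (dhC a b) (nC a b) lam A φ r)
    {c : Fin 12 → ℝ} (hc : c ∈ LM) (z : ℝ × ℝ) (he : ∀ i, c i = Tn a b z i) :
    lam c = A.1 * z.1 + A.2 * z.2 := by
  rw [H.sum c hc]
  have h1 : ∀ k ∈ gset (gC a b), φ k c = -(r k * lf (nC a b k) z) := fun k _ =>
    H.rate k c hc _ fun i hi => by
      rw [he i, (dirC (a := a) (b := b)).Tn_eq, hi]
  rw [Finset.sum_congr rfl h1, Finset.sum_neg_distrib, ← H.total z]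
  rfl

/-! ### the second level -/

theorem norm14 : ‖natB 1 1 4‖ ≤ 5 := by
  refine (pi_norm_le_iff_of_nonneg (by norm_num)).2 fun k => ?_
  rw [Real.norm_eq_abs, abs_le]
  fin_cases k <;> simp [natB, bx9] <;> norm_num

theorem X5 (t v : ℝ) : Dg262.X (natB 0 0 0) (natB 1 1 4) (natB 5 (-3) (-1)) (t, v) =
    natB (t + 5 * v) (t - 3 * v) (4 * t - v) := by
  rw [X_nat]
  congr 1 <;> ring

/-- **slope of the first tangent along `natB 5 (-3) (-1)`** -/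
theorem slope_b {J : Type*} [Finite J] {P : Set (Fin 12 → ℝ)} {f g : J → (Fin 12 → ℝ) → ℝ} {j0 : J}
    {zp cp pp : ℝ} {h : ℕ → ℝ} (hpos : ∀ l, 0 < h l) (h0 : Tendsto h atTop (𝓝 0))
    (ht : ∀ j, Ex926.IsTan P LM (f j) (fun _ => natB zp cp pp) h (g j)) {K : ℝ} (hK : 0 ≤ K)
    (hg : ∀ j, ∀ p ∈ LM, ∀ q ∈ LM, |g j p - g j q| ≤ K * ‖p - q‖)
    (hm : ∀ p ∈ LM, ∀ q ∈ LM, p ≤ q → 0 ≤ g j0 p - g j0 q ∧ g j0 p - g j0 q ≤ ∑ i, (q i - p i))
    (hs : SupOn (g j0) LM) {A m κ : ℝ}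
    (hA : ∀ M : ℝ, 0 ≤ M → g j0 (natB (5 * M) (-3 * M) (-M)) = M * A)
    {ψ : ℝ → ℝ} (hψ : ∀ d d', d ≤ d' → 0 ≤ ψ d - ψ d' ∧ ψ d - ψ d' ≤ d' - d)
    (hD : ∀ c ∈ LM, ∀ y : ℝ, c + y • uD ∈ LM → g j0 c - g j0 (c + y • uD) = ψ (c 1) - ψ (c 1 + y))
    (hκ : 0 < κ) (hlive : κ ≤ ψ 0 - ψ 1)
    (hrow : ∀ (X : ℕ → Fin 12 → ℝ) (h' : ℕ → ℝ) (ρ : Fin 12 → ℝ),
      (∀ n, ∃ z c p, X n = natB z c p) → Tendsto X atTop (𝓝 (natB zp cp pp)) →
      (∀ i ∈ S9, 0 ≤ ρ i) → 0 < ρ 1 →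
      LinTanD P f j0 X h' (ρ 0) (ρ 5) (ρ 9) (ρ 11) (ρ 3) (ρ 10) (ρ 2) (ρ 7) (ρ 1) →
      m ≤ ∑ i ∈ S9, ρ i * natB 5 (-3) (-1) i) :
    A ≤ -m := by
  have eng := D0y219.engine2 hpos h0 ht hK hg hm hs (z := 0) (c := 0) (p := 0)
    (fun i => (natB_pos i).le) alone5 dh5
  rw [Measure.volume_eq_prod] at eng
  have eng2 := Measure.ae_ae_of_ae_prod eng
  -- a good offset of `D`
  have hψL : LipschitzOnWith 1 (fun d => -ψ d) (Icc 0 1) := by
    refine LipschitzOnWith.of_dist_le_mul fun x _ y _ => ?_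
    rw [Real.dist_eq, Real.dist_eq, NNReal.coe_one, one_mul, abs_le]
    rcases le_total x y with hxy | hxy
    · have h1 := hψ x y hxy
      have h2 := abs_sub_comm x y
      have h3 := le_abs_self (y - x)
      rw [← h2] at h3
      constructor <;> linarith [h1.1, h1.2]
    · have h1 := hψ y x hxy
      have h3 := le_abs_self (x - y)
      constructor <;> linarith [h1.1, h1.2]
  obtain ⟨t, ht01, htN, htd, htk⟩ := Sg388.exists_deriv_ge hψL (by norm_num : (0:ℝ) < 1)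
    (a := κ) (δ := κ / 2) (by linarith) (by positivity) (eng2.mono fun t h1 _ => h1)
  have htN' : ∀ᵐ v : ℝ, _ := htN
  have hder : HasDerivAt (fun d => -ψ d) (deriv (fun d => -ψ d) t) t := htd.hasDerivAt
  set e : ℝ := deriv (fun d => -ψ d) t with he
  have he0 : 0 < e := by linarith
  -- one line
  set Λ : ℝ → ℝ := fun v => g j0 (Dg262.X (natB 0 0 0) (natB 1 1 4) (natB 5 (-3) (-1)) (t, v))
    with hΛ
  have hmemX : ∀ v : ℝ, Dg262.X (natB 0 0 0) (natB 1 1 4) (natB 5 (-3) (-1)) (t, v) ∈ LM :=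
    fun v => by rw [X5]; exact natB_mem _ _ _
  have hΛL : ∀ y, LipschitzOnWith (K.toNNReal * ‖natB 5 (-3) (-1)‖₊) Λ (Icc 0 y) := by
    intro y
    refine LipschitzOnWith.of_dist_le_mul fun x _ x' _ => ?_
    have h1 := hg j0 _ (hmemX x) _ (hmemX x')
    have e1 : Dg262.X (natB 0 0 0) (natB 1 1 4) (natB 5 (-3) (-1)) (t, x) -
        Dg262.X (natB 0 0 0) (natB 1 1 4) (natB 5 (-3) (-1)) (t, x') =
        (x - x') • natB 5 (-3) (-1) := by
      funext k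
      simp only [Dg262.X, Pi.sub_apply, Pi.smul_apply, smul_eq_mul]
      ring
    rw [e1, norm_smul] at h1
    rw [Real.dist_eq, Real.dist_eq, NNReal.coe_mul, Real.coe_toNNReal K hK, coe_nnnorm]
    refine h1.trans (le_of_eq ?_)
    rw [Real.norm_eq_abs]
    ring
  have hline : ∀ y : ℝ, 0 < y → Λ y ≤ Λ 0 - m * y := by
    intro y hy
    refine D0ln665.le_of_ae (hΛL y) hy ?_
    filter_upwards [htN'] with v hv hvI d hd
    obtain ⟨D, hD1, k, χ, lam, ρ, kpos, k0, hχ, hρ, hlam, hlin, T, d1, d2⟩ := hv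
    -- the derivative along the line
    have hd2 : HasDerivAt Λ (D (0, 1)) v := by
      have e1 : HasDerivAt (fun v : ℝ => ((t, v) : ℝ × ℝ)) (0, 1) v :=
        (hasDerivAt_const v t).prodMk (hasDerivAt_id v)
      exact hD1.comp_hasDerivAt v e1
    rw [hd.unique hd2, d2, neg_le_neg_iff]
    refine hrow _ _ ρ ?_ ?_ hρ ?_ T
    · intro n
      rw [X5, natB_smul, natB_add]
      exact ⟨_, _, _, rfl⟩
    · have h1 : Tendsto (fun n => h (χ n)) atTop (𝓝 0) := h0.comp hχ.tendsto_atTop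
      have h2 := (h1.smul_const (Dg262.X (natB 0 0 0) (natB 1 1 4) (natB 5 (-3) (-1)) (t, v)))
      have h3 := h2.const_add (natB zp cp pp)
      simpa using h3
    · -- the rate of `D`
      have hmu : ∀ l, Dg262.X (natB 0 0 0) (natB 1 1 4) (natB 5 (-3) (-1)) (t, v) +
          k l • uD ∈ LM := by
        intro l i w hw
        have h1 := hmemX v i w hw
        have h2 := lm_raise (u := k l • uD) (fun i => by
          rw [Pi.smul_apply, smul_eq_mul]; exact mul_nonneg (kpos l).le (uD_nonneg i))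
          (fun i a1 a3 a4 => by rw [Pi.smul_apply, uD_z i a1 a3 a4, smul_zero]) i w hw
        have h3 : wl w (Dg262.X (natB 0 0 0) (natB 1 1 4) (natB 5 (-3) (-1)) (t, v) + k l • uD) =
          wl w (Dg262.X (natB 0 0 0) (natB 1 1 4) (natB 5 (-3) (-1)) (t, v)) + wl w (k l • uD) := by
          simp only [SgF665.wl, Pi.add_apply, mul_add, Finset.sum_add_distrib]
        rw [h3, Pi.add_apply]
        linarith
      have h1 := tan_lim kpos (hlam j0) zero_mem (lm_raise uD_nonneg uD_z)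
      have e0 : lam j0 0 = 0 := by
        rw [hlin 0 zero_mem (fun i => rfl)]
        simp
      have e1 : lam j0 uD = -ρ 1 := by
        rw [hlin uD (lm_raise uD_nonneg uD_z) (eqp_bx9 _ _ _ _ _ _ _ _ _), sum9]
        simp [uD, bx9]
      rw [e0, e1, zero_sub, neg_neg] at h1
      have eX1 : Dg262.X (natB 0 0 0) (natB 1 1 4) (natB 5 (-3) (-1)) (t, v) 1 = t := by
        rw [X5]; simp [natB, bx9]; ring
      have h2 : Tendsto (fun l => (-ψ (t + k l) - -ψ t) / k l) atTop (𝓝 e) := by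
        have h3 := hder.tendsto_slope_zero_right
        have h4 : Tendsto k atTop (𝓝[>] 0) :=
          tendsto_nhdsWithin_iff.2 ⟨k0, Eventually.of_forall fun l => kpos l⟩
        have h5 := h3.comp h4
        refine h5.congr fun l => ?_
        simp only [Function.comp, smul_eq_mul]
        rw [div_eq_inv_mul]
      have h3 : ∀ l, (g j0 (Dg262.X (natB 0 0 0) (natB 1 1 4) (natB 5 (-3) (-1)) (t, v) +
          k l • (0 : Fin 12 → ℝ)) - g j0 (Dg262.X (natB 0 0 0) (natB 1 1 4)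
            (natB 5 (-3) (-1)) (t, v) + k l • uD)) / k l = (-ψ (t + k l) - -ψ t) / k l := by
        intro l
        rw [smul_zero, add_zero, hD _ (hmemX v) _ (hmu l), eX1]
        congr 1
        ring
      have h4 : e = ρ 1 := tendsto_nhds_unique h2 (h1.congr h3)
      rw [← h4]
      exact he0
  -- the end
  by_contra hcon
  push Not at hcon
  have hgap : 0 < A + m := by linarith
  set C : ℝ := |Λ 0| + K * (|t| * 5) with hC
  have hC0 : 0 ≤ C := by positivity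
  set M : ℝ := (C + 1) / (A + m) with hM
  have hM0 : 0 < M := by positivity
  have h1 := hline M hM0
  have h2 := hg j0 _ (natB_mem (5 * M) (-3 * M) (-M)) _ (hmemX M)
  have e1 : natB (5 * M) (-3 * M) (-M) -
      Dg262.X (natB 0 0 0) (natB 1 1 4) (natB 5 (-3) (-1)) (t, M) = (-t) • natB 1 1 4 := by
    rw [X5, natB_smul]
    funext k
    rw [Pi.sub_apply]
    fin_cases k <;> simp [natB, bx9] <;> ring
  rw [e1, norm_smul, Real.norm_eq_abs, abs_neg] at h2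
  have h3 : K * (|t| * ‖natB 1 1 4‖) ≤ K * (|t| * 5) :=
    mul_le_mul_of_nonneg_left (mul_le_mul_of_nonneg_left norm14 (abs_nonneg _)) hK
  have h4 := (abs_le.1 (h2.trans h3)).2
  rw [hA M hM0.le] at h4
  have h5 := le_abs_self (Λ 0)
  have h6 : M * (A + m) = C + 1 := by rw [hM]; field_simp
  have h7 : g j0 (Dg262.X (natB 0 0 0) (natB 1 1 4) (natB 5 (-3) (-1)) (t, M)) = Λ M := rfl
  rw [h7] at h4
  rw [hC] at h6
  nlinarith

/-! ### the theorem -/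

section

variable {J : Type*} {f : J → (Fin 12 → ℝ) → ℝ} {j0 : J}
  {R K w0 sa sb θa θb δ c s q0 q1 c₀ ε t0 v1 v2 : ℝ}

theorem hd9 : ∀ i : Fin 12, i ≠ 1 → natB 1 ε (1 + 2 * ε) i = 0 → ε = 0 ∨ ε < 0 := by
  intro i hi h
  fin_cases i <;> simp [natB, bx9] at hi h
  all_goals first | (left; exact h) | (right; linarith)

set_option maxHeartbeats 4000000 in
/-- **LEMMA D0 at `β = 0`, `3 ≤ 5 θ`**: zero rate of the slot `D` at almost every record box. -/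
theorem d0h0 [Finite J] (hK : 0 ≤ K)
    (hν : ∀ j, ∀ p ∈ Leg monL R, ∀ q ∈ Leg monL R, |f j p - f j q| ≤ K * ‖p - q‖)
    (hm : ∀ p ∈ Leg monL R, ∀ q ∈ Leg monL R, p ≤ q →
      f j0 q ≤ f j0 p ∧ f j0 p - f j0 q ≤ ∑ i, (q i - p i))
    (hs : ∀ p ∈ Leg monL R, ∀ q ∈ Leg monL R, p ⊓ q ∈ Leg monL R →
      f j0 p + f j0 q ≤ f j0 (p ⊔ q) + f j0 (p ⊓ q))
    (sh : Shift θa θb w0 sa sb δ R)
    (h5 : 2 * θa - θb - 1 = 0) (h7 : 3 ≤ 5 * θa)
    (hq0 : 0 ≤ q0) (hq1 : 0 ≤ q1) (hc : 1 + q1 < c)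
    (hε : 0 < ε) (hε1 : ε ≤ 1) (h6 : ε ≤ θa)
    (ht0 : 0 < t0) (ht : 4 * t0 ≤ δ) (hv1 : 0 ≤ v1) (hv2 : v2 ≤ 1)
    (hrec : ∀ v ∈ Ioo v1 v2, c₀ + DN c s q0 q1 θa θb v (θa * (1 - v)) (θb * (1 - v)) ≤
      f j0 (rL θa θb w0 sa sb v))
    (hdm : ∀ v ∈ Ioo v1 v2, ∀ t ∈ Ioo 0 t0, f j0 (XP θa θb w0 sa sb ε v t) ≤
      c₀ + DN c s q0 q1 θa θb (v - t) (θa * (1 - v) - ε * t) (θb * (1 - v) - (1 + 2 * ε) * t))
    (hfac : ∀ v ∈ Ioo v1 v2, ∀ t ∈ Ioo 0 t0, ∀ (X : ℕ → Fin 12 → ℝ) (h : ℕ → ℝ)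
      (rz rX rH rF gC gP gE gB gD : ℝ), (∀ n, ∃ z c p, X n = natB z c p) →
      Tendsto X atTop (𝓝 (XP θa θb w0 sa sb ε v t)) →
      LinTanD (Leg monL R) f j0 X h rz rX rH rF gC gP gE gB gD →
      1 - s ≤ rz ∧ gC ≤ rX ∧ gP ≤ rF ∧ gD ≤ gE ∧ (0 < gC → rX ≤ rH) ∧ (0 < gD → rH ≤ gP)) :
    ∀ᵐ v : ℝ, v ∈ Ioo v1 v2 → Tendsto (fun y : ℝ => (f j0 (rL θa θb w0 sa sb v) -
      f j0 (rL θa θb w0 sa sb v + y • (Pi.single 1 1 : Fin 12 → ℝ))) / y) (𝓝[>] 0) (𝓝 0) := by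
  have hδ := sh.d0
  have hθ : 0 < θa := by linarith
  have e35 : 0 < 3 + 5 * ε := by linarith
  set q : ℝ := (5 * θa - 0 - 3) / (3 + 5 * ε) with hqd
  have hq : 0 ≤ q := div_nonneg (by linarith) e35.le
  have hqe : q * (3 + 5 * ε) = 5 * θa - 0 - 3 := by rw [hqd]; field_simp
  set κ : ℝ := c - 1 - q1 with hκd
  have hκ : 0 < κ := by rw [hκd]; linarith
  set A1 : ℝ := (c - 4 + s) + (3 + q0) * θa + (1 + q1) * θb with hA1
  set A2 : ℝ := -(c - 4 + s) + (3 + q0) * ε + (1 + q1) * (1 + 2 * ε) with hA2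
  set ℓ : ℝ × ℝ →L[ℝ] ℝ := A1 • ContinuousLinearMap.fst ℝ ℝ ℝ +
    A2 • ContinuousLinearMap.snd ℝ ℝ ℝ with hℓ
  have ℓ_val : ∀ z : ℝ × ℝ, ℓ z = A1 * z.1 + A2 * z.2 := fun z => by simp [hℓ]
  set x0 : Fin 12 → ℝ := natB w0 (sa + θa) (sb + θb) with hx0
  set G : ℝ × ℝ → ℝ := fun y => f j0 (Dg262.X x0 (natB 1 ε (1 + 2 * ε)) (natB 1 (-θa) (-θb)) y)
    with hG
  set F : ℝ × ℝ → ℝ := fun z => G (-z.2, z.1) - c₀ - ℓ z with hF
  have GX : ∀ v t : ℝ, G (-t, v) = f j0 (XP θa θb w0 sa sb ε v t) := fun v t => by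
    simp only [hG, hx0]; rw [X_XP]
  set Ω : Set (ℝ × ℝ) := Ioo v1 v2 ×ˢ Ioo 0 t0 with hΩ
  have hin : ∀ z ∈ Ω, 0 ≤ z.1 ∧ z.1 ≤ 1 ∧ 0 < z.2 ∧ z.2 ≤ t0 := fun z hz =>
    ⟨hv1.trans hz.1.1.le, hz.1.2.le.trans hv2, hz.2.1, hz.2.2.le⟩
  have hleg : ∀ z ∈ Ω, XP θa θb w0 sa sb ε z.1 z.2 ∈ Leg monL R := fun z hz => by
    obtain ⟨a1, a2, a3, a4⟩ := hin z hz
    exact XP_leg sh hε hε1 ht a1 a2 a3 a4
  -- `F ≤ 0`
  have hup : ∀ z ∈ Ω, F z ≤ 0 := fun z hz => by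
    have e1 := hdm z.1 hz.1 z.2 hz.2
    rw [DN_lin] at e1
    simp only [hF]
    rw [GX, ℓ_val]
    linarith
  -- lower bound
  set K' : ℝ := K * ‖natB 1 ε (1 + 2 * ε)‖ + |A2| with hK'
  have hlow : ∀ z ∈ Ω, -(K' * z.2) ≤ F z := fun z hz => by
    obtain ⟨a1, a2, a3, a4⟩ := hin z hz
    have e1 := hrec z.1 hz.1
    have e2 := DN_lin (c := c) (s := s) (q0 := q0) (q1 := q1) (θa := θa) (θb := θb) (ε := ε) z.1 0
    simp only [mul_zero, sub_zero, add_zero] at e2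
    rw [e2] at e1
    have e3 := hν j0 _ (rL_mem sh a1 a2) _ (hleg z hz)
    have e4 : rL θa θb w0 sa sb z.1 - XP θa θb w0 sa sb ε z.1 z.2 =
        z.2 • natB 1 ε (1 + 2 * ε) := by
      rw [rL_XP θa θb w0 sa sb ε, XP, XP, natB_smul, sub_eq_iff_eq_add, natB_add]
      congr 1 <;> ring
    rw [e4, norm_smul, Real.norm_eq_abs, abs_of_pos a3] at e3
    have e5 := (abs_le.1 e3).2
    have e6 := mul_le_mul_of_nonneg_right (le_abs_self A2) a3.le
    simp only [hF]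
    rw [GX, ℓ_val, hK']
    linarith
  -- Lipschitz
  obtain ⟨K1, hK1⟩ : ∃ K1 : ℝ≥0, (K1 : ℝ) = K := ⟨⟨K, hK⟩, rfl⟩
  have hlip : LipschitzOnWith (K1 * (‖natB 1 ε (1 + 2 * ε)‖₊ + ‖natB 1 (-θa) (-θb)‖₊) + ‖ℓ‖₊) F
      Ω := by
    refine LipschitzOnWith.of_dist_le_mul fun z hz z' hz' => ?_
    have e1 := hν j0 _ (hleg z hz) _ (hleg z' hz')
    have e2 := (X_lip x0 (natB 1 ε (1 + 2 * ε)) (natB 1 (-θa) (-θb))).dist_le_mul
      (-z.2, z.1) (-z'.2, z'.1)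
    rw [hx0, X_XP, X_XP, dist_eq_norm] at e2
    have e3 : dist ((-z.2, z.1) : ℝ × ℝ) (-z'.2, z'.1) = dist z z' := by
      rw [Prod.dist_eq, Prod.dist_eq, dist_neg_neg, max_comm]
    rw [e3] at e2
    have e4 : |ℓ z - ℓ z'| ≤ ‖ℓ‖ * dist z z' := by
      rw [← map_sub, ← Real.norm_eq_abs, dist_eq_norm]
      exact ℓ.le_opNorm _
    have e5 : F z - F z' = (f j0 (XP θa θb w0 sa sb ε z.1 z.2) -
        f j0 (XP θa θb w0 sa sb ε z'.1 z'.2)) - (ℓ z - ℓ z') := by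
      simp only [hF]; rw [GX, GX]; ring
    rw [Real.dist_eq, e5]
    refine (abs_sub _ _).trans ?_
    have e6 : K * ‖XP θa θb w0 sa sb ε z.1 z.2 - XP θa θb w0 sa sb ε z'.1 z'.2‖ ≤
        K * (((‖natB 1 ε (1 + 2 * ε)‖₊ + ‖natB 1 (-θa) (-θb)‖₊ : ℝ≥0) : ℝ) * dist z z') :=
      mul_le_mul_of_nonneg_left e2 hK
    have e7 : (((K1 * (‖natB 1 ε (1 + 2 * ε)‖₊ + ‖natB 1 (-θa) (-θb)‖₊) + ‖ℓ‖₊ : ℝ≥0)) : ℝ) *
        dist z z' = K * (((‖natB 1 ε (1 + 2 * ε)‖₊ + ‖natB 1 (-θa) (-θb)‖₊ : ℝ≥0) : ℝ) *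
        dist z z') + ‖ℓ‖ * dist z z' := by
      rw [NNReal.coe_add, NNReal.coe_mul, hK1, coe_nnnorm]; ring
    rw [e7]
    linarith
  -- the first level
  have hen := ae_rot (leg_outC monL hK (hν j0) hm hs (x0 := x0) (a := natB 1 ε (1 + 2 * ε))
    (b := natB 1 (-θa) (-θb)) (aN_nonneg hε))
  have eL := L_nat w0 (sa + θa) (sb + θb) 1 ε (1 + 2 * ε) 1 (-θa) (-θb)
  rw [← hx0] at eL
  -- null sets
  have hnull : ∀ m : ℕ, volume (⋂ k, VU (f j0) θa θb w0 sa sb δ v1 v2 m k) = 0 := by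
    intro m
    set V : Set ℝ := ⋂ k, VU (f j0) θa θb w0 sa sb δ v1 v2 m k with hV
    have hVm : MeasurableSet V :=
      MeasurableSet.iInter fun k => (VU_open hK (hν j0) sh hv1 hv2 m k).measurableSet
    have hsub : V ∩ Ioo v1 v2 = V := inter_eq_left.2 fun v hv => (mem_iInter.1 hv 0).1
    rw [← hsub]
    refine slant (F := F) (K' := K') (κ := κ) (q := q) ht0 hq hκ hlip hlow hup hVm ?_
    filter_upwards [hen] with z hz hzΩ hzV _
    obtain ⟨a1, a2, a3, a4⟩ := hin z hzΩ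
    have hXz : Dg262.X x0 (natB 1 ε (1 + 2 * ε))
        (natB 1 (-θa) (-θb)) (-z.2, z.1) = XP θa θb w0 sa sb ε z.1 z.2 := X_XP _ _ _ _ _ _ _ _
    have hO : (-z.2, z.1) ∈ (mw monL).O (fun _ => 0) (fun _ => R) x0 (natB 1 ε (1 + 2 * ε))
        (natB 1 (-θa) (-θb)) := O_nat (fun k => by
      rw [hXz]; exact XP_box sh hε hε1 ht a1 a2 a3 a4 k)
    obtain ⟨D, hD, hT⟩ := hz hO
    choose y hy0 hyδ hyk hy using fun k => (mem_iInter.1 hzV k).2
    have hy1 : Tendsto y atTop (𝓝 0) :=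
      squeeze_zero (fun k => (hy0 k).le) (fun k => (hyk k).le)
        tendsto_one_div_add_atTop_nhds_zero_nat
    obtain ⟨χ, hχ, lam, hlam⟩ := Rc683.exists_tan (J := J) (P := fun _ => Leg monL R)
      (D := fun _ => (mw monL).L x0 (natB 1 ε (1 + 2 * ε)) (natB 1 (-θa) (-θb)))
      (fun _ => Walls.isClosed_L) hK hν
      (x := fun _ => Dg262.X x0 (natB 1 ε (1 + 2 * ε)) (natB 1 (-θa) (-θb)) (-z.2, z.1)) hy0
      (fun _ C => by
        obtain ⟨h1, hh1, hl⟩ := leg_legal monL hO C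
        filter_upwards [hy1.eventually_lt_const hh1] with l hl1 c' hc' hC
        exact hl (y l) (hy0 l) hl1 c' hc' hC) (fun _ => by rw [eL]; exact zero_mem)
    have hχ0 : Tendsto (fun l => y (χ l)) atTop (𝓝 0) := hy1.comp hχ.tendsto_atTop
    obtain ⟨φ, r, HO⟩ := hT (fun l => y (χ l)) (fun l => hy0 _) hχ0 (lam j0) (hlam j0)
    have hlam' : ∀ j, Ex926.IsTan (Leg monL R) LM (f j)
        (fun _ => XP θa θb w0 sa sb ε z.1 z.2) (fun l => y (χ l)) (lam j) := fun j => by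
      have := hlam j
      rw [eL, hXz] at this
      exact this
    rw [eL] at HO
    have z0L : (0 : Fin 12 → ℝ) ∈ LM := zero_mem
    obtain ⟨ψ, hψ, hψD⟩ := exists_psi (aN_one ε) (fun i hi h => by
      rcases hd9 i hi h with h | h <;> linarith) HO
    -- `D` is live in the first tangent
    have hlive : 1 / ((m : ℝ) + 1) ≤ ψ 0 - ψ 1 := by
      have hmem : uD ∈ LM := lm_raise uD_nonneg uD_z
      have k1 := tan_lim (fun l => hy0 _) (hlam' j0) z0L hmem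
      have k2 := hψD 0 z0L 1 (by rw [zero_add, one_smul]; exact hmem)
      rw [zero_add, one_smul, Pi.zero_apply, zero_add] at k2
      rw [k2] at k1
      refine ge_of_tendsto k1 (Eventually.of_forall fun l => ?_)
      rw [smul_zero, add_zero, le_div_iff₀ (hy0 _)]
      have eu : uD = (Pi.single 1 1 : Fin 12 → ℝ) := single_one.symm
      rw [eu]
      have e1 := hy (χ l)
      have e2 := incr (ν := f j0) hs (p := XP θa θb w0 sa sb ε z.1 z.2)
        (q := rL θa θb w0 sa sb z.1) (u := y (χ l) • (Pi.single 1 1 : Fin 12 → ℝ)) ?_ ?_ ?_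
        (hleg z hzΩ) (rL_mem sh a1 a2) ?_
      · have e3 : 1 / ((m : ℝ) + 1) * y (χ l) = y (χ l) / ((m : ℝ) + 1) := by ring
        rw [e3]
        exact e1.le.trans e2
      · rw [rL_XP θa θb w0 sa sb ε]
        intro k
        have e4 : 0 < ε * z.2 := mul_pos hε a3
        fin_cases k <;> simp [XP, natB, bx9] <;> nlinarith
      · intro k
        rw [Pi.smul_apply, smul_eq_mul]
        refine mul_nonneg (hy0 _).le ?_
        by_cases h : k = 1
        · subst h; simp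
        · rw [Pi.single_eq_of_ne h]
      · intro k hk
        by_cases h : k = 1
        · subst h
          rw [rL_XP θa θb w0 sa sb ε]
          simp [XP, natB, bx9]
          ring
        · exfalso
          apply hk
          rw [Pi.smul_apply, Pi.single_eq_of_ne h, smul_zero]
      · refine leg_raise (hleg z hzΩ) (fun k => ?_) (fun k hk _ _ => ?_) (fun k => ?_)
        · rw [Pi.smul_apply, smul_eq_mul]
          refine mul_nonneg (hy0 _).le ?_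
          by_cases h : k = 1
          · subst h; simp
          · rw [Pi.single_eq_of_ne h]
        · rw [Pi.smul_apply, Pi.single_eq_of_ne hk, smul_zero]
        · have e5 : XP θa θb w0 sa sb ε z.1 z.2 1 = rL θa θb w0 sa sb z.1 1 := by
            rw [rL_XP θa θb w0 sa sb ε]
            simp [XP, natB, bx9]
            ring
          by_cases h : k = 1
          · subst h
            rw [e5]
            exact (rLD_mem sh a1 a2 (hy0 (χ l)).le (hyδ _)).2 1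
          · rw [Pi.smul_apply, Pi.single_eq_of_ne h, smul_zero, add_zero]
            exact (hleg z hzΩ).2 k
    -- the first tangent
    have hS1 : 0 < 1 + q := by linarith
    have eθb : θb = 2 * θa - 1 := by linarith
    have hμ : θa - q * ε = 3 * (1 + q) / 5 := by linarith
    set A : ℝ := 5 / (1 + q) * (q * D (1, 0) + D (0, 1)) with hAd
    have hA : ∀ M : ℝ, 0 ≤ M → lam j0 (natB (5 * M) (-3 * M) (-M)) = M * A := by
      intro M _
      rw [lam_plane HO (natB_mem _ _ _) (5 * M / (1 + q) * q, 5 * M / (1 + q)) ?_]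
      · rw [hAd]; field_simp
      · intro i
        have e1 : 5 * M / (1 + q) * (1 + q) = 5 * M := by field_simp
        have e2 : 5 * M / (1 + q) * (θa - q * ε) = 3 * M := by rw [hμ]; field_simp
        set w : ℝ := 5 * M / (1 + q) with hw
        have e3 : Tn (natB 1 ε (1 + 2 * ε)) (natB 1 (-θa) (-θb)) (w * q, w) =
            natB (w * (1 + q)) (-(w * (θa - q * ε))) (w * (1 + q) - 2 * (w * (θa - q * ε))) := by
          funext k
          rw [eθb]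
          fin_cases k <;> simp [Tn, natB, bx9] <;> ring
        rw [e3, e1, e2]
        congr 1 <;> ring
    set N1 : ℝ := κ - ((1 + q) * (c - 4 + s) + (3 + q0) * (θa - q * ε) +
      (1 + q1) * (2 * (θa - q * ε) - (1 + q))) with hN1
    have hK'' : ∀ j, ∀ p ∈ LM, ∀ p' ∈ LM, |lam j p - lam j p'| ≤ K * ‖p - p'‖ := fun j p hp p' hp' => by
      have := (bup_of_tan (fun l => hy0 _) hχ0 (hlam' j)).lip (K := K) (fun p hp q hq => by
        rw [dist_eq_norm]; exact hν j p hp q hq) p hp p' hp'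
      rwa [dist_eq_norm] at this
    have hmain := slope_b (f := f) (g := lam) (j0 := j0) (P := Leg monL R)
      (zp := w0 + z.1 - z.2) (cp := sa + θa * (1 - z.1) - ε * z.2)
      (pp := sb + θb * (1 - z.1) - (1 + 2 * ε) * z.2) (h := fun l => y (χ l))
      (fun l => hy0 _) hχ0 hlam' hK hK''
      ((bup_of_tan (fun l => hy0 _) hχ0 (hlam' j0)).mono (fun p hp q hq hpq => by
        have := hm p hp q hq hpq
        exact ⟨by linarith [this.1], this.2⟩))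
      ((bup_of_tan (fun l => hy0 _) hχ0 (hlam' j0)).smod (fun p hp q hq h1 h2 => hs p hp q hq h1))
      (A := A) (m := 5 / (1 + q) * N1) (κ := 1 / ((m : ℝ) + 1)) hA hψ hψD (by positivity) hlive
      (by
        intro X h' ρ hX hX0 hρ hgD T
        obtain ⟨hgz, P1, P2, P3, H1, S3⟩ := hfac z.1 hzΩ.1 z.2 hzΩ.2 X h' _ _ _ _ _ _ _ _ _ hX
          hX0 T
        have r0 : 0 ≤ ρ 3 := hρ 3 (by decide)
        have r1 : 0 ≤ ρ 10 := hρ 10 (by decide)
        have r2 : 0 ≤ ρ 2 := hρ 2 (by decide)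
        have r3 : 0 ≤ ρ 7 := hρ 7 (by decide)
        have r4 : 0 ≤ ρ 9 := hρ 9 (by decide)
        have P4 : ρ 3 ≤ ρ 9 := by
          rcases r0.lt_or_eq with h | h
          · exact P1.trans (H1 h)
          · rw [← h]; exact r4
        have hrow := rowH (θ := θa) (β := 0) (ε := ε) (q := q) (S := 1 + q) (c := c) (s := s)
          (q0 := q0) (q1 := q1) hε (by norm_num) (by norm_num) (by linarith) hq0 hq1 hc hq hqe rfl
          hgz r0 r1 r2 r3 hgD.le P1 P2 P3 P4 (S3 hgD)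
        have e1 : N1 ≤ (1 + q) / 5 * ∑ i ∈ S9, ρ i * natB 5 (-3) (-1) i := by
          rw [sum9]
          obtain ⟨b0, b1, b2, b3, b5, b7, b9, b10, b11⟩ := v53
          rw [b0, b1, b2, b3, b5, b7, b9, b10, b11, hN1]
          rw [hμ] at hrow ⊢
          refine le_of_sub_nonneg ?_
          have hrow' := sub_nonneg.2 hrow
          refine hrow'.trans (le_of_eq ?_)
          ring
        have e2 : 5 / (1 + q) * N1 ≤ 5 / (1 + q) *
            ((1 + q) / 5 * ∑ i ∈ S9, ρ i * natB 5 (-3) (-1) i) :=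
          mul_le_mul_of_nonneg_left e1 (by positivity)
        have e3 : 5 / (1 + q) * ((1 + q) / 5 * ∑ i ∈ S9, ρ i * natB 5 (-3) (-1) i) =
            ∑ i ∈ S9, ρ i * natB 5 (-3) (-1) i := by field_simp
        rwa [e3] at e2)
    have hfin : q * D (1, 0) + D (0, 1) ≤ -N1 := by
      have e1 : (1 + q) / 5 * A ≤ (1 + q) / 5 * -(5 / (1 + q) * N1) :=
        mul_le_mul_of_nonneg_left hmain (by positivity)
      have e2 : (1 + q) / 5 * A = q * D (1, 0) + D (0, 1) := by rw [hAd]; field_simp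
      have e3 : (1 + q) / 5 * -(5 / (1 + q) * N1) = -N1 := by field_simp
      rwa [e2, e3] at e1
    -- the derivative
    have hder : HasFDerivAt F (D.comp ((-(ContinuousLinearMap.snd ℝ ℝ ℝ)).prod
        (ContinuousLinearMap.fst ℝ ℝ ℝ)) - ℓ) z := by
      have e1 : HasFDerivAt (fun z : ℝ × ℝ => ((-z.2, z.1) : ℝ × ℝ))
          ((-(ContinuousLinearMap.snd ℝ ℝ ℝ)).prod (ContinuousLinearMap.fst ℝ ℝ ℝ)) z :=
        ((-(ContinuousLinearMap.snd ℝ ℝ ℝ)).prod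
          (ContinuousLinearMap.fst ℝ ℝ ℝ)).hasFDerivAt
      have e2 : HasFDerivAt G D (-z.2, z.1) := hD
      exact ((e2.comp z e1).sub_const c₀).sub ℓ.hasFDerivAt
    rw [hder.fderiv]
    have e1 : (D.comp ((-(ContinuousLinearMap.snd ℝ ℝ ℝ)).prod
        (ContinuousLinearMap.fst ℝ ℝ ℝ)) - ℓ) (-1, q) =
        -(q * D (1, 0)) - D (0, 1) - (A1 * (-1) + A2 * q) := by
      rw [sub_apply, ℓ_val]
      have e2 : (D.comp ((-(ContinuousLinearMap.snd ℝ ℝ ℝ)).prod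
          (ContinuousLinearMap.fst ℝ ℝ ℝ))) (-1, q) = D (-q, -1) := rfl
      have e3 : ((-q, -1) : ℝ × ℝ) = (-q) • ((1, 0) : ℝ × ℝ) + (-1 : ℝ) • ((0, 1) : ℝ × ℝ) := by
        ext <;> simp
      rw [e2, e3, map_add, map_smul, map_smul, smul_eq_mul, smul_eq_mul]
      ring
    rw [e1]
    have e2 : κ = N1 - (A1 * (-1) + A2 * q) := by
      rw [hN1, hA1, hA2, eθb]; ring
    linarith
  -- the limit
  have hae : ∀ᵐ v : ℝ, ∀ m : ℕ, v ∉ ⋂ k, VU (f j0) θa θb w0 sa sb δ v1 v2 m k :=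
    ae_all_iff.2 fun m => measure_eq_zero_iff_ae_notMem.1 (hnull m)
  filter_upwards [hae] with v hv hvI
  have a1 : 0 ≤ v := hv1.trans hvI.1.le
  have a2 : v ≤ 1 := hvI.2.le.trans hv2
  rw [Metric.tendsto_nhds]
  intro e he
  obtain ⟨m, hm'⟩ := exists_nat_one_div_lt he
  have h8 := hv m
  rw [mem_iInter] at h8
  push Not at h8
  obtain ⟨k, hk⟩ := h8
  have e1 : ∀ᶠ y : ℝ in 𝓝[>] (0 : ℝ), y < min δ (1 / ((k : ℝ) + 1)) := by
    refine (eventually_lt_nhds ?_).filter_mono nhdsWithin_le_nhds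
    exact lt_min hδ (by positivity)
  filter_upwards [e1, self_mem_nhdsWithin] with y hy hy0
  have hy0' : (0 : ℝ) < y := hy0
  have hyδ : y ≤ δ := hy.le.trans (min_le_left _ _)
  have e2 : f j0 (rL θa θb w0 sa sb v) -
      f j0 (rL θa θb w0 sa sb v + y • (Pi.single 1 1 : Fin 12 → ℝ)) ≤ y / ((m : ℝ) + 1) := by
    by_contra hcon
    push Not at hcon
    exact hk ⟨hvI, y, hy0', hyδ, hy.trans_le (min_le_right _ _), hcon⟩
  have e3 : 0 ≤ f j0 (rL θa θb w0 sa sb v) -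
      f j0 (rL θa θb w0 sa sb v + y • (Pi.single 1 1 : Fin 12 → ℝ)) := by
    have := (hm _ (rL_mem sh a1 a2) _ (rLD_mem sh a1 a2 hy0'.le hyδ) (by
      intro i
      rw [Pi.add_apply, Pi.smul_apply, smul_eq_mul]
      have : 0 ≤ (Pi.single 1 1 : Fin 12 → ℝ) i := by
        by_cases h : i = 1
        · subst h; simp
        · rw [Pi.single_eq_of_ne h]
      have := mul_nonneg hy0'.le this
      linarith)).1
    linarith
  rw [Real.dist_eq, sub_zero, abs_of_nonneg (div_nonneg e3 hy0'.le), div_lt_iff₀ hy0']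
  have e4 : y / ((m : ℝ) + 1) = 1 / ((m : ℝ) + 1) * y := by ring
  rw [e4] at e2
  have e5 := mul_lt_mul_of_pos_right hm' hy0'
  linarith

end

end Crest.Agent.R116.D0h0894
end

-- ▼ part R116/D0h5_894

/-!
# R116 (K side), LEMMA D0, `s ≥ 1/2`: the end over `CtxT` (helper894)

* **`facts_mv`** : own rate, pins, H1, S3 at natural sequences which tend to a natural box strictly
  below its own levels (the binder `hfac` of `d0h`, `d0h0`)
* `XP_rec`, `XP_dm` : record, D-max along the plane `R(v) - t n_ε`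
* **`D0Hz`** : `D0E η (fun s θ => 1/2 ≤ s ∧ 2 θ 0 - θ 1 = 1 ∧ 3 ≤ 5 θ 0)`
-/

set_option autoImplicit false
set_option linter.unusedVariables false
set_option linter.unusedSectionVars false

open Finset Filter Topology MeasureTheory Set

namespace Crest.Agent.R116.D0h0894

open Crest.Agent.R138.Ex926 (Base U IsTan)
open Crest.Agent.R136
open Crest.Agent.R136.MkA627
open Crest.Agent.R136.TD627
open Crest.Agent.R136.Net191
open Crest.Agent.R136.Lq196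
open Crest.Agent.R116.ChL222
open Crest.Agent.R116.PL504 (nb rL DN eL βL oL Shift)
open Crest.Agent.R116.Sg337 (bx9 natB eL_bx9 nb_natB)
open Crest.Agent.R116.Gd222 (TSet sN PDL DT)
open Crest.Agent.R116.KI439
open Crest.Agent.R116.KF439 (PL)
open Crest.Agent.R116.Tw468 (OutT OutR)
open Crest.Agent.R116.CtxB468
open Crest.Agent.R116.KTop387 (NumL)
open Crest.Agent.R116.KTie794 (D0T D0E Mic)
open Crest.Agent.R116.D0n878
open Crest.Agent.R116.D0F878 (LinTanD)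
open Crest.Agent.R116.D0bs332
open Crest.Agent.R116.D0h708 (XP natB_eL)

section ctx

variable {G : Geo TSet (Fin 2)} {L : ℕ → ℕ → LRay} {r : ℕ → ℝ} {g s : ℝ} {θ q : Fin 2 → ℝ}
    {Rg : ℝ} {B : Base} {I : ℕ → Finset (ℕ × ℝ)} {lev : ℕ → ℚ → ℕ} {A : ℕ → ℝ}
    {f : ℕ → ℚ → ℕ → ℤ → ℕ} {b : ℕ → ℚ → ℕ → TSet} {vm : ℕ → ℚ → ℝ} {w : Fin 2 → ℕ → ℚ → ℝ}
    {fr : ℕ → ℚ → ℕ × ℝ → LInc} {fl : ℕ → ℕ × ℝ → LInc} {sc : Fin 12 → ℕ → ℝ}
    {w0 sa sb δ R : ℝ} {I0 I' : ℕ → Finset (ℕ × ℝ)} {ν own : (Fin 12 → ℝ) → ℝ} {c₀ : ℝ}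
    {v a' b' : ℝ}

/-- **all the facts of the rows at `s ≥ 1/2`**, natural bases `X l → nb w0 sa sb v a' b'` -/
theorem facts_mv
    (H : CtxT G L r g s θ q Rg B I lev A f b vm w fr fl sc w0 sa sb δ R I0 I' ν own c₀)
    (hs0 : 0 ≤ s) (hs1 : s < 1) (hv0 : 0 < v) (hv1 : v < 1) (ha : 0 < a')
    (hB : VisT B I fl sc 7 ∨ VisT B I fl sc 8 → b' - a' < (θ 1 - θ 0) * (1 - v))
    (hE : VisT B I fl sc 2 ∨ VisT B I fl sc 1 → b' - 2 * a' < (θ 1 - 2 * θ 0) * (1 - v))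
    {X : ℕ → Fin 12 → ℝ} {h : ℕ → ℝ}
    (hn : ∀ n, ∃ z c p, X n = natB z c p) (hX : Tendsto X atTop (𝓝 (nb w0 sa sb v a' b')))
    {J : Type*} {ff : J → (Fin 12 → ℝ) → ℝ} {j0 : J} (hf : ff j0 = ν)
    {rz rX rH rF gC gP gE gB gD : ℝ}
    (T : LinTanD (Leg monL R) ff j0 X h rz rX rH rF gC gP gE gB gD) :
    1 - s ≤ rz ∧ gC ≤ rX ∧ gP ≤ rF ∧ gD ≤ gE ∧ (0 < gC → rX ≤ rH) ∧ (0 < gD → rH ≤ gP) := by
  obtain ⟨D, lam, hD, htan, hlin⟩ := T.ex
  have ht := htan j0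
  rw [hf] at ht
  have hrz : 1 - s ≤ rz := by
    have h1 := own_mv H hv0 hv1 hB hE hX T.hpos T.h0 (hD zero_LM) one_pos
      (hD (Kg330.bxz_LM zero_le_one)) ht
    have h2 := hlin 1 0 0 0 0 0 0 0 0 (Kg330.bxz_LM zero_le_one)
    rw [h2] at h1
    linarith
  have hBs : BsN B I fl sc (θ 0) (θ 1) w0 sa sb X h :=
    ⟨v, a', b', hv0, hv1, ha, hB, hE, hn, hX, T.hpos, T.h0⟩
  have F := linFactsD_N H hs0 hs1.le (j0 := j0) hf
  have P := Op171.one_pin_tan (WinU954.nprof_of_ext (H.sh.d0.le.trans H.sh.R_pos)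
    (H.extK (|θ 0| + |θ 1|))) (fun n => Sd369.coc_N B lev w w0 sa sb fl n) T.hpos T.h0 ht hD
    (rz := rz) (rX := rX) (rH := rH) (rF := rF) (gC := gC) (gP := gP) (gE := gE) (gB := gB)
    (gD := gD) (fun z d C p E B x H F hm => hlin z d C p E B x H F hm)
    (σ := 1 - s) (by linarith) hrz (fun l => by
      obtain ⟨z, c, p, e⟩ := hn l
      exact ⟨z, c, p, by rw [e, natB_eL]⟩) (fun _ => ((0 : ℕ), (0 : ℝ)))
  exact ⟨hrz, P.1, P.2.1, P.2.2,
    F.H1 _ _ _ _ _ _ _ _ _ _ _ hBs T (fun n => (nat_walls hn n).2.2.1)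
      (fun n => (nat_walls hn n).2.2.2.1),
    F.S3 _ _ _ _ _ _ _ _ _ _ _ hBs T (fun n => (nat_walls hn n).2.2.2.2.2)⟩

theorem XP_nb (θa θb ε v t : ℝ) : XP θa θb w0 sa sb ε v t =
    nb w0 sa sb (v - t) (θa * (1 - v) - ε * t) (θb * (1 - v) - (1 + 2 * ε) * t) := by
  rw [nb_natB, XP]
  congr 1 <;> ring

/-- record -/
theorem XP_rec
    (H : CtxT G L r g s θ q Rg B I lev A f b vm w fr fl sc w0 sa sb δ R I0 I' ν own c₀)
    (hv0 : 0 ≤ v) (hv1 : v ≤ 1) :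
    c₀ + DN g s (q 0) (q 1) (θ 0) (θ 1) v (θ 0 * (1 - v)) (θ 1 * (1 - v)) ≤
      ν (rL (θ 0) (θ 1) w0 sa sb v) := by
  have h1 := H.ext.record v hv0 hv1
  rw [EL_DN] at h1
  exact h1

/-- D-max -/
theorem XP_dm
    (H : CtxT G L r g s θ q Rg B I lev A f b vm w fr fl sc w0 sa sb δ R I0 I' ν own c₀)
    (hθ : 0 < θ 0) (hRg : θ 0 + |θ 1| + 1 ≤ Rg) {ε t : ℝ} (hε : 0 < ε) (hε1 : ε ≤ 1)
    (ht : 0 < t) (htδ : 4 * t ≤ δ) (ht3 : 3 * t < 1) (htv : t ≤ v) (hv1 : v < 1)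
    (ha : ε * t < θ 0 * (1 - v)) :
    ν (XP (θ 0) (θ 1) w0 sa sb ε v t) ≤ c₀ + DN g s (q 0) (q 1) (θ 0) (θ 1) (v - t)
      (θ 0 * (1 - v) - ε * t) (θ 1 * (1 - v) - (1 + 2 * ε) * t) := by
  have hv0 : 0 < v := by linarith
  have hl := D0h708.XP_leg H.sh hε hε1 htδ hv0.le hv1.le ht le_rfl
  rw [XP_nb] at hl ⊢
  have t1 : |θ 1 * (1 - v)| ≤ |θ 1| := by
    rw [abs_mul, abs_of_pos (by linarith : (0:ℝ) < 1 - v)]
    exact mul_le_of_le_one_right (abs_nonneg _) (by linarith)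
  have t2 := abs_le.1 t1
  have t3 : θ 0 * (1 - v) ≤ θ 0 := mul_le_of_le_one_right hθ.le (by linarith)
  have e1 : 0 < ε * t := mul_pos hε ht
  have e2 : ε * t ≤ t := mul_le_of_le_one_left ht.le hε1
  have h1 := H.dmax (θ 0 + |θ 1| + 2) _ (nb_PD (k0 := θ 0 + |θ 1| + 2) hl (by linarith)
    (by linarith) (by linarith) (by linarith [abs_nonneg (θ 1)]) (by
      rw [abs_lt]
      constructor <;> nlinarith [t2.1, t2.2]) (by nlinarith [t2.1]))
  rw [DT_nb] at h1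
  exact h1

/-- **LEMMA D0 at `2 θa - θb = 1`, `3 ≤ 5 θa`, `s ≥ 1/2`** (`E` invisible) -/
theorem D0Hz {η : ℝ} (hη : η < 1) :
    D0E η fun s θ => 1 / 2 ≤ s ∧ 2 * θ 0 - θ 1 = 1 ∧ 3 ≤ 5 * θ 0 := by
  intro G L r g s θ q Rg B I lev A f b vm w fr fl sc w0 sa sb δ R I0 I' ν own c₀ H N hX hR0 hR1 hRg
    hV1 hV2 h78
  obtain ⟨hs2, hβ, h35⟩ := hX
  have hq1g : q 1 < g := by
    have h1 := N.qbg
    have h3 : η * g < 1 * g := mul_lt_mul_of_pos_right hη N.gpos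
    linarith
  have v78 : (VisT B I fl sc 7 ∨ VisT B I fl sc 8) → θ 0 - θ 1 ≤ 1 := by
    rintro (hv | hv)
    · rcases H.out.clsB (Or.inl rfl) with h | h
      · exact absurd h hv
      · exact h78 (Or.inl h)
    · rcases H.out.clsB (Or.inr rfl) with h | h
      · exact absurd h hv
      · exact h78 (Or.inr h)
  have v21 : ¬ (VisT B I fl sc 2 ∨ VisT B I fl sc 1) := by
    rintro (h | h)
    · exact h hV2
    · exact h hV1
  have hδ := H.sh.d0
  have hθ := N.θa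
  have hlipν : ∀ j : Unit, ∀ p ∈ Leg monL R, ∀ q ∈ Leg monL R,
      |(fun _ : Unit => ν) j p - (fun _ : Unit => ν) j q| ≤ (12:ℝ) * ‖p - q‖ := by
    intro j p hp q hq
    have h1 := Rcx363.fo_lip H 0 p hp q hq
    rw [dist_eq_norm] at h1
    exact h1
  have hmono : ∀ p ∈ Leg monL R, ∀ q ∈ Leg monL R, p ≤ q →
      (fun _ : Unit => ν) () q ≤ (fun _ : Unit => ν) () p ∧
      (fun _ : Unit => ν) () p - (fun _ : Unit => ν) () q ≤ ∑ i, (q i - p i) := by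
    intro p hp q hq hpq
    have h1 := H.ext.lip p hp q hq hpq
    exact ⟨by show ν q ≤ ν p; linarith [h1.1], h1.2⟩
  have key : ∀ n : ℕ, ∀ᵐ v : ℝ, v ∈ Ioo (1 / ((n:ℝ) + 1)) (1 - 1 / ((n:ℝ) + 1)) →
      Tendsto (fun y : ℝ => (ν (rL (θ 0) (θ 1) w0 sa sb v) -
        ν (rL (θ 0) (θ 1) w0 sa sb v + y • (Pi.single 1 1 : Fin 12 → ℝ))) / y)
        (𝓝[>] 0) (𝓝 0) := by
    intro n
    have hn : (0:ℝ) < 1 / ((n:ℝ) + 1) := by positivity
    set e : ℝ := 1 / ((n:ℝ) + 1) with he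
    obtain ⟨t0, ht0, h1, h2, h3, h4⟩ : ∃ t0 : ℝ, 0 < t0 ∧ 4 * t0 ≤ δ ∧ 4 * t0 ≤ 1 ∧ t0 ≤ e ∧
        2 * t0 ≤ θ 0 * e := by
      refine ⟨min (min (δ / 4) (1 / 4)) (min e (θ 0 * e / 2)), lt_min (lt_min (by positivity)
        (by norm_num)) (lt_min hn (by positivity)), ?_, ?_, ?_, ?_⟩
      · have := (min_le_left (min (δ / 4) (1 / 4)) (min e (θ 0 * e / 2))).trans (min_le_left _ _)
        linarith
      · have := (min_le_left (min (δ / 4) (1 / 4)) (min e (θ 0 * e / 2))).trans (min_le_right _ _)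
        linarith
      · exact (min_le_right (min (δ / 4) (1 / 4)) (min e (θ 0 * e / 2))).trans (min_le_left _ _)
      · have := (min_le_right (min (δ / 4) (1 / 4)) (min e (θ 0 * e / 2))).trans
          (min_le_right _ _)
        linarith
    have hpos : ∀ v ∈ Ioo e (1 - e), ∀ t ∈ Ioo 0 t0, t < v ∧ v < 1 ∧
        1 / 4 * t < θ 0 * (1 - v) := by
      intro v hv t ht
      have h5 : θ 0 * e ≤ θ 0 * (1 - v) := mul_le_mul_of_nonneg_left (by linarith [hv.2]) hθ.le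
      exact ⟨by linarith [hv.1, ht.2], by linarith [hv.2], by linarith [ht.1, ht.2]⟩
    have h9 := d0h0 (J := Unit) (f := fun _ => ν) (j0 := ()) (R := R) (K := 12) (s := s)
      (c := g + 2 * s) (q0 := q 0) (q1 := q 1) (θa := θ 0) (θb := θ 1) (w0 := w0) (sa := sa)
      (sb := sb) (c₀ := c₀) (δ := δ) (ε := 1 / 4) (t0 := t0) (v1 := e) (v2 := 1 - e)
      (by norm_num) hlipν hmono H.ext.submod H.sh (by linarith) h35 N.qa.le N.qb.le (by linarith)
      (by norm_num) (by norm_num) (by linarith) ht0 h1 hn.le (by linarith)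
      (fun v hv => XP_rec H (by linarith [hv.1]) (by linarith [hv.2]))
      (fun v hv t ht => by
        obtain ⟨a1, a2, a3⟩ := hpos v hv t ht
        exact XP_dm H hθ hRg (by norm_num) (by norm_num) ht.1 (by linarith [ht.2])
          (by linarith [ht.2]) a1.le a2 a3)
      (fun v hv t ht X h rz rX rH rF gC gP gE gB gD hn' hX T => by
        obtain ⟨a1, a2, a3⟩ := hpos v hv t ht
        rw [XP_nb] at hX
        refine facts_mv H N.s0 N.s1 (by linarith) (by linarith [ht.1]) (by linarith)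
          (fun hvis => ?_) (fun hvis => absurd hvis v21) hn' hX (j0 := ()) rfl T
        have h6 := v78 hvis
        have h7 := ht.1
        nlinarith)
    exact h9
  unfold Mic
  filter_upwards [ae_all_iff.2 key] with v hv hvI
  obtain ⟨n, hn⟩ := exists_nat_one_div_lt (lt_min hvI.1 (by linarith [hvI.2] : 0 < 1 - v))
  exact hv n ⟨hn.trans_le (min_le_left _ _), by linarith [hn.trans_le (min_le_right v (1 - v))]⟩

end ctx

end Crest.Agent.R116.D0h0894
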