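import Crest.Agent.R116.D0n3_878
import Mathlib
import Crest.Agent.R116.D0y2_219
import Crest.Agent.R116.D0e_570
import Crest.Agent.R116.D0T_794
import Crest.Agent.R116.D0p_878
import Crest.Agent.R116.D0bs_332
import Crest.Agent.R136.Gr2_356
import Crest.Agent.R116.Tp1_389
import Crest.Agent.R116.Kg3_330
import Crest.Agent.R116.Op3_171

-- ▼ part R116/D0yA_665
section

/-!
# R116 (K side), LEMMA D0, `β_D < 0` (helper665, for helper219): increments of `C` at the record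
pass to the tangent on the plane `Y`, `C` ahead
-/

set_option autoImplicit false
set_option linter.unusedVariables false

open Set Filter Topology MeasureTheory
open scoped NNReal

namespace Crest.Agent.R116.D0yA665

open Crest.Agent.R138
open Crest.Agent.R136
open Crest.Agent.R136.Net191
open Crest.Agent.R116.ChL222
open Crest.Agent.R116.Sg337 (bx9 natB uC)
open Crest.Agent.R116.SgF665 (wl)
open Crest.Agent.R116.D0F878
open Crest.Agent.R116.D0n878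
open Crest.Agent.R116.SgO219 (tan_lim tan_ev)

theorem lm_add {p q : Fin 12 → ℝ} (hp : p ∈ LM) (hq : q ∈ LM) : p + q ∈ LM := by
  intro k e he
  have h1 := hp k e he
  have h2 := hq k e he
  rw [SgF665.wl_add, Pi.add_apply]
  exact add_le_add h1 h2

theorem smul_uC_nonneg {y : ℝ} (hy : 0 ≤ y) : ∀ k, 0 ≤ (y • uC) k := by
  intro k
  rw [Pi.smul_apply, smul_eq_mul]
  exact mul_nonneg hy (uC_nonneg k)

theorem smul_uC_z {y : ℝ} : ∀ k, k ≠ 1 → k ≠ 3 → k ≠ 4 → (y • uC) k = 0 := by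
  intro k h1 h3 h4
  rw [Pi.smul_apply, smul_eq_mul, uC_z k h1 h3 h4, mul_zero]

/-- **increments of `C` on `Y`, `C` ahead** -/
theorem regC {R θa θb w0 sa sb q0 t v : ℝ} {ν lam : (Fin 12 → ℝ) → ℝ} {h : ℕ → ℝ}
    (hs : ∀ p ∈ Leg monL R, ∀ q ∈ Leg monL R, p ⊓ q ∈ Leg monL R → ν p + ν q ≤ ν (p ⊔ q) + ν (p ⊓ q))
    (hθ : 0 < θa) (hβ : 2 * θa - θb - 1 < 0) (ht : t < 0) (hv : v ∈ Ioo (0:ℝ) 1)
    (hbx : ∀ v ∈ Ioo (0:ℝ) 1, ∀ k, 0 < rc θa θb w0 sa sb v k ∧ rc θa θb w0 sa sb v k < R)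
    (hC : ∀ v0 ∈ Ioo (0:ℝ) 1, ∃ κ : ℝ, 0 < κ ∧ ∀ v y : ℝ, |v - v0| ≤ κ → 0 ≤ y → y ≤ κ →
      q0 * y ≤ ν (rc θa θb w0 sa sb v) - ν (rc θa θb w0 sa sb v + y • uC))
    (hpos : ∀ l, 0 < h l) (h0 : Tendsto h atTop (𝓝 0))
    (hT : Ex926.IsTan (Leg monL R) LM ν
      (fun _ => natB (w0 + v + t) (sa + θa * (1 - v)) (sb + θb * (1 - v) + t)) h lam)
    {z c p : ℝ} (hc : (2 * θa - θb - 1) * c + θa * (p - 2 * c - z) ≤ 0) {y : ℝ} (hy : 0 ≤ y) :
    q0 * y ≤ lam (natB z c p) - lam (natB z c p + y • uC) := by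
  have m1 : natB z c p ∈ LM := natB_mem z c p
  have m2 : natB z c p + y • uC ∈ LM := lm_add m1 (lm_raise (smul_uC_nonneg hy) smul_uC_z)
  refine ge_of_tendsto (tan_lim hpos hT m1 m2) ?_
  obtain ⟨κ, hκ, hk⟩ := hC v hv
  -- smallness
  have e1 : Tendsto (fun l => |h l * (c / θa)|) atTop (𝓝 0) := by
    have : Tendsto (fun l => h l * (c / θa)) atTop (𝓝 (0 * (c / θa))) := h0.mul_const _
    rw [zero_mul] at this
    simpa using this.abs
  have e2 : Tendsto (fun l => h l * y) atTop (𝓝 0) := by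
    have : Tendsto (fun l => h l * y) atTop (𝓝 (0 * y)) := h0.mul_const _
    rwa [zero_mul] at this
  have e3 : Tendsto (fun l => h l * (z + c / θa)) atTop (𝓝 0) := by
    have : Tendsto (fun l => h l * (z + c / θa)) atTop (𝓝 (0 * (z + c / θa))) := h0.mul_const _
    rwa [zero_mul] at this
  have hmin : 0 < min κ (min v (1 - v)) := lt_min hκ (lt_min hv.1 (by linarith [hv.2]))
  filter_upwards [tan_ev hT m1, tan_ev hT m2, e1.eventually_lt_const hmin,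
    e2.eventually_lt_const hκ, e3.eventually_lt_const (by linarith : (0:ℝ) < -t)]
    with l l1 l2 s1 s2 s3
  have hl := hpos l
  obtain ⟨v', hv'⟩ : ∃ v', v' = v - h l * (c / θa) := ⟨_, rfl⟩
  have a1 : |v' - v| < min κ (min v (1 - v)) := by
    have : v' - v = -(h l * (c / θa)) := by rw [hv']; ring
    rw [this, abs_neg]; exact s1
  have a2 : |v' - v| ≤ κ := (a1.trans_le (min_le_left _ _)).le
  have a3 := abs_lt.1 (a1.trans_le ((min_le_right _ _).trans (min_le_left _ _)))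
  have a4 := abs_lt.1 (a1.trans_le ((min_le_right _ _).trans (min_le_right _ _)))
  have hv'I : v' ∈ Ioo (0:ℝ) 1 := ⟨by linarith [a3.1], by linarith [a4.2]⟩
  have eθ : θa * (1 - v') = θa * (1 - v) + h l * c := by
    rw [hv']; field_simp; ring
  have hθ' : h l * (c / θa) * θa = h l * c := by field_simp
  -- the two boxes
  have hp : natB (w0 + v + t) (sa + θa * (1 - v)) (sb + θb * (1 - v) + t) + h l • natB z c p =
      natB (w0 + v + t + h l * z) (sa + θa * (1 - v) + h l * c)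
        (sb + θb * (1 - v) + t + h l * p) := by
    rw [natB_smul, natB_add]
  have hle : natB (w0 + v + t + h l * z) (sa + θa * (1 - v) + h l * c)
        (sb + θb * (1 - v) + t + h l * p) ≤ rc θa θb w0 sa sb v' := by
    refine natB_le ?_ (le_of_eq ?_) ?_
    · rw [hv']
      have : h l * (z + c / θa) = h l * z + h l * (c / θa) := by ring
      linarith
    · rw [eθ]; ring
    · have b1 : h l * ((2 * θa - θb - 1) * c + θa * (p - 2 * c - z)) ≤ 0 :=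
        mul_nonpos_of_nonneg_of_nonpos hl.le hc
      have b2 : h l * (p - 2 * c - z) ≤ -(2 * θa - θb - 1) * (h l * (c / θa)) := by
        have b3 : θa * (h l * (p - 2 * c - z)) ≤
            θa * (-(2 * θa - θb - 1) * (h l * (c / θa))) := by
          have b4 : θa * (-(2 * θa - θb - 1) * (h l * (c / θa))) =
              -(2 * θa - θb - 1) * (h l * (c / θa) * θa) := by ring
          rw [b4, hθ']
          nlinarith
        exact le_of_mul_le_mul_left b3 hθ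
      rw [hv']
      nlinarith
  have hqL : rc θa θb w0 sa sb v' ∈ Leg monL R :=
    nat_leg (fun k => (hbx v' hv'I k).1.le) fun k => (hbx v' hv'I k).2.le
  have e5 : natB (w0 + v + t) (sa + θa * (1 - v)) (sb + θb * (1 - v) + t) +
      h l • (natB z c p + y • uC) =
      natB (w0 + v + t + h l * z) (sa + θa * (1 - v) + h l * c)
        (sb + θb * (1 - v) + t + h l * p) + (h l * y) • uC := by
    rw [smul_add, ← add_assoc, hp, smul_smul]
  rw [hp] at l1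
  rw [e5] at l2
  have hy' : 0 ≤ h l * y := mul_nonneg hl.le hy
  have h1 := incr hs hle (smul_uC_nonneg hy') (fun k hk' => by
    have hk1 : k = 3 ∨ k = 4 := by
      by_contra hne
      push Not at hne
      refine hk' ?_
      rw [Pi.smul_apply, smul_eq_mul]
      have : uC k = 0 := by
        fin_cases k <;> simp [uC, bx9] at hne ⊢
      rw [this, mul_zero]
    rcases hk1 with rfl | rfl <;>
    · simp only [rc, natB, bx9]
      simp
      linarith) l1 hqL l2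
  have h2 := hk v' (h l * y) a2 hy' s2.le
  rw [le_div_iff₀ hl, hp, e5]
  calc q0 * y * h l = q0 * (h l * y) := by ring
    _ ≤ _ := h2.trans h1

end Crest.Agent.R116.D0yA665
end

-- ▼ part R116/D0w_635
section

/-!
# R116 (K side), D0 on `Y`, `β_D < 0`, piece (Y3) of 219's cut 22199 (helper635): pure analysis

* (A) `growth` : a monotone Lipschitz function with upper right slope `≥ ρ` on `S` grows by
  `ρ |S|`;
* (B) `dens_left` : left density `≥ 1/2` at almost every point of a measurable set;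
* (C) `meas_freq` : measurability of the set of the points with slope `> ρ` at small rational steps
-/

set_option autoImplicit false

open MeasureTheory Set Filter Topology
open scoped NNReal ENNReal

namespace Crest.Agent.R116.D0w635

/-- upper slope at a point of differentiability -/
theorem deriv_ge {G : ℝ → ℝ} {y d ρ : ℝ} (hd : HasDerivAt G d y)
    (hf : ∃ᶠ η in 𝓝[>] (0 : ℝ), ρ * η ≤ G (y + η) - G y) : ρ ≤ d := by
  by_contra hcon
  push Not at hcon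
  have h1 : Tendsto (fun η : ℝ => (G (y + η) - G y) / η) (𝓝[>] 0) (𝓝 d) := by
    have h2 := hd.tendsto_slope_zero
    have h3 : Tendsto (fun t : ℝ => t⁻¹ • (G (y + t) - G y)) (𝓝[>] 0) (𝓝 d) :=
      h2.mono_left (nhdsWithin_mono _ fun t ht => ne_of_gt ht)
    refine h3.congr fun t => ?_
    rw [smul_eq_mul, div_eq_inv_mul]
  have h2 : ∀ᶠ η in 𝓝[>] (0 : ℝ), (G (y + η) - G y) / η < ρ := h1.eventually_lt_const hcon
  obtain ⟨η, h3, h4, h5⟩ := (hf.and_eventually (h2.and self_mem_nhdsWithin)).exists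
  have h6 : (0 : ℝ) < η := h5
  rw [div_lt_iff₀ h6] at h4
  linarith

/-- **(A)** -/
theorem growth {G : ℝ → ℝ} {Y ρ : ℝ} {K : ℝ≥0} (hY : 0 ≤ Y) (hm : MonotoneOn G (Icc 0 Y))
    (hL : LipschitzOnWith K G (Icc 0 Y)) {S : Set ℝ} (hS : MeasurableSet S) (hSY : S ⊆ Ioo 0 Y)
    (_hρ : 0 ≤ ρ) (hf : ∀ y ∈ S, ∃ᶠ η in 𝓝[>] (0 : ℝ), ρ * η ≤ G (y + η) - G y) :
    ρ * (volume S).toReal ≤ G Y - G 0 := by
  have hac : AbsolutelyContinuousOnInterval G 0 Y :=
    LipschitzOnWith.absolutelyContinuousOnInterval (by rwa [uIcc_of_le hY])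
  have hI := hac.integral_deriv_eq_sub
  have hii := hac.intervalIntegrable_deriv
  have hd := hac.ae_differentiableAt
  rw [← hI]
  -- lower bound by the indicator
  have hae : ∀ᵐ t, t ∈ Ioo 0 Y → S.indicator (fun _ => ρ) t ≤ deriv G t := by
    filter_upwards [hd] with t h1 ht
    have h2 : DifferentiableAt ℝ G t := h1 (by rw [uIcc_of_le hY]; exact Ioo_subset_Icc_self ht)
    by_cases hts : t ∈ S
    · rw [indicator_of_mem hts]
      exact deriv_ge h2.hasDerivAt (hf t hts)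
    · rw [indicator_of_notMem hts]
      refine deriv_ge h2.hasDerivAt (Eventually.frequently ?_)
      have h3 : ∀ᶠ η in 𝓝[>] (0 : ℝ), η < Y - t :=
        (tendsto_id.mono_left nhdsWithin_le_nhds).eventually_lt_const (by linarith [ht.2])
      filter_upwards [h3, self_mem_nhdsWithin] with η h4 h5
      have h6 : (0 : ℝ) < η := h5
      have := hm (Ioo_subset_Icc_self ht) (⟨by linarith [ht.1], by linarith⟩ : t + η ∈ Icc 0 Y)
        (by linarith)
      linarith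
  have hfin : volume S ≠ ∞ := ne_top_of_le_ne_top (by simp) (measure_mono hSY)
  have hind : IntegrableOn (S.indicator fun _ => ρ) (Ioc 0 Y) := by
    rw [IntegrableOn, integrable_indicator_iff hS]
    refine integrableOn_const ?_
    exact ne_top_of_le_ne_top hfin (Measure.restrict_apply_le _ _)
  have hle : ∫ t in (0:ℝ)..Y, S.indicator (fun _ => ρ) t ≤ ∫ t in (0:ℝ)..Y, deriv G t := by
    refine intervalIntegral.integral_mono_ae_restrict hY
      ((intervalIntegrable_iff_integrableOn_Ioc_of_le hY).2 hind) hii ?_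
    have h1 : ∀ᵐ t ∂(volume.restrict (Icc 0 Y)), t ∈ Ioo 0 Y := by
      rw [← restrict_Ioo_eq_restrict_Icc]
      exact ae_restrict_mem measurableSet_Ioo
    filter_upwards [h1, ae_restrict_of_ae hae] with t h2 h3 using h3 h2
  refine le_trans (le_of_eq ?_) hle
  rw [intervalIntegral.integral_of_le hY, integral_indicator hS, setIntegral_const,
    smul_eq_mul, mul_comm, Measure.real, Measure.restrict_apply hS]
  congr 2
  rw [inter_eq_left.2 (hSY.trans Ioo_subset_Ioc_self)]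

/-- **(B)** -/
theorem dens_left {E : Set ℝ} (hE : MeasurableSet E) :
    ∀ᵐ v : ℝ, v ∈ E → ∀ᶠ η in 𝓝[>] (0 : ℝ), η / 2 ≤ (volume (E ∩ Ioo (v - η) v)).toReal := by
  have h1 := Besicovitch.ae_tendsto_measure_inter_div_of_measurableSet (volume : Measure ℝ)
    hE.compl
  filter_upwards [h1] with v hv hvE
  have e0 : (Eᶜ.indicator 1 v : ℝ≥0∞) = 0 := indicator_of_notMem (by simpa using hvE) _
  rw [e0] at hv
  have h2 : ∀ᶠ r in 𝓝[>] (0 : ℝ), volume (Eᶜ ∩ Metric.closedBall v r) /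
      volume (Metric.closedBall v r) < ENNReal.ofReal (1 / 4) :=
    hv.eventually_lt_const (by simp)
  filter_upwards [h2, self_mem_nhdsWithin] with r hr hr0
  have hr0' : (0 : ℝ) < r := hr0
  rw [Real.volume_closedBall] at hr
  have h3 : ENNReal.ofReal (2 * r) ≠ 0 := by simpa using hr0'
  have h4 := (ENNReal.div_le_iff h3 ENNReal.ofReal_ne_top).1 hr.le
  rw [← ENNReal.ofReal_mul (by norm_num)] at h4
  have h5 : volume (Eᶜ ∩ Ioo (v - r) v) ≤ ENNReal.ofReal (1 / 4 * (2 * r)) := by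
    refine (measure_mono (inter_subset_inter_right _ fun x hx => ?_)).trans h4
    rw [Metric.mem_closedBall, Real.dist_eq, abs_le]
    constructor <;> linarith [hx.1, hx.2]
  have h6 : (volume (Eᶜ ∩ Ioo (v - r) v)).toReal ≤ 1 / 4 * (2 * r) :=
    ENNReal.toReal_le_of_le_ofReal (by positivity) h5
  have h7 : volume (E ∩ Ioo (v - r) v) + volume (Eᶜ ∩ Ioo (v - r) v) = volume (Ioo (v - r) v) := by
    rw [inter_comm E, inter_comm Eᶜ]
    exact measure_inter_add_sdiff _ hE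
  have h8 : (volume (E ∩ Ioo (v - r) v)).toReal + (volume (Eᶜ ∩ Ioo (v - r) v)).toReal = r := by
    rw [← ENNReal.toReal_add, h7, Real.volume_Ioo, ENNReal.toReal_ofReal (by linarith)]
    · ring
    · exact ne_top_of_le_ne_top (by simp) (measure_mono (inter_subset_right (s := E)))
    · exact ne_top_of_le_ne_top (by simp) (measure_mono (inter_subset_right (s := Eᶜ)))
  linarith

/-- **(C)** -/
theorem meas_freq {δ : ℝ → ℝ → ℝ} {ρ : ℝ} (hδ : ∀ y : ℝ, 0 < y → Continuous fun v => δ v y) :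
    MeasurableSet {v : ℝ | ∀ n : ℕ, ∃ y : ℚ, (0:ℝ) < (y:ℝ) ∧ (y:ℝ) < 1 / ((n:ℝ) + 1) ∧
      ρ * (y:ℝ) < δ v (y:ℝ)} := by
  have e : {v : ℝ | ∀ n : ℕ, ∃ y : ℚ, (0:ℝ) < (y:ℝ) ∧ (y:ℝ) < 1 / ((n:ℝ) + 1) ∧
      ρ * (y:ℝ) < δ v (y:ℝ)} =
      ⋂ n : ℕ, ⋃ y : ℚ, {v : ℝ | (0:ℝ) < (y:ℝ) ∧ (y:ℝ) < 1 / ((n:ℝ) + 1) ∧
        ρ * (y:ℝ) < δ v (y:ℝ)} := by
    ext v; simp
  rw [e]
  refine MeasurableSet.iInter fun n => MeasurableSet.iUnion fun y => ?_
  by_cases h0 : (0:ℝ) < (y:ℝ) ∧ (y:ℝ) < 1 / ((n:ℝ) + 1)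
  · have : {v : ℝ | (0:ℝ) < (y:ℝ) ∧ (y:ℝ) < 1 / ((n:ℝ) + 1) ∧ ρ * (y:ℝ) < δ v (y:ℝ)} =
        {v : ℝ | ρ * (y:ℝ) < δ v (y:ℝ)} := by
      ext v
      simp only [mem_ofPred_eq]
      exact ⟨fun h => h.2.2, fun h => ⟨h0.1, h0.2, h⟩⟩
    rw [this]
    exact (isOpen_lt continuous_const (hδ _ h0.1)).measurableSet
  · have : {v : ℝ | (0:ℝ) < (y:ℝ) ∧ (y:ℝ) < 1 / ((n:ℝ) + 1) ∧ ρ * (y:ℝ) < δ v (y:ℝ)} = ∅ := by
      ext v
      simp only [mem_ofPred_eq, mem_empty_iff_false, iff_false]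
      exact fun h => h0 ⟨h.1, h.2.1⟩
    rw [this]
    exact MeasurableSet.empty

/-- **(C)**, positivity in `ℚ` -/
theorem meas_freq' {δ : ℝ → ℝ → ℝ} {ρ : ℝ} (hδ : ∀ y : ℝ, 0 < y → Continuous fun v => δ v y) :
    MeasurableSet {v : ℝ | ∀ n : ℕ, ∃ y : ℚ, 0 < y ∧ (y:ℝ) < 1 / ((n:ℝ) + 1) ∧
      ρ * (y:ℝ) < δ v (y:ℝ)} := by
  have h := meas_freq (ρ := ρ) hδ
  simpa using h

/-- countable form of `∃ᶠ` -/
theorem freq_iff {δ : ℝ → ℝ} {ρ : ℝ} (hδ : ContinuousOn δ (Ioi 0)) :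
    (∃ᶠ η in 𝓝[>] (0 : ℝ), ρ * η < δ η) ↔
      ∀ n : ℕ, ∃ y : ℚ, 0 < y ∧ (y:ℝ) < 1 / ((n:ℝ) + 1) ∧ ρ * (y:ℝ) < δ (y:ℝ) := by
  constructor
  · intro h n
    have h1 : ∀ᶠ η in 𝓝[>] (0 : ℝ), η < 1 / ((n:ℝ) + 1) :=
      (tendsto_id.mono_left nhdsWithin_le_nhds).eventually_lt_const (by positivity)
    obtain ⟨η, h2, h3, h4⟩ := (h.and_eventually (h1.and self_mem_nhdsWithin)).exists
    have h5 : (0 : ℝ) < η := h4
    have h6 : ContinuousAt δ η := hδ.continuousAt (Ioi_mem_nhds h5)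
    have h7 : ∀ᶠ t in 𝓝 η, ρ * t < δ t :=
      (continuousAt_const.mul continuousAt_id).eventually_lt h6 h2
    have h8 : ∀ᶠ t in 𝓝 η, 0 < t ∧ t < 1 / ((n:ℝ) + 1) :=
      (Ioo_mem_nhds h5 h3 : Ioo 0 (1 / ((n:ℝ) + 1)) ∈ 𝓝 η)
    obtain ⟨ε, hε, hb⟩ := Metric.eventually_nhds_iff.1 (h7.and h8)
    obtain ⟨y, hy1, hy2⟩ := exists_rat_btwn (show η < η + ε by linarith)
    obtain ⟨h9, h10, h11⟩ := hb (y := (y:ℝ)) (by
      rw [Real.dist_eq, abs_lt]; constructor <;> linarith)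
    exact ⟨y, by exact_mod_cast h10, h11, h9⟩
  · intro h
    rw [Filter.frequently_iff]
    intro U hU
    obtain ⟨ε, hε, hb⟩ := mem_nhdsGT_iff_exists_Ioo_subset.1 hU
    have hε' : (0 : ℝ) < ε := hε
    obtain ⟨n, hn⟩ := exists_nat_one_div_lt hε'
    obtain ⟨y, h1, h2, h3⟩ := h n
    exact ⟨(y:ℝ), hb ⟨by exact_mod_cast h1, h2.trans hn⟩, h3⟩

end Crest.Agent.R116.D0w635
end

-- ▼ part R116/D0yB_635
section

/-!
# R116 (K side), LEMMA D0 for `β_D < 0`: growth of `D` beside the record (helper635; 219's 22742 (B))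

`pY = R(v) + t (1; 0, 1)`, `t < 0`. If the flag `D` is alive (slope `≥ ρ` at small steps) at the
record boxes of a measurable set `E` with left density `≥ 1/2` at `v`, then the `D`-increments at
`pY` are `≥ (ρ/2) y` for ALL small `y`.
-/

set_option autoImplicit false
set_option linter.unusedVariables false

open Set Filter Topology MeasureTheory
open scoped NNReal

namespace Crest.Agent.R116.D0yB635

open Crest.Agent.R138
open Crest.Agent.R136
open Crest.Agent.R136.Net191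
open Crest.Agent.R116.ChL222
open Crest.Agent.R116.Sg337 (bx9 natB Dm uC)
open Crest.Agent.R116.SgF665 (wl)
open Crest.Agent.R116.D0F878
open Crest.Agent.R116.D0n878

/-- the box beside the record -/
def pY (θa θb w0 sa sb v t : ℝ) : Fin 12 → ℝ :=
  natB (w0 + v + t) (sa + θa * (1 - v)) (sb + θb * (1 - v) + t)

theorem uD_one : uD 1 = 1 := rfl

theorem uD_ne {k : Fin 12} (hk : uD k ≠ 0) : k = 1 := by
  by_contra h
  apply hk
  fin_cases k <;> simp [uD, bx9] at h ⊢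

theorem pY_one (θa θb w0 sa sb v t : ℝ) : pY θa θb w0 sa sb v t 1 =
    sb + θb * (1 - v) - 2 * (sa + θa * (1 - v)) - (w0 + v) := by
  simp [pY, natB, bx9]; ring

theorem rc_one (θa θb w0 sa sb v : ℝ) : rc θa θb w0 sa sb v 1 =
    sb + θb * (1 - v) - 2 * (sa + θa * (1 - v)) - (w0 + v) := by
  simp [rc, natB, bx9]

/-- `pY ≤ R(v)` -/
theorem pY_le {θa θb w0 sa sb v t : ℝ} (ht : t ≤ 0) :
    pY θa θb w0 sa sb v t ≤ rc θa θb w0 sa sb v :=
  natB_le (by linarith) le_rfl (by linarith)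

/-- `pY + y e_D ≤ R(v + y/β)` for `0 ≤ y ≤ t β` -/
theorem pY_raise {θa θb w0 sa sb v t y : ℝ} (hθ : 0 < θa) (hβ : 2 * θa - θb - 1 < 0)
    (hy : 0 ≤ y) (hyt : t ≤ y / (2 * θa - θb - 1)) :
    pY θa θb w0 sa sb v t + y • uD ≤ rc θa θb w0 sa sb (v + y / (2 * θa - θb - 1)) := by
  set β := 2 * θa - θb - 1 with hβd
  have hu : y / β ≤ 0 := div_nonpos_of_nonneg_of_nonpos hy hβ.le
  have he : β * (y / β) = y := by rw [← mul_div_assoc, mul_div_cancel_left₀ _ hβ.ne]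
  have h1 : pY θa θb w0 sa sb v t + y • uD ≤
      natB (w0 + v + t) (sa + θa * (1 - v)) (sb + θb * (1 - v) + t + y) := by
    intro k
    fin_cases k <;> simp [pY, uD, natB, bx9] <;> linarith
  refine h1.trans (natB_le (by linarith) ?_ (le_of_eq ?_))
  · nlinarith
  · have : β * (y / β) = (2 * θa - θb - 1) * (y / β) := by rw [hβd]
    nlinarith

theorem pY_raise_one {θa θb w0 sa sb v t y : ℝ} (hβ : 2 * θa - θb - 1 < 0) :
    (pY θa θb w0 sa sb v t + y • uD) 1 = rc θa θb w0 sa sb (v + y / (2 * θa - θb - 1)) 1 := by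
  rw [Pi.add_apply, Pi.smul_apply, smul_eq_mul, uD_one, pY_one, rc_one]
  have he : (2 * θa - θb - 1) * (y / (2 * θa - θb - 1)) = y := by
    rw [← mul_div_assoc, mul_div_cancel_left₀ _ hβ.ne]
  nlinarith

/-- measure of the set of the steps -/
theorem vol_steps {E : Set ℝ} {v β y : ℝ} (hβ : β < 0) :
    (volume {x : ℝ | x ∈ Ioo 0 y ∧ v + x / β ∈ E}).toReal =
      -β * (volume (E ∩ Ioo (v - (-y / β)) v)).toReal := by
  have e : {x : ℝ | x ∈ Ioo 0 y ∧ v + x / β ∈ E} =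
      (fun x : ℝ => x * β⁻¹) ⁻¹' ((fun u : ℝ => v + u) ⁻¹' (E ∩ Ioo (v - (-y / β)) v)) := by
    ext x
    simp only [mem_ofPred_eq, mem_Ioo, mem_preimage, mem_inter_iff]
    rw [← div_eq_mul_inv]
    have h1 : (v - -y / β < v + x / β) ↔ x < y := by
      have e1 : -y / β = -(y / β) := by ring
      rw [e1, sub_neg_eq_add, add_lt_add_iff_left, div_lt_div_right_of_neg hβ]
    have h2 : (v + x / β < v) ↔ 0 < x := by
      rw [add_lt_iff_neg_left]
      constructor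
      · intro h
        by_contra hcon
        push Not at hcon
        exact absurd (div_nonneg_of_nonpos hcon hβ.le) (not_le.2 h)
      · intro h
        exact div_neg_of_pos_of_neg h hβ
    rw [h1, h2]
    tauto
  rw [e, Real.volume_preimage_mul_right (inv_ne_zero hβ.ne), measure_preimage_add, inv_inv,
    ENNReal.toReal_mul, ENNReal.toReal_ofReal (abs_nonneg _), abs_of_neg hβ]

/-- **growth of `D` beside the record** -/
theorem growD {R K : ℝ} {ν : (Fin 12 → ℝ) → ℝ} {θa θb w0 sa sb v t ρ : ℝ} {E : Set ℝ}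
    (hs : ∀ p ∈ Leg monL R, ∀ q ∈ Leg monL R, p ⊓ q ∈ Leg monL R →
      ν p + ν q ≤ ν (p ⊔ q) + ν (p ⊓ q))
    (hθ : 0 < θa) (hβ : 2 * θa - θb - 1 < 0) (ht : t < 0) (hv : v ∈ Ioo (0:ℝ) 1)
    (hbx : ∀ v ∈ Ioo (0:ℝ) 1, ∀ k, 0 < rc θa θb w0 sa sb v k ∧ rc θa θb w0 sa sb v k < R)
    (hK : 0 ≤ K) (hν : ∀ p ∈ Leg monL R, ∀ q ∈ Leg monL R, |ν p - ν q| ≤ K * ‖p - q‖)
    (hm : ∀ p ∈ Leg monL R, ∀ q ∈ Leg monL R, p ≤ q →
      ν q ≤ ν p ∧ ν p - ν q ≤ ∑ i, (q i - p i))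
    (hρ : 0 ≤ ρ) (hE : MeasurableSet E) (hEI : E ⊆ Ioo 0 1)
    (hf : ∀ v ∈ E, ∃ᶠ y in 𝓝[>] (0:ℝ),
      ρ * y ≤ ν (rc θa θb w0 sa sb v) - ν (rc θa θb w0 sa sb v + y • uD))
    (hd : ∀ᶠ η in 𝓝[>] (0:ℝ), η / 2 ≤ (volume (E ∩ Ioo (v - η) v)).toReal)
    (hpY : ∀ k, 0 < natB (w0 + v + t) (sa + θa * (1 - v)) (sb + θb * (1 - v) + t) k) :
    ∀ᶠ y in 𝓝[>] (0:ℝ), ρ / 2 * y ≤
      ν (natB (w0 + v + t) (sa + θa * (1 - v)) (sb + θb * (1 - v) + t)) -
      ν (natB (w0 + v + t) (sa + θa * (1 - v)) (sb + θb * (1 - v) + t) + y • uD) := by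
  set β := 2 * θa - θb - 1 with hβd
  change ∀ᶠ y in 𝓝[>] (0:ℝ), ρ / 2 * y ≤ ν (pY θa θb w0 sa sb v t) -
    ν (pY θa θb w0 sa sb v t + y • uD)
  set P := pY θa θb w0 sa sb v t with hP
  have hPR : ∀ k, P k < R := fun k => (pY_le ht.le k).trans_lt (hbx v hv k).2
  have hPleg : P ∈ Leg monL R := nat_leg (fun k => (hpY k).le) fun k => (hPR k).le
  -- room
  have hev1 : ∀ᶠ y in 𝓝[>] (0:ℝ), y < R - P 1 :=
    (tendsto_id.mono_left nhdsWithin_le_nhds).eventually_lt_const (by linarith [hPR 1])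
  have hev2 : ∀ᶠ y in 𝓝[>] (0:ℝ), y < t * β :=
    (tendsto_id.mono_left nhdsWithin_le_nhds).eventually_lt_const (mul_pos_of_neg_of_neg ht hβ)
  have hev3 : ∀ᶠ y in 𝓝[>] (0:ℝ), y < -β * v :=
    (tendsto_id.mono_left nhdsWithin_le_nhds).eventually_lt_const
      (mul_pos (by linarith) hv.1)
  have hsc : Tendsto (fun y : ℝ => -y / β) (𝓝[>] 0) (𝓝[>] 0) := by
    refine tendsto_nhdsWithin_iff.2 ⟨?_, ?_⟩
    · have h1 : Tendsto (fun y : ℝ => -y / β) (𝓝 0) (𝓝 (-0 / β)) :=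
        ((continuous_neg.div_const β).tendsto 0)
      rw [neg_zero, zero_div] at h1
      exact h1.mono_left nhdsWithin_le_nhds
    · filter_upwards [self_mem_nhdsWithin] with y hy
      have hy' : (0:ℝ) < y := hy
      exact div_pos_of_neg_of_neg (by linarith) hβ
  filter_upwards [hev1, hev2, hev3, hsc.eventually hd, self_mem_nhdsWithin] with Y h1 h2 h3 h4 h5
  have hY : (0:ℝ) < Y := h5
  -- legality
  have hleg : ∀ y, 0 ≤ y → y ≤ Y → P + y • uD ∈ Leg monL R := by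
    intro y hy hyY
    refine leg_raise hPleg (fun k => ?_) (fun k a b c => ?_) (fun k => ?_)
    · rw [Pi.smul_apply, smul_eq_mul]; exact mul_nonneg hy (uD_nonneg k)
    · rw [Pi.smul_apply, smul_eq_mul, uD_z k a b c, mul_zero]
    · rw [Pi.smul_apply, smul_eq_mul]
      by_cases hk : uD k = 0
      · rw [hk, mul_zero, add_zero]; exact (hPR k).le
      · rw [uD_ne hk, uD_one]; linarith
  have hle : ∀ y y' : ℝ, y ≤ y' → P + y • uD ≤ P + y' • uD := by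
    intro y y' hyy k
    simp only [Pi.add_apply, Pi.smul_apply, smul_eq_mul]
    have := mul_le_mul_of_nonneg_right hyy (uD_nonneg k)
    linarith
  set Gf : ℝ → ℝ := fun y => ν P - ν (P + y • uD) with hG
  have hmono : MonotoneOn Gf (Icc 0 Y) := by
    intro y hy y' hy' hyy
    have := (hm _ (hleg y hy.1 hy.2) _ (hleg y' hy'.1 hy'.2) (hle y y' hyy)).1
    show ν P - ν (P + y • uD) ≤ ν P - ν (P + y' • uD)
    linarith
  obtain ⟨K1, hK1⟩ : ∃ K1 : ℝ≥0, (K1 : ℝ) = K * ‖(uD : Fin 12 → ℝ)‖ :=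
    ⟨⟨K * ‖(uD : Fin 12 → ℝ)‖, by positivity⟩, rfl⟩
  have hlip : LipschitzOnWith K1 Gf (Icc 0 Y) := by
    refine LipschitzOnWith.of_dist_le_mul fun y hy y' hy' => ?_
    rw [Real.dist_eq, Real.dist_eq, hK1]
    have e1 : Gf y - Gf y' = -(ν (P + y • uD) - ν (P + y' • uD)) := by
      simp only [hG]; ring
    rw [e1, abs_neg]
    refine (hν _ (hleg y hy.1 hy.2) _ (hleg y' hy'.1 hy'.2)).trans (le_of_eq ?_)
    rw [add_sub_add_left_eq_sub, ← sub_smul, norm_smul, Real.norm_eq_abs]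
    ring
  -- the set of the good steps
  set S : Set ℝ := {x : ℝ | x ∈ Ioo 0 Y ∧ v + x / β ∈ E} with hS
  have hSm : MeasurableSet S := by
    have : S = Ioo 0 Y ∩ (fun x : ℝ => v + x / β) ⁻¹' E := rfl
    rw [this]
    exact measurableSet_Ioo.inter (hE.preimage (by fun_prop))
  have hSf : ∀ y ∈ S, ∃ᶠ η in 𝓝[>] (0:ℝ), ρ * η ≤ Gf (y + η) - Gf y := by
    intro y hy
    obtain ⟨⟨hy0, hyY⟩, hyE⟩ := hy
    have hvI := hEI hyE
    have hroom : ∀ᶠ η in 𝓝[>] (0:ℝ), η < Y - y :=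
      (tendsto_id.mono_left nhdsWithin_le_nhds).eventually_lt_const (by linarith)
    refine ((hf _ hyE).and_eventually (hroom.and self_mem_nhdsWithin)).mono ?_
    rintro η ⟨g1, g2, g3⟩
    have hη : (0:ℝ) < η := g3
    have hrc : rc θa θb w0 sa sb (v + y / β) ∈ Leg monL R :=
      nat_leg (fun k => (hbx _ hvI k).1.le) fun k => (hbx _ hvI k).2.le
    have hyt : t ≤ y / β := by
      rw [le_div_iff_of_neg hβ]
      linarith
    have hpq : P + y • uD ≤ rc θa θb w0 sa sb (v + y / β) := pY_raise hθ hβ hy0.le hyt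
    have e2 : P + y • uD + η • uD = P + (y + η) • uD := by rw [add_smul, add_assoc]
    have key := incr hs (u := η • uD) hpq
      (fun k => by rw [Pi.smul_apply, smul_eq_mul]; exact mul_nonneg hη.le (uD_nonneg k))
      (fun k hk => by
        rw [Pi.smul_apply, smul_eq_mul] at hk
        have hk1 := uD_ne (fun h => hk (by rw [h, mul_zero]))
        rw [hk1]
        exact pY_raise_one hβ)
      (hleg y hy0.le hyY.le) hrc (by rw [e2]; exact hleg _ (by linarith) (by linarith))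
    rw [e2] at key
    show ρ * η ≤ (ν P - ν (P + (y + η) • uD)) - (ν P - ν (P + y • uD))
    linarith
  have hgr := D0w635.growth hY.le hmono hlip hSm (fun x hx => hx.1) hρ hSf
  have hvol : Y / 2 ≤ (volume S).toReal := by
    rw [hS, vol_steps hβ]
    have h6 : -β * (-Y / β / 2) ≤ -β * (volume (E ∩ Ioo (v - (-Y / β)) v)).toReal :=
      mul_le_mul_of_nonneg_left h4 (by linarith)
    have h7 : -β * (-Y / β / 2) = Y / 2 := by
      have := hβ.ne
      field_simp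
    linarith
  have e0 : Gf 0 = 0 := by
    simp only [hG, zero_smul, add_zero, sub_self]
  rw [e0, sub_zero] at hgr
  have h8 : ρ * (Y / 2) ≤ ρ * (volume S).toReal := mul_le_mul_of_nonneg_left hvol hρ
  show ρ / 2 * Y ≤ Gf Y
  linarith

end Crest.Agent.R116.D0yB635
end

-- ▼ part R116/D0y3_219
section

/-!
# R116 (K side), LEMMA D0 for `β_D < 0`, part 3 (helper219): the a.e. form on the plane `Y`

* **`loc_Y`** : at a.e. point of `Y` above the heights at which `D` is live, every derivative of `ν`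
  along `(1; 0, 1)` is `≤ -(6 - 4 s)`
* `exists_t0` : the box is positive for `-t0 < t` on a compact set of heights
-/

set_option autoImplicit false
set_option linter.unusedVariables false

open Set Filter Topology MeasureTheory
open scoped NNReal

namespace Crest.Agent.R116.D0y219

open Crest.Agent.R138
open Crest.Agent.R136
open Crest.Agent.R136.Net191
open Crest.Agent.R136.Dg219 (mw gC dhC nC gset mem_gset lf gC_eq gC_zero nC_zero nC_of Walls OutS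
  dirC leg_outC leg_legal mw_full)
open Crest.Agent.R116.ChL222
open Crest.Agent.R116.Sg337 (bx9 natB uC)
open Crest.Agent.R116.SgF665 (wl)
open Crest.Agent.R116.D0F878
open Crest.Agent.R116.D0n878
open Crest.Agent.R116.SgO219
open Dg262 (SupOn)

theorem pY_le_rc {θa θb w0 sa sb t v : ℝ} (ht : t ≤ 0) :
    pY θa θb w0 sa sb t v ≤ rc θa θb w0 sa sb v := by
  unfold pY rc
  exact natB_le (by linarith) le_rfl (by linarith)

/-- **the a.e. form on `Y`** -/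
theorem loc_Y {J : Type*} [Finite J] {f : J → (Fin 12 → ℝ) → ℝ} {j0 : J}
    {R K s q0 ρd θa θb w0 sa sb : ℝ} (hK : 0 ≤ K)
    (hν : ∀ j, ∀ p ∈ Leg monL R, ∀ q ∈ Leg monL R, |f j p - f j q| ≤ K * ‖p - q‖)
    (hm : ∀ p ∈ Leg monL R, ∀ q ∈ Leg monL R, p ≤ q →
      f j0 q ≤ f j0 p ∧ f j0 p - f j0 q ≤ ∑ i, (q i - p i))
    (hs : ∀ p ∈ Leg monL R, ∀ q ∈ Leg monL R, p ⊓ q ∈ Leg monL R →
      f j0 p + f j0 q ≤ f j0 (p ⊔ q) + f j0 (p ⊓ q))
    (hθ : 0 < θa) (hβ : 2 * θa - θb - 1 < 0) (s2 : 2 * s < 1) (hq0 : 0 < q0) (hρ : 0 < ρd)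
    (hbx : ∀ v ∈ Ioo (0:ℝ) 1, ∀ k, 0 < rc θa θb w0 sa sb v k ∧ rc θa θb w0 sa sb v k < R)
    (hC : ∀ v0 ∈ Ioo (0:ℝ) 1, ∃ κ : ℝ, 0 < κ ∧ ∀ v y : ℝ, |v - v0| ≤ κ → 0 ≤ y → y ≤ κ →
      q0 * y ≤ f j0 (rc θa θb w0 sa sb v) - f j0 (rc θa θb w0 sa sb v + y • uC))
    {E : Set ℝ} (hE : MeasurableSet E) (hEI : E ⊆ Ioo 0 1)
    (hf : ∀ v ∈ E, ∃ᶠ y in 𝓝[>] (0:ℝ), ρd * y ≤
      f j0 (rc θa θb w0 sa sb v) - f j0 (rc θa θb w0 sa sb v + y • uD))
    (hF : ∀ t v : ℝ, t < 0 → 0 < v + t → v < 1 → (∀ k, 0 < pY θa θb w0 sa sb t v k) →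
      FactsY (Leg monL R) f j0 (pY θa θb w0 sa sb t v) s) :
    ∀ᵐ y : ℝ × ℝ, y.1 < 0 → 0 < y.2 + y.1 → y.2 ∈ E →
      (∀ k, 0 < pY θa θb w0 sa sb y.1 y.2 k) → ∀ D : ℝ × ℝ →L[ℝ] ℝ,
      HasFDerivAt (fun y => f j0 (Dg262.X (natB w0 (sa + θa) (sb + θb)) (natB 1 0 1)
        (natB 1 (-θa) (-θb)) y)) D y → D (1, 0) ≤ -(6 - 4 * s) := by
  have key := leg_outC monL hK (hν j0) hm hs (x0 := natB w0 (sa + θa) (sb + θb))
    (b := natB 1 (-θa) (-θb)) aY_nonneg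
  have hdens : ∀ᵐ y : ℝ × ℝ, y.2 ∈ E →
      ∀ᶠ η in 𝓝[>] (0:ℝ), η / 2 ≤ (volume (E ∩ Ioo (y.2 - η) y.2)).toReal := by
    have h1 := D0w635.dens_left hE
    have h2 : Measure.QuasiMeasurePreserving (Prod.snd : ℝ × ℝ → ℝ) volume volume := by
      rw [Measure.volume_eq_prod]
      exact Measure.quasiMeasurePreserving_snd
    exact h2.ae h1
  filter_upwards [key, hdens] with y hy hd ht hvt hvE hpos D' hD'
  obtain ⟨t, v⟩ := y
  simp only at ht hvt hvE hpos hd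
  have hv : v ∈ Ioo (0:ℝ) 1 := hEI hvE
  have hbox : ∀ k, 0 < pY θa θb w0 sa sb t v k ∧ pY θa θb w0 sa sb t v k < R := fun k =>
    ⟨hpos k, (pY_le_rc ht.le k).trans_lt (hbx v hv k).2⟩
  obtain ⟨D, hD, H⟩ := hy (O_nat (by rw [X_pY]; exact hbox))
  rw [hD'.unique hD]
  rw [L_nat] at H
  have H' : ∀ h : ℕ → ℝ, (∀ l, 0 < h l) → Tendsto h atTop (𝓝 0) → ∀ lam : (Fin 12 → ℝ) → ℝ,
      Ex926.IsTan (Leg monL R) LM (f j0) (fun _ => pY θa θb w0 sa sb t v) h lam →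
        ∃ (φ : ℕ → (Fin 12 → ℝ) → ℝ) (r : ℕ → ℝ),
          OutS (gC (natB 1 0 1) (natB 1 (-θa) (-θb))) LM (dhC (natB 1 0 1) (natB 1 (-θa) (-θb)))
            (nC (natB 1 0 1) (natB 1 (-θa) (-θb))) lam (D (1, 0), D (0, 1)) φ r := by
    intro h h1 h2 lam h3
    exact H h h1 h2 lam (by rw [X_pY]; exact h3)
  exact loc_pt (ρd := ρd / 2) hK hν hm hs hθ hβ s2 hq0 (by linarith) hbox H'
    (fun h lam h1 h2 h3 z c p hc y hy =>
      D0yA665.regC hs hθ hβ ht hv hbx hC h1 h2 h3 hc hy)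
    (D0yB635.growD hs hθ hβ ht hv hbx hK (hν j0) hm hρ.le hE hEI hf (hd hvE) hpos)
    (hF t v ht hvt hv.2 hpos)

/-- positivity of the box near a compact set of heights -/
theorem exists_t0 {θa θb w0 sa sb v1 v2 : ℝ}
    (h1 : ∀ k, 0 < rc θa θb w0 sa sb v1 k) (h2 : ∀ k, 0 < rc θa θb w0 sa sb v2 k)
    (hv1 : 0 < v1) (h12 : v1 < v2) :
    ∃ t0 : ℝ, 0 < t0 ∧ ∀ t v : ℝ, -t0 < t → t < 0 → v ∈ Icc v1 v2 →
      0 < v + t ∧ ∀ k, 0 < pY θa θb w0 sa sb t v k := by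
  have hne : (Finset.univ : Finset (Fin 12)).Nonempty := Finset.univ_nonempty
  obtain ⟨m0, hm0, hmk⟩ : ∃ m0 : ℝ, 0 < m0 ∧ ∀ k, m0 ≤ rc θa θb w0 sa sb v1 k ∧
      m0 ≤ rc θa θb w0 sa sb v2 k := by
    refine ⟨Finset.univ.inf' hne fun k => min (rc θa θb w0 sa sb v1 k) (rc θa θb w0 sa sb v2 k),
      ?_, fun k => ?_⟩
    · rw [Finset.lt_inf'_iff]
      exact fun k _ => lt_min (h1 k) (h2 k)
    · have h3 := Finset.inf'_le (fun k => min (rc θa θb w0 sa sb v1 k) (rc θa θb w0 sa sb v2 k))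
        (Finset.mem_univ k)
      exact ⟨h3.trans (min_le_left _ _), h3.trans (min_le_right _ _)⟩
  refine ⟨min (m0 / 2) v1, lt_min (by linarith) hv1, fun t v ht ht0 hv => ?_⟩
  have t1 : -(m0 / 2) < t := lt_of_le_of_lt (by linarith [min_le_left (m0 / 2) v1]) ht
  have t2 : -v1 < t := lt_of_le_of_lt (by linarith [min_le_right (m0 / 2) v1]) ht
  refine ⟨by linarith [hv.1], fun k => ?_⟩
  have e1 : pY θa θb w0 sa sb t v k = rc θa θb w0 sa sb v k + t * natB 1 0 1 k := by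
    unfold pY rc
    fin_cases k <;> simp [natB, bx9] <;> ring
  have e2 : 0 ≤ natB 1 0 1 k ∧ natB 1 0 1 k ≤ 2 := by
    fin_cases k <;> simp [natB, bx9] <;> norm_num
  have e3 : m0 ≤ rc θa θb w0 sa sb v k := by
    obtain ⟨a1, a2⟩ := hmk k
    have h3 : 0 < v2 - v1 := by linarith
    have e4 : (v2 - v1) * rc θa θb w0 sa sb v k =
        (v2 - v) * rc θa θb w0 sa sb v1 k + (v - v1) * rc θa θb w0 sa sb v2 k := by
      unfold rc
      fin_cases k <;> simp [natB, bx9] <;> ring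
    have e5 : (v2 - v) * m0 ≤ (v2 - v) * rc θa θb w0 sa sb v1 k :=
      mul_le_mul_of_nonneg_left a1 (by linarith [hv.2])
    have e6 : (v - v1) * m0 ≤ (v - v1) * rc θa θb w0 sa sb v2 k :=
      mul_le_mul_of_nonneg_left a2 (by linarith [hv.1])
    have e7 : (v2 - v1) * m0 ≤ (v2 - v1) * rc θa θb w0 sa sb v k := by
      rw [e4]; linarith
    exact le_of_mul_le_mul_left e7 h3
  rw [e1]
  nlinarith [e2.1, e2.2]

end Crest.Agent.R116.D0y219
end

-- ▼ part R116/D0m_570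
section

/-!
# R116 (K side), LEMMA D0: from null sets to the micro form, over `CtxT` (helper570)

* `ctx_lip`, `ctx_mono`, `ctx_sup`, `ctx_box` : `hν`, `hm`, `hs`, `hbx` of 878's `null_E` / 219's `loc_Y`
* `mic_of_null` : every measurable `E ⊆ (0, 1)` on which `D` is live with rate `ρ` at arbitrarily small
  scales is null ⊢ `Mic`
* **`mic_of_loc`** : the same from the local rate `D (1, 0) ≤ -(6 - 4 s)` beside the record (219)
* `rL_rc`, `uD_single` : 878's notation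
-/

set_option autoImplicit false
set_option linter.unusedVariables false

open Set Filter Topology MeasureTheory
open scoped NNReal ENNReal

namespace Crest.Agent.R116.D0m570

open Crest.Agent.R138.Ex926 (Base U IsTan)
open Crest.Agent.R136
open Crest.Agent.R136.MkA627
open Crest.Agent.R136.TD627
open Crest.Agent.R136.Net191
open Crest.Agent.R136.Lq196
open Crest.Agent.R116.ChL222
open Crest.Agent.R116.PL504 (nb rL DN eL βL oL Shift)
open Crest.Agent.R116.Xd954 (cs xs FlagX Mrg)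
open Crest.Agent.R116.Sg337 (coneL DL natB bx9 eL_bx9)
open Crest.Agent.R116.Gd222 (TSet sN PDL DT)
open Crest.Agent.R116.KI439
open Crest.Agent.R116.KF439 (PL)
open Crest.Agent.R116.Tw468 (OutT)
open Crest.Agent.R116.CtxB468
open Crest.Agent.R116.KTop387 (NumL)
open Crest.Agent.R116.Rcx363 (fo fo_lip leg_near single_mem zero_coneL)
open Crest.Agent.R116.D0n878 (rc uD)
open Crest.Agent.R116.KTie794 (Mic)

theorem rL_rc (θa θb w0 sa sb v : ℝ) : rL θa θb w0 sa sb v = rc θa θb w0 sa sb v := by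
  rw [PL504.rL_nb, Sg337.nb_natB]
  rfl

theorem uD_single : uD = (Pi.single 1 1 : Fin 12 → ℝ) := by
  funext k
  fin_cases k <;> simp [uD, bx9]

theorem rL_cont (θa θb w0 sa sb : ℝ) : Continuous fun v => rL θa θb w0 sa sb v := by
  refine continuous_pi fun k => ?_
  simp only [rL_rc]
  fin_cases k <;> simp [rc, natB, bx9] <;> fun_prop

section ctx

variable {η : ℝ} {G : Geo TSet (Fin 2)} {L : ℕ → ℕ → LRay} {r : ℕ → ℝ} {g s : ℝ} {θ q : Fin 2 → ℝ}
    {Rg : ℝ} {B : Base} {I : ℕ → Finset (ℕ × ℝ)} {lev : ℕ → ℚ → ℕ} {A : ℕ → ℝ}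
    {f : ℕ → ℚ → ℕ → ℤ → ℕ} {b : ℕ → ℚ → ℕ → TSet} {vm : ℕ → ℚ → ℝ} {w : Fin 2 → ℕ → ℚ → ℝ}
    {fr : ℕ → ℚ → ℕ × ℝ → LInc} {fl : ℕ → ℕ × ℝ → LInc} {sc : Fin 12 → ℕ → ℝ}
    {w0 sa sb δ R : ℝ} {I0 I' : ℕ → Finset (ℕ × ℝ)} {ν own : (Fin 12 → ℝ) → ℝ} {c₀ : ℝ}


theorem ctx_mono
    (h : CtxT G L r g s θ q Rg B I lev A f b vm w fr fl sc w0 sa sb δ R I0 I' ν own c₀) :
    ∀ p ∈ Leg monL R, ∀ q ∈ Leg monL R, p ≤ q → ν q ≤ ν p ∧ ν p - ν q ≤ ∑ i, (q i - p i) := by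
  intro p hp q hq hpq
  obtain ⟨h1, h2⟩ := h.ext.lip p hp q hq hpq
  exact ⟨by linarith, h2⟩

theorem ctx_sup
    (h : CtxT G L r g s θ q Rg B I lev A f b vm w fr fl sc w0 sa sb δ R I0 I' ν own c₀) :
    ∀ p ∈ Leg monL R, ∀ q ∈ Leg monL R, p ⊓ q ∈ Leg monL R → ν p + ν q ≤ ν (p ⊔ q) + ν (p ⊓ q) := by
  intro p hp q hq hi
  have := h.ext.submod p hp q hq hi
  linarith

/-- the record boxes are strictly inside -/
theorem ctx_box
    (h : CtxT G L r g s θ q Rg B I lev A f b vm w fr fl sc w0 sa sb δ R I0 I' ν own c₀)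
    (hR0 : w0 + (θ 1 + sb) < R) (hR1 : w0 + 1 + sb < R) :
    ∀ v ∈ Icc (0:ℝ) 1, ∀ k, 0 < rc (θ 0) (θ 1) w0 sa sb v k ∧ rc (θ 0) (θ 1) w0 sa sb v k < R := by
  intro v hv k
  rw [← rL_rc]
  refine ⟨h.sh.d0.trans_le (h.sh.rL_pos hv.1 hv.2 k), ?_⟩
  have sh := h.sh
  have sh' : Shift (θ 0) (θ 1) w0 sa sb δ (max (w0 + (θ 1 + sb)) (w0 + 1 + sb)) :=
    ⟨sh.d0, sh.z, sh.c0, sh.c1, sh.D0, sh.D1, le_max_left _ _, le_max_right _ _⟩
  exact ((sh'.rL_leg hv.1 hv.2).2 k).trans_lt (max_lt hR0 hR1)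

/-- raising `D` a little above the record is legal -/
theorem ctx_legD
    (h : CtxT G L r g s θ q Rg B I lev A f b vm w fr fl sc w0 sa sb δ R I0 I' ν own c₀)
    (hR0 : w0 + (θ 1 + sb) < R) (hR1 : w0 + 1 + sb < R) {v : ℝ} (hv : v ∈ Ioo (0:ℝ) 1) :
    ∀ᶠ y in 𝓝[>] (0:ℝ), rL (θ 0) (θ 1) w0 sa sb v ∈ Leg monL R ∧
      rL (θ 0) (θ 1) w0 sa sb v + y • (Pi.single 1 1 : Fin 12 → ℝ) ∈ Leg monL R := by
  obtain ⟨ρ, hρ, hl⟩ := leg_near h.sh hR0 hR1 hv.1.le hv.2.le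
  have h1 : ∀ᶠ y in 𝓝[>] (0:ℝ), y < ρ :=
    (tendsto_id.mono_left nhdsWithin_le_nhds).eventually_lt_const hρ
  filter_upwards [h1, self_mem_nhdsWithin] with y hy hy0
  have hy0' : (0:ℝ) < y := hy0
  refine ⟨h.sh.rL_leg hv.1.le hv.2.le, hl _ ?_ fun k => ?_⟩
  · have := single_mem zero_coneL hy0'.le
    rwa [zero_add] at this
  · rw [Pi.smul_apply, smul_eq_mul, abs_mul, abs_of_pos hy0']
    by_cases hk : k = 1
    · subst hk; simp; exact hy.le
    · simp [hk]; exact hρ.le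

/-- **from null sets to the micro form** -/
theorem mic_of_null
    (h : CtxT G L r g s θ q Rg B I lev A f b vm w fr fl sc w0 sa sb δ R I0 I' ν own c₀)
    (hR0 : w0 + (θ 1 + sb) < R) (hR1 : w0 + 1 + sb < R)
    (H : ∀ ρ : ℝ, 0 < ρ → ∀ E : Set ℝ, MeasurableSet E → E ⊆ Ioo 0 1 →
      (∀ v ∈ E, ∃ᶠ y in 𝓝[>] (0:ℝ), ρ * y ≤ ν (rL (θ 0) (θ 1) w0 sa sb v) -
        ν (rL (θ 0) (θ 1) w0 sa sb v + y • (Pi.single 1 1 : Fin 12 → ℝ))) → volume E = 0) :
    Mic ν (θ 0) (θ 1) w0 sa sb := by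
  have hlip : LipschitzOnWith 12 ν (Leg monL R) := by
    refine LipschitzOnWith.of_dist_le_mul fun p hp q hq => ?_
    rw [Real.dist_eq]
    exact fo_lip h (0 : Fin 2) p hp q hq
  obtain ⟨νx, hx, hxe⟩ := hlip.extend_real
  set δx : ℝ → ℝ → ℝ := fun v y => νx (rL (θ 0) (θ 1) w0 sa sb v) -
    νx (rL (θ 0) (θ 1) w0 sa sb v + y • (Pi.single 1 1 : Fin 12 → ℝ)) with hδx
  have hcv : ∀ y : ℝ, 0 < y → Continuous fun v => δx v y := by
    intro y _
    have h1 := rL_cont (θ 0) (θ 1) w0 sa sb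
    exact (hx.continuous.comp h1).sub (hx.continuous.comp (h1.add continuous_const))
  have hcy : ∀ v : ℝ, Continuous fun y => δx v y := by
    intro v
    exact continuous_const.sub (hx.continuous.comp
      (continuous_const.add (continuous_id.smul continuous_const)))
  -- the increment is the one of the extension
  have heq : ∀ v ∈ Ioo (0:ℝ) 1, ∀ᶠ y in 𝓝[>] (0:ℝ), δx v y = ν (rL (θ 0) (θ 1) w0 sa sb v) -
      ν (rL (θ 0) (θ 1) w0 sa sb v + y • (Pi.single 1 1 : Fin 12 → ℝ)) := by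
    intro v hv
    filter_upwards [ctx_legD h hR0 hR1 hv] with y hy
    rw [hδx]
    simp only
    rw [← hxe hy.1, ← hxe hy.2]
  have hnull : ∀ m : ℕ, volume ({v : ℝ | ∀ n : ℕ, ∃ y : ℚ, 0 < y ∧ (y:ℝ) < 1 / ((n:ℝ) + 1) ∧
      1 / ((m:ℝ) + 1) * (y:ℝ) < δx v (y:ℝ)} ∩ Ioo 0 1) = 0 := by
    intro m
    refine H (1 / ((m:ℝ) + 1)) (by positivity) _
      ((D0w635.meas_freq' hcv).inter measurableSet_Ioo) inter_subset_right fun v hv => ?_
    have h1 := (D0w635.freq_iff (δ := δx v) (ρ := 1 / ((m:ℝ) + 1))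
      (hcy v).continuousOn).2 hv.1
    refine (h1.and_eventually (heq v hv.2)).mono fun y hy => ?_
    rw [← hy.2]
    exact hy.1.le
  have hae : ∀ᵐ v : ℝ, ∀ m : ℕ, v ∉ ({v : ℝ | ∀ n : ℕ, ∃ y : ℚ, 0 < y ∧
      (y:ℝ) < 1 / ((n:ℝ) + 1) ∧ 1 / ((m:ℝ) + 1) * (y:ℝ) < δx v (y:ℝ)} ∩ Ioo 0 1) :=
    ae_all_iff.2 fun m => measure_eq_zero_iff_ae_notMem.1 (hnull m)
  unfold Mic
  filter_upwards [hae] with v hv hv2
  rw [Metric.tendsto_nhds]
  intro ε hε
  obtain ⟨m, hm⟩ := exists_nat_one_div_lt hε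
  have h1 : ¬ ∃ᶠ y in 𝓝[>] (0:ℝ), 1 / ((m:ℝ) + 1) * y < δx v y := by
    intro hcon
    exact hv m ⟨(D0w635.freq_iff (hcy v).continuousOn).1 hcon, hv2⟩
  rw [not_frequently] at h1
  filter_upwards [h1, heq v hv2, ctx_legD h hR0 hR1 hv2, self_mem_nhdsWithin] with y h2 h3 h4 h5
  have hy : (0:ℝ) < y := h5
  rw [← h3, Real.dist_eq, sub_zero, abs_div, abs_of_pos hy, div_lt_iff₀ hy]
  have h6 : 0 ≤ δx v y := by
    rw [h3]
    refine (h.ext.lip _ h4.1 _ h4.2 ?_).1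
    intro k
    simp only [Pi.add_apply, Pi.smul_apply, smul_eq_mul]
    by_cases hk : k = 1
    · subst hk; simp; exact hy.le
    · simp [hk]
  rw [abs_of_nonneg h6]
  have h7 : δx v y ≤ 1 / ((m:ℝ) + 1) * y := not_lt.1 h2
  have h8 : 1 / ((m:ℝ) + 1) * y < ε * y := mul_lt_mul_of_pos_right hm hy
  linarith

/-- the same in 878's notation -/
theorem mic_of_null_rc
    (h : CtxT G L r g s θ q Rg B I lev A f b vm w fr fl sc w0 sa sb δ R I0 I' ν own c₀)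
    (hR0 : w0 + (θ 1 + sb) < R) (hR1 : w0 + 1 + sb < R)
    (H : ∀ ρ : ℝ, 0 < ρ → ∀ E : Set ℝ, MeasurableSet E → E ⊆ Ioo 0 1 →
      (∀ v ∈ E, ∃ᶠ y in 𝓝[>] (0:ℝ), ρ * y ≤ ν (rc (θ 0) (θ 1) w0 sa sb v) -
        ν (rc (θ 0) (θ 1) w0 sa sb v + y • uD)) → volume E = 0) :
    Mic ν (θ 0) (θ 1) w0 sa sb := by
  refine mic_of_null h hR0 hR1 fun ρ hρ E hE hEI hf => H ρ hρ E hE hEI ?_
  simpa only [rL_rc, ← uD_single] using hf



end ctx

end Crest.Agent.R116.D0m570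
end

-- ▼ part R116/D0m2_570
section

/-!
# R116 (K side), LEMMA D0: the end for `β_D < 0`, compact intervals of heights (helper570)

* `null_of_Icc` : `E ⊆ (0, 1)` null on every `[v1, v2]` is null
* **`mic_of_locI`** : `mic_of_loc` with the local rate asked only for `E ⊆ [v1, v2]`, `0 < v1 < v2 < 1`
-/

set_option autoImplicit false
set_option linter.unusedVariables false

open Set Filter Topology MeasureTheory
open scoped NNReal ENNReal

namespace Crest.Agent.R116.D0m570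

open Crest.Agent.R138.Ex926 (Base U IsTan)
open Crest.Agent.R136
open Crest.Agent.R136.MkA627
open Crest.Agent.R136.TD627
open Crest.Agent.R136.Net191
open Crest.Agent.R136.Lq196
open Crest.Agent.R116.ChL222
open Crest.Agent.R116.PL504 (nb rL DN eL βL oL Shift)
open Crest.Agent.R116.Sg337 (coneL DL natB bx9 eL_bx9)
open Crest.Agent.R116.Gd222 (TSet sN PDL DT)
open Crest.Agent.R116.KI439
open Crest.Agent.R116.KF439 (PL)
open Crest.Agent.R116.Tw468 (OutT)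
open Crest.Agent.R116.CtxB468
open Crest.Agent.R116.KTop387 (NumL)
open Crest.Agent.R116.D0n878 (rc uD)
open Crest.Agent.R116.KTie794 (Mic)

theorem null_of_Icc {E : Set ℝ} (hEI : E ⊆ Ioo 0 1)
    (h : ∀ v1 v2 : ℝ, 0 < v1 → v1 < v2 → v2 < 1 → volume (E ∩ Icc v1 v2) = 0) :
    volume E = 0 := by
  refine measure_null_of_locally_null _ fun v hv => ?_
  have h0 := hEI hv
  refine ⟨E ∩ Icc (v / 2) ((v + 1) / 2), ?_, h _ _ (by linarith [h0.1]) (by linarith [h0.1, h0.2])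
    (by linarith [h0.2])⟩
  exact inter_mem self_mem_nhdsWithin
    (mem_nhdsWithin_of_mem_nhds (Icc_mem_nhds (by linarith [h0.1]) (by linarith [h0.2])))

section ctx

variable {η : ℝ} {G : Geo TSet (Fin 2)} {L : ℕ → ℕ → LRay} {r : ℕ → ℝ} {g s : ℝ} {θ q : Fin 2 → ℝ}
    {Rg : ℝ} {B : Base} {I : ℕ → Finset (ℕ × ℝ)} {lev : ℕ → ℚ → ℕ} {A : ℕ → ℝ}
    {f : ℕ → ℚ → ℕ → ℤ → ℕ} {b : ℕ → ℚ → ℕ → TSet} {vm : ℕ → ℚ → ℝ} {w : Fin 2 → ℕ → ℚ → ℝ}
    {fr : ℕ → ℚ → ℕ × ℝ → LInc} {fl : ℕ → ℕ × ℝ → LInc} {sc : Fin 12 → ℕ → ℝ}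
    {w0 sa sb δ R : ℝ} {I0 I' : ℕ → Finset (ℕ × ℝ)} {ν own : (Fin 12 → ℝ) → ℝ} {c₀ : ℝ}

/-- null sets on compact intervals ⊢ the micro form -/
theorem mic_of_nullI
    (h : CtxT G L r g s θ q Rg B I lev A f b vm w fr fl sc w0 sa sb δ R I0 I' ν own c₀)
    (hR0 : w0 + (θ 1 + sb) < R) (hR1 : w0 + 1 + sb < R)
    (H : ∀ ρ : ℝ, 0 < ρ → ∀ v1 v2 : ℝ, 0 < v1 → v1 < v2 → v2 < 1 → ∀ E : Set ℝ,
      MeasurableSet E → E ⊆ Icc v1 v2 →
      (∀ v ∈ E, ∃ᶠ y in 𝓝[>] (0:ℝ), ρ * y ≤ ν (rc (θ 0) (θ 1) w0 sa sb v) -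
        ν (rc (θ 0) (θ 1) w0 sa sb v + y • uD)) → volume E = 0) :
    Mic ν (θ 0) (θ 1) w0 sa sb :=
  mic_of_null_rc h hR0 hR1 fun ρ hρ E hE hEI hf => null_of_Icc hEI fun v1 v2 a1 a2 a3 =>
    H ρ hρ v1 v2 a1 a2 a3 _ (hE.inter measurableSet_Icc) inter_subset_right
      fun v hv => hf v hv.1

/-- **the end of D0 for `β_D < 0`** -/
theorem mic_of_locI
    (h : CtxT G L r (g + 2 * s) s θ q Rg B I lev A f b vm w fr fl sc w0 sa sb δ R I0 I' ν own c₀)
    (hN : NumL η g s θ q) (hη : η ≤ 1)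
    (hR0 : w0 + (θ 1 + sb) < R) (hR1 : w0 + 1 + sb < R) (hRg : θ 0 + |θ 1| + 1 ≤ Rg)
    (hloc : ∀ ρ : ℝ, 0 < ρ → ∀ v1 v2 : ℝ, 0 < v1 → v1 < v2 → v2 < 1 → ∀ E : Set ℝ,
      MeasurableSet E → E ⊆ Icc v1 v2 →
      (∀ v ∈ E, ∃ᶠ y in 𝓝[>] (0:ℝ), ρ * y ≤ ν (rc (θ 0) (θ 1) w0 sa sb v) -
        ν (rc (θ 0) (θ 1) w0 sa sb v + y • uD)) →
      ∃ t0 : ℝ, 0 < t0 ∧ ∀ᵐ y : ℝ × ℝ, -t0 < y.1 → y.1 < 0 → y.2 ∈ E →
        ∀ D : ℝ × ℝ →L[ℝ] ℝ,
        HasFDerivAt (fun y => ν (Dg262.X (rL (θ 0) (θ 1) w0 sa sb 0) (natB 1 0 1)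
          (natB 1 (-θ 0) (-θ 1)) y)) D y → D (1, 0) ≤ -(6 - 4 * s)) :
    Mic ν (θ 0) (θ 1) w0 sa sb := by
  refine mic_of_nullI h hR0 hR1 fun ρ hρ v1 v2 a1 a2 a3 E hE hEI hf => ?_
  obtain ⟨t0, ht0, hl⟩ := hloc ρ hρ v1 v2 a1 a2 a3 E hE hEI hf
  have h1 := D0e570.end_null h hN hη hR0 hR1 hRg ht0 hl
  have h2 : E ⊆ Ioo 0 1 := fun v hv => ⟨by linarith [(hEI hv).1], by linarith [(hEI hv).2]⟩
  rwa [inter_eq_left.2 h2] at h1


end ctx

end Crest.Agent.R116.D0m570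
end

-- ▼ part R116/D0y3a_665
section

/-!
# R116 (K side), LEMMA D0, `β_D ≤ 0` (helper665, for helper219): inputs of the first level over `CtxT`

* `hbx_T` : the record boxes are in the interior
* `hC_loc` : `C`-increments at the record, uniform near every height
-/

set_option autoImplicit false
set_option linter.unusedVariables false

open Finset Filter Topology MeasureTheory Set

namespace Crest.Agent.R116.D0y3a665

open Crest.Agent.R138.Ex926 (Base U IsTan)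
open Crest.Agent.R136
open Crest.Agent.R136.MkA627
open Crest.Agent.R136.TD627
open Crest.Agent.R136.Net191
open Crest.Agent.R136.Lq196
open Crest.Agent.R116.ChL222
open Crest.Agent.R116.PL504 (nb rL DN eL βL oL Shift)
open Crest.Agent.R116.Xd954 (cs xs FlagX Mrg exists_mrg)
open Crest.Agent.R116.Sg337 (bx9 natB Dm uC eL_bx9 nb_natB DN_Dm)
open Crest.Agent.R116.Gd222 (TSet sN PDL DT)
open Crest.Agent.R116.KI439
open Crest.Agent.R116.KF439 (PL)
open Crest.Agent.R116.Tw468 (OutT OutR)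
open Crest.Agent.R116.CtxB468
open Crest.Agent.R116.KTop387 (NumL)
open Crest.Agent.R116.KTie794 (D0T Mic)
open Crest.Agent.R116.D0n878
open Crest.Agent.R116.D0F878 (LinTanD)
open Crest.Agent.R116.D0r708 (rL_natB d0r_all own_e0)
open Crest.Agent.R116.D0p878

theorem rc_eq (θa θb w0 sa sb v : ℝ) : rc θa θb w0 sa sb v = rL θa θb w0 sa sb v := by
  rw [rL_natB]; rfl

section ctx

variable {G : Geo TSet (Fin 2)} {L : ℕ → ℕ → LRay} {r : ℕ → ℝ} {g s : ℝ} {θ q : Fin 2 → ℝ}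
    {Rg : ℝ} {B : Base} {I : ℕ → Finset (ℕ × ℝ)} {lev : ℕ → ℚ → ℕ} {A : ℕ → ℝ}
    {f : ℕ → ℚ → ℕ → ℤ → ℕ} {b : ℕ → ℚ → ℕ → TSet} {vm : ℕ → ℚ → ℝ} {w : Fin 2 → ℕ → ℚ → ℝ}
    {fr : ℕ → ℚ → ℕ × ℝ → LInc} {fl : ℕ → ℕ × ℝ → LInc} {sc : Fin 12 → ℕ → ℝ}
    {w0 sa sb δ R : ℝ} {I0 I' : ℕ → Finset (ℕ × ℝ)} {ν own : (Fin 12 → ℝ) → ℝ} {c₀ : ℝ}


/-- **the `C`-increments at the record**, uniform near every height -/
theorem hC_loc {g : ℝ}
    (H : CtxT G L r g s θ q Rg B I lev A f b vm w fr fl sc w0 sa sb δ R I0 I' ν own c₀)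
    (hR0 : w0 + (θ 1 + sb) < R) (hR1 : w0 + 1 + sb < R) (hθ : 0 < θ 0)
    (hRg : θ 0 + |θ 1| + 1 ≤ Rg) (hV1 : InvT PL B I 1 fl (sc 1))
    (h78 : (VisT B I fl sc 7 ∨ VisT B I fl sc 8) → θ 0 - θ 1 ≤ 1)
    (h2 : VisT B I fl sc 2 → 2 * θ 0 - θ 1 ≤ 2) :
    ∀ v0 ∈ Set.Ioo (0:ℝ) 1, ∃ κ : ℝ, 0 < κ ∧ ∀ v y : ℝ, |v - v0| ≤ κ → 0 ≤ y → y ≤ κ →
      q 0 * y ≤ ν (rc (θ 0) (θ 1) w0 sa sb v) - ν (rc (θ 0) (θ 1) w0 sa sb v + y • uC) := by
  intro v hv
  obtain ⟨hv0, hv1⟩ := hv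
  obtain ⟨a, b', hX⟩ := H.fX
  obtain ⟨κ, hκ, hn⟩ := near_box H hR0 hR1 hθ hRg hv0 hv1
  have hθv : 0 < θ 0 * (1 - v) := mul_pos hθ (by linarith)
  have t1 : |θ 1 * (1 - v)| ≤ |θ 1| := by
    rw [abs_mul, abs_of_pos (by linarith : (0:ℝ) < 1 - v)]
    exact mul_le_of_le_one_right (abs_nonneg _) (by linarith)
  have t2 := abs_le.1 t1
  have t3 : θ 0 * (1 - v) ≤ θ 0 := mul_le_of_le_one_right hθ.le (by linarith)
  obtain ⟨d, hm⟩ := exists_mrg (k0 := θ 0 + |θ 1| + 2) (ϑ := 0) (v := v) (t := θ 0 * (1 - v))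
    (y := θ 1 * (1 - v)) hθv (by linarith [t2.1]) (by linarith)
  have hF := hX I' H.sub' (θ 0 + |θ 1| + 2)
  have hE := H.extK (θ 0 + |θ 1| + 2)
  rw [← Gd222.coN_eq] at hE
  obtain ⟨hb0, -⟩ := hn (w0 + v) (sa + θ 0 * (1 - v)) (sb + θ 1 * (1 - v))
    (by rw [sub_self, abs_zero]; exact hκ.le) (by rw [sub_self, abs_zero]; exact hκ.le)
    (by rw [sub_self, abs_zero]; exact hκ.le)
  have b1 := (hb0 1).1
  have b3 := (hb0 3).1
  have b11 := (hb0 11).2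
  rw [n_1] at b1
  rw [n_3] at b3
  rw [n_11] at b11
  obtain ⟨κ', h1, -, -, -, h5⟩ := d0r_all (c := 0) hE hF DT_nb (fun v _ _ => EL_DN v) hv0 hv1 hm
    (H.sh.d0.trans_le H.sh.z) b3 (by linarith) (by linarith) hκ le_rfl zero_le_one
    (fun v' a' b'' e1 e2 e3 => by
      rw [nb_natB]
      refine (hn _ _ _ ?_ ?_ ?_).2.2.2.2
      · rwa [add_sub_add_left_eq_sub]
      · rwa [add_sub_add_left_eq_sub]
      · rwa [add_sub_add_left_eq_sub])
    (fun v' y e1 e2 e3 e4 e5 hl k => by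
      have hRk : ∀ k, nb w0 sa sb (v' - y) (θ 0 * (1 - v') + y) (θ 1 * (1 - v') + 0 * y) k ≤ R :=
        hl.2
      rw [nb_natB] at hRk ⊢
      have h6 := le_oL H hV1 (z := w0 + (v' - y)) (c := sa + (θ 0 * (1 - v') + y))
        (p := sb + (θ 1 * (1 - v') + 0 * y)) (fun hv => by
          have := h78 hv
          have e7 : w0 + (v' - y) - w0 = v' - y := by ring
          rw [e7]
          nlinarith) (fun hv => by
          have := h2 hv
          have e7 : w0 + (v' - y) - w0 = v' - y := by ring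
          rw [e7]
          nlinarith) hRk k
      have e7 : w0 + (v' - y) - w0 = v' - y := by ring
      rw [e7] at h6
      exact h6)
  refine ⟨κ', h1, fun v' y e1 e2 e3 => ?_⟩
  rw [rc_eq]
  exact (h5 v' y e1 e2 e3).2.2.1




end ctx

end Crest.Agent.R116.D0y3a665
end

-- ▼ part R116/D0y4_219
section

/-!
# R116 (K side), LEMMA D0 for `β_D < 0`, `s < 1/2`, part 4 (helper219): the end over `CtxT`

* **`mic_neg`** : `D` costs nothing at a.e. record height, `FactsY` as a binder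
-/

set_option autoImplicit false
set_option linter.unusedVariables false

open Finset Filter Topology MeasureTheory Set

namespace Crest.Agent.R116.D0y219

open Crest.Agent.R138.Ex926 (Base U IsTan)
open Crest.Agent.R136
open Crest.Agent.R136.MkA627
open Crest.Agent.R136.TD627
open Crest.Agent.R136.Net191
open Crest.Agent.R136.Lq196
open Crest.Agent.R116.ChL222
open Crest.Agent.R116.PL504 (nb rL DN eL βL oL Shift)
open Crest.Agent.R116.Xd954 (cs xs FlagX Mrg exists_mrg)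
open Crest.Agent.R116.Sg337 (bx9 natB Dm uC eL_bx9 nb_natB DN_Dm)
open Crest.Agent.R116.Gd222 (TSet sN PDL DT)
open Crest.Agent.R116.KI439
open Crest.Agent.R116.KF439 (PL)
open Crest.Agent.R116.Tw468 (OutT OutR)
open Crest.Agent.R116.CtxB468
open Crest.Agent.R116.KTop387 (NumL)
open Crest.Agent.R116.KTie794 (D0T Mic)
open Crest.Agent.R116.D0n878
open Crest.Agent.R116.D0r708 (rL_natB d0r_all own_e0)
open Crest.Agent.R116.D0p878 (near_box le_oL n_1 n_3 n_11)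

section ctx

variable {G : Geo TSet (Fin 2)} {L : ℕ → ℕ → LRay} {r : ℕ → ℝ} {g s : ℝ} {θ q : Fin 2 → ℝ}
    {Rg : ℝ} {B : Base} {I : ℕ → Finset (ℕ × ℝ)} {lev : ℕ → ℚ → ℕ} {A : ℕ → ℝ}
    {f : ℕ → ℚ → ℕ → ℤ → ℕ} {b : ℕ → ℚ → ℕ → TSet} {vm : ℕ → ℚ → ℝ} {w : Fin 2 → ℕ → ℚ → ℝ}
    {fr : ℕ → ℚ → ℕ × ℝ → LInc} {fl : ℕ → ℕ × ℝ → LInc} {sc : Fin 12 → ℕ → ℝ}
    {w0 sa sb δ R : ℝ} {I0 I' : ℕ → Finset (ℕ × ℝ)} {ν own : (Fin 12 → ℝ) → ℝ} {c₀ : ℝ}

/-- **`D` costs nothing**, `β_D < 0`, `s < 1/2` -/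
theorem mic_neg {η : ℝ}
    (H : CtxT G L r (g + 2 * s) s θ q Rg B I lev A f b vm w fr fl sc w0 sa sb δ R I0 I' ν own c₀)
    (hN : NumL η g s θ q) (hη : η ≤ 1) (hR0 : w0 + (θ 1 + sb) < R) (hR1 : w0 + 1 + sb < R)
    (hRg : θ 0 + |θ 1| + 1 ≤ Rg) (hV1 : InvT PL B I 1 fl (sc 1)) (s2 : s < 1 / 2)
    (hβ : 2 * θ 0 - θ 1 < 1)
    (hF : ∀ t v : ℝ, t < 0 → 0 < v + t → v < 1 →
      FactsY (Leg monL R) (fun _ : Unit => ν) () (pY (θ 0) (θ 1) w0 sa sb t v) s) :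
    Mic ν (θ 0) (θ 1) w0 sa sb := by
  have hlipν : ∀ j : Unit, ∀ p ∈ Leg monL R, ∀ q ∈ Leg monL R,
      |(fun _ : Unit => ν) j p - (fun _ : Unit => ν) j q| ≤ (12:ℝ) * ‖p - q‖ := by
    intro j p hp q hq
    have h1 := Rcx363.fo_lip H 0 p hp q hq
    rw [dist_eq_norm] at h1
    exact h1
  have hC := D0y3a665.hC_loc H hR0 hR1 hN.θa hRg hV1 (fun _ => by linarith [hN.θa])
    (fun _ => by linarith)
  refine D0m570.mic_of_locI H hN hη hR0 hR1 hRg fun ρ hρ v1 v2 a1 a2 a3 E hE hEI hf => ?_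
  have hEI' : E ⊆ Set.Ioo 0 1 := fun v hv => ⟨by linarith [(hEI hv).1], by linarith [(hEI hv).2]⟩
  obtain ⟨t0, ht0, hpos⟩ := exists_t0 (fun k => (D0m570.ctx_box H hR0 hR1 v1
      ⟨a1.le, by linarith⟩ k).1) (fun k => (D0m570.ctx_box H hR0 hR1 v2
      ⟨by linarith, a3.le⟩ k).1) a1 a2
  refine ⟨t0, ht0, ?_⟩
  have key := loc_Y (J := Unit) (f := fun _ => ν) (j0 := ()) (R := R) (K := 12) (s := s)
    (q0 := q 0) (ρd := ρ) (θa := θ 0) (θb := θ 1) (w0 := w0) (sa := sa) (sb := sb) (by norm_num)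
    hlipν (D0m570.ctx_mono H) (D0m570.ctx_sup H) hN.θa (by linarith) (by linarith) hN.qa hρ
    (fun v hv => D0m570.ctx_box H hR0 hR1 v ⟨hv.1.le, hv.2.le⟩) hC hE hEI' hf
    (fun t v ht hvt hv1 _ => hF t v ht hvt hv1)
  have e0 : rL (θ 0) (θ 1) w0 sa sb 0 = natB w0 (sa + θ 0) (sb + θ 1) := by
    rw [D0m570.rL_rc]
    unfold rc
    congr 1 <;> ring
  rw [e0]
  filter_upwards [key] with y hy h1 h2 h3 D hD
  obtain ⟨b1, b2⟩ := hpos y.1 y.2 h1 h2 (hEI h3)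
  exact hy h2 b1 h3 b2 D hD

end ctx

end Crest.Agent.R116.D0y219
end

-- ▼ part R116/D0fy_332
section

/-!
# R116 (K side), LEMMA D0 for `β_D < 0` (helper332): 219's `FactsY` over the context

* `CDY`        : the field [CD] of `FactsY`
* `bsY_of`     : 219's base sequences are mine
* **`factsY_of`** : `CtxT`, `0 < θa`, `2 θa - θb < 1`, a point of `Y` with `t < 0`, [CD]
  `⊢ FactsY`
-/

set_option autoImplicit false
set_option linter.unusedVariables false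
set_option linter.unusedSectionVars false

open Set Filter Topology MeasureTheory

namespace Crest.Agent.R116.D0fy332

open Crest.Agent.R138
open Crest.Agent.R138.Ex926 (Base U IsTan)
open Crest.Agent.R136
open Crest.Agent.R136.MkA627
open Crest.Agent.R136.TD627
open Crest.Agent.R136.Net191
open Crest.Agent.R136.Lq196
open Crest.Agent.R116.ChL222
open Crest.Agent.R116.PL504 (nb rL)
open Crest.Agent.R116.Sg337 (bx9 natB nb_natB)
open Crest.Agent.R116.Gd222 (TSet)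
open Crest.Agent.R116.KI439
open Crest.Agent.R116.KF439 (PL)
open Crest.Agent.R116.Tw468 (OutT)
open Crest.Agent.R116.CtxB468

/-- the field [CD] of `FactsY` -/
def CDY {J : Type*} (P : Set (Fin 12 → ℝ)) (f : J → (Fin 12 → ℝ) → ℝ) (j0 : J)
    (x0 : Fin 12 → ℝ) (s : ℝ) : Prop :=
  ∀ (h : ℕ → ℝ) (lam φ ρ : (Fin 12 → ℝ) → ℝ) (rz gP : ℝ), D0y219.BsY x0 (fun _ => x0) h →
    Ex926.IsTan P D0F878.LM (f j0) (fun _ => x0) h lam →
    (∀ c ∈ D0F878.LM, lam c = φ c + ρ c) →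
    (∀ c c' : Fin 12 → ℝ, c 1 = c' 1 → c 3 = c' 3 → c 4 = c' 4 → φ c = φ c') →
    (∀ c c' : Fin 12 → ℝ, (∀ i, i ≠ 1 → i ≠ 3 → i ≠ 4 → c i = c' i) → ρ c = ρ c') →
    1 - s ≤ rz →
    (∀ c ∈ D0F878.LM, ∀ c' ∈ D0F878.LM, (∀ i : Fin 12, i ≠ 0 → c i = c' i) →
      lam c - lam c' = rz * (c' 0 - c 0)) →
    (∀ c ∈ D0F878.LM, ∀ c' ∈ D0F878.LM, (∀ i : Fin 12, i ≠ 10 → c i = c' i) →
      lam c - lam c' = gP * (c' 10 - c 10)) →
    (∀ y : ℝ, 0 < y → lam (bx9 0 0 0 y 0 0 0 0 0) < lam 0) →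
    (∀ y : ℝ, 0 < y → lam (bx9 0 y 0 0 0 0 0 0 0) < lam 0) →
    1 - s ≤ gP



theorem pY_X (θa θb w0 sa sb t v : ℝ) :
    Dg262.X (rL θa θb w0 sa sb 0) (natB 1 0 1) (natB 1 (-θa) (-θb)) (t, v) =
      D0y219.pY θa θb w0 sa sb t v := by
  rw [D0bs332.Y_nb, nb_natB]
  unfold D0y219.pY
  congr 1 <;> ring

theorem bsY_of {θa θb w0 sa sb t v : ℝ} {X : ℕ → Fin 12 → ℝ} {h : ℕ → ℝ} (ht : t < 0)
    (hvt : 0 < v + t) (hv1 : v < 1) (hB : D0y219.BsY (D0y219.pY θa θb w0 sa sb t v) X h) :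
    D0bs332.BsY θa θb w0 sa sb X h :=
  ⟨t, v, ht, hvt, hv1, hB.1, by rw [pY_X]; exact hB.2.1, hB.2.2.1, hB.2.2.2⟩

section ctx

variable {G : Geo TSet (Fin 2)} {L : ℕ → ℕ → LRay} {r : ℕ → ℝ} {g s : ℝ} {θ q : Fin 2 → ℝ}
    {Rg : ℝ} {B : Base} {I : ℕ → Finset (ℕ × ℝ)} {lev : ℕ → ℚ → ℕ} {A : ℕ → ℝ}
    {f : ℕ → ℚ → ℕ → ℤ → ℕ} {b : ℕ → ℚ → ℕ → TSet} {vm : ℕ → ℚ → ℝ} {w : Fin 2 → ℕ → ℚ → ℝ}
    {fr : ℕ → ℚ → ℕ × ℝ → LInc} {fl : ℕ → ℕ × ℝ → LInc} {sc : Fin 12 → ℕ → ℝ}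
    {w0 sa sb δ R : ℝ} {I0 I' : ℕ → Finset (ℕ × ℝ)} {ν own : (Fin 12 → ℝ) → ℝ} {c₀ : ℝ}
    {t v : ℝ}

/-- **219's `FactsY` over the context**, [CD] as a binder -/
theorem factsY_of
    (H : CtxT G L r g s θ q Rg B I lev A f b vm w fr fl sc w0 sa sb δ R I0 I' ν own c₀)
    (hθ : 0 < θ 0) (hβ : 2 * θ 0 - θ 1 < 1) (hs0 : 0 ≤ s) (hs1 : s ≤ 1) (ht : t < 0)
    (hvt : 0 < v + t) (hv1 : v < 1) {Jt : Type*} {ff : Jt → (Fin 12 → ℝ) → ℝ} {j0 : Jt}
    (hf : ff j0 = ν)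
    (hCD : CDY (Leg monL R) ff j0 (D0y219.pY (θ 0) (θ 1) w0 sa sb t v) s) :
    D0y219.FactsY (Leg monL R) ff j0 (D0y219.pY (θ 0) (θ 1) w0 sa sb t v) s := by
  have F := D0bs332.linFactsD_Y H hθ hβ hs0 hs1 (j0 := j0) hf
  refine ⟨?_, ?_, ?_, ?_, hCD⟩
  · intro X h hB D lam hD hT y hy
    rw [hf] at hT
    exact D0bs332.own_Y H hθ hβ (bsY_of ht hvt hv1 hB) (hD D0bs332.zero_LM) hy
      (hD (Kg330.bxz_LM hy.le)) hT
  · intro X h rz rX rH rF gC gP gE gB gD hB T hC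
    exact (F.K1 _ _ _ _ _ _ _ _ _ _ _ (bsY_of ht hvt hv1 hB) T
      (fun n => (D0bs332.nat_walls hB.1 n).1) (fun n => (D0bs332.nat_walls hB.1 n).2.1)).1 hC
  · intro X h rz rX rH rF gC gP gE gB gD hB T hC
    exact F.H1 _ _ _ _ _ _ _ _ _ _ _ (bsY_of ht hvt hv1 hB) T
      (fun n => (D0bs332.nat_walls hB.1 n).2.2.1) (fun n => (D0bs332.nat_walls hB.1 n).2.2.2.1) hC
  · intro X h rz rX rH rF gC gP gE gB gD hB T hP
    exact (F.K2 _ _ _ _ _ _ _ _ _ _ _ (bsY_of ht hvt hv1 hB) T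
      (fun n => (D0bs332.nat_walls hB.1 n).2.2.2.2.1)).2 hP

end ctx

end Crest.Agent.R116.D0fy332
end

-- ▼ part R116/CD1a_120
section

/-!
# R116, FACT [CD] (helper120), part 1: the pin lemma

`fin1`, `fin2`, `fin3` : finite counting.
`pin` : one line `i`, one height `h`, a `ρ^(C ε)`-part `K` of the heights of `i`, partners `j k` of
`i` at the height `k`, all alive at `h` and all in one fine class `r1` at the height `h`.
-/

set_option autoImplicit false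
set_option linter.unusedVariables false
set_option linter.unusedSectionVars false

open Filter Topology Finset

namespace Crest.Agent.R116.CD120

open Crest.Agent.R138.Ex926 (Base U)
open Crest.Agent.R136.Gf356

/-! ### finite counting -/

/-- a height `h` with many common incidences -/
theorem fin1 (L Z : Finset ℕ) (al : ℕ → ℕ → Prop) [∀ i, DecidablePred (al i)] {θ : ℝ}
    (hθ : 0 < θ) (hL : L.Nonempty) (hZ : Z.Nonempty)
    (hal : ∀ i ∈ L, θ * (Z.card : ℝ) ≤ ((Z.filter fun k => al i k).card : ℝ)) :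
    ∃ h ∈ Z, θ ^ 2 * (L.card : ℝ) * (Z.card : ℝ) ≤
      ∑ k ∈ Z, ((L.filter fun i => al i k ∧ al i h).card : ℝ) := by
  classical
  by_contra hcon
  push Not at hcon
  have hZ0 : (0 : ℝ) < Z.card := by exact_mod_cast hZ.card_pos
  have hL0 : (0 : ℝ) < L.card := by exact_mod_cast hL.card_pos
  have h1 : ∑ h ∈ Z, ∑ k ∈ Z, ((L.filter fun i => al i k ∧ al i h).card : ℝ) =
      ∑ i ∈ L, ((Z.filter fun k => al i k).card : ℝ) ^ 2 := by
    have e1 : ∀ h k, ((L.filter fun i => al i k ∧ al i h).card : ℝ) =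
        ∑ i ∈ L, (if al i k then (1 : ℝ) else 0) * (if al i h then (1 : ℝ) else 0) := by
      intro h k
      rw [Finset.card_filter, Nat.cast_sum]
      refine Finset.sum_congr rfl fun i _ => ?_
      by_cases a : al i k <;> by_cases b : al i h <;> simp [a, b]
    have e2 : ∀ i, ((Z.filter fun k => al i k).card : ℝ) =
        ∑ k ∈ Z, (if al i k then (1 : ℝ) else 0) := by
      intro i
      rw [Finset.card_filter, Nat.cast_sum]
      refine Finset.sum_congr rfl fun k _ => ?_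
      by_cases a : al i k <;> simp [a]
    calc ∑ h ∈ Z, ∑ k ∈ Z, ((L.filter fun i => al i k ∧ al i h).card : ℝ)
        = ∑ h ∈ Z, ∑ k ∈ Z, ∑ i ∈ L,
            (if al i k then (1 : ℝ) else 0) * (if al i h then (1 : ℝ) else 0) :=
          Finset.sum_congr rfl fun h _ => Finset.sum_congr rfl fun k _ => e1 h k
      _ = ∑ h ∈ Z, ∑ i ∈ L, ∑ k ∈ Z,
            (if al i k then (1 : ℝ) else 0) * (if al i h then (1 : ℝ) else 0) :=
          Finset.sum_congr rfl fun h _ => Finset.sum_comm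
      _ = ∑ i ∈ L, ∑ h ∈ Z, ∑ k ∈ Z,
            (if al i k then (1 : ℝ) else 0) * (if al i h then (1 : ℝ) else 0) := Finset.sum_comm
      _ = ∑ i ∈ L, ((Z.filter fun k => al i k).card : ℝ) ^ 2 := by
          refine Finset.sum_congr rfl fun i _ => ?_
          rw [e2, sq, Finset.sum_mul_sum, Finset.sum_comm]
  have h2 : θ ^ 2 * (L.card : ℝ) * (Z.card : ℝ) ^ 2 ≤
      ∑ i ∈ L, ((Z.filter fun k => al i k).card : ℝ) ^ 2 := by
    calc θ ^ 2 * (L.card : ℝ) * (Z.card : ℝ) ^ 2 = ∑ i ∈ L, (θ * (Z.card : ℝ)) ^ 2 := by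
          rw [Finset.sum_const, nsmul_eq_mul]; ring
      _ ≤ _ := Finset.sum_le_sum fun i hi => by
          have := hal i hi
          have h0 : 0 ≤ θ * (Z.card : ℝ) := by positivity
          gcongr
  have h3 : ∑ h ∈ Z, ∑ k ∈ Z, ((L.filter fun i => al i k ∧ al i h).card : ℝ) <
      ∑ h ∈ Z, θ ^ 2 * (L.card : ℝ) * (Z.card : ℝ) :=
    Finset.sum_lt_sum_of_nonempty hZ fun h hh => hcon h hh
  rw [Finset.sum_const, nsmul_eq_mul] at h3
  rw [h1] at h3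
  nlinarith

/-- a line `i` with many partners in its classes -/
theorem fin2 (L Z : Finset ℕ) (T : ℕ → Finset ℕ) (hT : ∀ k ∈ Z, T k ⊆ L)
    (near : ℕ → ℕ → ℕ → Prop) [∀ k i, DecidablePred (near k i)] {M a : ℝ} (hM : 0 < M)
    (ha : 0 ≤ a) (hL : L.Nonempty) (hZ : Z.Nonempty)
    (hlab : ∀ k ∈ Z, ∃ lab : ℕ → ℕ, (∀ t ∈ T k, ∀ t' ∈ T k, lab t = lab t' → near k t t') ∧
      (((T k).image lab).card : ℝ) ≤ M)
    (hsum : a ≤ ∑ k ∈ Z, ((T k).card : ℝ)) :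
    ∃ i ∈ L, a ^ 2 ≤ (Z.card : ℝ) * M * (L.card : ℝ) *
      ∑ k ∈ Z.filter (fun k => i ∈ T k), (((T k).filter fun j => near k i j).card : ℝ) := by
  classical
  have hZ0 : (0 : ℝ) < Z.card := by exact_mod_cast hZ.card_pos
  have hL0 : (0 : ℝ) < L.card := by exact_mod_cast hL.card_pos
  -- one height
  have h1 : ∀ k ∈ Z, ((T k).card : ℝ) ^ 2 ≤
      M * ∑ i ∈ T k, (((T k).filter fun j => near k i j).card : ℝ) := by
    intro k hk
    obtain ⟨lab, l1, l2⟩ := hlab k hk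
    have e1 : ((T k).card : ℝ) = ∑ c ∈ (T k).image lab,
        (((T k).filter fun i => lab i = c).card : ℝ) := by
      have : (T k).card = ∑ c ∈ (T k).image lab, ((T k).filter fun i => lab i = c).card :=
        Finset.card_eq_sum_card_fiberwise fun i hi => Finset.mem_image_of_mem _ hi
      exact_mod_cast this
    have e2 : ∑ c ∈ (T k).image lab, (((T k).filter fun i => lab i = c).card : ℝ) ^ 2 ≤
        ∑ i ∈ T k, (((T k).filter fun j => near k i j).card : ℝ) := by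
      have e3 : ∑ i ∈ T k, (((T k).filter fun j => lab j = lab i).card : ℝ) =
          ∑ c ∈ (T k).image lab, ∑ i ∈ (T k).filter (fun i => lab i = c),
            (((T k).filter fun j => lab j = lab i).card : ℝ) :=
        (Finset.sum_fiberwise_of_maps_to (fun i hi => Finset.mem_image_of_mem _ hi) _).symm
      calc ∑ c ∈ (T k).image lab, (((T k).filter fun i => lab i = c).card : ℝ) ^ 2
          = ∑ i ∈ T k, (((T k).filter fun j => lab j = lab i).card : ℝ) := by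
            rw [e3]
            refine Finset.sum_congr rfl fun c _ => ?_
            rw [sq, ← nsmul_eq_mul, ← Finset.sum_const]
            refine Finset.sum_congr rfl fun i hi => ?_
            rw [(Finset.mem_filter.1 hi).2]
        _ ≤ _ := Finset.sum_le_sum fun i hi => by
            refine mod_cast Finset.card_le_card ?_
            intro j hj
            obtain ⟨j1, j2⟩ := Finset.mem_filter.1 hj
            exact Finset.mem_filter.2 ⟨j1, l1 i hi j j1 j2.symm⟩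
    calc ((T k).card : ℝ) ^ 2
        = (∑ c ∈ (T k).image lab, (((T k).filter fun i => lab i = c).card : ℝ)) ^ 2 := by rw [e1]
      _ ≤ (((T k).image lab).card : ℝ) *
          ∑ c ∈ (T k).image lab, (((T k).filter fun i => lab i = c).card : ℝ) ^ 2 :=
          sq_sum_le_card_mul_sum_sq
      _ ≤ M * ∑ i ∈ T k, (((T k).filter fun j => near k i j).card : ℝ) :=
          mul_le_mul l2 e2 (Finset.sum_nonneg fun c _ => sq_nonneg _) hM.le
  -- all heights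
  have h2 : a ^ 2 ≤ (Z.card : ℝ) * (M * ∑ k ∈ Z, ∑ i ∈ T k,
      (((T k).filter fun j => near k i j).card : ℝ)) := by
    calc a ^ 2 ≤ (∑ k ∈ Z, ((T k).card : ℝ)) ^ 2 := by gcongr
      _ ≤ (Z.card : ℝ) * ∑ k ∈ Z, ((T k).card : ℝ) ^ 2 := sq_sum_le_card_mul_sum_sq
      _ ≤ (Z.card : ℝ) * ∑ k ∈ Z, M * ∑ i ∈ T k, (((T k).filter fun j => near k i j).card : ℝ) :=
          mul_le_mul_of_nonneg_left (Finset.sum_le_sum h1) hZ0.le
      _ = _ := by rw [← Finset.mul_sum]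
  -- swap
  have h3 : ∑ k ∈ Z, ∑ i ∈ T k, (((T k).filter fun j => near k i j).card : ℝ) =
      ∑ i ∈ L, ∑ k ∈ Z.filter (fun k => i ∈ T k),
        (((T k).filter fun j => near k i j).card : ℝ) := by
    have e1 : ∀ k ∈ Z, ∑ i ∈ T k, (((T k).filter fun j => near k i j).card : ℝ) =
        ∑ i ∈ L, if i ∈ T k then (((T k).filter fun j => near k i j).card : ℝ) else 0 := by
      intro k hk
      rw [← Finset.sum_filter]
      refine Finset.sum_congr ?_ fun _ _ => rfl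
      ext i
      simp only [Finset.mem_filter]
      exact ⟨fun h => ⟨hT k hk h, h⟩, fun h => h.2⟩
    rw [Finset.sum_congr rfl e1, Finset.sum_comm]
    refine Finset.sum_congr rfl fun i _ => ?_
    rw [Finset.sum_filter]
  by_contra hcon
  push Not at hcon
  have h4 : ∑ i ∈ L, (Z.card : ℝ) * M * (L.card : ℝ) * ∑ k ∈ Z.filter (fun k => i ∈ T k),
        (((T k).filter fun j => near k i j).card : ℝ) < ∑ i ∈ L, a ^ 2 :=
    Finset.sum_lt_sum_of_nonempty hL hcon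
  rw [← Finset.mul_sum, ← h3, Finset.sum_const, nsmul_eq_mul] at h4
  have h5 : (L.card : ℝ) * ((Z.card : ℝ) * (M * ∑ k ∈ Z, ∑ i ∈ T k,
      (((T k).filter fun j => near k i j).card : ℝ))) < (L.card : ℝ) * a ^ 2 := by
    refine lt_of_eq_of_lt ?_ h4
    ring
  have h6 := lt_of_mul_lt_mul_left h5 hL0.le
  linarith

/-- a popular label -/
theorem fin3 (K : Finset ℕ) (J : ℕ → Finset ℕ) (lab : ℕ → ℕ) (C : Finset ℕ) {N m a : ℝ}
    (hN : (C.card : ℝ) ≤ N) (hm : 0 ≤ m) (hC : ∀ k ∈ K, ∀ j ∈ J k, lab j ∈ C)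
    (hJ : ∀ k ∈ K, ∀ c ∈ C, (((J k).filter fun j => lab j = c).card : ℝ) ≤ m)
    (hsum : a ≤ ∑ k ∈ K, ((J k).card : ℝ)) (ha : 0 < a) :
    ∃ c ∈ C, a ≤ N * (m * ((K.filter fun k => ∃ j ∈ J k, lab j = c).card : ℝ)) := by
  classical
  have h1 : ∑ k ∈ K, ((J k).card : ℝ) ≤
      ∑ c ∈ C, m * ((K.filter fun k => ∃ j ∈ J k, lab j = c).card : ℝ) := by
    calc ∑ k ∈ K, ((J k).card : ℝ)
        = ∑ k ∈ K, ∑ c ∈ C, (((J k).filter fun j => lab j = c).card : ℝ) := by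
          refine Finset.sum_congr rfl fun k hk => ?_
          have : (J k).card = ∑ c ∈ C, ((J k).filter fun i => lab i = c).card :=
            Finset.card_eq_sum_card_fiberwise fun i hi => hC k hk i hi
          exact_mod_cast this
      _ = ∑ c ∈ C, ∑ k ∈ K, (((J k).filter fun j => lab j = c).card : ℝ) := Finset.sum_comm
      _ ≤ ∑ c ∈ C, m * ((K.filter fun k => ∃ j ∈ J k, lab j = c).card : ℝ) := by
          refine Finset.sum_le_sum fun c hc => ?_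
          have e1 : ∀ k ∈ K, (((J k).filter fun j => lab j = c).card : ℝ) ≤
              if (∃ j ∈ J k, lab j = c) then m else 0 := by
            intro k hk
            split_ifs with h
            · exact hJ k hk c hc
            · push Not at h
              have : (J k).filter (fun j => lab j = c) = ∅ :=
                Finset.filter_eq_empty_iff.2 fun j hj => h j hj
              rw [this]
              simp
          refine (Finset.sum_le_sum e1).trans (le_of_eq ?_)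
          rw [← Finset.sum_filter, Finset.sum_const, nsmul_eq_mul, mul_comm]
  by_contra hcon
  push Not at hcon
  rcases C.eq_empty_or_nonempty with rfl | hne
  · simp at h1
    linarith
  · have hC0 : (0 : ℝ) < C.card := by exact_mod_cast hne.card_pos
    have hN0 : 0 < N := hC0.trans_le hN
    have h2 : ∑ c ∈ C, N * (m * ((K.filter fun k => ∃ j ∈ J k, lab j = c).card : ℝ)) <
        ∑ c ∈ C, a := Finset.sum_lt_sum_of_nonempty hne hcon
    rw [← Finset.mul_sum, Finset.sum_const, nsmul_eq_mul] at h2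
    have h3 : a ≤ ∑ c ∈ C, m * ((K.filter fun k => ∃ j ∈ J k, lab j = c).card : ℝ) :=
      hsum.trans h1
    have h4 : N * a ≤ N * ∑ c ∈ C, m * ((K.filter fun k => ∃ j ∈ J k, lab j = c).card : ℝ) :=
      mul_le_mul_of_nonneg_left h3 hN0.le
    have h5 : (C.card : ℝ) * a ≤ N * a := mul_le_mul_of_nonneg_right hN ha.le
    linarith

end Crest.Agent.R116.CD120
end

-- ▼ part R116/CD1b_120
section

/-!
# R116, FACT [CD] (helper120), part 2: the pin lemma over `RModel`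
-/

set_option autoImplicit false
set_option linter.unusedVariables false
set_option linter.unusedSectionVars false

open Filter Topology Finset

namespace Crest.Agent.R116.CD120

open Crest.Agent.R138.Ex926 (Base U)
open Crest.Agent.R136.Gf356

variable {κ : Type} {B : Base} {G : ℕ → RCfg κ} {Leg : Set (κ → ℝ)} {ν : (κ → ℝ) → ℝ}
  {σ R D : ℝ}

/-- **the pin lemma**: one line `i`, one height `h`, partners `j k` of `i` (box `p`, not bad) at
many heights `k` of `i`, all alive at `h` and all in one class `r1` at the height `h` -/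
theorem pin (H : RModel B G σ R Leg ν D) {p pf q0 r1 : κ → ℝ} (hp : p ∈ Leg) (hpf : pf ∈ Leg)
    (hq0 : q0 ∈ Leg) (hr1 : r1 ∈ Leg) (hqr : ∀ j, q0 j ≤ r1 j)
    (hdec : ν q0 - ν r1 ≤ ν p - ν pf) {ε C3 : ℝ} (hε : 0 < ε) (hC3 : 0 < C3)
    (bad : ℕ → ℕ → ℕ → ℕ → Prop)
    (hbad : ∀ᶠ n in (U : Filter ℕ), ∀ i k, (i, k) ∈ (G n).I → ∀ T ⊆ (G n).box p (D ^ 5 * ε) i k,
      (∀ j ∈ T, bad n k i j) → (T.card : ℝ) ≤ B.d n ^ (-ν p + 6 * ε))
    (hbdd : ∀ᶠ n in (U : Filter ℕ), ∀ k i i', (i, k) ∈ (G n).I → (i', k) ∈ (G n).I →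
      (G n).loose q0 ε k i i')
    (hcls : ∀ᶠ n in (U : Filter ℕ), ∀ k h i j j', (i, k) ∈ (G n).I → (j, k) ∈ (G n).I →
      (j', k) ∈ (G n).I → (i, h) ∈ (G n).I → (j, h) ∈ (G n).I → (j', h) ∈ (G n).I →
      (G n).loose p (D ^ 5 * ε) k i j → (G n).loose p (D ^ 5 * ε) k i j' →
      (G n).loose r1 (D ^ 5 * ε) h j j' → (G n).loose pf (C3 * ε) k j j') :
    ∀ᶠ n in (U : Filter ℕ), ∃ (i h : ℕ) (K : Finset ℕ) (j : ℕ → ℕ), (i, h) ∈ (G n).I ∧
      K ⊆ (G n).Z ∧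
      (∀ k ∈ K, (i, k) ∈ (G n).I ∧ (j k, k) ∈ (G n).I ∧ (j k, h) ∈ (G n).I ∧
        (G n).loose p (D ^ 5 * ε) k i (j k) ∧ ¬ bad n k i (j k)) ∧
      (∀ k ∈ K, ∀ k' ∈ K, (G n).loose r1 (D ^ 5 * ε) h (j k) (j k')) ∧
      B.d n ^ ((D ^ 2 + 7 + D * C3) * ε) * ((G n).Z.card : ℝ) ≤ (K.card : ℝ) := by
  classical
  have hD := H.D1
  have hD0 : 0 < D := by linarith
  have hC3ε : 0 < C3 * ε := by positivity
  filter_upwards [H.line ε hε, H.exists_lab p hp hε, H.exists_lab_loose q0 r1 hq0 hr1 hqr hε,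
    H.up pf hpf (C3 * ε) hC3ε, ev_const_le B hε 2, hbad, hbdd, hcls]
    with n hline hlabp hlabr hup h2 hbadn hbddn hclsn
  have hpow : ∀ t : ℝ, 0 < B.d n ^ t := fun t => rpos B n t
  obtain ⟨⟨i1, k1⟩, hI1⟩ := H.nonempty n
  have hLne : (G n).L.Nonempty := ⟨i1, H.memL hI1⟩
  have hZne : (G n).Z.Nonempty := ⟨k1, H.memZ hI1⟩
  have hL0 : (0 : ℝ) < (G n).L.card := by exact_mod_cast hLne.card_pos
  have hZ0 : (0 : ℝ) < (G n).Z.card := by exact_mod_cast hZne.card_pos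
  -- the height `h`
  obtain ⟨h, hh, hsum⟩ := fin1 (G n).L (G n).Z (fun i k => (i, k) ∈ (G n).I) (hpow ε) hLne hZne
    (by intro i hi; exact hline i hi)
  set T : ℕ → Finset ℕ := fun k => (G n).L.filter fun i => (i, k) ∈ (G n).I ∧ (i, h) ∈ (G n).I
    with hT
  have hTm : ∀ {k i}, i ∈ T k ↔ (i, k) ∈ (G n).I ∧ (i, h) ∈ (G n).I := by
    intro k i
    rw [hT]
    simp only [Finset.mem_filter]
    exact ⟨fun h => h.2, fun h => ⟨H.memL h.1, h⟩⟩
  have hTL : ∀ k ∈ (G n).Z, T k ⊆ (G n).L := fun k _ => Finset.filter_subset _ _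
  -- the line `i`
  obtain ⟨i, hi, hisum⟩ := fin2 (G n).L (G n).Z T hTL (fun k i j => (G n).loose p (D ^ 5 * ε) k i j)
    (M := (G n).L.card * B.d n ^ (ν p - ε)) (a := (B.d n ^ ε) ^ 2 * (G n).L.card * (G n).Z.card)
    (mul_pos hL0 (hpow _)) (by have := hpow ε; positivity) hLne hZne
    (by
      intro k hk
      obtain ⟨lab, l1, l2⟩ := hlabp k (T k) (fun t ht => H.memSlice.2 (hTm.1 ht).1) (G n).L
        (fun t _ => RCfg.box_subset_slice.trans (Finset.filter_subset _ _))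
      exact ⟨lab, l1, l2⟩)
    hsum
  set Ki := (G n).Z.filter fun k => i ∈ T k with hKi
  have hKm : ∀ {k}, k ∈ Ki → (i, k) ∈ (G n).I ∧ (i, h) ∈ (G n).I := fun hk =>
    hTm.1 (Finset.mem_filter.1 hk).2
  set E : ℝ := ∑ k ∈ Ki, (((T k).filter fun j => (G n).loose p (D ^ 5 * ε) k i j).card : ℝ) with hE
  have hElow : B.d n ^ (-ν p + 5 * ε) * ((G n).Z.card : ℝ) ≤ E := by
    have e1 : ((B.d n ^ ε) ^ 2 * ((G n).L.card : ℝ) * ((G n).Z.card : ℝ)) ^ 2 =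
        ((G n).Z.card : ℝ) * ((G n).L.card * B.d n ^ (ν p - ε)) * ((G n).L.card : ℝ) *
          (B.d n ^ (-ν p + 5 * ε) * ((G n).Z.card : ℝ)) := by
      have e2 : (B.d n ^ ε) ^ 2 * (B.d n ^ ε) ^ 2 = B.d n ^ (ν p - ε) * B.d n ^ (-ν p + 5 * ε) := by
        rw [sq, ← rpow_add', ← rpow_add', ← rpow_add']
        congr 1
        ring
      calc ((B.d n ^ ε) ^ 2 * ((G n).L.card : ℝ) * ((G n).Z.card : ℝ)) ^ 2
          = ((B.d n ^ ε) ^ 2 * (B.d n ^ ε) ^ 2) * ((G n).L.card : ℝ) ^ 2 *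
            ((G n).Z.card : ℝ) ^ 2 := by ring
        _ = _ := by rw [e2]; ring
    rw [e1] at hisum
    exact le_of_mul_le_mul_left hisum (by have := hpow (ν p - ε); positivity)
  have hih : (i, h) ∈ (G n).I := by
    by_contra hc
    have : Ki = ∅ := Finset.filter_eq_empty_iff.2 fun k _ hk => hc (hTm.1 hk).2
    rw [hE, this, Finset.sum_empty] at hElow
    have : 0 < B.d n ^ (-ν p + 5 * ε) * ((G n).Z.card : ℝ) := mul_pos (hpow _) hZ0
    linarith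
  -- the good partners
  set J : ℕ → Finset ℕ := fun k => (T k).filter fun j => (G n).loose p (D ^ 5 * ε) k i j ∧
    ¬ bad n k i j with hJ
  have hJm : ∀ {k j}, j ∈ J k → (j, k) ∈ (G n).I ∧ (j, h) ∈ (G n).I ∧
      (G n).loose p (D ^ 5 * ε) k i j ∧ ¬ bad n k i j := by
    intro k j hj
    obtain ⟨a1, a2⟩ := Finset.mem_filter.1 hj
    exact ⟨(hTm.1 a1).1, (hTm.1 a1).2, a2.1, a2.2⟩
  have hJlow : B.d n ^ (-ν p + 6 * ε) * ((G n).Z.card : ℝ) ≤ ∑ k ∈ Ki, ((J k).card : ℝ) := by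
    have e1 : ∀ k ∈ Ki, (((T k).filter fun j => (G n).loose p (D ^ 5 * ε) k i j).card : ℝ) ≤
        ((J k).card : ℝ) + B.d n ^ (-ν p + 6 * ε) := by
      intro k hk
      set A := (T k).filter fun j => (G n).loose p (D ^ 5 * ε) k i j with hA
      have s1 : A.card = (A.filter fun j => ¬ bad n k i j).card +
          (A.filter fun j => ¬ ¬ bad n k i j).card :=
        (Finset.card_filter_add_card_filter_not (s := A) (fun j => ¬ bad n k i j)).symm
      have s2 : (A.filter fun j => ¬ bad n k i j) = J k := by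
        rw [hA, Finset.filter_filter]
      have s3 : ((A.filter fun j => ¬ ¬ bad n k i j).card : ℝ) ≤ B.d n ^ (-ν p + 6 * ε) := by
        refine hbadn i k (hKm hk).1 _ ?_ ?_
        · intro j hj
          obtain ⟨b1, b2⟩ := Finset.mem_filter.1 (Finset.mem_filter.1 hj).1
          exact RCfg.mem_box.2 ⟨H.memSlice.2 (hTm.1 b1).1, b2⟩
        · intro j hj
          exact not_not.1 (Finset.mem_filter.1 hj).2
      rw [s1, s2]
      push_cast
      linarith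
    have e2 : E ≤ ∑ k ∈ Ki, ((J k).card : ℝ) + (Ki.card : ℝ) * B.d n ^ (-ν p + 6 * ε) := by
      refine (Finset.sum_le_sum e1).trans (le_of_eq ?_)
      rw [Finset.sum_add_distrib, Finset.sum_const, nsmul_eq_mul]
    have e3 : (Ki.card : ℝ) ≤ ((G n).Z.card : ℝ) := by
      exact_mod_cast Finset.card_le_card (Finset.filter_subset _ _)
    have e4 : 2 * B.d n ^ (-ν p + 6 * ε) ≤ B.d n ^ (-ν p + 5 * ε) := by
      have : B.d n ^ (-ν p + 5 * ε) = B.d n ^ (-ε) * B.d n ^ (-ν p + 6 * ε) := by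
        rw [← rpow_add']; congr 1; ring
      rw [this]
      exact mul_le_mul_of_nonneg_right h2 (hpow _).le
    have e5 := mul_le_mul_of_nonneg_right e3 (hpow (-ν p + 6 * ε)).le
    have e6 := mul_le_mul_of_nonneg_right e4 hZ0.le
    linarith
  -- labels at the height `h`
  set TT := Ki.biUnion J with hTT
  obtain ⟨lab, hlab1, hlab2⟩ := hlabr h TT
    (by
      intro j hj
      obtain ⟨k, hk, hj'⟩ := Finset.mem_biUnion.1 hj
      exact H.memSlice.2 (hJm hj').2.1)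
    (by
      intro j hj j' hj'
      obtain ⟨k, hk, hj1⟩ := Finset.mem_biUnion.1 hj
      obtain ⟨k', hk', hj1'⟩ := Finset.mem_biUnion.1 hj'
      exact hbddn h j j' (hJm hj1).2.1 (hJm hj1').2.1)
  have hmemTT : ∀ {k j}, k ∈ Ki → j ∈ J k → j ∈ TT := fun hk hj =>
    Finset.mem_biUnion.2 ⟨_, hk, hj⟩
  obtain ⟨c, hc, hpop⟩ := fin3 Ki J lab (TT.image lab) (m := B.d n ^ (-ν pf - D * (C3 * ε))) hlab2
    (hpow _).le (fun k hk j hj => Finset.mem_image_of_mem _ (hmemTT hk hj))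
    (by
      intro k hk c hc
      rcases ((J k).filter fun j => lab j = c).eq_empty_or_nonempty with he | ⟨j0, hj0⟩
      · rw [he]
        simpa using (hpow _).le
      · obtain ⟨a1, a2⟩ := Finset.mem_filter.1 hj0
        refine le_trans ?_ (hup j0 k (hJm a1).1)
        refine mod_cast Finset.card_le_card ?_
        intro j hj
        obtain ⟨b1, b2⟩ := Finset.mem_filter.1 hj
        refine RCfg.mem_box.2 ⟨H.memSlice.2 (hJm b1).1, ?_⟩
        exact hclsn k h i j0 j (hKm hk).1 (hJm a1).1 (hJm b1).1 (hKm hk).2 (hJm a1).2.1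
          (hJm b1).2.1 (hJm a1).2.2.1 (hJm b1).2.2.1
          (hlab1 j0 (hmemTT hk a1) j (hmemTT hk b1) (by rw [a2, b2])))
    hJlow (mul_pos (hpow _) hZ0)
  set K := Ki.filter fun k => ∃ j ∈ J k, lab j = c with hK
  have hKj : ∀ k, ∃ j, k ∈ K → j ∈ J k ∧ lab j = c := by
    intro k
    by_cases hk : k ∈ K
    · obtain ⟨j, h1, h2⟩ := (Finset.mem_filter.1 hk).2
      exact ⟨j, fun _ => ⟨h1, h2⟩⟩
    · exact ⟨0, fun h => absurd h hk⟩
  choose jj hjj using hKj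
  refine ⟨i, h, K, jj, hih, ?_, ?_, ?_, ?_⟩
  · exact (Finset.filter_subset _ _).trans (Finset.filter_subset _ _)
  · intro k hk
    have hk' := (Finset.mem_filter.1 hk).1
    have := hJm (hjj k hk).1
    exact ⟨(hKm hk').1, this.1, this.2.1, this.2.2.1, this.2.2.2⟩
  · intro k hk k' hk'
    have h1 := (Finset.mem_filter.1 hk).1
    have h1' := (Finset.mem_filter.1 hk').1
    exact hlab1 _ (hmemTT h1 (hjj k hk).1) _ (hmemTT h1' (hjj k' hk').1)
      (by rw [(hjj k hk).2, (hjj k' hk').2])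
  · -- the count
    have e1 : B.d n ^ (-(ν q0 - ν r1) - (D ^ 2 + 1) * ε) *
        (B.d n ^ (-ν pf - D * (C3 * ε)) * (K.card : ℝ)) =
        B.d n ^ (-(ν q0 - ν r1) - (D ^ 2 + 1) * ε + (-ν pf - D * (C3 * ε))) * (K.card : ℝ) := by
      rw [rpow_add']; ring
    rw [e1] at hpop
    have e2 : B.d n ^ (-ν p + 6 * ε) = B.d n ^ (-(ν q0 - ν r1) - (D ^ 2 + 1) * ε +
        (-ν pf - D * (C3 * ε))) * B.d n ^ ((D ^ 2 + 7 + D * C3) * ε +
          ((ν q0 - ν r1) - (ν p - ν pf))) := by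
      rw [← rpow_add']; congr 1; ring
    rw [e2, mul_assoc] at hpop
    have e3 := le_of_mul_le_mul_left hpop (hpow _)
    refine le_trans ?_ e3
    exact mul_le_mul_of_nonneg_right (rpow_anti B n (by linarith)) hZ0.le

end Crest.Agent.R116.CD120
end

-- ▼ part R116/CD0_899
section

/-!
# R116, K side, D4: the identity of the fact [CD] (helper899)

Two lines `j`, `j'` of one `C`-class, near the line `k` (slots `X, N, P`) at the heights `z`, `z'`;
all three alive at the height `h`.  Then at `h` the slot `P` of the pair `(j, j')` is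
`D |C|^2 (z - z')`, `C, D` = slots of `(k, j)` (helper120's [CD]: own motions of `D, E, B` are zero).

* `LLaw.pin_law`.
-/

set_option autoImplicit false
set_option linter.unusedVariables false
set_option linter.unusedSectionVars false

open Filter Topology Finset

namespace Crest.Agent.R116.CD899

open Crest.Agent.R138.Ex926 (Base U)
open Crest.Agent.R138.Fal658 Crest.Agent.R136.Gf356 Crest.Agent.R116.Kr710
open Crest.Agent.R116.EvL504 (comp evoS SL LvS LnS hgt)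
open Crest.Agent.R116.Tp389 (nS evo3 evo4 evo5 evo6 evo9 ev_pair)

/-! ### errors -/

section err

variable {r β : ℝ}

/-- small -/
def Sm (r β : ℝ) (K : ℕ) (v : ℝ) : Prop := |v| ≤ r * β ^ K

/-- bounded -/
def Bd (β : ℝ) (m : ℕ) (v : ℝ) : Prop := |v| ≤ β ^ m

theorem Sm.up (hr : 0 < r) (hβ : 8 ≤ β) {K K' : ℕ} {v : ℝ} (h : Sm r β K v) (hK : K ≤ K') :
    Sm r β K' v :=
  h.trans (mul_le_mul_of_nonneg_left (pow_le_pow_right₀ (by linarith) hK) hr.le)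

theorem Sm.add (hr : 0 < r) (hβ : 8 ≤ β) {K : ℕ} {u v : ℝ} (h : Sm r β K u) (h' : Sm r β K v) :
    Sm r β (K + 1) (u + v) := by
  unfold Sm at *
  have e : 0 < r * β ^ K := mul_pos hr (pow_pos (by linarith) _)
  calc |u + v| ≤ |u| + |v| := abs_add_le _ _
    _ ≤ 2 * (r * β ^ K) := by linarith
    _ ≤ β * (r * β ^ K) := mul_le_mul_of_nonneg_right (by linarith) e.le
    _ = r * β ^ (K + 1) := by rw [pow_succ]; ring

theorem Sm.neg {K : ℕ} {v : ℝ} (h : Sm r β K v) : Sm r β K (-v) := by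
  unfold Sm at *
  rwa [abs_neg]

theorem Sm.sub (hr : 0 < r) (hβ : 8 ≤ β) {K : ℕ} {u v : ℝ} (h : Sm r β K u) (h' : Sm r β K v) :
    Sm r β (K + 1) (u - v) := by
  rw [sub_eq_add_neg]
  exact h.add hr hβ h'.neg

theorem Sm.mul (hβ : 8 ≤ β) {K m : ℕ} {u v : ℝ} (h : Bd β m u) (h' : Sm r β K v) :
    Sm r β (K + m) (u * v) := by
  unfold Sm Bd at *
  rw [abs_mul]
  calc |u| * |v| ≤ β ^ m * (r * β ^ K) :=
        mul_le_mul h h' (abs_nonneg _) (pow_nonneg (by linarith) _)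
    _ = r * β ^ (K + m) := by rw [pow_add]; ring

theorem Sm.bd (hr1 : r ≤ 1) (hβ : 8 ≤ β) {K : ℕ} {v : ℝ} (h : Sm r β K v) : Bd β K v := by
  unfold Sm Bd at *
  have : 0 < β ^ K := pow_pos (by linarith) _
  nlinarith

theorem Bd.up (hβ : 8 ≤ β) {K K' : ℕ} {v : ℝ} (h : Bd β K v) (hK : K ≤ K') : Bd β K' v :=
  h.trans (pow_le_pow_right₀ (by linarith) hK)

theorem Bd.add (hβ : 8 ≤ β) {m : ℕ} {u v : ℝ} (h : Bd β m u) (h' : Bd β m v) :
    Bd β (m + 1) (u + v) := by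
  unfold Bd at *
  have e : 0 < β ^ m := pow_pos (by linarith) _
  calc |u + v| ≤ |u| + |v| := abs_add_le _ _
    _ ≤ 2 * β ^ m := by linarith
    _ ≤ β * β ^ m := mul_le_mul_of_nonneg_right (by linarith) e.le
    _ = β ^ (m + 1) := by rw [pow_succ]; ring

theorem Bd.sub (hβ : 8 ≤ β) {m : ℕ} {u v : ℝ} (h : Bd β m u) (h' : Bd β m v) :
    Bd β (m + 1) (u - v) := by
  rw [sub_eq_add_neg]
  refine h.add hβ ?_
  unfold Bd at *
  rwa [abs_neg]

theorem Bd.mul (hβ : 8 ≤ β) {m m' : ℕ} {u v : ℝ} (h : Bd β m u) (h' : Bd β m' v) :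
    Bd β (m + m') (u * v) := by
  unfold Bd at *
  rw [abs_mul, pow_add]
  exact mul_le_mul h h' (abs_nonneg _) (pow_nonneg (by linarith) _)

theorem Bd.num (hβ : 8 ≤ β) {t : ℝ} (ht : |t| ≤ 8) : Bd β 1 t := by
  unfold Bd
  rw [pow_one]
  linarith

end err

/-! ### the algebra -/

/-- **the identity, one configuration** : `c`, `c'` = slots of `(k, j)` at `z`, of `(k, j')` at
`z'`; `a`, `b`, `g` = slots of `(k, j)`, `(k, j')`, `(j, j')` at `h`; `α`, `α'` = own height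
motions of `k`. -/
theorem pin_alg {r β : ℝ} (hr : 0 < r) (hr1 : r ≤ 1) (hβ : 8 ≤ β) {K : ℕ} (hK : 1 ≤ K)
    {c c' a b g : Fin 12 → ℝ} {α α' τ : ℝ}
    (bc : ∀ s, Bd β 1 (c s)) (bc' : ∀ s, Bd β 1 (c' s)) (ba : ∀ s, Bd β 1 (a s))
    (bg : ∀ s, Bd β 1 (g s)) (bα : Bd β 1 α) (bα' : Bd β 1 α')
    (hc5 : Sm r β K (c 5)) (hc6 : Sm r β K (c 6)) (hc9 : Sm r β K (c 9)) (hc10 : Sm r β K (c 10))
    (hc5' : Sm r β K (c' 5)) (hc6' : Sm r β K (c' 6)) (hc9' : Sm r β K (c' 9))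
    (hc10' : Sm r β K (c' 10)) (g3 : Sm r β K (g 3)) (g4 : Sm r β K (g 4)) (ga0 : a 0 = 0)
    (u1 : Sm r β 1 (a 1 - c 1)) (u3 : Sm r β 1 (a 3 - c 3)) (u4 : Sm r β 1 (a 4 - c 4))
    (u5 : Sm r β 1 (a 5 - (c 5 - α * c 3))) (u6 : Sm r β 1 (a 6 - (c 6 - α * c 4)))
    (u9 : Sm r β 1 (a 9 - (c 9 - α * ((c 3 ^ 2 + c 4 ^ 2) / 2)))) (u10 : Sm r β 1 (a 10 - c 10))
    (v3 : Sm r β 1 (b 3 - c' 3)) (v4 : Sm r β 1 (b 4 - c' 4))
    (v5 : Sm r β 1 (b 5 - (c' 5 - α' * c' 3))) (v6 : Sm r β 1 (b 6 - (c' 6 - α' * c' 4)))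
    (v9 : Sm r β 1 (b 9 - (c' 9 - α' * ((c' 3 ^ 2 + c' 4 ^ 2) / 2))))
    (v10 : Sm r β 1 (b 10 - c' 10))
    (w3 : Sm r β 1 (b 3 - comp a g 3)) (w4 : Sm r β 1 (b 4 - comp a g 4))
    (w5 : Sm r β 1 (b 5 - comp a g 5)) (w6 : Sm r β 1 (b 6 - comp a g 6))
    (w9 : Sm r β 1 (b 9 - comp a g 9)) (w10 : Sm r β 1 (b 10 - comp a g 10))
    (hτ : Sm r β 2 (α - α' - τ)) :
    Sm r β (K + 40) (g 10 - c 1 * (c 3 ^ 2 + c 4 ^ 2) * τ) := by
  have k3 : comp a g 3 = a 3 + g 3 := by simp [comp]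
  have k4 : comp a g 4 = a 4 + g 4 := by simp [comp]
  have k5 : comp a g 5 = a 5 + g 5 := by simp [comp, ga0]
  have k6 : comp a g 6 = a 6 + g 6 := by simp [comp, ga0]
  have k9 : comp a g 9 = a 9 + g 9 + a 3 * g 5 + a 4 * g 6 := by simp [comp, ga0]
  have k10 : comp a g 10 = a 10 + g 10 - a 7 * g 3 - a 8 * g 4 -
      a 2 * ((g 3 ^ 2 + g 4 ^ 2) / 2) - 2 * (a 1 * (g 5 * g 3 + g 6 * g 4 - g 9)) := by
    simp [comp]
  rw [k3] at w3
  rw [k4] at w4
  rw [k5] at w5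
  rw [k6] at w6
  rw [k9] at w9
  rw [k10] at w10
  have up : ∀ {K1 K2 : ℕ} {v : ℝ}, Sm r β K1 v → K1 ≤ K2 → Sm r β K2 v :=
    fun h hk => h.up hr hβ hk
  have ad : ∀ {K1 : ℕ} {u v : ℝ}, Sm r β K1 u → Sm r β K1 v → Sm r β (K1 + 1) (u + v) :=
    fun h h' => h.add hr hβ h'
  have sb : ∀ {K1 : ℕ} {u v : ℝ}, Sm r β K1 u → Sm r β K1 v → Sm r β (K1 + 1) (u - v) :=
    fun h h' => h.sub hr hβ h'
  have ml : ∀ {K1 m : ℕ} {u v : ℝ}, Bd β m u → Sm r β K1 v → Sm r β (K1 + m) (u * v) :=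
    fun h h' => h'.mul hβ h
  -- `C` of `j'` and of `j`
  have ev : ∀ s : Fin 12, (s = 3 ∨ s = 4) → Sm r β (K + 3) (c' s - c s) := by
    intro s hs
    have h1 : Sm r β (K + 3) (((a s - c s) + g s) + ((b s - (a s + g s)) - (b s - c' s))) := by
      rcases hs with rfl | rfl
      · exact up (ad (ad (up u3 hK) g3) (up (sb w3 v3) (by omega))) (by omega)
      · exact up (ad (ad (up u4 hK) g4) (up (sb w4 v4) (by omega))) (by omega)
    have e : c' s - c s = ((a s - c s) + g s) + ((b s - (a s + g s)) - (b s - c' s)) := by ring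
    rw [e]
    exact h1
  have e3 := ev 3 (Or.inl rfl)
  have e4 := ev 4 (Or.inr rfl)
  -- `X` of `(j, j')`
  have x5 : ∀ (s t : Fin 12), Sm r β K (c t) → Sm r β K (c' t) → Sm r β (K + 3) (c' s - c s) →
      Sm r β 1 (a t - (c t - α * c s)) → Sm r β 1 (b t - (c' t - α' * c' s)) →
      Sm r β 1 (b t - (a t + g t)) → Sm r β (K + 8) (g t - τ * c s) := by
    intro s t p p' e q q' w
    have h1 : Sm r β (K + 5) (((c' t - c t) +
        ((b t - (c' t - α' * c' s)) - (a t - (c t - α * c s)))) - (b t - (a t + g t))) :=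
      up (sb (ad (sb p' p) (up (sb q' q) (by omega))) (up w (by omega))) (by omega)
    have h2 : Sm r β (K + 5) (c s * (α - α' - τ)) := up (ml (bc s) hτ) (by omega)
    have h3 : Sm r β (K + 5) (α' * (c' s - c s)) := up (ml bα' e) (by omega)
    have e' : g t - τ * c s = (((c' t - c t) +
        ((b t - (c' t - α' * c' s)) - (a t - (c t - α * c s)))) - (b t - (a t + g t))) +
        (c s * (α - α' - τ) - α' * (c' s - c s)) := by ring
    rw [e']
    exact up (ad (up h1 (by omega)) (sb h2 h3)) (by omega)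
  have e5 := x5 3 5 hc5 hc5' e3 u5 v5 w5
  have e6 := x5 4 6 hc6 hc6' e4 u6 v6 w6
  -- `N` of `(j, j')`
  have bQ : Bd β 3 (c 3 ^ 2 + c 4 ^ 2) := by
    have := ((bc 3).mul hβ (bc 3)).add hβ ((bc 4).mul hβ (bc 4))
    simpa [sq] using this
  have e9 : Sm r β (K + 20) (g 9 + τ * ((c 3 ^ 2 + c 4 ^ 2) / 2)) := by
    have h1 : Sm r β (K + 5) (((c' 9 - c 9) +
        ((b 9 - (c' 9 - α' * ((c' 3 ^ 2 + c' 4 ^ 2) / 2))) -
          (a 9 - (c 9 - α * ((c 3 ^ 2 + c 4 ^ 2) / 2))))) -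
        (b 9 - (a 9 + g 9 + a 3 * g 5 + a 4 * g 6))) :=
      up (sb (ad (sb hc9' hc9) (up (sb v9 u9) (by omega))) (up w9 (by omega))) (by omega)
    have h2 : Sm r β (K + 6) ((1 / 2 * (c 3 ^ 2 + c 4 ^ 2)) * (α - α' - τ)) := by
      have b1 : Bd β 4 (1 / 2 * (c 3 ^ 2 + c 4 ^ 2)) :=
        (Bd.num hβ (t := 1 / 2) (by rw [abs_of_pos] <;> norm_num)).mul hβ bQ
      exact up (ml b1 hτ) (by omega)
    have h3 : Sm r β (K + 10) ((1 / 2 * α') * ((c' 3 + c 3) * (c' 3 - c 3) +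
        (c' 4 + c 4) * (c' 4 - c 4))) := by
      have b1 : Bd β 2 (1 / 2 * α') :=
        (Bd.num hβ (t := 1 / 2) (by rw [abs_of_pos] <;> norm_num)).mul hβ bα'
      have b2 : Sm r β (K + 5) ((c' 3 + c 3) * (c' 3 - c 3)) :=
        up (ml ((bc' 3).add hβ (bc 3)) e3) (by omega)
      have b3 : Sm r β (K + 5) ((c' 4 + c 4) * (c' 4 - c 4)) :=
        up (ml ((bc' 4).add hβ (bc 4)) e4) (by omega)
      exact up (ml b1 (ad b2 b3)) (by omega)
    have h4 : Sm r β (K + 10) (c 3 * (g 5 - τ * c 3) + c 4 * (g 6 - τ * c 4)) :=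
      up (ad (ml (bc 3) e5) (ml (bc 4) e6)) (by omega)
    have h5 : Sm r β (K + 10) (g 5 * (a 3 - c 3) + g 6 * (a 4 - c 4)) :=
      up (ad (ml (bg 5) u3) (ml (bg 6) u4)) (by omega)
    have e' : g 9 + τ * ((c 3 ^ 2 + c 4 ^ 2) / 2) = ((((c' 9 - c 9) +
        ((b 9 - (c' 9 - α' * ((c' 3 ^ 2 + c' 4 ^ 2) / 2))) -
          (a 9 - (c 9 - α * ((c 3 ^ 2 + c 4 ^ 2) / 2))))) -
        (b 9 - (a 9 + g 9 + a 3 * g 5 + a 4 * g 6))) +
        ((1 / 2 * (c 3 ^ 2 + c 4 ^ 2)) * (α - α' - τ))) -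
        (((1 / 2 * α') * ((c' 3 + c 3) * (c' 3 - c 3) +
        (c' 4 + c 4) * (c' 4 - c 4))) + ((c 3 * (g 5 - τ * c 3) + c 4 * (g 6 - τ * c 4)) +
        (g 5 * (a 3 - c 3) + g 6 * (a 4 - c 4)))) := by ring
    rw [e']
    have s1 := ad (up h1 (show K + 5 ≤ K + 6 by omega)) h2
    have s2 := ad (up h3 (show K + 10 ≤ K + 11 by omega)) (ad h4 h5)
    exact up (sb (up s1 (show K + 6 + 1 ≤ K + 11 + 1 by omega)) s2) (by omega)
  -- `P` of `(j, j')`
  have bτ : Bd β 3 τ := by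
    have h1 : Bd β 2 (α - α') := bα.sub hβ bα'
    have h2 : Bd β 2 (α - α' - τ) := hτ.bd hr1 hβ
    have h3 := h1.sub hβ h2
    simpa using h3
  have h1 : Sm r β (K + 5) (((c' 10 - c 10) + ((b 10 - c' 10) - (a 10 - c 10))) -
      (b 10 - (a 10 + g 10 - a 7 * g 3 - a 8 * g 4 -
      a 2 * ((g 3 ^ 2 + g 4 ^ 2) / 2) - 2 * (a 1 * (g 5 * g 3 + g 6 * g 4 - g 9))))) :=
    up (sb (ad (sb hc10' hc10) (up (sb v10 u10) (by omega))) (up w10 (by omega))) (by omega)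
  have h2 : Sm r β (K + 3) (a 7 * g 3 + a 8 * g 4) :=
    up (ad (ml (ba 7) g3) (ml (ba 8) g4)) (by omega)
  have b12 : Bd β 1 (1 / 2 : ℝ) := Bd.num hβ (by rw [abs_of_pos] <;> norm_num)
  have b2 : Bd β 1 (2 : ℝ) := Bd.num hβ (by rw [abs_of_pos] <;> norm_num)
  have h3 : Sm r β (K + 5) ((1 / 2 * a 2) * (g 3 * g 3 + g 4 * g 4)) :=
    up (ml (b12.mul hβ (ba 2)) (ad (ml (bg 3) g3) (ml (bg 4) g4))) (by omega)
  have h4 : Sm r β (K + 5) ((2 * a 1) * (g 5 * g 3 + g 6 * g 4)) :=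
    up (ml (b2.mul hβ (ba 1)) (ad (ml (bg 5) g3) (ml (bg 6) g4))) (by omega)
  have h5 : Sm r β (K + 22) ((2 * a 1) * (g 9 + τ * ((c 3 ^ 2 + c 4 ^ 2) / 2))) :=
    up (ml (b2.mul hβ (ba 1)) e9) (by omega)
  have h6 : Sm r β (K + 22) ((τ * (c 3 ^ 2 + c 4 ^ 2)) * (a 1 - c 1)) :=
    up (ml (bτ.mul hβ bQ) u1) (by omega)
  have e' : g 10 - c 1 * (c 3 ^ 2 + c 4 ^ 2) * τ =
      ((((((c' 10 - c 10) + ((b 10 - c' 10) - (a 10 - c 10))) -
      (b 10 - (a 10 + g 10 - a 7 * g 3 - a 8 * g 4 -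
      a 2 * ((g 3 ^ 2 + g 4 ^ 2) / 2) - 2 * (a 1 * (g 5 * g 3 + g 6 * g 4 - g 9))))) +
      (a 7 * g 3 + a 8 * g 4)) + ((1 / 2 * a 2) * (g 3 * g 3 + g 4 * g 4))) +
      ((2 * a 1) * (g 5 * g 3 + g 6 * g 4))) -
      (((2 * a 1) * (g 9 + τ * ((c 3 ^ 2 + c 4 ^ 2) / 2))) -
        ((τ * (c 3 ^ 2 + c 4 ^ 2)) * (a 1 - c 1))) := by ring
  rw [e']
  have s1 := ad h1 (up h2 (show K + 3 ≤ K + 5 by omega))
  have s2 := ad s1 (up h3 (show K + 5 ≤ K + 5 + 1 by omega))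
  have s3 := ad s2 (up h4 (show K + 5 ≤ K + 5 + 1 + 1 by omega))
  exact up (sb (up s3 (show K + 5 + 1 + 1 + 1 ≤ K + 22 + 1 by omega)) (sb h5 h6)) (by omega)

/-! ### the law -/

section facts

variable {B : Base} {G : ℕ → RCfg (Fin 12)} {Leg : Set (Fin 12 → ℝ)} {ν : (Fin 12 → ℝ) → ℝ}
  {σ R D : ℝ} {S : Finset (Fin 12)} {own : ℕ → ℕ → ℕ → ℕ → Fin 12 → ℝ} {x y : ℝ}

section evo

variable (h0 : (0 : Fin 12) ∈ S) (hS : S ⊆ SL) (h1 : (1 : Fin 12) ∉ S) (h2 : (2 : Fin 12) ∉ S)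
  (h7 : (7 : Fin 12) ∉ S) (h8 : (8 : Fin 12) ∉ S) (a c : Fin 12 → ℝ)

include h0 hS h1 h2 h7 h8

theorem evo1 : evoS S a c 1 = c 1 := by
  simp [evoS, comp, LvS, LnS, hgt, h1, h2, h0]

theorem evo10 : evoS S a c 10 = c 10 := by
  have h3 : (3 : Fin 12) ∉ S := nS hS (by decide)
  have h4 : (4 : Fin 12) ∉ S := nS hS (by decide)
  have h5 : (5 : Fin 12) ∉ S := nS hS (by decide)
  have h6 : (6 : Fin 12) ∉ S := nS hS (by decide)
  have h9 : (9 : Fin 12) ∉ S := nS hS (by decide)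
  have h10 : (10 : Fin 12) ∉ S := nS hS (by decide)
  simp [evoS, comp, LvS, LnS, hgt, h3, h4, h5, h6, h9, h10, h0, h1, h2, h7, h8]

end evo

/-- **the identity of [CD] over `LLaw`**: `j`, `j'` in one `C`-class (slots `3, 4` at `h`), near `k`
in the slots `5, 6, 9, 10` at the heights `z`, `z'`. -/
theorem pin_law (H : RModel B G σ R Leg ν D) (L : LLaw B G S own x)
    (h1 : (1 : Fin 12) ∉ S) (h2 : (2 : Fin 12) ∉ S) (h7 : (7 : Fin 12) ∉ S)
    (h8 : (8 : Fin 12) ∉ S) (hy : 0 ≤ y) (hyx : y ≤ x) (C0 : ℝ) (hC0 : 0 < C0) :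
    ∃ C1 : ℝ, 0 < C1 ∧ ∀ ε : ℝ, 0 < ε → ∀ᶠ n in (U : Filter ℕ), ∀ h z z' k j j' : ℕ,
      (k, h) ∈ (G n).I → (j, h) ∈ (G n).I → (j', h) ∈ (G n).I → (k, z) ∈ (G n).I →
      (j, z) ∈ (G n).I → (k, z') ∈ (G n).I → (j', z') ∈ (G n).I →
      (∀ s : Fin 12, (s = 5 ∨ s = 6 ∨ s = 9 ∨ s = 10) →
        |(G n).rel z k j s| ≤ B.d n ^ (y - C0 * ε)) →
      (∀ s : Fin 12, (s = 5 ∨ s = 6 ∨ s = 9 ∨ s = 10) →
        |(G n).rel z' k j' s| ≤ B.d n ^ (y - C0 * ε)) →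
      (∀ s : Fin 12, (s = 3 ∨ s = 4) → |(G n).rel h j j' s| ≤ B.d n ^ (y - C0 * ε)) →
      |(G n).rel h j j' 10 - (G n).rel z k j 1 *
        ((G n).rel z k j 3 ^ 2 + (G n).rel z k j 4 ^ 2) * ((G n).z z - (G n).z z')| ≤
        B.d n ^ (y - C1 * ε) := by
  obtain ⟨K, hK⟩ := exists_nat_ge (max C0 1)
  have hK1 : 1 ≤ K := by
    have : (1 : ℝ) ≤ K := (le_max_right _ _).trans hK
    exact_mod_cast this
  have hKC : C0 ≤ K := (le_max_left _ _).trans hK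
  refine ⟨(K : ℝ) + 40, by positivity, fun ε hε => ?_⟩
  filter_upwards [ev_pair H L hε, L.coc ε hε] with n hn hcoc h z z' k j j' kh jh jh' kz jz kz' jz'
    hz hz' hg
  obtain ⟨g8, hn⟩ := hn
  obtain ⟨p1, p2, p3, p4, p5⟩ := hn z h k j kz jz kh jh
  obtain ⟨q1, q2, q3, q4, q5⟩ := hn z' h k j' kz' jz' kh jh'
  have gbd := (hn h h j j' jh jh' jh jh').1
  have hco := hcoc h k j j' kh jh jh'
  set β : ℝ := B.d n ^ (-ε) with hβ
  set r : ℝ := B.d n ^ y with hr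
  have hr0 : 0 < r := rpos B n _
  have hr1 : r ≤ 1 := by
    have := rpow_anti B n hy
    rwa [Real.rpow_zero] at this
  have pw : ∀ m : ℕ, r * β ^ m = B.d n ^ (y - m * ε) := by
    intro m
    rw [hr, hβ, ← Real.rpow_natCast, ← Real.rpow_mul (B.pos n).le, ← rpow_add']
    congr 1
    ring
  have bd : ∀ {v : ℝ}, |v| ≤ B.d n ^ (-ε) → Bd β 1 v := by
    intro v hv
    unfold Bd
    rwa [pow_one]
  have sx : ∀ {v : ℝ}, |v| ≤ B.d n ^ (x - ε) → Sm r β 1 v := by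
    intro v hv
    unfold Sm
    rw [pw]
    refine hv.trans (rpow_anti B n ?_)
    push_cast
    linarith
  have sK : ∀ {v : ℝ}, |v| ≤ B.d n ^ (y - C0 * ε) → Sm r β K v := by
    intro v hv
    unfold Sm
    rw [pw]
    refine hv.trans (rpow_anti B n ?_)
    have := mul_le_mul_of_nonneg_right hKC hε.le
    linarith
  have h0 := L.S0
  have hSS := L.SSL
  have e : ∀ s, s ∉ S → Sm r β 1 ((G n).rel h k j s -
      evoS S (own n k z h) ((G n).rel z k j) s) := fun s hs => sx (p5 s hs)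
  have e' : ∀ s, s ∉ S → Sm r β 1 ((G n).rel h k j' s -
      evoS S (own n k z' h) ((G n).rel z' k j') s) := fun s hs => sx (q5 s hs)
  have co : ∀ s, s ∉ S → Sm r β 1 ((G n).rel h k j' s -
      comp ((G n).rel h k j) ((G n).rel h j j') s) := fun s hs => sx (hco s hs)
  have hτ : Sm r β 2 (own n k z h 0 - own n k z' h 0 - ((G n).z z - (G n).z z')) := by
    have t1 := (sx p4).sub hr0 g8 (sx q4)
    have e1 : own n k z h 0 - own n k z' h 0 - ((G n).z z - (G n).z z') =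
        own n k z h 0 + ((G n).z h - (G n).z z) - (own n k z' h 0 + ((G n).z h - (G n).z z')) := by
      ring
    rw [e1]
    exact t1
  have n3 : (3 : Fin 12) ∉ S := nS hSS (by decide)
  have n4 : (4 : Fin 12) ∉ S := nS hSS (by decide)
  have n5 : (5 : Fin 12) ∉ S := nS hSS (by decide)
  have n6 : (6 : Fin 12) ∉ S := nS hSS (by decide)
  have n9 : (9 : Fin 12) ∉ S := nS hSS (by decide)
  have n10 : (10 : Fin 12) ∉ S := nS hSS (by decide)
  have main := pin_alg (r := r) (β := β) hr0 hr1 g8 (K := K) hK1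
    (c := (G n).rel z k j) (c' := (G n).rel z' k j') (a := (G n).rel h k j)
    (b := (G n).rel h k j') (g := (G n).rel h j j') (α := own n k z h 0)
    (α' := own n k z' h 0) (τ := (G n).z z - (G n).z z')
    (fun s => bd (p1 s)) (fun s => bd (q1 s)) (fun s => bd (p2 s)) (fun s => bd (gbd s))
    (bd (p3 0)) (bd (q3 0))
    (sK (hz 5 (by simp))) (sK (hz 6 (by simp))) (sK (hz 9 (by simp))) (sK (hz 10 (by simp)))
    (sK (hz' 5 (by simp))) (sK (hz' 6 (by simp))) (sK (hz' 9 (by simp))) (sK (hz' 10 (by simp)))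
    (sK (hg 3 (by simp))) (sK (hg 4 (by simp))) (L.relS n h k j 0 h0)
    (by have := e 1 h1; rwa [evo1 h0 hSS h1 h2 h7 h8] at this)
    (by have := e 3 n3; rwa [evo3 hSS] at this)
    (by have := e 4 n4; rwa [evo4 hSS] at this)
    (by have := e 5 n5; rwa [evo5 h0 hSS] at this)
    (by have := e 6 n6; rwa [evo6 h0 hSS] at this)
    (by have := e 9 n9; rwa [evo9 h0 hSS] at this)
    (by have := e 10 n10; rwa [evo10 h0 hSS h1 h2 h7 h8] at this)
    (by have := e' 3 n3; rwa [evo3 hSS] at this)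
    (by have := e' 4 n4; rwa [evo4 hSS] at this)
    (by have := e' 5 n5; rwa [evo5 h0 hSS] at this)
    (by have := e' 6 n6; rwa [evo6 h0 hSS] at this)
    (by have := e' 9 n9; rwa [evo9 h0 hSS] at this)
    (by have := e' 10 n10; rwa [evo10 h0 hSS h1 h2 h7 h8] at this)
    (co 3 n3) (co 4 n4) (co 5 n5) (co 6 n6) (co 9 n9) (co 10 n10) hτ
  have : |(G n).rel h j j' 10 - (G n).rel z k j 1 *
      ((G n).rel z k j 3 ^ 2 + (G n).rel z k j 4 ^ 2) * ((G n).z z - (G n).z z')| ≤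
      r * β ^ (K + 40) := main
  rw [pw] at this
  push_cast at this
  exact this

end facts

end Crest.Agent.R116.CD899
end

-- ▼ part R116/CD1_120
section

/-!
# R116, FACT [CD] (helper120), part 3: the model statement

`cd_model` : a `C`-increment (at `D` coarse) and a `D`-increment (at `C` coarse), both positive
at every step ⊢ `σ y ≤ ν (C, D fine) - ν (C, D, P fine)`.
-/

set_option autoImplicit false
set_option linter.unusedVariables false
set_option linter.unusedSectionVars false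

open Filter Topology Finset

namespace Crest.Agent.R116.CD120

open Crest.Agent.R138.Ex926 (Base U)
open Crest.Agent.R138.Fal658 Crest.Agent.R136.Gf356 Crest.Agent.R116.Kr710
open Crest.Agent.R116.EvL504 (comp evoS SL LvS LnS hgt)
open Crest.Agent.R116.Tp389 (nS evo3 evo4 ev_pair loose0)
open Crest.Agent.R116.CD899 (pin_law evo1)

/-- comparison of exponents from the small losses -/
theorem le_of_ev_small (B : Base) (α β C C0 ε0 : ℝ) (hC : 0 ≤ C) (hC0 : 0 ≤ C0) (h0 : 0 < ε0)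
    (h : ∀ ε : ℝ, 0 < ε → ε ≤ ε0 → ∀ᶠ n in (U : Filter ℕ),
      B.d n ^ (α + C * ε) ≤ C0 * B.d n ^ (β - C * ε)) : β ≤ α := by
  refine le_of_ev B α β C C0 fun ε hε => ?_
  filter_upwards [h (min ε ε0) (lt_min hε h0) (min_le_right _ _)] with n hn
  have e1 : C * min ε ε0 ≤ C * ε := mul_le_mul_of_nonneg_left (min_le_left _ _) hC
  calc B.d n ^ (α + C * ε) ≤ B.d n ^ (α + C * min ε ε0) := rpow_anti B n (by linarith)
    _ ≤ C0 * B.d n ^ (β - C * min ε ε0) := hn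
    _ ≤ C0 * B.d n ^ (β - C * ε) :=
        mul_le_mul_of_nonneg_left (rpow_anti B n (by linarith)) hC0

variable {B : Base} {G : ℕ → RCfg (Fin 12)} {Leg : Set (Fin 12 → ℝ)} {ν : (Fin 12 → ℝ) → ℝ}
  {σ R D : ℝ} {S : Finset (Fin 12)} {own : ℕ → ℕ → ℕ → ℕ → Fin 12 → ℝ} {x y : ℝ}

/-- **FACT [CD], one threshold** -/
theorem cd_thr (H : RModel B G σ R Leg ν D) (L : LLaw B G S own x)
    (h1 : (1 : Fin 12) ∉ S) (h2 : (2 : Fin 12) ∉ S) (h7 : (7 : Fin 12) ∉ S)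
    (h8 : (8 : Fin 12) ∉ S) (hy : 0 < y) (hyx : y ≤ x) (hyR : y ≤ R)
    {p pf q0 r1 r2 : Fin 12 → ℝ} (hp : p ∈ Leg) (hpf : pf ∈ Leg) (hq0 : q0 ∈ Leg)
    (hr1 : r1 ∈ Leg) (hr2 : r2 ∈ Leg)
    (pfin : ∀ s : Fin 12, (s = 5 ∨ s = 6 ∨ s = 9 ∨ s = 10) → y ≤ p s)
    (pff : ∀ s, pf s ≤ p s ∨ pf s ≤ 0 ∨ ((s = 1 ∨ s = 3 ∨ s = 4) ∧ pf s ≤ y))
    (hq : ∀ s, q0 s ≤ 0) (hqr : ∀ s, q0 s ≤ r1 s) (r11 : y ≤ r1 1) (r13 : y ≤ r1 3)
    (r14 : y ≤ r1 4) (hrr : ∀ s, r1 s ≤ r2 s) (r210 : y ≤ r2 10)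
    (hdec : ν q0 - ν r1 ≤ ν p - ν pf) {t : ℝ} (ht : 0 < t) (hty : 3 * t < y)
    {pc pd : Fin 12 → ℝ} (hpc : pc ∈ Leg) (hpd : pd ∈ Leg)
    (c1 : ∀ s, pc s ≤ p s ∨ pc s ≤ 0 ∨ ((s = 3 ∨ s = 4) ∧ pc s ≤ t)) (c2 : ν pc < ν p)
    (d1 : ∀ s, pd s ≤ p s ∨ pd s ≤ 0 ∨ (s = 1 ∧ pd s ≤ t)) (d2 : ν pd < ν p) :
    σ * (y - 3 * t) ≤ ν r1 - ν r2 := by
  classical
  have hD := H.D1
  have hD0 : 0 < D := by linarith
  have hσ := H.σ_nonneg
  -- constants
  have hD5 : 1 ≤ D ^ 5 := one_le_pow₀ hD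
  have hD10 : D ^ 5 ≤ D ^ 10 := pow_le_pow_right₀ hD (by norm_num)
  have hD7 : D ^ 5 ≤ D ^ 7 := pow_le_pow_right₀ hD (by norm_num)
  obtain ⟨C1, hC1, hlaw⟩ := pin_law H L h1 h2 h7 h8 hy.le hyx (D ^ 10) (by positivity)
  set C3 : ℝ := D ^ 7 + 1 with hC3d
  have hC3 : 0 < C3 := by positivity
  set C4 : ℝ := C1 + D ^ 10 + 1 with hC4d
  have hC4 : 0 < C4 := by positivity
  set g : ℝ := min (ν p - ν pc) (ν p - ν pd) with hg
  have hg0 : 0 < g := lt_min (by linarith) (by linarith)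
  set ε0 : ℝ := min (g / (D ^ 6 + 7)) ((y - 3 * t) / C4) with hε0d
  have hε0 : 0 < ε0 := lt_min (by positivity) (div_pos (by linarith) hC4)
  set C5 : ℝ := (D ^ 2 + 7 + D * C3) + (σ * C4 + (D ^ 2 + 1) * D ^ 5 + 1) with hC5
  have hC50 : 0 ≤ C5 := by positivity
  have key := le_of_ev_small B 0 (-(ν r1 - ν r2) + σ * (y - 3 * t)) C5 1 ε0 hC50 zero_le_one hε0 (by
    intro ε hε hεε
    have hεg : (D ^ 6 + 7) * ε ≤ g := by
      have : ε ≤ g / (D ^ 6 + 7) := hεε.trans (min_le_left _ _)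
      rw [le_div_iff₀ (by positivity)] at this
      linarith
    have hεX : C4 * ε ≤ y - 3 * t := by
      have : ε ≤ (y - 3 * t) / C4 := hεε.trans (min_le_right _ _)
      rw [le_div_iff₀ hC4] at this
      linarith
    have hX0 : 0 ≤ y - 3 * t - C4 * ε := by linarith
    have hXR : y - 3 * t - C4 * ε ≤ R := by
      have : 0 < C4 * ε := by positivity
      linarith
    have hD5ε : 0 < D ^ 5 * ε := by positivity
    -- the pin
    have hpin := pin H hp hpf hq0 hr1 hqr hdec hε hC3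
      (fun n k i j => |(G n).rel k i j 1| < B.d n ^ t ∨
        (|(G n).rel k i j 3| < B.d n ^ t ∧ |(G n).rel k i j 4| < B.d n ^ t))
      (by
        filter_upwards [H.up pc hpc (D ^ 5 * ε) hD5ε, H.up pd hpd (D ^ 5 * ε) hD5ε, L.bd ε hε,
          ev_const_le B hε 2] with n hc hd hbd hn2
        intro i k hik T hT hTb
        have hpow : ∀ t : ℝ, 0 < B.d n ^ t := fun t => rpos B n t
        have hsub : T ⊆ (G n).box pd (D ^ 5 * ε) i k ∪ (G n).box pc (D ^ 5 * ε) i k := by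
          intro j hj
          obtain ⟨b1, b2⟩ := RCfg.mem_box.1 (hT hj)
          have hjk : (j, k) ∈ (G n).I := (RCfg.mem_slice.1 b1).2
          have hsm : ∀ {v : ℝ}, |v| ≤ B.d n ^ (-ε) → ∀ {u : ℝ}, u ≤ 0 →
              |v| ≤ (G n).ρ ^ (u - D ^ 5 * ε) := fun hv _ hu => loose0 H hε hD5 hu hv
          rcases hTb j hj with h | ⟨h3, h4⟩
          · refine Finset.mem_union_left _ (RCfg.mem_box.2 ⟨b1, fun s => ?_⟩)
            rcases d1 s with e | e | ⟨rfl, e⟩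
            · refine (b2 s).trans ?_
              rw [H.base n]
              exact rpow_anti B n (by linarith)
            · exact hsm (hbd k i j hik hjk s) e
            · rw [H.base n]
              exact h.le.trans (rpow_anti B n (by linarith))
          · refine Finset.mem_union_right _ (RCfg.mem_box.2 ⟨b1, fun s => ?_⟩)
            rcases c1 s with e | e | ⟨e', e⟩
            · refine (b2 s).trans ?_
              rw [H.base n]
              exact rpow_anti B n (by linarith)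
            · exact hsm (hbd k i j hik hjk s) e
            · rw [H.base n]
              rcases e' with rfl | rfl
              · exact h3.le.trans (rpow_anti B n (by linarith))
              · exact h4.le.trans (rpow_anti B n (by linarith))
        have e6 : D * (D ^ 5 * ε) = D ^ 6 * ε := by ring
        have e1 : (T.card : ℝ) ≤ B.d n ^ (-ν pd - D * (D ^ 5 * ε)) +
            B.d n ^ (-ν pc - D * (D ^ 5 * ε)) := by
          calc (T.card : ℝ) ≤ (((G n).box pd (D ^ 5 * ε) i k ∪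
                (G n).box pc (D ^ 5 * ε) i k).card : ℝ) := by
                exact_mod_cast Finset.card_le_card hsub
            _ ≤ (((G n).box pd (D ^ 5 * ε) i k).card : ℝ) +
                (((G n).box pc (D ^ 5 * ε) i k).card : ℝ) := by
                exact_mod_cast Finset.card_union_le _ _
            _ ≤ _ := add_le_add (hd i k hik) (hc i k hik)
        have e2 : B.d n ^ (-ν pd - D * (D ^ 5 * ε)) ≤ B.d n ^ (-ν p + 7 * ε) := by
          rw [e6]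
          refine rpow_anti B n ?_
          have : g ≤ ν p - ν pd := min_le_right _ _
          linarith
        have e3 : B.d n ^ (-ν pc - D * (D ^ 5 * ε)) ≤ B.d n ^ (-ν p + 7 * ε) := by
          rw [e6]
          refine rpow_anti B n ?_
          have : g ≤ ν p - ν pc := min_le_left _ _
          linarith
        have e4 : 2 * B.d n ^ (-ν p + 7 * ε) ≤ B.d n ^ (-ν p + 6 * ε) := by
          have : B.d n ^ (-ν p + 6 * ε) = B.d n ^ (-ε) * B.d n ^ (-ν p + 7 * ε) := by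
            rw [← rpow_add']; congr 1; ring
          rw [this]
          exact mul_le_mul_of_nonneg_right hn2 (hpow _).le
        linarith)
      (by
        filter_upwards [L.bd ε hε] with n hbd
        intro k i i' hi hi' s
        rw [H.base n]
        exact (hbd k i i' hi hi' s).trans (rpow_anti B n (by linarith [hq s])))
      (by
        filter_upwards [H.symm p hp (D ^ 5 * ε) hD5ε, H.tri p hp (D ^ 6 * ε) (by positivity),
          ev_pair H L hε, L.bd ε hε] with n hsy htr hev hbd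
        intro k h i j j' ik jk jk' ih jh jh' lj lj' lr s
        obtain ⟨g8, hev⟩ := hev
        obtain ⟨g1, g2, g3, g4, g5⟩ := hev h k j j' jh jh' jk jk'
        have a1 := hsy k i j ik jk lj
        have e6 : D * (D ^ 5 * ε) = D ^ 6 * ε := by ring
        rw [e6] at a1
        have a2 : (G n).loose p (D ^ 6 * ε) k i j' := H.loose_mono (fun _ => le_rfl) (by
          have : D ^ 5 ≤ D ^ 6 := pow_le_pow_right₀ hD (by norm_num)
          exact mul_le_mul_of_nonneg_right this hε.le) lj'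
        have a3 := htr k j i j' jk ik jk' a1 a2
        have e7 : D * (D ^ 6 * ε) = D ^ 7 * ε := by ring
        rw [e7] at a3
        have f : ∀ s : Fin 12, s ∉ S → evoS S (own n j h k) ((G n).rel h j j') s =
            (G n).rel h j j' s → y ≤ r1 s → pf s ≤ y →
            |(G n).rel k j j' s| ≤ (G n).ρ ^ (pf s - C3 * ε) := by
          intro s hs he hrs hps
          have b1 := g5 s hs
          rw [he] at b1
          have b2 := lr s
          rw [H.base n] at b2 ⊢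
          have b3 : |(G n).rel k j j' s| ≤ |(G n).rel k j j' s - (G n).rel h j j' s| +
              |(G n).rel h j j' s| := by
            have := abs_add_le ((G n).rel k j j' s - (G n).rel h j j' s) ((G n).rel h j j' s)
            rwa [sub_add_cancel] at this
          refine b3.trans (pwK2 B (s := pf s) (K := C3) (K1 := 1) (K2 := D ^ 5) hε g8
            (b1.trans (rpow_anti B n (by linarith)))
            (b2.trans (rpow_anti B n (by linarith))) ?_ ?_)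
          · rw [hC3d]
            linarith
          · rw [hC3d]
            linarith
        rcases pff s with e | e | ⟨e', e⟩
        · refine (a3 s).trans ?_
          rw [H.base n]
          refine rpow_anti B n ?_
          have : D ^ 7 * ε ≤ C3 * ε := mE hε (by rw [hC3d]; linarith)
          linarith
        · exact loose0 H hε (by rw [hC3d]; linarith) e (hbd k j j' jk jk' s)
        · rcases e' with rfl | rfl | rfl
          · exact f 1 h1 (evo1 L.S0 L.SSL h1 h2 h7 h8 _ _) r11 e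
          · exact f 3 (nS L.SSL (by decide)) (evo3 L.SSL _ _) r13 e
          · exact f 4 (nS L.SSL (by decide)) (evo4 L.SSL _ _) r14 e)
    have hD5ε' : 0 < D ^ 5 * ε := hD5ε
    filter_upwards [hpin, H.exists_lab_loose r1 r2 hr1 hr2 hrr hD5ε, hlaw ε hε,
      H.frost (y - 3 * t - C4 * ε) hX0 hXR ε hε, ev_const_le B hε 8]
      with n hpn hlab hlawn hfro h8
    obtain ⟨i, h, K, jj, hih, hKZ, hK1, hK2, hKc⟩ := hpn
    have hpow : ∀ t : ℝ, 0 < B.d n ^ t := fun t => rpos B n t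
    have hZ0 : (0 : ℝ) < (G n).Z.card := by
      exact_mod_cast Finset.card_pos.2 ⟨h, H.memZ hih⟩
    have hKne : K.Nonempty := by
      rw [← Finset.card_pos]
      have : (0 : ℝ) < (K.card : ℝ) := lt_of_lt_of_le (mul_pos (hpow _) hZ0) hKc
      exact_mod_cast this
    -- the `P`-labels
    obtain ⟨lab, l1, l2⟩ := hlab h (K.image jj)
      (by
        intro j hj
        obtain ⟨k, hk, rfl⟩ := Finset.mem_image.1 hj
        exact H.memSlice.2 (hK1 k hk).2.2.1)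
      (by
        intro j hj j' hj'
        obtain ⟨k, hk, rfl⟩ := Finset.mem_image.1 hj
        obtain ⟨k', hk', rfl⟩ := Finset.mem_image.1 hj'
        exact hK2 k hk k' hk')
    rw [Finset.image_image] at l2
    obtain ⟨k0, hk0, hfib⟩ := exists_fibre K (lab ∘ jj) hKne l2
    have hfb : ((K.filter fun k => (lab ∘ jj) k = (lab ∘ jj) k0).card : ℝ) ≤
        B.d n ^ (σ * (y - 3 * t - C4 * ε) - ε) * ((G n).Z.card : ℝ) := by
      refine le_trans ?_ (hfro k0 (hKZ hk0))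
      refine mod_cast Finset.card_le_card ?_
      intro k hk
      obtain ⟨hkK, hke⟩ := Finset.mem_filter.1 hk
      unfold RCfg.hbox
      refine Finset.mem_filter.2 ⟨hKZ hkK, ?_⟩
      rw [H.base n]
      obtain ⟨a1, a2, a3, a4, a5⟩ := hK1 k0 hk0
      obtain ⟨b1, b2, b3, b4, b5⟩ := hK1 k hkK
      -- `P` is fine
      have hP := l1 (jj k0) (Finset.mem_image_of_mem _ hk0) (jj k) (Finset.mem_image_of_mem _ hkK)
        hke.symm 10
      rw [H.base n] at hP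
      have hP' : |(G n).rel h (jj k0) (jj k) 10| ≤ B.d n ^ (y - D ^ 10 * ε) := by
        refine hP.trans (rpow_anti B n ?_)
        have : D ^ 5 * (D ^ 5 * ε) = D ^ 10 * ε := by ring
        linarith
      have hle : D ^ 5 * ε ≤ D ^ 10 * ε := mE hε hD10
      have near : ∀ {k : ℕ}, (G n).loose p (D ^ 5 * ε) k i (jj k) →
          ∀ s : Fin 12, (s = 5 ∨ s = 6 ∨ s = 9 ∨ s = 10) →
          |(G n).rel k i (jj k) s| ≤ B.d n ^ (y - D ^ 10 * ε) := by
        intro k hl s hs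
        have := hl s
        rw [H.base n] at this
        exact this.trans (rpow_anti B n (by linarith [pfin s hs]))
      have hpr : ∀ s : Fin 12, (s = 3 ∨ s = 4) →
          |(G n).rel h (jj k0) (jj k) s| ≤ B.d n ^ (y - D ^ 10 * ε) := by
        intro s hs
        have := hK2 k0 hk0 k hkK s
        rw [H.base n] at this
        refine this.trans (rpow_anti B n ?_)
        rcases hs with rfl | rfl
        · linarith
        · linarith
      have law := hlawn h k0 k i (jj k0) (jj k) hih a3 b3 a1 a2 b1 b2 (near a4) (near b4) hpr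
      set P := (G n).rel h (jj k0) (jj k) 10 with hPd
      set d := (G n).rel k0 i (jj k0) 1 with hdd
      set u := (G n).rel k0 i (jj k0) 3 with hud
      set v := (G n).rel k0 i (jj k0) 4 with hvd
      set w := (G n).z k0 - (G n).z k with hwd
      push Not at a5
      obtain ⟨a6, a7⟩ := a5
      have q1 : B.d n ^ (2 * t) ≤ u ^ 2 + v ^ 2 := by
        have e : B.d n ^ (2 * t) = B.d n ^ t * B.d n ^ t := by
          rw [← rpow_add']; congr 1; ring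
        by_cases hu : |u| < B.d n ^ t
        · have hv := a7 hu
          have : B.d n ^ t * B.d n ^ t ≤ |v| * |v| :=
            mul_le_mul hv hv (hpow _).le (abs_nonneg _)
          rw [e]
          rw [abs_mul_abs_self] at this
          nlinarith [sq_nonneg u]
        · push Not at hu
          have : B.d n ^ t * B.d n ^ t ≤ |u| * |u| :=
            mul_le_mul hu hu (hpow _).le (abs_nonneg _)
          rw [e]
          rw [abs_mul_abs_self] at this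
          nlinarith [sq_nonneg v]
      have q2 : B.d n ^ (3 * t) ≤ |d| * (u ^ 2 + v ^ 2) := by
        have e : B.d n ^ (3 * t) = B.d n ^ t * B.d n ^ (2 * t) := by
          rw [← rpow_add']; congr 1; ring
        rw [e]
        exact mul_le_mul a6 q1 (hpow _).le (abs_nonneg _)
      have q3 : |d * (u ^ 2 + v ^ 2) * w| ≤ B.d n ^ (y - (C1 + D ^ 10 + 1) * ε) := by
        have e : |d * (u ^ 2 + v ^ 2) * w| ≤ |P - d * (u ^ 2 + v ^ 2) * w| + |P| := by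
          have := abs_sub P (P - d * (u ^ 2 + v ^ 2) * w)
          have e2 : P - (P - d * (u ^ 2 + v ^ 2) * w) = d * (u ^ 2 + v ^ 2) * w := by ring
          rw [e2] at this
          linarith
        refine e.trans (pwK2 B hε h8 law hP' ?_ ?_)
        · have : (1 : ℝ) ≤ D ^ 10 := one_le_pow₀ hD
          linarith
        · linarith
      have q4 : B.d n ^ (3 * t) * |w| ≤ B.d n ^ (y - (C1 + D ^ 10 + 1) * ε) := by
        refine le_trans ?_ q3
        rw [abs_mul, abs_mul, abs_of_nonneg (by positivity : 0 ≤ u ^ 2 + v ^ 2)]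
        exact mul_le_mul_of_nonneg_right q2 (abs_nonneg _)
      have q5 : |w| ≤ B.d n ^ (y - 3 * t - C4 * ε) := by
        have e : B.d n ^ (y - (C1 + D ^ 10 + 1) * ε) =
            B.d n ^ (3 * t) * B.d n ^ (y - 3 * t - C4 * ε) := by
          rw [← rpow_add']
          congr 1
          rw [hC4d]
          ring
        rw [e] at q4
        exact le_of_mul_le_mul_left q4 (hpow _)
      rw [abs_sub_comm]
      exact q5
    -- the end
    have f1 : B.d n ^ ((D ^ 2 + 7 + D * C3) * ε) * ((G n).Z.card : ℝ) ≤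
        B.d n ^ (-(ν r1 - ν r2) - (D ^ 2 + 1) * (D ^ 5 * ε) + (σ * (y - 3 * t - C4 * ε) - ε)) *
          ((G n).Z.card : ℝ) := by
      calc B.d n ^ ((D ^ 2 + 7 + D * C3) * ε) * ((G n).Z.card : ℝ) ≤ (K.card : ℝ) := hKc
        _ ≤ _ := hfib
        _ ≤ B.d n ^ (-(ν r1 - ν r2) - (D ^ 2 + 1) * (D ^ 5 * ε)) *
            (B.d n ^ (σ * (y - 3 * t - C4 * ε) - ε) * ((G n).Z.card : ℝ)) :=
            mul_le_mul_of_nonneg_left hfb (hpow _).le
        _ = _ := by rw [rpow_add']; ring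
    have f2 := le_of_mul_le_mul_right f1 hZ0
    rw [one_mul]
    calc B.d n ^ (0 + C5 * ε) ≤ B.d n ^ ((D ^ 2 + 7 + D * C3) * ε) := by
          refine rpow_anti B n ?_
          have : 0 ≤ (σ * C4 + (D ^ 2 + 1) * D ^ 5 + 1) * ε := by positivity
          rw [hC5]
          nlinarith
      _ ≤ _ := f2
      _ ≤ B.d n ^ (-(ν r1 - ν r2) + σ * (y - 3 * t) - C5 * ε) := by
          refine rpow_anti B n ?_
          have : 0 ≤ (D ^ 2 + 7 + D * C3) * ε := by positivity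
          rw [hC5]
          nlinarith)
  linarith

/-- **FACT [CD], the model statement** -/
theorem cd_model (H : RModel B G σ R Leg ν D) (L : LLaw B G S own x)
    (h1 : (1 : Fin 12) ∉ S) (h2 : (2 : Fin 12) ∉ S) (h7 : (7 : Fin 12) ∉ S)
    (h8 : (8 : Fin 12) ∉ S) (hy : 0 < y) (hyx : y ≤ x) (hyR : y ≤ R)
    {p pf q0 r1 r2 : Fin 12 → ℝ} (hp : p ∈ Leg) (hpf : pf ∈ Leg) (hq0 : q0 ∈ Leg)
    (hr1 : r1 ∈ Leg) (hr2 : r2 ∈ Leg)
    (pfin : ∀ s : Fin 12, (s = 5 ∨ s = 6 ∨ s = 9 ∨ s = 10) → y ≤ p s)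
    (pff : ∀ s, pf s ≤ p s ∨ pf s ≤ 0 ∨ ((s = 1 ∨ s = 3 ∨ s = 4) ∧ pf s ≤ y))
    (hq : ∀ s, q0 s ≤ 0) (hqr : ∀ s, q0 s ≤ r1 s) (r11 : y ≤ r1 1) (r13 : y ≤ r1 3)
    (r14 : y ≤ r1 4) (hrr : ∀ s, r1 s ≤ r2 s) (r210 : y ≤ r2 10)
    (hdec : ν q0 - ν r1 ≤ ν p - ν pf)
    (hC : ∀ t, 0 < t → t ≤ y → ∃ pc ∈ Leg,
      (∀ s, pc s ≤ p s ∨ pc s ≤ 0 ∨ ((s = 3 ∨ s = 4) ∧ pc s ≤ t)) ∧ ν pc < ν p)
    (hDD : ∀ t, 0 < t → t ≤ y → ∃ pd ∈ Leg,
      (∀ s, pd s ≤ p s ∨ pd s ≤ 0 ∨ (s = 1 ∧ pd s ≤ t)) ∧ ν pd < ν p) :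
    σ * y ≤ ν r1 - ν r2 := by
  have hσ := H.σ_nonneg
  by_contra hcon
  push Not at hcon
  set g : ℝ := σ * y - (ν r1 - ν r2) with hg
  have hg0 : 0 < g := by linarith
  set t : ℝ := min (y / 6) (g / (6 * (σ + 1))) with ht
  have ht0 : 0 < t := lt_min (by positivity) (by positivity)
  have ht1 : t ≤ y / 6 := min_le_left _ _
  have ht2 : t ≤ g / (6 * (σ + 1)) := min_le_right _ _
  rw [le_div_iff₀ (by positivity)] at ht2
  obtain ⟨pc, m1, m2, m3⟩ := hC t ht0 (by linarith)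
  obtain ⟨pd, e1, e2, e3⟩ := hDD t ht0 (by linarith)
  have := cd_thr H L h1 h2 h7 h8 hy hyx hyR hp hpf hq0 hr1 hr2 pfin pff hq hqr r11 r13 r14 hrr r210
    hdec ht0 (by linarith) m1 e1 m2 m3 e2 e3
  nlinarith

end Crest.Agent.R116.CD120
end

-- ▼ part R116/Kh1_330
section

/-!
# R116, K side (helper330): the fact [CD] (120) for a tangent at a natural base

* `cd_tanW` : [CD] in a window, hypotheses on a few boxes only.
* `cd_tan` : **[CD] for a tangent decoupled in the groups** `{C, D}`, `{X, E}`, `{H, B}`, `z`, `P`,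
  `F`: strictly positive increments of `C` and of `D` at the base ⊢ `1 - s ≤ gP`.
* `cd_free` : the same for a tangent whose `{C, D}` decouple from the rest and whose `z` is
  alone (any other groups); `cd_facts` : in the form of 219's `FactsY.CD`.
-/

set_option autoImplicit false
set_option linter.unusedVariables false
set_option linter.unusedSectionVars false

open Filter Topology Finset

namespace Crest.Agent.R116.Kh330

open Crest.Agent.R138.Ex926 (Base U IsTan)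
open Crest.Agent.R136.Net191 Crest.Agent.R136.Qg926 Crest.Agent.R136.Gf356
open Crest.Agent.R116.ChL222 Crest.Agent.R116.PL504 Crest.Agent.R116.EvL504
open Crest.Agent.R116.WinU954 Crest.Agent.R116.Sg337 Crest.Agent.R116.WinG954
open Crest.Agent.R116.Kg330 (mem_LM)
open Crest.Agent.R116.Kr710 (LLaw)

variable {ι : ℕ → Type*} [∀ n, DecidableEq (ι n)]

/-- **[CD] in a window**, hypotheses on a few boxes -/
theorem cd_tanW {B : Base} {I J : ∀ n, Finset (ι n)}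
    {co : ∀ n, ι n → ι n → Fin 12 → ℝ}
    {C R : ℝ} {ν : (Fin 12 → ℝ) → ℝ} (hN : NProf B I J co monL C R ν) (hcoc : ∀ n, Coc (co n))
    {x : ℕ → Fin 12 → ℝ} {h : ℕ → ℝ} (hpos : ∀ l, 0 < h l) (hh : Tendsto h atTop (𝓝 0))
    {D : Set (Fin 12 → ℝ)}
    {lam : (Fin 12 → ℝ) → ℝ} (htan : IsTan (Leg monL R) D ν x h lam) (hD : LM ⊆ D)
    (hx : ∀ l, ∃ z c p : ℝ, x l = eL z c p) (i₀ : ∀ n, ι n) {s : ℝ} (hs0 : 0 ≤ s) (hs1 : s ≤ 1)
    (dens : lam (bx9 1 1 1 1 1 1 1 1 1) ≤ lam (bx9 0 1 1 1 1 1 1 1 1) +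
      lam (bx9 1 0 0 0 0 0 0 0 0))
    (frost : ∀ y, 0 ≤ y → y ≤ 1 → lam (bx9 y 0 0 0 0 0 0 0 0) ≤ -((1 - s) * y))
    (hdec : lam (bx9 1 0 0 0 0 0 0 0 0) - lam (bx9 1 1 0 1 0 0 0 0 0) ≤
      lam (bx9 1 0 1 0 1 1 1 1 0) - lam (bx9 1 1 1 1 1 1 1 1 0))
    (hC : ∀ t, 0 < t → t ≤ 1 → lam (bx9 1 0 1 t 1 1 1 1 0) < lam (bx9 1 0 1 0 1 1 1 1 0))
    (hDi : ∀ t, 0 < t → t ≤ 1 → lam (bx9 1 t 1 0 1 1 1 1 0) < lam (bx9 1 0 1 0 1 1 1 1 0)) :
    1 - s ≤ lam (bx9 1 1 0 1 0 0 0 0 0) - lam (bx9 1 1 0 1 0 0 0 1 0) := by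
  obtain ⟨k, W, E, a1, w, a3, a4, a5, a6, a7, H⟩ := exists_winG1 hN hcoc hpos hh htan
    (t := 1) one_pos (stG_live zero_le_one) ((leg_LM 1).trans hD) (σ := 1 - s) (by linarith)
    (by linarith) (by rw [const_cut0, const_eq, single_eq]; exact dens)
    (fun y h1 h2 => by rw [single_eq]; exact frost y h1 h2)
    (fun _ _ => 1) (fun _ => Base.Sub.const one_pos) i₀
  have hfr : ∀ᶠ n in (U : Filter ℕ), FrX W (cK0 monL C) 1 1 n := by
    refine Eventually.of_forall fun n => ?_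
    obtain ⟨z, c, p, e⟩ := hx (k n)
    refine FrX.of_nat w.wl (z := z) (c := c) (p := p) ?_
    rw [w.hX]
    exact e
  have L := llaw w.wl (fun s => by rw [w.htop]) a7 hfr
  have hS : ∀ j : Fin 12, j ≠ 0 → j ∉ W.S := fun j hj hm => hj (by
    rw [w.hS, Finset.mem_singleton] at hm; exact hm)
  have mem : ∀ {z D E C X B N P F : ℝ},
      (0 ≤ D ∧ 0 ≤ E ∧ 0 ≤ C ∧ 0 ≤ X ∧ 0 ≤ B ∧ 0 ≤ N ∧ 0 ≤ P ∧ 0 ≤ F) →
      (B ≤ E + C ∧ B ≤ D + X ∧ N ≤ C + X ∧ P ≤ C + B ∧ P ≤ D + N ∧ F ≤ X + B ∧ F ≤ E + N) →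
      (D ≤ 1 ∧ E ≤ 1 ∧ C ≤ 1 ∧ X ≤ 1 ∧ B ≤ 1 ∧ N ≤ 1 ∧ P ≤ 1 ∧ F ≤ 1) →
      bx9 z D E C X B N P F ∈ W.legW := fun h1 h2 h3 => (w.memL zero_le_one).2 ⟨h1, h2, h3⟩
  have nu : ∀ z D E C X B N P F : ℝ, W.nu (bx9 z D E C X B N P F) =
      lam (bx9 1 D E C X B N P F) - lam (bx9 1 1 1 1 1 1 1 1 1) := by
    intro z D E C X B N P F
    rw [w.nu_eq, cut_top, const_eq]
  have m0 : bx9 0 0 0 0 0 0 0 0 0 ∈ W.legW := mem (by norm_num) (by norm_num) (by norm_num)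
  have mp : bx9 0 0 1 0 1 1 1 1 0 ∈ W.legW := mem (by norm_num) (by norm_num) (by norm_num)
  have mpf : bx9 0 1 1 1 1 1 1 1 0 ∈ W.legW := mem (by norm_num) (by norm_num) (by norm_num)
  have mr1 : bx9 0 1 0 1 0 0 0 0 0 ∈ W.legW := mem (by norm_num) (by norm_num) (by norm_num)
  have mr2 : bx9 0 1 0 1 0 0 0 1 0 ∈ W.legW := mem (by norm_num) (by norm_num) (by norm_num)
  have key := CD120.cd_model H L (hS 1 (by decide)) (hS 2 (by decide)) (hS 7 (by decide))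
    (hS 8 (by decide)) (y := 1) one_pos le_rfl le_rfl mp mpf m0 mr1 mr2
    (fun j hj => by rcases hj with rfl | rfl | rfl | rfl <;> simp [bx9])
    (fun j => by fin_cases j <;> simp [bx9]) (fun j => by fin_cases j <;> simp [bx9])
    (fun j => by fin_cases j <;> simp [bx9]) (by simp [bx9]) (by simp [bx9]) (by simp [bx9])
    (fun j => by fin_cases j <;> simp [bx9]) (by simp [bx9])
    (by rw [nu, nu, nu, nu]; linarith)
    (fun t h1 h2 => ⟨bx9 0 0 1 t 1 1 1 1 0,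
      mem ⟨le_rfl, zero_le_one, h1.le, zero_le_one, zero_le_one, zero_le_one, zero_le_one, le_rfl⟩
        ⟨by linarith, by linarith, by linarith, by linarith, by linarith, by linarith,
          by linarith⟩
        ⟨zero_le_one, le_rfl, h2, le_rfl, le_rfl, le_rfl, le_rfl, zero_le_one⟩,
      fun j => by fin_cases j <;> simp [bx9], by rw [nu, nu]; linarith [hC t h1 h2]⟩)
    (fun t h1 h2 => ⟨bx9 0 t 1 0 1 1 1 1 0,
      mem ⟨h1.le, zero_le_one, le_rfl, zero_le_one, zero_le_one, zero_le_one, zero_le_one, le_rfl⟩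
        ⟨by linarith, by linarith, by linarith, by linarith, by linarith, by linarith,
          by linarith⟩
        ⟨h2, le_rfl, zero_le_one, le_rfl, le_rfl, le_rfl, le_rfl, zero_le_one⟩,
      fun j => by fin_cases j <;> simp [bx9], by rw [nu, nu]; linarith [hDi t h1 h2]⟩)
  rw [nu, nu] at key
  linarith


theorem bx_1 (z d E c X b H p F : ℝ) : bx9 z d E c X b H p F 1 = d := rfl
theorem bx_3 (z d E c X b H p F : ℝ) : bx9 z d E c X b H p F 3 = c := rfl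
theorem bx_4 (z d E c X b H p F : ℝ) : bx9 z d E c X b H p F 4 = c := rfl

theorem bx_ne (z d E c X b H p F d' c' : ℝ) (i : Fin 12) (h1 : i ≠ 1) (h3 : i ≠ 3)
    (h4 : i ≠ 4) : bx9 z d E c X b H p F i = bx9 z d' E c' X b H p F i := by
  fin_cases i
  · simp [bx9]
  · exact absurd rfl h1
  · simp [bx9]
  · exact absurd rfl h3
  · exact absurd rfl h4
  all_goals simp [bx9]

theorem bx_0 (z d E c X b H p F : ℝ) : bx9 z d E c X b H p F 0 = z := rfl

theorem bx_ne0 (z z' d E c X b H p F : ℝ) (i : Fin 12) (h0 : i ≠ 0) :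
    bx9 z d E c X b H p F i = bx9 z' d E c X b H p F i := by
  fin_cases i
  · exact absurd rfl h0
  all_goals simp [bx9]

/-- **[CD], group-free form**: `{C, D}` decouple from the rest, `z` is alone -/
theorem cd_free {B : Base} {I J : ∀ n, Finset (ι n)}
    {co : ∀ n, ι n → ι n → Fin 12 → ℝ}
    {C R : ℝ} {ν : (Fin 12 → ℝ) → ℝ} (hN : NProf B I J co monL C R ν) (hcoc : ∀ n, Coc (co n))
    {x : ℕ → Fin 12 → ℝ} {h : ℕ → ℝ} (hpos : ∀ l, 0 < h l) (hh : Tendsto h atTop (𝓝 0))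
    {D : Set (Fin 12 → ℝ)}
    {lam : (Fin 12 → ℝ) → ℝ} (htan : IsTan (Leg monL R) D ν x h lam) (hD : LM ⊆ D)
    (hx : ∀ l, ∃ z c p : ℝ, x l = eL z c p) (i₀ : ∀ n, ι n) {s : ℝ} (hs0 : 0 ≤ s) (hs1 : s ≤ 1)
    {φ ρ : (Fin 12 → ℝ) → ℝ} (hdec : ∀ c ∈ LM, lam c = φ c + ρ c)
    (hφ : ∀ c c' : Fin 12 → ℝ, c 1 = c' 1 → c 3 = c' 3 → c 4 = c' 4 → φ c = φ c')
    (hρ : ∀ c c' : Fin 12 → ℝ, (∀ i, i ≠ 1 → i ≠ 3 → i ≠ 4 → c i = c' i) → ρ c = ρ c')
    {rz : ℝ} (hrz : 1 - s ≤ rz)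
    (hz : ∀ c ∈ LM, ∀ c' ∈ LM, (∀ i, i ≠ 0 → c i = c' i) → lam c - lam c' = rz * (c' 0 - c 0))
    (hC : ∀ y : ℝ, 0 < y → lam (bx9 0 0 0 y 0 0 0 0 0) < lam 0)
    (hDi : ∀ y : ℝ, 0 < y → lam (bx9 0 y 0 0 0 0 0 0 0) < lam 0) :
    1 - s ≤ lam (bx9 0 1 0 1 0 0 0 0 0) - lam (bx9 0 1 0 1 0 0 0 1 0) := by
  have e0 : (0 : Fin 12 → ℝ) = bx9 0 0 0 0 0 0 0 0 0 := by
    funext k; fin_cases k <;> simp [bx9]
  have zz : ∀ z z' d E c X b H p F : ℝ, bx9 z d E c X b H p F ∈ LM → bx9 z' d E c X b H p F ∈ LM →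
      lam (bx9 z d E c X b H p F) - lam (bx9 z' d E c X b H p F) = rz * (z' - z) := by
    intro z z' d E c X b H p F h1 h2
    rw [hz _ h1 _ h2 fun i hi => bx_ne0 z z' d E c X b H p F i hi, bx_0, bx_0]
  have m0 : bx9 0 0 0 0 0 0 0 0 0 ∈ LM := mem_LM (by norm_num) (by norm_num) (by norm_num)
  have l0 : lam (bx9 0 0 0 0 0 0 0 0 0) = 0 := by
    rw [← e0]; exact htan.zero hpos (hD (e0 ▸ m0))
  have mz : ∀ y : ℝ, 0 ≤ y → y ≤ 1 → bx9 y 0 0 0 0 0 0 0 0 ∈ LM := fun y h1 h2 =>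
    mem_LM ⟨h1, le_rfl, le_rfl, le_rfl, le_rfl, le_rfl, le_rfl, le_rfl, le_rfl⟩
      ⟨by linarith, by linarith, by linarith, by linarith, by linarith, by linarith,
        by linarith, by linarith, by linarith, by linarith⟩
      ⟨h2, zero_le_one, zero_le_one, zero_le_one, zero_le_one, zero_le_one, zero_le_one,
        zero_le_one, zero_le_one⟩
  have lz : ∀ y : ℝ, 0 ≤ y → y ≤ 1 → lam (bx9 y 0 0 0 0 0 0 0 0) = -(rz * y) := by
    intro y h1 h2
    have h3 := zz 0 y 0 0 0 0 0 0 0 0 m0 (mz y h1 h2)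
    rw [l0] at h3
    linarith
  have mC : ∀ t : ℝ, 0 ≤ t → t ≤ 1 → bx9 0 0 0 t 0 0 0 0 0 ∈ LM ∧ bx9 0 t 0 0 0 0 0 0 0 ∈ LM :=
    fun t h1 h2 =>
    ⟨mem_LM ⟨le_rfl, le_rfl, le_rfl, h1, le_rfl, le_rfl, le_rfl, le_rfl, le_rfl⟩
      ⟨by linarith, by linarith, by linarith, by linarith, by linarith, by linarith,
        by linarith, by linarith, by linarith, by linarith⟩
      ⟨zero_le_one, zero_le_one, zero_le_one, h2, zero_le_one, zero_le_one, zero_le_one,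
        zero_le_one, zero_le_one⟩,
    mem_LM ⟨le_rfl, h1, le_rfl, le_rfl, le_rfl, le_rfl, le_rfl, le_rfl, le_rfl⟩
      ⟨by linarith, by linarith, by linarith, by linarith, by linarith, by linarith,
        by linarith, by linarith, by linarith, by linarith⟩
      ⟨zero_le_one, h2, zero_le_one, zero_le_one, zero_le_one, zero_le_one, zero_le_one,
        zero_le_one, zero_le_one⟩⟩
  have mt : ∀ t : ℝ, 0 ≤ t → t ≤ 1 → bx9 1 0 1 t 1 1 1 1 0 ∈ LM ∧ bx9 1 t 1 0 1 1 1 1 0 ∈ LM :=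
    fun t h1 h2 =>
    ⟨mem_LM ⟨zero_le_one, le_rfl, zero_le_one, h1, zero_le_one, zero_le_one, zero_le_one,
        zero_le_one, le_rfl⟩
      ⟨by linarith, by linarith, by linarith, by linarith, by linarith, by linarith,
        by linarith, by linarith, by linarith, by linarith⟩
      ⟨le_rfl, zero_le_one, le_rfl, h2, le_rfl, le_rfl, le_rfl, le_rfl, zero_le_one⟩,
    mem_LM ⟨zero_le_one, h1, zero_le_one, le_rfl, zero_le_one, zero_le_one, zero_le_one,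
        zero_le_one, le_rfl⟩
      ⟨by linarith, by linarith, by linarith, by linarith, by linarith, by linarith,
        by linarith, by linarith, by linarith, by linarith⟩
      ⟨le_rfl, h2, le_rfl, zero_le_one, le_rfl, le_rfl, le_rfl, le_rfl, zero_le_one⟩⟩
  have n1 : bx9 1 1 1 1 1 1 1 1 1 ∈ LM := mem_LM (by norm_num) (by norm_num) (by norm_num)
  have n2 : bx9 0 1 1 1 1 1 1 1 1 ∈ LM := mem_LM (by norm_num) (by norm_num) (by norm_num)
  have n3 : bx9 1 1 0 1 0 0 0 0 0 ∈ LM := mem_LM (by norm_num) (by norm_num) (by norm_num)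
  have n4 : bx9 1 1 0 1 0 0 0 1 0 ∈ LM := mem_LM (by norm_num) (by norm_num) (by norm_num)
  have n5 : bx9 1 1 1 1 1 1 1 1 0 ∈ LM := mem_LM (by norm_num) (by norm_num) (by norm_num)
  have n7 : bx9 0 1 0 1 0 0 0 0 0 ∈ LM := mem_LM (by norm_num) (by norm_num) (by norm_num)
  have n8 : bx9 0 1 0 1 0 0 0 1 0 ∈ LM := mem_LM (by norm_num) (by norm_num) (by norm_num)
  have n6 := (mt 0 le_rfl zero_le_one).1
  have m1 := mz 1 zero_le_one le_rfl
  have hzt := zz 0 1 1 1 1 1 1 1 1 1 n2 n1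
  have r0 : ∀ z d E c X b H p F d' c' : ℝ, ρ (bx9 z d E c X b H p F) =
      ρ (bx9 z d' E c' X b H p F) := by
    intro z d E c X b H p F d' c'
    refine hρ _ _ fun i h1 h2 h3 => ?_
    rw [bx_ne z d E c X b H p F d' c' i h1 h2 h3]
  have p0 : ∀ z d E c X b H p F z' E' X' b' H' p' F' : ℝ, φ (bx9 z d E c X b H p F) =
      φ (bx9 z' d E' c X' b' H' p' F') :=
    fun z d E c X b H p F z' E' X' b' H' p' F' => hφ _ _ (by rw [bx_1, bx_1])
      (by rw [bx_3, bx_3]) (by rw [bx_4, bx_4])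
  have key := cd_tanW hN hcoc hpos hh htan hD hx i₀ hs0 hs1
    (by rw [lz 1 zero_le_one le_rfl]; linarith)
    (fun y h1 h2 => by
      rw [lz y h1 h2]
      have := mul_le_mul_of_nonneg_right hrz h1
      linarith)
    (by
      linarith [hdec _ m1, hdec _ n3, hdec _ n6, hdec _ n5,
        p0 1 0 0 0 0 0 0 0 0 1 1 1 1 1 1 0, p0 1 1 0 1 0 0 0 0 0 1 1 1 1 1 1 0,
        r0 1 0 0 0 0 0 0 0 0 1 1, r0 1 0 1 0 1 1 1 1 0 1 1])
    (fun t h1 h2 => by
      have h3 := hC t h1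
      rw [e0] at h3
      linarith [hdec _ m0, hdec _ (mC t h1.le h2).1, r0 0 0 0 t 0 0 0 0 0 0 0,
        hdec _ (mt t h1.le h2).1, hdec _ n6, p0 1 0 1 0 1 1 1 1 0 0 0 0 0 0 0 0,
        p0 1 0 1 t 1 1 1 1 0 0 0 0 0 0 0 0, r0 1 0 1 t 1 1 1 1 0 0 0])
    (fun t h1 h2 => by
      have h3 := hDi t h1
      rw [e0] at h3
      linarith [hdec _ m0, hdec _ (mC t h1.le h2).2, r0 0 t 0 0 0 0 0 0 0 0 0,
        hdec _ (mt t h1.le h2).2, hdec _ n6, p0 1 0 1 0 1 1 1 1 0 0 0 0 0 0 0 0,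
        p0 1 t 1 0 1 1 1 1 0 0 0 0 0 0 0 0, r0 1 t 1 0 1 1 1 1 0 0 0])
  linarith [zz 0 1 1 0 1 0 0 0 0 0 n7 n3, zz 0 1 1 0 1 0 0 0 1 0 n8 n4]

/-- the same with `rz` read off -/
theorem cd_facts {B : Base} {I J : ∀ n, Finset (ι n)}
    {co : ∀ n, ι n → ι n → Fin 12 → ℝ}
    {C R : ℝ} {ν : (Fin 12 → ℝ) → ℝ} (hN : NProf B I J co monL C R ν) (hcoc : ∀ n, Coc (co n))
    {x0 : Fin 12 → ℝ} {h : ℕ → ℝ} (hpos : ∀ l, 0 < h l) (hh : Tendsto h atTop (𝓝 0))
    {lam φ ρ : (Fin 12 → ℝ) → ℝ} (htan : IsTan (Leg monL R) D0F878.LM ν (fun _ => x0) h lam)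
    (hx0 : ∃ z c p : ℝ, x0 = natB z c p) (i₀ : ∀ n, ι n) {s : ℝ} (hs0 : 0 ≤ s) (hs1 : s ≤ 1)
    (hdec : ∀ c ∈ D0F878.LM, lam c = φ c + ρ c)
    (hφ : ∀ c c' : Fin 12 → ℝ, c 1 = c' 1 → c 3 = c' 3 → c 4 = c' 4 → φ c = φ c')
    (hρ : ∀ c c' : Fin 12 → ℝ, (∀ i, i ≠ 1 → i ≠ 3 → i ≠ 4 → c i = c' i) → ρ c = ρ c')
    (hz : ∀ c ∈ D0F878.LM, ∀ c' ∈ D0F878.LM, (∀ i, i ≠ 0 → c i = c' i) →
      lam c - lam c' = (lam 0 - lam (bx9 1 0 0 0 0 0 0 0 0)) * (c' 0 - c 0))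
    (hown : ∀ y : ℝ, 0 < y → (1 - s) * y ≤ lam 0 - lam (bx9 y 0 0 0 0 0 0 0 0))
    (hC : ∀ y : ℝ, 0 < y → lam (bx9 0 0 0 y 0 0 0 0 0) < lam 0)
    (hDi : ∀ y : ℝ, 0 < y → lam (bx9 0 y 0 0 0 0 0 0 0) < lam 0) :
    1 - s ≤ lam (bx9 0 1 0 1 0 0 0 0 0) - lam (bx9 0 1 0 1 0 0 0 1 0) := by
  obtain ⟨z, c, p, e⟩ := hx0
  exact cd_free hN hcoc hpos hh htan le_rfl (fun _ => ⟨z, c, p, e⟩) i₀ hs0 hs1 hdec hφ hρ
    (by have := hown 1 one_pos; rwa [mul_one] at this) hz hC hDi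

end Crest.Agent.R116.Kh330
end

-- ▼ part R116/D0y5_219

/-!
# R116 (K side), LEMMA D0 for `β_D < 0`, `s < 1/2` (helper219): the end

* `cdY_T`    : [CD] at the points of `Y`
* **`D0neg`** : `D0T η (fun s θ => s < 1/2 ∧ 2 * θ 0 - θ 1 < 1)`, every `η ≤ 1`
-/

set_option autoImplicit false
set_option linter.unusedVariables false

open Finset Filter Topology MeasureTheory Set

namespace Crest.Agent.R116.D0y219

open Crest.Agent.R138
open Crest.Agent.R138.Ex926 (Base U IsTan)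
open Crest.Agent.R136
open Crest.Agent.R136.MkA627
open Crest.Agent.R136.TD627
open Crest.Agent.R136.Net191
open Crest.Agent.R116.ChL222
open Crest.Agent.R116.Sg337 (bx9 natB)
open Crest.Agent.R116.Gd222 (TSet sN PDL DT)
open Crest.Agent.R116.KI439
open Crest.Agent.R116.KF439 (PL)
open Crest.Agent.R116.Tw468 (OutT OutR)
open Crest.Agent.R116.CtxB468
open Crest.Agent.R116.KTop387 (NumL)
open Crest.Agent.R116.KTie794 (D0T Mic)
open Crest.Agent.R116.D0n878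
open Crest.Agent.R116.D0F878

section ctx

variable {G : Geo TSet (Fin 2)} {L : ℕ → ℕ → LRay} {r : ℕ → ℝ} {g s : ℝ} {θ q : Fin 2 → ℝ}
    {Rg : ℝ} {B : Base} {I : ℕ → Finset (ℕ × ℝ)} {lev : ℕ → ℚ → ℕ} {A : ℕ → ℝ}
    {f : ℕ → ℚ → ℕ → ℤ → ℕ} {b : ℕ → ℚ → ℕ → TSet} {vm : ℕ → ℚ → ℝ} {w : Fin 2 → ℕ → ℚ → ℝ}
    {fr : ℕ → ℚ → ℕ × ℝ → LInc} {fl : ℕ → ℕ × ℝ → LInc} {sc : Fin 12 → ℕ → ℝ}
    {w0 sa sb δ R : ℝ} {I0 I' : ℕ → Finset (ℕ × ℝ)} {ν own : (Fin 12 → ℝ) → ℝ} {c₀ : ℝ}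

/-- **[CD] at the points of `Y`** -/
theorem cdY_T
    (H : CtxT G L r g s θ q Rg B I lev A f b vm w fr fl sc w0 sa sb δ R I0 I' ν own c₀)
    (hs0 : 0 ≤ s) (hs1 : s ≤ 1) (t v : ℝ) :
    D0fy332.CDY (Leg monL R) (fun _ : Unit => ν) () (pY (θ 0) (θ 1) w0 sa sb t v) s := by
  intro h lam φ ρ rz gP hB hT hdec hφ hρ hrz hz hP hC hD
  have N := WinU954.nprof_of_ext (H.sh.d0.le.trans H.sh.R_pos) (H.extK (|θ 0| + |θ 1|))
  have e2 : ∀ y : ℝ, 0 < y → lam 0 - lam (bx9 y 0 0 0 0 0 0 0 0) = rz * y := by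
    intro y hy
    have m1 : bx9 y 0 0 0 0 0 0 0 0 ∈ LM := by
      have e : bx9 y 0 0 0 0 0 0 0 0 = y • uZ := by
        funext k; fin_cases k <;> simp [uZ, bx9]
      rw [e]
      exact smul_LM hy.le uZ_mem
    have h1 := hz 0 zero_mem _ m1 (fun i hi => by
      fin_cases i <;> simp [bx9] at hi ⊢)
    have e3 : (bx9 y 0 0 0 0 0 0 0 0 : Fin 12 → ℝ) 0 - (0 : Fin 12 → ℝ) 0 = y := by simp [bx9]
    rw [e3] at h1
    exact h1
  have e1 : lam 0 - lam (bx9 1 0 0 0 0 0 0 0 0) = rz := by rw [e2 1 one_pos, mul_one]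
  have h1 := Kh330.cd_facts N (fun n => Sd369.coc_N B lev w w0 sa sb fl n) hB.2.2.1 hB.2.2.2 hT
    ⟨_, _, _, rfl⟩ (fun _ => ((0 : ℕ), (0 : ℝ))) hs0 hs1 hdec hφ hρ (by rw [e1]; exact hz)
    (fun y hy => by rw [e2 y hy]; exact mul_le_mul_of_nonneg_right hrz hy.le) hC hD
  have h2 := hP u1 u1_mem u2 u2_mem (fun i hi => by
    fin_cases i <;> simp [u1, u2, bx9] at hi ⊢)
  have e4 : u2 10 - u1 10 = 1 := by simp [u1, u2, bx9]
  rw [e4, mul_one] at h2
  rw [← h2]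
  exact h1

/-- **LEMMA D0 for `β_D < 0`, `s < 1/2`** -/
theorem D0neg {η : ℝ} (hη : η ≤ 1) : D0T η fun s θ => s < 1 / 2 ∧ 2 * θ 0 - θ 1 < 1 := by
  intro G L r g s θ q Rg B I lev A f b vm w fr fl sc w0 sa sb δ R I0 I' ν own c₀ H N hX hR0 hR1 hRg
    hV1 h78 h2
  exact mic_neg H N hη hR0 hR1 hRg hV1 hX.1 hX.2 fun t v ht hvt hv1 =>
    D0fy332.factsY_of H N.θa hX.2 N.s0 N.s1.le ht hvt hv1 rfl (cdY_T H N.s0 N.s1.le t v)

end ctx

end Crest.Agent.R116.D0y219
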