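import Crest.Agent.R116.D0y1_219
import Crest.Agent.R116.D0ln_665
import Crest.Agent.R116.Kz1_647
import Crest.Agent.R116.D0p_878
import Crest.Agent.R116.D0bs_332
import Crest.Agent.R116.D0e_570
import Crest.Agent.R116.D0E_188

-- ▼ part R116/D0z_899
section

/-!
# R116 (K side), LEMMA D0, case `β_D = 0` (helper899), part 1

The plane `{D = D0}` of natural boxes, directions `natB 1 1 3`, `natB 1 0 1`: at a generic point the
slot `D` is alone in its group `0` and `C` is alone (the pairs `z, E | X, B, F | H, P` are NOT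
resolved).

* `lin0`   : structure of the first tangent: increments of `C` are `m y`, increments of `D` are
  `ψ (c 1 + y) - ψ (c 1)`, slope along `natB 1 0 1`;
* `slope0` : second level (219's `engine2`, 665's `end_aux`): `A ≤ -(6 - 4 s)`.
-/

set_option autoImplicit false
set_option linter.unusedVariables false

open Set Filter Topology MeasureTheory
open scoped NNReal

namespace Crest.Agent.R116.D0z899

open Crest.Agent.R138
open Crest.Agent.R136
open Crest.Agent.R136.Net191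
open Crest.Agent.R136.Dg219 (mw gC dhC nC gset lf gC_eq gC_zero Walls OutS dirC leg_outC leg_legal
  mem_gset)
open Crest.Agent.R116.ChL222
open Crest.Agent.R116.Sg337 (bx9 natB Dm uC)
open Crest.Agent.R116.SgF665 (wl)
open Crest.Agent.R116.D0F878
open Crest.Agent.R116.D0n878
open Crest.Agent.R116.D0y219
open Crest.Agent.R116.D0ln665
open Crest.Agent.R116.SgO219 (tan_lim tan_ev tan_lip)
open Dg262 (SupOn)

theorem natB_one (z c p : ℝ) : natB z c p 1 = p - 2 * c - z := by simp [natB, bx9]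

theorem a1_ne : ∀ i : Fin 12, i ≠ 1 → natB 1 1 3 i ≠ 0 := by
  intro i hi
  fin_cases i <;> simp [natB, bx9] at hi ⊢ <;> norm_num

theorem a1_one : natB 1 1 3 1 = 0 := by rw [natB_one]; norm_num


theorem a1_nonneg : ∀ i : Fin 12, 0 ≤ natB 1 1 3 i := by
  intro i
  fin_cases i <;> simp [natB, bx9] <;> norm_num

theorem b1_ne : ∀ i : Fin 12, i ≠ 1 → i ≠ 3 → i ≠ 4 → natB 1 0 1 i ≠ 0 := by
  intro i h1 h3 h4
  fin_cases i <;> simp [natB, bx9] at h1 h3 h4 ⊢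

theorem g1 {i : Fin 12} (h : gC (natB 1 1 3) (natB 1 0 1) i = 0) : i = 1 := by
  by_contra hi
  exact a1_ne i hi (gC_zero.1 h)

theorem g3 {i : Fin 12}
    (h : gC (natB 1 1 3) (natB 1 0 1) i = gC (natB 1 1 3) (natB 1 0 1) 3) : i = 3 ∨ i = 4 := by
  by_cases h1 : i = 1
  · subst h1
    rw [gC_zero.2 a1_one] at h
    exact absurd (gC_zero.1 h.symm) (a1_ne 3 (by decide))
  · rw [gC_eq (a1_ne i h1) (a1_ne 3 (by decide))] at h
    have e3 : natB 1 0 1 3 = 0 := by simp [natB, bx9]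
    rw [e3, zero_div] at h
    have h2 : natB 1 0 1 i = 0 := by
      rcases div_eq_zero_iff.1 h with h | h
      · exact h
      · exact absurd h (a1_ne i h1)
    by_contra hc
    push Not at hc
    exact b1_ne i h1 hc.1 hc.2 h2

/-- boxes which differ only in the slots of one group -/
theorem grp_sub {grp : Fin 12 → ℕ} {L : Set (Fin 12 → ℝ)} {dh : Fin 12 → ℝ} {n : ℕ → ℝ × ℝ}
    {lam : (Fin 12 → ℝ) → ℝ} {A : ℝ × ℝ} {φ : ℕ → (Fin 12 → ℝ) → ℝ} {r : ℕ → ℝ}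
    (H : OutS grp L dh n lam A φ r) {c c' : Fin 12 → ℝ} (hc : c ∈ L) (hc' : c' ∈ L)
    {k : ℕ} (hk : k ∈ gset grp) (h : ∀ i, grp i ≠ k → c i = c' i) :
    lam c - lam c' = φ k c - φ k c' := by
  classical
  rw [H.sum c hc, H.sum c' hc', ← Finset.add_sum_erase _ _ hk, ← Finset.add_sum_erase _ _ hk]
  have : ∑ j ∈ (gset grp).erase k, φ j c = ∑ j ∈ (gset grp).erase k, φ j c' := by
    refine Finset.sum_congr rfl fun j hj => H.loc j _ _ fun i hi => h i ?_
    rw [hi]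
    exact (Finset.mem_erase.1 hj).1
  rw [this]
  ring

theorem uC_mem {c : Fin 12 → ℝ} (hc : c ∈ LM) {y : ℝ} (hy : 0 ≤ y) : c + y • uC ∈ LM := by
  intro k e he
  have h1 := hc k e he
  have h2 : (y • uC) ∈ LM := lm_raise (fun k => by
    rw [Pi.smul_apply, smul_eq_mul]; exact mul_nonneg hy (uC_nonneg k)) (fun k a b c => by
    rw [Pi.smul_apply, smul_eq_mul, uC_z k a b c, mul_zero])
  have h3 := h2 k e he
  rw [SgF665.wl_add, Pi.add_apply]
  exact add_le_add h1 h3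

theorem uD_mem {c : Fin 12 → ℝ} (hc : c ∈ LM) {y : ℝ} (hy : 0 ≤ y) : c + y • uD ∈ LM := by
  intro k e he
  have h1 := hc k e he
  have h2 : (y • uD) ∈ LM := lm_raise (fun k => by
    rw [Pi.smul_apply, smul_eq_mul]; exact mul_nonneg hy (uD_nonneg k)) (fun k a b c => by
    rw [Pi.smul_apply, smul_eq_mul, uD_z k a b c, mul_zero])
  have h3 := h2 k e he
  rw [SgF665.wl_add, Pi.add_apply]
  exact add_le_add h1 h3

theorem uD_off {i : Fin 12} (h : i ≠ 1) : uD i = 0 := by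
  fin_cases i <;> first | rfl | exact absurd rfl h

theorem uC_off {i : Fin 12} (h3 : i ≠ 3) (h4 : i ≠ 4) : uC i = 0 := by
  fin_cases i <;> first | rfl | exact absurd rfl h3 | exact absurd rfl h4

/-- **structure of the first tangent on the plane `{D = D0}`** -/
theorem lin0 {lam : (Fin 12 → ℝ) → ℝ} {A : ℝ × ℝ} {φ : ℕ → (Fin 12 → ℝ) → ℝ} {r : ℕ → ℝ}
    (H : OutS (gC (natB 1 1 3) (natB 1 0 1)) LM (dhC (natB 1 1 3) (natB 1 0 1))
      (nC (natB 1 1 3) (natB 1 0 1)) lam A φ r) :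
    ∃ (m : ℝ) (ψ : ℝ → ℝ), ψ 0 = 0 ∧
      (∀ u v, u ≤ v → 0 ≤ ψ v - ψ u ∧ ψ v - ψ u ≤ v - u) ∧
      (∀ c ∈ LM, ∀ y : ℝ, 0 ≤ y → lam c - lam (c + y • uD) = ψ (c 1 + y) - ψ (c 1)) ∧
      (∀ c ∈ LM, c 4 = c 3 → ∀ y : ℝ, 0 ≤ y → lam c - lam (c + y • uC) = m * y) ∧
      ∀ M : ℝ, lam (natB M 0 M) = M * A.2 := by
  classical
  set a : Fin 12 → ℝ := natB 1 1 3 with ha
  set b : Fin 12 → ℝ := natB 1 0 1 with hb
  have hg0 : ∀ i, gC a b i = 0 ↔ i = 1 := fun i =>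
    ⟨fun h => g1 h, fun h => by rw [h]; exact gC_zero.2 a1_one⟩
  have hmem0 : (0 : ℕ) ∈ gset (gC a b) := by
    have := mem_gset (grp := gC a b) (1 : Fin 12)
    rwa [(hg0 1).2 rfl] at this
  have hmem3 : gC a b 3 ∈ gset (gC a b) := mem_gset (grp := gC a b) (3 : Fin 12)
  have hφ0 : ∀ c, φ 0 c = φ 0 (Function.update 0 1 (c 1)) := by
    intro c
    refine H.loc 0 _ _ fun i hi => ?_
    rw [(hg0 i).1 hi, Function.update_self]
  have hfil : (Finset.univ.filter fun i => gC a b i = 0) = {1} := by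
    ext i
    simp only [Finset.mem_filter, Finset.mem_univ, true_and, Finset.mem_singleton]
    exact hg0 i
  have a3 : a 3 = 1 := by rw [ha]; simp [natB, bx9]
  have a4 : a 4 = 1 := by rw [ha]; simp [natB, bx9]
  refine ⟨r (gC a b 3), fun d => -φ 0 (Function.update 0 1 d), ?_, ?_, ?_, ?_, ?_⟩
  · have : φ 0 (Function.update 0 1 (0 : ℝ)) = 0 := H.zero 0 _ (fun i hi => by
      rw [(hg0 i).1 hi, Function.update_self])
    show -φ 0 (Function.update 0 1 (0 : ℝ)) = 0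
    rw [this, neg_zero]
  · intro u v huv
    have h1 := H.mono 0 _ (natB_mem 0 0 u) _ (natB_mem 0 0 v) (fun i hi => by
      rw [(hg0 i).1 hi, natB_one, natB_one]; linarith)
    rw [hφ0 (natB 0 0 u), hφ0 (natB 0 0 v), natB_one, natB_one, hfil, Finset.sum_singleton,
      natB_one, natB_one] at h1
    simp only [mul_zero, sub_zero] at h1
    show 0 ≤ -φ 0 (Function.update 0 1 v) - -φ 0 (Function.update 0 1 u) ∧
      -φ 0 (Function.update 0 1 v) - -φ 0 (Function.update 0 1 u) ≤ v - u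
    constructor <;> linarith [h1.1, h1.2]
  · intro c hc y hy
    have h1 := grp_sub H hc (uD_mem hc hy) hmem0 (fun i hi => by
      have : i ≠ 1 := fun e => hi ((hg0 i).2 e)
      rw [Pi.add_apply, Pi.smul_apply, uD_off this, smul_zero, add_zero])
    rw [h1, hφ0 c, hφ0 (c + y • uD)]
    have e1 : (c + y • uD) 1 = c 1 + y := by
      rw [Pi.add_apply, Pi.smul_apply]
      have : uD 1 = 1 := rfl
      rw [this, smul_eq_mul, mul_one]
    rw [e1]
    show _ = -φ 0 (Function.update 0 1 (c 1 + y)) - -φ 0 (Function.update 0 1 (c 1))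
    ring
  · intro c hc h43 y hy
    have h1 := grp_sub H hc (uC_mem hc hy) hmem3 (fun i hi => by
      have h3 : i ≠ 3 := fun e => hi (by rw [e])
      have h4 : i ≠ 4 := fun e => hi (by
        rw [e]
        have e4 : a 4 ≠ 0 := by rw [a4]; norm_num
        have e3 : a 3 ≠ 0 := by rw [a3]; norm_num
        rw [gC_eq e4 e3, a3, a4]
        have f3 : b 3 = 0 := by rw [hb]; simp [natB, bx9]
        have f4 : b 4 = 0 := by rw [hb]; simp [natB, bx9]
        rw [f3, f4])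
      rw [Pi.add_apply, Pi.smul_apply, uC_off h3 h4, smul_zero, add_zero])
    have hdh : ∀ i, gC a b i = gC a b 3 → dhC a b i = 1 := by
      intro i hi
      rcases g3 hi with rfl | rfl
      · unfold dhC; rw [a3, if_neg one_ne_zero]
      · unfold dhC; rw [a4, if_neg one_ne_zero]
    have h2 := H.rate (gC a b 3) c hc (c 3) (fun i hi => by
      rw [hdh i hi, mul_one]
      rcases g3 hi with rfl | rfl
      · rfl
      · exact h43)
    have u3 : uC 3 = 1 := rfl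
    have u4 : uC 4 = 1 := rfl
    have h3 := H.rate (gC a b 3) (c + y • uC) (uC_mem hc hy) (c 3 + y) (fun i hi => by
      rw [hdh i hi, mul_one, Pi.add_apply, Pi.smul_apply, smul_eq_mul]
      rcases g3 hi with rfl | rfl
      · rw [u3, mul_one]
      · rw [u4, mul_one, h43])
    rw [h1, h2, h3]
    ring
  · intro M
    have hc : natB M 0 M ∈ LM := natB_mem M 0 M
    have e1 : natB M 0 M = M • b := by
      rw [hb, natB_smul]; congr 1 <;> ring
    rw [H.sum _ hc]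
    have h1 : ∀ k ∈ gset (gC a b), φ k (natB M 0 M) = -(r k * (M * (nC a b k).2)) := by
      intro k hk
      refine H.rate k _ hc _ fun i hi => ?_
      rw [e1, Pi.smul_apply, smul_eq_mul, (dirC (a := a) (b := b)).snd i, hi]
      ring
    rw [Finset.sum_congr rfl h1]
    have h2 := H.total (0, 1)
    have e2 : lf A (0, 1) = A.2 := by unfold lf; ring
    rw [e2] at h2
    rw [h2, mul_neg, Finset.mul_sum, ← Finset.sum_neg_distrib]
    refine Finset.sum_congr rfl fun k _ => ?_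
    unfold lf
    ring

/-- the facts which are used, at natural sequences near `x0` -/
def FactN {J : Type*} (P : Set (Fin 12 → ℝ)) (f : J → (Fin 12 → ℝ) → ℝ) (j0 : J) (s : ℝ)
    (x0 : Fin 12 → ℝ) : Prop :=
  ∀ (X : ℕ → Fin 12 → ℝ) (h : ℕ → ℝ) (rz rX rH rF gC gP gE gB gD : ℝ),
    (∀ n, ∃ z c p, X n = natB z c p) → Tendsto X atTop (𝓝 x0) →
    LinTanD P f j0 X h rz rX rH rF gC gP gE gB gD →
    1 - s ≤ rz ∧ (0 < gC → 1 - s ≤ rX ∧ rX ≤ rH) ∧ (0 < gD → rH ≤ gP) ∧ (s < gP → 1 ≤ rF)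

theorem sum_uC (ρ : Fin 12 → ℝ) : ∑ i ∈ S9, ρ i * uC i = ρ 3 := by
  simp only [S9]
  rw [Finset.sum_insert (by decide), Finset.sum_insert (by decide), Finset.sum_insert (by decide),
    Finset.sum_insert (by decide), Finset.sum_insert (by decide), Finset.sum_insert (by decide),
    Finset.sum_insert (by decide), Finset.sum_insert (by decide), Finset.sum_singleton]
  simp only [uC, bx9]
  simp

theorem sum_uD (ρ : Fin 12 → ℝ) : ∑ i ∈ S9, ρ i * uD i = ρ 1 := by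
  simp only [S9]
  rw [Finset.sum_insert (by decide), Finset.sum_insert (by decide), Finset.sum_insert (by decide),
    Finset.sum_insert (by decide), Finset.sum_insert (by decide), Finset.sum_insert (by decide),
    Finset.sum_insert (by decide), Finset.sum_insert (by decide), Finset.sum_singleton]
  simp only [uD, bx9]
  simp

theorem uC_mem0 : uC ∈ LM := by
  have := uC_mem zero_mem zero_le_one
  rwa [one_smul, zero_add] at this

theorem uD_mem0 : uD ∈ LM := by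
  have := uD_mem zero_mem zero_le_one
  rwa [one_smul, zero_add] at this

/-- **the second level**: slope along `natB 1 0 1` -/
theorem slope0 {J : Type*} [Finite J] {P : Set (Fin 12 → ℝ)} {f g : J → (Fin 12 → ℝ) → ℝ} {j0 : J}
    {zp cp pp s : ℝ} {h : ℕ → ℝ} (hpos : ∀ l, 0 < h l) (h0 : Tendsto h atTop (𝓝 0))
    (ht : ∀ j, Ex926.IsTan P LM (f j) (fun _ => natB zp cp pp) h (g j)) {K : ℝ} (hK : 0 ≤ K)
    (hg : ∀ j, ∀ p ∈ LM, ∀ q ∈ LM, |g j p - g j q| ≤ K * ‖p - q‖)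
    (hm : ∀ p ∈ LM, ∀ q ∈ LM, p ≤ q → 0 ≤ g j0 p - g j0 q ∧ g j0 p - g j0 q ≤ ∑ i, (q i - p i))
    (hs : SupOn (g j0) LM) {m A κ : ℝ} {ψ : ℝ → ℝ} (hm0 : 0 < m) (hκ : 0 < κ) (ψ0 : ψ 0 = 0)
    (hψ : ∀ u v, u ≤ v → 0 ≤ ψ v - ψ u ∧ ψ v - ψ u ≤ v - u) (hψ1 : κ ≤ ψ 1)
    (hD : ∀ c ∈ LM, ∀ y : ℝ, 0 ≤ y → g j0 c - g j0 (c + y • uD) = ψ (c 1 + y) - ψ (c 1))
    (hC : ∀ c ∈ LM, c 4 = c 3 → ∀ y : ℝ, 0 ≤ y → g j0 c - g j0 (c + y • uC) = m * y)
    (hA : ∀ M : ℝ, g j0 (natB M 0 M) = M * A) (s2 : 2 * s < 1)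
    (hF : FactN P f j0 s (natB zp cp pp)) : A ≤ -(6 - 4 * s) := by
  refine end_aux hK (hg j0) (fun M _ => hA M) fun ε hε hε4 => ?_
  have eng := engine2 hpos h0 ht hK hg hm hs (z := 0) (c := 0) (p := 0) (z1 := 1) (c1 := ε)
    (p1 := 1 + 2 * ε) (z2 := 1) (c2 := 0) (p2 := 10 * 1) (aN_nonneg hε)
    (alone hε hε4 one_ne_zero) (dh_ne hε one_ne_zero)
  have hX : ∀ t v : ℝ, Dg262.X (natB 0 0 0) (natB 1 ε (1 + 2 * ε)) (natB 1 0 (10 * 1)) (t, v) =
      natB (v + t) (0 + ε * t) (10 * v + (1 + 2 * ε) * t) := by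
    intro t v
    rw [X_nat]
    congr 1 <;> ring
  -- Fubini
  have hsw : Measure.QuasiMeasurePreserving (Prod.swap : ℝ × ℝ → ℝ × ℝ) volume volume := by
    rw [Measure.volume_eq_prod]
    exact Measure.measurePreserving_swap.quasiMeasurePreserving
  have h1 := hsw.ae eng
  rw [Measure.volume_eq_prod] at h1
  have h2 := Measure.ae_ae_of_ae_prod h1
  clear h1 eng
  -- the height of `D`
  obtain ⟨v, ⟨hv0, hv1⟩, hvS, d, hd, hdκ⟩ := Kz647.pos_slope (ψ := fun v => -ψ (9 * v)) (K := 9)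
    (y := 1 / 9) (κ := -(9 * κ)) (by norm_num) (by norm_num) (fun u _ v _ => by
      have e : -ψ (9 * u) - -ψ (9 * v) = -(ψ (9 * u) - ψ (9 * v)) := by ring
      rw [e, abs_neg]
      have e9 : 9 * |u - v| = |9 * u - 9 * v| := by
        rw [← mul_sub, abs_mul, abs_of_pos (by norm_num : (0:ℝ) < 9)]
      rw [e9]
      rcases le_total (9 * u) (9 * v) with huv | huv
      · have := hψ _ _ huv
        rw [abs_sub_comm, abs_of_nonneg this.1, abs_sub_comm, abs_of_nonneg (by linarith)]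
        exact this.2
      · have := hψ _ _ huv
        rw [abs_of_nonneg this.1, abs_of_nonneg (by linarith)]
        exact this.2) (by
      have e1 : (9:ℝ) * (1 / 9) = 1 := by norm_num
      simp only [e1, mul_zero, ψ0]
      linarith) h2
  have hgr : HasDerivAt (fun u : ℝ => ψ (9 * v + u)) (-(d * (1 / 9))) 0 := by
    have f1 : HasDerivAt (fun u : ℝ => v + u * (1 / 9)) (1 / 9) 0 := by
      simpa using ((hasDerivAt_id (0:ℝ)).mul_const (1 / 9 : ℝ)).const_add v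
    have f2 : HasDerivAt (fun v => -ψ (9 * v)) d (v + 0 * (1 / 9)) := by
      rw [zero_mul, add_zero]; exact hd
    have f3 := (f2.comp (0:ℝ) f1).neg
    refine f3.congr_of_eventuallyEq (Eventually.of_forall fun u => ?_)
    simp only [Pi.neg_apply, Function.comp_apply, neg_neg]
    congr 1
    ring
  refine ⟨v, 0, 10 * v, fun M hM => ?_⟩
  set Φ : ℝ × ℝ → ℝ :=
    fun y => g j0 (Dg262.X (natB 0 0 0) (natB 1 ε (1 + 2 * ε)) (natB 1 0 (10 * 1)) y) with hΦ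
  have hgL : LipschitzWith (K.toNNReal * 4) fun t : ℝ => Φ (t, v) := by
    refine LipschitzWith.of_dist_le_mul fun t t' => ?_
    rw [Real.dist_eq, Real.dist_eq, hΦ]
    simp only
    rw [hX, hX]
    refine (hg j0 _ (natB_mem _ _ _) _ (natB_mem _ _ _)).trans ?_
    have e1 : natB (v + t) (0 + ε * t) (10 * v + (1 + 2 * ε) * t) -
        natB (v + t') (0 + ε * t') (10 * v + (1 + 2 * ε) * t') =
        natB (t - t') (ε * (t - t')) ((1 + 2 * ε) * (t - t')) := by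
      funext k
      rw [Pi.sub_apply]
      fin_cases k <;> simp [natB, bx9] <;> ring
    rw [e1]
    have h1 := norm_natB (t - t') (ε * (t - t')) ((1 + 2 * ε) * (t - t'))
    rw [abs_mul, abs_mul, abs_of_pos hε, abs_of_pos (by positivity : 0 < 1 + 2 * ε)] at h1
    have hd := abs_nonneg (t - t')
    have h2 : ‖natB (t - t') (ε * (t - t')) ((1 + 2 * ε) * (t - t'))‖ ≤ 4 * |t - t'| := by
      nlinarith
    have h3 : ((K.toNNReal * 4 : ℝ≥0) : ℝ) = K * 4 := by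
      push_cast
      rw [Real.coe_toNNReal K hK]
    refine (mul_le_mul_of_nonneg_left h2 hK).trans (le_of_eq ?_)
    rw [h3]; ring
  have key := le_of_ae (g := fun t => Φ (t, v)) (m := 6 - 4 * s)
    (hgL.lipschitzOnWith (s := Icc 0 M)) hM (by
    filter_upwards [hvS] with t hG ht2 d' hd'
    obtain ⟨D', hD', k, θ, lam, ρ, kpos, k0, hθ, hρ, hlam, hform, T, h10, -⟩ := hG
    have e5 : d' = D' (1, 0) := by
      have h4 : HasDerivAt (fun t : ℝ => ((t, v) : ℝ × ℝ)) (1, 0) t :=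
        (hasDerivAt_id t).prodMk (hasDerivAt_const t v)
      have hD2 : HasFDerivAt Φ D' (t, v) := hD'
      have h5 := hD2.comp_hasDerivAt t h4
      exact hd'.unique h5
    have ec := hX t v
    set c0 : Fin 12 → ℝ := Dg262.X (natB 0 0 0) (natB 1 ε (1 + 2 * ε)) (natB 1 0 (10 * 1)) (t, v)
      with hc0
    have hc0m : c0 ∈ LM := by rw [ec]; exact natB_mem _ _ _
    have c1 : c0 1 = 9 * v := by rw [ec, natB_one]; ring
    have c43 : c0 4 = c0 3 := by rw [ec]; simp [natB, bx9]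
    have l0 : lam j0 0 = 0 := by
      rw [hform 0 zero_mem (fun i => rfl)]
      simp
    have lC : lam j0 uC = -ρ 3 := by
      rw [hform uC uC_mem0 (eqp_bx9 _ _ _ _ _ _ _ _ _), sum_uC]
    have lD : lam j0 uD = -ρ 1 := by
      rw [hform uD uD_mem0 (eqp_bx9 _ _ _ _ _ _ _ _ _), sum_uD]
    have r3 : ρ 3 = m := by
      have g1 := tan_lim kpos (hlam j0) zero_mem uC_mem0
      rw [l0, lC] at g1
      have g2 : Tendsto (fun l => (g j0 (c0 + k l • (0 : Fin 12 → ℝ)) - g j0 (c0 + k l • uC)) / k l)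
          atTop (𝓝 m) := by
        refine tendsto_const_nhds.congr fun l => ?_
        rw [smul_zero, add_zero, hC c0 hc0m c43 _ (kpos l).le, mul_div_cancel_right₀ _ (kpos l).ne']
      have := tendsto_nhds_unique g1 g2
      linarith
    have r1 : ρ 1 = -(d * (1 / 9)) := by
      have g1 := tan_lim kpos (hlam j0) zero_mem uD_mem0
      rw [l0, lD] at g1
      have g3 := (hasDerivAt_iff_tendsto_slope_zero.1 hgr).comp
        (tendsto_nhdsWithin_iff.2 ⟨k0, Eventually.of_forall fun m => (kpos m).ne'⟩ :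
          Tendsto k atTop (𝓝[≠] 0))
      have g2 : Tendsto (fun l => (g j0 (c0 + k l • (0 : Fin 12 → ℝ)) - g j0 (c0 + k l • uD)) / k l)
          atTop (𝓝 (-(d * (1 / 9)))) := by
        refine g3.congr fun l => ?_
        simp only [Function.comp_apply, smul_eq_mul, zero_add, add_zero]
        rw [smul_zero, add_zero, hD c0 hc0m _ (kpos l).le, c1, inv_mul_eq_div]
      have := tendsto_nhds_unique g1 g2
      linarith
    have hr1 : 0 < ρ 1 := by rw [r1]; linarith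
    have hr3 : 0 < ρ 3 := by rw [r3]; exact hm0
    have hnat : ∀ n, ∃ z c p, natB zp cp pp + h (θ n) • c0 = natB z c p := fun n =>
      ⟨_, _, _, by rw [ec, natB_smul, natB_add]⟩
    have hlim : Tendsto (fun n => natB zp cp pp + h (θ n) • c0) atTop (𝓝 (natB zp cp pp)) := by
      have : Tendsto (fun n => natB zp cp pp + h (θ n) • c0) atTop
          (𝓝 (natB zp cp pp + (0:ℝ) • c0)) :=
        tendsto_const_nhds.add ((h0.comp hθ.tendsto_atTop).smul_const c0)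
      rwa [zero_smul, add_zero] at this
    obtain ⟨q1, q2, q3, q4⟩ := hF _ _ _ _ _ _ _ _ _ _ _ hnat hlim T
    have q5 := q2 hr3
    have q6 := q3 hr1
    have hal := num_alg hε s2 q1 (hρ 2 (by decide)) (hρ 3 (by decide)) (hρ 7 (by decide)) q5.1
      q5.2 (by linarith) q4
    rw [e5, h10, sum_aN]
    linarith)
  rw [hΦ] at key
  simp only at key
  rw [hX, hX] at key
  have e1 : natB (v + 0) (0 + ε * 0) (10 * v + (1 + 2 * ε) * 0) = natB v 0 (10 * v) := by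
    congr 1 <;> ring
  rw [e1] at key
  exact key

end Crest.Agent.R116.D0z899
end

-- ▼ part R116/D0z2_899

/-!
# R116 (K side), LEMMA D0, case `β_D = 0`, `s < 1/2`, `E` invisible (helper899), part 2

* `loc0`  : the first level at a generic point of the plane `{D = D0}`;
* `factN_T` : the facts over `CtxT`;
* **`d0zero`** : `D0E η (fun s θ => s < 1/2 ∧ 2 * θ 0 - θ 1 = 1)`.
-/

set_option autoImplicit false
set_option linter.unusedVariables false

open Set Filter Topology MeasureTheory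
open scoped NNReal

namespace Crest.Agent.R116.D0z899

open Crest.Agent.R138
open Crest.Agent.R138.Ex926 (Base U IsTan)
open Crest.Agent.R136
open Crest.Agent.R136.MkA627
open Crest.Agent.R136.TD627
open Crest.Agent.R136.Net191
open Crest.Agent.R136.Lq196
open Crest.Agent.R136.Dg219 (mw gC dhC nC gset lf gC_eq gC_zero Walls OutS dirC leg_outC leg_legal
  mem_gset)
open Crest.Agent.R116.ChL222
open Crest.Agent.R116.PL504 (nb rL DN eL βL oL Shift)
open Crest.Agent.R116.Sg337 (bx9 natB Dm uC nb_natB)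
open Crest.Agent.R116.SgF665 (wl)
open Crest.Agent.R116.Gd222 (TSet sN PDL DT)
open Crest.Agent.R116.KI439
open Crest.Agent.R116.KF439 (PL)
open Crest.Agent.R116.Tw468 (OutT OutR)
open Crest.Agent.R116.CtxB468
open Crest.Agent.R116.KTop387 (NumL)
open Crest.Agent.R116.KTie794 (D0E Mic)
open Crest.Agent.R116.D0F878
open Crest.Agent.R116.D0n878
open Crest.Agent.R116.SgO219 (tan_lim tan_ev tan_lip tan_mono tan_smod)
open Dg262 (SupOn)

/-- **the first level** -/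
theorem loc0 {J : Type*} [Finite J] {f : J → (Fin 12 → ℝ) → ℝ} {j0 : J} {R K : ℝ} (hK : 0 ≤ K)
    (hν : ∀ j, ∀ p ∈ Leg monL R, ∀ q ∈ Leg monL R, |f j p - f j q| ≤ K * ‖p - q‖)
    (hm : ∀ p ∈ Leg monL R, ∀ q ∈ Leg monL R, p ≤ q →
      f j0 q ≤ f j0 p ∧ f j0 p - f j0 q ≤ ∑ i, (q i - p i))
    (hs : ∀ p ∈ Leg monL R, ∀ q ∈ Leg monL R, p ⊓ q ∈ Leg monL R →
      f j0 p + f j0 q ≤ f j0 (p ⊔ q) + f j0 (p ⊓ q))
    (z c p : ℝ) {s : ℝ} (s2 : 2 * s < 1) :
    ∀ᵐ y : ℝ × ℝ, (∀ k, 0 < Dg262.X (natB z c p) (natB 1 1 3) (natB 1 0 1) y k ∧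
        Dg262.X (natB z c p) (natB 1 1 3) (natB 1 0 1) y k < R) →
      FactN (Leg monL R) f j0 s (Dg262.X (natB z c p) (natB 1 1 3) (natB 1 0 1) y) →
      ∀ q0 ρ : ℝ, 0 < q0 → 0 < ρ →
      (∀ᶠ h in 𝓝[>] (0:ℝ), q0 * h ≤
        f j0 (Dg262.X (natB z c p) (natB 1 1 3) (natB 1 0 1) y) -
        f j0 (Dg262.X (natB z c p) (natB 1 1 3) (natB 1 0 1) y + h • uC)) →
      (∃ᶠ h in 𝓝[>] (0:ℝ), ρ * h ≤
        f j0 (Dg262.X (natB z c p) (natB 1 1 3) (natB 1 0 1) y) -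
        f j0 (Dg262.X (natB z c p) (natB 1 1 3) (natB 1 0 1) y + h • uD)) →
      ∀ D : ℝ × ℝ →L[ℝ] ℝ,
        HasFDerivAt (fun y => f j0 (Dg262.X (natB z c p) (natB 1 1 3) (natB 1 0 1) y)) D y →
        D (0, 1) ≤ -(6 - 4 * s) := by
  classical
  have key := leg_outC monL hK (hν j0) hm hs (x0 := natB z c p) (b := natB 1 0 1) a1_nonneg
  filter_upwards [key] with y hy hbox hF q0 ρ hq0 hρ hC hD D hDf
  have hO := O_nat hbox
  obtain ⟨D', hD', H⟩ := hy hO
  have eD : D = D' := hDf.unique hD'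
  subst eD
  obtain ⟨ns, hns, hns2⟩ := exists_seq_forall_of_frequently
    (hD.and_eventually self_mem_nhdsWithin)
  have hpos : ∀ l, 0 < ns l := fun l => (hns2 l).2
  have hns0 : Tendsto ns atTop (𝓝 0) := tendsto_nhds_of_tendsto_nhdsWithin hns
  have eL := L_nat z c p 1 1 3 1 0 1
  obtain ⟨ψ1, hψ1, g, hg⟩ := Rc683.exists_tan (J := J) (P := fun _ => Leg monL R)
    (D := fun _ => (mw monL).L (natB z c p) (natB 1 1 3) (natB 1 0 1))
    (fun _ => Walls.isClosed_L) hK hν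
    (x := fun _ => Dg262.X (natB z c p) (natB 1 1 3) (natB 1 0 1) y) hpos (fun _ C => by
      obtain ⟨h1, hh1, hl⟩ := leg_legal monL hO C
      filter_upwards [hns0.eventually_lt_const hh1] with l hl1 c' hc' hC
      exact hl (ns l) (hpos l) hl1 c' hc' hC) (fun _ => by rw [eL]; exact zero_mem)
  obtain ⟨φ, r, HO⟩ := H (fun l => ns (ψ1 l)) (fun l => hpos _) (hns0.comp hψ1.tendsto_atTop)
    (g j0) (hg j0)
  rw [eL] at HO
  have hg' : ∀ j, Ex926.IsTan (Leg monL R) LM (f j)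
      (fun _ => Dg262.X (natB z c p) (natB 1 1 3) (natB 1 0 1) y) (fun l => ns (ψ1 l))
      (g j) := fun j => by have := hg j; rwa [eL] at this
  have hp1 : ∀ l, 0 < ns (ψ1 l) := fun l => hpos _
  have hn1 : Tendsto (fun l => ns (ψ1 l)) atTop (𝓝 0) := hns0.comp hψ1.tendsto_atTop
  have hn2 : Tendsto (fun l => ns (ψ1 l)) atTop (𝓝[>] 0) := hns.comp hψ1.tendsto_atTop
  obtain ⟨m, ψ, g1, g2, g3, g4, g5⟩ := lin0 HO
  -- rates at the base
  have hmq : q0 ≤ m := by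
    have h1 := tan_lim hp1 (hg' j0) zero_mem uC_mem0
    have h2 := g4 0 zero_mem rfl 1 zero_le_one
    rw [one_smul, zero_add, mul_one] at h2
    rw [h2] at h1
    refine ge_of_tendsto h1 ?_
    filter_upwards [hn2.eventually hC] with l hl
    rw [le_div_iff₀ (hp1 l), smul_zero, add_zero]
    exact hl
  have hψρ : ρ ≤ ψ 1 := by
    have h1 := tan_lim hp1 (hg' j0) zero_mem uD_mem0
    have h2 := g3 0 zero_mem 1 zero_le_one
    rw [one_smul, zero_add, Pi.zero_apply, zero_add, g1, sub_zero] at h2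
    rw [h2] at h1
    refine ge_of_tendsto h1 (Eventually.of_forall fun l => ?_)
    rw [le_div_iff₀ (hp1 l), smul_zero, add_zero]
    exact (hns2 (ψ1 l)).1
  obtain ⟨t, v⟩ := y
  have eX := X_nat z c p 1 1 3 1 0 1 t v
  rw [eX] at hF
  have hg2 : ∀ j, Ex926.IsTan (Leg monL R) LM (f j)
      (fun _ => natB (z + t * 1 + v * 1) (c + t * 1 + v * 0) (p + t * 3 + v * 1))
      (fun l => ns (ψ1 l)) (g j) := by
    intro j
    have := hg' j
    rwa [eX] at this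
  refine slope0 hp1 hn1 hg2 hK (fun j c' hc' c'' hc'' => ?_) (fun c' hc' c'' hc'' hle => ?_) ?_
    (lt_of_lt_of_le hq0 hmq) hρ g1 g2 hψρ g3 g4 g5 s2 hF
  · have := tan_lip hp1 (hg' j) (K := K) (fun p hp q hq => by
      rw [dist_eq_norm]; exact hν j p hp q hq) c' hc' c'' hc''
    rwa [dist_eq_norm] at this
  · exact tan_mono hp1 (hg' j0) (fun p hp q hq hpq => by
      have h1 := hm p hp q hq hpq
      exact ⟨by linarith [h1.1], h1.2⟩) c' hc' c'' hc'' hle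
  · exact tan_smod hp1 (hg' j0) (fun p hp q hq h1 h2 => hs p hp q hq h1)

section ctx

variable {G : Geo TSet (Fin 2)} {L : ℕ → ℕ → LRay} {r : ℕ → ℝ} {g s : ℝ} {θ q : Fin 2 → ℝ}
    {Rg : ℝ} {B : Base} {I : ℕ → Finset (ℕ × ℝ)} {lev : ℕ → ℚ → ℕ} {A : ℕ → ℝ}
    {f : ℕ → ℚ → ℕ → ℤ → ℕ} {b : ℕ → ℚ → ℕ → TSet} {vm : ℕ → ℚ → ℝ} {w : Fin 2 → ℕ → ℚ → ℝ}
    {fr : ℕ → ℚ → ℕ × ℝ → LInc} {fl : ℕ → ℕ × ℝ → LInc} {sc : Fin 12 → ℕ → ℝ}
    {w0 sa sb δ R : ℝ} {I0 I' : ℕ → Finset (ℕ × ℝ)} {ν own : (Fin 12 → ℝ) → ℝ} {c₀ : ℝ}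

/-- **the facts over `CtxT`** at a natural box strictly below its own visible levels -/
theorem factN_T
    (H : CtxT G L r g s θ q Rg B I lev A f b vm w fr fl sc w0 sa sb δ R I0 I' ν own c₀)
    (hs0 : 0 ≤ s) (hs1 : s ≤ 1) {v a' b' : ℝ} (hv0 : 0 < v) (hv1 : v < 1) (ha : 0 < a')
    (hB : VisT B I fl sc 7 ∨ VisT B I fl sc 8 → b' - a' < (θ 1 - θ 0) * (1 - v))
    (hE : VisT B I fl sc 2 ∨ VisT B I fl sc 1 → b' - 2 * a' < (θ 1 - 2 * θ 0) * (1 - v)) :
    FactN (Leg monL R) (fun _ : Unit => ν) () s (nb w0 sa sb v a' b') := by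
  intro X h rz rX rH rF gC gP gE gB gD hn hX T
  obtain ⟨D, lam, hD, htan, hlin⟩ := T.ex
  have hN := WinU954.nprof_of_ext (H.sh.d0.le.trans H.sh.R_pos) (H.extK (|θ 0| + |θ 1|))
  have L : Kg330.LinTanM (Leg monL R) (fun _ : Unit => ν) () X h rz rX rH rF gC
      gP gE gB gD := ⟨T.hpos, T.h0, D, lam, hD, htan,
        fun z D C P E B X H F hm => hlin z D C P E B X H F hm⟩
  have HB := D0bs332.bsMC_mv H hv0 hv1 ha hB hE hn hX T.hpos T.h0
  have hz : bx9 1 0 0 0 0 0 0 0 0 ∈ LM := uZ_mem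
  have hown := D0bs332.own_mv H hv0 hv1 hB hE hX T.hpos T.h0 (hD zero_mem) one_pos (hD hz)
    (htan ())
  rw [hlin _ _ _ _ _ _ _ _ _ hz] at hown
  obtain ⟨f1, f2, f3, f4, f5⟩ := Kg330.factsMC hN
    (fun n => Sd369.coc_N B lev w w0 sa sb fl n) hs0 hs1 (f := fun _ : Unit => ν) (j0 := ()) rfl
    HB L
  have hw := D0bs332.nat_walls hn
  refine ⟨by linarith, fun hC => ⟨?_, ?_⟩, fun hDD => ?_, fun hP => ?_⟩
  · exact (f1 (fun n => (hw n).1) (fun n => (hw n).2.1)).1 hC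
  · exact (f3 (fun n => (hw n).2.2.1)).1 hC
  · exact (f5 (fun n => (hw n).2.2.2.2.2)).1 hDD
  · exact (f2 (fun n => (hw n).2.2.2.2.1)).2 hP

/-! ### the change of the plane -/

/-- the linear change `(t, v) ↦ (-a v, t + (1 + a) v)` -/
noncomputable def TT (a : ℝ) (ha : a ≠ 0) : (ℝ × ℝ) ≃ₗ[ℝ] (ℝ × ℝ) where
  toFun y := (-(a * y.2), y.1 + (1 + a) * y.2)
  map_add' x y := by ext <;> simp <;> ring
  map_smul' c x := by ext <;> simp <;> ring
  invFun z := (z.2 + (1 + a) / a * z.1, -(z.1 / a))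
  left_inv y := by
    ext
    · simp only []
      field_simp
      ring
    · simp only []
      field_simp
  right_inv z := by
    ext
    · simp only []
      field_simp
    · simp only []
      field_simp
      ring

theorem TT_apply (a : ℝ) (ha : a ≠ 0) (y : ℝ × ℝ) :
    TT a ha y = (-(a * y.2), y.1 + (1 + a) * y.2) := rfl

theorem TT_symm (a : ℝ) (ha : a ≠ 0) (z : ℝ × ℝ) :
    (TT a ha).symm z = (z.2 + (1 + a) / a * z.1, -(z.1 / a)) := rfl

theorem TT_qmp (a : ℝ) (ha : a ≠ 0) :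
    Measure.QuasiMeasurePreserving (fun y => TT a ha y) (volume : Measure (ℝ × ℝ)) volume :=
  Measure.LinearMap.quasiMeasurePreserving volume ((TT a ha : (ℝ × ℝ) ≃ₗ[ℝ] (ℝ × ℝ)) : (ℝ × ℝ) →ₗ[ℝ] (ℝ × ℝ))
    (LinearEquiv.isUnit_det' (TT a ha)).ne_zero

theorem X_TT (a : ℝ) (ha : a ≠ 0) (w0 sa sb : ℝ) (y : ℝ × ℝ) :
    Dg262.X (natB w0 (sa + a) (sb + (2 * a - 1))) (natB 1 1 3) (natB 1 0 1) (TT a ha y) =
      nb w0 sa sb (y.2 + y.1) (a * (1 - y.2)) ((2 * a - 1) * (1 - y.2) + y.1) := by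
  obtain ⟨t, v⟩ := y
  rw [TT_apply, X_nat, nb_natB]
  congr 1 <;> ring

theorem X_TT' (a : ℝ) (ha : a ≠ 0) (w0 sa sb : ℝ) (y : ℝ × ℝ) :
    Dg262.X (natB w0 (sa + a) (sb + (2 * a - 1))) (natB 1 1 3) (natB 1 0 1) (TT a ha y) =
      Dg262.X (rL a (2 * a - 1) w0 sa sb 0) (natB 1 0 1) (natB 1 (-a) (-(2 * a - 1))) y := by
  obtain ⟨t, v⟩ := y
  rw [X_TT, D0e570.X_nb]

/-- the derivative is carried by the change of the plane -/
theorem TT_deriv {F : (Fin 12 → ℝ) → ℝ} {a w0 sa sb : ℝ} (ha : a ≠ 0) {y : ℝ × ℝ}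
    {D : ℝ × ℝ →L[ℝ] ℝ}
    (h : HasFDerivAt (fun y => F (Dg262.X (rL a (2 * a - 1) w0 sa sb 0) (natB 1 0 1)
      (natB 1 (-a) (-(2 * a - 1))) y)) D y) :
    ∃ D' : ℝ × ℝ →L[ℝ] ℝ, D' (0, 1) = D (1, 0) ∧
      HasFDerivAt (fun y => F (Dg262.X (natB w0 (sa + a) (sb + (2 * a - 1))) (natB 1 1 3)
        (natB 1 0 1) y)) D' (TT a ha y) := by
  set e := (TT a ha).toContinuousLinearEquiv with he
  have e1 : ∀ z, e z = TT a ha z := fun z => rfl
  have e2 : ∀ z, e.symm z = (TT a ha).symm z := fun z => rfl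
  refine ⟨D.comp (e.symm : (ℝ × ℝ) →L[ℝ] (ℝ × ℝ)), ?_, ?_⟩
  · rw [ContinuousLinearMap.comp_apply, ContinuousLinearEquiv.coe_coe, e2, TT_symm]
    congr 1
    ext <;> simp
  · have h1 : HasFDerivAt (fun z => (e.symm : (ℝ × ℝ) →L[ℝ] (ℝ × ℝ)) z)
        (e.symm : (ℝ × ℝ) →L[ℝ] (ℝ × ℝ)) (TT a ha y) :=
      (e.symm : (ℝ × ℝ) →L[ℝ] (ℝ × ℝ)).hasFDerivAt
    have h2 : (e.symm : (ℝ × ℝ) →L[ℝ] (ℝ × ℝ)) (TT a ha y) = y := by
      rw [ContinuousLinearEquiv.coe_coe, e2]; exact (TT a ha).symm_apply_apply y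
    have h3 := HasFDerivAt.comp (TT a ha y) (g := fun y => F (Dg262.X (rL a (2 * a - 1) w0 sa sb 0)
      (natB 1 0 1) (natB 1 (-a) (-(2 * a - 1))) y)) (by rw [h2]; exact h) h1
    refine h3.congr_of_eventuallyEq (Eventually.of_forall fun z => ?_)
    show F _ = F _
    congr 1
    have h4 := X_TT' a ha w0 sa sb ((TT a ha).symm z)
    rw [(TT a ha).apply_symm_apply] at h4
    rw [h4]
    rfl

/-- **the set of `D`-live heights is locally null**, `β_D = 0`, `s < 1/2`, `E` invisible -/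
theorem loc_zero {η : ℝ}
    (H : CtxT G L r (g + 2 * s) s θ q Rg B I lev A f b vm w fr fl sc w0 sa sb δ R I0 I' ν own c₀)
    (N : NumL η g s θ q) (hη : η ≤ 1)
    (hR0 : w0 + (θ 1 + sb) < R) (hR1 : w0 + 1 + sb < R)
    (hRg : θ 0 + |θ 1| + 1 ≤ Rg) (hV1 : InvT PL B I 1 fl (sc 1)) (hV2 : InvT PL B I 2 fl (sc 2))
    (s2 : s < 1 / 2) (hβ : 2 * θ 0 - θ 1 = 1) {v0 : ℝ} (hv0 : 0 < v0) (hv1 : v0 < 1) :
    ∃ v1 v2 : ℝ, v1 < v0 ∧ v0 < v2 ∧ ∀ ρ : ℝ, 0 < ρ →
      volume {v : ℝ | v ∈ Ioo v1 v2 ∧ ∃ᶠ y in 𝓝[>] (0:ℝ), ρ * y ≤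
        ν (rL (θ 0) (θ 1) w0 sa sb v) - ν (rL (θ 0) (θ 1) w0 sa sb v + y • uD)} = 0 := by
  classical
  have hθ : 0 < θ 0 := N.θa
  have hθ1 : θ 1 = 2 * θ 0 - 1 := by linarith
  have n2 : ¬ VisT B I fl sc 2 := fun h => h hV2
  obtain ⟨κ, hκ, hn⟩ := D0p878.near_box H hR0 hR1 hθ hRg hv0 hv1
  obtain ⟨M, hM1, hMa, hMb⟩ : ∃ M : ℝ, 1 ≤ M ∧ θ 0 ≤ M ∧ |θ 1| ≤ M :=
    ⟨1 + θ 0 + |θ 1|, by linarith [abs_nonneg (θ 1)], by linarith [abs_nonneg (θ 1)], by linarith⟩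
  obtain ⟨d, hd, hdκ, hd0, hd1⟩ : ∃ d : ℝ, 0 < d ∧ 8 * (M * d) ≤ κ ∧ d < v0 / 2 ∧ d < 1 - v0 := by
    refine ⟨min (κ / (8 * M)) (min (v0 / 3) ((1 - v0) / 2)), lt_min (by positivity)
      (lt_min (by positivity) (by linarith)), ?_, ?_, ?_⟩
    · have h1 : min (κ / (8 * M)) (min (v0 / 3) ((1 - v0) / 2)) ≤ κ / (8 * M) := min_le_left _ _
      rw [le_div_iff₀ (by positivity)] at h1
      linarith
    · have h1 := (min_le_right (κ / (8 * M)) (min (v0 / 3) ((1 - v0) / 2))).trans (min_le_left _ _)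
      linarith
    · have h1 := (min_le_right (κ / (8 * M)) (min (v0 / 3) ((1 - v0) / 2))).trans (min_le_right _ _)
      linarith
  have hdM : d ≤ M * d := le_mul_of_one_le_left hd.le hM1
  have dev : ∀ v : ℝ, v ∈ Icc (v0 - d) (v0 + d) → |v - v0| ≤ κ / 8 ∧
      |θ 0 * (v - v0)| ≤ κ / 8 ∧ |θ 1 * (v - v0)| ≤ κ / 8 := by
    intro v hv
    have h1 : |v - v0| ≤ d := by rw [abs_le]; constructor <;> linarith [hv.1, hv.2]
    refine ⟨by linarith, ?_, ?_⟩
    · rw [abs_mul, abs_of_pos hθ]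
      have := mul_le_mul hMa h1 (abs_nonneg _) (by linarith)
      linarith
    · rw [abs_mul]
      have := mul_le_mul hMb h1 (abs_nonneg _) (by linarith)
      linarith
  have hvI : ∀ v : ℝ, v ∈ Icc (v0 - d) (v0 + d) → v0 / 2 < v ∧ v < 1 := fun v hv =>
    ⟨by linarith [hv.1], by linarith [hv.2]⟩
  -- boxes
  have hns : ∀ v : ℝ, v ∈ Icc (v0 - d) (v0 + d) → ∀ x z : ℝ, |x| ≤ κ / 2 →
      |z| ≤ κ / 2 → ∀ k, 0 < natB (w0 + v + x) (sa + θ 0 * (1 - v))
        (sb + θ 1 * (1 - v) + z) k ∧ natB (w0 + v + x) (sa + θ 0 * (1 - v))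
        (sb + θ 1 * (1 - v) + z) k < R := by
    intro v hv x z hx hz
    obtain ⟨a1, a2, a3⟩ := dev v hv
    rw [abs_le] at a1 a2 a3 hx hz
    have b1 : |w0 + v + x - (w0 + v0)| ≤ κ := by
      rw [abs_le]; constructor <;> linarith [a1.1, a1.2, hx.1, hx.2]
    have b2 : |sa + θ 0 * (1 - v) - (sa + θ 0 * (1 - v0))| ≤ κ := by
      rw [abs_le]; constructor <;> linarith [a2.1, a2.2]
    have b3 : |sb + θ 1 * (1 - v) + z - (sb + θ 1 * (1 - v0))| ≤ κ := by
      rw [abs_le]; constructor <;> linarith [a3.1, a3.2, hz.1, hz.2]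
    exact (hn _ _ _ b1 b2 b3).1
  have hlipν : ∀ j : Unit, ∀ p ∈ Leg monL R, ∀ q ∈ Leg monL R,
      |(fun _ : Unit => ν) j p - (fun _ : Unit => ν) j q| ≤ (12:ℝ) * ‖p - q‖ := by
    intro j p hp q hq
    have h1 := Rcx363.fo_lip H 0 p hp q hq
    rw [dist_eq_norm] at h1
    exact h1
  have hmono : ∀ p ∈ Leg monL R, ∀ q ∈ Leg monL R, p ≤ q →
      (fun _ : Unit => ν) () q ≤ (fun _ : Unit => ν) () p ∧
      (fun _ : Unit => ν) () p - (fun _ : Unit => ν) () q ≤ ∑ i, (q i - p i) := by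
    intro p hp q hq hpq
    have h1 := H.ext.lip p hp q hq hpq
    exact ⟨by show ν q ≤ ν p; linarith [h1.1], h1.2⟩
  refine ⟨v0 - d, v0 + d, by linarith, by linarith, fun ρ hρ => ?_⟩
  set E : Set ℝ := {v : ℝ | v ∈ Ioo (v0 - d) (v0 + d) ∧ ∃ᶠ y in 𝓝[>] (0:ℝ), ρ * y ≤
        ν (rL (θ 0) (θ 1) w0 sa sb v) - ν (rL (θ 0) (θ 1) w0 sa sb v + y • uD)} with hE
  obtain ⟨t0, ht0, ht1, ht2⟩ : ∃ t0 : ℝ, 0 < t0 ∧ t0 ≤ κ / 2 ∧ t0 ≤ v0 / 2 :=
    ⟨min (κ / 2) (v0 / 2), lt_min (by linarith) (by linarith), min_le_left _ _, min_le_right _ _⟩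
  have hEI : E ⊆ Ioo 0 1 := by
    intro v hv
    have := hvI v ⟨hv.1.1.le, hv.1.2.le⟩
    exact ⟨by linarith, this.2⟩
  have key := D0e570.end_null H N hη hR0 hR1 hRg ht0 (E := E) ?_
  · rwa [inter_eq_left.2 hEI] at key
  have h0 := loc0 (J := Unit) (f := fun _ : Unit => ν) (j0 := ()) (R := R) (K := 12)
    (by norm_num) hlipν hmono H.ext.submod w0 (sa + θ 0) (sb + (2 * θ 0 - 1)) (s := s)
    (by linarith)
  have h0' := (TT_qmp (θ 0) hθ.ne').ae h0
  filter_upwards [h0'] with y hy hy1 hy2 hyE D hD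
  obtain ⟨t, v⟩ := y
  have hy1' : -t0 < t := hy1
  have hy2' : t < 0 := hy2
  have hvE : v ∈ E := hyE
  have hvc : v ∈ Icc (v0 - d) (v0 + d) := ⟨hvE.1.1.le, hvE.1.2.le⟩
  obtain ⟨c1, c2⟩ := hvI v hvc
  rw [hθ1] at hD
  obtain ⟨D', eD, hD'⟩ := TT_deriv (w0 := w0) (sa := sa) (sb := sb) hθ.ne' hD
  have ex := X_TT (θ 0) hθ.ne' w0 sa sb (t, v)
  simp only [] at ex
  rw [← hθ1] at ex
  rw [← hθ1] at hy hD'
  rw [ex] at hy
  have en : nb w0 sa sb (v + t) (θ 0 * (1 - v)) (θ 1 * (1 - v) + t) =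
      natB (w0 + v + t) (sa + θ 0 * (1 - v)) (sb + θ 1 * (1 - v) + t) := by
    rw [nb_natB]
    congr 1 <;> ring
  have tabs : |t| ≤ κ / 2 := by rw [abs_le]; constructor <;> linarith
  have hbox := hns v hvc t t tabs tabs
  have hp : natB (w0 + v + t) (sa + θ 0 * (1 - v)) (sb + θ 1 * (1 - v) + t) ∈ Leg monL R :=
    nat_leg (fun k => (hbox k).1.le) fun k => (hbox k).2.le
  have hbox0 := hns v hvc 0 0 (by rw [abs_zero]; linarith) (by rw [abs_zero]; linarith)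
  rw [add_zero, add_zero] at hbox0
  have hq : natB (w0 + v) (sa + θ 0 * (1 - v)) (sb + θ 1 * (1 - v)) ∈ Leg monL R :=
    nat_leg (fun k => (hbox0 k).1.le) fun k => (hbox0 k).2.le
  have hle : natB (w0 + v + t) (sa + θ 0 * (1 - v)) (sb + θ 1 * (1 - v) + t) ≤
      natB (w0 + v) (sa + θ 0 * (1 - v)) (sb + θ 1 * (1 - v)) :=
    natB_le (by linarith) le_rfl (by linarith)
  rw [← eD]
  refine hy ?_ ?_ (q 0) ρ N.qa hρ ?_ ?_ D' hD'
  · rw [en]; exact hbox
  · refine factN_T H N.s0 N.s1.le (by linarith) (by linarith) (mul_pos hθ (by linarith))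
      (fun _ => ?_) (fun h => (h.elim (fun h => h hV2) (fun h => h hV1)).elim)
    rw [hθ1]
    nlinarith
  · rw [en]
    have h1 := D0p878.hC_T H hR0 hR1 hθ hRg hV1 (fun _ => by linarith) (fun h => absurd h n2)
      (v := v) (by linarith) c2
    rw [D0r708.rL_natB] at h1
    have h2 := incr_le H.ext.submod hp hq hle uC_nonneg uC_z
      (fun k hk => by
        fin_cases k <;> first
          | (exfalso; apply hk; simp [uC, bx9]; done)
          | (simp [natB, bx9])) fun k => (hbox0 k).2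
    filter_upwards [h1, h2] with z h3 h4
    linarith
  · rw [en]
    have h1 := hvE.2
    rw [D0r708.rL_natB] at h1
    have h2 := incr_le H.ext.submod hp hq hle uD_nonneg uD_z
      (fun k hk => by
        fin_cases k <;> first
          | (exfalso; apply hk; simp [uD, bx9]; done)
          | (simp [natB, bx9]; ring)) fun k => (hbox0 k).2
    refine (h1.and_eventually h2).mono fun z hz => ?_
    linarith [hz.1, hz.2]

/-- **LEMMA D0 for `β_D = 0`, `s < 1/2`, `E` invisible** -/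
theorem d0zero {η : ℝ} (hη : η ≤ 1) : D0E η fun s θ => s < 1 / 2 ∧ 2 * θ 0 - θ 1 = 1 := by
  intro G L r g s θ q Rg B I lev A f b vm w fr fl sc w0 sa sb δ R I0 I' ν own c₀ H N hX hR0 hR1 hRg
    hV1 hV2 h78
  exact D0p878.mic_of H hR0 hR1 fun v0 a1 a2 => loc_zero H N hη hR0 hR1 hRg hV1 hV2 hX.1 hX.2
    a1 a2

end ctx

end Crest.Agent.R116.D0z899
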