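import Crest.Agent.R116.F1c2_124
import Crest.Agent.R116.CWd3_480

/-!
# R116 (S0155): (F2) for the cone packets (helper124)

One child cap `m'` of size `ρ' ≥ ρ`, any slowly varying weight `w` (metric `A` dominated by the
plates of the near parent caps):
* `f2_syn` : synthesised waves, `f2_sel` : selected waves `selc η0 κ ρ g S`,
* `f2_root_s`, `f2_root_u` : functions (sliced / unsliced).
-/

set_option autoImplicit false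
set_option linter.unusedSectionVars false

open MeasureTheory FourierTransform
open scoped ContDiff ENNReal

namespace Crest.Agent.R116.F1c124

open Crest.Agent.R138.Wf448
open Crest.Agent.R138.Defs (E2 ee)
open Crest.Agent.R138.Wpk685 (win fat cen caps)
open Crest.Agent.R138.Loc878 (Near nearL mem_nearL capwin_prod)
open Crest.Agent.R116.CWp480 Crest.Agent.R116.CDef480 Crest.Agent.R116.CWc480
open Crest.Agent.R116.CWd480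

/-! ### representation through the composite window -/

section rep

variable {N : ℕ} {Q ρ ρ' : ℝ} {e : E3 → ℂ} {C C' : E2} {B : E3 ≃L[ℝ] E3} {c : E3}

theorem Pc.zero (h : Pc N Q ρ ρ' 0 e C C' B c) : ∃ a, Win N Q a ∧
    ∀ ζ, Crest.Agent.R138.Wpk685.cap win C' ρ' (slp ζ) *
      (Crest.Agent.R138.Wpk685.cap fat C ρ (slp ζ) * e ζ) = CWp480.cap a c B ζ := by
  obtain ⟨a, ha, hid⟩ := h.wn
  refine ⟨a, ha, fun ζ => ?_⟩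
  have := hid ζ
  rw [zero_mul, ee_zero, mul_one, zero_smul, inner_zero_left, ee_zero, mul_one] at this
  exact this

/-- composite window applied to a synthesised piece. -/
theorem Pc.rep_piece (h : Pc N Q ρ ρ' 0 e C C' B c) {v : E3 → ℂ} (hv : Integrable v) {M : ℝ}
    (hM : ∀ y, ‖v y‖ ≤ M) :
    Rep N Q B c (fun ζ => Crest.Agent.R138.Wpk685.cap win C' ρ' (slp ζ) *
      (Crest.Agent.R138.Wpk685.cap fat C ρ (slp ζ) * e ζ * 𝓕 v ζ)) v := by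
  obtain ⟨a, ha, hca⟩ := h.zero
  have e1 : (fun ζ => Crest.Agent.R138.Wpk685.cap win C' ρ' (slp ζ) *
      (Crest.Agent.R138.Wpk685.cap fat C ρ (slp ζ) * e ζ * 𝓕 v ζ)) =
      fun ζ => CWp480.cap a c B ζ * 𝓕 v ζ := by
    funext ζ
    rw [← hca]
    ring
  rw [e1]
  have hb : ∀ ξ, ‖𝓕 v ξ‖ ≤ ∫ y, ‖v y‖ := fun ξ =>
    VectorFourier.norm_fourierIntegral_le_integral_norm _ _ _ _ _
  have hc : Continuous (𝓕 v) := VectorFourier.fourierIntegral_continuous Real.continuous_fourierChar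
    (by exact continuous_inner) hv
  obtain ⟨h1, h2⟩ := cap_bdd_l2 ha c B hc.aestronglyMeasurable hb
  exact ⟨h1, h2, hv.1, ⟨M, hM⟩, a, ha, fun x => rep_ind (cap_int ha c B) hv x⟩


end rep

/-! ### the core -/

theorem f2_core {a M : ℝ} (n : ℕ) {T L Q : ℝ} (ha : 1 ≤ a) (hM : 0 ≤ M) (hL : 1 ≤ L) (hQ : 0 < Q)
    (Q' : ℝ) :
    ∃ Cst : ℝ, 0 ≤ Cst ∧ ∀ (ρ ρ' κ η0 : ℝ) (hρ : 0 < ρ) (hκ : 0 < κ), κ ≤ 1 → ∀ (e : E3 → ℂ),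
      PkF (n + dd E3) Q T a M η0 κ ρ ha hM hρ hκ e →
    ∀ (A : E3 ≃L[ℝ] E3) (K : ℝ) (w : E3 → ℝ), SV A K n w → ∀ m' : ℤ × ℤ,
    (∀ m ∈ nearL ρ ρ' m', ∀ x, ‖A x‖ ≤ L * ‖Pl ρ κ hρ hκ (cen ρ m) x‖) →
    ∀ z : E3 × ℝ, |z.2| * ρ ^ 2 ≤ T →
    ∀ (F v : ℤ × ℤ → E3 → ℂ),
    (∀ m ∈ nearL ρ ρ' m', ∀ ξ, F m ξ ≠ 0 → ξ ∈ Sd a M η0 κ ρ (cen ρ m)) →
    (∀ m ∈ nearL ρ ρ' m', Rep (n + dd E3) Q'
      (Fr (lam a M) ρ κ (lam_pos ha hM) hρ hκ (cen ρ m)) (ctr η0 (cen ρ m))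
      (fun ζ => capc ρ' m' ζ * F m ζ) (v m)) →
    ∀ G : E3 → ℂ, (∀ ζ, capc ρ' m' ζ * G ζ = ∑ m ∈ nearL ρ ρ' m', capc ρ' m' ζ * F m ζ) →
    ∫⁻ x, ENNReal.ofReal (w x) * ‖umc ρ' (trc z G) m' x‖ₑ ^ 2 ≤ ENNReal.ofReal (Cst * K ^ 5) *
      ∑ m ∈ nearL ρ ρ' m', ∫⁻ y,
        ENNReal.ofReal (w (y - z.1 - z.2 • vel (cen ρ m))) * ‖v m y‖ₑ ^ 2 := by
  obtain ⟨C0, hC0, h⟩ := thmAc n (T := T) ha hM hL hQ
  refine ⟨C0 * Pov a * Q' ^ 2, by have := Pov_pos a; positivity, ?_⟩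
  intro ρ ρ' κ η0 hρ hκ hκ1 e hpk A K w hw m' hA z hz F v hF hR G hG
  have e1 : ∫⁻ x, ENNReal.ofReal (w x) * ‖umc ρ' (trc z G) m' x‖ₑ ^ 2 =
      WE (fun x => w (x - z.1))
        (slc (fun ζ => ∑ m ∈ nearL ρ ρ' m', capc ρ' m' ζ * F m ζ) z.2) := by
    refine WE_modulate w z.1 (f := slc (fun ζ => ∑ m ∈ nearL ρ ρ' m', capc ρ' m' ζ * F m ζ) z.2)
      (f' := fun ζ => capc ρ' m' ζ * trc z G ζ) fun ξ => ?_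
    have e2 : slc (fun ζ => ∑ m ∈ nearL ρ ρ' m', capc ρ' m' ζ * F m ζ) z.2 ξ =
        (capc ρ' m' ξ * G ξ) * ee (z.2 * hc ξ) := by
      unfold slc
      rw [hG ξ]
    rw [e2]
    unfold trc
    rw [ee_add]
    ring
  rw [e1]
  refine (h ρ κ η0 hρ hκ hκ1 e A K _ (hw.comp_sub z.1) (ℤ × ℤ) (nearL ρ ρ' m') (cen ρ) (Pov a)
    (Pov_pos a) (hov_cen hρ _) hA z.2 hz (fun m _ => hpk _)
    (fun m ζ => capc ρ' m' ζ * F m ζ) v Q' ?_ hR).trans (le_of_eq ?_)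
  · intro m hm ξ hξ
    exact hF m hm ξ (right_ne_zero_of_mul hξ)
  · congr 1
    · congr 1
      ring
    · refine Finset.sum_congr rfl fun m _ => lintegral_congr fun y => ?_
      rw [show y - z.2 • vel (cen ρ m) - z.1 = y - z.1 - z.2 • vel (cen ρ m) by abel]

/-- far parent caps do not see the child cap. -/
theorem syn_near {ρ ρ' : ℝ} (hρ : 0 < ρ) (hρ' : ρ ≤ ρ') (e : E3 → ℂ) (V : ℤ × ℤ → E3 → ℂ)
    (m' : ℤ × ℤ) (ζ : E3) :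
    capc ρ' m' ζ * ∑ m ∈ caps ρ, fatc ρ m ζ * e ζ * V m ζ =
      ∑ m ∈ nearL ρ ρ' m', capc ρ' m' ζ * (fatc ρ m ζ * e ζ * V m ζ) := by
  classical
  rw [Finset.mul_sum]
  unfold nearL
  rw [Finset.sum_filter_of_ne]
  intro m _ hne
  by_contra hc
  have h6 : capc ρ' m' ζ * fatc ρ m ζ = 0 := capwin_fat_far hρ hρ' hc (slp ζ)
  apply hne
  calc _ = (capc ρ' m' ζ * fatc ρ m ζ) * (e ζ * V m ζ) := by ring
    _ = 0 := by rw [h6, zero_mul]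


/-! ### final forms -/

/-- **(F2), synthesis**. -/
theorem f2_syn {a : ℝ} (ha : 1 ≤ a) (n : ℕ) (T : ℝ) {L : ℝ} (hL : 1 ≤ L) :
    ∃ Cst : ℝ, 0 ≤ Cst ∧ ∀ (ρ ρ' κ η0 : ℝ) (hρ : 0 < ρ) (_ : ρ ≤ ρ') (hκ : 0 < κ), a⁻¹ ≤ η0 →
      η0 ≤ a → κ ≤ (4 * a)⁻¹ →
    ∀ (A : E3 ≃L[ℝ] E3) (K : ℝ) (w : E3 → ℝ), SV A K n w → ∀ m' : ℤ × ℤ,
    (∀ m ∈ nearL ρ ρ' m', ∀ x, ‖A x‖ ≤ L * ‖Pl ρ κ hρ hκ (cen ρ m) x‖) →
    ∀ z : E3 × ℝ, |z.2| * ρ ^ 2 ≤ T →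
    ∀ v : ℤ × ℤ → E3 → ℂ, (∀ m ∈ nearL ρ ρ' m', Integrable (v m)) →
      (∀ m ∈ nearL ρ ρ' m', ∃ B, ∀ y, ‖v m y‖ ≤ B) →
    ∫⁻ x, ENNReal.ofReal (w x) *
      ‖umc ρ' (trc z fun ζ => ∑ m ∈ caps ρ, fatc ρ m ζ * etw η0 κ ζ * 𝓕 (v m) ζ) m' x‖ₑ ^ 2 ≤
      ENNReal.ofReal (Cst * K ^ 5) * ∑ m ∈ nearL ρ ρ' m', ∫⁻ y,
        ENNReal.ofReal (w (y - z.1 - z.2 • vel (cen ρ m))) * ‖v m y‖ₑ ^ 2 := by
  obtain ⟨Q, hQ, hF⟩ := pkF_sliced ha (n + dd E3) T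
  obtain ⟨Q', K', hK', hP⟩ := kn_sliced ha (n + dd E3) (max T 0)
  obtain ⟨C0, hC0, h⟩ := f2_core (a := 2 * a) (M := 2) n (T := T) (L := L) (Q := Q)
    (by linarith) (by norm_num) hL hQ Q'
  refine ⟨C0, hC0, ?_⟩
  intro ρ ρ' κ η0 hρ hρ' hκ h1 h2 h3 A K w hw m' hA z hz v hv hb
  have h4 : κ ≤ 1 := h3.trans (inv_le_one_of_one_le₀ (by linarith))
  have hpk := hF η0 κ h1 h2 hκ h3 ρ hρ
  refine h ρ ρ' κ η0 hρ hκ h4 (etw η0 κ) hpk A K w hw m' hA z hz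
    (fun m ζ => fatc ρ m ζ * etw η0 κ ζ * 𝓕 (v m) ζ) v ?_ ?_ _ (syn_near hρ hρ' _ _ m')
  · intro m _ ξ hξ
    exact (hpk (cen ρ m)).sf ξ (left_ne_zero_of_mul hξ)
  · intro m hm
    obtain ⟨B, hB⟩ := hb m hm
    exact (hP η0 κ h1 h2 hκ h3 ρ ρ' 0 hρ hρ' (by simp) _ _
      (mem_nearL.1 hm).2.le).1.rep_piece (hv m hm) hB

/-- **(F2), selected waves**. -/
theorem f2_sel {a : ℝ} (ha : 1 ≤ a) (n : ℕ) (T : ℝ) {L : ℝ} (hL : 1 ≤ L) :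
    ∃ Cst : ℝ, 0 ≤ Cst ∧ ∀ (ρ ρ' κ η0 : ℝ) (hρ : 0 < ρ) (_ : ρ ≤ ρ') (hκ : 0 < κ), a⁻¹ ≤ η0 →
      η0 ≤ a → κ ≤ (4 * a)⁻¹ →
    ∀ (A : E3 ≃L[ℝ] E3) (K : ℝ) (w : E3 → ℝ), SV A K n w → ∀ m' : ℤ × ℤ,
    (∀ m ∈ nearL ρ ρ' m', ∀ x, ‖A x‖ ≤ L * ‖Pl ρ κ hρ hκ (cen ρ m) x‖) →
    ∀ z : E3 × ℝ, |z.2| * ρ ^ 2 ≤ T →
    ∀ (g : E3 → ℂ) (S : ℤ × ℤ → Set E3), Integrable g → (∀ m ∈ caps ρ, MeasurableSet (S m)) →
    (∀ m ∈ caps ρ, Bornology.IsBounded (S m)) →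
    ∫⁻ x, ENNReal.ofReal (w x) * ‖umc ρ' (trc z (selc η0 κ ρ g S)) m' x‖ₑ ^ 2 ≤
      ENNReal.ofReal (Cst * K ^ 5) * ∑ m ∈ nearL ρ ρ' m', ∫⁻ y in S m,
        ENNReal.ofReal (w (y - z.1 - z.2 • vel (cen ρ m))) * ‖umc ρ g m y‖ₑ ^ 2 := by
  obtain ⟨C0, hC0, h⟩ := f2_syn ha n T hL
  refine ⟨C0, hC0, ?_⟩
  intro ρ ρ' κ η0 hρ hρ' hκ h1 h2 h3 A K w hw m' hA z hz g S hg hS hSb
  have hsc : ∀ m ∈ nearL ρ ρ' m', m ∈ caps ρ := fun m hm => (mem_nearL.1 hm).1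
  have hi := fun m (hm : m ∈ nearL ρ ρ' m') => CWd480.ind_int
    (CWd480.umc_cont hg ρ m).aestronglyMeasurable (umc_le ρ m) (hS m (hsc m hm)) (hSb m (hsc m hm))
  have h4 := h ρ ρ' κ η0 hρ hρ' hκ h1 h2 h3 A K w hw m' hA z hz
    (fun m => (S m).indicator (umc ρ g m)) (fun m hm => (hi m hm).1) (fun m hm => ⟨_, (hi m hm).2⟩)
  refine h4.trans (le_of_eq ?_)
  congr 1
  refine Finset.sum_congr rfl fun m hm => ?_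
  rw [← lintegral_indicator (hS m (hsc m hm))]
  refine lintegral_congr fun y => ?_
  by_cases hy : y ∈ S m
  · rw [Set.indicator_of_mem hy, Set.indicator_of_mem hy]
  · rw [Set.indicator_of_notMem hy, Set.indicator_of_notMem hy]
    simp



end Crest.Agent.R116.F1c124
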