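import Mathlib
import Crest.Agent.R138.W10_298
import Crest.Agent.R116.DomC_210

-- ▼ part R116/AsmP_597
section

/-!
# R116, WAVE side: the real-number assembly with a PRICE (helper597), doc 2239 section (5)

One label sequence, levels `0 .. n`, numbers `x j = log S j / log X`, `X = 1/dl`.
Flags: `nar j` (narrow label), `gain j` (thick / dropped / misaligned: a gain `g` per level with
respect to SOME earlier level).  The slicing price `X ^ (a L)` is beaten: either many gain levels,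
or many wide blocks, or the tube form on almost all blocks (potential with resets).
-/

set_option autoImplicit false

namespace Crest.Agent.R116.AsmP597

open Finset

/-- trivial growth. -/
theorem triv {n : ℕ} {c e : ℝ} (x : ℕ → ℝ)
    (hG : ∀ j, j < n → x (j + 1) ≤ x j + c / 2 + e) (a : ℕ) :
    ∀ m : ℕ, a + m ≤ n → x (a + m) ≤ x a + m * (c / 2 + e) := by
  intro m
  induction m with
  | zero => intro _; simp
  | succ m ih =>
    intro h
    have h1 := ih (by omega)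
    have h2 := hG (a + m) (by omega)
    have e1 : a + (m + 1) = a + m + 1 := by ring
    rw [e1]
    push_cast
    linarith

theorem triv' {n : ℕ} {c e : ℝ} (x : ℕ → ℝ)
    (hG : ∀ j, j < n → x (j + 1) ≤ x j + c / 2 + e) {a b : ℕ} (hab : a ≤ b) (hb : b ≤ n) :
    x b ≤ x a + ((b : ℝ) - a) * (c / 2 + e) := by
  have := triv x hG a (b - a) (by omega)
  rw [show a + (b - a) = b by omega, Nat.cast_sub hab] at this
  exact this

/-- **many gain levels.** -/
theorem count_gain {n : ℕ} {c e g : ℝ} (he : 0 ≤ e) (hg : 0 ≤ g) (x : ℕ → ℝ) (gain : ℕ → Prop)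
    [DecidablePred gain]
    (hG : ∀ j, j < n → x (j + 1) ≤ x j + c / 2 + e)
    (hgain : ∀ j, j ≤ n → gain j → 1 ≤ j → ∃ i, i < j ∧ x j ≤ x i + (c / 2 - g) * ((j : ℝ) - i) + e) :
    ∀ m : ℕ, m ≤ n →
      x m ≤ x 0 + c / 2 * m - g * (((Finset.Icc 1 m).filter gain).card : ℝ) + m * e := by
  intro m
  induction m using Nat.strong_induction_on with
  | _ m ih =>
    intro hm
    rcases Nat.eq_zero_or_pos m with h0 | h0
    · subst h0; simp
    by_cases hgm : gain m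
    · obtain ⟨i, hi, hx⟩ := hgain m hm hgm h0
      have h1 := ih i hi (by omega)
      have hcard : ((Finset.Icc 1 m).filter gain).card ≤
          ((Finset.Icc 1 i).filter gain).card + (m - i) := by
        have hsub : (Finset.Icc 1 m).filter gain ⊆
            (Finset.Icc 1 i).filter gain ∪ Finset.Icc (i + 1) m := by
          intro j hj
          simp only [Finset.mem_filter, Finset.mem_Icc, Finset.mem_union] at hj ⊢
          by_cases hji : j ≤ i
          · exact Or.inl ⟨⟨hj.1.1, hji⟩, hj.2⟩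
          · exact Or.inr ⟨by omega, hj.1.2⟩
        calc ((Finset.Icc 1 m).filter gain).card
            ≤ ((Finset.Icc 1 i).filter gain ∪ Finset.Icc (i + 1) m).card :=
              Finset.card_le_card hsub
          _ ≤ ((Finset.Icc 1 i).filter gain).card + (Finset.Icc (i + 1) m).card :=
              Finset.card_union_le _ _
          _ = _ := by rw [Nat.card_Icc]; omega
      have hcardR : ((((Finset.Icc 1 m).filter gain).card : ℕ) : ℝ) ≤
          (((Finset.Icc 1 i).filter gain).card : ℝ) + ((m : ℝ) - i) := by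
        have : ((((Finset.Icc 1 m).filter gain).card : ℕ) : ℝ) ≤
          (((((Finset.Icc 1 i).filter gain).card + (m - i) : ℕ)) : ℝ) := by exact_mod_cast hcard
        rw [Nat.cast_add, Nat.cast_sub hi.le] at this
        exact this
      have him : (i : ℝ) + 1 ≤ m := by exact_mod_cast hi
      have h2 : g * ((((Finset.Icc 1 m).filter gain).card : ℕ) : ℝ) ≤
          g * ((((Finset.Icc 1 i).filter gain).card : ℝ) + ((m : ℝ) - i)) :=
        mul_le_mul_of_nonneg_left hcardR hg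
      have h3 : ((i : ℝ) + 1) * e ≤ m * e := mul_le_mul_of_nonneg_right him he
      nlinarith [h1, hx, h2, h3]
    · obtain ⟨i, rfl⟩ : ∃ i, m = i + 1 := ⟨m - 1, by omega⟩
      have h1 := ih i (by omega) (by omega)
      have h2 := hG i (by omega)
      have hcard : (Finset.Icc 1 (i + 1)).filter gain = (Finset.Icc 1 i).filter gain := by
        ext j
        simp only [Finset.mem_filter, Finset.mem_Icc]
        constructor
        · rintro ⟨⟨h3, h4⟩, h5⟩
          refine ⟨⟨h3, ?_⟩, h5⟩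
          rcases Nat.lt_or_ge i j with h6 | h6
          · exact absurd (by rwa [show j = i + 1 by omega] at h5) hgm
          · exact h6
        · rintro ⟨⟨h3, h4⟩, h5⟩
          exact ⟨⟨h3, by omega⟩, h5⟩
      rw [hcard]
      push_cast
      linarith

/-- telescoping with a potential. -/
theorem tele_pot (x s : ℕ → ℝ) (g : ℝ) (a m : ℕ)
    (h : ∀ j, a ≤ j → j < a + m → x (j + 1) ≤ x j + g + (s j - s (j + 1)) / 2) :
    x (a + m) ≤ x a + m * g + (s a - s (a + m)) / 2 := by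
  induction m with
  | zero => simp
  | succ m ih =>
    have h1 := ih (fun j h1 h2 => h j h1 (by omega))
    have h2 := h (a + m) (by omega) (by omega)
    rw [show a + (m + 1) = a + m + 1 by ring]
    push_cast
    linarith

/-- **many wide blocks.** -/
theorem count_wide {n K L b : ℕ} (hn : n = K * L) (hbL : b ≤ L) (hb : 1 ≤ b)
    {c e δ w : ℝ} (he : 0 ≤ e)
    (hw : w ≤ ((b : ℝ) - 1) * (c / 2 - δ) - 1 / 4)
    (x s : ℕ → ℝ) (wide : ℕ → Prop) [DecidablePred wide]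
    (hG : ∀ j, j < n → x (j + 1) ≤ x j + c / 2 + e)
    (hs : ∀ j, 1 ≤ j → j + 1 ≤ n → 0 ≤ s j ∧ s j ≤ 1 / 2 + e)
    (hS : ∀ k, 1 ≤ k → k < K → wide k → ∀ j, k * L ≤ j → j + 1 < k * L + b →
      x (j + 1) ≤ x j + (δ + e) + (s j - s (j + 1)) / 2) :
    ∀ k : ℕ, k ≤ K → x (k * L) ≤ x 0 + c / 2 * (k * L) -
      w * (((Finset.range k).filter (fun m => 1 ≤ m ∧ wide m)).card : ℝ) + k * ((L + 1) * e) := by
  have hL1 : 1 ≤ L := hb.trans hbL
  intro k
  induction k with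
  | zero => intro _; simp
  | succ k ih =>
    intro hk
    have h1 := ih (by omega)
    have hkn : k * L + L ≤ n := by
      have : (k + 1) * L ≤ K * L := Nat.mul_le_mul_right L (by omega)
      rw [hn]; linarith
    by_cases hwk : 1 ≤ k ∧ wide k
    · obtain ⟨m, hm⟩ : ∃ m, b = m + 1 := ⟨b - 1, by omega⟩
      have hkL : 1 ≤ k * L := Nat.mul_pos (by omega) (by omega)
      have h2 := tele_pot x s (δ + e) (k * L) m (fun j hj1 hj2 =>
        hS k hwk.1 (by omega) hwk.2 j hj1 (by omega))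
      have h3 := triv' x hG (a := k * L + m) (b := k * L + L) (by omega) (by omega)
      have h6 : (s (k * L) - s (k * L + m)) / 2 ≤ 1 / 4 + e / 2 := by
        rcases Nat.eq_zero_or_pos m with h | h
        · subst h
          simp only [add_zero, sub_self, zero_div]
          linarith
        · have h4 := hs (k * L) (by omega) (by omega)
          have h5 := hs (k * L + m) (by omega) (by omega)
          linarith [h4.2, h5.1]
      have hcard : (((Finset.range (k + 1)).filter (fun m => 1 ≤ m ∧ wide m)).card : ℝ) =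
          (((Finset.range k).filter (fun m => 1 ≤ m ∧ wide m)).card : ℝ) + 1 := by
        rw [Finset.range_add_one, Finset.filter_insert, if_pos hwk, Finset.card_insert_of_notMem
          (by simp)]
        push_cast; ring
      rw [hcard]
      have hbm : (b : ℝ) - 1 = m := by rw [hm]; push_cast; ring
      rw [hbm] at hw
      rw [show (k + 1) * L = k * L + L by ring]
      push_cast at h3 ⊢
      nlinarith [h1, h2, h3, h6, hw]
    · have hcard : ((Finset.range (k + 1)).filter (fun m => 1 ≤ m ∧ wide m)).card =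
          ((Finset.range k).filter (fun m => 1 ≤ m ∧ wide m)).card := by
        rw [Finset.range_add_one, Finset.filter_insert, if_neg hwk]
      rw [hcard]
      have h3 := triv' x hG (a := k * L) (b := k * L + L) (by omega) (by omega)
      rw [show (k + 1) * L = k * L + L by ring]
      push_cast at h3 ⊢
      nlinarith [h1, h3]

/-- **potential with resets**: the tube form on the blocks that contain a narrow level. -/
theorem count_nar {n K L b : ℕ} (hn : n = K * L) (hbL : b ≤ L) (hb : 1 ≤ b) (hK : 4 ≤ K)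
    {c e A q : ℝ} (he : 0 ≤ e) (hA : 0 ≤ A) (hc : 0 ≤ c) (hqc : q ≤ c)
    (hL : A * (1 + 4 * b) + 3 / 4 * c * b ≤ c / 8 * L)
    (x : ℕ → ℝ) (P : ℕ → ℕ → ℕ → ℝ) (nar : ℕ → Prop) (nb : ℕ → Prop) [DecidablePred nb]
    (hnb : ∀ k, 3 ≤ k → k < K → nb k → ∃ j, k * L ≤ j ∧ j < k * L + b ∧ nar j)
    (hG : ∀ j, j < n → x (j + 1) ≤ x j + c / 2 + e)
    (hP : ∀ h i j, 1 ≤ h → h < i → i < j → j ≤ n → j ≤ h + 4 * L →
      0 ≤ P h i j ∧ P h i j ≤ ((j : ℝ) - i) + e)
    (hT : ∀ h i j k, 1 ≤ h → h < i → i < j → j < k → k ≤ n → k ≤ h + 4 * L → nar j →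
      x j ≤ x i + (A + A * (max 0 ((i : ℝ) + k - 2 * j) + max 0 ((h : ℝ) + j - 2 * i))
        + q / 4 * ((k : ℝ) - j)) + (P h i j - P i j k) / 2 + e) :
    x n ≤ x 0 + c / 2 * n
      - c / 8 * L * (((Finset.Ico 3 K).filter nb).card : ℝ)
      + L * (((Finset.Ico 3 K).filter (fun k => ¬ nb k)).card : ℝ) + L + (3 * K) * ((L + 1) * e) := by
  classical
  have hL1 : 1 ≤ L := hb.trans hbL
  -- chosen levels
  have hch : ∀ k : ℕ, ∃ i : ℕ, (3 ≤ k → k < K → nb k → nar i) ∧ k * L ≤ i ∧ i < k * L + b ∧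
      (k ≤ 2 → i = k * L) ∧ (K ≤ k → i = k * L) := by
    intro k
    by_cases hk : 3 ≤ k ∧ k < K ∧ nb k
    · obtain ⟨j, h1, h2, h3⟩ := hnb k hk.1 hk.2.1 hk.2.2
      exact ⟨j, fun _ _ _ => h3, h1, h2, fun h => by omega, fun h => by omega⟩
    · exact ⟨k * L, fun h h' h'' => absurd ⟨h, h', h''⟩ hk, le_rfl, by omega, fun _ => rfl,
        fun _ => rfl⟩
  choose ι h1 h2 h3 h4 h5 using hch
  have hlt : ∀ k, ι k < ι (k + 1) := by
    intro k
    have a1 := h3 k
    have a2 := h2 (k + 1)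
    have a3 : (k + 1) * L = k * L + L := by ring
    omega
  have hle : ∀ k, k ≤ K → ι k ≤ n := by
    intro k hk
    rcases Nat.lt_or_ge k K with h | h
    · have a1 := h3 k
      have a3 : (k + 1) * L ≤ K * L := Nat.mul_le_mul_right L (by omega)
      have a4 : (k + 1) * L = k * L + L := by ring
      omega
    · have := h5 k h
      have a3 : k = K := by omega
      rw [this, a3, hn]
  have hrange : ∀ k, ι (k + 3) ≤ ι k + 4 * L := by
    intro k
    have a1 := h2 k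
    have a2 := h3 (k + 3)
    have a3 : (k + 3) * L = k * L + 3 * L := by ring
    omega
  -- real versions
  have r2 : ∀ k : ℕ, (k : ℝ) * L ≤ (ι k : ℝ) := fun k => by exact_mod_cast h2 k
  have r3 : ∀ k : ℕ, (ι k : ℝ) + 1 ≤ (k : ℝ) * L + b := fun k => by exact_mod_cast h3 k
  have rbL : (b : ℝ) ≤ L := by exact_mod_cast hbL
  have rb1 : (1 : ℝ) ≤ b := by exact_mod_cast hb
  have rL1 : (1 : ℝ) ≤ L := by exact_mod_cast hL1
  have hLe : 0 ≤ (L : ℝ) * e := mul_nonneg (by linarith) he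
  -- the potential
  set Φ : ℕ → ℝ := fun m => P (ι (m - 1)) (ι m) (ι (m + 1)) with hΦ
  have hι1 : ∀ m, 2 ≤ m → 1 ≤ ι (m - 1) := by
    intro m hm
    have a1 := h2 (m - 1)
    have a2 : 1 * 1 ≤ (m - 1) * L := Nat.mul_le_mul (by omega) hL1
    omega
  have hΦb : ∀ m, 2 ≤ m → m + 1 ≤ K → 0 ≤ Φ m ∧ Φ m ≤ 2 * L + e := by
    intro m hm hmK
    have a1 : ι (m - 1) < ι m := by
      have := hlt (m - 1)
      rwa [show m - 1 + 1 = m by omega] at this
    have a2 : ι (m + 1) ≤ ι (m - 1) + 4 * L := by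
      have b1 := hrange (m - 1)
      rw [show m - 1 + 3 = m + 2 by omega] at b1
      have b2 := hlt (m + 1)
      rw [show m + 1 + 1 = m + 2 by omega] at b2
      omega
    obtain ⟨b1, b2⟩ := hP (ι (m - 1)) (ι m) (ι (m + 1)) (hι1 m hm) a1 (hlt m) (hle _ hmK) a2
    refine ⟨b1, b2.trans ?_⟩
    have b3 := r3 (m + 1)
    have b4 := r2 m
    push_cast at b3
    nlinarith
  -- the steps
  have hstep : ∀ m, 2 ≤ m → m + 2 ≤ K →
      x (ι (m + 1)) - c / 2 * ι (m + 1) + Φ (m + 1) / 2 ≤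
        x (ι m) - c / 2 * ι m + Φ m / 2 + (if nb (m + 1) then - (c / 8 * L) else (L : ℝ))
          + 3 * ((L + 1) * e) := by
    intro m hm hmK
    have s1 := r2 m
    have s2 := r3 m
    have s3 := r2 (m + 1)
    have s4 := r3 (m + 1)
    have s5 := r2 (m + 2)
    have s6 := r3 (m + 2)
    push_cast at s3 s4 s5 s6
    by_cases hnbm : nb (m + 1)
    · rw [if_pos hnbm]
      have a1 : ι (m - 1) < ι m := by
        have := hlt (m - 1)
        rwa [show m - 1 + 1 = m by omega] at this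
      have a2 : ι (m + 2) ≤ ι (m - 1) + 4 * L := by
        have b1 := hrange (m - 1)
        rwa [show m - 1 + 3 = m + 2 by omega] at b1
      have s7 := r2 (m - 1)
      have s8 := r3 (m - 1)
      rw [Nat.cast_sub (by omega : 1 ≤ m)] at s7 s8
      push_cast at s7 s8
      have key := hT (ι (m - 1)) (ι m) (ι (m + 1)) (ι (m + 2)) (hι1 m hm) a1 (hlt m) (hlt (m + 1))
        (hle _ hmK) a2 (h1 (m + 1) (by omega) (by omega) hnbm)
      have t1 : max 0 ((ι m : ℝ) + ι (m + 2) - 2 * ι (m + 1)) ≤ 2 * b :=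
        max_le (by linarith) (by nlinarith)
      have t2 : max 0 ((ι (m - 1) : ℝ) + ι (m + 1) - 2 * ι m) ≤ 2 * b :=
        max_le (by linarith) (by nlinarith)
      have t3 : A * (max 0 ((ι m : ℝ) + ι (m + 2) - 2 * ι (m + 1)) +
          max 0 ((ι (m - 1) : ℝ) + ι (m + 1) - 2 * ι m)) ≤ A * (4 * b) :=
        mul_le_mul_of_nonneg_left (by linarith) hA
      have t4 : (ι (m + 2) : ℝ) - ι (m + 1) ≤ L + b := by nlinarith
      have t5 : q / 4 * ((ι (m + 2) : ℝ) - ι (m + 1)) ≤ c / 4 * (L + b) := by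
        have : 0 ≤ (ι (m + 2) : ℝ) - ι (m + 1) := by
          have : (ι (m + 1) : ℝ) ≤ ι (m + 2) := by exact_mod_cast (hlt (m + 1)).le
          linarith
        calc q / 4 * ((ι (m + 2) : ℝ) - ι (m + 1)) ≤ c / 4 * ((ι (m + 2) : ℝ) - ι (m + 1)) :=
              mul_le_mul_of_nonneg_right (by linarith) this
          _ ≤ _ := mul_le_mul_of_nonneg_left t4 (by linarith)
      have t6 : (L : ℝ) - b ≤ (ι (m + 1) : ℝ) - ι m := by nlinarith
      have t7 : c / 2 * ((L : ℝ) - b) ≤ c / 2 * ((ι (m + 1) : ℝ) - ι m) :=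
        mul_le_mul_of_nonneg_left t6 (by linarith)
      have hΦ1 : Φ (m + 1) = P (ι m) (ι (m + 1)) (ι (m + 2)) := by
        simp only [hΦ, Nat.add_sub_cancel]
      have hΦ0 : Φ m = P (ι (m - 1)) (ι m) (ι (m + 1)) := rfl
      rw [hΦ1, hΦ0]
      nlinarith [key, t3, t5, t7, hL, hLe]
    · rw [if_neg hnbm]
      have a1 := triv' x hG (a := ι m) (b := ι (m + 1)) (hlt m).le (hle _ (by omega))
      have a2 := hΦb (m + 1) (by omega) (by omega)
      have a3 := hΦb m hm (by omega)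
      have a4 : (ι (m + 1) : ℝ) - ι m ≤ 2 * L := by nlinarith
      have a5 : ((ι (m + 1) : ℝ) - ι m) * e ≤ 2 * L * e := mul_le_mul_of_nonneg_right a4 he
      nlinarith [a1, a2.2, a3.1, a5]
  -- the sum
  have hsum : ∀ m, 2 ≤ m → m + 1 ≤ K →
      x (ι m) - c / 2 * ι m + Φ m / 2 ≤ x (ι 2) - c / 2 * ι 2 + Φ 2 / 2
        + (- (c / 8 * L) * (((Finset.Ico 3 (m + 1)).filter nb).card : ℝ)
          + L * (((Finset.Ico 3 (m + 1)).filter (fun k => ¬ nb k)).card : ℝ))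
        + ((m : ℝ) - 2) * (3 * ((L + 1) * e)) := by
    intro m hm
    induction m, hm using Nat.le_induction with
    | base => intro _; simp
    | succ m hm ih =>
      intro hmK
      have a1 := ih (by omega)
      have a2 := hstep m hm (by omega)
      have hI : Finset.Ico 3 (m + 1 + 1) = insert (m + 1) (Finset.Ico 3 (m + 1)) := by
        ext j
        simp only [Finset.mem_Ico, Finset.mem_insert]
        omega
      have hni : m + 1 ∉ Finset.Ico 3 (m + 1) := by simp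
      rw [hI, Finset.filter_insert, Finset.filter_insert]
      by_cases hnbm : nb (m + 1)
      · rw [if_pos hnbm, if_neg (not_not.2 hnbm), Finset.card_insert_of_notMem
          (fun h => hni (Finset.mem_filter.1 h).1)]
        rw [if_pos hnbm] at a2
        push_cast
        linarith
      · rw [if_neg hnbm, if_pos hnbm, Finset.card_insert_of_notMem
          (fun h => hni (Finset.mem_filter.1 h).1)]
        rw [if_neg hnbm] at a2
        push_cast
        linarith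
  have f1 := hsum (K - 1) (by omega) (by omega)
  rw [show K - 1 + 1 = K by omega] at f1
  have f2 := hΦb 2 le_rfl (by omega)
  have f3 := hΦb (K - 1) (by omega) (by omega)
  have f4 := triv' x hG (a := 0) (b := ι 2) (by omega) (hle 2 (by omega))
  have f5 := triv' x hG (a := ι (K - 1)) (b := n) (hle _ (by omega)) le_rfl
  have f6 : (ι 2 : ℝ) = 2 * L := by
    have := h4 2 le_rfl
    rw [this]; push_cast; ring
  have f7 : (n : ℝ) - ι (K - 1) ≤ L := by
    have a1 := r2 (K - 1)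
    rw [Nat.cast_sub (by omega : 1 ≤ K)] at a1
    have a2 : (n : ℝ) = K * L := by rw [hn]; push_cast; ring
    rw [a2]
    push_cast at a1
    nlinarith
  have f8 : ((n : ℝ) - ι (K - 1)) * e ≤ L * e := mul_le_mul_of_nonneg_right f7 he
  have hK1 : ((K - 1 : ℕ) : ℝ) = (K : ℝ) - 1 := by
    rw [Nat.cast_sub (by omega : 1 ≤ K)]; push_cast; ring
  rw [hK1] at f1
  rw [f6] at f1 f4
  have hKR : (4 : ℝ) ≤ K := by exact_mod_cast hK
  push_cast at f4
  nlinarith [f1, f2.2, f3.1, f4, f5, f8, hLe]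

end Crest.Agent.R116.AsmP597
end

-- ▼ part R116/AsmP2_597
section

/-!
# R116, WAVE side: the assembly with a price (helper597), part 2: parameters, multiplicative form,
tiny terms.
-/

set_option autoImplicit false

namespace Crest.Agent.R116.AsmP597

open Finset

/-- **assembly with a price, additive form.** -/
theorem assembly_price_add {n K L b NG NW : ℕ} (hn : n = K * L) (hbL : b ≤ L) (hb : 1 ≤ b)
    (hK : 4 ≤ K) {c e g A q δ κ w : ℝ} (he : 0 ≤ e) (hA : 0 ≤ A) (hc : 0 ≤ c)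
    (hqc : q ≤ c) (hg : 0 ≤ g)
    (hL : A * (1 + 4 * b) + 3 / 4 * c * b ≤ c / 8 * L)
    (hw : w ≤ ((b : ℝ) - 1) * (c / 2 - δ) - 1 / 4) (hw0 : 0 ≤ w)
    (hNG : κ ≤ g * NG) (hNW : κ ≤ w * NW)
    (hKK : κ + L * ((NG : ℝ) + NW + 1) ≤ c / 8 * L * ((K : ℝ) - 3 - (NG + NW)))
    (x : ℕ → ℝ) (P : ℕ → ℕ → ℕ → ℝ) (s : ℕ → ℝ) (nar gain : ℕ → Prop)
    (hG : ∀ j, j < n → x (j + 1) ≤ x j + c / 2 + e)
    (hgain : ∀ j, j ≤ n → gain j → 1 ≤ j → ∃ i, i < j ∧ x j ≤ x i + (c / 2 - g) * ((j : ℝ) - i) + e)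
    (hP : ∀ h i j, 1 ≤ h → h < i → i < j → j ≤ n → j ≤ h + 4 * L →
      0 ≤ P h i j ∧ P h i j ≤ ((j : ℝ) - i) + e)
    (hT : ∀ h i j k, 1 ≤ h → h < i → i < j → j < k → k ≤ n → k ≤ h + 4 * L → nar j →
      x j ≤ x i + (A + A * (max 0 ((i : ℝ) + k - 2 * j) + max 0 ((h : ℝ) + j - 2 * i))
        + q / 4 * ((k : ℝ) - j)) + (P h i j - P i j k) / 2 + e)
    (hs : ∀ j, 1 ≤ j → j + 1 ≤ n → 0 ≤ s j ∧ s j ≤ 1 / 2 + e)
    (hS : ∀ j, 1 ≤ j → j + 2 ≤ n → ¬ nar j → ¬ gain j → ¬ nar (j + 1) → ¬ gain (j + 1) →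
      x (j + 1) ≤ x j + (δ + e) + (s j - s (j + 1)) / 2) :
    x n ≤ x 0 + (c / 2 * n - κ) + (6 * n) * e := by
  classical
  have hL1 : 1 ≤ L := hb.trans hbL
  have hKn : K ≤ n := by rw [hn]; exact Nat.le_mul_of_pos_right K hL1
  have hnR : (n : ℝ) = K * L := by rw [hn]; push_cast; ring
  have hKnR : (K : ℝ) ≤ n := by exact_mod_cast hKn
  have hKe : (K : ℝ) * e ≤ n * e := mul_le_mul_of_nonneg_right hKnR he
  have hne : 0 ≤ (n : ℝ) * e := mul_nonneg (Nat.cast_nonneg n) he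
  by_cases h1 : NG ≤ ((Finset.Icc 1 n).filter gain).card
  · -- many gain levels
    have a1 := count_gain he hg x gain hG hgain n le_rfl
    have a2 : (NG : ℝ) ≤ (((Finset.Icc 1 n).filter gain).card : ℝ) := by exact_mod_cast h1
    have a3 := mul_le_mul_of_nonneg_left a2 hg
    nlinarith
  set wide : ℕ → Prop := fun k => ∀ j, k * L ≤ j → j < k * L + b → ¬ nar j ∧ ¬ gain j with hwide
  by_cases h2 : NW ≤ ((Finset.range K).filter (fun m => 1 ≤ m ∧ wide m)).card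
  · -- many wide blocks
    have a1 := count_wide hn hbL hb he hw x s wide hG hs (fun k hk1 hkK hwk j hj1 hj2 => by
      have hkL : k * L + L ≤ n := by
        have : (k + 1) * L ≤ K * L := Nat.mul_le_mul_right L (by omega)
        rw [hn]; linarith
      have hkL1 : 1 ≤ k * L := Nat.mul_pos (by omega) (by omega)
      obtain ⟨b1, b2⟩ := hwk j hj1 (by omega)
      obtain ⟨b3, b4⟩ := hwk (j + 1) (by omega) (by omega)
      exact hS j (by omega) (by omega) b1 b2 b3 b4) K le_rfl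
    rw [← hn] at a1
    have a2 : (NW : ℝ) ≤ (((Finset.range K).filter (fun m => 1 ≤ m ∧ wide m)).card : ℝ) := by
      exact_mod_cast h2
    have a3 := mul_le_mul_of_nonneg_left a2 hw0
    have a4 : c / 2 * ((K : ℝ) * L) = c / 2 * n := by rw [hnR]
    have a5 : (K : ℝ) * ((L + 1) * e) = n * e + K * e := by rw [hnR]; ring
    rw [a4, a5] at a1
    nlinarith
  -- the tube form
  push Not at h1 h2
  set nb : ℕ → Prop := fun k => ∃ j, k * L ≤ j ∧ j < k * L + b ∧ nar j with hnbdef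
  set dd : ℕ → Prop := fun k => ∃ j, k * L ≤ j ∧ j < k * L + b ∧ gain j with hdd
  have a1 := count_nar hn hbL hb hK he hA hc hqc hL x P nar nb (fun k _ _ h => h) hG hP hT
  -- the number of dirty blocks
  have hD : ((Finset.Ico 3 K).filter dd).card ≤ ((Finset.Icc 1 n).filter gain).card := by
    have hch : ∀ k : ℕ, ∃ j, dd k → (k * L ≤ j ∧ j < k * L + b ∧ gain j) := by
      intro k
      by_cases hk : dd k
      · obtain ⟨j, hj⟩ := hk
        exact ⟨j, fun _ => hj⟩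
      · exact ⟨0, fun h => absurd h hk⟩
    choose f hf using hch
    refine Finset.card_le_card_of_injOn f ?_ ?_
    · intro k hk
      simp only [Finset.coe_filter, Finset.mem_Ico, Set.mem_ofPred_eq] at hk
      obtain ⟨b1, b2, b3⟩ := hf k hk.2
      have hkL : k * L + L ≤ n := by
        have : (k + 1) * L ≤ K * L := Nat.mul_le_mul_right L (by omega)
        rw [hn]; linarith
      have hkL1 : 1 ≤ k * L := Nat.mul_pos (by omega) (by omega)
      simp only [Finset.coe_filter, Finset.mem_Icc, Set.mem_ofPred_eq]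
      exact ⟨⟨by omega, by omega⟩, b3⟩
    · intro k hk k' hk' hkk
      simp only [Finset.coe_filter, Finset.mem_Ico, Set.mem_ofPred_eq] at hk hk'
      obtain ⟨b1, b2, _⟩ := hf k hk.2
      obtain ⟨b3, b4, _⟩ := hf k' hk'.2
      rw [hkk] at b1 b2
      rcases lt_trichotomy k k' with h | h | h
      · have : (k + 1) * L ≤ k' * L := Nat.mul_le_mul_right L h
        have e1 : (k + 1) * L = k * L + L := by ring
        omega
      · exact h
      · have : (k' + 1) * L ≤ k * L := Nat.mul_le_mul_right L h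
        have e1 : (k' + 1) * L = k' * L + L := by ring
        omega
  have hsub : (Finset.Ico 3 K).filter (fun k => ¬ nb k) ⊆
      (Finset.range K).filter (fun m => 1 ≤ m ∧ wide m) ∪ (Finset.Ico 3 K).filter dd := by
    intro k hk
    simp only [Finset.mem_filter, Finset.mem_Ico, Finset.mem_union, Finset.mem_range] at hk ⊢
    by_cases hdk : dd k
    · exact Or.inr ⟨hk.1, hdk⟩
    · refine Or.inl ⟨hk.1.2, by omega, fun j hj1 hj2 => ⟨fun h => hk.2 ⟨j, hj1, hj2, h⟩,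
        fun h => hdk ⟨j, hj1, hj2, h⟩⟩⟩
  have hcard1 : ((Finset.Ico 3 K).filter (fun k => ¬ nb k)).card ≤ NG + NW := by
    have := (Finset.card_le_card hsub).trans (Finset.card_union_le _ _)
    omega
  have hcard2 : ((Finset.Ico 3 K).filter nb).card +
      ((Finset.Ico 3 K).filter (fun k => ¬ nb k)).card = K - 3 := by
    rw [Finset.card_filter_add_card_filter_not, Nat.card_Ico]
  have hR1 : (((Finset.Ico 3 K).filter (fun k => ¬ nb k)).card : ℝ) ≤ (NG : ℝ) + NW := by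
    exact_mod_cast hcard1
  have hR2 : (((Finset.Ico 3 K).filter nb).card : ℝ) +
      (((Finset.Ico 3 K).filter (fun k => ¬ nb k)).card : ℝ) = (K : ℝ) - 3 := by
    have : ((((Finset.Ico 3 K).filter nb).card + ((Finset.Ico 3 K).filter
      (fun k => ¬ nb k)).card : ℕ) : ℝ) = ((K - 3 : ℕ) : ℝ) := by exact_mod_cast hcard2
    rw [Nat.cast_add, Nat.cast_sub (by omega)] at this
    push_cast at this
    exact this
  set u : ℝ := (((Finset.Ico 3 K).filter (fun k => ¬ nb k)).card : ℝ) with hu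
  set v : ℝ := (((Finset.Ico 3 K).filter nb).card : ℝ) with hv
  have hL0 : (0 : ℝ) ≤ L := Nat.cast_nonneg L
  have hcL : 0 ≤ c / 8 * L := mul_nonneg (by linarith) hL0
  have hvv : (K : ℝ) - 3 - (NG + NW) ≤ v := by linarith
  have b1 := mul_le_mul_of_nonneg_left hvv hcL
  have b2 := mul_le_mul_of_nonneg_left hR1 hL0
  have b3 : 3 * (K : ℝ) * ((L + 1) * e) = 3 * (n * e) + 3 * (K * e) := by rw [hnR]; ring
  rw [b3] at a1
  nlinarith

/-- **parameters.** -/
theorem params_price {c1 A a g : ℝ} (hc1 : 0 < c1) (hA : 0 ≤ A) (ha : 0 ≤ a) (hg : 0 < g) :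
    ∃ K L b NG NW : ℕ, 1 ≤ b ∧ b ≤ L ∧ 4 ≤ K ∧
      (a * L + 1 ≤ g * NG) ∧ (a * L + 1 ≤ 1 * (NW : ℝ)) ∧
      ∀ c δ : ℝ, c1 ≤ c → δ ≤ c1 / 4 →
        (A * (1 + 4 * b) + 3 / 4 * c * b ≤ c / 8 * L) ∧
        ((1 : ℝ) ≤ ((b : ℝ) - 1) * (c / 2 - δ) - 1 / 4) ∧
        (a * L + 1 + L * ((NG : ℝ) + NW + 1) ≤ c / 8 * L * ((K : ℝ) - 3 - (NG + NW))) := by
  obtain ⟨b, hb⟩ := exists_nat_ge (1 + 5 / c1)
  have h5 : 0 < 5 / c1 := by positivity
  have hb1 : (1 : ℝ) ≤ b := by linarith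
  have hA4 : 0 ≤ A * (1 + 4 * (b : ℝ)) := mul_nonneg hA (by linarith)
  obtain ⟨L, hL⟩ := exists_nat_ge (8 / c1 * (A * (1 + 4 * b)) + 6 * b)
  have h8 : 0 < 8 / c1 := by positivity
  have hL6 : 6 * (b : ℝ) ≤ L := by
    have := mul_nonneg h8.le hA4
    linarith
  have hL1 : (1 : ℝ) ≤ L := by linarith
  obtain ⟨NG, hNG⟩ := exists_nat_ge ((a * L + 1) / g)
  obtain ⟨NW, hNW⟩ := exists_nat_ge (a * L + 1)
  set M : ℝ := (NG : ℝ) + NW with hM
  have hM0 : 0 ≤ M := by positivity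
  have haL : 0 ≤ a * L := mul_nonneg ha (by linarith)
  obtain ⟨K, hK⟩ := exists_nat_ge (4 + M + 8 / c1 * (a * L + 1 + (M + 1)))
  have hq0 : 0 ≤ 8 / c1 * (a * L + 1 + (M + 1)) := by positivity
  have hK3 : 4 ≤ K := by
    have : (4 : ℝ) ≤ K := by linarith
    exact_mod_cast this
  refine ⟨K, L, b, NG, NW, by exact_mod_cast hb1, ?_, hK3, ?_, by rw [one_mul]; exact hNW, ?_⟩
  · have : (b : ℝ) ≤ L := by linarith
    exact_mod_cast this
  · rw [div_le_iff₀ hg] at hNG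
    linarith
  · intro c δ hc hδ
    have hc0 : 0 < c := by linarith
    refine ⟨?_, ?_, ?_⟩
    · have h1 : c1 / 8 * (8 / c1 * (A * (1 + 4 * b))) = A * (1 + 4 * b) := by field_simp
      have h2 : c1 / 8 * (8 / c1 * (A * (1 + 4 * b))) ≤ c / 8 * (8 / c1 * (A * (1 + 4 * b))) :=
        mul_le_mul_of_nonneg_right (by linarith) (mul_nonneg h8.le hA4)
      have h3 := mul_le_mul_of_nonneg_left hL (by linarith : (0 : ℝ) ≤ c / 8)
      nlinarith
    · have h1 : c1 / 4 ≤ c / 2 - δ := by linarith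
      have h3 : 5 / c1 * (c1 / 4) = 5 / 4 := by field_simp
      have h4 : (5 / 4 : ℝ) ≤ ((b : ℝ) - 1) * (c / 2 - δ) :=
        calc (5 / 4 : ℝ) = 5 / c1 * (c1 / 4) := h3.symm
          _ ≤ ((b : ℝ) - 1) * (c1 / 4) := mul_le_mul_of_nonneg_right (by linarith) (by linarith)
          _ ≤ _ := mul_le_mul_of_nonneg_left h1 (by linarith)
      linarith
    · have h1 : a * L + 1 + (M + 1) ≤ c / 8 * ((K : ℝ) - 3 - M) := by
        have h2 : c1 / 8 * (8 / c1 * (a * L + 1 + (M + 1))) = a * L + 1 + (M + 1) := by field_simp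
        have h3 : c1 / 8 * (8 / c1 * (a * L + 1 + (M + 1))) ≤
            c / 8 * (8 / c1 * (a * L + 1 + (M + 1))) :=
          mul_le_mul_of_nonneg_right (by linarith) hq0
        have h4 : c / 8 * (8 / c1 * (a * L + 1 + (M + 1))) ≤ c / 8 * ((K : ℝ) - 3 - M) :=
          mul_le_mul_of_nonneg_left (by linarith) (by linarith)
        linarith
      have h2 := mul_le_mul_of_nonneg_left h1 (by linarith : (0 : ℝ) ≤ L)
      have h3 : a * L + 1 ≤ L * (a * L + 1) := by nlinarith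
      nlinarith

/-! ### multiplicative form -/

open Crest.Agent.R138.W298 in
/-- **assembly with a price, multiplicative form.** -/
theorem assembly_price_mul {c1 A a g : ℝ} (hc1 : 0 < c1) (hA : 0 ≤ A) (ha : 0 ≤ a) (hg : 0 < g) :
    ∃ n L : ℕ, 3 ≤ n ∧ 1 ≤ L ∧
    ∀ c q δ : ℝ, c1 ≤ c → 0 ≤ q → q ≤ c → δ ≤ c1 / 4 → ∀ X E : ℝ, 1 < X → 1 ≤ E →
    ∀ (S : ℕ → ℝ) (p : ℕ → ℕ → ℕ → ℝ) (s : ℕ → ℝ) (nar gain : ℕ → Prop),
    (∀ j, j ≤ n → 0 ≤ S j) →
    (∀ j, j < n → S (j + 1) ≤ E * X ^ (c / 2) * S j) →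
    (∀ j, 1 ≤ j → j ≤ n → gain j →
      ∃ i, i < j ∧ S j ≤ E * X ^ ((c / 2 - g) * ((j : ℝ) - i)) * S i) →
    (∀ h i j, 1 ≤ h → h < i → i < j → j ≤ n → j ≤ h + 4 * L →
      1 ≤ p h i j ∧ p h i j ≤ E * X ^ ((j : ℝ) - i)) →
    (∀ h i j k, 1 ≤ h → h < i → i < j → j < k → k ≤ n → k ≤ h + 4 * L → nar j →
      S j ≤ E * X ^ (A + A * (max 0 ((i : ℝ) + k - 2 * j) + max 0 ((h : ℝ) + j - 2 * i))
        + q / 4 * ((k : ℝ) - j)) * (p h i j / p i j k) ^ (1 / 2 : ℝ) * S i) →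
    (∀ j, 1 ≤ j → j + 1 ≤ n → 1 ≤ s j ∧ s j ≤ E * X ^ (1 / 2 : ℝ)) →
    (∀ j, 1 ≤ j → j + 2 ≤ n → ¬ nar j → ¬ gain j → ¬ nar (j + 1) → ¬ gain (j + 1) →
      S (j + 1) ≤ E * X ^ δ * (s j / s (j + 1)) ^ (1 / 2 : ℝ) * S j) →
    S n ≤ E ^ (6 * n) * X ^ (c / 2 * n - (a * L + 1)) * S 0 := by
  obtain ⟨K, L, b, NG, NW, hb, hbL, hK, hNG, hNW, hpar⟩ := params_price hc1 hA ha hg
  have hL1 : 1 ≤ L := hb.trans hbL
  have hKL : K ≤ K * L := Nat.le_mul_of_pos_right K hL1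
  refine ⟨K * L, L, by omega, hL1, ?_⟩
  intro c q δ hc hq hqc hδ X E hX hE S p s nar gain hS0 hG hgain hp hT hs hS
  set n := K * L with hn
  have hX0 : 0 < X := by linarith
  have hE0 : 0 < E := by linarith
  have hl : 0 < Real.log X := Real.log_pos hX
  by_cases hSn : S n = 0
  · rw [hSn]
    have := hS0 0 (by omega)
    positivity
  have hpos : ∀ m, m ≤ n → 0 < S (n - m) := by
    intro m
    induction m with
    | zero => intro _; exact lt_of_le_of_ne (hS0 n le_rfl) (Ne.symm hSn)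
    | succ m ih =>
      intro hm
      have h1 := ih (by omega)
      refine lt_of_le_of_ne (hS0 _ (by omega)) (fun h => ?_)
      have h2 := hG (n - (m + 1)) (by omega)
      rw [← h, mul_zero, show n - (m + 1) + 1 = n - m by omega] at h2
      linarith
  have hpos' : ∀ j, j ≤ n → 0 < S j := fun j hj => by
    have := hpos (n - j) (by omega)
    rwa [show n - (n - j) = j by omega] at this
  obtain ⟨hp1, hp2, hp3⟩ := hpar c δ hc hδ
  have he : 0 ≤ Real.log E / Real.log X := div_nonneg (Real.log_nonneg hE) hl.le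
  have key := assembly_price_add (n := n) (K := K) (L := L) (b := b) (NG := NG) (NW := NW) hn hbL
    hb hK (c := c) (e := Real.log E / Real.log X) (g := g) (A := A) (q := q) (δ := δ)
    (κ := a * L + 1) (w := 1) he hA (by linarith) hqc hg.le hp1 hp2 (by norm_num) hNG hNW hp3
    (fun j => Real.log (S j) / Real.log X) (fun h i j => Real.log (p h i j) / Real.log X)
    (fun j => Real.log (s j) / Real.log X) nar gain
    (fun j hj => log_step hX hE (hpos' j hj.le) (hpos' (j + 1) hj) (hG j hj))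
    (fun j hj hgj hj1 => by
      obtain ⟨i, hi, h⟩ := hgain j hj1 hj hgj
      exact ⟨i, hi, log_step hX hE (hpos' i (by omega)) (hpos' j hj) h⟩)
    (fun h i j h0 h1 h2 h3 h4 => log_pot hX hE (hp h i j h0 h1 h2 h3 h4).1
      (hp h i j h0 h1 h2 h3 h4).2)
    (fun h i j k h0 h1 h2 h3 h4 h5 h6 =>
      log_step_pot hX hE (hpos' i (by omega)) (hpos' j (by omega))
        (lt_of_lt_of_le one_pos (hp h i j h0 h1 h2 (by omega) (by omega)).1)
        (lt_of_lt_of_le one_pos (hp i j k (by omega) h2 h3 h4 (by omega)).1)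
        (hT h i j k h0 h1 h2 h3 h4 h5 h6))
    (fun j h1 h2 => log_pot hX hE (hs j h1 h2).1 (hs j h1 h2).2)
    (fun j h1 h2 h3 h4 h5 h6 => by
      have := log_step_pot hX hE (hpos' j (by omega)) (hpos' (j + 1) (by omega))
        (lt_of_lt_of_le one_pos (hs j h1 (by omega)).1)
        (lt_of_lt_of_le one_pos (hs (j + 1) (by omega) (by omega)).1) (hS j h1 h2 h3 h4 h5 h6)
      linarith)
  refine exp_back hX hE (hpos' 0 (by omega)) (hpos' n le_rfl) ?_
  push_cast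
  exact key

end Crest.Agent.R116.AsmP597
end

-- ▼ part R116/AsmP3_597
section

/-!
# R116, WAVE side: the assembly with a price (helper597), part 3: tiny additive terms, the
misaligned part of the slab step as a summand.  FINAL FORM `assembly_price`.
-/

set_option autoImplicit false

namespace Crest.Agent.R116.AsmP597

theorem root_low {p p' Z : ℝ} (hp : 1 ≤ p) (hp' : 0 < p') (hZ : 1 ≤ Z) (h : p' ≤ Z) :
    1 ≤ Z * (p / p') ^ (1 / 2 : ℝ) := by
  have hZ0 : 0 < Z := by linarith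
  have h1 : 1 / Z ≤ p / p' := div_le_div₀ (by linarith) hp hp' h
  have h2 : (1 / Z) ^ (1 / 2 : ℝ) ≤ (p / p') ^ (1 / 2 : ℝ) :=
    Real.rpow_le_rpow (by positivity) h1 (by norm_num)
  have h3 : 1 / Z ≤ (1 / Z) ^ (1 / 2 : ℝ) := by
    have h4 : 1 / Z ≤ 1 := by rw [div_le_one hZ0]; exact hZ
    calc 1 / Z = (1 / Z) ^ (1 : ℝ) := (Real.rpow_one _).symm
      _ ≤ _ := Real.rpow_le_rpow_of_exponent_ge (by positivity) h4 (by norm_num)
  calc (1 : ℝ) = Z * (1 / Z) := by field_simp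
    _ ≤ _ := mul_le_mul_of_nonneg_left (h3.trans h2) hZ0.le

set_option maxHeartbeats 800000 in
/-- **ASSEMBLY WITH A PRICE (final form).** `X = 1/dl`, `E` = loss, `τ` = tiny, `a` = exponent of
the price (`price = X ^ (a L)`), `g` = gain of a bad level, `δ` = loss of the slab rule. -/
theorem assembly_price {c1 A a g : ℝ} (hc1 : 0 < c1) (hA : 0 ≤ A) (ha : 0 ≤ a) (hg : 0 < g)
    (hgc : g ≤ c1 / 2) :
    ∃ n L : ℕ, 3 ≤ n ∧ 1 ≤ L ∧
    ∀ c q δ : ℝ, c1 ≤ c → 0 ≤ q → q ≤ c → 0 ≤ δ → δ ≤ c1 / 4 →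
    ∀ X E τ : ℝ, 1 < X → 1 ≤ E → 0 ≤ τ →
    ∀ (S : ℕ → ℝ) (p : ℕ → ℕ → ℕ → ℝ) (s : ℕ → ℝ) (nar gain : ℕ → Prop),
    (∀ j, j ≤ n → 0 ≤ S j) →
    -- Step 4
    (∀ j, j < n → S (j + 1) ≤ E * X ^ (c / 2) * S j + τ) →
    -- bad levels
    (∀ j, 1 ≤ j → j ≤ n → gain j →
      ∃ i, i < j ∧ S j ≤ E * X ^ ((c / 2 - g) * ((j : ℝ) - i)) * S i + τ) →
    -- coherence numbers
    (∀ h i j, 1 ≤ h → h < i → i < j → j ≤ n → j ≤ h + 4 * L →
      1 ≤ p h i j ∧ p h i j ≤ E * X ^ ((j : ℝ) - i)) →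
    -- tube rule
    (∀ h i j k, 1 ≤ h → h < i → i < j → j < k → k ≤ n → k ≤ h + 4 * L → nar j →
      S j ≤ E * X ^ (A + A * (max 0 ((i : ℝ) + k - 2 * j) + max 0 ((h : ℝ) + j - 2 * i))
        + q / 4 * ((k : ℝ) - j)) * (p h i j / p i j k) ^ (1 / 2 : ℝ) * S i + τ) →
    (∀ j, 1 ≤ j → j + 1 ≤ n → 1 ≤ s j ∧ s j ≤ E * X ^ (1 / 2 : ℝ)) →
    -- slab rule
    (∀ j, 1 ≤ j → j + 2 ≤ n → ¬ nar j → ¬ gain j → ¬ nar (j + 1) → ¬ gain (j + 1) →
      S (j + 1) ≤ (E * X ^ δ * (s j / s (j + 1)) ^ (1 / 2 : ℝ) + E * X ^ (c / 2 - g)) * S j + τ) →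
    S n ≤ (4 * E) ^ (6 * n) * X ^ (c / 2 * n - (a * L + 1)) *
      (S 0 + (2 * E * X ^ n) ^ (n + 1) * τ) := by
  obtain ⟨n, L, hn3, hL1, H⟩ := assembly_price_mul hc1 hA ha hg
  refine ⟨n, L, hn3, hL1, ?_⟩
  intro c q δ hc hq hqc hδ0 hδ X E τ hX hE hτ S p s nar gain hS0 hG hgain hp hT hs hS
  have hX0 : 0 < X := by linarith
  have hE0 : 0 < E := by linarith
  have hXn : (1 : ℝ) ≤ X ^ n := one_le_pow₀ hX.le
  set Z : ℝ := E * X ^ n with hZ
  have hZ1 : 1 ≤ Z := one_le_mul_of_one_le_of_one_le hE hXn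
  set W : ℝ := 2 * E * X ^ n with hW
  have hWZ : W = 2 * Z := by rw [hW, hZ]; ring
  have hW1 : 1 ≤ W := by rw [hWZ]; linarith
  have hW0 : 0 < W := by linarith
  have hWp : ∀ m : ℕ, 1 ≤ W ^ m := fun m => one_le_pow₀ hW1
  set S' : ℕ → ℝ := fun j => S j + W ^ (n + 1 - j) * τ with hS'
  have hS'0 : ∀ j, j ≤ n → 0 ≤ S' j := fun j hj => by
    have h1 := hS0 j hj
    have h2 := hWp (n + 1 - j)
    simp only [hS']
    positivity
  -- powers of `W`
  have hWlt : ∀ i j, i < j → j ≤ n → W * W ^ (n + 1 - j) ≤ W ^ (n + 1 - i) := by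
    intro i j hij hj
    rw [← pow_succ']
    exact pow_le_pow_right₀ hW1 (by omega)
  -- the generic absorption: factor `F ≥ 0` with `1 ≤ W * F`
  have habs : ∀ i j (F : ℝ), i < j → j ≤ n → 1 ≤ W * F → S j ≤ F * S i + τ →
      S' j ≤ 2 * F * S' i := by
    intro i j F hij hj hF h
    have hF0 : 0 ≤ F := by
      by_contra hc
      push Not at hc
      nlinarith
    have h1 := hWlt i j hij hj
    have h2 := hWp (n + 1 - j)
    have h3 := hS0 i (by omega)
    have h4 : W ^ (n + 1 - j) ≤ F * W ^ (n + 1 - i) :=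
      calc W ^ (n + 1 - j) = 1 * W ^ (n + 1 - j) := (one_mul _).symm
        _ ≤ (W * F) * W ^ (n + 1 - j) := mul_le_mul_of_nonneg_right hF (by linarith)
        _ = F * (W * W ^ (n + 1 - j)) := by ring
        _ ≤ _ := mul_le_mul_of_nonneg_left h1 hF0
    have h5 : W ^ (n + 1 - j) * τ ≤ F * W ^ (n + 1 - i) * τ := mul_le_mul_of_nonneg_right h4 hτ
    have h6 : τ ≤ W ^ (n + 1 - j) * τ := by nlinarith
    have h7 : 0 ≤ F * S i := mul_nonneg hF0 h3
    simp only [hS']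
    nlinarith
  have hE4 : E ≤ 4 * E := by linarith
  have hXr : ∀ u : ℝ, 0 ≤ u → 1 ≤ X ^ u := fun u hu => Real.one_le_rpow hX.le hu
  have hc0 : 0 < c := by linarith
  have key := H c q δ hc hq hqc hδ X (4 * E) hX (by linarith) S' p s nar
    (fun j => gain j ∨ ∃ i, j = i + 1 ∧ S' j ≤ 4 * E * X ^ (c / 2 - g) * S' i)
    hS'0
    (fun j hj => by
      have h1 : 1 ≤ E * X ^ (c / 2) := one_le_mul_of_one_le_of_one_le hE (hXr _ (by linarith))
      have h2 := habs j (j + 1) (E * X ^ (c / 2)) (by omega) (by omega)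
        (one_le_mul_of_one_le_of_one_le hW1 h1) (hG j hj)
      have h3 := hS'0 j hj.le
      have h4 : 0 ≤ E * X ^ (c / 2) * S' j := mul_nonneg (by linarith) h3
      linarith)
    (fun j hj1 hj hgj => by
      rcases hgj with hgj | ⟨i, hji, hi⟩
      · obtain ⟨i, hij, hi⟩ := hgain j hj1 hj hgj
        have hijR : (i : ℝ) ≤ j := by exact_mod_cast hij.le
        have h0 : 0 ≤ (c / 2 - g) * ((j : ℝ) - i) := mul_nonneg (by linarith) (by linarith)
        have h1 : 1 ≤ E * X ^ ((c / 2 - g) * ((j : ℝ) - i)) :=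
          one_le_mul_of_one_le_of_one_le hE (hXr _ h0)
        have h2 := habs i j _ hij hj (one_le_mul_of_one_le_of_one_le hW1 h1) hi
        have h3 := hS'0 i (by omega)
        refine ⟨i, hij, ?_⟩
        have h4 : 0 ≤ E * X ^ ((c / 2 - g) * ((j : ℝ) - i)) * S' i := mul_nonneg (by linarith) h3
        linarith
      · subst hji
        refine ⟨i, by omega, ?_⟩
        have e1 : (c / 2 - g) * (((i + 1 : ℕ) : ℝ) - i) = c / 2 - g := by push_cast; ring
        rw [e1]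
        exact hi)
    (fun h i j h0 h1 h2 h3 h4 => by
      obtain ⟨h5, h6⟩ := hp h i j h0 h1 h2 h3 h4
      refine ⟨h5, h6.trans (mul_le_mul_of_nonneg_right hE4 (by positivity))⟩)
    (fun h i j k h0 h1 h2 h3 h4 h5 h6 => by
      obtain ⟨b1, b2⟩ := hp h i j h0 h1 h2 (by omega) (by omega)
      obtain ⟨b3, b4⟩ := hp i j k (by omega) h2 h3 h4 (by omega)
      have hkj : ((k : ℝ) - j) ≤ n := by
        have a1 : (k : ℝ) ≤ n := by exact_mod_cast h4
        have a2 : (0 : ℝ) ≤ j := Nat.cast_nonneg j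
        linarith
      have b5 : p i j k ≤ Z := b4.trans (by
        rw [hZ]
        refine mul_le_mul_of_nonneg_left ?_ hE0.le
        rw [← Real.rpow_natCast]
        exact Real.rpow_le_rpow_of_exponent_le hX.le hkj)
      have b6 := root_low b1 (lt_of_lt_of_le one_pos b3) hZ1 b5
      set r : ℝ := (p h i j / p i j k) ^ (1 / 2 : ℝ) with hr
      have hr0 : 0 < r := by
        have : 0 < p h i j := by linarith
        have : 0 < p i j k := by linarith
        positivity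
      set u : ℝ := A + A * (max 0 ((i : ℝ) + k - 2 * j) + max 0 ((h : ℝ) + j - 2 * i))
        + q / 4 * ((k : ℝ) - j) with hu
      have hu0 : 0 ≤ u := by
        have a1 : 0 ≤ max 0 ((i : ℝ) + k - 2 * j) + max 0 ((h : ℝ) + j - 2 * i) :=
          add_nonneg (le_max_left _ _) (le_max_left _ _)
        have a2 : (0 : ℝ) ≤ (k : ℝ) - j := by
          have : (j : ℝ) ≤ k := by exact_mod_cast h3.le
          linarith
        have a3 := mul_nonneg hA a1
        have a4 : 0 ≤ q / 4 * ((k : ℝ) - j) := mul_nonneg (by linarith) a2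
        linarith
      have b7 : 1 ≤ W * (E * X ^ u * r) := by
        have a1 : 1 ≤ E * X ^ u := one_le_mul_of_one_le_of_one_le hE (hXr _ hu0)
        calc (1 : ℝ) ≤ (E * X ^ u) * (Z * r) := one_le_mul_of_one_le_of_one_le a1 b6
          _ ≤ 2 * ((E * X ^ u) * (Z * r)) := by
              have : 0 ≤ (E * X ^ u) * (Z * r) := by positivity
              linarith
          _ = _ := by rw [hWZ]; ring
      have b8 := habs i j _ h2 (by omega) b7 (hT h i j k h0 h1 h2 h3 h4 h5 h6)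
      have h3' := hS'0 i (by omega)
      have h4' : 0 ≤ E * X ^ u * r * S' i := mul_nonneg (by positivity) h3'
      linarith)
    (fun j h1 h2 => by
      obtain ⟨h5, h6⟩ := hs j h1 h2
      refine ⟨h5, h6.trans (mul_le_mul_of_nonneg_right hE4 (by positivity))⟩)
    (fun j h1 h2 h3 h4 h5 h6 => by
      simp only [not_or] at h4 h6
      have h7 := hS j h1 h2 h3 h4.1 h5 h6.1
      have h8 : ¬ S' (j + 1) ≤ 4 * E * X ^ (c / 2 - g) * S' j := fun h =>
        h6.2 ⟨j, rfl, h⟩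
      push Not at h8
      obtain ⟨b1, b2⟩ := hs j h1 (by omega)
      obtain ⟨b3, b4⟩ := hs (j + 1) (by omega) (by omega)
      have b5 : s (j + 1) ≤ Z := b4.trans (by
        rw [hZ]
        refine mul_le_mul_of_nonneg_left ?_ hE0.le
        rw [← Real.rpow_natCast]
        refine Real.rpow_le_rpow_of_exponent_le hX.le ?_
        have : (3 : ℝ) ≤ n := by exact_mod_cast hn3
        linarith)
      have b6 := root_low b1 (lt_of_lt_of_le one_pos b3) hZ1 b5
      set r : ℝ := (s j / s (j + 1)) ^ (1 / 2 : ℝ) with hr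
      have hr0 : 0 < r := by
        have : 0 < s j := by linarith
        have : 0 < s (j + 1) := by linarith
        positivity
      have hF1 : 1 ≤ E * X ^ δ := one_le_mul_of_one_le_of_one_le hE (hXr _ hδ0)
      have b7 : 1 ≤ W * (E * X ^ δ * r + E * X ^ (c / 2 - g)) := by
        calc (1 : ℝ) ≤ (E * X ^ δ) * (Z * r) := one_le_mul_of_one_le_of_one_le hF1 b6
          _ ≤ 2 * ((E * X ^ δ) * (Z * r)) := by
              have : 0 ≤ (E * X ^ δ) * (Z * r) := by positivity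
              linarith
          _ = W * (E * X ^ δ * r) := by rw [hWZ]; ring
          _ ≤ _ := mul_le_mul_of_nonneg_left
              (by have : 0 ≤ E * X ^ (c / 2 - g) := by positivity
                  linarith) hW0.le
      have b8 := habs j (j + 1) _ (by omega) (by omega) b7 h7
      have h3' := hS'0 j (by omega)
      have h4' : 0 ≤ E * X ^ δ * r * S' j := mul_nonneg (by positivity) h3'
      nlinarith)
  refine le_trans ?_ (key.trans ?_)
  · have h1 := hWp (n + 1 - n)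
    have h2 : 0 ≤ W ^ (n + 1 - n) * τ := mul_nonneg (by linarith) hτ
    simp only [hS']
    linarith
  · have h1 : S' 0 = S 0 + W ^ (n + 1) * τ := by simp [hS']
    rw [h1]

end Crest.Agent.R116.AsmP597
end

-- ▼ part R116/AsmT_597
section

/-!
# R116, WAVE side: the assembly with a price over a TOWER of labels (helper597)

`S t k` = functional of the label `k < N t` of level `t` (level `0` = root), `par t k` = parent
(level `t`) of the label `k` of level `t + 1`, `up par j i k` = ancestor of level `i` of the label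
`k` of level `j`.
-/

set_option autoImplicit false

open scoped ENNReal

namespace Crest.Agent.R116.AsmP597

/-- ancestor of level `i` of the label `k` of level `j` (`k` itself if `j ≤ i`). -/
def up (par : ℕ → ℕ → ℕ) : ℕ → ℕ → ℕ → ℕ
  | 0, _, k => k
  | j + 1, i, k => if j + 1 ≤ i then k else up par j i (par j k)

theorem up_self (par : ℕ → ℕ → ℕ) (j k : ℕ) : up par j j k = k := by
  cases j with
  | zero => rfl
  | succ j => simp [up]

theorem up_succ (par : ℕ → ℕ → ℕ) {j i : ℕ} (h : i ≤ j) (k : ℕ) :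
    up par (j + 1) i k = up par j i (par j k) := by
  simp only [up]
  rw [if_neg (by omega)]

/-- the parent of the ancestor. -/
theorem par_up (par : ℕ → ℕ → ℕ) : ∀ (n t k : ℕ), t < n →
    up par n t k = par t (up par n (t + 1) k) := by
  intro n
  induction n with
  | zero => intro t k h; omega
  | succ n ih =>
    intro t k h
    rw [up_succ par (by omega)]
    rcases Nat.lt_or_ge t n with h1 | h1
    · rw [ih t _ h1, up_succ par (by omega)]
    · have : t = n := by omega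
      subst this
      rw [up_self, up_self]

/-- ancestors of ancestors. -/
theorem up_up (par : ℕ → ℕ → ℕ) {n i : ℕ} : ∀ j : ℕ, i ≤ j → j ≤ n → ∀ k : ℕ,
    up par j i (up par n j k) = up par n i k := by
  intro j hij
  induction j, hij using Nat.le_induction with
  | base => intro _ k; rw [up_self]
  | succ j hij ih =>
    intro hj k
    rw [up_succ par hij, ← par_up par n j k (by omega)]
    exact ih (by omega) k

theorem up_lt (par : ℕ → ℕ → ℕ) (N : ℕ → ℕ) {n : ℕ}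
    (hpar : ∀ t < n, ∀ k < N (t + 1), par t k < N t) : ∀ (j i : ℕ), j ≤ n → i ≤ j →
    ∀ k < N j, up par j i k < N i := by
  intro j
  induction j with
  | zero =>
    intro i _ hi k hk
    have : i = 0 := by omega
    subst this
    exact hk
  | succ j ih =>
    intro i hj hi k hk
    rcases Nat.lt_or_ge j i with h | h
    · have : i = j + 1 := by omega
      subst this
      rw [up_self]
      exact hk
    · rw [up_succ par h]
      exact ih i (by omega) h _ (hpar j (by omega) k hk)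

/-- the abstract tower of labels with a price. -/
def TowerP (c1 A a g : ℝ) (n L : ℕ) : Prop :=
    ∀ c q δ : ℝ, c1 ≤ c → 0 ≤ q → q ≤ c → 0 ≤ δ → δ ≤ c1 / 4 →
    ∀ X E T τ : ℝ, 1 < X → 1 ≤ E → 0 ≤ T → 0 ≤ τ →
    ∀ (N : ℕ → ℕ) (S : ℕ → ℕ → ℝ≥0∞) (par : ℕ → ℕ → ℕ) (p : ℕ → ℕ → ℕ → ℕ → ℝ) (s : ℕ → ℕ → ℝ)
      (nar gain : ℕ → ℕ → Prop),
    (∀ k < N 0, S 0 k ≤ ENNReal.ofReal T) →
    (∀ t < n, ∀ k < N (t + 1), par t k < N t) →
    -- Step 4
    (∀ t < n, ∀ k < N (t + 1),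
      S (t + 1) k ≤ ENNReal.ofReal (E * X ^ (c / 2)) * S t (par t k) + ENNReal.ofReal τ) →
    -- bad labels
    (∀ j, 1 ≤ j → j ≤ n → ∀ k < N j, gain j k → ∃ i, i < j ∧
      S j k ≤ ENNReal.ofReal (E * X ^ ((c / 2 - g) * ((j : ℝ) - i))) * S i (up par j i k) +
        ENNReal.ofReal τ) →
    -- coherence numbers `p h i j` are attached to the labels of level `i`
    (∀ h i j, 1 ≤ h → h < i → i < j → j ≤ n → j ≤ h + 4 * L → ∀ k < N i,
      1 ≤ p h i j k ∧ p h i j k ≤ E * X ^ ((j : ℝ) - i)) →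
    -- tube rule
    (∀ h i j l, 1 ≤ h → h < i → i < j → j < l → l ≤ n → l ≤ h + 4 * L → ∀ k < N j, nar j k →
      S j k ≤ ENNReal.ofReal (E *
        X ^ (A + A * (max 0 ((i : ℝ) + l - 2 * j) + max 0 ((h : ℝ) + j - 2 * i))
          + q / 4 * ((l : ℝ) - j)) * (p h i j (up par j i k) / p i j l k) ^ (1 / 2 : ℝ)) *
        S i (up par j i k) + ENNReal.ofReal τ) →
    (∀ j, 1 ≤ j → j + 1 ≤ n → ∀ k < N j, 1 ≤ s j k ∧ s j k ≤ E * X ^ (1 / 2 : ℝ)) →
    -- slab rule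
    (∀ j, 1 ≤ j → j + 2 ≤ n → ∀ k < N (j + 1), ¬ nar j (par j k) → ¬ gain j (par j k) →
      ¬ nar (j + 1) k → ¬ gain (j + 1) k →
      S (j + 1) k ≤ ENNReal.ofReal (E * X ^ δ * (s j (par j k) / s (j + 1) k) ^ (1 / 2 : ℝ)
        + E * X ^ (c / 2 - g)) * S j (par j k) + ENNReal.ofReal τ) →
    ∀ k < N n, S n k ≤ ENNReal.ofReal ((4 * E) ^ (6 * n) * X ^ (c / 2 * n - (a * L + 1)) *
      (T + (2 * E * X ^ n) ^ (n + 1) * τ))

theorem toReal_rule {S S' : ℝ≥0∞} {F τ : ℝ} (hF : 0 ≤ F) (hτ : 0 ≤ τ) (hS' : S' ≠ ⊤)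
    (h : S ≤ ENNReal.ofReal F * S' + ENNReal.ofReal τ) : S.toReal ≤ F * S'.toReal + τ := by
  have h1 : ENNReal.ofReal F * S' ≠ ⊤ := ENNReal.mul_ne_top ENNReal.ofReal_ne_top hS'
  have h2 := ENNReal.toReal_mono (ENNReal.add_ne_top.2 ⟨h1, ENNReal.ofReal_ne_top⟩) h
  rw [ENNReal.toReal_add h1 ENNReal.ofReal_ne_top, ENNReal.toReal_mul, ENNReal.toReal_ofReal hF,
    ENNReal.toReal_ofReal hτ] at h2
  exact h2

/-- **tower with a price.** -/
theorem tower_price {c1 A a g : ℝ} (hc1 : 0 < c1) (hA : 0 ≤ A) (ha : 0 ≤ a) (hg : 0 < g)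
    (hgc : g ≤ c1 / 2) : ∃ n L : ℕ, 3 ≤ n ∧ 1 ≤ L ∧ TowerP c1 A a g n L := by
  obtain ⟨n, L, hn3, hL1, H⟩ := assembly_price hc1 hA ha hg hgc
  refine ⟨n, L, hn3, hL1, ?_⟩
  intro c q δ hc hq hqc hδ0 hδ X E T τ hX hE hT hτ N S par p s nar gain h0 hpar hG hgain hp hTu hs
    hSl k hk
  have hX0 : 0 < X := by linarith
  have hE0 : 0 < E := by linarith
  -- finiteness
  have hfin : ∀ t ≤ n, ∀ k < N t, S t k ≠ ⊤ := by
    intro t
    induction t with
    | zero => intro _ k hk; exact ne_top_of_le_ne_top ENNReal.ofReal_ne_top (h0 k hk)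
    | succ t ih =>
      intro ht k hk
      refine ne_top_of_le_ne_top ?_ (hG t (by omega) k hk)
      exact ENNReal.add_ne_top.2 ⟨ENNReal.mul_ne_top ENNReal.ofReal_ne_top
        (ih (by omega) _ (hpar t (by omega) k hk)), ENNReal.ofReal_ne_top⟩
  -- the chain of ancestors
  set kk : ℕ → ℕ := fun t => up par n t k with hkk
  have hks : ∀ t, t < n → kk t = par t (kk (t + 1)) := fun t ht => par_up par n t k ht
  have hup : ∀ i j, i ≤ j → j ≤ n → up par j i (kk j) = kk i := fun i j h1 h2 =>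
    up_up par j h1 h2 k
  have hkN : ∀ t, t ≤ n → kk t < N t := fun t ht => up_lt par N hpar n t le_rfl ht k hk
  have hkn : kk n = k := up_self par n k
  have hf : ∀ t, t ≤ n → S t (kk t) ≠ ⊤ := fun t ht => hfin t ht _ (hkN t ht)
  have key := H c q δ hc hq hqc hδ0 hδ X E τ hX hE hτ (fun t => (S t (kk t)).toReal)
    (fun h i j => p h i j (kk i)) (fun j => s j (kk j)) (fun j => nar j (kk j))
    (fun j => gain j (kk j)) (fun j _ => ENNReal.toReal_nonneg)
    (fun j hj => by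
      have h1 := hG j hj (kk (j + 1)) (hkN _ (by omega))
      rw [← hks j hj] at h1
      exact toReal_rule (by positivity) hτ (hf j (by omega)) h1)
    (fun j hj1 hj hgj => by
      obtain ⟨i, hij, h1⟩ := hgain j hj1 hj (kk j) (hkN j hj) hgj
      rw [hup i j hij.le hj] at h1
      exact ⟨i, hij, toReal_rule (by positivity) hτ (hf i (by omega)) h1⟩)
    (fun h i j h1 h2 h3 h4 h5 => hp h i j h1 h2 h3 h4 h5 (kk i) (hkN i (by omega)))
    (fun h i j l h1 h2 h3 h4 h5 h6 h7 => by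
      have h8 := hTu h i j l h1 h2 h3 h4 h5 h6 (kk j) (hkN j (by omega)) h7
      rw [hup i j h3.le (by omega)] at h8
      have h9 := hp h i j h1 h2 h3 (by omega) (by omega) (kk i) (hkN i (by omega))
      have h10 := hp i j l (by omega) h3 h4 h5 (by omega) (kk j) (hkN j (by omega))
      have h11 : 0 ≤ p h i j (kk i) / p i j l (kk j) :=
        div_nonneg (by linarith [h9.1]) (by linarith [h10.1])
      exact toReal_rule (by positivity) hτ (hf i (by omega)) h8)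
    (fun j h1 h2 => hs j h1 h2 (kk j) (hkN j (by omega)))
    (fun j h1 h2 h3 h4 h5 h6 => by
      have h7 := hSl j h1 h2 (kk (j + 1)) (hkN _ (by omega))
      rw [← hks j (by omega)] at h7
      have h8 := h7 h3 h4 h5 h6
      have h9 := hs j h1 (by omega) (kk j) (hkN j (by omega))
      have h10 := hs (j + 1) (by omega) (by omega) (kk (j + 1)) (hkN _ (by omega))
      have h11 : 0 ≤ s j (kk j) / s (j + 1) (kk (j + 1)) :=
        div_nonneg (by linarith [h9.1]) (by linarith [h10.1])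
      exact toReal_rule (by positivity) hτ (hf j (by omega)) h8)
  have h00 : (S 0 (kk 0)).toReal ≤ T :=
    ENNReal.toReal_le_of_le_ofReal hT (h0 _ (hkN 0 (by omega)))
  have hfinal : (S n k).toReal ≤ (4 * E) ^ (6 * n) * X ^ (c / 2 * n - (a * L + 1)) *
      (T + (2 * E * X ^ n) ^ (n + 1) * τ) := by
    have h1 : (S n (kk n)).toReal ≤ (4 * E) ^ (6 * n) * X ^ (c / 2 * n - (a * L + 1)) *
      ((S 0 (kk 0)).toReal + (2 * E * X ^ n) ^ (n + 1) * τ) := key
    rw [hkn] at h1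
    refine h1.trans (mul_le_mul_of_nonneg_left (by linarith) (by positivity))
  exact (ENNReal.le_ofReal_iff_toReal_le (hfin n le_rfl k hk)
    (by positivity)).2 hfinal

end Crest.Agent.R116.AsmP597
private theorem rz_f11728080d : type_of% @_root_.Crest.Agent.R116.AsmP597.up.eq_def := @_root_.Crest.Agent.R116.AsmP597.up.eq_def -- L18
private theorem rz_3f51aecb74 : type_of% @_root_.Crest.Agent.R116.AsmP597.up.eq_1 := @_root_.Crest.Agent.R116.AsmP597.up.eq_1 -- L18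
end

-- ▼ part R116/GlC_210

/-!
# R116 (S0155), wave side, CHAIN-C (helper210): levels, tower, interface Props

Direct (non-nested) class chain over `WDefC_188`: every function of every level is a selection of
packets of the ROOT `g`; the label of a phase point contains the first dominating label of the
parent level; auxiliary classes may depend on ALL previous levels (`AuxF`, evaluated on the
truncated history `trn L j`).

* `Lev`, `Lev.S`, `Lev.pf`, `LevOk`, `Next`, `Cls`, `Tow`.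
* interface Props: `EXL` (existence of levels), `ROOT`, `GEN`, `FIN` (Step 4), `SLAB`, `TUBE`.
* target: all of them `⟹ WChE`.

v2 (02:30): `Kν` of ROOT, GEN, FIN after `LB M q c` (as in `A2k`); SLAB only for `δ ≤ 1/4`; `TOWX`;
`Kp.kb : 32 a κ ≤ 1` (pieces have support parameter `2 a`).
-/

set_option autoImplicit false

open MeasureTheory FourierTransform
open scoped ENNReal

namespace Crest.Agent.R116.GlC210

open Crest.Agent.R138.Defs (E2 ee)
open Crest.Agent.R138.Wpk685 (cen caps)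
open Crest.Agent.R116.CDef480 Crest.Agent.R116.WC188
open Crest.Agent.R116.LZg725 (Cf)
open Crest.Agent.R116.AsmP597 (up)

/-- one level of the class chain. -/
structure Lev where
  /-- radius. -/
  r : ℝ
  /-- number of labels. -/
  n : ℕ
  /-- number of classes used in the decomposition. -/
  nb : ℕ
  /-- sides of the plates of the label `k`. -/
  s : ℕ → ℝ × ℝ
  /-- class of the label `k`. -/
  cl : ℕ → ℕ
  /-- parent label. -/
  par : ℕ → ℕ
  /-- net of frames. -/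
  Z : Finset (E3 × ℝ)
  /-- nearest frame. -/
  ζ : E3 × ℝ → E3 × ℝ
  /-- the functions. -/
  G : E3 × ℝ → ℕ → E3 → ℂ
  /-- the densities. -/
  D : E3 × ℝ → ℕ → ℝ
  /-- the remainder. -/
  rest : E3 × ℝ → E3 → ℂ
  /-- indices of the plates. -/
  I : E3 × ℝ → ℕ → Finset ℕ
  /-- the plates. -/
  P : E3 × ℝ → ℕ → ℕ → Plate

/-- cap size of the level. -/
noncomputable def Lev.th (L : Lev) : ℝ := L.r ^ (-(1/2) : ℝ)

/-- selection of the label `k` in the frame `z`. -/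
def Lev.sl (L : Lev) (z : E3 × ℝ) (k : ℕ) : ℤ × ℤ → Set E3 := uS (L.I z k) (L.P z k)

/-- the normalising quantity of the label `k` (coefficient form). -/
noncomputable def Lev.S (L : Lev) (g : E3 → ℂ) (k : ℕ) : ℝ≥0∞ :=
  ∑ z ∈ L.Z, ENNReal.ofReal (L.r * Real.sqrt (L.D z k)) *
    ∑ i ∈ L.I z k, enc (L.r ^ (-(1/2) : ℝ)) (trc z g) (L.P z k i).S

/-- the parent function with label `κ` in the frame `z` of a finer level. -/
noncomputable def Lev.pf (L : Lev) (z : E3 × ℝ) (κ : ℕ) : E3 → ℂ :=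
  trc (z - L.ζ z) (L.G (L.ζ z) κ)

/-- bound of the numbers of labels and classes of a level. -/
def Lev.Le (L : Lev) (ν : ℝ) : Prop := (L.n : ℝ) ≤ ν ∧ (L.nb : ℝ) ≤ ν

/-- the level is a decomposition of the root at every frame of a net. -/
structure LevOk (M κ q A A' a b Cn : ℝ) (K : ℕ) (η0 : ℝ) (C0 : E2) (σ : ℝ) (g : E3 → ℂ) (R : ℝ)
    (L : Lev) : Prop where
  lo : R ^ (1/2 : ℝ) ≤ L.r
  hi : L.r ≤ R
  n1 : 1 ≤ L.n
  nb1 : 1 ≤ L.nb
  net : Net L.r R L.Z
  near : ∀ p ∈ cylc R, L.ζ p ∈ L.Z ∧ p - L.ζ p ∈ cylc L.r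
  sd : ∀ k < L.n, Sd L.r (L.s k).1 (L.s k).2
  dec : ∀ z ∈ L.Z, ∃ cls, DecOut M κ q A A' a b Cn L.nb K η0 C0 σ g R L.r z cls (Finset.range L.n)
    L.s L.cl (L.G z) (L.D z) (L.rest z) (L.I z) (L.P z)

/-- `L'` is a next level after `L`: the parent label is the first dominating label. -/
structure Next (L L' : Lev) : Prop where
  par_lt : ∀ k < L'.n, L'.par k < L.n
  arg : ∀ z ∈ L'.Z, ∀ k < L'.n, ∀ i ∈ L'.I z k, ∀ m, ∀ y ∈ (L'.P z k i).S m,
    argc (L'.r ^ (-(1/2) : ℝ)) (L.pf z) L.n m y = L'.par k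

/-- an auxiliary class function at a given level: frame, own function of the plate, cap, position. -/
abbrev Aux := E3 × ℝ → Cf E2 → ℤ × ℤ → E3 → ℕ

/-- the label `k` of `L'` has auxiliary class `ac k`. -/
def Cls (L' : Lev) (aux : Aux) (ac : ℕ → ℕ) : Prop :=
  ∀ z ∈ L'.Z, ∀ k < L'.n, ∀ i ∈ L'.I z k, ∀ m, ∀ y ∈ (L'.P z k i).S m,
    aux z (L'.P z k i).f m y = ac k

/-- tower of levels `t ≤ n`, radii `R dl^t`. -/
structure Tow (M κ q A A' a b Cn : ℝ) (K : ℕ) (η0 : ℝ) (C0 : E2) (σ : ℝ) (g : E3 → ℂ) (R : ℝ)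
    (dl ν : ℝ) (n : ℕ) (L : ℕ → Lev) : Prop where
  rad : ∀ t ≤ n, (L t).r = R * dl ^ t
  ok : ∀ t ≤ n, LevOk M κ q A A' a b Cn K η0 C0 σ g R (L t)
  le : ∀ t ≤ n, (L t).Le ν
  next : ∀ t < n, Next (L t) (L (t + 1))

/-- truncated history: only the levels `< j` are visible. -/
def trn (L : ℕ → Lev) (j : ℕ) : ℕ → Lev := fun i => if i < j then L i else L 0

/-- a class functional: auxiliary classes of level `j`, computed from `κ, η0, g, R`, the ratio `dl` and
the previous levels. -/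
abbrev AuxF := ℝ → ℝ → (E3 → ℂ) → ℝ → ℝ → (ℕ → Lev) → ℕ → Aux

/-- the labels of the levels `1, .., n` have the auxiliary classes `ac` of the functional `𝒜`. -/
def Acl (𝒜 : AuxF) (κ η0 : ℝ) (g : E3 → ℂ) (R dl : ℝ) (n : ℕ) (L : ℕ → Lev) (ac : ℕ → ℕ → ℕ) :
    Prop :=
  ∀ t < n, Cls (L (t + 1)) (𝒜 κ η0 g R dl (trn L (t + 1)) (t + 1)) (ac (t + 1))

/-- ancestor of level `i` of the label `k` of level `j`. -/
def anc (L : ℕ → Lev) (j i k : ℕ) : ℕ := up (fun t => (L (t + 1)).par) j i k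

/-- general restrictions on the parameters of a state. -/
structure Rg (a b A ε : ℝ) : Prop where
  a1 : 1 ≤ a
  b0 : 0 < b
  b2 : b < 2
  A1 : 1 ≤ A
  e0 : 0 < ε

/-- restrictions on the slice width. -/
structure Kp (a R κ : ℝ) : Prop where
  k0 : 0 < κ
  k4 : κ ≤ 1/4
  ka : 8 * a * κ ≤ 1
  kb : 32 * a * κ ≤ 1
  kR : R ^ (-(1/16) : ℝ) ≤ κ

/-! ### existence of levels -/

/-- **EXL**: the first level (no parent, no classes), and the next level for every measurable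
auxiliary class function `< na`; the same constants `A'`, `Cn` for all levels. -/
def EXL (M q : ℝ) : Prop :=
  ∀ a b A ε M0 : ℝ, Rg a b A ε → ∀ K : ℕ, ∃ A' Cn : ℝ, 1 ≤ A' ∧ 1 ≤ Cn ∧
  ∀ κ η0 C0 σ g R D, Ss M κ q a b M0 η0 C0 σ g R D → Kp a R κ → Cn ≤ R →
    (∀ r', R ^ (1/2 : ℝ) ≤ r' → r' ≤ R →
      ∃ L' : Lev, L'.r = r' ∧ LevOk M κ q A A' a b Cn K η0 C0 σ g R L' ∧ L'.nb = 1 ∧
        (L'.n : ℝ) ≤ Cn * R ^ ε) ∧
    (∀ L : Lev, LevOk M κ q A A' a b Cn K η0 C0 σ g R L →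
      ∀ r', R ^ (1/2 : ℝ) ≤ r' → r' ≤ L.r → ∀ (na : ℕ) (aux : Aux), 1 ≤ na →
        (∀ z f m y, aux z f m y < na) → (∀ z f m, Measurable (aux z f m)) →
        ∃ (L' : Lev) (ac : ℕ → ℕ), L'.r = r' ∧ LevOk M κ q A A' a b Cn K η0 C0 σ g R L' ∧
          Next L L' ∧ Cls L' aux ac ∧ (∀ k, ac k < na) ∧ L'.nb = L.n * na ∧
          (L'.n : ℝ) ≤ Cn * R ^ ε * L'.nb)

/-- the class functional `𝒜` has less than `na R` values and is measurable. -/
def AuxOk (𝒜 : AuxF) (na : ℝ → ℕ) (M q a b M0 : ℝ) : Prop :=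
  (∀ R, 1 ≤ na R) ∧ (∀ η : ℝ, 0 < η → ∃ C : ℝ, ∀ R, 1 ≤ R → (na R : ℝ) ≤ C * R ^ η) ∧
  (∀ κ η0 g R dl L j z f m y, 𝒜 κ η0 g R dl L j z f m y < na R) ∧
  ∀ κ η0 C0 σ g R D, Ss M κ q a b M0 η0 C0 σ g R D → Kp a R κ →
    ∀ (A A' Cn dl ν : ℝ) (K t : ℕ) (L : ℕ → Lev), 0 < dl → dl ≤ 1 →
      Tow M κ q A A' a b Cn K η0 C0 σ g R dl ν t L → R ^ (1/2 : ℝ) ≤ R * dl ^ (t + 1) →
      ∀ z f m, Measurable (𝒜 κ η0 g R dl L (t + 1) z f m)

/-- **TOWX** (390): towers with auxiliary classes exist; `A'`, `Cn` may depend on everything. -/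
def TOWX (M q : ℝ) : Prop :=
  ∀ (𝒜 : AuxF) (na : ℝ → ℕ) (a b A ε M0 : ℝ), Rg a b A ε → AuxOk 𝒜 na M q a b M0 → ∀ n K : ℕ,
  ∃ A' Cn C : ℝ, 1 ≤ A' ∧ 1 ≤ Cn ∧ 1 ≤ C ∧
  ∀ κ η0 C0 σ g R D, Ss M κ q a b M0 η0 C0 σ g R D → Kp a R κ → C ≤ R →
    ∀ dl : ℝ, 0 < dl → dl ≤ 1 → R ^ (1/2 : ℝ) ≤ R * dl ^ n →
    ∃ (L : ℕ → Lev) (ac : ℕ → ℕ → ℕ) (ν : ℝ), 1 ≤ ν ∧ ν ≤ C * R ^ ε ∧
      Tow M κ q A A' a b Cn K η0 C0 σ g R dl ν n L ∧ Acl 𝒜 κ η0 g R dl n L ac

/-! ### Step 4 -/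

/-- **ROOT**: bounds of a level by the root. -/
def ROOT (M q : ℝ) : Prop := ∀ c : ℝ, 0 ≤ c → LB M q c → ∃ Kν : ℕ,
  ∀ a b A ε M0 : ℝ, Rg a b A ε → ∀ K : ℕ, ∀ A' Cn : ℝ, 1 ≤ A' → 1 ≤ Cn → ∃ C : ℝ, 1 ≤ C ∧
  ∀ κ η0 C0 σ g R D, Ss M κ q a b M0 η0 C0 σ g R D → Kp a R κ → C ≤ R →
  ∀ L : Lev, LevOk M κ q A A' a b Cn K η0 C0 σ g R L → ∀ ν : ℝ, 1 ≤ ν → L.Le ν → ∀ k < L.n,
    L.S g k ≤ ENNReal.ofReal (C * ν ^ Kν * R ^ (Kν * ε) *
      (max 1 (R / ((L.s k).1 * L.r) ^ 2)) ^ (c / 2) * SS g R D)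

/-- **GEN**: one step of the chain (Step 4, thick gain). -/
def GEN (M q : ℝ) : Prop := ∀ c : ℝ, 0 ≤ c → LB M q c → ∃ Kν : ℕ,
  ∀ a b A ε M0 T : ℝ, Rg a b A ε → ∃ K1 : ℕ, ∀ K : ℕ, K1 ≤ K → ∀ A' Cn : ℝ, 1 ≤ A' → 1 ≤ Cn →
  ∃ C : ℝ, 1 ≤ C ∧
  ∀ κ η0 C0 σ g R D, Ss M κ q a b M0 η0 C0 σ g R D → Kp a R κ → C ≤ R →
  ∀ L L' : Lev, LevOk M κ q A A' a b Cn K η0 C0 σ g R L →
    LevOk M κ q A A' a b Cn K η0 C0 σ g R L' → Next L L' → C * L'.r ≤ L.r →
    ∀ ν : ℝ, 1 ≤ ν → ν ≤ R → L.Le ν → L'.Le ν → ∀ k < L'.n,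
      L'.S g k ≤ ENNReal.ofReal (C * ν ^ Kν * R ^ (Kν * ε) *
          (max 1 (L.r / ((L'.s k).1 * L'.r) ^ 2)) ^ (c / 2)) * L.S g (L'.par k) +
        ENNReal.ofReal (C * ν ^ Kν * R ^ (-T) * SS g R D)

/-- **FIN**: the last step, arbitrary plates of radius `r`. -/
def FIN (M q : ℝ) : Prop := ∀ c : ℝ, 0 ≤ c → LB M q c → ∃ Kν : ℕ,
  ∀ a b A0 ε M0 : ℝ, Rg a b A0 ε → ∃ A1 : ℝ, ∃ K1 : ℕ, ∀ A : ℝ, A1 ≤ A → ∀ K : ℕ, K1 ≤ K →
  ∀ A' Cn : ℝ, 1 ≤ A' → 1 ≤ Cn → ∃ C : ℝ, 1 ≤ C ∧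
  ∀ κ η0 C0 σ g R D, Ss M κ q a b M0 η0 C0 σ g R D → Kp a R κ → C ≤ R →
  ∀ L : Lev, LevOk M κ q A A' a b Cn K η0 C0 σ g R L → ∀ ν : ℝ, 1 ≤ ν → ν ≤ R → L.Le ν →
    ∀ r s1 s2 : ℝ, R ^ (1/2 : ℝ) ≤ r → C * r ≤ L.r → Sd r s1 s2 →
      ENNReal.ofReal (s2 ^ (-q / 2)) * SIG M κ A0 r s1 s2 g R ≤
        ENNReal.ofReal (C * ν ^ Kν * R ^ (Kν * ε) * (L.r / r) ^ (c / 2)) *
          ∑ k ∈ Finset.range L.n, L.S g k + ENNReal.ofReal (C * ν ^ Kν * SS g R D)

/-! ### the slab step and the tube step -/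

/-- a label with sides `s1 ≤ s2` is thin at level `r`, margin `X ^ δ`, `X = dl⁻¹`. -/
def Thin (dl δ r s1 : ℝ) : Prop := s1 ≤ dl ^ (-δ) * r ^ (-(1/2) : ℝ)

/-- a label with sides `s1 ≤ s2` is wide at level `r`, margin `X ^ Cw`. -/
def Wide (dl Cw r s2 : ℝ) : Prop := dl ^ (-Cw) * r ^ (-(1/2) : ℝ) ≤ s2

/-- **SLAB** (slab step): there is a width margin `Cw` such that for every `ε` there are a class
functional `𝒜 < na R`, a potential `pv` and a set `tn` of tiny auxiliary classes, such that (tiny)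
tiny labels carry nothing and (step) for three consecutive levels the step inequality holds for all
labels `k` such that `k` and its parent are thin, wide and not tiny. -/
def SLAB (M q : ℝ) : Prop := ∃ Cw : ℝ, 1 ≤ Cw ∧
  ∀ (n : ℕ) (a b A ε M0 T : ℝ), Rg a b A ε →
  ∃ (Kν : ℕ) (na : ℝ → ℕ) (𝒜 : AuxF) (pv : ℝ → ℝ → ℕ → ℝ) (tn : ℝ → ℕ → Prop) (Cp : ℝ),
    1 ≤ Cp ∧ AuxOk 𝒜 na M q a b M0 ∧
    (∀ R dl x, 0 < dl → dl ≤ 1 → 1 ≤ pv R dl x ∧ pv R dl x ≤ Cp * dl ^ (-(1/2) : ℝ)) ∧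
    ∃ K1 : ℕ, ∀ K : ℕ, K1 ≤ K → ∀ A' Cn : ℝ, 1 ≤ A' → 1 ≤ Cn → ∃ C : ℝ, 1 ≤ C ∧
    ∀ κ η0 C0 σ g R D, Ss M κ q a b M0 η0 C0 σ g R D → Kp a R κ → C ≤ R →
    ∀ dl ν : ℝ, 0 < dl → C * dl ≤ 1 → dl ≤ R ^ (-ε) → κ ≤ dl ^ (4 : ℝ) →
      1 ≤ ν → ν ≤ R → ∀ (L : ℕ → Lev) (ac : ℕ → ℕ → ℕ),
      Tow M κ q A A' a b Cn K η0 C0 σ g R dl ν n L → Acl 𝒜 κ η0 g R dl n L ac →
      dl ^ (-Cw) ≤ R * dl ^ n →
      -- (tiny)
      (∀ t < n, ∀ k < (L (t + 1)).n, tn R (ac (t + 1) k) →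
        (L (t + 1)).S g k ≤ ENNReal.ofReal (C * ν ^ Kν * R ^ (-T) * SS g R D)) ∧
      -- (step)
      ∀ t, t + 2 ≤ n → ∀ k < (L (t + 2)).n,
        ¬ tn R (ac (t + 2) k) → ¬ tn R (ac (t + 1) ((L (t + 2)).par k)) → ∀ δ : ℝ, 0 ≤ δ → δ ≤ 1/4 →
        Thin dl δ (L (t + 2)).r ((L (t + 2)).s k).1 → Wide dl Cw (L (t + 2)).r ((L (t + 2)).s k).2 →
        Thin dl δ (L (t + 1)).r ((L (t + 1)).s ((L (t + 2)).par k)).1 →
        Wide dl Cw (L (t + 1)).r ((L (t + 1)).s ((L (t + 2)).par k)).2 →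
        (L (t + 2)).S g k ≤ ENNReal.ofReal (C * ν ^ Kν * R ^ ε * dl ^ (-(Cw * δ)) *
            ((pv R dl (ac (t + 1) ((L (t + 2)).par k)) / pv R dl (ac (t + 2) k)) ^ (1/2 : ℝ) +
              dl ^ (1/2 : ℝ))) * (L (t + 1)).S g ((L (t + 2)).par k) +
          ENNReal.ofReal (C * ν ^ Kν * R ^ (-T) * SS g R D)

/-- **TUBE** (tube step): for every narrowness margin `Gw` there is `At` such that for all `n, Lw`
(levels `t ≤ n`, window `Lw`, slices `κ ≤ dl^(4 Lw)`) there are a class functional `𝒜` and coherence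
numbers `p R dl h i j x` (`x` = auxiliary class of a label of level `i`), such that for
`1 ≤ h < i < j < l ≤ n`, `l ≤ h + 4 Lw` and every label `k` of level `j` which is not wide: either it
is tiny or the tube inequality holds. -/
def TUBE (M q : ℝ) : Prop := ∀ Gw : ℝ, 0 ≤ Gw → ∃ At : ℝ, 0 ≤ At ∧
  ∀ (n Lw : ℕ) (a b A ε M0 T : ℝ), Rg a b A ε →
  ∃ (Kν : ℕ) (na : ℝ → ℕ) (𝒜 : AuxF) (p : ℝ → ℝ → ℕ → ℕ → ℕ → ℕ → ℝ) (Cp : ℝ),
    1 ≤ Cp ∧ AuxOk 𝒜 na M q a b M0 ∧
    (∀ R dl h i j x, 0 < dl → dl ≤ 1 → h < i → i < j →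
      1 ≤ p R dl h i j x ∧ p R dl h i j x ≤ Cp * dl ^ (-((j : ℝ) - i))) ∧
    ∃ K1 : ℕ, ∀ K : ℕ, K1 ≤ K → ∀ A' Cn : ℝ, 1 ≤ A' → 1 ≤ Cn → ∃ C : ℝ, 1 ≤ C ∧
    ∀ κ η0 C0 σ g R D, Ss M κ q a b M0 η0 C0 σ g R D → Kp a R κ → C ≤ R →
    ∀ dl ν : ℝ, 0 < dl → C * dl ≤ 1 → dl ≤ R ^ (-ε) → κ ≤ dl ^ (4 * (Lw : ℝ)) →
      1 ≤ ν → ν ≤ R → ∀ (L : ℕ → Lev) (ac : ℕ → ℕ → ℕ),
      Tow M κ q A A' a b Cn K η0 C0 σ g R dl ν n L → Acl 𝒜 κ η0 g R dl n L ac →
      ∀ h i j l : ℕ, 1 ≤ h → h < i → i < j → j < l → l ≤ n → l ≤ h + 4 * Lw → ∀ k < (L j).n,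
        ¬ Wide dl Gw (L j).r ((L j).s k).2 →
        (L j).S g k ≤ ENNReal.ofReal (C * ν ^ Kν * R ^ ε *
          dl ^ (-(At + At * (max 0 ((i : ℝ) + l - 2 * j) + max 0 ((h : ℝ) + j - 2 * i))
            + q / 4 * ((l : ℝ) - j))) *
          (p R dl h i j (ac i (anc L j i k)) / p R dl i j l (ac j k)) ^ (1 / 2 : ℝ)) *
            (L i).S g (anc L j i k) + ENNReal.ofReal (C * ν ^ Kν * R ^ (-T) * SS g R D)

end Crest.Agent.R116.GlC210
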