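import Crest.Agent.R116.TuS_363
import Crest.Agent.R116.TuD_373
import Crest.Agent.R116.TuL_890

-- ▼ part R116/TuP1_363
section

/-!
# R116 (S0155), wave side, tube step: one parent frame (helper363)

* `cntU_le` : the count of (U) is at most `324 X^(max 0 (h+j-2i)) pp` (class of the parent label, COHT).
* `U_of` : (U) without the count.
* `frame_one` : the tube step for the child frames of one parent frame `w` (call of `tube_core`).
-/

set_option autoImplicit false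

open MeasureTheory
open scoped ENNReal

namespace Crest.Agent.R116.TuP363

open Crest.Agent.R138.Defs (E2)
open Crest.Agent.R138.Wpk685 (cen caps)
open Crest.Agent.R116.CDef480 Crest.Agent.R116.WC188 Crest.Agent.R116.GlC210
open Crest.Agent.R116.TuG373 Crest.Agent.R116.TuC373 Crest.Agent.R116.TuD373
open Crest.Agent.R116.TuS363 Crest.Agent.R116.TuL890

variable {M κ q A A' a b Cn : ℝ} {K : ℕ} {η0 : ℝ} {C0 : E2} {σ : ℝ} {g : E3 → ℂ} {R dl ν : ℝ}
  {n : ℕ} {L : ℕ → Lev} {h i j l k Lw n0 : ℕ}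

theorem mem_sl {L : Lev} {z : E3 × ℝ} {k : ℕ} {m : ℤ × ℤ} {y : E3} :
    y ∈ L.sl z k m ↔ ∃ p ∈ L.I z k, y ∈ (L.P z k p).S m := by
  unfold Lev.sl uS
  simp only [Set.mem_iUnion, exists_prop]

/-- ancestors. -/
theorem anc_lt (hT : Tow M κ q A A' a b Cn K η0 C0 σ g R dl ν n L) (hij : i ≤ j) (hjn : j ≤ n)
    (hk : k < (L j).n) : anc L j i k < (L i).n := by
  obtain ⟨d, rfl⟩ : ∃ d, j = i + d := ⟨j - i, by omega⟩
  clear hij
  induction d generalizing k with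
  | zero =>
    unfold anc
    cases i with
    | zero => simpa [AsmP597.up] using hk
    | succ i => simpa [AsmP597.up] using hk
  | succ d ih =>
    have h1 := (hT.next (i + d) (by omega)).par_lt k hk
    have h2 := ih (by omega) h1
    have e : anc L (i + (d + 1)) i k = anc L (i + d) i ((L (i + d + 1)).par k) := by
      unfold anc
      rw [← add_assoc]
      simp only [AsmP597.up]
      rw [if_neg (by omega)]
    rwa [e]

/-- **the count of (U)** from the class of the parent label. -/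
theorem cntU_le (hT : Tow M κ q A A' a b Cn K η0 C0 σ g R dl ν n L) (hR : 0 < R) (hdl : 0 < dl)
    (hdl2 : dl ≤ 1/2) (hκ0 : 0 ≤ κ) (hκ1 : κ ≤ 1) (hκ : κ ≤ dl ^ (4 * (Lw : ℝ)))
    (hhi : h < i) (hij : i < j) (hjn : j ≤ n) (hj : j ≤ h + 4 * Lw) {Y K0 al pl pp : ℝ}
    (hY : 0 ≤ Y) (hK : 8 * (28 + 15 * Y) ^ n0 ≤ K0) (hpp : 0 ≤ pp) {k' : ℕ}
    (hC : Cdat n0 κ g R dl L h i j k' K0 al pl pp) {z : E3 × ℝ} (hz : z ∈ (L j).Z) (m : ℤ × ℤ)
    (y : E3) :
    (cntU κ R dl Y L j i z k' m y : ℝ) ≤ 324 * dl ^ (-(max 0 ((h : ℝ) + j - 2 * i))) * pp := by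
  classical
  have hdl1 : dl ≤ 1 := by linarith
  have hw := pz_mem' hT hij.le hjn hz
  set w := pz L j i z with hwd
  have hzR := (hT.ok j hjn).net.mem z hz
  have hdisp := pz_disp hT hR hdl hdl2 hij.le hjn hzR
  have hth0 := tht_pos hR hdl h
  have hthi := tht_pos hR hdl i
  have hthj := tht_pos hR hdl j
  have hσ := sgm_pos (i := h) (j := i) (l := j) hR hdl
  have hkσ := kap_sgm (i := h) (j := i) (l := j) hR hdl hdl1 hκ0 hκ (by omega) hj
  have hri := rad_pos hR hdl i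
  have hrj := rad_pos hR hdl j
  have hslow : Slow (tht R dl h) κ (tht R dl i) 0 (Fm n0)
      (dns n0 κ g R dl L i h w (anc L i h k')) := by
    unfold dns
    exact slow_AdN (nearF_nrC _ _) hth0.le (tht_mono hR hdl hdl1 hhi.le) hκ0 hκ1
      (kap_tht hR hdl hdl1 hκ hhi.le (by omega)) le_rfl (by rw [zero_mul]; exact zero_le_one)
  have hmem : ∀ m, ∀ y ∈ (L i).sl w k' m,
      ENNReal.ofReal al ≤ dns n0 κ g R dl L i h w (anc L i h k') m (w - pz L i h w) y ∧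
      dns n0 κ g R dl L i h w (anc L i h k') m (w - pz L i h w) y ≤ ENNReal.ofReal (8 * al) ∧
      (TuG373.potT (dns n0 κ g R dl L i h w (anc L i h k')) (tht R dl i) (sgm R dl h i j) K0 m
        (w - pz L i h w) y : ℝ) ≤ pp := fun m y hy => by
    obtain ⟨p, hp, hyp⟩ := mem_sl.1 hy
    obtain ⟨h1, h2, -, h3⟩ := hC w hw p hp m y hyp
    exact ⟨h1, h2, h3⟩
  have key := coht (Ad := dns n0 κ g R dl L i h w (anc L i h k')) (th0 := tht R dl h)
    (th := tht R dl i) (kp := κ) (σ := sgm R dl h i j) (K := K0) (L1 := 1) (Y := Y)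
    (T := 2 * (R * dl ^ i)) (R0 := 4 * tht R dl j) (pp := pp) (F := Fm n0) hslow hth0.le hκ0
    (tht_mono hR hdl hdl1 hhi.le) zero_le_one hσ hY (by positivity) (by positivity)
    (by rw [one_mul]; exact hkσ) (S := (L i).sl w k') (ζ := w - pz L i h w) (a := al)
    (by
      refine le_trans (mul_le_mul_of_nonneg_left ?_ (by norm_num)) hK
      have e : (28 + 15 * Y : ℝ) = 13 + 5 * (3 * Y + 3) := by ring
      have h1 : (28 + 15 * Y : ℝ) ^ n0 = Fm n0 (3 * Y + 3) := by unfold Fm; rw [e]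
      rw [h1]
      have h2 := tht_rad_sgm (i := h) (j := i) (l := j) hR hdl
      have h3 := kap_rad_sgm (i := h) (j := i) (l := j) hR hdl hkσ
      have e2 : tht R dl h * (2 * (R * dl ^ i) * sgm R dl h i j) =
        2 * (tht R dl h * (R * dl ^ i * sgm R dl h i j)) := by ring
      have e3 : κ * (2 * (R * dl ^ i) * sgm R dl h i j ^ 2 / 2) =
        κ * (R * dl ^ i * sgm R dl h i j ^ 2) := by ring
      refine Fm_mono n0 ?_ ?_
      · positivity
      · rw [e2, e3]; linarith)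
    (fun δ hδ => Fm_nonneg n0 hδ)
    (fun m y hy => (hmem m y hy).1) (fun m y hy => (hmem m y hy).2.1)
    (fun m y hy => (hmem m y hy).2.2) hpp
    ((nrC (tht R dl i) (tht R dl j) m).filter fun m' => ∃ y0 ∈ (L i).sl w k' m',
      pn (tht R dl i) κ (cen (tht R dl i) m') (y0 - TuG373.D (z - w) y (cen (tht R dl i) m')) ≤ Y)
    (cen (tht R dl j) m) (z - w) y
    (by
      have := hdisp.2
      linarith)
    (fun m' hm' => by
      obtain ⟨h1, h2⟩ := Finset.mem_filter.1 hm'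
      obtain ⟨h3, h4⟩ := nearF_nrC _ _ _ _ h1
      exact ⟨h3, h4, h2⟩)
  have e : (cntU κ R dl Y L j i z k' m y : ℝ) = ((((nrC (tht R dl i) (tht R dl j) m).filter
      fun m' => ∃ y0 ∈ (L i).sl w k' m', pn (tht R dl i) κ (cen (tht R dl i) m')
        (y0 - TuG373.D (z - w) y (cen (tht R dl i) m')) ≤ Y).card : ℕ) : ℝ) := by
    unfold cntU
    rw [← hwd]
  rw [e]
  exact key.trans (mul_le_mul_of_nonneg_right (cnt_le hR hdl hdl1) hpp)

/-- **(U) without the count**. -/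
theorem U_of (hT : Tow M κ q A A' a b Cn K η0 C0 σ g R dl ν n L) (hR : 0 < R) (hdl : 0 < dl)
    (hdl2 : dl ≤ 1/2) (hκ0 : 0 ≤ κ) (hκ1 : κ ≤ 1) (hκ : κ ≤ dl ^ (4 * (Lw : ℝ)))
    (hhi : h < i) (hij : i < j) (hjn : j ≤ n) (hj : j ≤ h + 4 * Lw) {Y K0 al pl pp Cu : ℝ}
    (hY : 0 ≤ Y) (hK : 8 * (28 + 15 * Y) ^ n0 ≤ K0) (hpp : 0 ≤ pp) (hCu : 0 ≤ Cu) {τ0 : ℝ≥0∞}
    (hC : Cdat n0 κ g R dl L h i j (anc L j i k) K0 al pl pp)
    (hU : Uat n0 κ g R dl Y L j i k Cu τ0) {z : E3 × ℝ} (hz : z ∈ (L j).Z) {p : ℕ}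
    (hp : p ∈ (L j).I z k) (m : ℤ × ℤ) {y : E3} (hy : y ∈ ((L j).P z k p).S m) :
    ‖umc (tht R dl j) (trc z g) m y‖ₑ ^ 2 ≤
      ENNReal.ofReal (Cu * (324 * dl ^ (-(max 0 ((h : ℝ) + j - 2 * i))) * pp)) *
        dns n0 κ g R dl L j i z (anc L j i k) m (z - pz L j i z) y + τ0 := by
  refine (hU z hz p hp m y hy).trans (add_le_add (mul_le_mul' ?_ le_rfl) le_rfl)
  rw [ENNReal.ofReal_mul hCu]
  refine mul_le_mul' le_rfl ?_
  rw [← ENNReal.ofReal_natCast]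
  exact ENNReal.ofReal_le_ofReal
    (cntU_le hT hR hdl hdl2 hκ0 hκ1 hκ hhi hij hjn hj hY hK hpp hC hz m y)

/-- the constant of (U) without the count. -/
noncomputable def Lcc (Cu dl : ℝ) (h i j : ℕ) (pp : ℝ) : ℝ :=
  Cu * (324 * dl ^ (-(max 0 ((h : ℝ) + j - 2 * i))) * pp)

/-- the constant of `tube_core`. -/
noncomputable def Ctu (n0 : ℕ) (A' Y K0 G Ce Lc pl : ℝ) : ℝ :=
  ((2 * (A' + 10 * Y + 20) + 2) ^ 4 + 1) * (81 * (Ce * 13 ^ n0)) *
    (648 * (K0 * Fm n0 (4 * Y + 3 / 2)) * CGn A' G * Lc / pl) ^ (1/2 : ℝ)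

open Classical in
/-- **the tube step for one parent frame.** -/
theorem frame_one {M0 D : ℝ} (ha : 1 ≤ a) (hSs : Ss M κ q a b M0 η0 C0 σ g R D)
    (hKp : Kp a R κ) (hT : Tow M κ q A A' a b Cn K η0 C0 σ g R dl ν n L) (hdl : 0 < dl)
    (hdl2 : dl ≤ 1/2) (hκ : κ ≤ dl ^ (4 * (Lw : ℝ))) (hhi : h < i) (hij : i < j) (hjl : j < l)
    (hln : l ≤ n) (hl : l ≤ h + 4 * Lw) (hk : k < (L j).n) {Y K0 al al0 pl ph pl0 pp Cu Ce G : ℝ}
    (hA' : 0 < A') (hG : 0 < G) (hGs : ((L j).s k).2 ≤ G * tht R dl j)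
    (hY : 0 ≤ Y) (hK : 8 * (28 + 15 * Y) ^ n0 ≤ K0) (hal : 0 < al) (hpl : 0 < pl) (hpp : 0 ≤ pp)
    (hCu : 0 ≤ Cu) (hCe : 0 ≤ Ce) {τ0 τ1 : ℝ≥0∞}
    (hC1 : Cdat n0 κ g R dl L i j l k K0 al pl ph)
    (hC0 : Cdat n0 κ g R dl L h i j (anc L j i k) K0 al0 pl0 pp)
    (hU : Uat n0 κ g R dl Y L j i k Cu τ0) (hE : Eat n0 κ g R dl Y L j i k Ce τ1)
    (w : E3 × ℝ) :
    ∑ z ∈ (L j).Z.filter (fun z => pz L j i z = w),
        val κ g (L j).r ((L j).s k).1 ((L j).s k).2 ((L j).I z k) ((L j).P z k) ≤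
      ENNReal.ofReal (Ctu n0 A' Y K0 G Ce (Lcc Cu dl h i j pp) pl) *
        (∑ c ∈ (caps (tht R dl j)).image (tau (tht R dl j) (sgm R dl i j l)),
          ∫⁻ t in Set.Icc (-(2 * (R * dl ^ i))) (2 * (R * dl ^ i)), ∫⁻ x,
            (Cad538.Acc n0 (tht R dl i) κ (tht R dl i) (trc w g) ((L i).sl w (anc L j i k))
              (Mk (tht R dl i) (sgm R dl i j l) c) x t) ^ (3/2 : ℝ)) +
      (ENNReal.ofReal ((8 * CGn A' G * Lcc Cu dl h i j pp * al) ^ (1/2 : ℝ)) *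
          (((L j).Z.filter (fun z => pz L j i z = w)).card *
            ((caps ((L j).r ^ (-(1/2) : ℝ))).card * (ENNReal.ofReal (L j).r * τ1))) +
        (ENNReal.ofReal (CGn A' G) * τ0) ^ (1/2 : ℝ) *
          ∑ z ∈ (L j).Z.filter (fun z => pz L j i z = w), ∑ p ∈ (L j).I z k,
            ENNReal.ofReal (L j).r * enc ((L j).r ^ (-(1/2) : ℝ)) (trc z g) ((L j).P z k p).S) := by
  have hR1 := hSs.R1
  have hR : 0 < R := by linarith
  have hdl1 : dl ≤ 1 := by linarith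
  have hjn : j ≤ n := by omega
  have hokj := hT.ok j hjn
  have hrj : (L j).r = R * dl ^ j := hT.rad j hjn
  have hκ0 : 0 < κ := hKp.k0
  have hκ1 : κ ≤ 1 := by linarith [hKp.k4]
  have hth : (L j).r ^ (-(1/2) : ℝ) = tht R dl j := by rw [hrj]; rfl
  have hRj : R ^ (1/2 : ℝ) ≤ R * dl ^ j := by rw [← hrj]; exact hokj.lo
  have hrj1 : 1 ≤ R * dl ^ j := (Real.one_le_rpow hR1 (by norm_num)).trans hRj
  have hsd := hokj.sd k hk
  rw [hrj] at hsd
  have hgd := Bas367.St.gd (by linarith) hSs.toSt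
  have hgi := hgd.int
  have hri : R * dl ^ i ≤ R := by
    have := pow_le_one₀ hdl.le hdl1 (n := i)
    nlinarith
  have hs1 : 0 < ((L j).s k).1 := (tht_pos hR hdl j).trans_le hsd.lo
  have hs2 : 0 < ((L j).s k).2 := hs1.trans_le hsd.le
  have hT2 : 0 < TT κ ((L j).s k).2 (R * dl ^ j) := by
    unfold TT
    exact lt_max_of_lt_left (by positivity)
  have hdec : ∀ z ∈ (L j).Z.filter (fun z => pz L j i z = w), z ∈ (L j).Z ∧ pz L j i z = w :=
    fun z hz => Finset.mem_filter.1 hz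
  have hLc : 0 ≤ Lcc Cu dl h i j pp := by
    unfold Lcc
    have : 0 ≤ dl ^ (-(max 0 ((h : ℝ) + j - 2 * i))) := Real.rpow_nonneg hdl.le _
    positivity
  have hK0 : 0 < K0 := lt_of_lt_of_le (by positivity) hK
  have key := tube_core (n := n0) (th := tht R dl i) (kp := κ) (th1 := tht R dl j) (g := trc w g)
    (S := (L i).sl w (anc L j i k)) (N := nrC (tht R dl i) (tht R dl j)) (nearF_nrC _ _)
    (r := R * dl ^ j) (s1 := ((L j).s k).1) (s2 := ((L j).s k).2)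
    (T2 := TT κ ((L j).s k).2 (R * dl ^ j)) (T := 2 * (R * dl ^ i)) (σ := sgm R dl i j l)
    (s := sgm R dl i j l) (K := K0) (Y := Y) (A := A') (G := G) (Lc := Lcc Cu dl h i j pp)
    (Ce := Ce) (a := al) (pl := pl) (tht_pos hR hdl i) (tht_mono hR hdl hdl1 hij.le)
    (tht_le_one hrj1) hκ0 hκ1 (kap_tht hR hdl hdl1 hκ hij.le (by omega)) (rad_pos hR hdl j)
    (rad_tht_sq hR hdl j).le
    (by
      rw [tht_inv hR hdl]
      exact (Real.rpow_le_rpow (rad_pos hR hdl i).le hri (by norm_num)).trans hRj)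
    (by
      refine le_trans ?_ hRj
      have h1 : κ⁻¹ ≤ (R ^ (-(1/16) : ℝ))⁻¹ :=
        inv_anti₀ (Real.rpow_pos_of_pos hR _) hKp.kR
      rw [← Real.rpow_neg hR.le, neg_neg] at h1
      exact h1.trans (Real.rpow_le_rpow_of_exponent_le hR1 (by norm_num)))
    (sgm_pos hR hdl).le le_rfl (tht_le_sgm hR hdl hdl1 hij.le hjl.le)
    (kap_sgm hR hdl hdl1 hκ0.le hκ (by omega) (by omega)) (tht_rad_sgm hR hdl)
    (kap_rad_sgm hR hdl (kap_sgm hR hdl hdl1 hκ0.le hκ (by omega) (by omega))) hK0 hY hA' hG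
    hsd.lo hsd.le hGs hT2 hLc hCe hal hpl
    (fun m => Bas367.umc_meas_sq (Bas367.trc_int hgi _) _ m)
    ((L j).Z.filter (fun z => pz L j i z = w)) (fun z => z - w) (fun z => trc z g)
    (by
      intro z hz
      obtain ⟨h1, h2⟩ := hdec z hz
      have h3 := (pz_disp hT hR hdl hdl2 hij.le hjn (hokj.net.mem z h1)).2
      rw [h2] at h3
      have := rad_pos hR hdl j
      change |(z - w).2| + R * dl ^ j / 2 ≤ 2 * (R * dl ^ i)
      linarith)
    (by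
      intro z hz z' hz' hne
      rw [dist_sub_right, Prod.dist_eq, dist_eq_norm, Real.dist_eq, ← hrj]
      rcases hokj.net.sep z (hdec z hz).1 z' (hdec z' hz').1 with h1 | h1 | h1
      · exact absurd h1 hne
      · exact le_max_of_le_left h1
      · exact le_max_of_le_right h1)
    (fun z => (L j).I z k) (fun z p => ((L j).P z k p).S) (fun z p => ((L j).P z k p).c)
    (fun z p => ((L j).P z k p).X0)
    (by
      intro z hz p hp m
      obtain ⟨cls, hd⟩ := hokj.dec z (hdec z hz).1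
      exact (hd.pl k (Finset.mem_range.2 hk)).1.meas p hp m)
    (by
      intro z hz p hp p' hp' hne m
      obtain ⟨cls, hd⟩ := hokj.dec z (hdec z hz).1
      obtain ⟨hpl1, hpz⟩ := hd.pl k (Finset.mem_range.2 hk)
      exact hpl1.disj p hp p' hp' hne (by rw [hpz p hp, hpz p' hp']) m)
    (by
      intro z hz p hp m y hy
      obtain ⟨cls, hd⟩ := hokj.dec z (hdec z hz).1
      obtain ⟨hpl1, hpz⟩ := hd.pl k (Finset.mem_range.2 hk)
      have h1 := hpl1.box p hp m hy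
      unfold pbx mset at h1
      rw [Set.mem_ofPred_eq, hrj] at h1
      exact ⟨h1.1, h1.2.1, h1.2.2.1⟩)
    (by
      intro z hz p hp m y hy
      obtain ⟨cls, hd⟩ := hokj.dec z (hdec z hz).1
      have h1 := hd.bd k (Finset.mem_range.2 hk) m (mem_sl.2 ⟨p, hp, hy⟩)
      rw [mem_closedBall_zero_iff, hrj] at h1
      exact h1)
    (by
      intro z hz p hp m _ y hy
      obtain ⟨h1, h2⟩ := hdec z hz
      have h3 := (hC1 z h1 p hp m y hy).1
      unfold dns at h3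
      rw [h2] at h3
      exact h3)
    (by
      intro z hz p hp m _ y hy
      obtain ⟨h1, h2⟩ := hdec z hz
      have h3 := (hC1 z h1 p hp m y hy).2.1
      unfold dns at h3
      rw [h2] at h3
      exact h3)
    (by
      intro z hz p hp m _ y hy
      obtain ⟨h1, h2⟩ := hdec z hz
      have h3 := (hC1 z h1 p hp m y hy).2.2.1
      unfold dns at h3
      rw [h2] at h3
      exact h3)
    (τ0 := τ0) (τ1 := τ1)
    (by
      intro z hz p hp m _ y hy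
      obtain ⟨h1, h2⟩ := hdec z hz
      have h3 := U_of hT hR hdl hdl2 hκ0.le hκ1 hκ hhi hij hjn (by omega) hY hK hpp hCu hC0 hU h1 hp
        m hy
      unfold dns at h3
      rw [h2] at h3
      exact h3)
    (by
      intro z hz m hm
      obtain ⟨h1, h2⟩ := hdec z hz
      have h3 := hE z h1 m hm
      unfold dns at h3
      rw [h2] at h3
      exact h3)
  rw [hth]
  rw [hrj]
  refine le_trans (le_of_eq ?_) key
  refine Finset.sum_congr rfl fun z hz => ?_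
  obtain ⟨h1, h2⟩ := hdec z hz
  obtain ⟨cls, hd⟩ := hokj.dec z h1
  obtain ⟨hpl1, hpz⟩ := hd.pl k (Finset.mem_range.2 hk)
  unfold val scost
  refine Finset.sum_congr rfl fun p hp => ?_
  rw [hpz p hp]
  rfl

end Crest.Agent.R116.TuP363
end

-- ▼ part R116/TuE_373
section

/-!
# R116 (S0155), wave side: decoding of the tube classes (helper373)
-/

set_option autoImplicit false

open MeasureTheory
open scoped ENNReal

namespace Crest.Agent.R116.TuD373

open Crest.Agent.R138.Defs (E2)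
open Crest.Agent.R138.Wpk685 (cen caps)
open Crest.Agent.R138.Rect779 (card_caps_le)
open Crest.Agent.R138.Acl101 (dy dy_le le_of_dy lt_of_dy half_double measurable_dy pcnt
  measurable_pcnt logb_ceil_le)
open Crest.Agent.R116.CDef480 Crest.Agent.R116.Ckm538 Crest.Agent.R116.Cad538
open Crest.Agent.R116.WC188 Crest.Agent.R116.GlC210
open Crest.Agent.R116.AsmP597 (up up_succ up_self)
open Crest.Agent.R116.LZg725 (Cf)
open Crest.Agent.R116.TuG373 Crest.Agent.R116.TuC373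

/-! ### truncated history -/

theorem trn_lt {L : ℕ → Lev} {j i : ℕ} (h : i < j) : trn L j i = L i := by
  unfold trn
  rw [if_pos h]



theorem pz_trn (L : ℕ → Lev) {j' : ℕ} : ∀ (j i : ℕ) (z : E3 × ℝ), j ≤ j' →
    pz (trn L j') j i z = pz L j i z := by
  intro j
  induction j with
  | zero => intro i z _; rfl
  | succ j ih =>
    intro i z h
    simp only [pz]
    rw [trn_lt (by omega : j < j'), ih _ _ (by omega)]

theorem up_congr {par par' : ℕ → ℕ → ℕ} : ∀ (j i k : ℕ), (∀ t < j, par t = par' t) →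
    up par j i k = up par' j i k := by
  intro j
  induction j with
  | zero => intro i k _; rfl
  | succ j ih =>
    intro i k h
    rcases Nat.lt_or_ge i (j + 1) with h1 | h1
    · rw [up_succ par (by omega), up_succ par' (by omega), h j (by omega)]
      exact ih _ _ fun t ht => h t (by omega)
    · simp only [up]
      rw [if_pos h1, if_pos h1]

theorem anc_trn (L : ℕ → Lev) {j' j : ℕ} (h : j < j') (i k : ℕ) :
    anc (trn L j') j i k = anc L j i k := by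
  unfold anc
  refine up_congr j i k fun t ht => ?_
  rw [trn_lt (by omega : t + 1 < j')]

theorem anc_succ (L : ℕ → Lev) {j i : ℕ} (h : i ≤ j) (k : ℕ) :
    anc L (j + 1) i k = anc L j i ((L (j + 1)).par k) := by
  unfold anc
  exact up_succ _ h k

theorem dns_trn {n0 : ℕ} {κ : ℝ} {g : E3 → ℂ} {R dl : ℝ} {L : ℕ → Lev} {j i : ℕ} (hij : i < j)
    (z : E3 × ℝ) (k : ℕ) : dns n0 κ g R dl (trn L j) j i z k = dns n0 κ g R dl L j i z k := by
  unfold dns
  rw [pz_trn L j i z le_rfl, trn_lt hij]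

/-! ### paths -/

section tow

variable {M κ q A A' a b Cn M0 : ℝ} {K : ℕ} {η0 : ℝ} {C0 : E2} {σ : ℝ} {g : E3 → ℂ} {R D dl ν : ℝ}
  {n : ℕ} {L : ℕ → Lev}



theorem anc_lt (hT : Tow M κ q A A' a b Cn K η0 C0 σ g R dl ν n L) : ∀ (j i : ℕ), j ≤ n → i ≤ j →
    ∀ k < (L j).n, anc L j i k < (L i).n := by
  intro j
  induction j with
  | zero =>
    intro i _ hi k hk
    have : i = 0 := by omega
    subst this
    exact hk
  | succ j ih =>
    intro i hj hi k hk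
    rcases Nat.lt_or_ge j i with h | h
    · have : i = j + 1 := by omega
      subst this
      unfold anc
      rw [up_self]
      exact hk
    · rw [anc_succ L h]
      exact ih i (by omega) h _ ((hT.next j (by omega)).par_lt k hk)

/-- angle of the level. -/
theorem tht_eq (hT : Tow M κ q A A' a b Cn K η0 C0 σ g R dl ν n L) {t : ℕ} (ht : t ≤ n) :
    (L t).r ^ (-(1/2) : ℝ) = tht R dl t := by
  rw [hT.rad t ht]
  rfl

/-! ### decoding -/

theorem lab_eq (hT : Tow M κ q A A' a b Cn K η0 C0 σ g R dl ν n L) {s : ℕ} (hs : s + 1 ≤ n)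
    {z : E3 × ℝ} (hz : z ∈ (L (s + 1)).Z) {k : ℕ} (hk : k < (L (s + 1)).n) {i' : ℕ}
    (hi' : i' ∈ (L (s + 1)).I z k) {m : ℤ × ℤ} {y : E3} (hy : y ∈ ((L (s + 1)).P z k i').S m)
    {i : ℕ} (hi : i ≤ s) :
    lab R dl (trn L (s + 1)) (s + 1) i z m y = anc L (s + 1) i k := by
  have h2 := (hT.next s (by omega)).arg z hz k hk i' hi' m y hy
  rw [tht_eq hT hs] at h2
  unfold lab
  rw [Nat.add_sub_cancel, anc_trn L (Nat.lt_succ_self s), trn_lt (Nat.lt_succ_self s), h2,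
    anc_succ L hi]

theorem AT_digits {n0 Ma : ℕ} {Kf : ℝ → ℝ} {η1 : ℝ} {L' : ℕ → Lev} {j : ℕ} {z : E3 × ℝ}
    {f : Cf E2} {m : ℤ × ℤ} {y : E3} (hz : z ∈ cylc R) (hj1 : 1 ≤ j) {t : ℕ}
    (ht : t < n * (n + 1)) :
    dig (BR Ma R) t (AT n0 n Ma Kf κ η1 g R dl L' j z f m y) =
      min (dgt n0 n Ma Kf κ g R dl L' j z (fun i => lab R dl L' j i z m y) m y t)
        (BR Ma R - 1) := by
  classical
  have hB := BR_pos Ma R
  have h := dig_code (B := BR Ma R) (n * (n + 1)) (fun t =>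
    min (dgt n0 n Ma Kf κ g R dl L' j z (fun i => lab R dl L' j i z m y) m y t) (BR Ma R - 1))
    (fun t _ => by omega) t ht
  unfold AT
  rw [if_pos ⟨hz, hj1⟩]
  exact h

theorem dgt_trn {n0 Ma : ℕ} {Kf : ℝ → ℝ} {j : ℕ} {z : E3 × ℝ} {kk kk' : ℕ → ℕ} {m : ℤ × ℤ}
    {y : E3} {t : ℕ} (htj : t / (n + 1) < j) (hk : kk (t / (n + 1)) = kk' (t / (n + 1))) :
    dgt n0 n Ma Kf κ g R dl (trn L j) j z kk m y t = dgt n0 n Ma Kf κ g R dl L j z kk' m y t := by
  unfold dgt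
  rw [if_pos htj, if_pos htj, hk, dns_trn htj, pz_trn L j _ z le_rfl]

theorem dig_of' {n0 Ma : ℕ} {Kf : ℝ → ℝ} {ac : ℕ → ℕ → ℕ}
    (hT : Tow M κ q A A' a b Cn K η0 C0 σ g R dl ν n L)
    (hac : Acl (AT n0 n Ma Kf) κ η0 g R dl n L ac) {s : ℕ} (hj : s + 1 ≤ n)
    {z : E3 × ℝ} (hz : z ∈ (L (s + 1)).Z) {k : ℕ} (hk : k < (L (s + 1)).n) {i' : ℕ}
    (hi' : i' ∈ (L (s + 1)).I z k) {m : ℤ × ℤ} {y : E3} (hy : y ∈ ((L (s + 1)).P z k i').S m)
    {t : ℕ} (ht : t < n * (n + 1)) (htj : t / (n + 1) < s + 1) :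
    dig (BR Ma R) t (ac (s + 1) k) =
      min (dgt n0 n Ma Kf κ g R dl L (s + 1) z (fun i => anc L (s + 1) i k) m y t)
        (BR Ma R - 1) := by
  have h1 := hac s (by omega) z hz k hk i' hi' m y hy
  have hzR := (hT.ok (s + 1) hj).net.mem z hz
  have h2 := AT_digits (n0 := n0) (n := n) (Ma := Ma) (Kf := Kf) (κ := κ) (η1 := η0) (g := g)
    (R := R) (dl := dl) (L' := trn L (s + 1)) (j := s + 1) (z := z)
    (f := ((L (s + 1)).P z k i').f) (m := m) (y := y) hzR (by omega) ht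
  rw [h1] at h2
  have h3 := dgt_trn (n0 := n0) (Ma := Ma) (Kf := Kf) (κ := κ) (g := g) (R := R) (dl := dl)
    (L := L) (z := z) (m := m) (y := y) (n := n) htj
    (kk := fun i => lab R dl (trn L (s + 1)) (s + 1) i z m y) (kk' := fun i => anc L (s + 1) i k)
    (lab_eq hT hj hz hk hi' hy (by omega))
  rw [h2, h3]

theorem dig_of {n0 Ma : ℕ} {Kf : ℝ → ℝ} {ac : ℕ → ℕ → ℕ}
    (hT : Tow M κ q A A' a b Cn K η0 C0 σ g R dl ν n L)
    (hac : Acl (AT n0 n Ma Kf) κ η0 g R dl n L ac) {j : ℕ} (hj1 : 1 ≤ j) (hj : j ≤ n)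
    {z : E3 × ℝ} (hz : z ∈ (L j).Z) {k : ℕ} (hk : k < (L j).n) {i' : ℕ} (hi' : i' ∈ (L j).I z k)
    {m : ℤ × ℤ} {y : E3} (hy : y ∈ ((L j).P z k i').S m) {t : ℕ} (ht : t < n * (n + 1))
    (htj : t / (n + 1) < j) :
    dig (BR Ma R) t (ac j k) = min (dgt n0 n Ma Kf κ g R dl L j z (fun i => anc L j i k) m y t)
      (BR Ma R - 1) := by
  cases j with
  | zero => omega
  | succ s => exact dig_of' hT hac hj hz hk hi' hy ht htj

/-- the density is at most the energy. -/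
theorem dns_le (ha : 1 ≤ a) (hb : b ≤ 2) (hSt : St M κ q a b M0 C0 σ g R D) (hκ1 : κ ≤ 1) {n0 : ℕ} {j i : ℕ} (hr : 1 ≤ R * dl ^ i) (z z' : E3 × ℝ) (k : ℕ) (m : ℤ × ℤ)
    (y : E3) : dns n0 κ g R dl L j i z k m z' y ≤ ENNReal.ofReal (Enc g) := by
  classical
  have hth0 : 0 < tht R dl i := Real.rpow_pos_of_pos (by linarith) _
  have hth1 : tht R dl i ≤ 1 := Real.rpow_le_one_of_one_le_of_nonpos hr (by norm_num)
  unfold dns AdN Cad538.Acc
  refine (Den_le _ _).trans ?_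
  have h1 : ENNReal.ofReal (tht R dl i ^ 2 * κ) ≤ 1 := by
    rw [← ENNReal.ofReal_one]
    refine ENNReal.ofReal_le_ofReal ?_
    have : tht R dl i ^ 2 ≤ 1 := pow_le_one₀ hth0.le hth1
    nlinarith
  have h2 : ∑ m ∈ nrC (tht R dl i) (tht R dl j) m, ∫⁻ y in (L i).sl (pz L j i z) k m,
      ‖umc (tht R dl i) (trc (pz L j i z) g) m y‖ₑ ^ 2 ≤
      enc (tht R dl i) (trc (pz L j i z) g) ((L i).sl (pz L j i z) k) := by
    unfold enc
    exact Finset.sum_le_sum_of_subset fun m hm => (Finset.mem_filter.1 hm).1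
  calc ENNReal.ofReal (tht R dl i ^ 2 * κ) * ∑ m ∈ nrC (tht R dl i) (tht R dl j) m,
        ∫⁻ y in (L i).sl (pz L j i z) k m, ‖umc (tht R dl i) (trc (pz L j i z) g) m y‖ₑ ^ 2
      ≤ 1 * enc (tht R dl i) (trc (pz L j i z) g) ((L i).sl (pz L j i z) k) :=
        mul_le_mul' h1 h2
    _ ≤ _ := by
        rw [one_mul]
        exact TuL890.enc_le_Enc ha hb hSt hth0 _ _

/-- lower end of the density class. -/
noncomputable def A0 (n Ma : ℕ) (g : E3 → ℂ) (R : ℝ) (i x : ℕ) : ℝ :=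
  Enc g / 2 ^ (dig (BR Ma R) (i * (n + 1)) x + 1)

/-- the density of level `i` is tiny in the class `x`. -/
def Tiny (n Ma : ℕ) (R : ℝ) (i x : ℕ) : Prop := ¬ dig (BR Ma R) (i * (n + 1)) x < NA Ma R

theorem Enc_nonneg (g : E3 → ℂ) : 0 ≤ Enc g := by
  unfold Enc
  exact integral_nonneg fun ζ => by positivity

theorem ofReal_A0 (n Ma : ℕ) (g : E3 → ℂ) (R : ℝ) (i x : ℕ) :
    ENNReal.ofReal (A0 n Ma g R i x) =
      ENNReal.ofReal (Enc g) / 2 ^ (dig (BR Ma R) (i * (n + 1)) x + 1) := by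
  unfold A0
  rw [ENNReal.ofReal_div_of_pos (by positivity), ENNReal.ofReal_pow (by norm_num)]
  norm_num

/-- **decoding of the density.** -/
theorem dec_dens {n0 Ma : ℕ} {Kf : ℝ → ℝ} {ac : ℕ → ℕ → ℕ} (ha : 1 ≤ a) (hb : b ≤ 2)
    (hSt : St M κ q a b M0 C0 σ g R D) (hκ1 : κ ≤ 1)
    (hT : Tow M κ q A A' a b Cn K η0 C0 σ g R dl ν n L)
    (hac : Acl (AT n0 n Ma Kf) κ η0 g R dl n L ac) {j i : ℕ} (hij : i < j) (hj : j ≤ n)
    (hr : 1 ≤ R * dl ^ i)
    {z : E3 × ℝ} (hz : z ∈ (L j).Z) {k : ℕ} (hk : k < (L j).n) {i' : ℕ} (hi' : i' ∈ (L j).I z k)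
    {m : ℤ × ℤ} {y : E3} (hy : y ∈ ((L j).P z k i').S m) :
    (¬ Tiny n Ma R i (ac j k) →
      ENNReal.ofReal (A0 n Ma g R i (ac j k)) ≤
        dns n0 κ g R dl L j i z (anc L j i k) m (z - pz L j i z) y ∧
      dns n0 κ g R dl L j i z (anc L j i k) m (z - pz L j i z) y ≤
        ENNReal.ofReal (2 * A0 n Ma g R i (ac j k))) ∧
    (Tiny n Ma R i (ac j k) → dns n0 κ g R dl L j i z (anc L j i k) m (z - pz L j i z) y ≤
      ENNReal.ofReal (Enc g / 2 ^ NA Ma R)) := by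
  have hin : i < n := by omega
  have ht : i * (n + 1) < n * (n + 1) := by nlinarith
  have hdiv : i * (n + 1) / (n + 1) = i := Nat.mul_div_cancel _ (by omega)
  have hmod : i * (n + 1) % (n + 1) = 0 := Nat.mul_mod_left _ _
  have h1 := dig_of hT hac (by omega) hj hz hk hi' hy ht (by rw [hdiv]; exact hij)
  have h2 : dgt n0 n Ma Kf κ g R dl L j z (fun i => anc L j i k) m y (i * (n + 1)) =
      dy (NA Ma R) (ENNReal.ofReal (Enc g))
        (dns n0 κ g R dl L j i z (anc L j i k) m (z - pz L j i z) y) := by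
    unfold dgt
    rw [hdiv, if_pos hij, hmod, if_pos rfl]
  have h3 : dig (BR Ma R) (i * (n + 1)) (ac j k) = dy (NA Ma R) (ENNReal.ofReal (Enc g))
        (dns n0 κ g R dl L j i z (anc L j i k) m (z - pz L j i z) y) := by
    rw [h1, h2, min_eq_left]
    have := dy_le (NA Ma R) (ENNReal.ofReal (Enc g))
      (dns n0 κ g R dl L j i z (anc L j i k) m (z - pz L j i z) y)
    unfold BR
    omega
  have hle := dns_le (L := L) (n0 := n0) (dl := dl) (i := i) (j := j) ha hb hSt hκ1 hr z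
    (z - pz L j i z) (anc L j i k) m y
  refine ⟨fun hnt => ⟨?_, ?_⟩, fun ht => ?_⟩
  · unfold Tiny at hnt
    push Not at hnt
    rw [ofReal_A0]
    rw [h3] at hnt ⊢
    exact (lt_of_dy hnt).le
  · rw [ENNReal.ofReal_mul (by norm_num), ofReal_A0, h3, ENNReal.ofReal_ofNat, ← half_double]
    exact le_of_dy hle
  · unfold Tiny at ht
    rw [h3] at ht
    have h4 := le_antisymm (dy_le (NA Ma R) (ENNReal.ofReal (Enc g)) _) (not_lt.1 ht)
    have h5 := le_of_dy (n := NA Ma R) hle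
    rw [h4] at h5
    refine h5.trans (le_of_eq ?_)
    rw [ENNReal.ofReal_div_of_pos (by positivity), ENNReal.ofReal_pow (by norm_num)]
    norm_num

end tow

/-! ### real facts -/

theorem tht_pos {R dl : ℝ} (hR : 0 < R) (hdl : 0 < dl) (t : ℕ) : 0 < tht R dl t :=
  Real.rpow_pos_of_pos (by positivity) _

theorem tht_sq {R dl : ℝ} (hR : 0 < R) (hdl : 0 < dl) (t : ℕ) :
    R * dl ^ t * tht R dl t ^ 2 = 1 := by
  have h : 0 < R * dl ^ t := by positivity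
  unfold tht
  rw [← Real.rpow_natCast ((R * dl ^ t) ^ (-(1/2) : ℝ)) 2, ← Real.rpow_mul h.le,
    show (-(1/2) : ℝ) * ((2 : ℕ) : ℝ) = -1 by norm_num, Real.rpow_neg_one, mul_inv_cancel₀ h.ne']

theorem tht_inv {R dl : ℝ} (hR : 0 < R) (hdl : 0 < dl) (t : ℕ) :
    (tht R dl t)⁻¹ = (R * dl ^ t) ^ (1/2 : ℝ) := by
  have h : 0 < R * dl ^ t := by positivity
  unfold tht
  rw [← Real.rpow_neg h.le, neg_neg]

/-- ratio of two angles. -/
theorem tht_ratio {R dl : ℝ} (hR : 0 < R) (hdl : 0 < dl) (i j : ℕ) :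
    tht R dl j = tht R dl i * dl ^ (-(((j : ℝ) - i) / 2)) := by
  unfold tht
  rw [Real.mul_rpow hR.le (by positivity), Real.mul_rpow hR.le (by positivity),
    ← Real.rpow_natCast, ← Real.rpow_natCast, ← Real.rpow_mul hdl.le, ← Real.rpow_mul hdl.le,
    mul_assoc, ← Real.rpow_add hdl]
  congr 2
  ring

theorem tht_mono {R dl : ℝ} (hR : 0 < R) (hdl : 0 < dl) (hdl1 : dl ≤ 1) {i j : ℕ} (h : i ≤ j) :
    tht R dl i ≤ tht R dl j := by
  rw [tht_ratio hR hdl i j]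
  have h1 : (i : ℝ) ≤ j := by exact_mod_cast h
  have := Real.one_le_rpow_of_pos_of_le_one_of_nonpos hdl hdl1
    (by linarith : -(((j : ℝ) - i) / 2) ≤ 0)
  have h2 := tht_pos hR hdl i
  nlinarith


/-! ### the radius of the coherence count -/

theorem sgm_le (R dl : ℝ) (i j l : ℕ) : sgm R dl i j l ≤ tht R dl l := min_le_left _ _

theorem rho_div {R dl : ℝ} (hR : 0 < R) (hdl : 0 < dl) (i j : ℕ) :
    (R * dl ^ i) ^ (1/2 : ℝ) / (R * dl ^ j) = tht R dl j ^ 2 / tht R dl i := by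
  have h1 := tht_sq hR hdl j
  have h2 : 0 < R * dl ^ j := by positivity
  rw [← tht_inv hR hdl i]
  have h3 : (R * dl ^ j)⁻¹ = tht R dl j ^ 2 := by
    exact inv_eq_of_mul_eq_one_right h1
  rw [div_eq_mul_inv, h3, div_eq_mul_inv, mul_comm]

theorem tht_le_sgm {R dl : ℝ} (hR : 0 < R) (hdl : 0 < dl) (hdl1 : dl ≤ 1) {i j l : ℕ}
    (hij : i ≤ j) (hjl : j ≤ l) : tht R dl j ≤ sgm R dl i j l := by
  refine le_min (tht_mono hR hdl hdl1 hjl) ?_
  rw [rho_div hR hdl]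
  have h1 := tht_pos hR hdl i
  have h2 := tht_pos hR hdl j
  have h3 := tht_mono hR hdl hdl1 hij
  rw [le_div_iff₀ h1]
  nlinarith

theorem sgm_pos {R dl : ℝ} (hR : 0 < R) (hdl : 0 < dl) (hdl1 : dl ≤ 1) {i j l : ℕ}
    (hij : i ≤ j) (hjl : j ≤ l) : 0 < sgm R dl i j l :=
  (tht_pos hR hdl j).trans_le (tht_le_sgm hR hdl hdl1 hij hjl)




/-! ### decoding of the coherence count -/

theorem potT_le {R dl : ℝ} (hR : 0 < R) (hdl : 0 < dl) (hdl1 : dl ≤ 1) (Ad : Dn) {i j l : ℕ}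
    (hjl : j ≤ l) (K : ℝ) (m : ℤ × ℤ) (z : E3 × ℝ) (y : E3) :
    (potT Ad (tht R dl j) (sgm R dl i j l) K m z y : ℝ) ≤ 9 * dl ^ (-((l : ℝ) - j)) := by
  classical
  have hj := tht_pos hR hdl j
  have h1 : (j : ℝ) ≤ l := by exact_mod_cast hjl
  set X : ℝ := dl ^ (-(((l : ℝ) - j) / 2)) with hX
  have hX1 : 1 ≤ X := Real.one_le_rpow_of_pos_of_le_one_of_nonpos hdl hdl1 (by linarith)
  have h2 : (potT Ad (tht R dl j) (sgm R dl i j l) K m z y : ℝ) ≤ (2 * X + 1) ^ 2 := by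
    unfold potT
    refine card_caps_le hj (ξ0 := cen (tht R dl j) m) (by linarith) fun m' hm' => ?_
    obtain ⟨-, h3, -⟩ := Finset.mem_filter.1 hm'
    refine h3.trans ((sgm_le R dl i j l).trans (le_of_eq ?_))
    rw [tht_ratio hR hdl j l, mul_comm]
  have h4 : X ^ 2 = dl ^ (-((l : ℝ) - j)) := by
    rw [hX, ← Real.rpow_natCast, ← Real.rpow_mul hdl.le]
    congr 1
    push_cast
    ring
  rw [← h4]
  nlinarith

theorem potT_pos {Ad : Dn} {th' σ K : ℝ} {m : ℤ × ℤ} {z : E3 × ℝ} {y : E3} (hm : m ∈ caps th')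
    (hσ : 0 ≤ σ) (hK : 1 ≤ K) : 1 ≤ potT Ad th' σ K m z y := by
  classical
  unfold potT
  refine Finset.card_pos.2 ⟨m, Finset.mem_filter.2 ⟨hm, by simpa using hσ, ?_⟩⟩
  calc Ad m z y = 1 * Ad m z y := (one_mul _).symm
    _ ≤ _ := by
        refine mul_le_mul' ?_ le_rfl
        rw [← ENNReal.ofReal_one]
        exact ENNReal.ofReal_le_ofReal hK

/-- **decoding of the coherence count.** -/
theorem dec_pot {M κ q A A' a b Cn : ℝ} {K : ℕ} {η0 : ℝ} {C0 : E2} {σ : ℝ} {g : E3 → ℂ}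
    {R dl ν : ℝ} {n : ℕ} {L : ℕ → Lev} {n0 Ma : ℕ} {Kf : ℝ → ℝ} {ac : ℕ → ℕ → ℕ}
    (hR : 1 ≤ R) (hdl : 0 < dl) (hdl1 : dl ≤ 1) (hK : 1 ≤ Kf R)
    (hT : Tow M κ q A A' a b Cn K η0 C0 σ g R dl ν n L)
    (hac : Acl (AT n0 n Ma Kf) κ η0 g R dl n L ac) {j i l : ℕ} (hij : i < j) (hjl : j < l)
    (hl : l ≤ n) {z : E3 × ℝ} (hz : z ∈ (L j).Z) {k : ℕ} (hk : k < (L j).n) {i' : ℕ}
    (hi' : i' ∈ (L j).I z k) {m : ℤ × ℤ} (hm : m ∈ caps (tht R dl j)) {y : E3}
    (hy : y ∈ ((L j).P z k i').S m) :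
    pT n Ma R dl i j l (ac j k) ≤ (potT (dns n0 κ g R dl L j i z (anc L j i k)) (tht R dl j)
      (sgm R dl i j l) (Kf R) m (z - pz L j i z) y : ℝ) ∧
    (potT (dns n0 κ g R dl L j i z (anc L j i k)) (tht R dl j)
      (sgm R dl i j l) (Kf R) m (z - pz L j i z) y : ℝ) ≤ 2 * pT n Ma R dl i j l (ac j k) := by
  have hR0 : 0 < R := by linarith
  set v : ℕ := potT (dns n0 κ g R dl L j i z (anc L j i k)) (tht R dl j)
      (sgm R dl i j l) (Kf R) m (z - pz L j i z) y with hv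
  have hv1 : 1 ≤ v := potT_pos hm (sgm_pos hR0 hdl hdl1 hij.le hjl.le).le hK
  have hv2 : (v : ℝ) ≤ 9 * dl ^ (-((l : ℝ) - j)) := potT_le hR0 hdl hdl1 _ hjl.le _ _ _ _
  have ht : i * (n + 1) + l < n * (n + 1) := by
    have : i + 1 ≤ n := by omega
    have h2 : (i + 1) * (n + 1) ≤ n * (n + 1) := Nat.mul_le_mul_right _ this
    have h3 : (i + 1) * (n + 1) = i * (n + 1) + (n + 1) := by ring
    omega
  have hdiv : (i * (n + 1) + l) / (n + 1) = i := by
    rw [Nat.mul_comm, Nat.mul_add_div (by omega), Nat.div_eq_of_lt (by omega), Nat.add_zero]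
  have hmod : (i * (n + 1) + l) % (n + 1) = l := by
    rw [Nat.mul_comm, Nat.mul_add_mod, Nat.mod_eq_of_lt (by omega)]
  have h1 := dig_of hT hac (by omega) (by omega) hz hk hi' hy ht (by rw [hdiv]; exact hij)
  have h2 : dgt n0 n Ma Kf κ g R dl L j z (fun i => anc L j i k) m y (i * (n + 1) + l) =
      Nat.log 2 v := by
    unfold dgt
    rw [hdiv, if_pos hij, hmod, if_neg (by omega)]
  -- the logarithm is not clipped
  have hlog : Nat.log 2 v ≤ BR Ma R - 1 := by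
    have h3 : dl ^ (-((l : ℝ) - j)) ≤ R := by
      have h4 := (hT.ok l hl).lo
      rw [hT.rad l hl] at h4
      have h5 : 1 ≤ R * dl ^ l := (Real.one_le_rpow hR (by norm_num)).trans h4
      have h6 : dl ^ (-(l : ℝ)) ≤ R := by
        rw [Real.rpow_neg hdl.le, Real.rpow_natCast, inv_le_iff_one_le_mul₀ (by positivity)]
        linarith
      refine le_trans (Real.rpow_le_rpow_of_exponent_ge hdl hdl1 ?_) h6
      have : (0:ℝ) ≤ j := Nat.cast_nonneg _
      linarith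
    have h7 : (v : ℝ) < 2 ^ (⌈Real.logb 2 R⌉₊ + 4) := by
      have h8 : R ≤ 2 ^ ⌈Real.logb 2 R⌉₊ := by
        have h9 : Real.logb 2 R ≤ (⌈Real.logb 2 R⌉₊ : ℝ) := Nat.le_ceil _
        rw [Real.logb_le_iff_le_rpow (by norm_num) hR0, Real.rpow_natCast] at h9
        exact h9
      calc (v : ℝ) ≤ 9 * R := hv2.trans (by linarith)
        _ < 16 * 2 ^ ⌈Real.logb 2 R⌉₊ := by
            have : (0:ℝ) < 2 ^ ⌈Real.logb 2 R⌉₊ := by positivity
            nlinarith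
        _ = _ := by rw [pow_add]; norm_num; ring
    have h8 : v < 2 ^ (⌈Real.logb 2 R⌉₊ + 4) := by exact_mod_cast h7
    have h9 : Nat.log 2 v < ⌈Real.logb 2 R⌉₊ + 4 :=
      (Nat.log_lt_iff_lt_pow (by norm_num) (by omega)).2 h8
    unfold BR
    omega
  have h3 : dig (BR Ma R) (i * (n + 1) + l) (ac j k) = Nat.log 2 v := by
    rw [h1, h2, min_eq_left hlog]
  have h4 : 2 ^ Nat.log 2 v ≤ v := Nat.pow_log_le_self 2 (by omega)
  have h5 : v < 2 ^ (Nat.log 2 v + 1) := Nat.lt_pow_succ_log_self (by norm_num) v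
  have h6 : (2:ℝ) ^ Nat.log 2 v ≤ v := by exact_mod_cast h4
  have h7 : (v : ℝ) ≤ 2 * 2 ^ Nat.log 2 v := by
    have : (v : ℝ) < 2 ^ (Nat.log 2 v + 1) := by exact_mod_cast h5
    rw [pow_succ] at this
    linarith
  have h8 : pT n Ma R dl i j l (ac j k) = 2 ^ Nat.log 2 v := by
    unfold pT
    rw [h3, min_eq_left (h6.trans hv2)]
  rw [h8]
  exact ⟨h6, h7⟩

end Crest.Agent.R116.TuD373
end

-- ▼ part R116/TuF_373

/-!
# R116 (S0155), wave side: class data of a label which is not tiny (helper373)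
-/

set_option autoImplicit false

open MeasureTheory
open scoped ENNReal

namespace Crest.Agent.R116.TuD373

open Crest.Agent.R138.Defs (E2)
open Crest.Agent.R138.Wpk685 (cen caps)
open Crest.Agent.R116.CDef480 Crest.Agent.R116.WC188 Crest.Agent.R116.GlC210
open Crest.Agent.R116.TuG373 Crest.Agent.R116.TuC373

variable {M κ q A A' a b Cn M0 : ℝ} {K : ℕ} {η0 : ℝ} {C0 : E2} {σ : ℝ} {g : E3 → ℂ} {R D dl ν : ℝ}
  {n : ℕ} {L : ℕ → Lev}

/-- the selected caps are caps. -/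
theorem mem_caps_of (hT : Tow M κ q A A' a b Cn K η0 C0 σ g R dl ν n L) {j : ℕ} (hj : j ≤ n)
    {z : E3 × ℝ} (hz : z ∈ (L j).Z) {k : ℕ} (hk : k < (L j).n) {i' : ℕ} (hi' : i' ∈ (L j).I z k)
    {m : ℤ × ℤ} {y : E3} (hy : y ∈ ((L j).P z k i').S m) : m ∈ caps (tht R dl j) := by
  obtain ⟨cls, hd⟩ := (hT.ok j hj).dec z hz
  rw [← tht_eq hT hj]
  by_contra hcon
  have h1 := hd.cp k (Finset.mem_range.2 hk) m hcon
  unfold uS at h1
  simp only [Set.iUnion_eq_empty] at h1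
  rw [h1 i' hi'] at hy
  exact hy

/-- radii of the levels are at least one. -/
theorem rad_ge (hR : 1 ≤ R) (hT : Tow M κ q A A' a b Cn K η0 C0 σ g R dl ν n L) {t : ℕ}
    (ht : t ≤ n) : 1 ≤ R * dl ^ t := by
  rw [← hT.rad t ht]
  exact (Real.one_le_rpow hR (by norm_num)).trans (hT.ok t ht).lo

/-- **class data** of a label which is not tiny. -/
theorem cdat_of {n0 Ma : ℕ} {Kf : ℝ → ℝ} {ac : ℕ → ℕ → ℕ} (ha : 1 ≤ a) (hb : b ≤ 2)
    (hSt : St M κ q a b M0 C0 σ g R D) (hκ1 : κ ≤ 1) (hdl : 0 < dl) (hdl1 : dl ≤ 1)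
    (hK : 1 ≤ Kf R) (hT : Tow M κ q A A' a b Cn K η0 C0 σ g R dl ν n L)
    (hac : Acl (AT n0 n Ma Kf) κ η0 g R dl n L ac) {j i l : ℕ} (hij : i < j) (hjl : j < l)
    (hl : l ≤ n) {k : ℕ} (hk : k < (L j).n) (hnt : ¬ Tiny n Ma R i (ac j k)) :
    TuS363.Cdat n0 κ g R dl L i j l k (Kf R) (A0 n Ma g R i (ac j k)) (pT n Ma R dl i j l (ac j k))
      (2 * pT n Ma R dl i j l (ac j k)) := by
  intro z hz p hp m y hy
  have hR := hSt.R1
  have h1 := (dec_dens (n0 := n0) (Ma := Ma) ha hb hSt hκ1 hT hac hij (by omega)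
    (rad_ge hR hT (by omega)) hz hk hp hy).1 hnt
  have h2 := dec_pot (n0 := n0) (Ma := Ma) hR hdl hdl1 hK hT hac hij hjl hl hz hk hp
    (mem_caps_of hT (by omega) hz hk hp hy) hy
  refine ⟨h1.1, h1.2.trans (ENNReal.ofReal_le_ofReal ?_), h2.1, h2.2⟩
  have : 0 ≤ A0 n Ma g R i (ac j k) := by
    unfold A0
    have := Enc_nonneg g
    positivity
  linarith

/-- the density of a tiny label. -/
theorem tiny_of {n0 Ma : ℕ} {Kf : ℝ → ℝ} {ac : ℕ → ℕ → ℕ} (ha : 1 ≤ a) (hb : b ≤ 2)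
    (hSt : St M κ q a b M0 C0 σ g R D) (hκ1 : κ ≤ 1)
    (hT : Tow M κ q A A' a b Cn K η0 C0 σ g R dl ν n L)
    (hac : Acl (AT n0 n Ma Kf) κ η0 g R dl n L ac) {j i : ℕ} (hij : i < j) (hj : j ≤ n)
    {k : ℕ} (hk : k < (L j).n) (ht : Tiny n Ma R i (ac j k)) {z : E3 × ℝ} (hz : z ∈ (L j).Z)
    {p : ℕ} (hp : p ∈ (L j).I z k) {m : ℤ × ℤ} {y : E3} (hy : y ∈ ((L j).P z k p).S m) :
    dns n0 κ g R dl L j i z (anc L j i k) m (z - pz L j i z) y ≤
      ENNReal.ofReal (R ^ (-(Ma : ℝ)) * Enc g) := by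
  have hR := hSt.R1
  have hR0 : 0 < R := by linarith
  refine ((dec_dens (n0 := n0) (Ma := Ma) ha hb hSt hκ1 hT hac hij hj
    (rad_ge hR hT (by omega)) hz hk hp hy).2 ht).trans (ENNReal.ofReal_le_ofReal ?_)
  rw [div_eq_inv_mul]
  refine mul_le_mul_of_nonneg_right ?_ (Enc_nonneg g)
  rw [Real.rpow_neg hR0.le, Real.rpow_natCast]
  refine inv_anti₀ (by positivity) ?_
  have h8 : R ≤ 2 ^ ⌈Real.logb 2 R⌉₊ := by
    have h9 : Real.logb 2 R ≤ (⌈Real.logb 2 R⌉₊ : ℝ) := Nat.le_ceil _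
    rw [Real.logb_le_iff_le_rpow (by norm_num) hR0, Real.rpow_natCast] at h9
    exact h9
  unfold NA
  rw [Nat.mul_comm, pow_mul]
  exact pow_le_pow_left₀ hR0.le h8 Ma

end Crest.Agent.R116.TuD373
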