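import Crest.Agent.R116.CDef_480

/-!
# R116 (S0155), wave side: MIS for the cone, part 1 (helper330): light planks

`pk C X0 w B r` = the plank of slope `C` through `X0` (at time `0`): lateral radius `w`, null
thickness `B`, length `r`.  Volumes, volume of an intersection, relative position of two planks
which meet, and the Cordoba sum of one arc.
-/

set_option autoImplicit false
set_option linter.unusedVariables false

open MeasureTheory
open scoped ENNReal

namespace Crest.Agent.R116.Mc330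

open Crest.Agent.R138.Defs (E2 ee)
open Crest.Agent.R116.CDef480

/-! ### volumes -/

/-- shear of `E3` straightening the null normal of slope `C`. -/
noncomputable def shC (C : E2) : E3 →ₗ[ℝ] E3 :=
  Matrix.toLpLin 2 2 !![1, 0, 0; 0, 1, 0; C 0, C 1, 1]

theorem shC_zero (C : E2) (X : E3) : shC C X 0 = X 0 := by
  simp [shC, Matrix.toLpLin_apply, dotProduct, Fin.sum_univ_three]

theorem shC_one (C : E2) (X : E3) : shC C X 1 = X 1 := by
  simp [shC, Matrix.toLpLin_apply, dotProduct, Fin.sum_univ_three]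

theorem shC_two (C : E2) (X : E3) : shC C X 2 = nrm C X 0 := by
  simp [shC, Matrix.toLpLin_apply, dotProduct, Fin.sum_univ_three, nrm, inner2]
  ring

theorem det_shC (C : E2) : LinearMap.det (shC C) = 1 := by
  unfold shC
  rw [Matrix.toLpLin_eq_toLin, LinearMap.det_toLin, Matrix.det_fin_three]
  simp

/-- volume of a coordinate box. -/
theorem vol_box (c w : Fin 3 → ℝ) (hw : ∀ i, 0 ≤ w i) :
    volume {X : E3 | ∀ i, |X i - c i| ≤ w i} = ENNReal.ofReal (8 * (w 0 * w 1 * w 2)) := by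
  have e : {X : E3 | ∀ i, |X i - c i| ≤ w i} =
      (MeasurableEquiv.toLp 2 (Fin 3 → ℝ)).symm ⁻¹'
        (Set.Icc (fun i => c i - w i) (fun i => c i + w i)) := by
    ext X
    simp only [Set.mem_ofPred_eq, Set.mem_preimage, Set.mem_Icc, Pi.le_def]
    constructor
    · intro h
      exact ⟨fun i => by have := (abs_le.1 (h i)).1; simp; linarith,
        fun i => by have := (abs_le.1 (h i)).2; simp; linarith⟩
    · rintro ⟨h1, h2⟩ i
      have a := h1 i
      have b := h2 i
      simp at a b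
      exact abs_le.2 ⟨by linarith, by linarith⟩
  rw [e, (EuclideanSpace.volume_preserving_symm_measurableEquiv_toLp (Fin 3)).measure_preimage
    measurableSet_Icc.nullMeasurableSet, Real.volume_Icc_pi]
  rw [Fin.prod_univ_three, ← ENNReal.ofReal_mul (by linarith [hw 0]), ← ENNReal.ofReal_mul (by
    have := hw 0; have := hw 1
    exact mul_nonneg (by linarith) (by linarith))]
  congr 1
  ring

/-- volume of a sheared box. -/
theorem vol_sbox (C : E2) (c w : Fin 3 → ℝ) (hw : ∀ i, 0 ≤ w i) :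
    volume {X : E3 | ∀ i, |shC C X i - c i| ≤ w i} = ENNReal.ofReal (8 * (w 0 * w 1 * w 2)) := by
  have e : {X : E3 | ∀ i, |shC C X i - c i| ≤ w i} =
      (shC C) ⁻¹' {X : E3 | ∀ i, |X i - c i| ≤ w i} := rfl
  rw [e, Measure.addHaar_preimage_linearMap _ (by rw [det_shC]; norm_num), vol_box c w hw, det_shC]
  simp

theorem abs_coord_le (x : E2) (i : Fin 2) : |x i| ≤ ‖x‖ := by
  have := PiLp.norm_apply_le x i
  simpa [Real.norm_eq_abs] using this

theorem norm_le_of_coord {x : E2} {w : ℝ} (h0 : |x 0| ≤ w) (h1 : |x 1| ≤ w) : ‖x‖ ≤ 2 * w := by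
  have hw : 0 ≤ w := (abs_nonneg _).trans h0
  have h : ‖x‖ ^ 2 ≤ (2 * w) ^ 2 := by
    rw [normsq2]
    have a := pow_le_pow_left₀ (abs_nonneg _) h0 2
    have b := pow_le_pow_left₀ (abs_nonneg _) h1 2
    rw [sq_abs] at a b
    nlinarith
  exact (pow_le_pow_iff_left₀ (norm_nonneg _) (by positivity) (by norm_num)).1 h

/-! ### planks -/


theorem nrm_eq (C : E2) (X : E3) (s : ℝ) : nrm C X s = nrm C X 0 + s * ‖C‖ ^ 2 / 2 := by
  unfold nrm
  ring





/-- the slice of a plank. -/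
theorem slice_le (C : E2) (X0 : E3) {w B : ℝ} (hw : 0 ≤ w) (hB : 0 ≤ B) (s : ℝ) :
    volume {X : E3 | ‖lat X - lat X0 + s • C‖ ≤ w ∧ |nrm C X s - nrm C X0 0| ≤ B} ≤
      ENNReal.ofReal (8 * (w * w * B)) := by
  have h := vol_sbox C ![X0 0 - s * C 0, X0 1 - s * C 1, nrm C X0 0 - s * ‖C‖ ^ 2 / 2] ![w, w, B]
    (by intro i; fin_cases i <;> simp [hw, hB])
  simp only [Matrix.cons_val_zero, Matrix.cons_val_one, Matrix.cons_val] at h
  rw [← h]
  refine measure_mono ?_
  rintro X ⟨h1, h2⟩ i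
  fin_cases i
  · have := (abs_coord_le (lat X - lat X0 + s • C) 0).trans h1
    simp only [PiLp.add_apply, PiLp.sub_apply, PiLp.smul_apply, smul_eq_mul, lat_zero] at this
    simp only [Fin.zero_eta, shC_zero]
    have e : X 0 - (![X0 0 - s * C 0, X0 1 - s * C 1, nrm C X0 0 - s * ‖C‖ ^ 2 / 2] : Fin 3 → ℝ) 0 =
      X 0 - X0 0 + s * C 0 := by simp only [Matrix.cons_val_zero]; ring
    rw [e]
    exact this
  · have := (abs_coord_le (lat X - lat X0 + s • C) 1).trans h1
    simp only [PiLp.add_apply, PiLp.sub_apply, PiLp.smul_apply, smul_eq_mul, lat_one] at this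
    simp only [Fin.mk_one, shC_one]
    have e : X 1 - (![X0 0 - s * C 0, X0 1 - s * C 1, nrm C X0 0 - s * ‖C‖ ^ 2 / 2] : Fin 3 → ℝ) 1 =
      X 1 - X0 1 + s * C 1 := by simp only [Matrix.cons_val_one, Matrix.cons_val_zero]; ring
    rw [e]
    exact this
  · have e : shC C X 2 = nrm C X 0 := shC_two C X
    rw [nrm_eq] at h2
    have e2 : shC C X 2 - (nrm C X0 0 - s * ‖C‖ ^ 2 / 2) =
        nrm C X 0 + s * ‖C‖ ^ 2 / 2 - nrm C X0 0 := by rw [e]; ring
    show |shC C X 2 - (nrm C X0 0 - s * ‖C‖ ^ 2 / 2)| ≤ B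
    rw [e2]
    exact h2

theorem le_slice (C : E2) (X0 : E3) {w B : ℝ} (hw : 0 ≤ w) (hB : 0 ≤ B) (s : ℝ) :
    ENNReal.ofReal (2 * (w * w * B)) ≤
    volume {X : E3 | ‖lat X - lat X0 + s • C‖ ≤ w ∧ |nrm C X s - nrm C X0 0| ≤ B} := by
  have h := vol_sbox C ![X0 0 - s * C 0, X0 1 - s * C 1, nrm C X0 0 - s * ‖C‖ ^ 2 / 2]
    ![w / 2, w / 2, B] (by intro i; fin_cases i <;> simp <;> linarith)
  simp only [Matrix.cons_val_zero, Matrix.cons_val_one, Matrix.cons_val] at h
  have e : ENNReal.ofReal (2 * (w * w * B)) = ENNReal.ofReal (8 * (w / 2 * (w / 2) * B)) := by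
    congr 1; ring
  rw [e, ← h]
  refine measure_mono ?_
  intro X hX
  have a0 := hX 0
  have a1 := hX 1
  have a2 : |shC C X 2 - (nrm C X0 0 - s * ‖C‖ ^ 2 / 2)| ≤ B := hX 2
  rw [shC_zero] at a0
  rw [shC_one] at a1
  rw [shC_two] at a2
  simp only [Matrix.cons_val_zero] at a0
  simp only [Matrix.cons_val_one, Matrix.cons_val_zero] at a1
  refine ⟨?_, ?_⟩
  · refine (norm_le_of_coord (w := w / 2) ?_ ?_).trans (by linarith)
    · simp only [PiLp.add_apply, PiLp.sub_apply, PiLp.smul_apply, smul_eq_mul, lat_zero]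
      have e : X 0 - X0 0 + s * C 0 = X 0 - (X0 0 - s * C 0) := by ring
      rw [e]; exact a0
    · simp only [PiLp.add_apply, PiLp.sub_apply, PiLp.smul_apply, smul_eq_mul, lat_one]
      have e : X 1 - X0 1 + s * C 1 = X 1 - (X0 1 - s * C 1) := by ring
      rw [e]; exact a1
  · rw [nrm_eq]
    have e : nrm C X 0 + s * ‖C‖ ^ 2 / 2 - nrm C X0 0 =
      nrm C X 0 - (nrm C X0 0 - s * ‖C‖ ^ 2 / 2) := by ring
    rw [e]; exact a2





end Crest.Agent.R116.Mc330
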