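import Crest.Agent.R116.TuD_373
import Crest.Agent.R116.TuZ0_373
import Crest.Agent.R116.TuF_373_Mg
import Crest.Agent.R116.TuP3_890

-- ▼ part R116/TuN_171
section

/-!
# R116 (S0155), wave side: numerology of the tube step (helper171)

Pure reals. `numer`: the constant of `TuC373.tube_core` with `G = dl^(-Gw)`, `Y = R^e1`,
`Kf R = 8 (28 + 15 Y)^n0`, `Lc = Cu ν^Kv 324 dl^(-max 0 (h+j-2i)) 2 pu`, times the angular factor
`s2^(-q/2) s^(q/2)` with `s ≤ tht l`, `tht j ≤ s2`; `numer_full`: the same with the factors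
`√(Cn nb)` and `CK ri^ε'` of `TuP890.sum_frames` and of the Kakeya row.
-/

set_option autoImplicit false

namespace Crest.Agent.R116.TuN171

open Crest.Agent.R116.TuC373 Crest.Agent.R116.TuD373

/-! ### elementary bounds -/


/-- overlap constant. -/
theorem ovl_le {A Y : ℝ} (hA : 0 ≤ A) (hY : 1 ≤ Y) :
    (2 * (A + 10 * Y + 20) + 2) ^ 4 + 1 ≤ ((2 * A + 62) ^ 4 + 1) * Y ^ 4 := by
  have h1 : 2 * (A + 10 * Y + 20) + 2 ≤ (2 * A + 62) * Y := by nlinarith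
  have h2 : (2 * (A + 10 * Y + 20) + 2) ^ 4 ≤ ((2 * A + 62) * Y) ^ 4 :=
    pow_le_pow_left₀ (by positivity) h1 4
  have h3 : (1 : ℝ) ≤ Y ^ 4 := one_le_pow₀ hY
  rw [mul_pow] at h2
  linarith

theorem Kf_le {Y : ℝ} (n : ℕ) (hY : 1 ≤ Y) : 8 * (28 + 15 * Y) ^ n ≤ 8 * 43 ^ n * Y ^ n := by
  have h1 : (28 + 15 * Y) ^ n ≤ (43 * Y) ^ n := pow_le_pow_left₀ (by positivity) (by linarith) n
  rw [mul_pow] at h1
  linarith

theorem Fm_le {Y : ℝ} (n : ℕ) (hY : 1 ≤ Y) : Fm n (4 * Y + 3 / 2) ≤ 41 ^ n * Y ^ n := by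
  unfold Fm
  have h1 : (13 + 5 * (4 * Y + 3 / 2)) ^ n ≤ (41 * Y) ^ n :=
    pow_le_pow_left₀ (by positivity) (by linarith) n
  rwa [mul_pow] at h1

theorem CGn_le {A G : ℝ} (hA : 0 ≤ A) (hG : 1 ≤ G) :
    CGn A G ≤ 8 * A ^ 3 * (2 * A + 1) ^ 2 * G ^ 3 := by
  unfold CGn
  have h1 : 2 * (A * G) + 1 ≤ (2 * A + 1) * G := by nlinarith
  have h2 : (2 * (A * G) + 1) ^ 2 ≤ ((2 * A + 1) * G) ^ 2 := pow_le_pow_left₀ (by positivity) h1 2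
  calc 8 * A ^ 3 * (2 * (A * G) + 1) ^ 2 * G ≤ 8 * A ^ 3 * ((2 * A + 1) * G) ^ 2 * G := by gcongr
    _ = _ := by ring

/-- the constant under the root. -/
noncomputable def C2 (n0 : ℕ) (A Cu : ℝ) : ℝ :=
  648 * (8 * 43 ^ n0 * 41 ^ n0) * (8 * A ^ 3 * (2 * A + 1) ^ 2) * (Cu * 324 * 2)

/-- the root. -/
theorem root_le (n0 Kv : ℕ) {A Cu Y G ν pu pl X : ℝ} (hA : 0 ≤ A) (hCu : 0 ≤ Cu) (hY : 1 ≤ Y)
    (hG : 1 ≤ G) (hν : 1 ≤ ν) (hpu : 0 ≤ pu) (hpl : 0 < pl) (hX : 0 ≤ X) :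
    (648 * ((8 * (28 + 15 * Y) ^ n0) * Fm n0 (4 * Y + 3 / 2)) * CGn A G *
      (Cu * ν ^ Kv * 324 * X * 2 * pu) / pl) ^ (1/2 : ℝ) ≤
    C2 n0 A Cu ^ (1/2 : ℝ) * Y ^ n0 * G ^ (3/2 : ℝ) * ν ^ Kv * X ^ (1/2 : ℝ) *
      (pu / pl) ^ (1/2 : ℝ) := by
  have hY0 : 0 < Y := by linarith
  have hG0 : 0 < G := by linarith
  have hν0 : 0 < ν := by linarith
  have hC2 : 0 ≤ C2 n0 A Cu := by unfold C2; positivity
  have hν1 : (1 : ℝ) ≤ ν ^ Kv := one_le_pow₀ hν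
  have hF0 : 0 ≤ Fm n0 (4 * Y + 3 / 2) := by unfold Fm; positivity
  have hCG0 : 0 ≤ CGn A G := by unfold CGn; positivity
  have h1 : 648 * ((8 * (28 + 15 * Y) ^ n0) * Fm n0 (4 * Y + 3 / 2)) * CGn A G *
      (Cu * ν ^ Kv * 324 * X * 2 * pu) / pl ≤
      C2 n0 A Cu * (Y ^ n0) ^ 2 * G ^ (3 : ℝ) * (ν ^ Kv) ^ 2 * X * (pu / pl) := by
    calc 648 * ((8 * (28 + 15 * Y) ^ n0) * Fm n0 (4 * Y + 3 / 2)) * CGn A G *
          (Cu * ν ^ Kv * 324 * X * 2 * pu) / pl ≤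
          648 * ((8 * 43 ^ n0 * Y ^ n0) * (41 ^ n0 * Y ^ n0)) *
            (8 * A ^ 3 * (2 * A + 1) ^ 2 * G ^ 3) *
            (Cu * (ν ^ Kv) ^ 2 * 324 * X * 2 * pu) / pl := by
          have a1 := Kf_le n0 hY
          have a2 := Fm_le n0 hY
          have a3 := CGn_le hA hG
          have a4 : ν ^ Kv ≤ (ν ^ Kv) ^ 2 := by nlinarith
          gcongr
      _ = _ := by
          rw [show G ^ (3 : ℝ) = G ^ 3 by exact_mod_cast Real.rpow_natCast G 3]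
          unfold C2
          ring
  refine (Real.rpow_le_rpow (by positivity) h1 (by norm_num)).trans (le_of_eq ?_)
  have hh : ∀ x : ℝ, 0 ≤ x → (x ^ 2) ^ (1/2 : ℝ) = x := fun x hx => by
    rw [← Real.sqrt_eq_rpow, Real.sqrt_sq hx]
  rw [Real.mul_rpow (by positivity) (by positivity), Real.mul_rpow (by positivity) hX,
    Real.mul_rpow (by positivity) (by positivity), Real.mul_rpow (by positivity) (by positivity),
    Real.mul_rpow hC2 (by positivity), hh _ (by positivity), hh _ (by positivity),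
    ← Real.rpow_mul hG0.le]
  norm_num

/-- the total constant. -/
noncomputable def C3 (n0 : ℕ) (A Cc Cu : ℝ) : ℝ :=
  ((2 * A + 62) ^ 4 + 1) * (81 * (Cc * 13 ^ n0)) * C2 n0 A Cu ^ (1/2 : ℝ)

/-- **constant of the tube step.** -/
theorem cst_le (n0 Kn Kv : ℕ) {A Cc Cu Y G ν pu pl X : ℝ} (hA : 0 ≤ A) (hCc : 0 ≤ Cc)
    (hCu : 0 ≤ Cu) (hY : 1 ≤ Y) (hG : 1 ≤ G) (hν : 1 ≤ ν) (hpu : 0 ≤ pu) (hpl : 0 < pl)
    (hX : 0 ≤ X) :
    ((2 * (A + 10 * Y + 20) + 2) ^ 4 + 1) * (81 * ((Cc * ν ^ Kn) * 13 ^ n0)) *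
      (648 * ((8 * (28 + 15 * Y) ^ n0) * Fm n0 (4 * Y + 3 / 2)) * CGn A G *
        (Cu * ν ^ Kv * 324 * X * 2 * pu) / pl) ^ (1/2 : ℝ) ≤
    C3 n0 A Cc Cu * ν ^ (Kn + Kv) * Y ^ (n0 + 4) * G ^ (3/2 : ℝ) * X ^ (1/2 : ℝ) *
      (pu / pl) ^ (1/2 : ℝ) := by
  have hY0 : 0 < Y := by linarith
  have hG0 : 0 < G := by linarith
  have hν0 : 0 < ν := by linarith
  have h1 := root_le n0 Kv hA hCu hY hG hν hpu hpl hX
  have h2 := ovl_le hA hY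
  calc _ ≤ (((2 * A + 62) ^ 4 + 1) * Y ^ 4) * (81 * ((Cc * ν ^ Kn) * 13 ^ n0)) *
        (C2 n0 A Cu ^ (1/2 : ℝ) * Y ^ n0 * G ^ (3/2 : ℝ) * ν ^ Kv * X ^ (1/2 : ℝ) *
          (pu / pl) ^ (1/2 : ℝ)) := by
        refine mul_le_mul (mul_le_mul_of_nonneg_right h2 (by positivity)) h1 ?_ (by positivity)
        refine Real.rpow_nonneg (div_nonneg ?_ hpl.le) _
        unfold Fm CGn
        positivity
    _ = _ := by
        unfold C3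
        rw [pow_add, pow_add]
        ring

/-! ### angles -/

theorem tht_pos {R dl : ℝ} (hR : 0 < R) (hdl : 0 < dl) (t : ℕ) : 0 < tht R dl t :=
  Real.rpow_pos_of_pos (by positivity) _

/-- quotient of angles. -/
theorem tht_div {R dl : ℝ} (hR : 0 < R) (hdl : 0 < dl) (j l : ℕ) (q : ℝ) :
    (tht R dl l / tht R dl j) ^ (q / 2) = dl ^ (-(q / 4 * ((l : ℝ) - j))) := by
  unfold tht
  rw [← Real.div_rpow (by positivity) (by positivity), mul_div_mul_left _ _ hR.ne',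
    ← Real.rpow_natCast, ← Real.rpow_natCast, ← Real.rpow_sub hdl, ← Real.rpow_mul hdl.le,
    ← Real.rpow_mul hdl.le]
  congr 1
  ring

/-- **the angular factor.** -/
theorem ang_le {R dl s s2 q : ℝ} (hR : 0 < R) (hdl : 0 < dl) {j l : ℕ} (hq : 0 ≤ q) (hs0 : 0 ≤ s)
    (hs : s ≤ tht R dl l) (hs2 : tht R dl j ≤ s2) :
    s2 ^ (-q / 2) * s ^ (q / 2) ≤ dl ^ (-(q / 4 * ((l : ℝ) - j))) := by
  have hj := tht_pos hR hdl j
  have hs20 : 0 < s2 := hj.trans_le hs2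
  rw [show -q / 2 = -(q / 2) by ring, Real.rpow_neg hs20.le, inv_mul_eq_div,
    ← Real.div_rpow hs0 hs20.le, ← tht_div hR hdl]
  exact Real.rpow_le_rpow (by positivity) (div_le_div₀ (tht_pos hR hdl l).le hs hj hs2)
    (by positivity)

/-! ### the numerology -/

/-- exponent bookkeeping: `R^e1`, `dl^(-Gw)` and the coherence defect. -/
theorem exps_le (n0 : ℕ) {Gw ε e1 R dl a b c : ℝ} (hGw : 0 ≤ Gw) (hR : 1 ≤ R) (hdl : 0 < dl)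
    (hdl1 : dl ≤ 1) (he : ((n0 : ℝ) + 4) * e1 ≤ ε) (ha : 0 ≤ a) (hb : 0 ≤ b) :
    (R ^ e1) ^ (n0 + 4) * (dl ^ (-Gw)) ^ (3/2 : ℝ) * (dl ^ (-b)) ^ (1/2 : ℝ) * dl ^ (-c) ≤
      R ^ ε * dl ^ (-((6 * Gw + 6) + (6 * Gw + 6) * (a + b) + c)) := by
  have h1 : (R ^ e1) ^ (n0 + 4) ≤ R ^ ε := by
    rw [← Real.rpow_natCast (R ^ e1), ← Real.rpow_mul (by linarith)]
    refine Real.rpow_le_rpow_of_exponent_le hR ?_
    push_cast
    linarith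
  have h2 : (dl ^ (-Gw)) ^ (3/2 : ℝ) * (dl ^ (-b)) ^ (1/2 : ℝ) * dl ^ (-c) ≤
      dl ^ (-((6 * Gw + 6) + (6 * Gw + 6) * (a + b) + c)) := by
    rw [← Real.rpow_mul hdl.le, ← Real.rpow_mul hdl.le, ← Real.rpow_add hdl, ← Real.rpow_add hdl]
    refine Real.rpow_le_rpow_of_exponent_ge hdl hdl1 ?_
    nlinarith [mul_nonneg hGw ha, mul_nonneg hGw hb]
  calc (R ^ e1) ^ (n0 + 4) * (dl ^ (-Gw)) ^ (3/2 : ℝ) * (dl ^ (-b)) ^ (1/2 : ℝ) * dl ^ (-c) =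
        (R ^ e1) ^ (n0 + 4) * ((dl ^ (-Gw)) ^ (3/2 : ℝ) * (dl ^ (-b)) ^ (1/2 : ℝ) * dl ^ (-c)) := by
        ring
    _ ≤ _ := mul_le_mul h1 h2 (by positivity) (by positivity)

/-- **NUMEROLOGY of the tube step.** -/
theorem numer (n0 Kn Kv : ℕ) {Gw q ε e1 A Cc Cu : ℝ} (hGw : 0 ≤ Gw) (hq : 0 ≤ q)
    (he1 : 0 ≤ e1) (he : ((n0 : ℝ) + 4) * e1 ≤ ε) (hA : 0 ≤ A) (hCc : 0 ≤ Cc) (hCu : 0 ≤ Cu)
    {R dl ν pu pl s s2 : ℝ} {h i j l : ℕ} (hR : 1 ≤ R) (hdl : 0 < dl) (hdl1 : dl ≤ 1) (hν : 1 ≤ ν)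
    (hpu : 0 ≤ pu) (hpl : 0 < pl) (hs0 : 0 ≤ s) (hs : s ≤ tht R dl l) (hs2 : tht R dl j ≤ s2) :
    ((2 * (A + 10 * R ^ e1 + 20) + 2) ^ 4 + 1) * (81 * ((Cc * ν ^ Kn) * 13 ^ n0)) *
      (648 * ((8 * (28 + 15 * R ^ e1) ^ n0) * Fm n0 (4 * R ^ e1 + 3 / 2)) * CGn A (dl ^ (-Gw)) *
        (Cu * ν ^ Kv * 324 * dl ^ (-(max 0 ((h : ℝ) + j - 2 * i))) * 2 * pu) / pl) ^ (1/2 : ℝ) *
      (s2 ^ (-q / 2) * s ^ (q / 2)) ≤
    C3 n0 A Cc Cu * ν ^ (Kn + Kv) * R ^ ε *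
      dl ^ (-((6 * Gw + 6) + (6 * Gw + 6) * (max 0 ((i : ℝ) + l - 2 * j) +
        max 0 ((h : ℝ) + j - 2 * i)) + q / 4 * ((l : ℝ) - j))) * (pu / pl) ^ (1/2 : ℝ) := by
  have hR0 : 0 < R := by linarith
  have hY : 1 ≤ R ^ e1 := Real.one_le_rpow hR he1
  have hG : 1 ≤ dl ^ (-Gw) := Real.one_le_rpow_of_pos_of_le_one_of_nonpos hdl hdl1 (by linarith)
  have hC3 : 0 ≤ C3 n0 A Cc Cu := by unfold C3 C2; positivity
  have h1 := cst_le n0 Kn Kv (X := dl ^ (-(max 0 ((h : ℝ) + j - 2 * i)))) hA hCc hCu hY hG hν hpu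
    hpl (by positivity)
  have h2 := ang_le (q := q) hR0 hdl hq hs0 hs hs2
  have h3 := exps_le n0 (c := q / 4 * ((l : ℝ) - j)) hGw hR hdl hdl1 he
    (le_max_left 0 ((i : ℝ) + l - 2 * j)) (le_max_left 0 ((h : ℝ) + j - 2 * i))
  have hs20 : 0 < s2 := (tht_pos hR0 hdl j).trans_le hs2
  have hν0 : 0 < ν := by linarith
  refine (mul_le_mul h1 h2 (by positivity) (by positivity)).trans ?_
  calc _ = C3 n0 A Cc Cu * ν ^ (Kn + Kv) * (pu / pl) ^ (1/2 : ℝ) *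
        ((R ^ e1) ^ (n0 + 4) * (dl ^ (-Gw)) ^ (3/2 : ℝ) *
          (dl ^ (-(max 0 ((h : ℝ) + j - 2 * i)))) ^ (1/2 : ℝ) *
            dl ^ (-(q / 4 * ((l : ℝ) - j)))) := by ring
    _ ≤ C3 n0 A Cc Cu * ν ^ (Kn + Kv) * (pu / pl) ^ (1/2 : ℝ) * (R ^ ε *
        dl ^ (-((6 * Gw + 6) + (6 * Gw + 6) * (max 0 ((i : ℝ) + l - 2 * j) +
        max 0 ((h : ℝ) + j - 2 * i)) + q / 4 * ((l : ℝ) - j)))) :=
        mul_le_mul_of_nonneg_left h3 (by positivity)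
    _ = _ := by ring

/-- **NUMEROLOGY of the tube step, with the factors of the sum over the frames and of the Kakeya
row.** -/
theorem numer_full (n0 Kn Kv : ℕ) {Gw q ε ε' e1 A Cc Cu Cn CK : ℝ} (hGw : 0 ≤ Gw) (hq : 0 ≤ q)
    (he1 : 0 ≤ e1) (he : ((n0 : ℝ) + 4) * e1 ≤ ε) (he' : 0 ≤ ε') (hA : 0 ≤ A) (hCc : 0 ≤ Cc)
    (hCu : 0 ≤ Cu) (hCn : 0 ≤ Cn) (hCK : 0 ≤ CK)
    {R dl ν pu pl s s2 nb ri : ℝ} {h i j l : ℕ} (hR : 1 ≤ R) (hdl : 0 < dl) (hdl1 : dl ≤ 1)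
    (hν : 1 ≤ ν) (hpu : 0 ≤ pu) (hpl : 0 < pl) (hs0 : 0 ≤ s) (hs : s ≤ tht R dl l)
    (hs2 : tht R dl j ≤ s2) (hnb : nb ≤ ν) (hri : 0 ≤ ri) (hriR : ri ≤ R) :
    √(Cn * nb) * s2 ^ (-q / 2) *
      ((((2 * (A + 10 * R ^ e1 + 20) + 2) ^ 4 + 1) * (81 * ((Cc * ν ^ Kn) * 13 ^ n0)) *
        (648 * ((8 * (28 + 15 * R ^ e1) ^ n0) * Fm n0 (4 * R ^ e1 + 3 / 2)) * CGn A (dl ^ (-Gw)) *
          (Cu * ν ^ Kv * 324 * dl ^ (-(max 0 ((h : ℝ) + j - 2 * i))) * 2 * pu) / pl) ^ (1/2 : ℝ)) *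
        (CK * ri ^ ε' * s ^ (q / 2))) ≤
    (√Cn * CK * C3 n0 A Cc Cu) * ν ^ (Kn + Kv + 1) * R ^ (ε + ε') *
      dl ^ (-((6 * Gw + 6) + (6 * Gw + 6) * (max 0 ((i : ℝ) + l - 2 * j) +
        max 0 ((h : ℝ) + j - 2 * i)) + q / 4 * ((l : ℝ) - j))) * (pu / pl) ^ (1/2 : ℝ) := by
  have hR0 : 0 < R := by linarith
  have hν0 : 0 < ν := by linarith
  have h1 := numer n0 Kn Kv (h := h) (i := i) hGw hq he1 he hA hCc hCu hR hdl hdl1 hν hpu hpl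
    hs0 hs hs2
  have hs20 : 0 < s2 := (tht_pos hR0 hdl j).trans_le hs2
  have hC3 : 0 ≤ C3 n0 A Cc Cu := by unfold C3 C2; positivity
  have h2 : √(Cn * nb) ≤ √Cn * ν := by
    rw [Real.sqrt_mul hCn]
    refine mul_le_mul_of_nonneg_left ?_ (Real.sqrt_nonneg _)
    refine (Real.sqrt_le_sqrt hnb).trans ?_
    rw [Real.sqrt_le_left hν0.le]
    nlinarith
  have h3 : ri ^ ε' ≤ R ^ ε' := Real.rpow_le_rpow hri hriR he'
  set P := ((2 * (A + 10 * R ^ e1 + 20) + 2) ^ 4 + 1) * (81 * ((Cc * ν ^ Kn) * 13 ^ n0)) *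
        (648 * ((8 * (28 + 15 * R ^ e1) ^ n0) * Fm n0 (4 * R ^ e1 + 3 / 2)) * CGn A (dl ^ (-Gw)) *
          (Cu * ν ^ Kv * 324 * dl ^ (-(max 0 ((h : ℝ) + j - 2 * i))) * 2 * pu) / pl) ^ (1/2 : ℝ)
    with hP
  set Q := dl ^ (-((6 * Gw + 6) + (6 * Gw + 6) * (max 0 ((i : ℝ) + l - 2 * j) +
        max 0 ((h : ℝ) + j - 2 * i)) + q / 4 * ((l : ℝ) - j))) * (pu / pl) ^ (1/2 : ℝ) with hQ
  have hP0 : 0 ≤ P * (s2 ^ (-q / 2) * s ^ (q / 2)) := by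
    refine mul_nonneg ?_ (by positivity)
    refine mul_nonneg (by positivity) (Real.rpow_nonneg (div_nonneg ?_ hpl.le) _)
    unfold Fm CGn
    positivity
  calc √(Cn * nb) * s2 ^ (-q / 2) * (P * (CK * ri ^ ε' * s ^ (q / 2))) =
        √(Cn * nb) * CK * ri ^ ε' * (P * (s2 ^ (-q / 2) * s ^ (q / 2))) := by ring
    _ ≤ (√Cn * ν) * CK * R ^ ε' * (P * (s2 ^ (-q / 2) * s ^ (q / 2))) := by gcongr
    _ ≤ (√Cn * ν) * CK * R ^ ε' * (C3 n0 A Cc Cu * ν ^ (Kn + Kv) * R ^ ε *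
          dl ^ (-((6 * Gw + 6) + (6 * Gw + 6) * (max 0 ((i : ℝ) + l - 2 * j) +
            max 0 ((h : ℝ) + j - 2 * i)) + q / 4 * ((l : ℝ) - j))) * (pu / pl) ^ (1/2 : ℝ)) :=
        mul_le_mul_of_nonneg_left h1 (by positivity)
    _ = _ := by
        rw [Real.rpow_add hR0, pow_succ, pow_add]
        ring

end Crest.Agent.R116.TuN171
end

-- ▼ part R116/TuZ1_373

/-!
# R116 (S0155), wave side: the tube rule for one quadruple of levels, non-tiny labels (helper373)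
-/

set_option autoImplicit false

open MeasureTheory
open scoped ENNReal

namespace Crest.Agent.R116.TuZ373

open Crest.Agent.R138.Defs (E2)
open Crest.Agent.R138.Wpk685 (cen caps)
open Crest.Agent.R116.CDef480 Crest.Agent.R116.WC188 Crest.Agent.R116.GlC210
open Crest.Agent.R116.TuG373 Crest.Agent.R116.TuC373 Crest.Agent.R116.TuD373
open Crest.Agent.R116.TuS363 (Cdat Uat Eat)
open Crest.Agent.R116.TuP363 (frame_one Lcc Ctu)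
open Crest.Agent.R116.TuN171 (C3 numer_full)

theorem inv_dl_le {M κ q A A' a b Cn : ℝ} {K : ℕ} {η0 : ℝ} {C0 : E2} {σ : ℝ} {g : E3 → ℂ}
    {R dl ν : ℝ} {n : ℕ} {L : ℕ → Lev} (hR : 1 ≤ R) (hdl : 0 < dl) (hdl1 : dl ≤ 1)
    (hT : Tow M κ q A A' a b Cn K η0 C0 σ g R dl ν n L) {x : ℝ} (hx : x ≤ n) :
    dl ^ (-x) ≤ R := by
  have hR0 : 0 < R := by linarith
  have h5 := rad_ge hR hT (le_refl n)
  have h6 : dl ^ (-(n : ℝ)) ≤ R := by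
    rw [Real.rpow_neg hdl.le, Real.rpow_natCast, inv_le_iff_one_le_mul₀ (by positivity)]
    linarith
  exact le_trans (Real.rpow_le_rpow_of_exponent_ge hdl hdl1 (by linarith)) h6

/-- the constants of the tails. -/
theorem CGn_bound {A' G R Gw : ℝ} (hA' : 1 ≤ A') (hR : 1 ≤ R) (hGw : 0 ≤ Gw) (hG0 : 0 ≤ G)
    (hG : G ≤ R ^ Gw) : CGn A' G ≤ 8 * A' ^ 3 * (2 * A' + 1) ^ 2 * R ^ (3 * Gw) := by
  have hR0 : 0 < R := by linarith
  have hR1 : 1 ≤ R ^ Gw := Real.one_le_rpow hR hGw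
  have e : R ^ (3 * Gw) = (R ^ Gw) ^ 2 * R ^ Gw := by
    rw [← Real.rpow_natCast (R ^ Gw), ← Real.rpow_mul hR0.le, ← Real.rpow_add hR0]
    congr 1
    push_cast
    ring
  rw [e]
  unfold CGn
  have h1 : 2 * (A' * G) + 1 ≤ (2 * A' + 1) * R ^ Gw := by
    have : A' * G ≤ A' * R ^ Gw := mul_le_mul_of_nonneg_left hG (by linarith)
    nlinarith
  have h2 : (2 * (A' * G) + 1) ^ 2 ≤ ((2 * A' + 1) * R ^ Gw) ^ 2 :=
    pow_le_pow_left₀ (by positivity) h1 2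
  calc 8 * A' ^ 3 * (2 * (A' * G) + 1) ^ 2 * G
      ≤ 8 * A' ^ 3 * ((2 * A' + 1) * R ^ Gw) ^ 2 * R ^ Gw := by gcongr
    _ = _ := by ring

theorem Lcc_bound {CU ν R dl pu : ℝ} {Kv n h i j : ℕ} (hCU : 1 ≤ CU) (hR : 1 ≤ R) (hν : 1 ≤ ν)
    (hνR : ν ≤ R) (hpu0 : 0 ≤ pu) (hpu : pu ≤ 9 * R) (hdlR : ∀ x : ℝ, x ≤ n → dl ^ (-x) ≤ R)
    (hdl : 0 < dl) (hjn : j ≤ n) (hhi : h < i) :
    Lcc (CU * ν ^ Kv) dl h i j (2 * pu) ≤ 5832 * CU * R ^ ((Kv : ℝ) + 2) := by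
  have hR0 : 0 < R := by linarith
  have h1 : dl ^ (-(max 0 ((h : ℝ) + j - 2 * i))) ≤ R := by
    refine hdlR _ (max_le (Nat.cast_nonneg _) ?_)
    have h2 : (h : ℝ) < i := by exact_mod_cast hhi
    have h3 : (j : ℝ) ≤ n := by exact_mod_cast hjn
    have h4 : (0:ℝ) ≤ i := Nat.cast_nonneg _
    linarith
  have h0 : 0 ≤ dl ^ (-(max 0 ((h : ℝ) + j - 2 * i))) := Real.rpow_nonneg hdl.le _
  have h2 : ν ^ Kv ≤ R ^ Kv := pow_le_pow_left₀ (by linarith) hνR Kv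
  have e : R ^ ((Kv : ℝ) + 2) = R ^ Kv * (R * R) := by
    rw [Real.rpow_add hR0, Real.rpow_natCast]
    congr 1
    rw [← pow_two, ← Real.rpow_natCast]
    norm_num
  rw [e]
  unfold Lcc
  calc CU * ν ^ Kv * (324 * dl ^ (-(max 0 ((h : ℝ) + j - 2 * i))) * (2 * pu))
      ≤ CU * R ^ Kv * (324 * R * (2 * (9 * R))) := by gcongr
    _ = _ := by ring

open Classical in
/-- **main case**: both labels have class data. -/
theorem main_case {M q : ℝ} (hq : 0 ≤ q) {a b A A' Cn M0 Gw ε T e1 CU CE CR CT T' : ℝ}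
    {Kv Kn K n0 n Lw Ma : ℕ} {Kf : ℝ → ℝ} (hKf : ∀ R, Kf R = 8 * (28 + 15 * R ^ e1) ^ n0)
    (ha : 1 ≤ a) (hGw : 0 ≤ Gw) (hε : 0 < ε) (he1 : 0 ≤ e1) (he : ((n0 : ℝ) + 4) * e1 ≤ ε / 2)
    (hA' : 1 ≤ A') (hCn : 1 ≤ Cn) (hCU : 1 ≤ CU) (hCE : 1 ≤ CE) (hCR : 0 ≤ CR)
    (hT' : 3 * Gw + Kv + q + |M0| + 2 * |T| + 40 ≤ T')
    (hrow : ∀ (a b M0 κ A Cn : ℝ) (K : ℕ) (η0 : ℝ) (C0 : E2) (σ : ℝ) (g : E3 → ℂ) (R D : ℝ),
      1 ≤ a → St M κ q a b M0 C0 σ g R D → 0 < κ → κ ≤ 1 → R ^ (-(1/16) : ℝ) ≤ κ →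
      ∀ L : Lev, LevOk M κ q A A' a b Cn K η0 C0 σ g R L → ∀ k < L.n, ∀ w ∈ L.Z,
      ∀ s : ℝ, L.r ^ (-(1/2) : ℝ) ≤ s → s ≤ 1 → ∀ T' : ℝ, T' ≤ 2 * L.r →
      ∀ Kf : Finset (ℤ × ℤ),
      ∑ j ∈ Kf, ∫⁻ t in Set.Icc (-T') T', ∫⁻ x,
        (Cad538.Acc n0 (L.r ^ (-(1/2) : ℝ)) κ (L.r ^ (-(1/2) : ℝ)) (trc w g) (L.sl w k)
          (TuC373.Mk (L.r ^ (-(1/2) : ℝ)) s j) x t) ^ (3/2 : ℝ) ≤
        ENNReal.ofReal (CR * L.r ^ (ε / 2) * s ^ (q / 2)) *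
          (ENNReal.ofReal (L.r * √(L.D w k)) *
          enc (L.r ^ (-(1/2) : ℝ)) (trc w g) (L.sl w k)))
    (htail : ∀ (M κ A : ℝ) (K : ℕ) (η0 : ℝ) (C0 : E2) (σ : ℝ) (g : E3 → ℂ) (R D : ℝ),
      St M κ q a b M0 C0 σ g R D → ∀ L : Lev, LevOk M κ q A A' a b Cn K η0 C0 σ g R L →
      ∀ k < L.n, ∀ B : ℝ, 3 * Gw + ((Kv : ℝ) + 2) + 0 + 2 * (1 + q / 4) + |M0| + 2 * |T| + 20 ≤ B →
      ∀ (ω : Type) (W : Finset ω) (Zc : ω → Finset (E3 × ℝ)), (W.card : ℝ) ≤ 1296 * R ^ (4 : ℝ) →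
        (∀ w ∈ W, Zc w ⊆ L.Z) → ∀ (CG Lc al : ℝ) (τ0 τ1 Fc : ℝ≥0∞),
        0 ≤ CG → 0 ≤ Lc → 0 ≤ al → CG ≤ (8 * A' ^ 3 * (2 * A' + 1) ^ 2) * R ^ (3 * Gw) →
        Lc ≤ (5832 * CU) * R ^ ((Kv : ℝ) + 2) → al ≤ 1 * R ^ (0 : ℝ) * Enc g →
        τ0 ≤ ENNReal.ofReal ((CU + CE) * R ^ (-B) * Enc g) →
        τ1 ≤ ENNReal.ofReal ((CU + CE) * R ^ (-B) * Enc g) →
        Fc ≤ ENNReal.ofReal (√Cn * R ^ (1 + q / 4)) →
        Fc * ∑ w ∈ W, (ENNReal.ofReal ((8 * CG * Lc * al) ^ (1/2 : ℝ)) *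
            ((Zc w).card * ((caps (L.r ^ (-(1/2) : ℝ))).card * (ENNReal.ofReal L.r * τ1))) +
          (ENNReal.ofReal CG * τ0) ^ (1/2 : ℝ) *
            ∑ z ∈ Zc w, ∑ i ∈ L.I z k, ENNReal.ofReal L.r *
              enc (L.r ^ (-(1/2) : ℝ)) (trc z g) (L.P z k i).S) ≤
          ENNReal.ofReal (CT * (R ^ (-T) * SS g R D)))
    {κ η0 : ℝ} {C0 : E2} {σ : ℝ} {g : E3 → ℂ} {R D : ℝ}
    (hSs : Ss M κ q a b M0 η0 C0 σ g R D) (hKp : Kp a R κ) {dl ν : ℝ} (hdl : 0 < dl)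
    (hdl2 : dl ≤ 1/2) (hκ : κ ≤ dl ^ (4 * (Lw : ℝ))) (hν : 1 ≤ ν) (hνR : ν ≤ R) {L : ℕ → Lev}
    {ac : ℕ → ℕ → ℕ} (hT : Tow M κ q A A' a b Cn K η0 C0 σ g R dl ν n L)
    (hb : b ≤ 2) (hac : Acl (AT n0 n Ma Kf) κ η0 g R dl n L ac)
    {h i j l : ℕ} (hhi : h < i) (hij : i < j) (hjl : j < l) (hln : l ≤ n) (hl : l ≤ h + 4 * Lw)
    {k : ℕ} (hk : k < (L j).n) (hnar : ¬ Wide dl Gw (L j).r ((L j).s k).2)
    (hU : Uat n0 κ g R dl (R ^ e1) L j i k (CU * ν ^ Kv) (ENNReal.ofReal (CU * R ^ (-T') * Enc g)))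
    (hE : Eat n0 κ g R dl (R ^ e1) L j i k (CE * ν ^ Kn) (ENNReal.ofReal (CE * R ^ (-T') * Enc g)))
    (hE0 : 0 < Enc g)
    (hn1 : ¬ Tiny n Ma R i (ac j k)) (hn2 : ¬ Tiny n Ma R h (ac i (anc L j i k))) :
    (L j).S g k ≤ ENNReal.ofReal ((√Cn * CR * C3 n0 A' CE CU) * ν ^ (Kn + Kv + 1) *
        R ^ ε * dl ^ (-((6 * Gw + 6) + (6 * Gw + 6) * (max 0 ((i : ℝ) + l - 2 * j) +
        max 0 ((h : ℝ) + j - 2 * i)) + q / 4 * ((l : ℝ) - j))) *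
        (pT n Ma R dl h i j (ac i (anc L j i k)) / pT n Ma R dl i j l (ac j k)) ^ (1/2 : ℝ)) *
          (L i).S g (anc L j i k) + ENNReal.ofReal (CT * (R ^ (-T) * SS g R D)) := by
  have hR := hSs.R1
  have hR0 : 0 < R := by linarith
  have hdl1 : dl ≤ 1 := by linarith
  have hjn : j ≤ n := by omega
  have hin : i ≤ n := by omega
  have hκ0 := hKp.k0
  have hκ1 : κ ≤ 1 := by linarith [hKp.k4]
  have hri := hT.rad i hin
  have hrj := hT.rad j hjn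
  have hki : anc L j i k < (L i).n := TuP363.anc_lt hT hij.le hjn hk
  have hY : 0 ≤ R ^ e1 := Real.rpow_nonneg hR0.le _
  have hKf1 : 1 ≤ Kf R := by
    rw [hKf]
    have : (1:ℝ) ≤ (28 + 15 * R ^ e1) ^ n0 := one_le_pow₀ (by linarith)
    linarith
  have hC1 := cdat_of (n0 := n0) (Ma := Ma) ha hb hSs.toSt hκ1 hdl hdl1 hKf1 hT hac hij hjl hln hk
    hn1
  have hC0 := cdat_of (n0 := n0) (Ma := Ma) ha hb hSs.toSt hκ1 hdl hdl1 hKf1 hT hac hhi hij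
    (by omega) hki hn2
  have hp1 := pT_bound n Ma (R := R) (h := i) (i := j) (j := l) (x := ac j k) hdl hdl1 hjl
  have hp0 := pT_bound n Ma (R := R) (h := h) (i := i) (j := j) (x := ac i (anc L j i k)) hdl hdl1
    hij
  set pu := pT n Ma R dl h i j (ac i (anc L j i k)) with hpu
  set pl := pT n Ma R dl i j l (ac j k) with hpl
  have hal : 0 < A0 n Ma g R i (ac j k) := by
    unfold A0; positivity
  set G : ℝ := dl ^ (-Gw) with hG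
  have hG0 : 0 < G := Real.rpow_pos_of_pos hdl _
  have hGs : ((L j).s k).2 ≤ G * tht R dl j := by
    unfold Wide at hnar
    rw [tht_eq hT hjn] at hnar
    exact (not_le.1 hnar).le
  have hdlR : ∀ x : ℝ, x ≤ n → dl ^ (-x) ≤ R := fun x hx => inv_dl_le hR hdl hdl1 hT hx
  have hn3 : (1:ℝ) ≤ n := by
    have : 1 ≤ n := by omega
    exact_mod_cast this
  have hGR : G ≤ R ^ Gw := by
    rw [hG, show -Gw = (-1) * Gw by ring, Real.rpow_mul hdl.le]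
    exact Real.rpow_le_rpow (Real.rpow_nonneg hdl.le _) (hdlR 1 hn3) hGw
  have hCG0 : 0 ≤ CGn A' G := by unfold CGn; positivity
  have hCuν : 0 ≤ CU * ν ^ Kv := by positivity
  have hCeν : 0 ≤ CE * ν ^ Kn := by positivity
  have hpu9 : pu ≤ 9 * R := by
    refine hp0.2.trans (mul_le_mul_of_nonneg_left (hdlR _ ?_) (by norm_num))
    have h1 : (j : ℝ) ≤ n := by exact_mod_cast hjn
    have h2 : (0:ℝ) ≤ i := Nat.cast_nonneg _
    linarith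
  have hLc0 : 0 ≤ Lcc (CU * ν ^ Kv) dl h i j (2 * pu) := by
    unfold Lcc
    have : 0 ≤ dl ^ (-(max 0 ((h : ℝ) + j - 2 * i))) := Real.rpow_nonneg hdl.le _
    have := hp0.1
    positivity
  have hKeq : 8 * (28 + 15 * R ^ e1) ^ n0 ≤ Kf R := by rw [hKf]
  -- one frame
  have hcore : ∀ w ∈ (L i).Z, ∑ z ∈ (L j).Z.filter (fun z => pz L j i z = w),
      val κ g (L j).r ((L j).s k).1 ((L j).s k).2 ((L j).I z k) ((L j).P z k) ≤ _ :=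
    fun w _ => frame_one ha hSs hKp hT hdl hdl2 hκ hhi hij hjl hln hl hk (Y := R ^ e1)
      (K0 := Kf R) (by linarith : 0 < A') hG0 hGs hY hKeq hal (by linarith [hp1.1])
      (by linarith [hp0.1] : 0 ≤ 2 * pu) hCuν hCeν hC1 hC0 hU hE w
  have hrow' : ∀ w ∈ (L i).Z,
      (∑ c ∈ (caps (tht R dl j)).image (tau (tht R dl j) (sgm R dl i j l)),
          ∫⁻ t in Set.Icc (-(2 * (R * dl ^ i))) (2 * (R * dl ^ i)), ∫⁻ x,
            (Cad538.Acc n0 (tht R dl i) κ (tht R dl i) (trc w g) ((L i).sl w (anc L j i k))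
              (Mk (tht R dl i) (sgm R dl i j l) c) x t) ^ (3/2 : ℝ)) ≤
      ENNReal.ofReal (CR * (L i).r ^ (ε / 2) * sgm R dl i j l ^ (q / 2)) *
        (ENNReal.ofReal ((L i).r * √((L i).D w (anc L j i k))) *
          enc ((L i).r ^ (-(1/2) : ℝ)) (trc w g) ((L i).sl w (anc L j i k))) := by
    intro w hw
    have h1 := hrow a b M0 κ A Cn K η0 C0 σ g R D ha hSs.toSt hκ0 hκ1 hKp.kR (L i) (hT.ok i hin)
      (anc L j i k) hki w hw (sgm R dl i j l)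
      (by rw [tht_eq hT hin]
          exact (TuS363.tht_mono hR0 hdl hdl1 hij.le).trans
            (TuS363.tht_le_sgm hR0 hdl hdl1 hij.le hjl.le))
      ((TuD373.sgm_le R dl i j l).trans (TuS363.tht_le_one (rad_ge hR hT hln)))
      (2 * (R * dl ^ i)) (by rw [hri])
      ((caps (tht R dl j)).image (tau (tht R dl j) (sgm R dl i j l)))
    rw [tht_eq hT hin] at h1 ⊢
    exact h1
  have hsum := TuP890.sum_frames (hT.ok j hjn) (hT.ok i hin) hR hk hki (fun z => pz L j i z)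
    (fun z hz => TuS363.pz_mem' hT hij.le hjn hz)
    (by
      unfold Ctu
      have h1 : 0 ≤ Fm n0 (4 * R ^ e1 + 3 / 2) := Fm_nonneg n0 (by positivity)
      have h2 := hp1.1
      have h3 : 0 ≤ Kf R := by linarith
      positivity) hcore hrow'
  refine hsum.trans (add_le_add (mul_le_mul' (ENNReal.ofReal_le_ofReal ?_) le_rfl) ?_)
  · -- numerology
    have h1 := numer_full n0 Kn Kv (Gw := Gw) (q := q) (ε := ε / 2) (ε' := ε / 2) (e1 := e1)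
      (A := A') (Cc := CE) (Cu := CU) (Cn := Cn) (CK := CR) hGw hq he1 he (by positivity)
      (by linarith) (by linarith) (by linarith) (by linarith) hCR (R := R) (dl := dl) (ν := ν)
      (pu := pu) (pl := pl) (s := sgm R dl i j l) (s2 := ((L j).s k).2) (nb := (L j).nb)
      (ri := (L i).r) (h := h) (i := i) (j := j) (l := l) hR hdl hdl1 hν (by linarith [hp0.1])
      (by linarith [hp1.1]) (TuD373.sgm_pos hR0 hdl hdl1 hij.le hjl.le).le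
      (TuD373.sgm_le R dl i j l)
      (by
        have := (hT.ok j hjn).sd k hk
        rw [← tht_eq hT hjn]
        exact this.lo.trans this.le)
      ((hT.le j hjn).2) (by rw [hri]; positivity) ((hT.ok i hin).hi)
    rw [show ε / 2 + ε / 2 = ε by ring] at h1
    refine le_trans (le_of_eq ?_) h1
    unfold Ctu Lcc
    rw [hKf]
    have e1 : CU * ν ^ Kv * (324 * dl ^ (-(max 0 ((h : ℝ) + j - 2 * i))) * (2 * pu)) =
      CU * ν ^ Kv * 324 * dl ^ (-(max 0 ((h : ℝ) + j - 2 * i))) * 2 * pu := by ring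
    rw [e1]
  · -- tails
    refine htail M κ A K η0 C0 σ g R D hSs.toSt (L j) (hT.ok j hjn) k hk T' ?_ (E3 × ℝ) (L i).Z
      (fun w => (L j).Z.filter (fun z => pz L j i z = w))
      (TuL890.card_net' (TuL890.lev_r1 (hT.ok i hin) hR) (hT.ok i hin).hi (hT.ok i hin).net)
      (fun w _ => Finset.filter_subset _ _) (CGn A' G) (Lcc (CU * ν ^ Kv) dl h i j (2 * pu))
      (A0 n Ma g R i (ac j k)) _ _ _ hCG0 hLc0 hal.le (CGn_bound hA' hR hGw hG0.le hGR)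
      (Lcc_bound hCU hR hν hνR (by linarith [hp0.1]) hpu9 hdlR hdl hjn hhi) ?_ ?_ ?_ ?_
    · have := abs_nonneg M0
      linarith
    · rw [Real.rpow_zero, one_mul, one_mul]
      unfold A0
      refine div_le_self hE0.le (one_le_pow₀ (by norm_num))
    · refine ENNReal.ofReal_le_ofReal ?_
      have : 0 ≤ R ^ (-T') := Real.rpow_nonneg hR0.le _
      gcongr
      linarith
    · refine ENNReal.ofReal_le_ofReal ?_
      have : 0 ≤ R ^ (-T') := Real.rpow_nonneg hR0.le _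
      gcongr
      linarith
    · refine ENNReal.ofReal_le_ofReal ?_
      have hnb : ((L j).nb : ℝ) ≤ R := ((hT.le j hjn).2).trans hνR
      have h1 : √(Cn * (L j).nb) ≤ √Cn * R := by
        rw [Real.sqrt_mul (by linarith)]
        refine mul_le_mul_of_nonneg_left ?_ (Real.sqrt_nonneg _)
        rw [Real.sqrt_le_left hR0.le]
        nlinarith
      have h2 : ((L j).s k).2 ^ (-q / 2) ≤ R ^ (q / 4) := by
        have hsd := (hT.ok j hjn).sd k hk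
        exact TuT890.s2_pow hq (TuL890.lev_r1 (hT.ok j hjn) hR) (hT.ok j hjn).hi
          (hsd.lo.trans hsd.le)
      have h3 : R ^ (1 + q / 4) = R * R ^ (q / 4) := by
        rw [Real.rpow_add hR0, Real.rpow_one]
      rw [h3, ← mul_assoc]
      exact mul_le_mul h1 h2 (Real.rpow_nonneg (TuL890.lev_s_pos (hT.ok j hjn) hR hk).2.le _)
        (by positivity)

end Crest.Agent.R116.TuZ373
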