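import Crest.Agent.R116.TuL_890
import Crest.Agent.R116.A1k3_229
import Crest.Agent.R116.TuF_373_Mg
import Crest.Agent.R116.TuT_890
import Crest.Agent.R116.TuZ1_373
import Mathlib
import Crest.Agent.R138.Loc1_878
import Crest.Agent.R116.TuS_363
import Crest.Agent.R116.F1c4_124
import Crest.Agent.R116.A1k1_229
import Crest.Agent.R116.GlC_210
import Crest.Agent.R116.TuZ0_373
import Crest.Agent.R116.F1c3_124
import Crest.Agent.R116.TuG_373
import Crest.Agent.R116.A1k2_229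

-- ▼ part R116/Rt_210
section

/-!
# R116 (S0155), wave side, CHAIN-C (helper210): `A2k ⟹ ROOT`
-/

set_option autoImplicit false

open MeasureTheory
open scoped ENNReal

namespace Crest.Agent.R116.GlC210

open Crest.Agent.R116.CDef480 Crest.Agent.R116.WC188

/-- slices of width `κ` are slices of width `2 κ`. -/
theorem Slc_two {η0 κ : ℝ} (hκ : 0 ≤ κ) {g : E3 → ℂ} (h : Slc η0 κ g) : Slc η0 (2 * κ) g :=
  fun ζ hζ => (h ζ hζ).trans (by linarith)

/-- **ROOT from A2k.** -/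
theorem root_of_A2k {M q : ℝ} (hA : A2k M q) : ROOT M q := by
  intro c hc hLB
  obtain ⟨K, hK, hA2⟩ := hA c hc hLB
  obtain ⟨Kν, hKν⟩ : ∃ n : ℕ, K + 1 ≤ n := exists_nat_ge _
  have hKν1 : 1 ≤ Kν := by
    have : (1:ℝ) ≤ Kν := by linarith
    exact_mod_cast this
  refine ⟨Kν, ?_⟩
  intro a b A ε M0 hRg K' A' Cn hA' hCn
  obtain ⟨C2, hC2, hA3⟩ := hA2 a b A' ε M0 hRg.a1 hRg.b0 hRg.b2 hA' hRg.e0
  refine ⟨1 + Cn * C2, by nlinarith, ?_⟩
  intro κ η0 C0 σ g R D hSs hKp hCR L hL ν hν hLe k hk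
  have hR : 1 ≤ R := hSs.R1
  have hR0 : 0 < R := by linarith
  have hr1 : 1 ≤ L.r := TuL890.lev_r1 hL hR
  have hr0 : 0 < L.r := by linarith
  have hs := hL.sd k hk
  have hs10 : 0 < (L.s k).1 := (Real.rpow_pos_of_pos hr0 _).trans_le hs.lo
  have hs20 : 0 < (L.s k).2 := hs10.trans_le hs.le
  have hSS0 : 0 ≤ SS g R D := by
    unfold SS
    have := Ba449.Enc_nonneg g
    positivity
  have h1 := TuL890.S_le_val hL hR hk
  have h2 := A1k229.combine (M := M) (κ := κ) (A := A') (A' := A') (R := R) le_rfl hr0.le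
    hs10.le hs20.le g L.Z (fun z hz z' hz' => hL.net.sep z hz z' hz') (fun z => L.I z k)
    (fun z => L.P z k) (fun z hz => by
      obtain ⟨cls, hd⟩ := hL.dec z hz
      exact hd.pl k (Finset.mem_range.2 hk))
  have h3 := hA3 κ η0 C0 σ g R D hKp.k0 hKp.ka
    ((Real.rpow_le_rpow_of_exponent_le hR (by norm_num)).trans hKp.kR) hSs.toSt
    (Slc_two hKp.k0.le hSs.slc) L.r (L.s k).1 (L.s k).2 hL.lo hL.hi hs
  set mx : ℝ := (max 1 (R / ((L.s k).1 * L.r) ^ 2)) ^ (c / 2) with hmx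
  have hmx0 : 0 ≤ mx := by
    rw [hmx]
    exact Real.rpow_nonneg (le_trans zero_le_one (le_max_left _ _)) _
  have hsq : √(Cn * L.nb) ≤ Cn * ν := by
    have hnb := hLe.2
    have h0 : (1:ℝ) ≤ Cn * ν := by nlinarith
    calc √(Cn * L.nb) ≤ √(Cn * ν) := Real.sqrt_le_sqrt (by gcongr)
      _ ≤ Cn * ν := Real.sqrt_le_iff.2 ⟨by linarith, by nlinarith⟩
  calc L.S g k ≤ ENNReal.ofReal (√(Cn * L.nb)) * (ENNReal.ofReal ((L.s k).2 ^ (-q / 2)) *
        SIG M κ A' L.r (L.s k).1 (L.s k).2 g R) := h1.trans (by gcongr)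
    _ ≤ ENNReal.ofReal (Cn * ν) * ENNReal.ofReal (C2 * R ^ (K * ε) * mx * SS g R D) := by
        gcongr
    _ = ENNReal.ofReal (Cn * ν * (C2 * R ^ (K * ε) * mx * SS g R D)) :=
        (ENNReal.ofReal_mul (by positivity)).symm
    _ ≤ _ := by
        refine ENNReal.ofReal_le_ofReal ?_
        have e1 : ν ≤ ν ^ Kν := le_self_pow₀ hν (by omega)
        have e2 : R ^ (K * ε) ≤ R ^ (Kν * ε) := by
          refine Real.rpow_le_rpow_of_exponent_le hR ?_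
          have := hRg.e0
          gcongr
          linarith
        calc Cn * ν * (C2 * R ^ (K * ε) * mx * SS g R D)
            = (Cn * C2) * ν * R ^ (K * ε) * mx * SS g R D := by ring
          _ ≤ (1 + Cn * C2) * ν ^ Kν * R ^ (Kν * ε) * mx * SS g R D := by
              gcongr
              linarith

end Crest.Agent.R116.GlC210
end

-- ▼ part R116/TuY_171
section

/-!
# R116 (S0155), wave side, tube step: tiny labels (helper171)

* `uat_tiny`: (U) with a tiny density gives tiny packets.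
* `dns_small`: tiny packets of the level `i` give a tiny density of the level `i`.
* `tiny1`, `tiny2`: the functional of a label with tiny density (of its ancestor of level `i`, resp. of
  the ancestor of level `h` of this ancestor) is tiny.
-/

set_option autoImplicit false

open MeasureTheory
open scoped ENNReal

namespace Crest.Agent.R116.TuY171

open Crest.Agent.R138.Defs (E2)
open Crest.Agent.R138.Wpk685 (cen caps)
open Crest.Agent.R116.CDef480 Crest.Agent.R116.WC188 Crest.Agent.R116.GlC210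
open Crest.Agent.R116.TuG373 Crest.Agent.R116.TuC373 Crest.Agent.R116.TuD373
open Crest.Agent.R116.TuS363 (Uat cntU)
open Crest.Agent.R116.TuP363 (mem_sl)
open Crest.Agent.R116.TuL890 Crest.Agent.R116.TuT890

variable {M κ q A A' a b Cn M0 : ℝ} {K : ℕ} {η0 : ℝ} {C0 : E2} {σ : ℝ} {g : E3 → ℂ} {R D dl ν : ℝ}
  {n : ℕ} {L : ℕ → Lev} {h i j k n0 Kv : ℕ}

/-- the count is at most the number of caps. -/
theorem cntU_caps (κ R dl Y : ℝ) (L : ℕ → Lev) (j i : ℕ) (z : E3 × ℝ) (k' : ℕ) (m : ℤ × ℤ)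
    (y : E3) : cntU κ R dl Y L j i z k' m y ≤ (caps (tht R dl i)).card := by
  classical
  unfold cntU nrC
  exact Finset.card_le_card ((Finset.filter_subset _ _).trans (Finset.filter_subset _ _))

/-- a density is at most the energy. -/
theorem dns_le_enc (hκ1 : κ ≤ 1) (hr : 1 ≤ R * dl ^ i) (z z' : E3 × ℝ) (k : ℕ)
    (m : ℤ × ℤ) (y : E3) : dns n0 κ g R dl L j i z k m z' y ≤
      enc (tht R dl i) (trc (pz L j i z) g) ((L i).sl (pz L j i z) k) := by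
  classical
  have hth0 : 0 < tht R dl i := Real.rpow_pos_of_pos (by linarith) _
  have hth1 : tht R dl i ≤ 1 := Real.rpow_le_one_of_one_le_of_nonpos hr (by norm_num)
  unfold dns AdN Cad538.Acc
  refine (Cad538.Den_le _ _).trans ?_
  have h1 : ENNReal.ofReal (tht R dl i ^ 2 * κ) ≤ 1 := by
    rw [← ENNReal.ofReal_one]
    refine ENNReal.ofReal_le_ofReal ?_
    have : tht R dl i ^ 2 ≤ 1 := pow_le_one₀ hth0.le hth1
    nlinarith
  have h2 : ∑ m ∈ nrC (tht R dl i) (tht R dl j) m, ∫⁻ y in (L i).sl (pz L j i z) k m,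
      ‖umc (tht R dl i) (trc (pz L j i z) g) m y‖ₑ ^ 2 ≤
      enc (tht R dl i) (trc (pz L j i z) g) ((L i).sl (pz L j i z) k) := by
    unfold enc
    exact Finset.sum_le_sum_of_subset fun m hm => (Finset.mem_filter.1 hm).1
  calc _ ≤ 1 * enc (tht R dl i) (trc (pz L j i z) g) ((L i).sl (pz L j i z) k) :=
        mul_le_mul' h1 h2
    _ = _ := one_mul _

/-- **(U) with a tiny density.** -/
theorem uat_tiny (hT : Tow M κ q A A' a b Cn K η0 C0 σ g R dl ν n L) (hR : 1 ≤ R) (hν : 1 ≤ ν)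
    (hνR : ν ≤ R) (hij : i < j) (hjn : j ≤ n) {Y Cu c1 Ma T' B : ℝ} (hCu : 0 ≤ Cu) (hc1 : 0 ≤ c1)
    (hMa : B + Kv + 1 ≤ Ma) (hT' : B ≤ T')
    (hU : Uat n0 κ g R dl Y L j i k (Cu * ν ^ Kv) (ENNReal.ofReal (Cu * R ^ (-T') * Enc g)))
    (hd : ∀ z ∈ (L j).Z, ∀ p ∈ (L j).I z k, ∀ m, ∀ y ∈ ((L j).P z k p).S m,
      dns n0 κ g R dl L j i z (anc L j i k) m (z - pz L j i z) y ≤
        ENNReal.ofReal (c1 * (R ^ (-Ma) * Enc g))) :
    ∀ z ∈ (L j).Z, ∀ m, ∀ y ∈ (L j).sl z k m, ‖umc (tht R dl j) (trc z g) m y‖ₑ ^ 2 ≤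
      ENNReal.ofReal ((Cu * (81 * c1 + 1)) * R ^ (-B) * Enc g) := by
  intro z hz m y hy
  obtain ⟨p, hp, hyp⟩ := mem_sl.1 hy
  have hR0 : 0 < R := by linarith
  have hE := Enc_nn g
  have hri : 1 ≤ (L i).r := lev_r1 (hT.ok i (by omega)) hR
  have hriR : (L i).r ≤ R := (hT.ok i (by omega)).hi
  have hcap : ((caps (tht R dl i)).card : ℝ) ≤ 81 * R := by
    have h1 := card_caps_lev hri hriR
    rw [hT.rad i (by omega)] at h1
    exact h1
  have h2 : ((cntU κ R dl Y L j i z (anc L j i k) m y : ℕ) : ℝ≥0∞) ≤ ENNReal.ofReal (81 * R) := by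
    rw [← ENNReal.ofReal_natCast]
    refine ENNReal.ofReal_le_ofReal (le_trans ?_ hcap)
    exact_mod_cast cntU_caps κ R dl Y L j i z (anc L j i k) m y
  have hpow : ν ^ Kv ≤ R ^ (Kv : ℝ) := by
    rw [Real.rpow_natCast]
    exact pow_le_pow_left₀ (by linarith) hνR Kv
  have e1 : R ^ (Kv : ℝ) * (R * R ^ (-Ma)) ≤ R ^ (-B) := by
    have e2 : R ^ (Kv : ℝ) * (R * R ^ (-Ma)) = R ^ ((Kv : ℝ) + 1 - Ma) := by
      rw [show (Kv : ℝ) + 1 - Ma = Kv + (1 + -Ma) by ring, Real.rpow_add hR0, Real.rpow_add hR0,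
        Real.rpow_one]
    rw [e2]
    exact Real.rpow_le_rpow_of_exponent_le hR (by linarith)
  have e3 : R ^ (-T') ≤ R ^ (-B) := Real.rpow_le_rpow_of_exponent_le hR (by linarith)
  calc ‖umc (tht R dl j) (trc z g) m y‖ₑ ^ 2 ≤
        ENNReal.ofReal (Cu * ν ^ Kv) * (cntU κ R dl Y L j i z (anc L j i k) m y : ℝ≥0∞) *
          dns n0 κ g R dl L j i z (anc L j i k) m (z - pz L j i z) y +
          ENNReal.ofReal (Cu * R ^ (-T') * Enc g) := hU z hz p hp m y hyp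
    _ ≤ ENNReal.ofReal (Cu * ν ^ Kv) * ENNReal.ofReal (81 * R) *
          ENNReal.ofReal (c1 * (R ^ (-Ma) * Enc g)) + ENNReal.ofReal (Cu * R ^ (-T') * Enc g) :=
        add_le_add (mul_le_mul' (mul_le_mul' le_rfl h2) (hd z hz p hp m y hyp)) le_rfl
    _ = ENNReal.ofReal (Cu * ν ^ Kv * (81 * R) * (c1 * (R ^ (-Ma) * Enc g)) +
          Cu * R ^ (-T') * Enc g) := by
        rw [← ENNReal.ofReal_mul (by positivity), ← ENNReal.ofReal_mul (by positivity),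
          ← ENNReal.ofReal_add (by positivity) (by positivity)]
    _ ≤ _ := by
        refine ENNReal.ofReal_le_ofReal ?_
        have f1 : Cu * ν ^ Kv * (81 * R) * (c1 * (R ^ (-Ma) * Enc g)) ≤
            81 * c1 * Cu * R ^ (-B) * Enc g := by
          calc _ = 81 * c1 * Cu * (ν ^ Kv * (R * R ^ (-Ma))) * Enc g := by ring
            _ ≤ 81 * c1 * Cu * (R ^ (Kv : ℝ) * (R * R ^ (-Ma))) * Enc g := by gcongr
            _ ≤ 81 * c1 * Cu * R ^ (-B) * Enc g := by gcongr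
        have f2 : Cu * R ^ (-T') * Enc g ≤ Cu * R ^ (-B) * Enc g := by gcongr
        calc _ ≤ 81 * c1 * Cu * R ^ (-B) * Enc g + Cu * R ^ (-B) * Enc g := add_le_add f1 f2
          _ = _ := by ring

/-- tiny packets of level `i` give tiny densities of level `i`. -/
theorem dns_small (hT : Tow M κ q A A' a b Cn K η0 C0 σ g R dl ν n L) (hR : 1 ≤ R)
    (hκ1 : κ ≤ 1) (hA' : 0 ≤ A') (hij : i < j) (hjn : j ≤ n) {k' : ℕ} (hk' : k' < (L i).n)
    {x : ℝ} (hx : 0 ≤ x)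
    (hu : ∀ w ∈ (L i).Z, ∀ m, ∀ y ∈ (L i).sl w k' m, ‖umc (tht R dl i) (trc w g) m y‖ₑ ^ 2 ≤
      ENNReal.ofReal x) {z : E3 × ℝ} (hz : z ∈ (L j).Z) (z' : E3 × ℝ) (m : ℤ × ℤ) (y : E3) :
    dns n0 κ g R dl L j i z k' m z' y ≤ ENNReal.ofReal (81 * A' ^ 3 * v3 * R ^ 4 * x) := by
  have hin : i ≤ n := by omega
  have hok := hT.ok i hin
  have hri : 1 ≤ (L i).r := lev_r1 hok hR
  have hr := hT.rad i hin
  have hw := TuS363.pz_mem' hT hij.le hjn hz
  obtain ⟨cls, hd⟩ := hok.dec _ hw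
  have hkΛ : k' ∈ Finset.range (L i).n := Finset.mem_range.2 hk'
  obtain ⟨hp, hpz⟩ := hd.pl k' hkΛ
  have hmeas : ∀ m, MeasurableSet ((L i).sl (pz L j i z) k' m) := fun m => by
    unfold Lev.sl uS
    exact Finset.measurableSet_biUnion _ fun p hp' => hp.meas p hp' m
  refine (dns_le_enc hκ1 (by rw [← hr]; exact hri) z z' k' m y).trans ?_
  have h1 := enc_tiny (A' := A') (x := x) (f := trc (pz L j i z) g)
    (S := (L i).sl (pz L j i z) k') hri hok.hi hA' hx (fun m => hd.bd k' hkΛ m) hmeas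
    (fun m _ y hy => by
      have h2 := hu _ hw m y hy
      rw [hr]
      exact h2)
  rw [hr] at h1
  exact h1

/-- **a label whose ancestor of level `i` has a tiny density.** -/
theorem tiny1 (q a b A' Cn M0 T Cu : ℝ) (Kv : ℕ) (ha : 1 ≤ a) (hb : b ≤ 2) (hq : 0 ≤ q)
    (hA' : 1 ≤ A') (hCn : 1 ≤ Cn) (hCu : 0 ≤ Cu) : ∃ C : ℝ, 1 ≤ C ∧
    ∀ (M κ A : ℝ) (K : ℕ) (η0 : ℝ) (C0 : E2) (σ : ℝ) (g : E3 → ℂ) (R D dl ν : ℝ) (n : ℕ)
      (L : ℕ → Lev) (n0 : ℕ) (Y : ℝ) (i j k : ℕ),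
      Ss M κ q a b M0 η0 C0 σ g R D → Kp a R κ →
      Tow M κ q A A' a b Cn K η0 C0 σ g R dl ν n L → 0 < dl → dl ≤ 1/2 → 1 ≤ ν → ν ≤ R →
      i < j → j ≤ n → k < (L j).n → ∀ Ma T' : ℝ,
      (13 + |M0| + 2 * |T| + q / 2) + Kv + 1 ≤ Ma → 13 + |M0| + 2 * |T| + q / 2 ≤ T' →
      Uat n0 κ g R dl Y L j i k (Cu * ν ^ Kv) (ENNReal.ofReal (Cu * R ^ (-T') * Enc g)) →
      (∀ z ∈ (L j).Z, ∀ p ∈ (L j).I z k, ∀ m, ∀ y ∈ ((L j).P z k p).S m,
        dns n0 κ g R dl L j i z (anc L j i k) m (z - pz L j i z) y ≤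
          ENNReal.ofReal (R ^ (-Ma) * Enc g)) →
      (L j).S g k ≤ ENNReal.ofReal (C * ν * (R ^ (-T) * SS g R D)) := by
  obtain ⟨C, hC, H⟩ := tiny_S q a b A' Cn M0 T (Cu * (81 * 1 + 1)) ha hb hq (by linarith)
    (by linarith) (by positivity)
  refine ⟨C, hC, ?_⟩
  intro M κ A K η0 C0 σ g R D dl ν n L n0 Y i j k hSs _ hT _ _ hν hνR hij hjn hk Ma T' hMa hT' hU hd
  have hR := hSs.R1
  have hE := Enc_nn g
  have hB : 13 + M0 + 2 * T + q / 2 ≤ 13 + |M0| + 2 * |T| + q / 2 := by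
    have := le_abs_self M0
    have := le_abs_self T
    linarith
  have h1 := uat_tiny hT hR hν hνR hij hjn hCu zero_le_one hMa hT' hU (fun z hz p hp m y hy => by
    rw [one_mul]; exact hd z hz p hp m y hy)
  have h2 := H M κ A K η0 C0 σ g R D hSs.toSt (L j) (hT.ok j hjn) k hk _ hB (fun z hz m _ y hy => by
    have h3 := h1 z hz m y hy
    rw [hT.rad j hjn]
    exact h3)
  refine h2.trans (ENNReal.ofReal_le_ofReal ?_)
  have h4 : √((L j).nb : ℝ) ≤ ν := by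
    refine (Real.sqrt_le_sqrt (hT.le j hjn).2).trans ?_
    rw [Real.sqrt_le_left (by linarith)]
    nlinarith
  have h5 : 0 ≤ R ^ (-T) * SS g R D := by
    have : 0 < R ^ (-T) := Real.rpow_pos_of_pos (by linarith) _
    unfold SS
    positivity
  exact mul_le_mul_of_nonneg_right (mul_le_mul_of_nonneg_left h4 (by linarith)) h5

/-- **a label whose ancestor of level `i` has an ancestor of level `h` with a tiny density.** -/
theorem tiny2 (q a b A' Cn M0 T Cu : ℝ) (Kv : ℕ) (ha : 1 ≤ a) (hb : b ≤ 2) (hq : 0 ≤ q)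
    (hA' : 1 ≤ A') (hCn : 1 ≤ Cn) (hCu : 0 ≤ Cu) : ∃ C : ℝ, 1 ≤ C ∧
    ∀ (M κ A : ℝ) (K : ℕ) (η0 : ℝ) (C0 : E2) (σ : ℝ) (g : E3 → ℂ) (R D dl ν : ℝ) (n : ℕ)
      (L : ℕ → Lev) (n0 : ℕ) (Y : ℝ) (h i j k : ℕ),
      Ss M κ q a b M0 η0 C0 σ g R D → Kp a R κ →
      Tow M κ q A A' a b Cn K η0 C0 σ g R dl ν n L → 0 < dl → dl ≤ 1/2 → 1 ≤ ν → ν ≤ R →
      h < i → i < j → j ≤ n → k < (L j).n → ∀ Ma T' : ℝ,
      (13 + |M0| + 2 * |T| + q / 2) + 2 * Kv + 6 ≤ Ma →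
      (13 + |M0| + 2 * |T| + q / 2) + Kv + 5 ≤ T' →
      Uat n0 κ g R dl Y L j i k (Cu * ν ^ Kv) (ENNReal.ofReal (Cu * R ^ (-T') * Enc g)) →
      Uat n0 κ g R dl Y L i h (anc L j i k) (Cu * ν ^ Kv)
        (ENNReal.ofReal (Cu * R ^ (-T') * Enc g)) →
      (∀ z ∈ (L i).Z, ∀ p ∈ (L i).I z (anc L j i k), ∀ m,
        ∀ y ∈ ((L i).P z (anc L j i k) p).S m,
        dns n0 κ g R dl L i h z (anc L i h (anc L j i k)) m (z - pz L i h z) y ≤
          ENNReal.ofReal (R ^ (-Ma) * Enc g)) →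
      (L j).S g k ≤ ENNReal.ofReal (C * ν * (R ^ (-T) * SS g R D)) := by
  have hv := v3_nonneg
  obtain ⟨C, hC, H⟩ := tiny_S q a b A' Cn M0 T
    (Cu * (81 * (81 * A' ^ 3 * v3 * (Cu * (81 * 1 + 1))) + 1)) ha hb hq (by linarith)
    (by linarith) (by positivity)
  refine ⟨C, hC, ?_⟩
  intro M κ A K η0 C0 σ g R D dl ν n L n0 Y h i j k hSs hKp hT _ _ hν hνR hhi hij hjn hk Ma T'
    hMa hT' hU hU' hd
  have hR := hSs.R1
  have hR0 : 0 < R := by linarith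
  have hE := Enc_nn g
  have hKv : (0 : ℝ) ≤ Kv := Nat.cast_nonneg _
  have hκ1 : κ ≤ 1 := by linarith [hKp.k4]
  set B := 13 + |M0| + 2 * |T| + q / 2 with hBd
  have hB : 13 + M0 + 2 * T + q / 2 ≤ B := by
    have := le_abs_self M0
    have := le_abs_self T
    linarith
  have hk' : anc L j i k < (L i).n := TuP363.anc_lt hT hij.le hjn hk
  have h1 := uat_tiny (B := B + Kv + 5) (Ma := Ma) (T' := T') (c1 := 1) hT hR hν hνR hhi (by omega) hCu zero_le_one (by linarith)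
    hT' hU' (fun z hz p hp m y hy => by rw [one_mul]; exact hd z hz p hp m y hy)
  have h2 := uat_tiny (B := B) (c1 := 81 * A' ^ 3 * v3 * (Cu * (81 * 1 + 1))) (Ma := B + Kv + 1) hT
    hR hν hνR hij hjn hCu (by positivity) le_rfl (by linarith) hU (fun z hz p hp m y hy => by
      refine (dns_small hT hR hκ1 (by linarith) hij hjn hk' (by positivity) h1 hz _ _
        _).trans (ENNReal.ofReal_le_ofReal (le_of_eq ?_))
      have e : R ^ (-(B + Kv + 1)) = R ^ 4 * R ^ (-(B + Kv + 5)) := by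
        rw [← Real.rpow_natCast, ← Real.rpow_add hR0]
        congr 1
        push_cast
        ring
      rw [e]
      ring)
  have h2 := H M κ A K η0 C0 σ g R D hSs.toSt (L j) (hT.ok j hjn) k hk _ hB (fun z hz m _ y hy => by
    have h3 := h2 z hz m y hy
    rw [hT.rad j hjn]
    exact h3)
  refine h2.trans (ENNReal.ofReal_le_ofReal ?_)
  have h4 : √((L j).nb : ℝ) ≤ ν := by
    refine (Real.sqrt_le_sqrt (hT.le j hjn).2).trans ?_
    rw [Real.sqrt_le_left (by linarith)]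
    nlinarith
  have h5 : 0 ≤ R ^ (-T) * SS g R D := by
    have : 0 < R ^ (-T) := Real.rpow_pos_of_pos (by linarith) _
    unfold SS
    positivity
  exact mul_le_mul_of_nonneg_right (mul_le_mul_of_nonneg_left h4 (by linarith)) h5

end Crest.Agent.R116.TuY171
end

-- ▼ part R116/TuZ_373
section

/-!
# R116 (S0155), wave side: **TUBE** (helper373)

`tube_of : 0 ≤ q → KMR M q → USRC M q → ESRC M q → TUBE M q`.
-/

set_option autoImplicit false

open MeasureTheory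
open scoped ENNReal

namespace Crest.Agent.R116.TuZ373

open Crest.Agent.R138.Defs (E2)
open Crest.Agent.R138.Wpk685 (cen caps)
open Crest.Agent.R116.CDef480 Crest.Agent.R116.WC188 Crest.Agent.R116.GlC210
open Crest.Agent.R116.TuG373 Crest.Agent.R116.TuC373 Crest.Agent.R116.TuD373
open Crest.Agent.R116.TuN171 (C3)

/-- zero energy. -/
theorem S_zero {M κ q A A' a b Cn M0 : ℝ} {K : ℕ} {η0 : ℝ} {C0 : E2} {σ : ℝ} {g : E3 → ℂ}
    {R D : ℝ} {L : Lev} (ha : 1 ≤ a) (hb : b ≤ 2) (hSt : St M κ q a b M0 C0 σ g R D)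
    (hL : LevOk M κ q A A' a b Cn K η0 C0 σ g R L) (k : ℕ) (hE : Enc g = 0) : L.S g k = 0 := by
  have hr := TuL890.lev_r1 hL hSt.R1
  unfold Lev.S
  refine Finset.sum_eq_zero fun z _ => ?_
  rw [Finset.sum_eq_zero fun i _ => ?_, mul_zero]
  have h1 := TuL890.enc_le_Enc ha hb hSt
    (Real.rpow_pos_of_pos (by linarith : 0 < L.r) (-(1/2) : ℝ)) z (L.P z k i).S
  rw [hE, ENNReal.ofReal_zero] at h1
  exact le_antisymm h1 (zero_le)

theorem C3_nonneg {n0 : ℕ} {A' CE CU : ℝ} (hA : 0 ≤ A') (hE : 0 ≤ CE) (hU : 0 ≤ CU) :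
    0 ≤ C3 n0 A' CE CU := by
  unfold C3 TuN171.C2
  positivity

set_option maxHeartbeats 1000000 in
/-- **TUBE**. -/
theorem tube_of {M q : ℝ} (hq : 0 ≤ q) (hKM : KMR890.KMR M q) (hU : USRC M q) (hE : ESRC M q) :
    TUBE M q := by
  intro Gw hGw
  refine ⟨6 * Gw + 6, by positivity, ?_⟩
  intro n Lw a b A ε M0 T hRg
  have ha := hRg.a1
  have hb : b ≤ 2 := hRg.b2.le
  have hε := hRg.e0
  obtain ⟨nK, hrow⟩ := TuP890.row_tube hKM (ε / 2) (half_pos hε)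
  obtain ⟨Kv, hU⟩ := hU n
  obtain ⟨Kn, hE⟩ := hE n
  set n0 : ℕ := max nK 4 with hn0
  set e1 : ℝ := ε / (2 * ((n0 : ℝ) + 4)) with he1
  have he10 : 0 < e1 := by positivity
  have he : ((n0 : ℝ) + 4) * e1 ≤ ε / 2 := by
    rw [he1]
    refine le_of_eq ?_
    field_simp
  set T' : ℝ := 3 * Gw + Kv + q + |M0| + 2 * |T| + 40 with hT'
  have hRg' : Rg a b A e1 := ⟨hRg.a1, hRg.b0, hRg.b2, hRg.A1, he10⟩
  obtain ⟨K1, hU⟩ := hU Lw n0 a b A e1 M0 T' hRg' (le_max_right _ _)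
  obtain ⟨K2, hE⟩ := hE Lw n0 a b A e1 M0 T' hRg' (le_max_right _ _)
  set Ma : ℕ := ⌈T' + 2 * Kv + 6⌉₊ with hMa
  have hMa' : T' + 2 * Kv + 6 ≤ (Ma : ℝ) := Nat.le_ceil _
  set Kf : ℝ → ℝ := fun R => 8 * (28 + 15 * R ^ e1) ^ n0 with hKf
  refine ⟨Kn + Kv + 1, fun R => BR Ma R ^ (n * (n + 1)), AT n0 n Ma Kf,
    fun R dl h i j x => pT n Ma R dl h i j x, 9, by norm_num, AT_ok n0 n Ma Kf M q ha b M0,
    fun R dl h i j x h1 h2 _ h4 => pT_bound n Ma h1 h2 h4, max K1 K2, ?_⟩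
  intro K hK A' Cn hA' hCn
  obtain ⟨CU, hCU, hU⟩ := hU K ((le_max_left _ _).trans hK) A' Cn hA' hCn
  obtain ⟨CE, hCE, hE⟩ := hE K ((le_max_right _ _).trans hK) A' Cn hA' hCn
  obtain ⟨CR, hCR, hrow⟩ := hrow n0 (le_max_left _ _) A' 2 (by linarith) (by norm_num)
  obtain ⟨CT, hCT, htail⟩ := TuT890.core_tails q a b A' Cn M0 T
    (8 * A' ^ 3 * (2 * A' + 1) ^ 2) (5832 * CU) 1 (CU + CE) (√Cn) (3 * Gw) ((Kv : ℝ) + 2) 0
    (1 + q / 4) ha hb (by positivity) (by positivity) zero_le_one (by positivity)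
    (Real.sqrt_nonneg _) (by positivity) (by positivity) le_rfl (by positivity)
  obtain ⟨Ct1, hCt1, ht1⟩ := TuY171.tiny1 q a b A' Cn M0 T CU Kv ha hb hq hA' hCn (by linarith)
  obtain ⟨Ct2, hCt2, ht2⟩ := TuY171.tiny2 q a b A' Cn M0 T CU Kv ha hb hq hA' hCn (by linarith)
  have hC3 : 0 ≤ √Cn * CR * C3 n0 A' CE CU :=
    mul_nonneg (mul_nonneg (Real.sqrt_nonneg _) hCR)
      (C3_nonneg (by linarith) (by linarith) (by linarith))
  set C : ℝ := 2 + CU + CE + CT + Ct1 + Ct2 + √Cn * CR * C3 n0 A' CE CU with hC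
  refine ⟨C, by linarith, ?_⟩
  intro κ η0 C0 σ g R D hSs hKp hCR' dl ν hdl hCdl hdlR hκ hν hνR L ac hT hac h i j l hh hhi hij hjl
    hln hl k hk hnar
  have hR := hSs.R1
  have hR0 : 0 < R := by linarith
  have hCpos : 0 < C := by linarith
  have hdl2 : dl ≤ 1 / 2 := by
    have : 2 * dl ≤ C * dl := mul_le_mul_of_nonneg_right (by linarith) hdl.le
    linarith
  have hCUdl : CU * dl ≤ 1 :=
    le_trans (mul_le_mul_of_nonneg_right (by linarith) hdl.le) hCdl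
  have hCEdl : CE * dl ≤ 1 :=
    le_trans (mul_le_mul_of_nonneg_right (by linarith) hdl.le) hCdl
  have hjn : j ≤ n := by omega
  have hin : i ≤ n := by omega
  have hki : anc L j i k < (L i).n := TuP363.anc_lt hT hij.le hjn hk
  have hSS : 0 ≤ SS g R D := by
    unfold SS
    have := Enc_nonneg g
    positivity
  have hRT : 0 ≤ R ^ (-T) := Real.rpow_nonneg hR0.le _
  have hνp : ν ≤ ν ^ (Kn + Kv + 1) := by
    calc ν = ν ^ 1 := (pow_one ν).symm
      _ ≤ _ := pow_le_pow_right₀ hν (by omega)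
  have hν1 : 1 ≤ ν ^ (Kn + Kv + 1) := one_le_pow₀ hν
  rcases (Enc_nonneg g).eq_or_lt with hE0 | hE0
  · rw [S_zero ha hb hSs.toSt (hT.ok j hjn) k hE0.symm]
    exact zero_le
  have hUij := hU κ η0 C0 σ g R D hSs hKp (by linarith) dl ν hdl hCUdl hκ hν hνR L hT i j k hij
    hjn (by omega) hk
  have hUhi := hU κ η0 C0 σ g R D hSs hKp (by linarith) dl ν hdl hCUdl hκ hν hνR L hT h i
    (anc L j i k) hhi hin (by omega) hki
  have hEij := hE κ η0 C0 σ g R D hSs hKp (by linarith) dl ν hdl hCEdl hκ hν hνR L hT i j k hij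
    hjn (by omega) hk
  have hqn : 0 ≤ q := hq
  have hKvn : (0:ℝ) ≤ Kv := Nat.cast_nonneg _
  -- tiny labels
  have htiny : ∀ c : ℝ, 1 ≤ c → c ≤ C →
      (L j).S g k ≤ ENNReal.ofReal (c * ν * (R ^ (-T) * SS g R D)) →
      (L j).S g k ≤ ENNReal.ofReal (C * ν ^ (Kn + Kv + 1) * R ^ ε *
          dl ^ (-((6 * Gw + 6) + (6 * Gw + 6) * (max 0 ((i : ℝ) + l - 2 * j) +
            max 0 ((h : ℝ) + j - 2 * i)) + q / 4 * ((l : ℝ) - j))) *
          (pT n Ma R dl h i j (ac i (anc L j i k)) / pT n Ma R dl i j l (ac j k)) ^ (1 / 2 : ℝ)) *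
            (L i).S g (anc L j i k) +
          ENNReal.ofReal (C * ν ^ (Kn + Kv + 1) * R ^ (-T) * SS g R D) := by
    intro c hc1 hcC hS
    refine hS.trans (le_trans (ENNReal.ofReal_le_ofReal ?_) le_add_self)
    calc c * ν * (R ^ (-T) * SS g R D) ≤ C * ν ^ (Kn + Kv + 1) * (R ^ (-T) * SS g R D) := by
          gcongr
      _ = _ := by ring
  by_cases hn1 : Tiny n Ma R i (ac j k)
  · refine htiny Ct1 hCt1 (by linarith) ?_
    refine ht1 M κ A K η0 C0 σ g R D dl ν n L n0 (R ^ e1) i j k hSs hKp hT hdl hdl2 hν hνR hij hjn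
      hk Ma T' (by linarith) (by linarith) hUij ?_
    intro z hz p hp m y hy
    exact tiny_of ha hb hSs.toSt (by linarith [hKp.k4]) hT hac hij hjn hk hn1 hz hp hy
  by_cases hn2 : Tiny n Ma R h (ac i (anc L j i k))
  · refine htiny Ct2 hCt2 (by linarith) ?_
    refine ht2 M κ A K η0 C0 σ g R D dl ν n L n0 (R ^ e1) h i j k hSs hKp hT hdl hdl2 hν hνR hhi
      hij hjn hk Ma T' (by linarith) (by linarith) hUij hUhi ?_
    intro z hz p hp m y hy
    exact tiny_of ha hb hSs.toSt (by linarith [hKp.k4]) hT hac hhi hin hki hn2 hz hp hy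
  -- main case
  have hmain := main_case (M := M) (q := q) hq (a := a) (b := b) (A := A) (A' := A') (Cn := Cn)
    (M0 := M0) (Gw := Gw) (ε := ε) (T := T) (e1 := e1) (CU := CU) (CE := CE) (CR := CR) (CT := CT)
    (T' := T') (Kv := Kv) (Kn := Kn) (K := K) (n0 := n0) (n := n) (Lw := Lw) (Ma := Ma) (Kf := Kf)
    (fun R => rfl) ha hGw hε he10.le he hA' hCn hCU hCE hCR le_rfl hrow htail hSs hKp hdl hdl2 hκ
    hν hνR hT hb hac hhi hij hjl hln hl hk hnar hUij hEij hE0 hn1 hn2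
  refine hmain.trans (add_le_add (mul_le_mul' (ENNReal.ofReal_le_ofReal ?_) le_rfl)
    (ENNReal.ofReal_le_ofReal ?_))
  · have hp1 := pT_bound n Ma (R := R) (h := i) (i := j) (j := l) (x := ac j k) hdl
      (by linarith) hjl
    have hp0 := pT_bound n Ma (R := R) (h := h) (i := i) (j := j) (x := ac i (anc L j i k)) hdl
      (by linarith) hij
    have h1 : 0 ≤ (pT n Ma R dl h i j (ac i (anc L j i k)) / pT n Ma R dl i j l (ac j k)) ^
        (1 / 2 : ℝ) :=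
      Real.rpow_nonneg (div_nonneg (by linarith [hp0.1]) (by linarith [hp1.1])) _
    have h2 : √Cn * CR * C3 n0 A' CE CU ≤ C := by linarith
    gcongr
  · calc CT * (R ^ (-T) * SS g R D) = CT * 1 * (R ^ (-T) * SS g R D) := by ring
      _ ≤ C * ν ^ (Kn + Kv + 1) * (R ^ (-T) * SS g R D) := by
          have : CT ≤ C := by linarith
          gcongr
      _ = _ := by ring

end Crest.Agent.R116.TuZ373
end

-- ▼ part R116/Dch1_229
section

/-!
# R116 (S0155), wave side: composition of the one-level facts along a path of labels (helper229)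

Abstract part, no geometry.  `ι` = caps, `E` = positions with a measure `μ`.
* `mink` : Minkowski for finite sums in `L²` of a measure, `ENNReal`.
* `U_chain` : the pointwise bounds `a (l+1) m' x ≤ Λ ∑_{m near m'} (avg a_l²)^{1/2} + τ` on the
  selections compose in `l¹` over the caps, `L²` in the positions.
* `E_chain` : the energy bounds compose.
-/

set_option autoImplicit false

open MeasureTheory
open scoped ENNReal

namespace Crest.Agent.R116.Dch229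

/-! ### square roots in `ENNReal` -/

/-- square root. -/
noncomputable def rt (x : ℝ≥0∞) : ℝ≥0∞ := x ^ (1 / 2 : ℝ)






theorem rt_zero : rt 0 = 0 := by
  unfold rt
  exact ENNReal.zero_rpow_of_pos (by norm_num)


section mink

variable {E : Type*} [MeasurableSpace E] {μ : Measure E}

theorem mink_add {f g : E → ℝ≥0∞} (hf : AEMeasurable f μ) (hg : AEMeasurable g μ) :
    rt (∫⁻ x, (f x + g x) ^ 2 ∂μ) ≤ rt (∫⁻ x, f x ^ 2 ∂μ) + rt (∫⁻ x, g x ^ 2 ∂μ) := by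
  have h := ENNReal.lintegral_Lp_add_le hf hg (p := 2) (by norm_num)
  simpa [rt, Pi.add_apply] using h

theorem mink {κ : Type*} (s : Finset κ) {f : κ → E → ℝ≥0∞} (hf : ∀ i ∈ s, AEMeasurable (f i) μ) :
    rt (∫⁻ x, (∑ i ∈ s, f i x) ^ 2 ∂μ) ≤ ∑ i ∈ s, rt (∫⁻ x, f i x ^ 2 ∂μ) := by
  classical
  induction s using Finset.induction_on with
  | empty => simp [rt_zero]
  | insert i s hi ih =>
    have h1 : ∀ j ∈ s, AEMeasurable (f j) μ := fun j hj => hf j (Finset.mem_insert_of_mem hj)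
    have h2 := mink_add (μ := μ) (hf i (Finset.mem_insert_self i s))
      (Finset.aemeasurable_fun_sum s h1)
    rw [Finset.sum_insert hi]
    simp only [Finset.sum_insert hi]
    exact h2.trans (add_le_add le_rfl (ih h1))


end mink

/-! ### one step of the chains -/

section step

variable {E ι : Type*} [MeasurableSpace E] {μ : Measure E}

/-- double sums over chains: every `m` is reached from at most `M` caps `m'`. -/
theorem sum_chain [DecidableEq ι] {nr : Finset ι} {nc : ι → Finset ι} {nc' : Finset ι} {M : ℕ}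
    (hsub : ∀ m' ∈ nr, nc m' ⊆ nc') (hM : ∀ m ∈ nc', (nr.filter fun m' => m ∈ nc m').card ≤ M)
    (F : ι → ℝ≥0∞) : ∑ m' ∈ nr, ∑ m ∈ nc m', F m ≤ (M : ℝ≥0∞) * ∑ m ∈ nc', F m := by
  have e : ∑ m' ∈ nr, ∑ m ∈ nc m', F m = ∑ m ∈ nc', ∑ m' ∈ nr.filter (fun m' => m ∈ nc m'), F m := by
    refine Finset.sum_comm' fun m' m => ?_
    constructor
    · rintro ⟨h1, h2⟩
      exact ⟨Finset.mem_filter.2 ⟨h1, h2⟩, hsub m' h1 h2⟩
    · rintro ⟨h1, h2⟩
      exact Finset.mem_filter.1 h1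
  rw [e, Finset.mul_sum]
  refine Finset.sum_le_sum fun m hm => ?_
  rw [Finset.sum_const, nsmul_eq_mul]
  gcongr
  exact_mod_cast hM m hm



end step

end Crest.Agent.R116.Dch229
end

-- ▼ part R116/Dch2_229
section

/-!
# R116 (S0155), wave side: near caps of non-adjacent levels (helper229)

`nearC ρ ρ' m'` = caps `m` of level `ρ` with `‖cen ρ m - cen ρ' m'‖ < 4 ρ'`; if `4 ρ ≤ ρ'` then it
contains `nearL ρ ρ' m'`, and the sets compose: `m'' → m' → m` with `m'` in `nearL` and `m` in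
`nearC` gives `m` in `nearC`; every `m` is reached from at most `100` caps `m'`.
-/

set_option autoImplicit false

open scoped ENNReal

namespace Crest.Agent.R116.Dch229

open Crest.Agent.R138.Defs (E2)
open Crest.Agent.R138.Wpk685 (cen caps)
open Crest.Agent.R138.Loc878 (Near nearL mem_nearL)

open Classical in
/-- caps of level `ρ` near the cap `m'` of a (much) finer level `ρ'`. -/
noncomputable def nearC (ρ ρ' : ℝ) (m' : ℤ × ℤ) : Finset (ℤ × ℤ) :=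
  (caps ρ).filter fun m => ‖cen ρ m - cen ρ' m'‖ < 4 * ρ'

theorem mem_nearC {ρ ρ' : ℝ} {m' m : ℤ × ℤ} :
    m ∈ nearC ρ ρ' m' ↔ m ∈ caps ρ ∧ ‖cen ρ m - cen ρ' m'‖ < 4 * ρ' := by
  classical
  simp [nearC]

theorem nearL_subset {ρ ρ' : ℝ} (hρ' : 0 ≤ ρ') (m' : ℤ × ℤ) : nearL ρ ρ' m' ⊆ nearC ρ ρ' m' := by
  intro m hm
  obtain ⟨h1, h2⟩ := mem_nearL.1 hm
  refine mem_nearC.2 ⟨h1, ?_⟩
  unfold Near at h2
  linarith

/-- composition. -/
theorem nearC_trans {ρ ρ1 ρ2 : ℝ} (h : 4 * ρ1 ≤ ρ2) {m2 m1 : ℤ × ℤ} (h1 : m1 ∈ nearL ρ1 ρ2 m2) :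
    nearC ρ ρ1 m1 ⊆ nearC ρ ρ2 m2 := by
  intro m hm
  obtain ⟨h2, h3⟩ := mem_nearC.1 hm
  refine mem_nearC.2 ⟨h2, ?_⟩
  have h4 := (mem_nearL.1 h1).2
  unfold Near at h4
  have e : cen ρ m - cen ρ2 m2 = (cen ρ m - cen ρ1 m1) + (cen ρ1 m1 - cen ρ2 m2) := by abel
  rw [e]
  exact (norm_add_le _ _).trans_lt (by linarith)

theorem card_cen {ρ : ℝ} (hρ : 0 < ρ) (ξ : E2) (s : Finset (ℤ × ℤ))
    (hs : ∀ m ∈ s, ‖ξ - cen ρ m‖ < 4 * ρ) : s.card ≤ 64 := by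
  have h1 : s ⊆ Finset.Icc (⌊ξ 0 / ρ⌋ - 3) (⌊ξ 0 / ρ⌋ + 4) ×ˢ
      Finset.Icc (⌊ξ 1 / ρ⌋ - 3) (⌊ξ 1 / ρ⌋ + 4) := by
    intro m hm
    have h2 := hs m hm
    have h3 : ∀ (i : Fin 2) (k : ℤ), cen ρ m i = ρ * k → ⌊ξ i / ρ⌋ - 3 ≤ k ∧ k ≤ ⌊ξ i / ρ⌋ + 4 := by
      intro i k hk
      have h4 : |ξ i - ρ * k| < 4 * ρ := by
        have := PiLp.norm_apply_le (ξ - cen ρ m) i
        rw [PiLp.sub_apply, hk, Real.norm_eq_abs] at this
        linarith
      obtain ⟨h5, h6⟩ := abs_lt.1 h4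
      have h7 : (ξ i / ρ) * ρ = ξ i := by field_simp
      have h8 := Int.floor_le (ξ i / ρ)
      have h9 := Int.lt_floor_add_one (ξ i / ρ)
      constructor
      · have : ((⌊ξ i / ρ⌋ : ℤ) : ℝ) - 4 < k := by
          by_contra hc
          push Not at hc
          nlinarith
        have : ⌊ξ i / ρ⌋ - 4 < k := by exact_mod_cast this
        omega
      · have : (k : ℝ) < ⌊ξ i / ρ⌋ + 5 := by
          by_contra hc
          push Not at hc
          nlinarith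
        have : k < ⌊ξ i / ρ⌋ + 5 := by exact_mod_cast this
        omega
    exact Finset.mem_product.2 ⟨Finset.mem_Icc.2 (h3 0 m.1 rfl), Finset.mem_Icc.2 (h3 1 m.2 rfl)⟩
  refine (Finset.card_le_card h1).trans (le_of_eq ?_)
  rw [Finset.card_product, Int.card_Icc, Int.card_Icc]
  have e1 : ∀ a : ℤ, (a + 4 + 1 - (a - 3)).toNat = 8 := by intro a; omega
  rw [e1, e1]

theorem card_reach {ρ ρ1 : ℝ} (hρ1 : 0 < ρ1) (s : Finset (ℤ × ℤ)) (m : ℤ × ℤ) :
    (s.filter fun m1 => m ∈ nearC ρ ρ1 m1).card ≤ 64 := by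
  refine card_cen hρ1 (cen ρ m) _ fun m1 hm1 => ?_
  exact (mem_nearC.1 (Finset.mem_filter.1 hm1).2).2

end Crest.Agent.R116.Dch229
end

-- ▼ part R116/DcU1_894
section

/-!
# R116 (S0155), wave side, W12 TUBE: (U) along the path, part 1 (helper894)

* `kc_transfer` : the product of the kernel of the middle level (power `N + 4`) and the kernel of the
  bottom level (power `N`) is at most `13^N` times the integrable kernel of the middle level times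
  the kernel of the bottom level at the new point.
* `step_int` : one middle cap; `step_sum` : the sum over the middle caps.
-/

set_option autoImplicit false

open MeasureTheory
open scoped ENNReal

namespace Crest.Agent.R116.DcU894

open Crest.Agent.R138.Defs (E2)
open Crest.Agent.R138.Wpk685 (cen caps)
open Crest.Agent.R138.Loc878 (nearL)
open Crest.Agent.R116.CDef480
open Crest.Agent.R116.Cad538 (wt frc W0)
open Crest.Agent.R116.F1c124 (kc kc_nonneg kc_wt lint_kc measurable_kc)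
open Crest.Agent.R116.TuG373 (pn)
open Crest.Agent.R116.Dch229 (nearC mem_nearC nearC_trans card_reach sum_chain)

/-! ### the plate norm and the frame -/

theorem frc_le_pn {th kp : ℝ} (hth : 0 ≤ th) (hkp : 0 ≤ kp) (C : E2) (Z : E3) :
    ‖frc th kp C Z‖ ≤ pn th kp C Z := Cad538.norm_frc_le hth hkp C Z

theorem pn_le_frc {th kp : ℝ} (hth : 0 ≤ th) (hkp : 0 ≤ kp) (C : E2) (Z : E3) :
    pn th kp C Z ≤ 2 * ‖frc th kp C Z‖ := by
  have h1 := Cad538.lat_le_frc (kp := kp) hth C Z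
  have h2 := Cad538.nrm_le_frc (th := th) hkp C Z
  unfold TuG373.pn
  linarith

/-- geometry of one step. -/
theorem frc_step {th th1 κ : ℝ} (hth : 0 < th) (h01 : th ≤ th1) (hκ : 0 ≤ κ) (hκ1 : κ ≤ 1)
    (hst : κ * th1 ≤ th) {C C1 : E2} (hC : ‖C - C1‖ ≤ 4 * th1) {t : ℝ} (ht : |t| * th1 ^ 2 ≤ 1)
    (q p : E3) :
    ‖frc th κ C (q + p + t • (vel C - vel C1))‖ ≤ ‖frc th κ C q‖ + 10 * ‖frc th1 κ C1 p‖ + 12 := by
  have hth1 : 0 < th1 := hth.trans_le h01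
  have h1 : ‖frc th κ C p‖ ≤ 10 * ‖frc th1 κ C1 p‖ := by
    have a1 := frc_le_pn hth.le hκ C p
    have a2 := TuG373.pn_change (th := th) (kp := κ) (L1 := 4) hκ (C := C) (C' := C1)
      (by calc κ * ‖C - C1‖ ≤ κ * (4 * th1) := mul_le_mul_of_nonneg_left hC hκ
            _ ≤ 4 * th := by linarith) (by norm_num) p
    have a3 := TuG373.pn_mono (th := th) (kp := κ) h01 le_rfl C1 p
    have a4 := pn_le_frc hth1.le hκ C1 p
    linarith
  have h2 : ‖frc th κ C (t • (vel C - vel C1))‖ ≤ 12 := by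
    refine (frc_le_pn hth.le hκ C _).trans ?_
    rw [TuG373.pn_vel]
    have hn := norm_nonneg (C - C1)
    have ht0 := abs_nonneg t
    have b1 : th * (|t| * ‖C - C1‖) ≤ 4 := by
      calc th * (|t| * ‖C - C1‖) ≤ th1 * (|t| * (4 * th1)) := by gcongr
        _ = 4 * (|t| * th1 ^ 2) := by ring
        _ ≤ 4 := by linarith
    have b2 : κ * (|t| * ‖C - C1‖ ^ 2 / 2) ≤ 8 := by
      calc κ * (|t| * ‖C - C1‖ ^ 2 / 2) ≤ 1 * (|t| * (4 * th1) ^ 2 / 2) := by gcongr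
        _ = 8 * (|t| * th1 ^ 2) := by ring
        _ ≤ 8 := by linarith
    linarith
  have h3 : ‖frc th κ C (q + p + t • (vel C - vel C1))‖ ≤
      ‖frc th κ C q‖ + ‖frc th κ C p‖ + ‖frc th κ C (t • (vel C - vel C1))‖ := by
    rw [map_add, map_add]
    exact (norm_add_le _ _).trans (add_le_add (norm_add_le _ _) le_rfl)
  linarith

/-- **power transfer.** -/
theorem kc_transfer (N : ℕ) {th th1 κ : ℝ} (hth : 0 < th) (h01 : th ≤ th1) (hκ : 0 < κ)
    (hκ1 : κ ≤ 1) (hst : κ * th1 ≤ th) {C C1 : E2} (hC : ‖C - C1‖ ≤ 4 * th1) {t : ℝ}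
    (ht : |t| * th1 ^ 2 ≤ 1) (q p : E3) :
    kc (N + 4) th1 κ C1 p * kc N th κ C q ≤
      13 ^ N * (kc 4 th1 κ C1 p * kc N th κ C (q + p + t • (vel C - vel C1))) := by
  have hth1 : 0 < th1 := hth.trans_le h01
  rw [kc_wt _ hth1 hκ, kc_wt _ hth1 hκ, kc_wt _ hth hκ, kc_wt _ hth hκ]
  have h1 := frc_step hth h01 hκ.le hκ1 hst hC ht q p
  unfold Cad538.wt
  set a := ‖frc th κ C q‖ with ha
  set b := ‖frc th1 κ C1 p‖ with hb
  set c := ‖frc th κ C (q + p + t • (vel C - vel C1))‖ with hc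
  have a0 : 0 ≤ a := norm_nonneg _
  have b0 : 0 ≤ b := norm_nonneg _
  have c0 : 0 ≤ c := norm_nonneg _
  have h2 : 1 + c ≤ 13 * ((1 + b) * (1 + a)) := by nlinarith [mul_nonneg a0 b0]
  have h3 : (1 + c) ^ N ≤ 13 ^ N * ((1 + b) ^ N * (1 + a) ^ N) := by
    rw [← mul_pow, ← mul_pow]
    exact pow_le_pow_left₀ (by positivity) h2 N
  have h4 : ((1 + b) ^ (N + 4))⁻¹ * ((1 + a) ^ N)⁻¹ ≤
      13 ^ N * (((1 + b) ^ 4)⁻¹ * ((1 + c) ^ N)⁻¹) := by
    rw [pow_add, mul_inv, ← mul_inv, ← mul_inv, ← mul_inv, ← div_eq_mul_inv, inv_eq_one_div,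
      div_le_div_iff₀ (by positivity) (by positivity), one_mul]
    calc (1 + b) ^ 4 * (1 + c) ^ N ≤ (1 + b) ^ 4 * (13 ^ N * ((1 + b) ^ N * (1 + a) ^ N)) :=
          mul_le_mul_of_nonneg_left h3 (by positivity)
      _ = _ := by ring
  calc th1 ^ 2 * κ * ((1 + b) ^ (N + 4))⁻¹ * (th ^ 2 * κ * ((1 + a) ^ N)⁻¹) =
        (th1 ^ 2 * κ * (th ^ 2 * κ)) * (((1 + b) ^ (N + 4))⁻¹ * ((1 + a) ^ N)⁻¹) := by ring
    _ ≤ (th1 ^ 2 * κ * (th ^ 2 * κ)) * (13 ^ N * (((1 + b) ^ 4)⁻¹ * ((1 + c) ^ N)⁻¹)) :=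
        mul_le_mul_of_nonneg_left h4 (by positivity)
    _ = _ := by ring

/-! ### the kernel integral of the bottom level -/

/-- kernel integral of the bottom level (angle `th`) seen from the point `y` of the frame displaced
by `w`. -/
noncomputable def Jk (N : ℕ) (th κ : ℝ) (u : ℤ × ℤ → E3 → ℂ) (S : ℤ × ℤ → Set E3) (w : E3 × ℝ)
    (y : E3) (m : ℤ × ℤ) : ℝ≥0∞ :=
  ∫⁻ x in S m, ENNReal.ofReal (kc N th κ (cen th m) (TuG373.D w y (cen th m) - x)) * ‖u m x‖ₑ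

variable {N : ℕ} {th th1 κ : ℝ} {u : ℤ × ℤ → E3 → ℂ} {S : ℤ × ℤ → Set E3}

/-- one middle cap `m1`, one bottom cap `m2`, pointwise in the middle position `x`. -/
theorem step_pt (hth : 0 < th) (h01 : th ≤ th1) (hκ : 0 < κ) (hκ1 : κ ≤ 1) (hst : κ * th1 ≤ th)
    {z w : E3 × ℝ} (hz : |z.2| * th1 ^ 2 ≤ 1) {m1 m2 : ℤ × ℤ}
    (hm : ‖cen th m2 - cen th1 m1‖ ≤ 4 * th1) (x y : E3) :
    ENNReal.ofReal (kc (N + 4) th1 κ (cen th1 m1) (y + z.1 + z.2 • vel (cen th1 m1) - x)) *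
        Jk N th κ u S w x m2 ≤
      ENNReal.ofReal (13 ^ N) * (ENNReal.ofReal (kc 4 th1 κ (cen th1 m1)
        (y + z.1 + z.2 • vel (cen th1 m1) - x)) * Jk N th κ u S (z + w) y m2) := by
  unfold Jk
  rw [← lintegral_const_mul' _ _ ENNReal.ofReal_ne_top,
    ← lintegral_const_mul' _ _ ENNReal.ofReal_ne_top,
    ← lintegral_const_mul' _ _ ENNReal.ofReal_ne_top]
  refine lintegral_mono fun x' => ?_
  have h := kc_transfer N hth h01 hκ hκ1 hst hm hz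
    (TuG373.D w x (cen th m2) - x') (y + z.1 + z.2 • vel (cen th1 m1) - x)
  have e : TuG373.D w x (cen th m2) - x' + (y + z.1 + z.2 • vel (cen th1 m1) - x) +
      z.2 • (vel (cen th m2) - vel (cen th1 m1)) = TuG373.D (z + w) y (cen th m2) - x' := by
    unfold TuG373.D
    rw [Prod.fst_add, Prod.snd_add]
    module
  rw [e] at h
  have h' := ENNReal.ofReal_le_ofReal h
  rw [ENNReal.ofReal_mul (kc_nonneg _ hκ.le _ _), ENNReal.ofReal_mul (by positivity),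
    ENNReal.ofReal_mul (kc_nonneg _ hκ.le _ _)] at h'
  dsimp only
  rw [← mul_assoc]
  calc _ ≤ (ENNReal.ofReal (13 ^ N) * (ENNReal.ofReal (kc 4 th1 κ (cen th1 m1)
        (y + z.1 + z.2 • vel (cen th1 m1) - x)) * ENNReal.ofReal (kc N th κ (cen th m2)
          (TuG373.D (z + w) y (cen th m2) - x')))) * ‖u m2 x'‖ₑ := mul_le_mul' h' le_rfl
    _ = _ := by ring

/-- one middle cap. -/
theorem step_int (hth : 0 < th) (h01 : th ≤ th1) (hκ : 0 < κ) (hκ1 : κ ≤ 1) (hst : κ * th1 ≤ th)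
    {z w : E3 × ℝ} (hz : |z.2| * th1 ^ 2 ≤ 1) {m1 : ℤ × ℤ} {nc : Finset (ℤ × ℤ)}
    (hnc : ∀ m2 ∈ nc, ‖cen th m2 - cen th1 m1‖ ≤ 4 * th1) {S1 : Set E3} (hS1 : MeasurableSet S1)
    {a : E3 → ℝ≥0∞} {B τ : ℝ≥0∞} {y : E3}
    (ha : ∀ x ∈ S1, a x ≤ B * ∑ m2 ∈ nc, Jk N th κ u S w x m2 + τ) :
    ∫⁻ x in S1, ENNReal.ofReal (kc (N + 4) th1 κ (cen th1 m1)
        (y + z.1 + z.2 • vel (cen th1 m1) - x)) * a x ≤
      ENNReal.ofReal (13 ^ N) * W0 * B * ∑ m2 ∈ nc, Jk N th κ u S (z + w) y m2 + W0 * τ := by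
  have hth1 : 0 < th1 := hth.trans_le h01
  set k4 : E3 → ℝ≥0∞ := fun x => ENNReal.ofReal (kc 4 th1 κ (cen th1 m1)
    (y + z.1 + z.2 • vel (cen th1 m1) - x)) with hk4
  set kN : E3 → ℝ≥0∞ := fun x => ENNReal.ofReal (kc (N + 4) th1 κ (cen th1 m1)
    (y + z.1 + z.2 • vel (cen th1 m1) - x)) with hkN
  have m4 : Measurable k4 := measurable_kc 4 hth1 hκ _ _
  have mN : Measurable kN := measurable_kc (N + 4) hth1 hκ _ _
  have i4 : ∫⁻ x, k4 x ≤ W0 := lint_kc le_rfl hth1 hκ _ _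
  have iN : ∫⁻ x, kN x ≤ W0 := lint_kc (by omega) hth1 hκ _ _
  set J : ℝ≥0∞ := ∑ m2 ∈ nc, Jk N th κ u S (z + w) y m2 with hJ
  calc ∫⁻ x in S1, kN x * a x
      ≤ ∫⁻ x in S1, (ENNReal.ofReal (13 ^ N) * B * J * k4 x + τ * kN x) := by
        refine setLIntegral_mono' hS1 fun x hx => ?_
        calc kN x * a x ≤ kN x * (B * ∑ m2 ∈ nc, Jk N th κ u S w x m2 + τ) :=
              mul_le_mul' le_rfl (ha x hx)
          _ = B * ∑ m2 ∈ nc, kN x * Jk N th κ u S w x m2 + τ * kN x := by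
              rw [mul_add, mul_left_comm, Finset.mul_sum, mul_comm τ]
          _ ≤ B * ∑ m2 ∈ nc, ENNReal.ofReal (13 ^ N) * (k4 x * Jk N th κ u S (z + w) y m2) +
                τ * kN x := by
              refine add_le_add (mul_le_mul' le_rfl (Finset.sum_le_sum fun m2 hm2 => ?_)) le_rfl
              exact step_pt hth h01 hκ hκ1 hst hz (hnc m2 hm2) x y
          _ = _ := by
              rw [← Finset.mul_sum, ← Finset.mul_sum, ← hJ]
              ring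
    _ ≤ ∫⁻ x, (ENNReal.ofReal (13 ^ N) * B * J * k4 x + τ * kN x) := setLIntegral_le_lintegral _ _
    _ = ENNReal.ofReal (13 ^ N) * B * J * (∫⁻ x, k4 x) + τ * (∫⁻ x, kN x) := by
        rw [lintegral_add_left (m4.const_mul _), lintegral_const_mul _ m4,
          lintegral_const_mul _ mN]
    _ ≤ ENNReal.ofReal (13 ^ N) * B * J * W0 + τ * W0 := by gcongr
    _ = _ := by ring

/-- **one step**: all middle caps. -/
theorem step_sum {th2 : ℝ} (hth : 0 < th) (h01 : th ≤ th1) (hκ : 0 < κ) (hκ1 : κ ≤ 1)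
    (hst : κ * th1 ≤ th) (h12 : 4 * th1 ≤ th2)
    {z w : E3 × ℝ} (hz : |z.2| * th1 ^ 2 ≤ 1) {m : ℤ × ℤ} {S1 : ℤ × ℤ → Set E3}
    (hS1 : ∀ m1 ∈ nearL th1 th2 m, MeasurableSet (S1 m1)) {a : ℤ × ℤ → E3 → ℝ≥0∞} {B τ : ℝ≥0∞}
    {y : E3} (ha : ∀ m1 ∈ nearL th1 th2 m, ∀ x ∈ S1 m1, a m1 x ≤
      B * ∑ m2 ∈ nearC th th1 m1, Jk N th κ u S w x m2 + τ) :
    ∑ m1 ∈ nearL th1 th2 m, ∫⁻ x in S1 m1, ENNReal.ofReal (kc (N + 4) th1 κ (cen th1 m1)
        (y + z.1 + z.2 • vel (cen th1 m1) - x)) * a m1 x ≤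
      ENNReal.ofReal (13 ^ N) * W0 * B * 64 *
          ∑ m2 ∈ nearC th th2 m, Jk N th κ u S (z + w) y m2 +
        ((nearL th1 th2 m).card : ℝ≥0∞) * (W0 * τ) := by
  classical
  have hth1 : 0 < th1 := hth.trans_le h01
  calc _ ≤ ∑ m1 ∈ nearL th1 th2 m, (ENNReal.ofReal (13 ^ N) * W0 * B *
        ∑ m2 ∈ nearC th th1 m1, Jk N th κ u S (z + w) y m2 + W0 * τ) :=
        Finset.sum_le_sum fun m1 hm1 => step_int hth h01 hκ hκ1 hst hz
          (fun m2 hm2 => (mem_nearC.1 hm2).2.le) (hS1 m1 hm1) (ha m1 hm1)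
    _ = ENNReal.ofReal (13 ^ N) * W0 * B * ∑ m1 ∈ nearL th1 th2 m,
          ∑ m2 ∈ nearC th th1 m1, Jk N th κ u S (z + w) y m2 +
            ((nearL th1 th2 m).card : ℝ≥0∞) * (W0 * τ) := by
        rw [Finset.sum_add_distrib, ← Finset.mul_sum, Finset.sum_const, nsmul_eq_mul]
    _ ≤ ENNReal.ofReal (13 ^ N) * W0 * B * ((64 : ℕ) *
          ∑ m2 ∈ nearC th th2 m, Jk N th κ u S (z + w) y m2) +
            ((nearL th1 th2 m).card : ℝ≥0∞) * (W0 * τ) := by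
        gcongr
        exact sum_chain (fun m1 hm1 => nearC_trans h12 hm1)
          (fun m2 _ => card_reach hth1 _ m2) _
    _ = _ := by
        rw [Nat.cast_ofNat]
        ring

end Crest.Agent.R116.DcU894
end

-- ▼ part R116/Dch3_229
section

/-!
# R116 (S0155), wave side: one step of the class chain (helper229)

* selections of a level: `sl_meas`, `sl_bdd`, `sl_cp`;
* `dom_step`: on the selection of a label of the next level the coefficients of the root are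
  dominated by the coefficients of the selected wave of the parent label;
* `Path`: a path of frames and labels.
-/

set_option autoImplicit false

open MeasureTheory FourierTransform
open scoped ContDiff ENNReal

namespace Crest.Agent.R116.Dch229

open Crest.Agent.R138.Defs (E2 ee)
open Crest.Agent.R138.Wpk685 (cen caps cap win)
open Crest.Agent.R116.CDef480 Crest.Agent.R116.WC188 Crest.Agent.R116.GlC210
open Crest.Agent.R116.A1k229 (Nice nice_of_St)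

section lev

variable {M κ q A A' a b Cn : ℝ} {K : ℕ} {η0 : ℝ} {C0 : E2} {σ : ℝ} {g : E3 → ℂ} {R : ℝ}
  {L L' : Lev}

theorem mem_sl {z : E3 × ℝ} {k : ℕ} {m : ℤ × ℤ} {y : E3} :
    y ∈ L.sl z k m ↔ ∃ i ∈ L.I z k, y ∈ (L.P z k i).S m := by
  unfold Lev.sl uS
  simp only [Set.mem_iUnion, exists_prop]

theorem sl_meas (h : LevOk M κ q A A' a b Cn K η0 C0 σ g R L) {z : E3 × ℝ} (hz : z ∈ L.Z) {k : ℕ}
    (hk : k < L.n) (m : ℤ × ℤ) : MeasurableSet (L.sl z k m) := by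
  obtain ⟨cls, hd⟩ := h.dec z hz
  unfold Lev.sl uS
  exact Finset.measurableSet_biUnion _ fun i hi =>
    (hd.pl k (Finset.mem_range.2 hk)).1.meas i hi m

theorem sl_sub (h : LevOk M κ q A A' a b Cn K η0 C0 σ g R L) {z : E3 × ℝ} (hz : z ∈ L.Z) {k : ℕ}
    (hk : k < L.n) (m : ℤ × ℤ) : L.sl z k m ⊆ Metric.closedBall 0 (A' * L.r) := by
  obtain ⟨cls, hd⟩ := h.dec z hz
  exact hd.bd k (Finset.mem_range.2 hk) m

theorem sl_norm (h : LevOk M κ q A A' a b Cn K η0 C0 σ g R L) {z : E3 × ℝ} (hz : z ∈ L.Z) {k : ℕ}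
    (hk : k < L.n) {m : ℤ × ℤ} {y : E3} (hy : y ∈ L.sl z k m) : ‖y‖ ≤ A' * L.r := by
  have := sl_sub h hz hk m hy
  rwa [mem_closedBall_zero_iff] at this

theorem sl_bdd (h : LevOk M κ q A A' a b Cn K η0 C0 σ g R L) {z : E3 × ℝ} (hz : z ∈ L.Z) {k : ℕ}
    (hk : k < L.n) (m : ℤ × ℤ) : Bornology.IsBounded (L.sl z k m) :=
  Metric.isBounded_closedBall.subset (sl_sub h hz hk m)

theorem sl_cp (h : LevOk M κ q A A' a b Cn K η0 C0 σ g R L) {z : E3 × ℝ} (hz : z ∈ L.Z) {k : ℕ}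
    (hk : k < L.n) {m : ℤ × ℤ} {y : E3} (hy : y ∈ L.sl z k m) :
    m ∈ caps (L.r ^ (-(1/2) : ℝ)) := by
  obtain ⟨cls, hd⟩ := h.dec z hz
  by_contra hc
  have := hd.cp k (Finset.mem_range.2 hk) m hc
  have h2 : y ∈ (∅ : Set E3) := by
    rw [← this]
    exact hy
  exact h2

theorem one_le_r (h : LevOk M κ q A A' a b Cn K η0 C0 σ g R L) (hR : 1 ≤ R) : 1 ≤ L.r :=
  (Real.one_le_rpow hR (by norm_num)).trans h.lo

/-- the parent function is the translated selected wave. -/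
theorem pf_eq (h : LevOk M κ q A A' a b Cn K η0 C0 σ g R L) {z : E3 × ℝ} (hz : z ∈ cylc R) {k : ℕ}
    (hk : k < L.n) : L.pf z k = trc (z - L.ζ z) (selc η0 κ (L.r ^ (-(1/2) : ℝ)) (trc (L.ζ z) g)
      (L.sl (L.ζ z) k)) := by
  obtain ⟨cls, hd⟩ := h.dec _ (h.near z hz).1
  unfold Lev.pf
  rw [hd.eq k (Finset.mem_range.2 hk)]
  rfl

/-- **domination, one step.** -/
theorem dom_step (ha : 0 < a) (hA : 1 ≤ A) (hR : 1 ≤ R)
    (h : LevOk M κ q A A' a b Cn K η0 C0 σ g R L) (h' : LevOk M κ q A A' a b Cn K η0 C0 σ g R L')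
    (hn : Next L L') (hr : L'.r ≤ L.r) (hA' : A' * L'.r ≤ A * L.r) {z : E3 × ℝ} (hz : z ∈ L'.Z)
    {k : ℕ} (hk : k < L'.n) {m : ℤ × ℤ} {y : E3} (hy : y ∈ L'.sl z k m) :
    ‖umc (L'.r ^ (-(1/2) : ℝ)) (trc z g) m y‖ ≤
      L.n * ‖umc (L'.r ^ (-(1/2) : ℝ)) (trc (z - L.ζ z) (selc η0 κ (L.r ^ (-(1/2) : ℝ))
        (trc (L.ζ z) g) (L.sl (L.ζ z) (L'.par k)))) m y‖ +
      Cn * L.nb * R ^ (-(K : ℝ)) * Real.sqrt (Enc g) := by
  have hzR : z ∈ cylc R := h'.net.mem z hz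
  obtain ⟨hzZ, hzn⟩ := h.near z hzR
  obtain ⟨cls, hd⟩ := h.dec _ hzZ
  have hr1 : 1 ≤ L.r := one_le_r h hR
  have hr1' : 1 ≤ L'.r := one_le_r h' hR
  have e1 : trc z g = fun ξ => ∑ k' ∈ Finset.range L.n, L.pf z k' ξ +
      trc (z - L.ζ z) (L.rest (L.ζ z)) ξ := by
    have e0 : trc z g = trc (z - L.ζ z) (trc (L.ζ z) g) := by
      rw [A1k229.trc_trc, add_sub_cancel]
    rw [e0]
    funext ξ
    have h1 := hd.sum ξ
    unfold Lev.pf
    unfold trc at h1 ⊢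
    rw [h1, add_mul, Finset.sum_mul]
  have hI : ∀ k' ∈ Finset.range L.n, Integrable (L.pf z k') := by
    intro k' hk'
    exact ((nice_of_St (hd.st k' hk')).trc _).int (by linarith)
  have hIr : Integrable (trc (z - L.ζ z) (L.rest (L.ζ z))) := by
    have : Nice (2 * a) 2 (L.rest (L.ζ z)) := ⟨hd.rmeas, hd.rbdd, hd.rsupp⟩
    exact (this.trc _).int (by linarith)
  have hpar : L'.par k < L.n := hn.par_lt k hk
  obtain ⟨i, hi, hyi⟩ := mem_sl.1 hy
  have hdom : Domc (L'.r ^ (-(1/2) : ℝ)) (L.pf z) L.n (L'.par k) m y := by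
    rw [← hn.arg z hz k hk i hi m y hyi]
    exact argc_dom _ _ h.n1 m y
  have h2 := norm_domc hI hIr hdom
  rw [← e1, pf_eq h hzR hpar] at h2
  refine h2.trans (add_le_add le_rfl ?_)
  refine hd.small L'.r hr1' hr (z - L.ζ z) ?_ m y ?_
  · refine ⟨hzn.1.trans ?_, hzn.2.trans ?_⟩ <;> nlinarith
  · exact (sl_norm h' hz hk hy).trans hA'

end lev

/-! ### paths -/

/-- a path of frames and labels from level `j` down to level `i`. -/
structure Path (L : ℕ → Lev) (i j : ℕ) (zs : ℕ → E3 × ℝ) (ks : ℕ → ℕ) : Prop where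
  mem : ∀ l, i ≤ l → l ≤ j → zs l ∈ (L l).Z
  lab : ∀ l, i ≤ l → l ≤ j → ks l < (L l).n
  fr : ∀ l, i ≤ l → l < j → zs l = (L l).ζ (zs (l + 1))
  pr : ∀ l, i ≤ l → l < j → ks l = (L (l + 1)).par (ks (l + 1))

theorem Path.sub {L : ℕ → Lev} {i j : ℕ} {zs : ℕ → E3 × ℝ} {ks : ℕ → ℕ} (h : Path L i j zs ks)
    {i' j' : ℕ} (hi : i ≤ i') (hj : j' ≤ j) : Path L i' j' zs ks :=
  ⟨fun l h1 h2 => h.mem l (hi.trans h1) (h2.trans hj),
    fun l h1 h2 => h.lab l (hi.trans h1) (h2.trans hj),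
    fun l h1 h2 => h.fr l (hi.trans h1) (h2.trans_le hj),
    fun l h1 h2 => h.pr l (hi.trans h1) (h2.trans_le hj)⟩

section tow

variable {M κ q A A' a b Cn : ℝ} {K : ℕ} {η0 : ℝ} {C0 : E2} {σ : ℝ} {g : E3 → ℂ} {R : ℝ}
  {dl ν : ℝ} {n : ℕ} {L : ℕ → Lev}

theorem rad_pos (h : Tow M κ q A A' a b Cn K η0 C0 σ g R dl ν n L) (hR : 1 ≤ R) {t : ℕ}
    (ht : t ≤ n) : 1 ≤ (L t).r := one_le_r (h.ok t ht) hR

theorem rad_succ (h : Tow M κ q A A' a b Cn K η0 C0 σ g R dl ν n L) {t : ℕ} (ht : t < n) :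
    (L (t + 1)).r = dl * (L t).r := by
  rw [h.rad (t + 1) ht, h.rad t ht.le, pow_succ]
  ring

/-- the frames of a path are near. -/
theorem path_near (h : Tow M κ q A A' a b Cn K η0 C0 σ g R dl ν n L) {i j : ℕ} (hj : j ≤ n)
    {zs : ℕ → E3 × ℝ} {ks : ℕ → ℕ} (hp : Path L i j zs ks) {l : ℕ} (h1 : i ≤ l) (h2 : l < j) :
    zs (l + 1) - zs l ∈ cylc (L l).r := by
  rw [hp.fr l h1 h2]
  have h3 : zs (l + 1) ∈ cylc R :=
    (h.ok (l + 1) ((Nat.succ_le_of_lt h2).trans hj)).net.mem _ (hp.mem (l + 1) (by omega) h2)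
  exact ((h.ok l (h2.le.trans hj)).near _ h3).2

/-- **domination along a path**, one step. -/
theorem dom_path (h : Tow M κ q A A' a b Cn K η0 C0 σ g R dl ν n L) (ha : 0 < a) (hA : 1 ≤ A)
    (hR : 1 ≤ R) (hd1 : dl ≤ 1) (hdA : A' * dl ≤ 1) {i j : ℕ} (hj : j ≤ n)
    {zs : ℕ → E3 × ℝ} {ks : ℕ → ℕ} (hp : Path L i j zs ks) {l : ℕ} (h1 : i ≤ l) (h2 : l < j)
    {m : ℤ × ℤ} {y : E3} (hy : y ∈ (L (l + 1)).sl (zs (l + 1)) (ks (l + 1)) m) :
    ‖umc ((L (l + 1)).r ^ (-(1/2) : ℝ)) (trc (zs (l + 1)) g) m y‖ ≤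
      (L l).n * ‖umc ((L (l + 1)).r ^ (-(1/2) : ℝ)) (trc (zs (l + 1) - zs l)
        (selc η0 κ ((L l).r ^ (-(1/2) : ℝ)) (trc (zs l) g) ((L l).sl (zs l) (ks l)))) m y‖ +
      Cn * (L l).nb * R ^ (-(K : ℝ)) * Real.sqrt (Enc g) := by
  have hl : l < n := h2.trans_le hj
  have hr := rad_pos h hR hl.le
  have hs := rad_succ h hl
  rw [hp.fr l h1 h2, hp.pr l h1 h2]
  refine dom_step ha hA hR (h.ok l hl.le) (h.ok (l + 1) hl) (h.next l hl) ?_ ?_
    (hp.mem (l + 1) (by omega) h2) (hp.lab (l + 1) (by omega) h2) hy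
  · rw [hs]; nlinarith
  · rw [hs]
    have : A' * (dl * (L l).r) = (A' * dl) * (L l).r := by ring
    rw [this]
    nlinarith

end tow

end Crest.Agent.R116.Dch229
end

-- ▼ part R116/DcU2_894
section

/-!
# R116 (S0155), wave side, W12 TUBE: (U) along the path, part 2 (helper894)

* `one_level` : the coefficients of the root on the selection of level `l + 1` by the kernel
  integrals of the selection of level `l`.
* `chain` : induction along the path, bottom level `i`.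
-/

set_option autoImplicit false

open MeasureTheory
open scoped ENNReal

namespace Crest.Agent.R116.DcU894

open Crest.Agent.R138.Defs (E2)
open Crest.Agent.R138.Wpk685 (cen caps)
open Crest.Agent.R138.Loc878 (nearL)
open Crest.Agent.R116.CDef480 Crest.Agent.R116.WC188 Crest.Agent.R116.GlC210
open Crest.Agent.R116.Cad538 (wt frc W0 W0_lt)
open Crest.Agent.R116.F1c124 (kc kc_nonneg kc_wt lint_kc measurable_kc f1_sel card_nearL_le)
open Crest.Agent.R116.Dch229 (nearC mem_nearC nearC_trans nearL_subset Path)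
open Crest.Agent.R116.TuD373 (tht)
open Crest.Agent.R116.TuS363 (tht_pos tht_mono tht_shift rad_tht_sq)

/-! ### scalar facts -/

theorem tht_four {R dl : ℝ} (hR : 0 < R) (hdl : 0 < dl) (h16 : 16 * dl ≤ 1) (t : ℕ) :
    4 * tht R dl t ≤ tht R dl (t + 1) := by
  have h := tht_shift (R := R) (dl := dl) hR hdl (i := t) (j := t + 1) (by omega)
  have e : t + 1 - t = 1 := by omega
  rw [e, pow_one] at h
  have h1 : dl ^ (1/2 : ℝ) ≤ 1/4 := by
    rw [← Real.sqrt_eq_rpow]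
    rw [show (1/4 : ℝ) = √(1/16) by
      rw [show (1/16 : ℝ) = (1/4) ^ 2 by norm_num, Real.sqrt_sq (by norm_num)]]
    exact Real.sqrt_le_sqrt (by linarith)
  have h2 := tht_pos hR hdl (t + 1)
  nlinarith

theorem tht_ratio {R dl : ℝ} (hR : 0 < R) (hdl : 0 < dl) (t : ℕ) :
    (tht R dl (t + 1) / tht R dl t) ^ 2 = dl⁻¹ := by
  have h1 := rad_tht_sq hR hdl t
  have h2 := rad_tht_sq hR hdl (t + 1)
  have h3 := tht_pos hR hdl t
  have h4 : R * dl ^ t * (dl * tht R dl (t + 1) ^ 2) = R * dl ^ t * tht R dl t ^ 2 := by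
    rw [h1, ← h2]; ring
  have h5 : dl * tht R dl (t + 1) ^ 2 = tht R dl t ^ 2 :=
    mul_left_cancel₀ (by positivity) h4
  rw [div_pow, div_eq_iff (by positivity), ← h5, ← mul_assoc, inv_mul_cancel₀ hdl.ne', one_mul]

theorem enorm_le_of {u v : ℂ} {k c ν : ℝ} (hk : k ≤ ν) (hν : 0 ≤ ν)
    (h : ‖u‖ ≤ k * ‖v‖ + c) : ‖u‖ₑ ≤ ENNReal.ofReal ν * ‖v‖ₑ + ENNReal.ofReal c := by
  rw [← ofReal_norm, ← ofReal_norm, ← ENNReal.ofReal_mul hν]
  refine (ENNReal.ofReal_le_ofReal ?_).trans ENNReal.ofReal_add_le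
  refine h.trans (add_le_add ?_ le_rfl)
  exact mul_le_mul_of_nonneg_right hk (norm_nonneg _)

/-! ### one level -/

/-- **one level.** -/
theorem one_level {a : ℝ} (ha : 1 ≤ a) (N : ℕ) : ∃ K0 : ℝ, 0 ≤ K0 ∧
    ∀ {M κ q A A' b Cn : ℝ} {K : ℕ} {η0 : ℝ} {C0 : E2} {σ : ℝ} {g : E3 → ℂ} {R dl ν : ℝ} {n : ℕ}
      {L : ℕ → Lev}, 0 < κ → κ ≤ (4 * (2 * a))⁻¹ → (2 * a)⁻¹ ≤ η0 → η0 ≤ 2 * a → 1 ≤ A →
      0 ≤ Cn → Integrable g → 1 ≤ R → 0 < dl → dl ≤ 1 → A' * dl ≤ 1 → 1 ≤ ν →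
      Tow M κ q A A' a b Cn K η0 C0 σ g R dl ν n L → ∀ {i j : ℕ}, j ≤ n →
      ∀ {zs : ℕ → E3 × ℝ} {ks : ℕ → ℕ}, Path L i j zs ks → ∀ l, i ≤ l → l < j →
      ∀ (m : ℤ × ℤ) (y : E3), y ∈ (L (l + 1)).sl (zs (l + 1)) (ks (l + 1)) m →
      ‖umc (tht R dl (l + 1)) (trc (zs (l + 1)) g) m y‖ₑ ≤ ENNReal.ofReal (ν * K0) *
        (∑ m1 ∈ nearL (tht R dl l) (tht R dl (l + 1)) m, ∫⁻ x in (L l).sl (zs l) (ks l) m1,
          ENNReal.ofReal (kc N (tht R dl l) κ (cen (tht R dl l) m1)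
            (y + (zs (l + 1) - zs l).1 + (zs (l + 1) - zs l).2 • vel (cen (tht R dl l) m1) - x)) *
            ‖umc (tht R dl l) (trc (zs l) g) m1 x‖ₑ) +
        ENNReal.ofReal (Cn * ν * R ^ (-(K : ℝ)) * √(Enc g)) := by
  obtain ⟨K0, hK0, hf⟩ := f1_sel (a := 2 * a) (by linarith) N 1
  refine ⟨K0, hK0, ?_⟩
  intro M κ q A A' b Cn K η0 C0 σ g R dl ν n L hκ hκa hη1 hη2 hA hCn hg hR hdl hdl1 hdA hν hT i j
    hj zs ks hp l h1 h2 m y hy
  have hR0 : 0 < R := by linarith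
  have hl : l < n := h2.trans_le hj
  have e0 : (L l).r ^ (-(1/2) : ℝ) = tht R dl l := by rw [hT.rad l hl.le]; rfl
  have e1 : (L (l + 1)).r ^ (-(1/2) : ℝ) = tht R dl (l + 1) := by rw [hT.rad (l + 1) hl]; rfl
  have hd := Dch229.dom_path hT (by linarith) hA hR hdl1 hdA hj hp h1 h2 hy
  rw [e0, e1] at hd
  have hLe := hT.le l hl.le
  have hok := hT.ok l hl.le
  have hzl := hp.mem l h1 h2.le
  have hkl := hp.lab l h1 h2.le
  have hnear := Dch229.path_near hT hj hp h1 h2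
  have hf' := hf (tht R dl l) (tht R dl (l + 1)) κ η0 (tht_pos hR0 hdl l)
    (tht_mono hR0 hdl hdl1 (Nat.le_succ l)) hκ hκa hη1 hη2 (trc (zs l) g)
    ((L l).sl (zs l) (ks l)) (F1c124.trc_int hg _) (fun m1 _ => Dch229.sl_meas hok hzl hkl m1)
    (fun m1 _ => Dch229.sl_bdd hok hzl hkl m1) (zs (l + 1) - zs l)
    (by
      have h3 := hnear.2
      rw [hT.rad l hl.le] at h3
      calc |(zs (l + 1) - zs l).2| * tht R dl l ^ 2 ≤ R * dl ^ l * tht R dl l ^ 2 := by gcongr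
        _ = 1 := rad_tht_sq hR0 hdl l) m y
  have h4 := enorm_le_of (k := ((L l).n : ℝ)) (ν := ν) hLe.1 (by linarith) hd
  refine h4.trans (add_le_add ?_ (ENNReal.ofReal_le_ofReal ?_))
  · rw [ENNReal.ofReal_mul (by linarith), mul_assoc]
    exact mul_le_mul' le_rfl hf'
  · have h5 := hLe.2
    have h6 : 0 ≤ R ^ (-(K : ℝ)) := (Real.rpow_pos_of_pos hR0 _).le
    have h7 := Real.sqrt_nonneg (Enc g)
    gcongr

/-! ### induction along the path -/

/-- recursion of the tails. -/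
theorem tail_rec {X Y θ τ : ℝ} (hY : 0 ≤ Y) (hX : Y + 1 ≤ X) (hθ : 0 ≤ θ) (d : ℕ)
    (hτ : τ ≤ X ^ d * θ) : Y * τ + θ ≤ X ^ (d + 1) * θ := by
  have hX1 : 1 ≤ X := by linarith
  have h1 : 1 ≤ X ^ d := one_le_pow₀ hX1
  have h2 : Y * τ ≤ Y * (X ^ d * θ) := mul_le_mul_of_nonneg_left hτ hY
  have h3 : θ ≤ X ^ d * θ := by nlinarith
  have h4 : (Y + 1) * (X ^ d * θ) ≤ X * (X ^ d * θ) :=
    mul_le_mul_of_nonneg_right hX (by positivity)
  calc Y * τ + θ ≤ (Y + 1) * (X ^ d * θ) := by linarith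
    _ ≤ X * (X ^ d * θ) := h4
    _ = _ := by ring

/-- **(U), kernel form, along the path.** -/
theorem chain {a : ℝ} (ha : 1 ≤ a) (N : ℕ) : ∃ K1 : ℝ, 1 ≤ K1 ∧
    ∀ {M κ q A A' b Cn : ℝ} {K : ℕ} {η0 : ℝ} {C0 : E2} {σ : ℝ} {g : E3 → ℂ} {R dl ν : ℝ} {n : ℕ}
      {L : ℕ → Lev}, 0 < κ → κ ≤ 1 → κ ≤ (4 * (2 * a))⁻¹ → (2 * a)⁻¹ ≤ η0 → η0 ≤ 2 * a →
      1 ≤ A → 0 ≤ Cn → Integrable g → 1 ≤ R → 0 < dl → 16 * dl ≤ 1 → A' * dl ≤ 1 →
      dl⁻¹ ≤ R → 1 ≤ ν →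
      Tow M κ q A A' a b Cn K η0 C0 σ g R dl ν n L → ∀ {i j : ℕ}, j ≤ n →
      κ * tht R dl j ≤ tht R dl i →
      ∀ {zs : ℕ → E3 × ℝ} {ks : ℕ → ℕ}, Path L i j zs ks → ∀ d, i + 1 + d ≤ j →
      ∀ (m : ℤ × ℤ) (y : E3), y ∈ (L (i + 1 + d)).sl (zs (i + 1 + d)) (ks (i + 1 + d)) m →
      ‖umc (tht R dl (i + 1 + d)) (trc (zs (i + 1 + d)) g) m y‖ₑ ≤
        ENNReal.ofReal ((ν * K1) ^ (d + 1)) *
        ∑ m2 ∈ nearC (tht R dl i) (tht R dl (i + 1 + d)) m,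
          Jk N (tht R dl i) κ (umc (tht R dl i) (trc (zs i) g)) ((L i).sl (zs i) (ks i))
            (zs (i + 1 + d) - zs i) y m2 +
        ENNReal.ofReal ((2 * ν * K1 * R) ^ (d + 1) * (Cn * ν * R ^ (-(K : ℝ)) * √(Enc g))) := by
  obtain ⟨K0, hK0, hone⟩ := one_level ha (N + 4)
  set w : ℝ := W0.toReal with hw
  have hw0 : 0 ≤ w := ENNReal.toReal_nonneg
  have hW : W0 = ENNReal.ofReal w := (ENNReal.ofReal_toReal W0_lt.ne).symm
  set K1 : ℝ := 1 + K0 * (1 + 64 * 13 ^ N * w + 49 * w) with hK1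
  have h1K1 : 1 ≤ K1 := by
    have : 0 ≤ K0 * (1 + 64 * 13 ^ N * w + 49 * w) := by positivity
    linarith
  have hK1a : K0 ≤ K1 := by
    have : 0 ≤ K0 * (64 * 13 ^ N * w + 49 * w) := by positivity
    rw [hK1]; linarith
  have hK1b : K0 * (64 * 13 ^ N * w) ≤ K1 := by
    have : 0 ≤ K0 * (1 + 49 * w) := by positivity
    rw [hK1]; linarith
  have hK1c : K0 * (49 * w) ≤ K1 := by
    have : 0 ≤ K0 * (1 + 64 * 13 ^ N * w) := by positivity
    rw [hK1]; linarith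
  refine ⟨K1, h1K1, ?_⟩
  intro M κ q A A' b Cn K η0 C0 σ g R dl ν n L hκ hκ1 hκa hη1 hη2 hA hCn hg hR hdl h16 hdA hdR hν
    hT i j hj hst zs ks hp d
  have hR0 : 0 < R := by linarith
  have hν0 : 0 < ν := by linarith
  have hdl1 : dl ≤ 1 := by linarith
  set θ : ℝ := Cn * ν * R ^ (-(K : ℝ)) * √(Enc g) with hθ
  have hθ0 : 0 ≤ θ := by
    have h6 : 0 ≤ R ^ (-(K : ℝ)) := (Real.rpow_pos_of_pos hR0 _).le
    positivity
  have hti := tht_pos (dl := dl) hR0 hdl i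
  have hY0 : 0 ≤ ν * K1 * R := by positivity
  have hXY : ν * K1 * R + 1 ≤ 2 * ν * K1 * R := by
    have : 1 ≤ ν * K1 * R := by
      have h7 : 1 ≤ ν * K1 := by nlinarith
      nlinarith
    linarith
  induction d with
  | zero =>
    intro hd m y hy
    have h := hone hκ hκa hη1 hη2 hA hCn hg hR hdl hdl1 hdA hν hT hj hp i le_rfl (by omega) m y hy
    refine h.trans (add_le_add ?_ (ENNReal.ofReal_le_ofReal ?_))
    · refine mul_le_mul' (ENNReal.ofReal_le_ofReal ?_) ?_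
      · rw [zero_add, pow_one]
        exact mul_le_mul_of_nonneg_left hK1a hν0.le
      · refine (Finset.sum_le_sum fun m1 _ => ?_).trans
          (Finset.sum_le_sum_of_subset (nearL_subset (tht_pos hR0 hdl (i + 1)).le m))
        unfold Jk
        refine lintegral_mono fun x => ?_
        refine mul_le_mul' (ENNReal.ofReal_le_ofReal ?_) le_rfl
        have e : TuG373.D (zs (i + 1 + 0) - zs i) y (cen (tht R dl i) m1) - x =
            y + (zs (i + 1) - zs i).1 + (zs (i + 1) - zs i).2 • vel (cen (tht R dl i) m1) - x := by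
          unfold TuG373.D
          rw [add_zero]
          abel
        rw [e, kc_wt _ hti hκ, kc_wt _ hti hκ]
        exact mul_le_mul_of_nonneg_left (Cad538.wt_anti _ (by omega) _) (by positivity)
    · have := tail_rec hY0 hXY hθ0 0 (τ := 0) (by rw [pow_zero, one_mul]; exact hθ0)
      linarith
  | succ d ih =>
    intro hd m y hy
    have hd' : i + 1 + d ≤ j := by omega
    set l : ℕ := i + 1 + d with hl
    have el : i + 1 + (d + 1) = l + 1 := by omega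
    rw [el] at hy ⊢
    have hil : i ≤ l := by omega
    have hlj : l < j := by omega
    have hln : l < n := by omega
    have htl := tht_pos (dl := dl) hR0 hdl l
    have hile : tht R dl i ≤ tht R dl l := tht_mono hR0 hdl hdl1 hil
    have hstl : κ * tht R dl l ≤ tht R dl i :=
      (mul_le_mul_of_nonneg_left (tht_mono hR0 hdl hdl1 hlj.le) hκ.le).trans hst
    have hok := hT.ok l hln.le
    have hzl := hp.mem l hil hlj.le
    have hkl := hp.lab l hil hlj.le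
    have hnear := (Dch229.path_near hT hj hp hil hlj).2
    rw [hT.rad l hln.le] at hnear
    have htime : |(zs (l + 1) - zs l).2| * tht R dl l ^ 2 ≤ 1 := by
      calc |(zs (l + 1) - zs l).2| * tht R dl l ^ 2 ≤ R * dl ^ l * tht R dl l ^ 2 := by gcongr
        _ = 1 := rad_tht_sq hR0 hdl l
    have h := hone hκ hκa hη1 hη2 hA hCn hg hR hdl hdl1 hdA hν hT hj hp l hil hlj m y hy
    have hs := step_sum (N := N) (u := umc (tht R dl i) (trc (zs i) g))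
      (S := (L i).sl (zs i) (ks i)) (th := tht R dl i) (th1 := tht R dl l)
      (th2 := tht R dl (l + 1)) (κ := κ) hti hile hκ hκ1 hstl (tht_four hR0 hdl h16 l)
      (z := zs (l + 1) - zs l) (w := zs l - zs i) htime (m := m)
      (S1 := (L l).sl (zs l) (ks l)) (fun m1 _ => Dch229.sl_meas hok hzl hkl m1)
      (a := fun m1 x => ‖umc (tht R dl l) (trc (zs l) g) m1 x‖ₑ)
      (B := ENNReal.ofReal ((ν * K1) ^ (d + 1)))
      (τ := ENNReal.ofReal ((2 * ν * K1 * R) ^ (d + 1) * θ)) (y := y)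
      (fun m1 _ x hx => ih hd' m1 x hx)
    have ez : zs (l + 1) - zs l + (zs l - zs i) = zs (l + 1) - zs i := by abel
    rw [ez] at hs
    set J : ℝ≥0∞ := ∑ m2 ∈ nearC (tht R dl i) (tht R dl (l + 1)) m,
          Jk N (tht R dl i) κ (umc (tht R dl i) (trc (zs i) g)) ((L i).sl (zs i) (ks i))
            (zs (l + 1) - zs i) y m2 with hJ
    have hcard : (((nearL (tht R dl l) (tht R dl (l + 1)) m).card : ℕ) : ℝ≥0∞) ≤
        ENNReal.ofReal (49 * R) := by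
      rw [← ENNReal.ofReal_natCast]
      refine ENNReal.ofReal_le_ofReal ?_
      refine (card_nearL_le htl (tht_mono hR0 hdl hdl1 (Nat.le_succ l)) m).trans ?_
      rw [tht_ratio hR0 hdl]
      linarith
    have hX0 : 0 ≤ (2 * ν * K1 * R) ^ (d + 1) * θ := by positivity
    calc _ ≤ ENNReal.ofReal (ν * K0) * (ENNReal.ofReal (13 ^ N) * W0 *
          ENNReal.ofReal ((ν * K1) ^ (d + 1)) * 64 * J +
          ENNReal.ofReal (49 * R) * (W0 * ENNReal.ofReal ((2 * ν * K1 * R) ^ (d + 1) * θ))) +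
          ENNReal.ofReal θ := by
          refine h.trans (add_le_add (mul_le_mul' le_rfl (hs.trans ?_)) le_rfl)
          exact add_le_add le_rfl (mul_le_mul' hcard le_rfl)
      _ = ENNReal.ofReal (ν * K0) * (ENNReal.ofReal (13 ^ N) * W0 *
          ENNReal.ofReal ((ν * K1) ^ (d + 1)) * 64) * J +
          (ENNReal.ofReal (ν * K0) * (ENNReal.ofReal (49 * R) * (W0 *
            ENNReal.ofReal ((2 * ν * K1 * R) ^ (d + 1) * θ))) + ENNReal.ofReal θ) := by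
          ring
      _ ≤ _ := by
          refine add_le_add (mul_le_mul' ?_ le_rfl) ?_
          · rw [hW, show (64 : ℝ≥0∞) = ENNReal.ofReal 64 by norm_num,
              ← ENNReal.ofReal_mul (by positivity), ← ENNReal.ofReal_mul (by positivity),
              ← ENNReal.ofReal_mul (by positivity), ← ENNReal.ofReal_mul (by positivity)]
            refine ENNReal.ofReal_le_ofReal ?_
            calc ν * K0 * (13 ^ N * w * (ν * K1) ^ (d + 1) * 64)
                = (ν * (K0 * (64 * 13 ^ N * w))) * (ν * K1) ^ (d + 1) := by ring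
              _ ≤ (ν * K1) * (ν * K1) ^ (d + 1) := by gcongr
              _ = _ := by ring
          · rw [hW, ← ENNReal.ofReal_mul (by positivity), ← ENNReal.ofReal_mul (by positivity),
              ← ENNReal.ofReal_mul (by positivity), ← ENNReal.ofReal_add (by positivity) hθ0]
            refine ENNReal.ofReal_le_ofReal ?_
            have h8 := tail_rec hY0 hXY hθ0 (d + 1) (τ := (2 * ν * K1 * R) ^ (d + 1) * θ) le_rfl
            refine le_trans (add_le_add ?_ le_rfl) h8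
            calc ν * K0 * (49 * R * (w * ((2 * ν * K1 * R) ^ (d + 1) * θ)))
                = (ν * (K0 * (49 * w)) * R) * ((2 * ν * K1 * R) ^ (d + 1) * θ) := by ring
              _ ≤ (ν * K1 * R) * ((2 * ν * K1 * R) ^ (d + 1) * θ) := by gcongr

end Crest.Agent.R116.DcU894
end

-- ▼ part R116/DcU3_894
section

/-!
# R116 (S0155), wave side, W12 TUBE: (U) along the path, part 3 (helper894)

`usq` : the square of the kernel form; caps with a selected packet in the `Y`-plate (count) and the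
other caps (tail).
-/

set_option autoImplicit false

open MeasureTheory
open scoped ENNReal

namespace Crest.Agent.R116.DcU894

open Crest.Agent.R138.Defs (E2)
open Crest.Agent.R138.Wpk685 (cen caps)
open Crest.Agent.R138.Loc878 (nearL)
open Crest.Agent.R116.CDef480 Crest.Agent.R116.WC188 Crest.Agent.R116.GlC210
open Crest.Agent.R116.Cad538 (wt frc W0 W0_lt)
open Crest.Agent.R116.F1c124 (kc kc_nonneg kc_wt kc_cs wt_neg sum_sq_ennreal)
open Crest.Agent.R116.Dch229 (nearC mem_nearC)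
open Crest.Agent.R116.TuD373 (tht nrC)
open Crest.Agent.R116.TuG373 (pn)
open Crest.Agent.R116.TuC373 (AdN)

theorem sq3 (a b c : ℝ≥0∞) : (a + b + c) ^ 2 ≤ 3 * (a ^ 2 + b ^ 2 + c ^ 2) := by
  have h := sum_sq_ennreal (Finset.univ : Finset (Fin 3)) (![a, b, c])
  simpa [Fin.sum_univ_three] using h

/-- the kernel outside the `Y`-plate. -/
theorem kc_out (n1 : ℕ) {th κ Y : ℝ} (hth : 0 < th) (hth1 : th ≤ 1) (hκ : 0 < κ) (hκ1 : κ ≤ 1)
    (hY : 0 < Y) {C : E2} {Z : E3} (h : Y < pn th κ C Z) :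
    kc n1 th κ C Z ≤ 2 ^ n1 * (Y ^ n1)⁻¹ := by
  rw [kc_wt _ hth hκ]
  have h1 := pn_le_frc hth.le hκ.le C Z
  have h2 : Y / 2 ≤ 1 + ‖frc th κ C Z‖ := by linarith
  have h3 : wt (frc th κ C) n1 Z ≤ ((Y / 2) ^ n1)⁻¹ := by
    unfold Cad538.wt
    exact inv_anti₀ (by positivity) (pow_le_pow_left₀ (by positivity) h2 n1)
  have h4 : th ^ 2 * κ ≤ 1 := by
    have : th ^ 2 ≤ 1 := pow_le_one₀ hth.le hth1
    calc th ^ 2 * κ ≤ 1 * 1 := by gcongr
      _ = 1 := one_mul 1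
  have h5 := Cad538.wt_pos (frc th κ C) n1 Z
  calc th ^ 2 * κ * wt (frc th κ C) n1 Z ≤ 1 * ((Y / 2) ^ n1)⁻¹ := by gcongr
    _ = _ := by
        rw [one_mul, div_pow, inv_div, div_eq_mul_inv]

variable {th κ : ℝ} {g : E3 → ℂ} {S : ℤ × ℤ → Set E3}

/-- one cap, inside. -/
theorem Jk_in {n0 n1 : ℕ} (hn : n0 ≤ n1) (hth : 0 < th) (hκ : 0 < κ) (hg : Integrable g)
    {m : ℤ × ℤ} (hS : MeasurableSet (S m)) (w : E3 × ℝ) (y : E3) :
    Jk (n1 + 4) th κ (umc th g) S w y m ^ 2 ≤ W0 * (ENNReal.ofReal (th ^ 2 * κ) * ∫⁻ x in S m,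
      ENNReal.ofReal (wt (frc th κ (cen th m)) n0 (x - (w.1 + y) - w.2 • vel (cen th m))) *
        ‖umc th g m x‖ₑ ^ 2) := by
  refine (kc_cs hth hκ (cen th m) (TuG373.D w y (cen th m)) hS (F1c124.umc_cont hg th m)).trans ?_
  refine mul_le_mul' le_rfl ?_
  rw [← lintegral_const_mul' _ _ ENNReal.ofReal_ne_top]
  refine lintegral_mono fun x => ?_
  dsimp only
  rw [← mul_assoc, ← ENNReal.ofReal_mul (by positivity)]
  refine mul_le_mul' (ENNReal.ofReal_le_ofReal ?_) le_rfl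
  rw [kc_wt _ hth hκ, ← wt_neg]
  have e : -(TuG373.D w y (cen th m) - x) = x - (w.1 + y) - w.2 • vel (cen th m) := by
    unfold TuG373.D
    abel
  rw [e]
  exact mul_le_mul_of_nonneg_left (Cad538.wt_anti _ hn _) (by positivity)

/-- one cap, outside. -/
theorem Jk_out (n1 : ℕ) {Y : ℝ} (hth : 0 < th) (hth1 : th ≤ 1) (hκ : 0 < κ) (hκ1 : κ ≤ 1)
    (hY : 0 < Y) (hg : Integrable g) {m : ℤ × ℤ} (hS : MeasurableSet (S m)) {w : E3 × ℝ} {y : E3}
    (h : ∀ x ∈ S m, Y < pn th κ (cen th m) (x - TuG373.D w y (cen th m))) :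
    Jk (n1 + 4) th κ (umc th g) S w y m ^ 2 ≤
      W0 * (ENNReal.ofReal (2 ^ n1 * (Y ^ n1)⁻¹) * ∫⁻ x, ‖umc th g m x‖ₑ ^ 2) := by
  refine (kc_cs hth hκ (cen th m) (TuG373.D w y (cen th m)) hS (F1c124.umc_cont hg th m)).trans ?_
  refine mul_le_mul' le_rfl ?_
  rw [← lintegral_const_mul' _ _ ENNReal.ofReal_ne_top]
  refine (setLIntegral_mono' hS fun x hx => ?_).trans (setLIntegral_le_lintegral _ _)
  refine mul_le_mul' (ENNReal.ofReal_le_ofReal ?_) le_rfl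
  refine kc_out n1 hth hth1 hκ hκ1 hY ?_
  have h1 := h x hx
  rw [← TuG373.pn_neg, neg_sub] at h1
  exact h1

open Classical in
/-- **the square of the kernel form.** -/
theorem usq {n0 n1 : ℕ} (hn : n0 ≤ n1) {th1 Y : ℝ} (hth : 0 < th) (hth1 : th ≤ 1) (hκ : 0 < κ)
    (hκ1 : κ ≤ 1) (hY : 0 < Y) {Lr : ℝ} (hg : Ba449.Gd Lr g)
    (hS : ∀ m ∈ caps th, MeasurableSet (S m)) (w : E3 × ℝ) (y : E3) (m : ℤ × ℤ) {c : ℕ}
    (hc : ((nrC th th1 m).filter fun m' => ∃ y0 ∈ S m',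
      pn th κ (cen th m') (y0 - TuG373.D w y (cen th m')) ≤ Y).card = c) {B τ v : ℝ≥0∞}
    (hv : v ≤ B * ∑ m2 ∈ nearC th th1 m, Jk (n1 + 4) th κ (umc th g) S w y m2 + τ) :
    v ^ 2 ≤ 3 * B ^ 2 * W0 * (c : ℝ≥0∞) * AdN n0 th κ g S (nrC th th1) m w y +
      (3 * B ^ 2 * ENNReal.ofReal (81 * (th⁻¹) ^ 2) * W0 *
        ENNReal.ofReal (2 ^ n1 * (Y ^ n1)⁻¹) * ENNReal.ofReal (Enc g) + 3 * τ ^ 2) := by
  set J : ℤ × ℤ → ℝ≥0∞ := fun m2 => Jk (n1 + 4) th κ (umc th g) S w y m2 with hJ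
  set P : ℤ × ℤ → Prop := fun m' => ∃ y0 ∈ S m',
      pn th κ (cen th m') (y0 - TuG373.D w y (cen th m')) ≤ Y with hP
  have hsub : nearC th th1 m ⊆ nrC th th1 m := by
    intro m' hm'
    obtain ⟨h1, h2⟩ := mem_nearC.1 hm'
    exact Finset.mem_filter.2 ⟨h1, h2.le⟩
  have hcap : ∀ m' ∈ nearC th th1 m, m' ∈ caps th := fun m' hm' => (mem_nearC.1 hm').1
  have hsplit : ∑ m2 ∈ nearC th th1 m, J m2 =
      ∑ m2 ∈ (nearC th th1 m).filter P, J m2 + ∑ m2 ∈ (nearC th th1 m).filter (fun m' => ¬ P m'),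
        J m2 := (Finset.sum_filter_add_sum_filter_not _ _ _).symm
  have hin : (∑ m2 ∈ (nearC th th1 m).filter P, J m2) ^ 2 ≤
      (c : ℝ≥0∞) * (W0 * AdN n0 th κ g S (nrC th th1) m w y) := by
    refine (sum_sq_ennreal _ _).trans (mul_le_mul' ?_ ?_)
    · rw [← hc]
      exact_mod_cast Finset.card_le_card (Finset.filter_subset_filter _ hsub)
    · unfold TuC373.AdN Cad538.Acc Cad538.Den
      rw [mul_left_comm, Finset.mul_sum]
      rw [Finset.mul_sum]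
      refine (Finset.sum_le_sum fun m2 hm2 => ?_).trans
        (Finset.sum_le_sum_of_subset ((Finset.filter_subset _ _).trans hsub))
      have hm3 := hcap m2 (Finset.mem_filter.1 hm2).1
      refine (Jk_in hn hth hκ hg.int (hS m2 hm3) w y).trans (le_of_eq ?_)
      ring
  have hout : (∑ m2 ∈ (nearC th th1 m).filter (fun m' => ¬ P m'), J m2) ^ 2 ≤
      ENNReal.ofReal (81 * (th⁻¹) ^ 2) * (W0 * (ENNReal.ofReal (2 ^ n1 * (Y ^ n1)⁻¹) *
        ENNReal.ofReal (Enc g))) := by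
    refine (sum_sq_ennreal _ _).trans (mul_le_mul' ?_ ?_)
    · rw [← ENNReal.ofReal_natCast]
      refine ENNReal.ofReal_le_ofReal ((Nat.cast_le.2 (Finset.card_le_card
        (fun m' hm' => hcap m' (Finset.mem_filter.1 hm').1))).trans
          (Tr126.card_caps hth hth1))
    · calc _ ≤ ∑ m2 ∈ (nearC th th1 m).filter (fun m' => ¬ P m'),
            W0 * (ENNReal.ofReal (2 ^ n1 * (Y ^ n1)⁻¹) * ∫⁻ x, ‖umc th g m2 x‖ₑ ^ 2) := by
            refine Finset.sum_le_sum fun m2 hm2 => ?_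
            obtain ⟨hm3, hm4⟩ := Finset.mem_filter.1 hm2
            refine Jk_out n1 hth hth1 hκ hκ1 hY hg.int (hS m2 (hcap m2 hm3)) ?_
            intro x hx
            by_contra hcon
            exact hm4 ⟨x, hx, not_lt.1 hcon⟩
        _ = W0 * (ENNReal.ofReal (2 ^ n1 * (Y ^ n1)⁻¹) *
            ∑ m2 ∈ (nearC th th1 m).filter (fun m' => ¬ P m'), ∫⁻ x, ‖umc th g m2 x‖ₑ ^ 2) := by
            rw [Finset.mul_sum, Finset.mul_sum]
        _ ≤ _ := by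
            refine mul_le_mul' le_rfl (mul_le_mul' le_rfl (le_trans ?_
              (Ba449.sum_lint_umc hg hth)))
            exact Finset.sum_le_sum_of_subset fun m' hm' => hcap m' (Finset.mem_filter.1 hm').1
  calc v ^ 2 ≤ (B * ∑ m2 ∈ nearC th th1 m, J m2 + τ) ^ 2 := pow_le_pow_left₀ zero_le hv 2
    _ = (B * ∑ m2 ∈ (nearC th th1 m).filter P, J m2 +
          B * ∑ m2 ∈ (nearC th th1 m).filter (fun m' => ¬ P m'), J m2 + τ) ^ 2 := by
        rw [hsplit, mul_add]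
    _ ≤ 3 * ((B * ∑ m2 ∈ (nearC th th1 m).filter P, J m2) ^ 2 +
          (B * ∑ m2 ∈ (nearC th th1 m).filter (fun m' => ¬ P m'), J m2) ^ 2 + τ ^ 2) := sq3 _ _ _
    _ ≤ 3 * (B ^ 2 * ((c : ℝ≥0∞) * (W0 * AdN n0 th κ g S (nrC th th1) m w y)) +
          B ^ 2 * (ENNReal.ofReal (81 * (th⁻¹) ^ 2) * (W0 *
            (ENNReal.ofReal (2 ^ n1 * (Y ^ n1)⁻¹) * ENNReal.ofReal (Enc g)))) + τ ^ 2) := by
        rw [mul_pow, mul_pow]
        gcongr
    _ = _ := by ring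

end Crest.Agent.R116.DcU894
end

-- ▼ part R116/DcU4_894
section

/-!
# R116 (S0155), wave side, W12 TUBE: (U) along the path, part 4 (helper894)

`U_of` : the interface Prop `Uat` of `TuS_363` for every pair of levels `i < j ≤ n` of a tower and
every label of level `j`, `Cu = C ν^(2 n)`, tail `C R^(-T) Enc g`.
-/

set_option autoImplicit false

open MeasureTheory
open scoped ENNReal

namespace Crest.Agent.R116.DcU894

open Crest.Agent.R138.Defs (E2)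
open Crest.Agent.R138.Wpk685 (cen caps)
open Crest.Agent.R116.CDef480 Crest.Agent.R116.WC188 Crest.Agent.R116.GlC210
open Crest.Agent.R116.Cad538 (W0 W0_lt)
open Crest.Agent.R116.Dch229 (nearC Path)
open Crest.Agent.R116.TuD373 (tht nrC pz)
open Crest.Agent.R116.TuS363 (Uat cntU pz_self pz_succ pz_mem' tht_pos tht_inv tht_le_one
  rad_pos rad_anti)

/-! ### the path of a frame and a label -/

theorem pz_fr (L : ℕ → Lev) : ∀ (j l : ℕ) (z : E3 × ℝ), l < j →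
    pz L j l z = (L l).ζ (pz L j (l + 1) z) := by
  intro j
  induction j with
  | zero => intro l z h; omega
  | succ j ih =>
    intro l z h
    rw [pz_succ L (by omega)]
    rcases Nat.lt_or_ge l j with h1 | h1
    · rw [ih l _ h1, pz_succ L (by omega)]
    · have : l = j := by omega
      subst this
      rw [pz_self, pz_self]

section tow

variable {M κ q A A' a b Cn : ℝ} {K : ℕ} {η0 : ℝ} {C0 : E2} {σ : ℝ} {g : E3 → ℂ} {R dl ν : ℝ}
  {n : ℕ} {L : ℕ → Lev}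

theorem anc_self (L : ℕ → Lev) (j k : ℕ) : anc L j j k = k := AsmP597.up_self _ _ _

theorem path_pz (hT : Tow M κ q A A' a b Cn K η0 C0 σ g R dl ν n L) {i j : ℕ} (hjn : j ≤ n)
    {z : E3 × ℝ} (hz : z ∈ (L j).Z) {k : ℕ} (hk : k < (L j).n) :
    Path L i j (fun l => pz L j l z) (fun l => anc L j l k) := by
  refine ⟨fun l _ h2 => pz_mem' hT h2 hjn hz, fun l _ h2 => ?_, fun l _ h2 => pz_fr L j l z h2,
    fun l _ h2 => ?_⟩
  · exact AsmP597.up_lt _ (fun t => (L t).n) (n := n) (fun t ht k hk => (hT.next t ht).par_lt k hk)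
      j l hjn h2 k hk
  · exact AsmP597.par_up _ j l k h2

end tow

theorem umc_trc_zero {g : E3 → ℂ} (hg : ∀ ζ, g ζ = 0) (ρ : ℝ) (z : E3 × ℝ) (m : ℤ × ℤ) (y : E3) :
    umc ρ (trc z g) m y = 0 := by
  have e : trc z g = fun _ => 0 := by
    funext ζ
    unfold trc
    rw [hg, zero_mul]
  rw [e]
  exact Bas367.umc_zero m y

/-- scalar bound of the tails. -/
theorem tail_scal {R ν k1 w Cn T e1 : ℝ} {n n1 d K : ℕ} (hR : 1 ≤ R) (hν : 1 ≤ ν) (hνR : ν ≤ R)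
    (hk1 : 1 ≤ k1) (hw : 0 ≤ w) (hCn : 0 ≤ Cn) (hd : d + 1 ≤ n)
    (hn1 : T + 2 * n + 1 ≤ e1 * n1) (hK : T + 4 * n + 2 ≤ 2 * K) :
    3 * ((ν * k1) ^ (d + 1)) ^ 2 * (81 * R) * w * (2 ^ n1 * ((R ^ e1) ^ n1)⁻¹) +
      3 * ((2 * ν * k1 * R) ^ (d + 1) * (Cn * ν * R ^ (-(K : ℝ)))) ^ 2 ≤
    (243 * k1 ^ (2 * n) * w * 2 ^ n1 + 3 * (2 * k1) ^ (2 * n) * Cn ^ 2) * R ^ (-T) := by
  have hR0 : 0 < R := by linarith
  have hν0 : 0 < ν := by linarith
  have h1 : ((ν * k1) ^ (d + 1)) ^ 2 ≤ k1 ^ (2 * n) * R ^ (2 * n) := by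
    rw [← pow_mul, ← mul_pow]
    have hb : 1 ≤ k1 * R := by nlinarith
    calc (ν * k1) ^ ((d + 1) * 2) ≤ (k1 * R) ^ ((d + 1) * 2) :=
          pow_le_pow_left₀ (by positivity) (by nlinarith) _
      _ ≤ (k1 * R) ^ (2 * n) := pow_le_pow_right₀ hb (by omega)
  have h2 : ((2 * ν * k1 * R) ^ (d + 1)) ^ 2 ≤ (2 * k1) ^ (2 * n) * R ^ (4 * n) := by
    have e : (2 * k1) ^ (2 * n) * R ^ (4 * n) = (2 * k1 * R ^ 2) ^ (2 * n) := by
      rw [mul_pow (2 * k1), ← pow_mul]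
      congr 2
      ring
    rw [← pow_mul, e]
    have hR2 : 1 ≤ R ^ 2 := one_le_pow₀ hR
    have hb : 1 ≤ 2 * k1 * R ^ 2 := by nlinarith
    calc (2 * ν * k1 * R) ^ ((d + 1) * 2) ≤ (2 * k1 * R ^ 2) ^ ((d + 1) * 2) := by
          refine pow_le_pow_left₀ (by positivity) ?_ _
          calc 2 * ν * k1 * R ≤ 2 * R * k1 * R := by gcongr
            _ = _ := by ring
      _ ≤ _ := pow_le_pow_right₀ hb (by omega)
  have e1' : ((R ^ e1) ^ n1)⁻¹ = R ^ (-(e1 * n1)) := by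
    rw [← Real.rpow_natCast, ← Real.rpow_mul hR0.le, ← Real.rpow_neg hR0.le]
  have e2 : R ^ (2 * n) * R * R ^ (-(e1 * n1)) ≤ R ^ (-T) := by
    rw [← pow_succ, ← Real.rpow_natCast, ← Real.rpow_add hR0]
    refine Real.rpow_le_rpow_of_exponent_le hR ?_
    push_cast
    linarith
  have e3 : R ^ (4 * n) * (R * R ^ (-(K : ℝ))) ^ 2 ≤ R ^ (-T) := by
    have : (R * R ^ (-(K : ℝ))) ^ 2 = R ^ (2 - 2 * (K : ℝ)) := by
      nth_rewrite 1 [← Real.rpow_one R]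
      rw [← Real.rpow_add hR0, ← Real.rpow_natCast, ← Real.rpow_mul hR0.le]
      congr 1
      push_cast
      ring
    rw [this, ← Real.rpow_natCast, ← Real.rpow_add hR0]
    refine Real.rpow_le_rpow_of_exponent_le hR ?_
    push_cast
    linarith
  have p0 : 0 ≤ R ^ (-(K : ℝ)) := (Real.rpow_pos_of_pos hR0 _).le
  have p1 : 0 ≤ R ^ (-(e1 * n1)) := (Real.rpow_pos_of_pos hR0 _).le
  rw [e1', add_mul]
  refine add_le_add ?_ ?_
  · calc 3 * ((ν * k1) ^ (d + 1)) ^ 2 * (81 * R) * w * (2 ^ n1 * R ^ (-(e1 * n1)))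
        ≤ 3 * (k1 ^ (2 * n) * R ^ (2 * n)) * (81 * R) * w * (2 ^ n1 * R ^ (-(e1 * n1))) := by
          gcongr
      _ = 243 * k1 ^ (2 * n) * w * 2 ^ n1 * (R ^ (2 * n) * R * R ^ (-(e1 * n1))) := by ring
      _ ≤ _ := by gcongr
  · calc 3 * ((2 * ν * k1 * R) ^ (d + 1) * (Cn * ν * R ^ (-(K : ℝ)))) ^ 2
        = 3 * (((2 * ν * k1 * R) ^ (d + 1)) ^ 2 * (Cn * ν * R ^ (-(K : ℝ))) ^ 2) := by
          rw [mul_pow]
      _ ≤ 3 * (((2 * k1) ^ (2 * n) * R ^ (4 * n)) * (Cn * R * R ^ (-(K : ℝ))) ^ 2) := by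
          gcongr
      _ = 3 * (2 * k1) ^ (2 * n) * Cn ^ 2 * (R ^ (4 * n) * (R * R ^ (-(K : ℝ))) ^ 2) := by ring
      _ ≤ _ := by gcongr

theorem tail_all {R ν k1 w Cn T e1 h E C : ℝ} {n n1 d K : ℕ} (hR : 1 ≤ R) (hν : 1 ≤ ν)
    (hνR : ν ≤ R) (hk1 : 1 ≤ k1) (hw : 0 ≤ w) (hCn : 0 ≤ Cn) (hd : d + 1 ≤ n)
    (hn1 : T + 2 * n + 1 ≤ e1 * n1) (hK : T + 4 * n + 2 ≤ 2 * K) (hh : h ≤ R)
    (hE : 0 ≤ E)
    (hC : 243 * k1 ^ (2 * n) * w * 2 ^ n1 + 3 * (2 * k1) ^ (2 * n) * Cn ^ 2 ≤ C) :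
    3 * ((ν * k1) ^ (d + 1)) ^ 2 * (81 * h) * w * (2 ^ n1 * ((R ^ e1) ^ n1)⁻¹) * E +
      3 * ((2 * ν * k1 * R) ^ (d + 1) * (Cn * ν * R ^ (-(K : ℝ)) * √E)) ^ 2 ≤
    C * R ^ (-T) * E := by
  have hR0 : 0 < R := by linarith
  have ht := tail_scal (e1 := e1) (T := T) hR hν hνR hk1 hw hCn hd hn1 hK
  have h6 : 0 ≤ R ^ (-T) := (Real.rpow_pos_of_pos hR0 _).le
  have hs := Real.sq_sqrt hE
  have hY : 0 ≤ ((R ^ e1) ^ n1)⁻¹ :=
    inv_nonneg.2 (pow_nonneg (Real.rpow_pos_of_pos hR0 e1).le _)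
  have e2 : ((2 * ν * k1 * R) ^ (d + 1) * (Cn * ν * R ^ (-(K : ℝ)) * √E)) ^ 2 =
      ((2 * ν * k1 * R) ^ (d + 1) * (Cn * ν * R ^ (-(K : ℝ)))) ^ 2 * E := by
    calc _ = ((2 * ν * k1 * R) ^ (d + 1) * (Cn * ν * R ^ (-(K : ℝ)))) ^ 2 * √E ^ 2 := by
          ring
      _ = _ := by rw [hs]
  rw [e2]
  set X : ℝ := ((ν * k1) ^ (d + 1)) ^ 2 with hX
  set Z : ℝ := ((2 * ν * k1 * R) ^ (d + 1) * (Cn * ν * R ^ (-(K : ℝ)))) ^ 2 with hZ
  set Y : ℝ := ((R ^ e1) ^ n1)⁻¹ with hYd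
  have hX0 : 0 ≤ X := sq_nonneg _
  have h7 : 3 * X * (81 * h) * w * (2 ^ n1 * Y) * E ≤ 3 * X * (81 * R) * w * (2 ^ n1 * Y) * E := by
    have h8 : 3 * X * (81 * h) ≤ 3 * X * (81 * R) :=
      mul_le_mul_of_nonneg_left (by linarith) (by positivity)
    have h9 : 0 ≤ (2:ℝ) ^ n1 * Y := mul_nonneg (by positivity) hY
    exact mul_le_mul_of_nonneg_right (mul_le_mul_of_nonneg_right
      (mul_le_mul_of_nonneg_right h8 hw) h9) hE
  have h10 := mul_le_mul_of_nonneg_right ht hE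
  have h11 := mul_le_mul_of_nonneg_right (mul_le_mul_of_nonneg_right hC h6) hE
  calc 3 * X * (81 * h) * w * (2 ^ n1 * Y) * E + 3 * (Z * E)
      ≤ 3 * X * (81 * R) * w * (2 ^ n1 * Y) * E + 3 * (Z * E) := add_le_add h7 le_rfl
    _ = (3 * X * (81 * R) * w * (2 ^ n1 * Y) + 3 * Z) * E := by ring
    _ ≤ _ := h10
    _ ≤ _ := h11

theorem enn_main {x w : ℝ} (hx : 0 ≤ x) :
    3 * ENNReal.ofReal x ^ 2 * ENNReal.ofReal w = ENNReal.ofReal (3 * x ^ 2 * w) := by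
  rw [show (3 : ℝ≥0∞) = ENNReal.ofReal 3 by norm_num, ← ENNReal.ofReal_pow hx,
    ← ENNReal.ofReal_mul (by positivity), ← ENNReal.ofReal_mul (by positivity)]

theorem enn_tail {x y w v E t : ℝ} (hx : 0 ≤ x) (hy : 0 ≤ y) (hw : 0 ≤ w) (hv : 0 ≤ v)
    (hE : 0 ≤ E) (ht : 0 ≤ t) :
    3 * ENNReal.ofReal x ^ 2 * ENNReal.ofReal y * ENNReal.ofReal w * ENNReal.ofReal v *
      ENNReal.ofReal E + 3 * ENNReal.ofReal t ^ 2 =
      ENNReal.ofReal (3 * x ^ 2 * y * w * v * E + 3 * t ^ 2) := by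
  rw [show (3 : ℝ≥0∞) = ENNReal.ofReal 3 by norm_num, ← ENNReal.ofReal_pow hx,
    ← ENNReal.ofReal_pow ht]
  have h3 : (0:ℝ) ≤ 3 := by norm_num
  have h1 : 0 ≤ 3 * x ^ 2 := by positivity
  have h2 : 0 ≤ 3 * x ^ 2 * y := by positivity
  have h4 : 0 ≤ 3 * x ^ 2 * y * w := by positivity
  have h5 : 0 ≤ 3 * x ^ 2 * y * w * v := by positivity
  have h6 : 0 ≤ 3 * x ^ 2 * y * w * v * E := by positivity
  have h7 : 0 ≤ 3 * t ^ 2 := by positivity
  rw [ENNReal.ofReal_add h6 h7, ENNReal.ofReal_mul h5, ENNReal.ofReal_mul h4,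
    ENNReal.ofReal_mul h2, ENNReal.ofReal_mul h1, ENNReal.ofReal_mul h3, ENNReal.ofReal_mul h3]

/-- **(U) along the path.** -/
theorem U_of (n n0 : ℕ) {a A e1 : ℝ} (T : ℝ) (ha : 1 ≤ a) (hA : 1 ≤ A) (he : 0 < e1) :
    ∃ K1 : ℕ, ∀ K : ℕ, K1 ≤ K → ∀ A' Cn : ℝ, 0 ≤ A' → 0 ≤ Cn → ∃ C : ℝ, 1 ≤ C ∧
    ∀ (M κ q b M0 η0 : ℝ) (C0 : E2) (σ : ℝ) (g : E3 → ℂ) (R D : ℝ), b ≤ 2 →
      Ss M κ q a b M0 η0 C0 σ g R D → Kp a R κ → ∀ dl ν : ℝ, 0 < dl → C * dl ≤ 1 → 1 ≤ ν → ν ≤ R →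
      ∀ L : ℕ → Lev, Tow M κ q A A' a b Cn K η0 C0 σ g R dl ν n L →
      ∀ i j : ℕ, i < j → j ≤ n → κ * tht R dl j ≤ tht R dl i → ∀ k < (L j).n,
        Uat n0 κ g R dl (R ^ e1) L j i k (C * ν ^ (2 * n))
          (ENNReal.ofReal (C * R ^ (-T) * Enc g)) := by
  set n1 : ℕ := max n0 ⌈(T + 2 * n + 1) / e1⌉₊ with hn1
  have hn01 : n0 ≤ n1 := le_max_left _ _
  have hn1e : T + 2 * n + 1 ≤ e1 * n1 := by
    have h1 : (T + 2 * n + 1) / e1 ≤ n1 :=
      (Nat.le_ceil _).trans (Nat.cast_le.2 (le_max_right _ _))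
    rw [div_le_iff₀ he] at h1
    linarith
  refine ⟨⌈T⌉₊ + 2 * n + 1, fun K hK A' Cn hA' hCn => ?_⟩
  have hKT : T + 4 * n + 2 ≤ 2 * K := by
    have h1 : T ≤ ⌈T⌉₊ := Nat.le_ceil T
    have h2 : ((⌈T⌉₊ + 2 * n + 1 : ℕ) : ℝ) ≤ K := by exact_mod_cast hK
    push_cast at h2
    have h3 : (0:ℝ) ≤ ⌈T⌉₊ := Nat.cast_nonneg _
    linarith
  obtain ⟨k1, hk1, hch⟩ := chain ha (n1 + 4)
  set w : ℝ := W0.toReal with hw
  have hw0 : 0 ≤ w := ENNReal.toReal_nonneg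
  have hW : W0 = ENNReal.ofReal w := (ENNReal.ofReal_toReal W0_lt.ne).symm
  set c1 : ℝ := 243 * k1 ^ (2 * n) * w * 2 ^ n1 + 3 * (2 * k1) ^ (2 * n) * Cn ^ 2 with hc1
  have hc10 : 0 ≤ c1 := by positivity
  set C : ℝ := 16 + A' + 3 * k1 ^ (2 * n) * w + c1 with hC
  have hC2 : 0 ≤ 3 * k1 ^ (2 * n) * w := by positivity
  refine ⟨C, by linarith, ?_⟩
  intro M κ q b M0 η0 C0 σ g R D hb hSs hKp dl ν hdl hCdl hν hνR L hT i j hij hjn hst k hk
  have hR1 : 1 ≤ R := hSs.R1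
  have hR0 : 0 < R := by linarith
  have hκ := hKp.k0
  have hκ1 : κ ≤ 1 := by linarith [hKp.k4]
  have ha0 : 0 < a := by linarith
  have hκa : κ ≤ (4 * (2 * a))⁻¹ := by
    rw [le_inv_comm₀ hκ (by positivity), inv_eq_one_div, le_div_iff₀ hκ]
    linarith [hKp.ka]
  have h16 : 16 * dl ≤ 1 := by nlinarith
  have hdA : A' * dl ≤ 1 := by nlinarith
  have hn1' : 1 ≤ n := by omega
  have hdR : dl⁻¹ ≤ R := by
    have h1 := (hT.ok 1 hn1').lo
    rw [hT.rad 1 hn1', pow_one] at h1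
    have h2 : 1 ≤ R ^ (1/2 : ℝ) := Real.one_le_rpow hR1 (by norm_num)
    rw [inv_le_iff_one_le_mul₀ hdl]
    linarith
  have hri : 1 ≤ R * dl ^ i := by
    have h1 := Dch229.one_le_r (hT.ok i (by omega)) hR1
    rwa [hT.rad i (by omega)] at h1
  have hdl1 : dl ≤ 1 := by linarith
  intro z hz p hp m y hy
  have hysl : y ∈ (L j).sl z k m := Dch229.mem_sl.2 ⟨p, hp, hy⟩
  by_cases hg0 : ∀ ζ, g ζ = 0
  · rw [umc_trc_zero hg0]
    simp
  push Not at hg0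
  obtain ⟨ξ, hξ⟩ := hg0
  have hη := Bas367.eta_lower (fun ζ h => (hSs.supp ζ h).1) hSs.slc hξ
  have hη' := Bas367.eta_upper (fun ζ h => (hSs.supp ζ h).2.1) hSs.slc hξ
  have hη1 : (2 * a)⁻¹ ≤ η0 := by
    have e4 : (2 * a)⁻¹ = a⁻¹ / 2 := by rw [mul_inv]; ring
    have h8 : κ ≤ a⁻¹ / 2 := by
      rw [inv_eq_one_div, div_div, le_div_iff₀ (by positivity)]
      have := hKp.ka
      nlinarith
    rw [e4]
    linarith
  have hη2 : η0 ≤ 2 * a := by linarith [hKp.k4]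
  have hgd := Ba449.St.gd ha hb hSs.toSt
  obtain ⟨d, rfl⟩ : ∃ d, j = i + 1 + d := ⟨j - (i + 1), by omega⟩
  have hpath := path_pz hT (i := i) hjn hz hk
  have hv := hch hκ hκ1 hκa hη1 hη2 hA hCn hgd.int hR1 hdl h16 hdA hdR hν hT hjn hst hpath d le_rfl
    m y (by
      change y ∈ (L (i + 1 + d)).sl (pz L (i + 1 + d) (i + 1 + d) z)
        (anc L (i + 1 + d) (i + 1 + d) k) m
      rw [pz_self, anc_self]
      exact hysl)
  rw [pz_self] at hv
  have hS : ∀ m ∈ caps (tht R dl i), MeasurableSet ((L i).sl (pz L (i + 1 + d) i z)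
      (anc L (i + 1 + d) i k) m) := fun m _ =>
    Dch229.sl_meas (hT.ok i (by omega)) (hpath.mem i le_rfl (by omega))
      (hpath.lab i le_rfl (by omega)) m
  have hu := usq (n0 := n0) hn01 (tht_pos hR0 hdl i) (tht_le_one hri) hκ hκ1
    (Real.rpow_pos_of_pos hR0 e1) (hgd.trc (pz L (i + 1 + d) i z)) hS
    (z - pz L (i + 1 + d) i z) y m (c := cntU κ R dl (R ^ e1) L (i + 1 + d) i z
      (anc L (i + 1 + d) i k) m y) rfl hv
  rw [Ba449.Enc_trc] at hu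
  have hE : 0 ≤ Enc g := Ba449.Enc_nonneg g
  have hν0 : 0 < ν := by linarith
  have hk10 : 0 < k1 := by linarith
  set θ : ℝ := Cn * ν * R ^ (-(K : ℝ)) * √(Enc g) with hθ
  have hθ0 : 0 ≤ θ := by
    have h6 : 0 ≤ R ^ (-(K : ℝ)) := (Real.rpow_pos_of_pos hR0 _).le
    positivity
  refine hu.trans (add_le_add ?_ ?_)
  · refine mul_le_mul' (mul_le_mul' ?_ le_rfl) le_rfl
    rw [hW, enn_main (by positivity)]
    refine ENNReal.ofReal_le_ofReal ?_
    have h1 : ((ν * k1) ^ (d + 1)) ^ 2 ≤ ν ^ (2 * n) * k1 ^ (2 * n) := by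
      rw [← pow_mul, ← mul_pow]
      exact pow_le_pow_right₀ (by nlinarith) (by omega)
    calc 3 * ((ν * k1) ^ (d + 1)) ^ 2 * w ≤ 3 * (ν ^ (2 * n) * k1 ^ (2 * n)) * w := by gcongr
      _ = (3 * k1 ^ (2 * n) * w) * ν ^ (2 * n) := by ring
      _ ≤ C * ν ^ (2 * n) := by
          gcongr
          rw [hC]
          linarith
  · have hY : 0 < R ^ e1 := Real.rpow_pos_of_pos hR0 e1
    have hinv : (tht R dl i)⁻¹ ^ 2 ≤ R := by
      rw [tht_inv hR0 hdl, TuS363.sqrt_sq hR0 hdl]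
      calc R * dl ^ i ≤ R * 1 := by gcongr; exact pow_le_one₀ hdl.le hdl1
        _ = R := mul_one R
    have hinv0 : 0 ≤ (tht R dl i)⁻¹ ^ 2 := by positivity
    have p1 : 0 ≤ (ν * k1) ^ (d + 1) := by positivity
    have p2 : 0 ≤ 81 * (tht R dl i)⁻¹ ^ 2 := by positivity
    have p3 : 0 ≤ 2 ^ n1 * ((R ^ e1) ^ n1)⁻¹ := by positivity
    have p4 : 0 ≤ (2 * ν * k1 * R) ^ (d + 1) * θ := by positivity
    rw [hW, enn_tail p1 p2 hw0 p3 hE p4]
    refine ENNReal.ofReal_le_ofReal ?_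
    exact tail_all hR1 hν hνR hk1 hw0 hCn (by omega : d + 1 ≤ n) hn1e hKT hinv hE (by
      rw [hC]; linarith)

/-- **USRC** (373's literal). -/
theorem usrc (M q : ℝ) : TuZ373.USRC M q := by
  intro n
  refine ⟨2 * n, ?_⟩
  intro Lw n0 a b A e1 M0 T hrg hn0
  obtain ⟨K1, h⟩ := U_of n n0 T hrg.a1 hrg.A1 hrg.e0
  refine ⟨K1, fun K hK A' Cn hA' hCn => ?_⟩
  obtain ⟨C, hC, h2⟩ := h K hK A' Cn (by linarith) (by linarith)
  refine ⟨C, hC, ?_⟩
  intro κ η0 C0 σ g R D hSs hKp _ dl ν hdl hCdl hκ hν hνR L hT i j k hij hjn hjw hk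
  have hR0 : 0 < R := by linarith [hSs.R1]
  refine h2 M κ q b M0 η0 C0 σ g R D hrg.b2.le hSs hKp dl ν hdl hCdl hν hνR L hT i j hij hjn ?_ k hk
  exact TuS363.kap_tht hR0 hdl (by nlinarith) hκ hij.le hjw

end Crest.Agent.R116.DcU894
end

-- ▼ part R116/Dch4_229
section

/-!
# R116 (S0155), wave side: DOM-CHAIN, energy form (helper229), part 1: one step

`E_one`: weighted energy of the coefficients of the root on the selection of a label of level
`l + 1`, by the weighted energy on the selection of the parent label of level `l`.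
-/

set_option autoImplicit false

open MeasureTheory FourierTransform
open scoped ContDiff ENNReal

namespace Crest.Agent.R116.Dch229

open Crest.Agent.R138.Defs (E2 ee)
open Crest.Agent.R138.Wpk685 (cen caps cap win)
open Crest.Agent.R138.Loc878 (Near nearL mem_nearL)
open Crest.Agent.R116.CDef480 Crest.Agent.R116.WC188 Crest.Agent.R116.GlC210
open Crest.Agent.R116.A1k229 (Nice nice_of_St)
open Crest.Agent.R116.CWp480 (SV)
open Crest.Agent.R116.CWc480 (Pl Pl_apply)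
open Crest.Agent.R116.Ckm538 Crest.Agent.R116.Cad538

theorem Pl_eq {ρ κ : ℝ} (hρ : 0 < ρ) (hκ : 0 < κ) (C : E2) (x : E3) :
    Pl ρ κ hρ hκ C x = frc ρ κ C x := by
  rw [Pl_apply, frc_apply, nrm_zero]

/-- integral of a dominated coefficient. -/
theorem lint_dom {S : Set E3} (hS : MeasurableSet S) {w : E3 → ℝ} (hw1 : ∀ x, w x ≤ 1)
    (hwm : Measurable w) {u v : E3 → ℂ} (hv : Measurable fun y => ‖v y‖ₑ ^ 2) {n ϑ : ℝ}
    (h : ∀ y ∈ S, ‖u y‖ ≤ n * ‖v y‖ + ϑ) :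
    ∫⁻ y in S, ENNReal.ofReal (w y) * ‖u y‖ₑ ^ 2 ≤
      ENNReal.ofReal (2 * n ^ 2) * (∫⁻ y, ENNReal.ofReal (w y) * ‖v y‖ₑ ^ 2) +
        ENNReal.ofReal (2 * ϑ ^ 2) * volume S := by
  have e : ∀ z : ℂ, ‖z‖ₑ ^ 2 = ENNReal.ofReal (‖z‖ ^ 2) := fun z => by
    rw [ENNReal.ofReal_pow (norm_nonneg _), ofReal_norm]
  have h1 : ∀ y ∈ S, ENNReal.ofReal (w y) * ‖u y‖ₑ ^ 2 ≤
      ENNReal.ofReal (2 * n ^ 2) * (ENNReal.ofReal (w y) * ‖v y‖ₑ ^ 2) +
        ENNReal.ofReal (2 * ϑ ^ 2) := by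
    intro y hy
    have h2 : ‖u y‖ₑ ^ 2 ≤ ENNReal.ofReal (2 * n ^ 2) * ‖v y‖ₑ ^ 2 +
        ENNReal.ofReal (2 * ϑ ^ 2) := by
      rw [e, e, ← ENNReal.ofReal_mul (by positivity), ← ENNReal.ofReal_add (by positivity)
        (by positivity)]
      refine ENNReal.ofReal_le_ofReal ?_
      have h3 := h y hy
      have h4 : ‖u y‖ ^ 2 ≤ (n * ‖v y‖ + ϑ) ^ 2 := pow_le_pow_left₀ (norm_nonneg _) h3 2
      nlinarith [sq_nonneg (n * ‖v y‖ - ϑ)]
    have h5 : ENNReal.ofReal (w y) ≤ 1 := by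
      rw [← ENNReal.ofReal_one]
      exact ENNReal.ofReal_le_ofReal (hw1 y)
    calc ENNReal.ofReal (w y) * ‖u y‖ₑ ^ 2 ≤ ENNReal.ofReal (w y) *
          (ENNReal.ofReal (2 * n ^ 2) * ‖v y‖ₑ ^ 2 + ENNReal.ofReal (2 * ϑ ^ 2)) := by gcongr
      _ = ENNReal.ofReal (2 * n ^ 2) * (ENNReal.ofReal (w y) * ‖v y‖ₑ ^ 2) +
          ENNReal.ofReal (w y) * ENNReal.ofReal (2 * ϑ ^ 2) := by ring
      _ ≤ ENNReal.ofReal (2 * n ^ 2) * (ENNReal.ofReal (w y) * ‖v y‖ₑ ^ 2) +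
          1 * ENNReal.ofReal (2 * ϑ ^ 2) := by gcongr
      _ = _ := by rw [one_mul]
  have hm : Measurable fun y => ENNReal.ofReal (2 * n ^ 2) *
      (ENNReal.ofReal (w y) * ‖v y‖ₑ ^ 2) := (hwm.ennreal_ofReal.mul hv).const_mul _
  refine (setLIntegral_mono' hS h1).trans ?_
  rw [lintegral_add_left hm, setLIntegral_const]
  refine add_le_add ?_ le_rfl
  rw [lintegral_const_mul' _ _ ENNReal.ofReal_ne_top]
  exact mul_le_mul' le_rfl (setLIntegral_le_lintegral _ _)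

/-- the setting of the chain. -/
structure Stg (M κ q A A' a b Cn : ℝ) (K : ℕ) (M0 η0 : ℝ) (C0 : E2) (σ : ℝ) (g : E3 → ℂ)
    (R D dl ν : ℝ) (n : ℕ) (L : ℕ → Lev) : Prop where
  ss : Ss M κ q a b M0 η0 C0 σ g R D
  tow : Tow M κ q A A' a b Cn K η0 C0 σ g R dl ν n L
  k0 : 0 < κ
  k8 : 8 * a * κ ≤ 1
  a1 : 1 ≤ a
  A1 : 1 ≤ A
  Cn0 : 0 ≤ Cn
  A'1 : 1 ≤ A'
  d0 : 0 < dl
  d16 : 16 * dl ≤ 1
  dA : A' * dl ≤ 1
  ν1 : 1 ≤ ν

section stg

variable {M κ q A A' a b Cn : ℝ} {K : ℕ} {M0 η0 : ℝ} {C0 : E2} {σ : ℝ} {g : E3 → ℂ}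
    {R D dl ν : ℝ} {n : ℕ} {L : ℕ → Lev}

theorem Stg.R1 (h : Stg M κ q A A' a b Cn K M0 η0 C0 σ g R D dl ν n L) : 1 ≤ R := h.ss.R1

theorem Stg.d1 (h : Stg M κ q A A' a b Cn K M0 η0 C0 σ g R D dl ν n L) : dl ≤ 1 := by
  have := h.d16
  have := h.d0
  linarith

theorem Stg.r1 (h : Stg M κ q A A' a b Cn K M0 η0 C0 σ g R D dl ν n L) {t : ℕ} (ht : t ≤ n) :
    1 ≤ (L t).r := rad_pos h.tow h.R1 ht

theorem Stg.th0 (h : Stg M κ q A A' a b Cn K M0 η0 C0 σ g R D dl ν n L) {t : ℕ} (ht : t ≤ n) :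
    0 < (L t).r ^ (-(1/2) : ℝ) := Real.rpow_pos_of_pos (by linarith [h.r1 ht]) _

theorem Stg.th1 (h : Stg M κ q A A' a b Cn K M0 η0 C0 σ g R D dl ν n L) {t : ℕ} (ht : t ≤ n) :
    (L t).r ^ (-(1/2) : ℝ) ≤ 1 := Real.rpow_le_one_of_one_le_of_nonpos (h.r1 ht) (by norm_num)

theorem th_sq {r : ℝ} (hr : 0 < r) : (r ^ (-(1/2) : ℝ)) ^ 2 = r⁻¹ := by
  rw [← Real.rpow_natCast, ← Real.rpow_mul hr.le]
  norm_num
  exact Real.rpow_neg_one r

theorem r_th {r : ℝ} (hr : 0 < r) : r * (r ^ (-(1/2) : ℝ)) ^ 2 = 1 := by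
  rw [th_sq hr]
  field_simp

/-- consecutive cap sizes. -/
theorem Stg.th4 (h : Stg M κ q A A' a b Cn K M0 η0 C0 σ g R D dl ν n L) {t : ℕ} (ht : t < n) :
    4 * (L t).r ^ (-(1/2) : ℝ) ≤ (L (t + 1)).r ^ (-(1/2) : ℝ) := by
  have h1 := h.r1 ht.le
  have hd := h.d0
  rw [rad_succ h.tow ht, Real.mul_rpow hd.le (by linarith)]
  refine mul_le_mul_of_nonneg_right ?_ (h.th0 ht.le).le
  have h2 : dl ≤ (1/16 : ℝ) := by linarith [h.d16]
  calc (4 : ℝ) = (1/16 : ℝ) ^ (-(1/2) : ℝ) := by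
        rw [show (1/16 : ℝ) = 4 ^ (-(2:ℝ)) by rw [Real.rpow_neg (by norm_num)]; norm_num,
          ← Real.rpow_mul (by norm_num)]
        norm_num
    _ ≤ dl ^ (-(1/2) : ℝ) := Real.rpow_le_rpow_of_nonpos hd h2 (by norm_num)

theorem Stg.th_mono (h : Stg M κ q A A' a b Cn K M0 η0 C0 σ g R D dl ν n L) {s t : ℕ} (hst : s ≤ t)
    (ht : t ≤ n) : (L s).r ^ (-(1/2) : ℝ) ≤ (L t).r ^ (-(1/2) : ℝ) := by
  induction t with
  | zero => rw [Nat.le_zero.1 hst]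
  | succ t ih =>
    rcases Nat.lt_or_ge s (t + 1) with h1 | h1
    · have h2 := ih (by omega) (by omega)
      have h3 := h.th4 (t := t) (by omega)
      have h4 := h.th0 (t := t) (by omega)
      linarith
    · rw [le_antisymm hst h1]

/-- **one step of the weighted energy inequality.** -/
theorem E_one {a : ℝ} (ha : 1 ≤ a) (nw : ℕ) {L0 : ℝ} (hL0 : 1 ≤ L0) : ∃ Cst : ℝ, 1 ≤ Cst ∧
    ∀ {M κ q A A' b Cn : ℝ} {K : ℕ} {M0 η0 : ℝ} {C0 : E2} {σ : ℝ} {g : E3 → ℂ}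
      {R D dl ν : ℝ} {n : ℕ} {L : ℕ → Lev} (_ : Stg M κ q A A' a b Cn K M0 η0 C0 σ g R D dl ν n L)
      {i j : ℕ} (_ : j ≤ n) {zs : ℕ → E3 × ℝ} {ks : ℕ → ℕ} (_ : Path L i j zs ks)
      {l : ℕ} (_ : i ≤ l) (_ : l < j) {Am : E3 ≃L[ℝ] E3} {K0 : ℝ} {w : E3 → ℝ}
      (_ : SV Am K0 nw w) (_ : ∀ x, w x ≤ 1) {m' : ℤ × ℤ}
      (_ : ∀ m ∈ nearL ((L l).r ^ (-(1/2) : ℝ)) ((L (l + 1)).r ^ (-(1/2) : ℝ)) m', ∀ x,
        ‖Am x‖ ≤ L0 * ‖frc ((L l).r ^ (-(1/2) : ℝ)) κ (cen ((L l).r ^ (-(1/2) : ℝ)) m) x‖),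
    ∫⁻ y in (L (l + 1)).sl (zs (l + 1)) (ks (l + 1)) m', ENNReal.ofReal (w y) *
        ‖umc ((L (l + 1)).r ^ (-(1/2) : ℝ)) (trc (zs (l + 1)) g) m' y‖ₑ ^ 2 ≤
      ENNReal.ofReal (Cst * K0 ^ 5 * ν ^ 2) *
        (∑ m ∈ nearL ((L l).r ^ (-(1/2) : ℝ)) ((L (l + 1)).r ^ (-(1/2) : ℝ)) m',
          ∫⁻ x in (L l).sl (zs l) (ks l) m, ENNReal.ofReal (w (x - (zs (l + 1) - zs l).1 -
            (zs (l + 1) - zs l).2 • vel (cen ((L l).r ^ (-(1/2) : ℝ)) m))) *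
            ‖umc ((L l).r ^ (-(1/2) : ℝ)) (trc (zs l) g) m x‖ₑ ^ 2) +
      ENNReal.ofReal (2 * (Cn * ν * R ^ (-(K : ℝ)) * Real.sqrt (Enc g)) ^ 2 * (A' * R) ^ 3) *
        volume (Metric.ball (0 : E3) 1) := by
  obtain ⟨C1, hC1, hf⟩ := Crest.Agent.R116.F1c124.f2_sel (a := 2 * a) (by linarith) nw 1 hL0
  refine ⟨2 * C1 + 1, by linarith, ?_⟩
  intro M κ q A A' b Cn K M0 η0 C0 σ g R D dl ν n L h i j hj zs ks hp l h1 h2 Am K0 w hw hw1 m' hm'
  have hK0 := hw.one_le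
  have hl : l < n := h2.trans_le hj
  by_cases h0 : ∀ ζ, g ζ = 0
  · have h3 : ∀ ζ, trc (zs (l + 1)) g ζ = 0 := fun ζ => by unfold trc; rw [h0, zero_mul]
    simp [CWd480.umc_zero h3]
  · push Not at h0
    obtain ⟨ζ, hζ⟩ := h0
    obtain ⟨s1, s2, -, -⟩ := h.ss.supp ζ hζ
    obtain ⟨c1, c2⟩ := CWd480.ctr_range ha h.k8 h.ss.slc hζ s1 s2
    obtain ⟨c3, -⟩ := CWd480.kap_range ha h.k8
    have hA'0 : 0 < A' := by linarith [h.A'1]
    have hR := h.R1
    have hR0 : 0 < R := by linarith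
    have hthl := h.th0 hl.le
    have hthl1 := h.th0 (t := l + 1) hl
    have hok := h.tow.ok l hl.le
    have hok1 := h.tow.ok (l + 1) hl
    have hzl := hp.mem l h1 h2.le
    have hkl := hp.lab l h1 h2.le
    have hzl1 := hp.mem (l + 1) (by omega) h2
    have hkl1 := hp.lab (l + 1) (by omega) h2
    set ρ : ℝ := (L l).r ^ (-(1/2) : ℝ) with hρ
    set ρ' : ℝ := (L (l + 1)).r ^ (-(1/2) : ℝ) with hρ'
    have hρρ : ρ ≤ ρ' := h.th_mono (Nat.le_succ l) hl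
    have hgi : Integrable (trc (zs l) g) :=
      ((nice_of_St h.ss.toSt).trc _).int (by linarith)
    have hnear := path_near h.tow hj hp h1 h2
    have hz2 : |(zs (l + 1) - zs l).2| * ρ ^ 2 ≤ 1 := by
      have e1 := r_th (r := (L l).r) (by linarith [h.r1 hl.le])
      calc |(zs (l + 1) - zs l).2| * ρ ^ 2 ≤ (L l).r * ρ ^ 2 := by
            gcongr
            exact hnear.2
        _ = 1 := e1
    have hfs := hf ρ ρ' κ η0 hthl hρρ h.k0 c1 c2 c3 Am K0 w hw m'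
      (fun m hm x => by rw [Pl_eq]; exact hm' m hm x) (zs (l + 1) - zs l) hz2 (trc (zs l) g)
      ((L l).sl (zs l) (ks l)) hgi (fun m _ => sl_meas hok hzl hkl m)
      (fun m _ => sl_bdd hok hzl hkl m)
    set sw : E3 → ℂ := selc η0 κ ρ (trc (zs l) g) ((L l).sl (zs l) (ks l)) with hsw
    have hswi : Integrable (trc (zs (l + 1) - zs l) sw) := by
      obtain ⟨cls, hd⟩ := hok.dec _ hzl
      have e2 : sw = (L l).G (zs l) (ks l) := (hd.eq (ks l) (Finset.mem_range.2 hkl)).symm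
      rw [e2]
      exact ((nice_of_St (hd.st _ (Finset.mem_range.2 hkl))).trc _).int (by linarith)
    have hdom := lint_dom (S := (L (l + 1)).sl (zs (l + 1)) (ks (l + 1)) m')
      (sl_meas hok1 hzl1 hkl1 m') hw1 hw.meas
      (u := umc ρ' (trc (zs (l + 1)) g) m') (v := umc ρ' (trc (zs (l + 1) - zs l) sw) m')
      (A1k229.umc_meas hswi m') (n := (L l).n)
      (ϑ := Cn * (L l).nb * R ^ (-(K : ℝ)) * Real.sqrt (Enc g))
      (fun y hy => dom_path h.tow (by linarith) h.A1 hR h.d1 h.dA hj hp h1 h2 hy)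
    have hn : ((L l).n : ℝ) ≤ ν := (h.tow.le l hl.le).1
    have hnb : ((L l).nb : ℝ) ≤ ν := (h.tow.le l hl.le).2
    refine hdom.trans (add_le_add ?_ ?_)
    · refine (mul_le_mul' le_rfl hfs).trans ?_
      rw [← mul_assoc, ← ENNReal.ofReal_mul (by positivity)]
      refine mul_le_mul' (ENNReal.ofReal_le_ofReal ?_) le_rfl
      calc 2 * ((L l).n : ℝ) ^ 2 * (C1 * K0 ^ 5) ≤ 2 * ν ^ 2 * (C1 * K0 ^ 5) := by gcongr
        _ = (2 * C1) * (K0 ^ 5 * ν ^ 2) := by ring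
        _ ≤ (2 * C1 + 1) * (K0 ^ 5 * ν ^ 2) := by
            gcongr
            linarith
        _ = _ := by ring
    · have hvol : volume ((L (l + 1)).sl (zs (l + 1)) (ks (l + 1)) m') ≤
          ENNReal.ofReal ((A' * R) ^ 3) * volume (Metric.ball (0 : E3) 1) := by
        refine (measure_mono (sl_sub hok1 hzl1 hkl1 m')).trans ?_
        have hr1 := h.r1 (t := l + 1) hl
        rw [Measure.addHaar_closedBall _ _ (by positivity)]
        have e3 : Module.finrank ℝ E3 = 3 := by simp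
        rw [e3]
        gcongr
        exact hok1.hi
      refine (mul_le_mul' le_rfl hvol).trans ?_
      rw [← mul_assoc, ← ENNReal.ofReal_mul (by positivity)]
      refine mul_le_mul' (ENNReal.ofReal_le_ofReal ?_) le_rfl
      have hCn := h.Cn0
      gcongr

end stg

end Crest.Agent.R116.Dch229
end

-- ▼ part R116/Dch5_229
section

/-!
# R116 (S0155), wave side: DOM-CHAIN, energy form (helper229), part 2: composition

`E_chain`: weighted energy of the coefficients of the root on the selection of a label of level `j`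
by the weighted energy on the selection of its ancestor of level `i`.
-/

set_option autoImplicit false

open MeasureTheory FourierTransform
open scoped ContDiff ENNReal

namespace Crest.Agent.R116.Dch229

open Crest.Agent.R138.Defs (E2 ee)
open Crest.Agent.R138.Wpk685 (cen caps cap win)
open Crest.Agent.R138.Loc878 (Near nearL mem_nearL)
open Crest.Agent.R116.CDef480 Crest.Agent.R116.WC188 Crest.Agent.R116.GlC210
open Crest.Agent.R116.CWp480 (SV)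
open Crest.Agent.R116.Ckm538 Crest.Agent.R116.Cad538
open Crest.Agent.R116.TuG373 (pn pn_vel)

theorem frc_mono {th th' kp : ℝ} (h0 : 0 ≤ th) (h : th ≤ th') (C : E2) (x : E3) :
    ‖frc th kp C x‖ ≤ ‖frc th' kp C x‖ := by
  have h1 : ‖frc th kp C x‖ ^ 2 ≤ ‖frc th' kp C x‖ ^ 2 := by
    rw [norm_frc_sq, norm_frc_sq]
    have h2 : (th * ‖lat x‖) ^ 2 ≤ (th' * ‖lat x‖) ^ 2 := by gcongr
    linarith
  exact le_of_sq_le_sq' h1 (norm_nonneg _)
where
  le_of_sq_le_sq' {x y : ℝ} (h : x ^ 2 ≤ y ^ 2) (hy : 0 ≤ y) : x ≤ y := by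
    by_contra hc
    push Not at hc
    nlinarith

open Classical in
/-- summation over the intermediate caps. -/
theorem sum_reach {ρ ρ1 ρ2 : ℝ} (h1 : 0 < ρ1) (h4 : 4 * ρ1 ≤ ρ2) (m2 : ℤ × ℤ)
    (F : ℤ × ℤ → ℝ≥0∞) :
    ∑ m1 ∈ nearL ρ1 ρ2 m2, ∑ m ∈ nearC ρ ρ1 m1, F m ≤ 64 * ∑ m ∈ nearC ρ ρ2 m2, F m := by
  have e1 : ∑ m1 ∈ nearL ρ1 ρ2 m2, ∑ m ∈ nearC ρ ρ1 m1, F m =
      ∑ m ∈ nearC ρ ρ2 m2, ∑ m1 ∈ (nearL ρ1 ρ2 m2).filter (fun m1 => m ∈ nearC ρ ρ1 m1), F m := by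
    refine Finset.sum_comm' fun m1 m => ?_
    simp only [Finset.mem_filter]
    constructor
    · rintro ⟨ha, hb⟩
      exact ⟨⟨ha, hb⟩, nearC_trans h4 ha hb⟩
    · rintro ⟨⟨ha, hb⟩, _⟩
      exact ⟨ha, hb⟩
  rw [e1, Finset.mul_sum]
  refine Finset.sum_le_sum fun m _ => ?_
  rw [Finset.sum_const, nsmul_eq_mul]
  refine mul_le_mul' ?_ le_rfl
  have := card_reach (ρ := ρ) h1 (nearL ρ1 ρ2 m2) m
  exact_mod_cast this

/-- displacement of two near directions during the time `r`. -/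
theorem disp_le {th th1 κ r t : ℝ} (h0 : 0 ≤ th) (h1 : th ≤ th1) (hκ : 0 ≤ κ) (hκ1 : κ ≤ 1)
    (hr : r * th1 ^ 2 = 1) (ht : |t| ≤ r) {C C' : E2} (hC : ‖C - C'‖ ≤ 4 * th1) :
    ‖frc th κ C (t • (vel C - vel C'))‖ ≤ 12 := by
  have h2 := norm_frc_le h0 hκ C (t • (vel C - vel C'))
  have h3 := pn_vel (th := th) (kp := κ) t C C'
  unfold pn at h3
  rw [h3] at h2
  refine h2.trans ?_
  have hn := norm_nonneg (C - C')
  have ht0 := abs_nonneg t
  have hr0 : 0 ≤ r := ht0.trans ht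
  have hth1 : 0 ≤ th1 := h0.trans h1
  have h4 : |t| * ‖C - C'‖ ≤ r * (4 * th1) := mul_le_mul ht hC hn hr0
  have h5 : th * (|t| * ‖C - C'‖) ≤ 4 := by
    calc th * (|t| * ‖C - C'‖) ≤ th1 * (r * (4 * th1)) := by gcongr
      _ = 4 * (r * th1 ^ 2) := by ring
      _ = 4 := by rw [hr, mul_one]
  have h6 : |t| * ‖C - C'‖ ^ 2 ≤ 16 := by
    calc |t| * ‖C - C'‖ ^ 2 ≤ r * (4 * th1) ^ 2 := by gcongr
      _ = 16 * (r * th1 ^ 2) := by ring
      _ = 16 := by rw [hr, mul_one]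
  have h7 : κ * (|t| * ‖C - C'‖ ^ 2 / 2) ≤ 8 := by
    have h8 : 0 ≤ |t| * ‖C - C'‖ ^ 2 / 2 := by positivity
    nlinarith
  linarith

/-- **composition of the weighted energy inequalities.** -/
theorem E_chain {a : ℝ} (ha : 1 ≤ a) (nw : ℕ) {L0 : ℝ} (hL0 : 1 ≤ L0) : ∃ C1 : ℝ, 1 ≤ C1 ∧
    ∀ {M κ q A A' b Cn : ℝ} {K : ℕ} {M0 η0 : ℝ} {C0 : E2} {σ : ℝ} {g : E3 → ℂ}
      {R D dl ν : ℝ} {n : ℕ} {L : ℕ → Lev} (_ : Stg M κ q A A' a b Cn K M0 η0 C0 σ g R D dl ν n L)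
      {i j : ℕ} (_ : j ≤ n) {zs : ℕ → E3 × ℝ} {ks : ℕ → ℕ} (_ : Path L i j zs ks)
      {Am : E3 ≃L[ℝ] E3} {K0 : ℝ} {Cs : E2} {D0 : ℝ}
      (_ : ∀ C, ‖C - Cs‖ ≤ D0 → ∀ x, ‖Am x‖ ≤ L0 * ‖frc ((L i).r ^ (-(1/2) : ℝ)) κ C x‖)
      {l : ℕ} (_ : i ≤ l) (_ : l ≤ j) {m' : ℤ × ℤ}
      (_ : ‖cen ((L l).r ^ (-(1/2) : ℝ)) m' - Cs‖ + 4 * (L l).r ^ (-(1/2) : ℝ) ≤ D0)
      {w : E3 → ℝ} (_ : SV Am K0 nw w) (_ : ∀ x, w x ≤ 1),
    ∫⁻ y in (L l).sl (zs l) (ks l) m', ENNReal.ofReal (w y) *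
        ‖umc ((L l).r ^ (-(1/2) : ℝ)) (trc (zs l) g) m' y‖ₑ ^ 2 ≤
      ENNReal.ofReal ((C1 * K0 ^ 5 * ν ^ 2 * (64 * (K0 * (1 + 12 * L0) ^ nw))) ^ (l - i)) *
        (∑ m ∈ nearC ((L i).r ^ (-(1/2) : ℝ)) ((L l).r ^ (-(1/2) : ℝ)) m',
          ∫⁻ x in (L i).sl (zs i) (ks i) m, ENNReal.ofReal (w (x - (zs l - zs i).1 -
            (zs l - zs i).2 • vel (cen ((L i).r ^ (-(1/2) : ℝ)) m))) *
            ‖umc ((L i).r ^ (-(1/2) : ℝ)) (trc (zs i) g) m x‖ₑ ^ 2) +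
      ENNReal.ofReal ((2 * (Cn * ν * R ^ (-(K : ℝ)) * Real.sqrt (Enc g)) ^ 2 * (A' * R) ^ 3) *
        (C1 * K0 ^ 5 * ν ^ 2 * (81 * R) + 1) ^ (l - i)) *
        volume (Metric.ball (0 : E3) 1) := by
  obtain ⟨C1, hC1, hone⟩ := E_one ha nw hL0
  refine ⟨C1, hC1, ?_⟩
  intro M κ q A A' b Cn K M0 η0 C0 σ g R D dl ν n L h i j hj zs ks hp Am K0 Cs D0 hAm l hil
  have hin : ∀ {l}, l ≤ j → l ≤ n := fun h' => h'.trans hj
  have hR := h.R1
  have hν := h.ν1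
  have hCn := h.Cn0
  have hA'0 : 0 < A' := by linarith [h.A'1]
  have hκ1 : κ ≤ 1 := (CWd480.kap_range ha h.k8).2
  induction l, hil using Nat.le_induction with
  | base =>
    intro hlj m' _ w hw hw1
    have hij : i ≤ n := hin hlj
    rw [Nat.sub_self, pow_zero, pow_zero, ENNReal.ofReal_one, one_mul]
    by_cases hm : m' ∈ caps ((L i).r ^ (-(1/2) : ℝ))
    · have hmC : m' ∈ nearC ((L i).r ^ (-(1/2) : ℝ)) ((L i).r ^ (-(1/2) : ℝ)) m' := by
        refine mem_nearC.2 ⟨hm, ?_⟩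
        rw [sub_self, norm_zero]
        linarith [h.th0 hij]
      refine le_add_right (le_trans (le_of_eq ?_) (Finset.single_le_sum (f := fun m =>
        ∫⁻ x in (L i).sl (zs i) (ks i) m, ENNReal.ofReal (w (x - (zs i - zs i).1 -
            (zs i - zs i).2 • vel (cen ((L i).r ^ (-(1/2) : ℝ)) m))) *
            ‖umc ((L i).r ^ (-(1/2) : ℝ)) (trc (zs i) g) m x‖ₑ ^ 2) (fun _ _ => zero_le) hmC))
      refine lintegral_congr fun x => ?_
      rw [sub_self, Prod.fst_zero, Prod.snd_zero, zero_smul, sub_zero, sub_zero]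
    · have he : (L i).sl (zs i) (ks i) m' = ∅ := by
        rw [Set.eq_empty_iff_forall_notMem]
        intro y hy
        exact hm (sl_cp (h.tow.ok i hij) (hp.mem i le_rfl hlj) (hp.lab i le_rfl hlj) hy)
      rw [he, Measure.restrict_empty, lintegral_zero_measure]
      exact zero_le
  | succ l hil ih =>
    intro hlj m' hD w hw hw1
    have hlj' : l < j := hlj
    have hln : l < n := hlj.trans hj
    have hK0 := hw.one_le
    set ρi : ℝ := (L i).r ^ (-(1/2) : ℝ) with hρi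
    set ρ : ℝ := (L l).r ^ (-(1/2) : ℝ) with hρ
    set ρ' : ℝ := (L (l + 1)).r ^ (-(1/2) : ℝ) with hρ'
    have hi0 : 0 < ρi := h.th0 ((hil.trans hlj'.le).trans hj)
    have hρ0 : 0 < ρ := h.th0 hln.le
    have hρ'0 : 0 < ρ' := h.th0 (t := l + 1) hln
    have hρiρ : ρi ≤ ρ := h.th_mono hil hln.le
    have h4 : 4 * ρ ≤ ρ' := h.th4 hln
    have hrl := h.r1 hln.le
    have hrth : (L l).r * ρ ^ 2 = 1 := r_th (by linarith)
    have hnearz := path_near h.tow hj hp hil hlj'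
    -- geometry of the near caps
    have hgeo : ∀ m ∈ nearL ρ ρ' m', ‖cen ρ m - Cs‖ + 4 * ρ ≤ D0 := by
      intro m hm
      have h5 := (mem_nearL.1 hm).2
      unfold Near at h5
      have e : cen ρ m - Cs = (cen ρ m - cen ρ' m') + (cen ρ' m' - Cs) := by abel
      have h6 := norm_add_le (cen ρ m - cen ρ' m') (cen ρ' m' - Cs)
      rw [← e] at h6
      linarith
    have hfr : ∀ m ∈ nearL ρ ρ' m', ∀ x, ‖Am x‖ ≤ L0 * ‖frc ρ κ (cen ρ m) x‖ := by
      intro m hm x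
      have h5 := hgeo m hm
      refine (hAm (cen ρ m) (by linarith) x).trans ?_
      gcongr
      exact frc_mono hi0.le hρiρ _ _
    have h1 := hone h hj hp hil hlj' hw hw1 hfr
    set U : ℤ × ℤ → E3 → ℝ≥0∞ := fun m x => ‖umc ρi (trc (zs i) g) m x‖ₑ ^ 2 with hU
    set F : ℤ × ℤ → ℝ≥0∞ := fun m => ∫⁻ x in (L i).sl (zs i) (ks i) m,
      ENNReal.ofReal (w (x - (zs (l + 1) - zs i).1 - (zs (l + 1) - zs i).2 •
        vel (cen ρi m))) * U m x with hF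
    set c : ℝ := 2 * (Cn * ν * R ^ (-(K : ℝ)) * Real.sqrt (Enc g)) ^ 2 * (A' * R) ^ 3 with hc
    have hc0 : 0 ≤ c := by positivity
    set B : ℝ := K0 * (1 + 12 * L0) ^ nw with hB
    have hB1 : 1 ≤ B := by
      have : 1 ≤ (1 + 12 * L0) ^ nw := one_le_pow₀ (by linarith)
      nlinarith
    set E : ℝ := C1 * K0 ^ 5 * ν ^ 2 with hE
    have hE1 : 1 ≤ E := by
      have e1 : 1 ≤ K0 ^ 5 := one_le_pow₀ hK0
      have e2 : 1 ≤ ν ^ 2 := one_le_pow₀ hν
      have e3 : 1 ≤ C1 * K0 ^ 5 := one_le_mul_of_one_le_of_one_le hC1 e1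
      exact one_le_mul_of_one_le_of_one_le e3 e2
    set V : ℝ≥0∞ := volume (Metric.ball (0 : E3) 1) with hV
    -- the induction hypothesis for every near cap
    have h2 : ∀ m ∈ nearL ρ ρ' m', ∫⁻ x in (L l).sl (zs l) (ks l) m,
        ENNReal.ofReal (w (x - (zs (l + 1) - zs l).1 - (zs (l + 1) - zs l).2 •
          vel (cen ρ m))) * ‖umc ρ (trc (zs l) g) m x‖ₑ ^ 2 ≤
        ENNReal.ofReal ((E * (64 * B)) ^ (l - i)) * (ENNReal.ofReal B *
          ∑ m2 ∈ nearC ρi ρ m, F m2) +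
        ENNReal.ofReal (c * (E * (81 * R) + 1) ^ (l - i)) * V := by
      intro m hm
      have hwm : SV Am K0 nw (fun x => w (x - (zs (l + 1) - zs l).1 -
          (zs (l + 1) - zs l).2 • vel (cen ρ m))) := by
        have := hw.comp_sub ((zs (l + 1) - zs l).1 + (zs (l + 1) - zs l).2 • vel (cen ρ m))
        convert this using 3
        abel
      have h3 := ih hlj'.le (hgeo m hm) hwm (fun x => hw1 _)
      refine h3.trans (add_le_add (mul_le_mul' le_rfl ?_) le_rfl)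
      rw [Finset.mul_sum]
      refine Finset.sum_le_sum fun m2 hm2 => ?_
      rw [hF, ← lintegral_const_mul' _ _ ENNReal.ofReal_ne_top]
      refine lintegral_mono fun x => ?_
      rw [← mul_assoc, ← ENNReal.ofReal_mul (by positivity)]
      refine mul_le_mul' (ENNReal.ofReal_le_ofReal ?_) le_rfl
      set C2 : E2 := cen ρi m2 with hC2
      have hd2 := (mem_nearC.1 hm2).2
      have hgm := hgeo m hm
      have hC2D : ‖C2 - Cs‖ ≤ D0 := by
        have e : C2 - Cs = (C2 - cen ρ m) + (cen ρ m - Cs) := by abel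
        rw [e]
        exact (norm_add_le _ _).trans (by linarith)
      have hs := hw.sv (x - (zs l - zs i).1 - (zs l - zs i).2 • vel C2 -
        (zs (l + 1) - zs l).1 - (zs (l + 1) - zs l).2 • vel (cen ρ m))
        (x - (zs (l + 1) - zs i).1 - (zs (l + 1) - zs i).2 • vel C2)
      have e5 : x - (zs l - zs i).1 - (zs l - zs i).2 • vel C2 -
          (zs (l + 1) - zs l).1 - (zs (l + 1) - zs l).2 • vel (cen ρ m) -
          (x - (zs (l + 1) - zs i).1 - (zs (l + 1) - zs i).2 • vel C2) =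
          (zs (l + 1) - zs l).2 • (vel C2 - vel (cen ρ m)) := by
        simp only [Prod.fst_sub, Prod.snd_sub]
        module
      rw [e5] at hs
      have h6 : ‖Am ((zs (l + 1) - zs l).2 • (vel C2 - vel (cen ρ m)))‖ ≤ 12 * L0 := by
        refine (hAm C2 hC2D _).trans ?_
        have := disp_le hi0.le hρiρ h.k0.le hκ1 hrth hnearz.2 hd2.le
        nlinarith
      refine hs.trans ?_
      have hpos := (hw.pos (x - (zs (l + 1) - zs i).1 - (zs (l + 1) - zs i).2 • vel C2)).le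
      have hn0 := norm_nonneg (Am ((zs (l + 1) - zs l).2 • (vel C2 - vel (cen ρ m))))
      rw [hB]
      gcongr
    have hcard : ((nearL ρ ρ' m').card : ℝ≥0∞) ≤ ENNReal.ofReal (81 * R) := by
      rw [← ENNReal.ofReal_natCast]
      refine ENNReal.ofReal_le_ofReal ?_
      have h7 : (nearL ρ ρ' m').card ≤ (caps ρ).card := Finset.card_le_card fun m hm =>
        (mem_nearL.1 hm).1
      have h8 := A1k229.card_caps_le hρ0 (h.th1 hln.le)
      have h9 : (ρ ^ 2)⁻¹ = (L l).r := inv_eq_of_mul_eq_one_left hrth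
      rw [h9] at h8
      have h10 := (h.tow.ok l hln.le).hi
      calc ((nearL ρ ρ' m').card : ℝ) ≤ ((caps ρ).card : ℝ) := by exact_mod_cast h7
        _ ≤ 81 * (L l).r := h8
        _ ≤ 81 * R := by linarith
    have e6 : l + 1 - i = (l - i) + 1 := by omega
    calc _ ≤ ENNReal.ofReal E * (∑ m ∈ nearL ρ ρ' m',
          ∫⁻ x in (L l).sl (zs l) (ks l) m, ENNReal.ofReal (w (x - (zs (l + 1) - zs l).1 -
            (zs (l + 1) - zs l).2 • vel (cen ρ m))) * ‖umc ρ (trc (zs l) g) m x‖ₑ ^ 2) +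
          ENNReal.ofReal c * V := h1
      _ ≤ ENNReal.ofReal E * (∑ m ∈ nearL ρ ρ' m',
          (ENNReal.ofReal ((E * (64 * B)) ^ (l - i)) * (ENNReal.ofReal B *
          ∑ m2 ∈ nearC ρi ρ m, F m2) +
        ENNReal.ofReal (c * (E * (81 * R) + 1) ^ (l - i)) * V)) + ENNReal.ofReal c * V := by
          gcongr with m hm
          exact h2 m hm
      _ = ENNReal.ofReal E * (ENNReal.ofReal ((E * (64 * B)) ^ (l - i)) * (ENNReal.ofReal B *
          (∑ m ∈ nearL ρ ρ' m', ∑ m2 ∈ nearC ρi ρ m, F m2)) +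
          (nearL ρ ρ' m').card * (ENNReal.ofReal (c * (E * (81 * R) + 1) ^ (l - i)) * V)) +
          ENNReal.ofReal c * V := by
          rw [Finset.sum_add_distrib, ← Finset.mul_sum, ← Finset.mul_sum, Finset.sum_const,
            nsmul_eq_mul]
      _ ≤ ENNReal.ofReal E * (ENNReal.ofReal ((E * (64 * B)) ^ (l - i)) * (ENNReal.ofReal B *
          (64 * ∑ m2 ∈ nearC ρi ρ' m', F m2)) +
          ENNReal.ofReal (81 * R) * (ENNReal.ofReal (c * (E * (81 * R) + 1) ^ (l - i)) * V)) +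
          ENNReal.ofReal c * V := by
          gcongr
          exact sum_reach hρ0 h4 m' F
      _ = ENNReal.ofReal E * ENNReal.ofReal ((E * (64 * B)) ^ (l - i)) * ENNReal.ofReal B * 64 *
          (∑ m2 ∈ nearC ρi ρ' m', F m2) +
          (ENNReal.ofReal E * ENNReal.ofReal (81 * R) *
            ENNReal.ofReal (c * (E * (81 * R) + 1) ^ (l - i)) + ENNReal.ofReal c) * V := by ring
      _ ≤ _ := by
          have e7 : (64 : ℝ≥0∞) = ENNReal.ofReal 64 := by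
            rw [show (64 : ℝ) = ((64 : ℕ) : ℝ) by norm_num, ENNReal.ofReal_natCast]
            norm_num
          rw [e7, ← ENNReal.ofReal_mul (by positivity), ← ENNReal.ofReal_mul (by positivity),
            ← ENNReal.ofReal_mul (by positivity), ← ENNReal.ofReal_mul (by positivity),
            ← ENNReal.ofReal_mul (by positivity), ← ENNReal.ofReal_add (by positivity) hc0, e6]
          refine add_le_add (mul_le_mul' (ENNReal.ofReal_le_ofReal (le_of_eq ?_)) le_rfl)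
            (mul_le_mul' (ENNReal.ofReal_le_ofReal ?_) le_rfl)
          · rw [pow_succ]
            ring
          · have h11 : 1 ≤ (E * (81 * R) + 1) ^ (l - i) := one_le_pow₀ (by
              have : 0 ≤ E * (81 * R) := by positivity
              linarith)
            rw [pow_succ]
            nlinarith

end Crest.Agent.R116.Dch229
end

-- ▼ part R116/Dch6_229
section

/-!
# R116 (S0155), wave side: the path of a frame and a label (helper229)

`path_of`: `l ↦ pz L j l z`, `l ↦ anc L j l k` is a path.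
-/

set_option autoImplicit false

open MeasureTheory
open scoped ENNReal

namespace Crest.Agent.R116.Dch229

open Crest.Agent.R138.Defs (E2)
open Crest.Agent.R138.Wpk685 (cen caps)
open Crest.Agent.R116.CDef480 Crest.Agent.R116.WC188 Crest.Agent.R116.GlC210
open Crest.Agent.R116.TuD373 Crest.Agent.R116.TuS363

theorem pz_zeta (L : ℕ → Lev) {j l : ℕ} (hl : l < j) (z : E3 × ℝ) :
    pz L j l z = (L l).ζ (pz L j (l + 1) z) := by
  induction j generalizing z with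
  | zero => omega
  | succ j ih =>
    rw [pz_succ L (by omega)]
    rcases Nat.lt_or_ge l j with h | h
    · rw [ih h, pz_succ L (by omega)]
    · have : l = j := by omega
      subst this
      rw [pz_self, pz_self]

theorem anc_self (L : ℕ → Lev) (j k : ℕ) : anc L j j k = k := AsmP597.up_self _ _ _

theorem anc_succ (L : ℕ → Lev) {j i : ℕ} (h : i ≤ j) (k : ℕ) :
    anc L (j + 1) i k = anc L j i ((L (j + 1)).par k) := AsmP597.up_succ _ h k

theorem anc_par (L : ℕ → Lev) {j l : ℕ} (hl : l < j) (k : ℕ) :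
    anc L j l k = (L (l + 1)).par (anc L j (l + 1) k) := by
  induction j generalizing k with
  | zero => omega
  | succ j ih =>
    rw [anc_succ L (by omega)]
    rcases Nat.lt_or_ge l j with h | h
    · rw [ih h, anc_succ L (by omega)]
    · have : l = j := by omega
      subst this
      rw [anc_self, anc_self]

section tow

variable {M κ q A A' a b Cn : ℝ} {K : ℕ} {η0 : ℝ} {C0 : E2} {σ : ℝ} {g : E3 → ℂ} {R : ℝ}
  {dl ν : ℝ} {n : ℕ} {L : ℕ → Lev}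

theorem path_of (hT : Tow M κ q A A' a b Cn K η0 C0 σ g R dl ν n L) {i j : ℕ} (hjn : j ≤ n)
    {z : E3 × ℝ} (hz : z ∈ (L j).Z) {k : ℕ} (hk : k < (L j).n) :
    Path L i j (fun l => pz L j l z) (fun l => anc L j l k) := by
  refine ⟨fun l _ h2 => pz_mem' hT h2 hjn hz, fun l _ h2 => ?_, fun l _ h2 => pz_zeta L h2 z,
    fun l _ h2 => anc_par L h2 k⟩
  obtain ⟨d, rfl⟩ : ∃ d, j = l + d := ⟨j - l, by omega⟩
  clear h2 hz
  induction d generalizing k with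
  | zero => rwa [Nat.add_zero, anc_self]
  | succ d ih =>
    have e : l + (d + 1) = (l + d) + 1 := by omega
    rw [e, anc_succ L (by omega)]
    exact ih (by omega) ((hT.next (l + d) (by omega)).par_lt k hk)

end tow

end Crest.Agent.R116.Dch229
end

-- ▼ part R116/Dch7_229
section

/-!
# R116 (S0155), wave side: DOM-CHAIN, energy form (helper229), part 3: (E) along the path

`Eat_of` : the interface Prop `Eat` of 363 (set form over the neighbourhood `Nb` in the plate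
metric).
-/

set_option autoImplicit false

open MeasureTheory FourierTransform
open scoped ContDiff ENNReal

namespace Crest.Agent.R116.Dch229

open Crest.Agent.R138.Defs (E2 ee)
open Crest.Agent.R138.Wpk685 (cen caps cap win)
open Crest.Agent.R138.Loc878 (Near nearL mem_nearL)
open Crest.Agent.R116.CDef480 Crest.Agent.R116.WC188 Crest.Agent.R116.GlC210
open Crest.Agent.R116.CWp480 (SV vb vb_pos)
open Crest.Agent.R116.Ckm538 Crest.Agent.R116.Cad538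
open Crest.Agent.R116.TuD373 Crest.Agent.R116.TuS363
open Crest.Agent.R116.CWc480 (Pl)

/-! ### the weight of a set -/

/-- weight of the set `U` in the metric `A`. -/
noncomputable def wU (Am : E3 ≃L[ℝ] E3) (U : Set E3) (N : ℕ) (y : E3) : ℝ :=
  ((1 + Metric.infDist (Am y) (Am '' U)) ^ N)⁻¹

theorem SV_wU (Am : E3 ≃L[ℝ] E3) (U : Set E3) (N : ℕ) : SV Am 1 N (wU Am U N) := by
  have hc : Continuous fun y => Metric.infDist (Am y) (Am '' U) :=
    (Metric.continuous_infDist_pt _).comp Am.continuous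
  refine ⟨?_, fun x => ?_, fun x y => ?_⟩
  · unfold wU
    exact ((measurable_const.add hc.measurable).pow_const N).inv
  · unfold wU
    have : 0 ≤ Metric.infDist (Am x) (Am '' U) := Metric.infDist_nonneg
    positivity
  · unfold wU
    have h1 : 0 ≤ Metric.infDist (Am x) (Am '' U) := Metric.infDist_nonneg
    have h2 : 0 ≤ Metric.infDist (Am y) (Am '' U) := Metric.infDist_nonneg
    rw [one_mul, ← div_eq_mul_inv, inv_eq_one_div, div_le_div_iff₀ (by positivity) (by positivity),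
      one_mul, ← mul_pow]
    refine pow_le_pow_left₀ (by positivity) ?_ N
    have h3 : Metric.infDist (Am y) (Am '' U) ≤ Metric.infDist (Am x) (Am '' U) +
        dist (Am y) (Am x) := Metric.infDist_le_infDist_add_dist
    have h4 : dist (Am y) (Am x) = ‖Am (x - y)‖ := by
      rw [dist_comm, dist_eq_norm, ← map_sub]
    rw [h4] at h3
    have h5 := norm_nonneg (Am (x - y))
    nlinarith [mul_nonneg h1 h5]

theorem wU_le_one (Am : E3 ≃L[ℝ] E3) (U : Set E3) (N : ℕ) (y : E3) : wU Am U N y ≤ 1 := by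
  unfold wU
  have : 0 ≤ Metric.infDist (Am y) (Am '' U) := Metric.infDist_nonneg
  exact inv_le_one_of_one_le₀ (one_le_pow₀ (by linarith))

theorem wU_mem (Am : E3 ≃L[ℝ] E3) {U : Set E3} (N : ℕ) {y : E3} (hy : y ∈ U) : wU Am U N y = 1 := by
  unfold wU
  rw [Metric.infDist_zero_of_mem (Set.mem_image_of_mem _ hy)]
  simp

theorem wU_far {Am : E3 ≃L[ℝ] E3} {U : Set E3} (hU : U.Nonempty) (N : ℕ) {y : E3} {s : ℝ}
    (hs : 0 < s) (hy : ∀ u ∈ U, s ≤ ‖Am (y - u)‖) : wU Am U N y ≤ (s ^ N)⁻¹ := by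
  unfold wU
  refine inv_anti₀ (by positivity) (pow_le_pow_left₀ hs.le ?_ N)
  have h1 : s ≤ Metric.infDist (Am y) (Am '' U) := by
    refine (Metric.le_infDist (hU.image _)).2 ?_
    rintro _ ⟨u, hu, rfl⟩
    rw [dist_eq_norm, ← map_sub]
    exact hy u hu
  linarith

/-! ### from the weight to the neighbourhood -/

theorem w_nbhd {th κ th1 : ℝ} (hth : 0 < th) (hκ : 0 < κ) (h1 : κ * th1 ≤ th) {Cs C2 : E2}
    (hC : ‖C2 - Cs‖ ≤ 4 * th1) {U : Set E3} (hU : U.Nonempty) {Y : ℝ} (hY : 12 ≤ Y) (n0 N : ℕ)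
    (v : E3) :
    ENNReal.ofReal (wU (Pl th κ hth hκ Cs) U N v) ≤
      ENNReal.ofReal (2 ^ n0 * (vb E3)⁻¹) * (ENNReal.ofReal (th ^ 2 * κ) *
        ∫⁻ x in TuC373.Nb th κ Cs Y U, ENNReal.ofReal (wt (frc th κ C2) n0 (v - x))) +
      ENNReal.ofReal (((Y / 2) ^ N)⁻¹) := by
  by_cases hfar : ∀ u ∈ U, Y / 2 ≤ ‖Pl th κ hth hκ Cs (v - u)‖
  · exact (ENNReal.ofReal_le_ofReal (wU_far hU N (by linarith) hfar)).trans le_add_self
  · push Not at hfar
    obtain ⟨u, hu, huv⟩ := hfar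
    refine le_add_right ?_
    have hcmp : κ * ‖Cs - C2‖ ≤ 4 * th := by
      rw [norm_sub_rev]
      calc κ * ‖C2 - Cs‖ ≤ κ * (4 * th1) := by gcongr
        _ = 4 * (κ * th1) := by ring
        _ ≤ 4 * th := by gcongr
    have h2 := Crest.Agent.R116.F1c124.nbhd_lower n0 hth hκ C2
      (N := TuC373.Nb th κ Cs Y U) (v := v) (fun x hx => by
        refine ⟨u, hu, ?_⟩
        have h3 := frc_le_frc hth.le hκ.le (by norm_num : (0:ℝ) ≤ 4) hcmp (v - x)
        have h4 : ‖frc th κ Cs (v - u)‖ < Y / 2 := by rwa [← Pl_eq hth hκ]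
        have e : x - u = (v - u) - (v - x) := by abel
        rw [e, map_sub]
        refine (norm_sub_le _ _).trans_lt ?_
        linarith)
    have hv := vb_pos (V := E3)
    calc ENNReal.ofReal (wU (Pl th κ hth hκ Cs) U N v) ≤ ENNReal.ofReal 1 :=
          ENNReal.ofReal_le_ofReal (wU_le_one _ _ _ _)
      _ = ENNReal.ofReal (2 ^ n0 * (vb E3)⁻¹) * ENNReal.ofReal (vb E3 * (2 ^ n0)⁻¹) := by
          rw [← ENNReal.ofReal_mul (by positivity)]
          congr 1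
          field_simp
      _ ≤ _ := mul_le_mul' le_rfl h2

theorem swap_abs {k : E3 → E3 → ℝ≥0∞} {u : E3 → ℝ≥0∞} (hk : Measurable (Function.uncurry k))
    (hu : Measurable u) (S N : Set E3) :
    ∫⁻ x in S, (∫⁻ x' in N, k x x') * u x = ∫⁻ x' in N, ∫⁻ x in S, k x x' * u x := by
  have e1 : ∀ x, (∫⁻ x' in N, k x x') * u x = ∫⁻ x' in N, k x x' * u x := by
    intro x
    rw [lintegral_mul_const]
    exact hk.comp measurable_prodMk_left
  simp only [e1]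
  rw [lintegral_lintegral_swap]
  exact (hk.mul (hu.comp measurable_fst)).aemeasurable

/-- one direction. -/
theorem w_term {S Nn : Set E3} {u W : E3 → ℝ≥0∞} {k : E3 → E3 → ℝ≥0∞}
    (hk : Measurable (Function.uncurry k)) (hu : Measurable u) {c0 c1 η : ℝ≥0∞} (h0 : c0 ≠ ⊤)
    (h1 : c1 ≠ ⊤) (hη : η ≠ ⊤) (hW : ∀ x, W x ≤ c0 * (c1 * ∫⁻ x' in Nn, k x x') + η) :
    ∫⁻ x in S, W x * u x ≤ c0 * (∫⁻ x' in Nn, c1 * ∫⁻ x in S, k x x' * u x) +
      η * ∫⁻ x in S, u x := by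
  calc ∫⁻ x in S, W x * u x
      ≤ ∫⁻ x in S, (c0 * (c1 * ((∫⁻ x' in Nn, k x x') * u x)) + η * u x) := by
        refine lintegral_mono fun x => (mul_le_mul' (hW x) le_rfl).trans (le_of_eq ?_)
        ring
    _ = c0 * (c1 * ∫⁻ x in S, (∫⁻ x' in Nn, k x x') * u x) + η * ∫⁻ x in S, u x := by
        rw [lintegral_add_right _ (hu.const_mul _), lintegral_const_mul' _ _ h0,
          lintegral_const_mul' _ _ h1, lintegral_const_mul' _ _ hη]
    _ = _ := by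
        rw [swap_abs hk hu, lintegral_const_mul' _ _ h1]

theorem wt_meas2 (A : E3 →L[ℝ] E3) (n : ℕ) (a v : E3) : Measurable (Function.uncurry
    fun x x' : E3 => ENNReal.ofReal (wt A n (x - (a + x') - v))) := by
  refine ENNReal.measurable_ofReal.comp ?_
  exact ((wt_cont A n).comp (by fun_prop :
    Continuous fun p : E3 × E3 => p.1 - (a + p.2) - v)).measurable

/-- **from the weighted energies to the integral of the density over the neighbourhood.** -/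
theorem w_sum {th κ th1 : ℝ} (hth : 0 < th) (hκ : 0 < κ) (h1 : κ * th1 ≤ th) {g : E3 → ℂ}
    (hg : Integrable g) {S : ℤ × ℤ → Set E3} {m' : ℤ × ℤ} {U : Set E3}
    (hU : U.Nonempty) {Y : ℝ} (hY : 12 ≤ Y) (n0 N : ℕ) (dz : E3 × ℝ) :
    ∑ m ∈ nearC th th1 m', ∫⁻ x in S m, ENNReal.ofReal (wU (Pl th κ hth hκ (cen th1 m')) U N
        (x - dz.1 - dz.2 • vel (cen th m))) * ‖umc th g m x‖ₑ ^ 2 ≤
      ENNReal.ofReal (2 ^ n0 * (vb E3)⁻¹) *
        (∫⁻ x in TuC373.Nb th κ (cen th1 m') Y U, TuC373.AdN n0 th κ g S (nrC th th1) m' dz x) +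
      ENNReal.ofReal (((Y / 2) ^ N)⁻¹) * enc th g S := by
  classical
  have hum : ∀ m, Measurable fun x => ‖umc th g m x‖ₑ ^ 2 := fun m => A1k229.umc_meas hg m
  have hterm : ∀ m ∈ nearC th th1 m', _ := fun m hm =>
    w_term (S := S m) (Nn := TuC373.Nb th κ (cen th1 m') Y U) (u := fun x => ‖umc th g m x‖ₑ ^ 2)
      (W := fun x => ENNReal.ofReal (wU (Pl th κ hth hκ (cen th1 m')) U N
        (x - dz.1 - dz.2 • vel (cen th m))))
      (wt_meas2 (frc th κ (cen th m)) n0 dz.1 (dz.2 • vel (cen th m))) (hum m)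
      (c0 := ENNReal.ofReal (2 ^ n0 * (vb E3)⁻¹)) (c1 := ENNReal.ofReal (th ^ 2 * κ))
      (η := ENNReal.ofReal (((Y / 2) ^ N)⁻¹)) ENNReal.ofReal_ne_top ENNReal.ofReal_ne_top
      ENNReal.ofReal_ne_top (fun x => by
        have h2 := w_nbhd hth hκ h1 (mem_nearC.1 hm).2.le hU hY n0 N
          (x - dz.1 - dz.2 • vel (cen th m))
        have e1 : ∀ x', x - dz.1 - dz.2 • vel (cen th m) - x' =
            x - (dz.1 + x') - dz.2 • vel (cen th m) := fun x' => by abel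
        simp only [e1] at h2
        exact h2)
  refine (Finset.sum_le_sum hterm).trans ?_
  rw [Finset.sum_add_distrib, ← Finset.mul_sum, ← Finset.mul_sum]
  refine add_le_add (mul_le_mul' le_rfl ?_) (mul_le_mul' le_rfl ?_)
  · rw [← lintegral_finsetSum]
    · refine lintegral_mono fun x' => ?_
      simp only
      rw [← Finset.mul_sum]
      unfold TuC373.AdN Cad538.Acc Den
      refine mul_le_mul' le_rfl (Finset.sum_le_sum_of_subset fun m hm => ?_)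
      obtain ⟨a1, a2⟩ := mem_nearC.1 hm
      exact Finset.mem_filter.2 ⟨a1, a2.le⟩
    · intro m _
      refine Measurable.const_mul ?_ _
      refine Measurable.lintegral_prod_left' (μ := volume.restrict (S m))
        (f := fun p : E3 × E3 => ENNReal.ofReal (wt (frc th κ (cen th m)) n0
          (p.1 - (dz.1 + p.2) - dz.2 • vel (cen th m))) * ‖umc th g m p.1‖ₑ ^ 2) ?_
      exact (wt_meas2 (frc th κ (cen th m)) n0 dz.1 (dz.2 • vel (cen th m))).mul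
        ((hum m).comp measurable_fst)
  · unfold enc
    exact Finset.sum_le_sum_of_subset fun m hm => (mem_nearC.1 hm).1

end Crest.Agent.R116.Dch229
end

-- ▼ part R116/Dch8_229
section

/-!
# R116 (S0155), wave side: DOM-CHAIN, energy form (helper229), part 4: (E) along the path

`Eat_of`, `Eat_fin` : the interface Prop `Eat` of 363.
-/

set_option autoImplicit false

open MeasureTheory FourierTransform
open scoped ContDiff ENNReal

namespace Crest.Agent.R116.Dch229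

open Crest.Agent.R138.Defs (E2 ee)
open Crest.Agent.R138.Wpk685 (cen caps cap win)
open Crest.Agent.R116.CDef480 Crest.Agent.R116.WC188 Crest.Agent.R116.GlC210
open Crest.Agent.R116.CWp480 (SV vb vb_pos)
open Crest.Agent.R116.Ckm538 Crest.Agent.R116.Cad538
open Crest.Agent.R116.TuD373 Crest.Agent.R116.TuS363
open Crest.Agent.R116.CWc480 (Pl)

/-- **(E) along the path**, explicit tails. -/
theorem Eat_of {a : ℝ} (ha : 1 ≤ a) (n0 N : ℕ) : ∃ C1 : ℝ, 1 ≤ C1 ∧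
    ∀ {M κ q A A' b Cn : ℝ} {K : ℕ} {M0 η0 : ℝ} {C0 : E2} {σ : ℝ} {g : E3 → ℂ}
      {R D dl ν : ℝ} {n : ℕ} {L : ℕ → Lev} (_ : Stg M κ q A A' a b Cn K M0 η0 C0 σ g R D dl ν n L)
      (_ : b ≤ 2) {i j k : ℕ} (_ : i ≤ j) (_ : j ≤ n) (_ : k < (L j).n)
      (_ : κ * tht R dl j ≤ tht R dl i) {Y : ℝ} (_ : 12 ≤ Y),
      Eat n0 κ g R dl Y L j i k ((C1 * ν ^ 2) ^ (j - i) * (2 ^ n0 * (vb E3)⁻¹))
        (ENNReal.ofReal ((C1 * ν ^ 2) ^ (j - i) * ((Y / 2) ^ N)⁻¹ * Enc g) +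
          ENNReal.ofReal ((2 * (Cn * ν * R ^ (-(K : ℝ)) * Real.sqrt (Enc g)) ^ 2 * (A' * R) ^ 3) *
          (C1 * ν ^ 2 * (81 * R) + 1) ^ (j - i)) * volume (Metric.ball (0 : E3) 1)) := by
  obtain ⟨C1, hC1, hch⟩ := E_chain ha N (L0 := 6) (by norm_num)
  refine ⟨C1 * (64 * (1 + 12 * 6) ^ N), ?_, ?_⟩
  · have : (1:ℝ) ≤ 64 * (1 + 12 * 6) ^ N := by
      have : (1:ℝ) ≤ (1 + 12 * 6) ^ N := one_le_pow₀ (by norm_num)
      linarith
    exact one_le_mul_of_one_le_of_one_le hC1 this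
  intro M κ q A A' b Cn K M0 η0 C0 σ g R D dl ν n L h hb i j k hij hj hk hst Y hY z hz m hm
  have hvb := vb_pos (V := E3)
  have hν := h.ν1
  have hR := h.R1
  have hE0 : 0 ≤ Enc g := integral_nonneg fun ζ => by positivity
  rcases Set.eq_empty_or_nonempty ((L j).sl z k m) with he | hU
  · rw [he, Measure.restrict_empty, lintegral_zero_measure]
    exact zero_le
  have hri : (L i).r ^ (-(1/2) : ℝ) = tht R dl i := by rw [h.tow.rad i (hij.trans hj)]; rfl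
  have hrj : (L j).r ^ (-(1/2) : ℝ) = tht R dl j := by rw [h.tow.rad j hj]; rfl
  have hthi : 0 < tht R dl i := by rw [← hri]; exact h.th0 (hij.trans hj)
  have hthj : 0 < tht R dl j := by rw [← hrj]; exact h.th0 hj
  have hp := path_of h.tow hj hz hk (i := i)
  set Cs : E2 := cen (tht R dl j) m with hCs
  have hAm : ∀ C, ‖C - Cs‖ ≤ 4 * tht R dl j → ∀ x, ‖Pl (tht R dl i) κ hthi h.k0 Cs x‖ ≤
      6 * ‖frc ((L i).r ^ (-(1/2) : ℝ)) κ C x‖ := by
    intro C hC x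
    rw [Pl_eq, hri]
    have h1 : κ * ‖Cs - C‖ ≤ 4 * tht R dl i := by
      rw [norm_sub_rev]
      calc κ * ‖C - Cs‖ ≤ κ * (4 * tht R dl j) := by
            have := h.k0.le
            gcongr
        _ = 4 * (κ * tht R dl j) := by ring
        _ ≤ 4 * tht R dl i := by gcongr
    have := frc_le_frc hthi.le h.k0.le (by norm_num : (0:ℝ) ≤ 4) h1 x
    linarith
  have h1 := hch h hj hp hAm hij le_rfl (m' := m) (by
    rw [hrj, hCs, sub_self, norm_zero, zero_add])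
    (SV_wU (Pl (tht R dl i) κ hthi h.k0 Cs) ((L j).sl z k m) N) (fun x => wU_le_one _ _ _ _)
  simp only [pz_self, anc_self, hri, hrj] at h1
  rw [one_pow, mul_one, one_mul] at h1
  have e1 : ∫⁻ y in (L j).sl z k m, ‖umc (tht R dl j) (trc z g) m y‖ₑ ^ 2 =
      ∫⁻ y in (L j).sl z k m, ENNReal.ofReal (wU (Pl (tht R dl i) κ hthi h.k0 Cs)
        ((L j).sl z k m) N y) * ‖umc (tht R dl j) (trc z g) m y‖ₑ ^ 2 := by
    refine setLIntegral_congr_fun (sl_meas (h.tow.ok j hj) hz hk m) fun y hy => ?_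
    rw [wU_mem _ N hy, ENNReal.ofReal_one, one_mul]
  rw [e1]
  refine h1.trans ?_
  have hgi : Integrable (trc (pz L j i z) g) :=
    ((A1k229.nice_of_St h.ss.toSt).trc _).int (by linarith)
  have h2 := w_sum hthi h.k0 hst hgi (S := (L i).sl (pz L j i z) (anc L j i k)) (m' := m)
    hU hY n0 N (z - pz L j i z)
  have h3 : enc (tht R dl i) (trc (pz L j i z) g) ((L i).sl (pz L j i z) (anc L j i k)) ≤
      ENNReal.ofReal (Enc g) := TuL890.enc_le_Enc ha hb h.ss.toSt hthi _ _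
  have hCn := h.Cn0
  have hA' := h.A'1
  set B : ℝ := (C1 * ν ^ 2 * (64 * (1 + 12 * 6) ^ N)) ^ (j - i) with hB
  have hB0 : 0 ≤ B := by positivity
  have eB : (C1 * (64 * (1 + 12 * 6) ^ N) * ν ^ 2) ^ (j - i) = B := by
    rw [hB]
    congr 1
    ring
  rw [eB]
  calc _ ≤ ENNReal.ofReal B * (ENNReal.ofReal (2 ^ n0 * (vb E3)⁻¹) *
        (∫⁻ x in TuC373.Nb (tht R dl i) κ Cs Y ((L j).sl z k m),
          dns n0 κ g R dl L j i z (anc L j i k) m (z - pz L j i z) x) +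
        ENNReal.ofReal (((Y / 2) ^ N)⁻¹) * ENNReal.ofReal (Enc g)) +
        ENNReal.ofReal ((2 * (Cn * ν * R ^ (-(K : ℝ)) * Real.sqrt (Enc g)) ^ 2 * (A' * R) ^ 3) *
        (C1 * ν ^ 2 * (81 * R) + 1) ^ (j - i)) * volume (Metric.ball (0 : E3) 1) := by
        refine add_le_add (mul_le_mul' le_rfl (h2.trans (add_le_add le_rfl ?_))) le_rfl
        exact mul_le_mul' le_rfl h3
    _ ≤ _ := by
        have hY0 : 0 < Y := by linarith
        rw [mul_add, ← mul_assoc, ← ENNReal.ofReal_mul hB0,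
          ← ENNReal.ofReal_mul (by positivity : 0 ≤ ((Y / 2) ^ N)⁻¹), ← ENNReal.ofReal_mul hB0,
          add_assoc]
        refine add_le_add le_rfl (add_le_add (le_of_eq (by rw [mul_assoc B]))
          (mul_le_mul' (ENNReal.ofReal_le_ofReal ?_) le_rfl))
        have h4 : C1 ≤ C1 * (64 * (1 + 12 * 6) ^ N) := by
          have : (1:ℝ) ≤ 64 * (1 + 12 * 6) ^ N := by
            have : (1:ℝ) ≤ (1 + 12 * 6) ^ N := one_le_pow₀ (by norm_num)
            linarith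
          nlinarith
        gcongr

/-! ### final form -/

theorem vb_ball : volume (Metric.ball (0 : E3) 1) =
    ENNReal.ofReal (volume (Metric.ball (0 : E3) 1)).toReal :=
  (ENNReal.ofReal_toReal Metric.isBounded_ball.measure_lt_top.ne).symm

/-- **(E) along the path, final form**: `Y = R^e1`, `Ce = C ν^(2 n)`, tail `C R^(-T) Enc g`. -/
theorem Eat_fin {a : ℝ} (ha : 1 ≤ a) (n n0 : ℕ) (T : ℝ) {e1 : ℝ} (he1 : 0 < e1) :
    ∃ K1 : ℕ, ∀ K : ℕ, K1 ≤ K → ∀ A' Cn : ℝ, 1 ≤ A' → 0 ≤ Cn → ∃ C : ℝ, 1 ≤ C ∧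
    ∀ {M κ q A b M0 η0 : ℝ} {C0 : E2} {σ : ℝ} {g : E3 → ℂ} {R D dl ν : ℝ} {L : ℕ → Lev},
      Stg M κ q A A' a b Cn K M0 η0 C0 σ g R D dl ν n L → b ≤ 2 → C ≤ R → ν ≤ R →
      ∀ {i j k : ℕ}, i ≤ j → j ≤ n → k < (L j).n → κ * tht R dl j ≤ tht R dl i →
      Eat n0 κ g R dl (R ^ e1) L j i k (C * ν ^ (2 * n)) (ENNReal.ofReal (C * R ^ (-T) * Enc g)) := by
  set N : ℕ := ⌈(2 * n + T) / e1⌉₊ with hN
  have hN1 : (2 * n + T) / e1 ≤ N := Nat.le_ceil _
  have hN2 : 2 * n + T ≤ e1 * N := by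
    rw [div_le_iff₀ he1] at hN1
    linarith
  obtain ⟨C1, hC1, hE⟩ := Eat_of ha n0 N
  refine ⟨⌈(5 + 3 * n + T) / 2⌉₊, ?_⟩
  intro K hK A' Cn hA' hCn
  have hK2 : 5 + 3 * n + T ≤ 2 * K := by
    have h1 : (5 + 3 * n + T) / 2 ≤ (⌈(5 + 3 * (n:ℝ) + T) / 2⌉₊ : ℝ) := Nat.le_ceil _
    have h2 : ((⌈(5 + 3 * (n:ℝ) + T) / 2⌉₊ : ℕ) : ℝ) ≤ K := by exact_mod_cast hK
    linarith
  set V : ℝ := (volume (Metric.ball (0 : E3) 1)).toReal with hV
  have hV0 : 0 ≤ V := ENNReal.toReal_nonneg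
  have hvb := vb_pos (V := E3)
  set Ca : ℝ := C1 ^ n * (2 ^ n0 * (vb E3)⁻¹) with hCa
  set Cb : ℝ := C1 ^ n * 2 ^ N with hCb
  set Cc : ℝ := 2 * Cn ^ 2 * A' ^ 3 * (82 * C1) ^ n * V with hCc
  have hCa0 : 0 ≤ Ca := by positivity
  have hCb0 : 0 ≤ Cb := by positivity
  have hCc0 : 0 ≤ Cc := by positivity
  refine ⟨Ca + Cb + Cc + 1 + (12 : ℝ) ^ e1⁻¹, ?_, ?_⟩
  · have : (0:ℝ) ≤ (12 : ℝ) ^ e1⁻¹ := by positivity
    linarith
  intro M κ q A b M0 η0 C0 σ g R D dl ν L h hb hCR hνR i j k hij hj hk hst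
  have hR := h.R1
  have hR0 : 0 < R := by linarith
  have hν := h.ν1
  have h12 : (0:ℝ) ≤ (12 : ℝ) ^ e1⁻¹ := by positivity
  have hY : 12 ≤ R ^ e1 := by
    have h1 : (12 : ℝ) ^ e1⁻¹ ≤ R := by linarith
    calc (12 : ℝ) = ((12 : ℝ) ^ e1⁻¹) ^ e1 := by
          rw [← Real.rpow_mul (by norm_num), inv_mul_cancel₀ he1.ne', Real.rpow_one]
      _ ≤ R ^ e1 := Real.rpow_le_rpow (by positivity) h1 he1.le
  have hE0 : 0 ≤ Enc g := integral_nonneg fun ζ => by positivity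
  have h1 := hE h hb hij hj hk hst hY
  intro z hz m hm
  refine (h1 z hz m hm).trans ?_
  have hji : j - i ≤ n := by omega
  have hC1ν : 1 ≤ C1 * ν ^ 2 := one_le_mul_of_one_le_of_one_le hC1 (one_le_pow₀ hν)
  have hpw : (C1 * ν ^ 2) ^ (j - i) ≤ C1 ^ n * ν ^ (2 * n) := by
    calc (C1 * ν ^ 2) ^ (j - i) ≤ (C1 * ν ^ 2) ^ n := pow_le_pow_right₀ hC1ν hji
      _ = C1 ^ n * ν ^ (2 * n) := by rw [mul_pow, ← pow_mul]
  refine add_le_add (mul_le_mul' (ENNReal.ofReal_le_ofReal ?_) le_rfl) ?_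
  · calc (C1 * ν ^ 2) ^ (j - i) * (2 ^ n0 * (vb E3)⁻¹)
        ≤ (C1 ^ n * ν ^ (2 * n)) * (2 ^ n0 * (vb E3)⁻¹) := by gcongr
      _ = Ca * ν ^ (2 * n) := by rw [hCa]; ring
      _ ≤ (Ca + Cb + Cc + 1 + (12 : ℝ) ^ e1⁻¹) * ν ^ (2 * n) := by
          gcongr
          linarith
  · rw [vb_ball, ← ENNReal.ofReal_mul (by positivity), ← ENNReal.ofReal_add (by positivity)
      (by positivity)]
    refine ENNReal.ofReal_le_ofReal ?_
    have hT0 : 0 ≤ R ^ (-T) := (Real.rpow_pos_of_pos hR0 _).le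
    have hb1 : (C1 * ν ^ 2) ^ (j - i) * ((R ^ e1 / 2) ^ N)⁻¹ ≤ Cb * R ^ (-T) := by
      have e2 : ((R ^ e1 / 2) ^ N)⁻¹ = 2 ^ N * R ^ (-(e1 * N)) := by
        rw [div_pow, inv_div, ← Real.rpow_natCast (R ^ e1) N, ← Real.rpow_mul hR0.le,
          Real.rpow_neg hR0.le]
        rfl
      rw [e2]
      calc (C1 * ν ^ 2) ^ (j - i) * (2 ^ N * R ^ (-(e1 * N)))
          ≤ (C1 ^ n * ν ^ (2 * n)) * (2 ^ N * R ^ (-(e1 * N))) := by gcongr
        _ ≤ (C1 ^ n * R ^ (2 * n)) * (2 ^ N * R ^ (-(e1 * N))) := by gcongr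
        _ = Cb * (R ^ ((2 * n : ℕ) : ℝ) * R ^ (-(e1 * N))) := by
            rw [hCb, Real.rpow_natCast]; ring
        _ ≤ Cb * R ^ (-T) := by
            rw [← Real.rpow_add hR0]
            refine mul_le_mul_of_nonneg_left (Real.rpow_le_rpow_of_exponent_le hR ?_) hCb0
            push_cast
            linarith
    have hb2 : (2 * (Cn * ν * R ^ (-(K : ℝ)) * Real.sqrt (Enc g)) ^ 2 * (A' * R) ^ 3) *
        (C1 * ν ^ 2 * (81 * R) + 1) ^ (j - i) * V ≤ Cc * R ^ (-T) * Enc g := by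
      have e3 : (Cn * ν * R ^ (-(K : ℝ)) * Real.sqrt (Enc g)) ^ 2 =
          Cn ^ 2 * ν ^ 2 * R ^ (-(2 * K : ℝ)) * Enc g := by
        rw [mul_pow, mul_pow, mul_pow, Real.sq_sqrt hE0, ← Real.rpow_natCast (R ^ (-(K : ℝ))) 2,
          ← Real.rpow_mul hR0.le]
        congr 3
        push_cast
        ring
      have e4 : C1 * ν ^ 2 * (81 * R) + 1 ≤ 82 * C1 * R ^ 3 := by
        have a1 : C1 * ν ^ 2 * (81 * R) ≤ C1 * R ^ 2 * (81 * R) := by gcongr
        have a2 : 1 ≤ C1 * R ^ 3 := one_le_mul_of_one_le_of_one_le hC1 (one_le_pow₀ hR)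
        nlinarith
      have e5 : (C1 * ν ^ 2 * (81 * R) + 1) ^ (j - i) ≤ (82 * C1) ^ n * R ^ (3 * n) := by
        have a3 : 1 ≤ C1 * ν ^ 2 * (81 * R) + 1 := by
          have : 0 ≤ C1 * ν ^ 2 * (81 * R) := by positivity
          linarith
        calc (C1 * ν ^ 2 * (81 * R) + 1) ^ (j - i) ≤ (C1 * ν ^ 2 * (81 * R) + 1) ^ n :=
              pow_le_pow_right₀ a3 hji
          _ ≤ (82 * C1 * R ^ 3) ^ n := by gcongr
          _ = _ := by rw [mul_pow, ← pow_mul]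
      rw [e3]
      calc (2 * (Cn ^ 2 * ν ^ 2 * R ^ (-(2 * K : ℝ)) * Enc g) * (A' * R) ^ 3) *
            (C1 * ν ^ 2 * (81 * R) + 1) ^ (j - i) * V
          ≤ (2 * (Cn ^ 2 * R ^ 2 * R ^ (-(2 * K : ℝ)) * Enc g) * (A' * R) ^ 3) *
            ((82 * C1) ^ n * R ^ (3 * n)) * V := by gcongr
        _ = Cc * (R ^ ((5 + 3 * n : ℕ) : ℝ) * R ^ (-(2 * K : ℝ))) * Enc g := by
            rw [hCc, Real.rpow_natCast]; ring
        _ ≤ Cc * R ^ (-T) * Enc g := by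
            rw [← Real.rpow_add hR0]
            refine mul_le_mul_of_nonneg_right (mul_le_mul_of_nonneg_left
              (Real.rpow_le_rpow_of_exponent_le hR ?_) hCc0) hE0
            push_cast
            linarith
    calc _ ≤ Cb * R ^ (-T) * Enc g + Cc * R ^ (-T) * Enc g :=
          add_le_add (mul_le_mul_of_nonneg_right hb1 hE0) hb2
      _ = (Cb + Cc) * (R ^ (-T) * Enc g) := by ring
      _ ≤ (Ca + Cb + Cc + 1 + (12 : ℝ) ^ e1⁻¹) * (R ^ (-T) * Enc g) := by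
          refine mul_le_mul_of_nonneg_right ?_ (by positivity)
          linarith
      _ = _ := by ring

end Crest.Agent.R116.Dch229
end

-- ▼ part R116/Dch9_229

/-!
# R116 (S0155), wave side: the source `ESRC` of the tube step (helper229)
-/

set_option autoImplicit false

open MeasureTheory
open scoped ENNReal

namespace Crest.Agent.R116.Dch229

open Crest.Agent.R138.Defs (E2)
open Crest.Agent.R116.CDef480 Crest.Agent.R116.WC188 Crest.Agent.R116.GlC210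
open Crest.Agent.R116.TuD373 Crest.Agent.R116.TuS363

theorem Eat_mono {n0 : ℕ} {κ : ℝ} {g : E3 → ℂ} {R dl Y : ℝ} {L : ℕ → Lev} {j i k : ℕ}
    {Ce Ce' : ℝ} {τ τ' : ℝ≥0∞} (h : Eat n0 κ g R dl Y L j i k Ce τ) (h1 : Ce ≤ Ce')
    (h2 : τ ≤ τ') : Eat n0 κ g R dl Y L j i k Ce' τ' := fun z hz m hm =>
  (h z hz m hm).trans (add_le_add (mul_le_mul' (ENNReal.ofReal_le_ofReal h1) le_rfl) h2)

/-- **the energy source of the tube step.** -/
theorem esrc (M q : ℝ) : TuZ373.ESRC M q := by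
  intro n
  refine ⟨2 * n, ?_⟩
  intro Lw n0 a b A e1 M0 T hRg _
  obtain ⟨K1, h⟩ := Eat_fin hRg.a1 n n0 T hRg.e0
  refine ⟨K1, fun K hK A' Cn hA' hCn => ?_⟩
  obtain ⟨C, hC, h⟩ := h K hK A' Cn hA' (by linarith)
  refine ⟨C + 16 + A', by linarith, ?_⟩
  intro κ η0 C0 σ g R D hS hκ hCR dl ν hdl hCdl hκdl hν hνR L hT i j k hij hj hjL hk
  have hR := hS.R1
  have h16 : 16 * dl ≤ 1 := by nlinarith
  have hA'd : A' * dl ≤ 1 := by nlinarith
  have hst : Stg M κ q A A' a b Cn K M0 η0 C0 σ g R D dl ν n L :=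
    ⟨hS, hT, hκ.k0, hκ.ka, hRg.a1, hRg.A1, by linarith, hA', hdl, h16, hA'd, hν⟩
  have h1 := h hst hRg.b2.le (by linarith) hνR hij.le hj hk
    (kap_tht (by linarith) hdl (by linarith) hκdl hij.le hjL)
  have hE0 : 0 ≤ Enc g := integral_nonneg fun ζ => by positivity
  refine Eat_mono h1 ?_ (ENNReal.ofReal_le_ofReal ?_)
  · gcongr
    linarith
  · have : 0 ≤ R ^ (-T) := (Real.rpow_pos_of_pos (by linarith) _).le
    gcongr
    linarith

end Crest.Agent.R116.Dch229
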