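import Crest.Agent.R116.Ks4_79

/-!
# R116, [FILL-COUNT] (helper337)

The enemy's grid rays `(C, X, H)` are filled by `(C, X, H + j / N²)`, `|j| ≤ J N`.  A density bound
over the class with `B = 1/N` (79's `DensL`) gives a density bound over members with `B = 0`.
`FillGeo M C M1` = the geometric input (139).  Output: `fill_count`.
-/

set_option autoImplicit false

open Finset

namespace Crest.Agent.R116.Fl337

open Crest.Agent.R138.Defs (E2)
open Crest.Agent.R116.CDef480 (E3 lat pt)
open Crest.Agent.R116.LZg725 (Cf Mem rpos rx ry InK nrm)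
open Crest.Agent.R116.LKMDef299 (LRay Cpt)
open Crest.Agent.R116.Ks79


/-! ### translation in the null direction -/








/-! ### counting -/

/-- integers with pairwise distances at most `L`. -/
theorem card_close {A : Finset ℤ} {L : ℝ} (hL : 0 ≤ L)
    (h : ∀ i ∈ A, ∀ j ∈ A, |(i : ℝ) - j| ≤ L) : (A.card : ℝ) ≤ L + 1 := by
  rcases A.eq_empty_or_nonempty with rfl | hA
  · simp; linarith
  have h1 : A ⊆ Finset.Icc (A.min' hA) (A.max' hA) := fun i hi =>
    Finset.mem_Icc.2 ⟨A.min'_le i hi, A.le_max' i hi⟩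
  have h2 := Finset.card_le_card h1
  rw [Int.card_Icc] at h2
  have h3 : A.min' hA ≤ A.max' hA := A.min'_le _ (A.max'_mem hA)
  have h4 : ((A.max' hA : ℝ) - A.min' hA) ≤ L :=
    (le_abs_self _).trans (h _ (A.max'_mem hA) _ (A.min'_mem hA))
  have h5 : ((A.max' hA + 1 - A.min' hA).toNat : ℝ) = (A.max' hA : ℝ) + 1 - A.min' hA := by
    have : (0 : ℤ) ≤ A.max' hA + 1 - A.min' hA := by linarith
    have h6 : ((A.max' hA + 1 - A.min' hA).toNat : ℤ) = A.max' hA + 1 - A.min' hA :=
      Int.toNat_of_nonneg this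
    have h7 : (((A.max' hA + 1 - A.min' hA).toNat : ℤ) : ℝ) =
        ((A.max' hA + 1 - A.min' hA : ℤ) : ℝ) := by rw [h6]
    push_cast at h7
    exact_mod_cast h7
  have h8 : (A.card : ℝ) ≤ ((A.max' hA + 1 - A.min' hA).toNat : ℝ) := by exact_mod_cast h2
  rw [h5] at h8
  linarith



end Crest.Agent.R116.Fl337
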