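import Crest.Agent.R116.LZg4_725
import Crest.Agent.R116.FlC_337

-- ▼ part R116/Ene1_618
section

/-!
# R116, K2 (ENEMY), part 1 (helper618): anisotropic scaling of light rays and conformal functions

`Φ (x, y, s) = (lam x, (lam²/mu) y, mu s + tau)`: rays `(C, a, k)` go to rays
`sR lam mu tau (C, a, k)`, of slope `(lam/mu) C`; a conformal function `p` of the new coordinates
is pulled back to `back lam mu tau p = lam⁻¹ p ∘ Φ`, with the same Klein form.
-/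

set_option autoImplicit false
set_option linter.unusedSectionVars false

namespace Crest.Agent.R116.Ene618

open Crest.Agent.R116.LZg725

variable {E : Type*} [NormedAddCommGroup E] [InnerProductSpace ℝ E]

/-- slope of the new ray. -/
noncomputable def sC (lam mu : ℝ) (C : E) : E := (lam / mu) • C

/-- lateral position at time `0` of the new ray. -/
noncomputable def sa (lam mu tau : ℝ) (C a : E) : E := lam • a + tau • sC lam mu C

/-- null position at time `0` of the new ray. -/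
noncomputable def sk (lam mu tau : ℝ) (C : E) (k : ℝ) : ℝ :=
  lam ^ 2 / mu * k - tau * ‖sC lam mu C‖ ^ 2 / 2

theorem rx_sR (lam : ℝ) {mu : ℝ} (hmu : mu ≠ 0) (tau : ℝ) (C a : E) (s : ℝ) :
    rx (sC lam mu C) (sa lam mu tau C a) (mu * s + tau) = lam • rx C a s := by
  unfold rx sa sC
  rw [smul_smul, smul_smul, smul_sub, smul_smul,
    show (mu * s + tau) * (lam / mu) = lam * s + tau * (lam / mu) by field_simp, add_smul]
  abel

theorem ry_sR (lam : ℝ) {mu : ℝ} (hmu : mu ≠ 0) (tau : ℝ) (C : E) (k s : ℝ) :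
    ry (sC lam mu C) (sk lam mu tau C k) (mu * s + tau) = lam ^ 2 / mu * ry C k s := by
  unfold ry sk sC
  rw [norm_smul, mul_pow, Real.norm_eq_abs, sq_abs]
  field_simp
  ring

/-- pull-back of a conformal function under the scaling (divided by `lam`). -/
noncomputable def back (lam mu tau : ℝ) (p : Cf E) : Cf E where
  a0 := (p.a0 + p.a1 * tau) / lam
  a1 := p.a1 * mu / lam
  be := p.be
  g := lam / mu * (p.g - 2 * p.d * tau)
  d := lam * p.d

theorem back_ev {lam mu : ℝ} (hlam : lam ≠ 0) (hmu : mu ≠ 0) (tau : ℝ) (p : Cf E) (x : E)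
    (y s : ℝ) :
    lam * (back lam mu tau p).ev x y s = p.ev (lam • x) (lam ^ 2 / mu * y) (mu * s + tau) := by
  unfold back Cf.ev
  simp only []
  rw [real_inner_smul_right, norm_smul, mul_pow, Real.norm_eq_abs, sq_abs]
  field_simp
  ring

theorem back_disc {lam mu : ℝ} (hlam : lam ≠ 0) (hmu : mu ≠ 0) (tau : ℝ) (p : Cf E) :
    (back lam mu tau p).disc = p.disc := by
  unfold back Cf.disc
  simp only []
  field_simp
  ring

theorem back_ny {mu : ℝ} (lam : ℝ) (hmu : mu ≠ 0) (tau : ℝ) (p : Cf E) (s : ℝ) :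
    (back lam mu tau p).ny s = lam / mu * p.ny (mu * s + tau) := by
  unfold back Cf.ny
  simp only []
  field_simp
  ring

/-- values of the pull-back along a ray. -/
theorem back_ray {lam mu : ℝ} (hlam : lam ≠ 0) (hmu : mu ≠ 0) (tau : ℝ) (p : Cf E) (C a : E)
    (k s : ℝ) :
    lam * (back lam mu tau p).ev (rx C a s) (ry C k s) s =
      p.ev (rx (sC lam mu C) (sa lam mu tau C a) (mu * s + tau))
        (ry (sC lam mu C) (sk lam mu tau C k) (mu * s + tau)) (mu * s + tau) := by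
  rw [rx_sR lam hmu, ry_sR lam hmu, back_ev hlam hmu]


end Crest.Agent.R116.Ene618
end

-- ▼ part R116/Ene2_618
section

/-!
# R116, K2 (ENEMY), part 2 (helper618): the density bound at level `0`

`up_count`: a member of level `0` of the scaled coordinates (`lam = 1/64`, `mu = 1/4`, `tau = 1/2`)
contains at most `K0 * A * cost` rays, if all members of length `1` of the old coordinates do.
-/

set_option autoImplicit false
set_option linter.unusedVariables false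

open Finset

namespace Crest.Agent.R116.Ene618

open Crest.Agent.R116.LZg725
open Crest.Agent.R138.Defs (E2)
open Crest.Agent.R116.CDef480 (E3 lat pt vel)

/-! ### elementary -/

theorem norm2_le (v : E2) : ‖v‖ ≤ |v 0| + |v 1| := by
  have h := CDef480.normsq2 v
  have h0 := abs_nonneg (v 0)
  have h1 := abs_nonneg (v 1)
  have h2 : ‖v‖ ^ 2 ≤ (|v 0| + |v 1|) ^ 2 := by
    rw [h, ← sq_abs (v 0), ← sq_abs (v 1)]
    nlinarith
  exact (sq_le_sq₀ (norm_nonneg _) (by linarith)).1 h2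

theorem abs_coord_le (v : E2) (i : Fin 2) : |v i| ≤ ‖v‖ := by
  have h := CDef480.normsq2 v
  have h2 : |v i| ^ 2 ≤ ‖v‖ ^ 2 := by
    rw [h, sq_abs]
    fin_cases i
    · show v 0 ^ 2 ≤ _
      nlinarith [sq_nonneg (v 1)]
    · show v 1 ^ 2 ≤ _
      nlinarith [sq_nonneg (v 0)]
  exact (sq_le_sq₀ (abs_nonneg _) (norm_nonneg _)).1 h2

theorem abs_le_of_floor {x y w : ℝ} (hw : 0 < w) (h : ⌊x / w⌋ = ⌊y / w⌋) : |x - y| ≤ w := by
  have h1 := Int.abs_sub_lt_one_of_floor_eq_floor h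
  have h2 : |x / w - y / w| = |x - y| / w := by rw [← sub_div, abs_div, abs_of_pos hw]
  rw [h2, div_lt_one hw] at h1
  exact h1.le

theorem floor_mem_Icc {x y w : ℝ} {n : ℕ} (hw : 0 < w) (h : |x - y| ≤ n * w) :
    ⌊x / w⌋ ∈ Icc (⌊y / w⌋ - n) (⌊y / w⌋ + n) := by
  have h1 : |x / w - y / w| ≤ n := by
    rw [← sub_div, abs_div, abs_of_pos hw, div_le_iff₀ hw]; exact h
  rw [abs_le] at h1
  rw [mem_Icc]
  constructor
  · rw [Int.le_floor]
    push_cast
    have := Int.floor_le (y / w)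
    linarith
  · have h3 := Int.floor_le (x / w)
    have h4 := Int.lt_floor_add_one (y / w)
    have : ((⌊x / w⌋ : ℤ) : ℝ) < ((⌊y / w⌋ + n + 1 : ℤ) : ℝ) := by push_cast; linarith
    have := Int.cast_lt.1 this
    omega

open Classical in
/-- counting by grid cells -/
theorem card_le_cells {ι : Type*} {k : ℕ} (S : Finset ι) (g : ι → Fin k → ℤ) {n : ℕ} (i0 : ι)
    (hg : ∀ i ∈ S, ∀ j, g i j ∈ Icc (g i0 j - n) (g i0 j + n)) {A : ℝ} (hA0 : 0 ≤ A)
    (hA : ∀ i ∈ S, ((S.filter fun t => g t = g i).card : ℝ) ≤ A) :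
    (S.card : ℝ) ≤ (2 * n + 1) ^ k * A := by
  have h1 : (S.card : ℝ) ≤ (S.image g).card * A := by
    have : S.card = ∑ c ∈ S.image g, (S.filter fun t => g t = c).card :=
      card_eq_sum_card_image g S
    rw [this]
    push_cast
    calc ∑ c ∈ S.image g, ((S.filter fun t => g t = c).card : ℝ) ≤ ∑ c ∈ S.image g, A := by
          refine sum_le_sum fun c hc => ?_
          obtain ⟨t0, ht0, rfl⟩ := mem_image.1 hc
          exact hA t0 ht0
      _ = (S.image g).card * A := by rw [sum_const, nsmul_eq_mul]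
  have h2 : S.image g ⊆ Fintype.piFinset fun j => Icc (g i0 j - n) (g i0 j + n) := by
    intro c hc
    obtain ⟨t, ht, rfl⟩ := mem_image.1 hc
    rw [Fintype.mem_piFinset]
    exact hg t ht
  have h3 : ((S.image g).card : ℝ) ≤ (2 * n + 1) ^ k := by
    have := card_le_card h2
    rw [Fintype.card_piFinset] at this
    have h5 : ∀ j : Fin k, (Icc (g i0 j - n) (g i0 j + n)).card = 2 * n + 1 := by
      intro j; rw [Int.card_Icc]; omega
    simp only [h5, prod_const, card_univ, Fintype.card_fin] at this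
    exact_mod_cast this
  exact h1.trans (mul_le_mul_of_nonneg_right h3 hA0)

/-! ### the linear function through a ray -/

/-- `⟨e, x - a + s C⟩`. -/
noncomputable def linf (e C a : E2) : Cf E2 where
  a0 := -inner ℝ e a
  a1 := inner ℝ e C
  be := e
  g := 0
  d := 0

theorem linf_ev (e C a x : E2) (y s : ℝ) : (linf e C a).ev x y s = inner ℝ e (x - a + s • C) := by
  unfold linf Cf.ev
  simp only []
  rw [inner_add_right, inner_sub_right, real_inner_smul_right]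
  ring

theorem linf_disc {e : E2} (he : ‖e‖ = 1) (C a : E2) : (linf e C a).disc = 1 := by
  unfold linf Cf.disc
  simp only []
  rw [he]; ring

theorem linf_ny (e C a : E2) (s : ℝ) : (linf e C a).ny s = 0 := by
  unfold linf Cf.ny; ring

/-! ### the member of length `1` based at a ray -/

/-- member of length `1` based at the ray `r`, aperture `sg`, slab `|phi| ≤ s1` -/
noncomputable def mem1 (sg s1 : ℝ) (phi : Cf E2) (r : E2 × E2 × ℝ) : Mem where
  c := r.1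
  sg := sg
  s1 := s1
  R := 1
  X0 := rpos r 0
  s0 := 0
  phi := phi

theorem ld_of_ray {p : Cf E2} {C a : E2} {k w : ℝ}
    (h : ∀ s : ℝ, |s| ≤ 1 → |p.ev (rx C a s) (ry C k s) s| ≤ w) :
    |p.ld C (rx C a 0) (ry C k 0) 0| ≤ w := by
  have h1 := Cf.ev_along p C (rx C a 0) (ry C k 0) 0 1
  have h2 := Cf.ev_along p C (rx C a 0) (ry C k 0) 0 (-1)
  have e1 : rx C a 0 - (1:ℝ) • C = rx C a 1 := by unfold rx; simp
  have e2 : ry C k 0 + 1 * ‖C‖ ^ 2 / 2 = ry C k 1 := by unfold ry; ring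
  have e3 : rx C a 0 - (-1:ℝ) • C = rx C a (-1) := by unfold rx; simp
  have e4 : ry C k 0 + -1 * ‖C‖ ^ 2 / 2 = ry C k (-1) := by unfold ry; ring
  rw [e1, e2, zero_add] at h1
  rw [e3, e4, zero_add] at h2
  have h3 := abs_le.1 (h 1 (by norm_num))
  have h4 := abs_le.1 (h (-1) (by norm_num))
  rw [h1] at h3
  rw [h2] at h4
  rw [abs_le]
  constructor <;> linarith [h3.1, h3.2, h4.1, h4.2]

/-! ### splitting into cells -/

/-- relative null position of `r` in the frame of `r0`. -/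
noncomputable def rn (r r0 : E2 × E2 × ℝ) : ℝ := (r.2.2 - r0.2.2) + inner ℝ r0.1 (r.2.1 - r0.2.1)

/-- the number of cells. -/
def nK : ℕ := 2097152

open Classical in
theorem cells_bound {ι : Type*} (S : Finset ι) (L : ι → E2 × E2 × ℝ) (i0 : ι) {σ T0 : ℝ}
    (hσ : 0 < σ) (hT : σ ^ 2 ≤ T0)
    (hC : ∀ i ∈ S, ‖(L i).1 - (L i0).1‖ ≤ 24 * σ)
    (ha : ∀ i ∈ S, ‖(L i).2.1 - (L i0).2.1‖ ≤ 24 * σ)
    (hn : ∀ i ∈ S, |rn (L i) (L i0)| ≤ 262144 * T0) {A : ℝ} (hA0 : 0 ≤ A)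
    (hA : ∀ i ∈ S, ((S.filter fun t => ‖(L t).1 - (L i).1‖ ≤ σ / 128 ∧
      ‖(L t).2.1 - (L i).2.1‖ ≤ σ / 128 ∧ |rn (L t) (L i)| ≤ T0 / 2).card : ℝ) ≤ A) :
    (S.card : ℝ) ≤ (2 * nK + 1) ^ 5 * A := by
  have hT0 : 0 < T0 := lt_of_lt_of_le (pow_pos hσ 2) hT
  set et : ι → ℝ := fun i => (L i).2.2 + inner ℝ (L i0).1 (L i).2.1 with het
  set g : ι → Fin 5 → ℤ := fun i => ![⌊(L i).1 0 / (σ / 256)⌋, ⌊(L i).1 1 / (σ / 256)⌋,
    ⌊(L i).2.1 0 / (σ / 256)⌋, ⌊(L i).2.1 1 / (σ / 256)⌋, ⌊et i / (T0 / 8)⌋] with hg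
  have hs64 : (0:ℝ) < σ / 256 := by positivity
  have hT8 : (0:ℝ) < T0 / 8 := by positivity
  have hnK : (nK : ℝ) = 2097152 := by unfold nK; norm_num
  refine card_le_cells S g (n := nK) i0 ?_ hA0 ?_
  · intro i hi j
    have c1 := hC i hi
    have a1 := ha i hi
    have n1 := hn i hi
    have b : ∀ {x y : ℝ}, |x - y| ≤ 24 * σ → |x - y| ≤ nK * (σ / 256) := by
      intro x y h
      rw [hnK]
      linarith
    fin_cases j
    · exact floor_mem_Icc hs64 (b ((abs_coord_le ((L i).1 - (L i0).1) 0).trans c1))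
    · exact floor_mem_Icc hs64 (b ((abs_coord_le ((L i).1 - (L i0).1) 1).trans c1))
    · exact floor_mem_Icc hs64 (b ((abs_coord_le ((L i).2.1 - (L i0).2.1) 0).trans a1))
    · exact floor_mem_Icc hs64 (b ((abs_coord_le ((L i).2.1 - (L i0).2.1) 1).trans a1))
    · refine floor_mem_Icc hT8 ?_
      have e : et i - et i0 = rn (L i) (L i0) := by
        simp only [het, rn, inner_sub_right]; ring
      rw [e, hnK]
      linarith
  · intro i hi
    refine le_trans (Nat.cast_le.2 (card_le_card fun t ht => ?_)) (hA i hi)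
    rw [mem_filter] at ht ⊢
    refine ⟨ht.1, ?_⟩
    have h0 := congrFun ht.2 0
    have h1 := congrFun ht.2 1
    have h2 := congrFun ht.2 2
    have h3 := congrFun ht.2 3
    have h4 := congrFun ht.2 4
    simp only [hg, Matrix.cons_val_zero, Matrix.cons_val_one, Matrix.cons_val] at h0 h1 h2 h3 h4
    have k0 := abs_le_of_floor hs64 h0
    have k1 := abs_le_of_floor hs64 h1
    have k2 := abs_le_of_floor hs64 h2
    have k3 := abs_le_of_floor hs64 h3
    have k4 := abs_le_of_floor hT8 h4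
    have d1 : ‖(L t).1 - (L i).1‖ ≤ σ / 128 := by
      refine (norm2_le _).trans ?_
      simp only [PiLp.sub_apply]
      linarith
    have d2 : ‖(L t).2.1 - (L i).2.1‖ ≤ σ / 128 := by
      refine (norm2_le _).trans ?_
      simp only [PiLp.sub_apply]
      linarith
    refine ⟨d1, d2, ?_⟩
    have e : rn (L t) (L i) = (et t - et i) +
        inner ℝ ((L i).1 - (L i0).1) ((L t).2.1 - (L i).2.1) := by
      simp only [het, rn, inner_sub_right, inner_sub_left]; ring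
    rw [e]
    refine (abs_add_le _ _).trans ?_
    have h5 : |inner ℝ ((L i).1 - (L i0).1) ((L t).2.1 - (L i).2.1)| ≤ 24 * σ * (σ / 128) :=
      (abs_real_inner_le_norm _ _).trans
        (mul_le_mul (hC i hi) d2 (norm_nonneg _) (by positivity))
    nlinarith

/-! ### old coordinates: membership in `mem1` -/

theorem mem1_T {σ s1 : ℝ} {phi : Cf E2} {r : E2 × E2 × ℝ} :
    (mem1 σ s1 phi r).T 0 = σ ^ 2 := by
  unfold Mem.T mem1
  simp only [zero_div]
  exact max_eq_left (sq_nonneg σ)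

theorem mem1_rays {σ s1 : ℝ} {phi : Cf E2} {r r0 : E2 × E2 × ℝ} (hσ : 0 < σ)
    (h1 : ‖r.1 - r0.1‖ ≤ σ / 128) (h2 : ‖r.2.1 - r0.2.1‖ ≤ σ / 128)
    (h3 : |rn r r0| ≤ σ ^ 2 / 2)
    (h4 : ∀ s : ℝ, |s| ≤ 1 → |phi.ev (rx r.1 r.2.1 s) (ry r.1 r.2.2 s) s| ≤ s1) :
    r ∈ (mem1 σ s1 phi r0).rays 0 := by
  rw [Mem.mem_rays, mem1_T]
  refine ⟨?_, ?_⟩
  · show ‖r.1 - r0.1‖ ≤ σ
    linarith
  · intro s hs
    have hs' : |s| ≤ 1 := by
      have : |s - 0| ≤ 1 := hs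
      rwa [sub_zero] at this
    refine ⟨⟨hs, ?_, ?_⟩, ?_⟩
    · show ‖rx r.1 r.2.1 s - lat (rpos r0 0) + (s - 0) • r0.1‖ ≤ σ * 1
      have e : rx r.1 r.2.1 s - lat (rpos r0 0) + (s - 0) • r0.1 =
          (r.2.1 - r0.2.1) - s • (r.1 - r0.1) := by
        rw [lat_rpos]; unfold rx; module
      rw [e]
      refine (norm_sub_le _ _).trans ?_
      rw [norm_smul, Real.norm_eq_abs]
      have : |s| * ‖r.1 - r0.1‖ ≤ 1 * (σ / 128) := mul_le_mul hs' h1 (norm_nonneg _) zero_le_one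
      linarith
    · show |nrm r0.1 (rx r.1 r.2.1 s) (ry r.1 r.2.2 s) s - nrm r0.1 (lat (rpos r0 0)) (rpos r0 0 2) 0|
        ≤ σ ^ 2 * 1
      rw [lat_rpos, rpos_two, nrm_ray', nrm_ray']
      have e : r.2.2 + inner ℝ r0.1 r.2.1 + s * ‖r.1 - r0.1‖ ^ 2 / 2 -
          (r0.2.2 + inner ℝ r0.1 r0.2.1 + 0 * ‖r0.1 - r0.1‖ ^ 2 / 2) =
          rn r r0 + s * (‖r.1 - r0.1‖ ^ 2 / 2) := by
        unfold rn; rw [inner_sub_right]; ring
      rw [e]
      refine (abs_add_le _ _).trans ?_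
      rw [abs_mul, abs_of_nonneg (a := ‖r.1 - r0.1‖ ^ 2 / 2) (by positivity)]
      have h5 : ‖r.1 - r0.1‖ ^ 2 ≤ (σ / 128) ^ 2 := pow_le_pow_left₀ (norm_nonneg _) h1 2
      have h6 : |s| * (‖r.1 - r0.1‖ ^ 2 / 2) ≤ 1 * ((σ / 128) ^ 2 / 2) :=
        mul_le_mul hs' (by linarith) (by positivity) zero_le_one
      nlinarith
    · show |phi.ev (rx r.1 r.2.1 s) (ry r.1 r.2.2 s) s| ≤ s1 * 1
      rw [mul_one]
      exact h4 s hs'

theorem mem1_ok {M σ s1 : ℝ} {phi : Cf E2} {r : E2 × E2 × ℝ} (hM : 1 ≤ M) (hs1 : 0 < s1)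
    (hsσ : s1 ≤ σ) (hdisc : phi.disc = 1)
    (hny : ∀ s : ℝ, |s| ≤ 1 → |phi.ny s| * σ ^ 2 ≤ M * σ)
    (h4 : ∀ s : ℝ, |s| ≤ 1 → |phi.ev (rx r.1 r.2.1 s) (ry r.1 r.2.2 s) s| ≤ s1) :
    (mem1 σ s1 phi r).Ok M 0 := by
  have hσ : 0 < σ := hs1.trans_le hsσ
  have h5 : s1 ≤ M * σ := by nlinarith
  refine ⟨one_pos, hs1, hsσ, ?_⟩
  rw [mem1_T]
  refine ⟨hdisc, fun s hs => hny s ?_, ?_, ?_⟩
  · have : |s - 0| ≤ 1 := hs
    rwa [sub_zero] at this
  · show |phi.ld r.1 (lat (rpos r 0)) (rpos r 0 2) 0| ≤ M * σ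
    rw [lat_rpos, rpos_two]
    exact (ld_of_ray h4).trans h5
  · show |phi.ev (lat (rpos r 0)) (rpos r 0 2) 0| ≤ M * σ * 1
    rw [lat_rpos, rpos_two, mul_one]
    exact (h4 0 (by norm_num)).trans h5

end Crest.Agent.R116.Ene618
end

-- ▼ part R116/Ene3_618
section

/-!
# R116, K2 (ENEMY), part 3 (helper618): `up_count`
-/

set_option autoImplicit false
set_option linter.unusedVariables false

open Finset

namespace Crest.Agent.R116.Ene618

open Crest.Agent.R116.LZg725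
open Crest.Agent.R138.Defs (E2)
open Crest.Agent.R116.CDef480 (E3 lat pt vel)

/-- the new ray: `lam = 1/64`, `mu = 1/4`, `tau = 1/2`. -/
noncomputable def nr (r : E2 × E2 × ℝ) : E2 × E2 × ℝ :=
  (sC (1 / 64) (1 / 4) r.1, sa (1 / 64) (1 / 4) (1 / 2) r.1 r.2.1,
    sk (1 / 64) (1 / 4) (1 / 2) r.1 r.2.2)

theorem nr_rx (r : E2 × E2 × ℝ) (s : ℝ) :
    rx (nr r).1 (nr r).2.1 (1 / 4 * s + 1 / 2) = (1 / 64 : ℝ) • rx r.1 r.2.1 s :=
  rx_sR (1 / 64) (by norm_num) (1 / 2) r.1 r.2.1 s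

theorem nr_ry (r : E2 × E2 × ℝ) (s : ℝ) :
    ry (nr r).1 (nr r).2.2 (1 / 4 * s + 1 / 2) = 1 / 1024 * ry r.1 r.2.2 s := by
  have := ry_sR (1 / 64) (mu := 1 / 4) (by norm_num) (1 / 2) r.1 r.2.2 s
  rw [show ((1 / 64 : ℝ) ^ 2 / (1 / 4)) = 1 / 1024 by norm_num] at this
  exact this

/-- the slope of the new ray. -/
theorem nr_C (r : E2 × E2 × ℝ) : (nr r).1 = (1 / 16 : ℝ) • r.1 := by
  unfold nr sC; norm_num

theorem nr_back (p : Cf E2) (r : E2 × E2 × ℝ) (s : ℝ) :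
    (back (1 / 64) (1 / 4) (1 / 2) p).ev (rx r.1 r.2.1 s) (ry r.1 r.2.2 s) s =
      64 * p.ev (rx (nr r).1 (nr r).2.1 (1 / 4 * s + 1 / 2))
        (ry (nr r).1 (nr r).2.2 (1 / 4 * s + 1 / 2)) (1 / 4 * s + 1 / 2) := by
  have := back_ray (lam := 1 / 64) (mu := 1 / 4) (by norm_num) (by norm_num) (1 / 2) p r.1 r.2.1
    r.2.2 s
  unfold nr
  simp only []
  rw [← this]
  ring

section

variable {M' : ℝ} {m : Mem}

theorem T_zero (m : Mem) : m.T 0 = m.sg ^ 2 := by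
  unfold Mem.T
  rw [zero_div]
  exact max_eq_left (sq_nonneg _)

theorem scost_zero (m : Mem) : m.scost 0 = m.s1 * m.sg * m.sg ^ 2 * m.R ^ 3 := by
  unfold Mem.scost
  rw [T_zero]

/-- consequences of membership in the new member. -/
theorem in_new (hm : m.Ok M' 0) (hR : ∀ s : ℝ, |s| ≤ 1 → |1 / 4 * s + 1 / 2 - m.s0| ≤ m.R)
    {r r0 : E2 × E2 × ℝ} (h : nr r ∈ m.rays 0) (h0 : nr r0 ∈ m.rays 0) :
    ‖r.1 - r0.1‖ ≤ 32 * m.sg ∧ ‖r.2.1 - r0.2.1‖ ≤ 128 * (m.sg * m.R) ∧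
      |rn r r0| ≤ 4096 * (m.sg ^ 2 * m.R) ∧
      ∀ s : ℝ, |s| ≤ 1 → |(back (1 / 64) (1 / 4) (1 / 2) m.phi).ev (rx r.1 r.2.1 s)
        (ry r.1 r.2.2 s) s| ≤ 64 * (m.s1 * m.R) := by
  rw [Mem.mem_rays, T_zero] at h h0
  obtain ⟨hc, hk⟩ := h
  obtain ⟨hc0, hk0⟩ := h0
  have hsg := hm.sg_pos
  have hRp := hm.hR
  have hhalf : |(1 / 2 : ℝ) - m.s0| ≤ m.R := by
    have := hR 0 (by norm_num)
    simpa using this
  obtain ⟨⟨-, p1, p2⟩, -⟩ := hk _ hhalf
  obtain ⟨⟨-, q1, q2⟩, -⟩ := hk0 _ hhalf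
  have ex : ∀ r : E2 × E2 × ℝ, rx (nr r).1 (nr r).2.1 (1 / 2) = (1 / 64 : ℝ) • r.2.1 := by
    intro r
    have := nr_rx r 0
    simpa [rx] using this
  have ey : ∀ r : E2 × E2 × ℝ, ry (nr r).1 (nr r).2.2 (1 / 2) = 1 / 1024 * r.2.2 := by
    intro r
    have := nr_ry r 0
    simpa [ry] using this
  rw [ex] at p1 p2 q1 q2
  rw [ey] at p2 q2
  -- slopes
  have eC : (nr r).1 - (nr r0).1 = (1 / 16 : ℝ) • (r.1 - r0.1) := by
    rw [nr_C, nr_C, smul_sub]
  have f1 : ‖r.1 - r0.1‖ ≤ 32 * m.sg := by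
    have e1 : ‖(nr r).1 - (nr r0).1‖ ≤ 2 * m.sg := by
      have e2 : (nr r).1 - (nr r0).1 = ((nr r).1 - m.c) - ((nr r0).1 - m.c) := by abel
      rw [e2]
      exact (norm_sub_le _ _).trans (by linarith)
    rw [eC, norm_smul, Real.norm_of_nonneg (by norm_num)] at e1
    linarith
  -- lateral positions
  have d1 : ‖(1 / 64 : ℝ) • (r.2.1 - r0.2.1)‖ ≤ 2 * (m.sg * m.R) := by
    have e2 : (1 / 64 : ℝ) • (r.2.1 - r0.2.1) =
        ((1 / 64 : ℝ) • r.2.1 - lat m.X0 + (1 / 2 - m.s0) • m.c) -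
        ((1 / 64 : ℝ) • r0.2.1 - lat m.X0 + (1 / 2 - m.s0) • m.c) := by
      rw [smul_sub]; abel
    rw [e2]
    exact (norm_sub_le _ _).trans (by linarith)
  have f2 : ‖r.2.1 - r0.2.1‖ ≤ 128 * (m.sg * m.R) := by
    rw [norm_smul, Real.norm_of_nonneg (by norm_num)] at d1
    linarith
  refine ⟨f1, f2, ?_, ?_⟩
  · -- null positions
    set x := (1 / 64 : ℝ) • r.2.1 with hx
    set x0 := (1 / 64 : ℝ) • r0.2.1 with hx0
    have n1 := nrm_sub m.c (nr r0).1 x (1 / 1024 * r.2.2) (1 / 2)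
    have n0 := nrm_sub m.c (nr r0).1 x0 (1 / 1024 * r0.2.2) (1 / 2)
    have e3 : nrm (nr r0).1 x (1 / 1024 * r.2.2) (1 / 2) -
        nrm (nr r0).1 x0 (1 / 1024 * r0.2.2) (1 / 2) = 1 / 1024 * rn r r0 := by
      unfold nrm rn
      rw [nr_C, hx, hx0]
      simp only [real_inner_smul_left, real_inner_smul_right, inner_sub_right]
      ring
    have e4 : inner ℝ ((nr r0).1 - m.c) (x + (1 / 2 : ℝ) • m.c) -
        inner ℝ ((nr r0).1 - m.c) (x0 + (1 / 2 : ℝ) • m.c) =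
        inner ℝ ((nr r0).1 - m.c) (x - x0) := by
      rw [← inner_sub_right]
      congr 1
      abel
    have e5 : |inner ℝ ((nr r0).1 - m.c) (x - x0)| ≤ m.sg * (2 * (m.sg * m.R)) := by
      refine (abs_real_inner_le_norm _ _).trans (mul_le_mul hc0 ?_ (norm_nonneg _) hsg.le)
      rw [hx, hx0, ← smul_sub]
      exact d1
    have e6 : |1 / 1024 * rn r r0| ≤ 2 * (m.sg ^ 2 * m.R) + m.sg * (2 * (m.sg * m.R)) := by
      rw [← e3]
      rw [abs_le] at p2 q2 e5 ⊢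
      constructor <;> linarith [p2.1, p2.2, q2.1, q2.2, e5.1, e5.2]
    rw [abs_mul, abs_of_pos (by norm_num : (0:ℝ) < 1 / 1024)] at e6
    nlinarith
  · intro s hs
    rw [nr_back, abs_mul, abs_of_pos (by norm_num : (0:ℝ) < 64)]
    have := (hk _ (hR s hs)).2
    linarith


end

end Crest.Agent.R116.Ene618
end

-- ▼ part R116/Ene4_618

/-!
# R116, K2 (ENEMY), part 4 (helper618): the top members and the unit container

`fr N l j` = the filled grid ray `(-(gC), gX, gH + j/N²)`; `nr (fr N l j)` = the line of the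
configuration.  `topm` = round member of aperture `1` based at a line; it contains all lines which
pass through the same cell (`top_mem`).  `unitm` contains all lines.
-/

set_option autoImplicit false
set_option linter.unusedVariables false

open Finset

namespace Crest.Agent.R116.Ene618

open Crest.Agent.R116.LZg725
open Crest.Agent.R138.Defs (E2)
open Crest.Agent.R116.CDef480 (E3 lat pt vel)
open Crest.Agent.R116.Ks79


/-- a unit vector. -/
noncomputable def ue : E2 := e1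

theorem norm_ue : ‖ue‖ = 1 := norm_e1

section

variable {N : ℕ}

theorem norm_gC (hN : 1 ≤ N) {l : GRay} (h : Bd N l) : ‖gC N l‖ ≤ 2 := by
  have hN0 : (0 : ℝ) < N := by exact_mod_cast hN
  obtain ⟨h1, h2, -, -, -⟩ := h
  have h1' : |(l.1.1.1 : ℝ)| ≤ N := by exact_mod_cast h1
  have h2' : |(l.1.1.2 : ℝ)| ≤ N := by exact_mod_cast h2
  refine (norm2_le _).trans ?_
  have e1 : |(gC N l) 0| ≤ 1 := by
    show |(l.1.1.1 : ℝ) / N| ≤ 1
    rw [abs_div, abs_of_pos hN0, div_le_one hN0]; exact h1'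
  have e2 : |(gC N l) 1| ≤ 1 := by
    show |(l.1.1.2 : ℝ) / N| ≤ 1
    rw [abs_div, abs_of_pos hN0, div_le_one hN0]; exact h2'
  linarith

theorem norm_gC' (hN : 1 ≤ N) {l : GRay} (h : Bd N l) : ‖gC N l‖ ≤ 3 / 2 := by
  have hN0 : (0 : ℝ) < N := by exact_mod_cast hN
  obtain ⟨h1, h2, -, -, -⟩ := h
  have h1' : |(l.1.1.1 : ℝ)| ≤ N := by exact_mod_cast h1
  have h2' : |(l.1.1.2 : ℝ)| ≤ N := by exact_mod_cast h2
  have e1 : |(gC N l) 0| ≤ 1 := by
    show |(l.1.1.1 : ℝ) / N| ≤ 1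
    rw [abs_div, abs_of_pos hN0, div_le_one hN0]; exact h1'
  have e2 : |(gC N l) 1| ≤ 1 := by
    show |(l.1.1.2 : ℝ) / N| ≤ 1
    rw [abs_div, abs_of_pos hN0, div_le_one hN0]; exact h2'
  have h := CDef480.normsq2 (gC N l)
  have a1 : (gC N l) 0 ^ 2 ≤ 1 := by rw [← sq_abs]; nlinarith [abs_nonneg ((gC N l) 0)]
  have a2 : (gC N l) 1 ^ 2 ≤ 1 := by rw [← sq_abs]; nlinarith [abs_nonneg ((gC N l) 1)]
  nlinarith [norm_nonneg (gC N l)]

theorem norm_gX' (hN : 1 ≤ N) {l : GRay} (h : Bd N l) : ‖gX N l‖ ≤ 3 / 2 := by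
  have hN0 : (0 : ℝ) < N := by exact_mod_cast hN
  obtain ⟨-, -, h1, h2, -⟩ := h
  have h1' : |(l.1.2.1 : ℝ)| ≤ N := by exact_mod_cast h1
  have h2' : |(l.1.2.2 : ℝ)| ≤ N := by exact_mod_cast h2
  have e1 : |(gX N l) 0| ≤ 1 := by
    show |(l.1.2.1 : ℝ) / N| ≤ 1
    rw [abs_div, abs_of_pos hN0, div_le_one hN0]; exact h1'
  have e2 : |(gX N l) 1| ≤ 1 := by
    show |(l.1.2.2 : ℝ) / N| ≤ 1
    rw [abs_div, abs_of_pos hN0, div_le_one hN0]; exact h2'
  have h := CDef480.normsq2 (gX N l)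
  have a1 : (gX N l) 0 ^ 2 ≤ 1 := by rw [← sq_abs]; nlinarith [abs_nonneg ((gX N l) 0)]
  have a2 : (gX N l) 1 ^ 2 ≤ 1 := by rw [← sq_abs]; nlinarith [abs_nonneg ((gX N l) 1)]
  nlinarith [norm_nonneg (gX N l)]

theorem abs_gH (hN : 1 ≤ N) {l : GRay} (h : Bd N l) : |gH N l| ≤ 1 := by
  have hN0 : (0 : ℝ) < N := by exact_mod_cast hN
  obtain ⟨-, -, -, -, h1⟩ := h
  have h1' : |(l.2 : ℝ)| ≤ N := by exact_mod_cast h1
  unfold gH
  rw [abs_div, abs_of_pos hN0, div_le_one hN0]; exact h1'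



end

/-! ### the top member -/

/-- round member of aperture `1` based at a ray. -/
noncomputable def topm (R s0 : ℝ) (r : E2 × E2 × ℝ) : Mem where
  c := r.1
  sg := 1
  s1 := 1
  R := R
  X0 := rpos r s0
  s0 := s0
  phi := linf ue r.1 r.2.1

theorem linf_own (C a : E2) (y s : ℝ) : (linf ue C a).ev (rx C a s) y s = 0 := by
  rw [linf_ev]
  unfold rx
  rw [sub_right_comm, sub_self, zero_sub, neg_add_cancel, inner_zero_right]

theorem linf_ld (C a x : E2) (y s : ℝ) : (linf ue C a).ld C x y s = 0 := by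
  unfold Cf.ld linf Cf.ny
  simp

theorem topm_ok {M R s0 : ℝ} (hM : 0 ≤ M) (hR : 0 < R) (r : E2 × E2 × ℝ) :
    (topm R s0 r).Ok M 0 := by
  refine ⟨hR, one_pos, le_rfl, ?_⟩
  refine ⟨linf_disc norm_ue _ _, ?_, ?_, ?_⟩
  · intro s _
    show |(linf ue r.1 r.2.1).ny s| * _ ≤ M * 1
    rw [linf_ny, abs_zero, zero_mul, mul_one]; exact hM
  · show |(linf ue r.1 r.2.1).ld r.1 _ _ _| ≤ M * 1
    rw [linf_ld, abs_zero, mul_one]; exact hM
  · show |(linf ue r.1 r.2.1).ev (lat (rpos r s0)) _ s0| ≤ M * 1 * R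
    rw [lat_rpos, linf_own, abs_zero]
    positivity

/-- membership in the top member. -/
theorem mem_topm {R s0 : ℝ} {r r' : E2 × E2 × ℝ} (hC : ‖r'.1 - r.1‖ ≤ 1)
    (hx : ∀ s : ℝ, |s - s0| ≤ R → ‖rx r'.1 r'.2.1 s - rx r.1 r.2.1 s‖ ≤ R)
    (hn : ∀ s : ℝ, |s - s0| ≤ R →
      |nrm r.1 (rx r'.1 r'.2.1 s) (ry r'.1 r'.2.2 s) s - (r.2.2 + inner ℝ r.1 r.2.1)| ≤ R) :
    r' ∈ (topm R s0 r).rays 0 := by
  rw [Mem.mem_rays, T_zero]
  refine ⟨hC, fun s hs => ⟨⟨hs, ?_, ?_⟩, ?_⟩⟩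
  · show ‖rx r'.1 r'.2.1 s - lat (rpos r s0) + (s - s0) • r.1‖ ≤ 1 * R
    have e : rx r'.1 r'.2.1 s - lat (rpos r s0) + (s - s0) • r.1 =
        rx r'.1 r'.2.1 s - rx r.1 r.2.1 s := by
      rw [lat_rpos]; unfold rx; module
    rw [e, one_mul]
    exact hx s hs
  · show |nrm r.1 (rx r'.1 r'.2.1 s) (ry r'.1 r'.2.2 s) s -
      nrm r.1 (lat (rpos r s0)) (rpos r s0 2) s0| ≤ 1 ^ 2 * R
    rw [lat_rpos, rpos_two, nrm_ray, one_pow, one_mul]
    exact hn s hs
  · show |(linf ue r.1 r.2.1).ev (rx r'.1 r'.2.1 s) (ry r'.1 r'.2.2 s) s| ≤ 1 * R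
    rw [linf_ev, one_mul]
    refine (abs_real_inner_le_norm _ _).trans ?_
    rw [norm_ue, one_mul]
    have e : rx r'.1 r'.2.1 s - r.2.1 + s • r.1 = rx r'.1 r'.2.1 s - rx r.1 r.2.1 s := by
      unfold rx; module
    rw [e]
    exact hx s hs


/-! ### the unit container -/

/-- the unit member. -/
noncomputable def unitm : Mem where
  c := 0
  sg := 1
  s1 := 1
  R := 1
  X0 := 0
  s0 := 1 / 2
  phi := linf ue 0 0




end Crest.Agent.R116.Ene618
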