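import Crest.Agent.R116.Rcx3_363
import Crest.Agent.R116.Kz3_647

-- ▼ part R116/Rcx4_363
section

/-!
# R116 (K side, TIES), the producer, part 4 (helper363): class level

`RL8` : `anti8`, `cost8` (`B` counted twice), `own8`, `dm8`, `rec8`;  `RL9` the same.
-/

set_option autoImplicit false
set_option linter.unusedVariables false

open Set Filter Topology MeasureTheory

namespace Crest.Agent.R116.Rcx363

open Crest.Agent.R136
open Crest.Agent.R136.Net191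
open Crest.Agent.R116.ChL222
open Crest.Agent.R116.PL504 (eL βL)
open Crest.Agent.R116.Xd954 (cs xs)
open Crest.Agent.R116.Sg337 (coneL DL natB eL_bx9)
open Crest.Agent.R116.RbM219
open Crest.Agent.R116.RbK219 (SOk RS)
open Crest.Agent.R116.SgO219 (PP)
open Dg219 (mw)
open Sl741 (slice xt rs)



section eight

variable {s : ℝ} {a b : Fin 2} {Vis : Fin 12 → Prop} {θa θb g qa qb t : ℝ}
    {lam : (Fin 12 → ℝ) → ℝ}

/-- the box of a class vector, `D` frozen -/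
def b8 (w : Fin 8 → ℝ) : Fin 12 → ℝ := xt kp 0 (RL8.vec w)

theorem b8_val (w : Fin 8 → ℝ) {k : Fin 12} (hk : k ≠ 1) : b8 w k = w (cl8 k) := by
  unfold b8
  rw [Sl741.xt_in (p := kp) _ _ hk]
  simp [RS.vec, RL8]

theorem b8_one (w : Fin 8 → ℝ) : b8 w 1 = 0 := by
  unfold b8
  rw [Sl741.xt_off (p := kp) _ _ (by simp [kp])]
  rfl

theorem b8_mem (ht : t ≠ 0) {w : Fin 8 → ℝ} (hw : Leg8 w) : b8 w ∈ L8 θa θb t := by
  intro W hW
  obtain ⟨k, e, he⟩ := W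
  have hk : k ≠ 1 := kp_hd ⟨k, e, he⟩
  have h1 : e 1 = 0 := by
    have hx : y8 t k = ∑ s, (e s : ℝ) * y8 t s + 0 := hW.1
    have h2 : ∑ s, (e s : ℝ) * y8 t s = (e 1 : ℝ) * t := by
      rw [Finset.sum_eq_single (1 : Fin 12)]
      · unfold y8; rw [Function.update_self]
      · intro s _ hs; rw [y8_at hs, mul_zero]
      · intro h; exact absurd (Finset.mem_univ _) h
    rw [y8_at hk, h2, add_zero] at hx
    rcases mul_eq_zero.1 hx.symm with h | h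
    · exact_mod_cast h
    · exact absurd h ht
  change b8 w k ≤ ∑ s, (e s : ℝ) * b8 w s
  -- compare with a large value of `D`
  set c : Fin 12 → ℝ := Function.update (b8 w) 1 (10 * ‖w‖ + 1) with hc
  have hcc : c ∈ coneL := by
    rw [coneL_PP, mem_cone]
    have hn : ∀ i, |w i| ≤ ‖w‖ := fun i => by
      have := norm_le_pi_norm w i; rwa [Real.norm_eq_abs] at this
    have hv : ∀ i : Fin 12, i ≠ 1 → c i = w (cl8 i) := fun i hi => by
      rw [hc, Function.update_of_ne hi, b8_val w hi]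
    have h1 : c 1 = 10 * ‖w‖ + 1 := by rw [hc, Function.update_self]
    obtain ⟨f1, f2, f3, f4, f5, f6, f7⟩ := hw
    have q0 : c 0 = w 0 := hv 0 (by decide)
    have q2 : c 2 = w 7 := hv 2 (by decide)
    have q3 : c 3 = w 1 := hv 3 (by decide)
    have q4 : c 4 = w 1 := hv 4 (by decide)
    have q5 : c 5 = w 3 := hv 5 (by decide)
    have q6 : c 6 = w 3 := hv 6 (by decide)
    have q7 : c 7 = w 6 := hv 7 (by decide)
    have q8 : c 8 = w 6 := hv 8 (by decide)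
    have q9 : c 9 = w 5 := hv 9 (by decide)
    have q10 : c 10 = w 2 := hv 10 (by decide)
    have q11 : c 11 = w 4 := hv 11 (by decide)
    have hN : 0 ≤ ‖w‖ := norm_nonneg _
    have b0 := abs_le.1 (hn 0)
    have b1 := abs_le.1 (hn 1)
    have b2 := abs_le.1 (hn 2)
    have b3 := abs_le.1 (hn 3)
    have b4 := abs_le.1 (hn 4)
    have b5 := abs_le.1 (hn 5)
    have b6 := abs_le.1 (hn 6)
    have b7 := abs_le.1 (hn 7)
    unfold Wl
    rw [q0, q2, q3, q4, q5, q6, q7, q8, q9, q10, q11, h1]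
    refine ⟨?_, ?_, ?_, ?_, ?_, ?_, ?_, ?_, ?_, ?_, ?_, ?_, ?_, ?_, ?_, ?_⟩ <;>
      linarith [b0.1, b0.2, b1.1, b1.2, b2.1, b2.2, b3.1, b3.2, b4.1, b4.2, b5.1, b5.2, b6.1,
        b6.2, b7.1, b7.2]
  have h2 := hcc k e he
  have h3 : c k = b8 w k := by rw [hc, Function.update_of_ne hk]
  rw [h3] at h2
  refine h2.trans (le_of_eq (Finset.sum_congr rfl fun i _ => ?_))
  by_cases hi : i = 1
  · subst hi; rw [h1]; simp
  · rw [hc, Function.update_of_ne hi]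

theorem b8_le {w w' : Fin 8 → ℝ} (h : w ≤ w') : b8 w ≤ b8 w' := by
  intro k
  by_cases hk : k = 1
  · subst hk; rw [b8_one, b8_one]
  · rw [b8_val w hk, b8_val w' hk]; exact h _

theorem b8_nat (v c p : ℝ) : b8 (nat8 v c p) = ntD 0 v c p := RL8_nat v c p

theorem b8_anti (H : Prf (L8 θa θb t) s a b Vis (βL θa θb) lam) (ht : t ≠ 0) :
    ∀ w w' : Fin 8 → ℝ, Leg8 w → Leg8 w' → w ≤ w' → lam (b8 w') ≤ lam (b8 w) := by
  intro w w' h1 h2 hw
  have := (H.anti _ (b8_mem ht h1) _ (b8_mem ht h2) (b8_le hw)).1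
  linarith




end eight

section nine

variable {s : ℝ} {a b : Fin 2} {Vis : Fin 12 → Prop} {θa θb g qa qb : ℝ}
    {lam : (Fin 12 → ℝ) → ℝ}

theorem v9_val (w : Fin 9 → ℝ) (k : Fin 12) : RL9.vec w k = w (cl9 k) := by
  simp [RS.vec, RL9]

theorem v9_mem {w : Fin 9 → ℝ} (hw : Leg9 w) : RL9.vec w ∈ coneL := by
  rw [coneL_PP]; exact RL9_mem hw

theorem v9_le {w w' : Fin 9 → ℝ} (h : w ≤ w') : RL9.vec w ≤ RL9.vec w' := by
  intro k
  rw [v9_val, v9_val]; exact h _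

theorem v9_anti (H : Prf coneL s a b Vis (βL θa θb) lam) :
    ∀ w w' : Fin 9 → ℝ, Leg9 w → Leg9 w' → w ≤ w' → lam (RL9.vec w') ≤ lam (RL9.vec w) := by
  intro w w' h1 h2 hw
  have := (H.anti _ (v9_mem h1) _ (v9_mem h2) (v9_le hw)).1
  linarith




end nine

end Crest.Agent.R116.Rcx363
end

-- ▼ part R116/Rcx5_363

/-!
# R116 (K side, TIES), the producer, part 5 (helper363): the generic point of a half plane

`Out8` (the tangents `lam` at the record) + a surface ⊢ (647's `half8`) the tangents `lam2` at the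
generic point `z0` of the half plane, tangents of `(ν, own)` themselves at explicit bases `X m`,
with `Prf` (own law with the visible slots which are tight there).  `z8_out`, `z9_out`.
-/

set_option autoImplicit false
set_option linter.unusedVariables false

open Set Filter Topology MeasureTheory

namespace Crest.Agent.R116.Rcx363

open Crest.Agent.R138.Ex926 (IsTan)
open Crest.Agent.R136
open Crest.Agent.R136.Net191
open Crest.Agent.R116.ChL222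
open Crest.Agent.R116.PL504 (eL βL rL)
open Crest.Agent.R116.Xd954 (cs xs)
open Crest.Agent.R116.Sg337 (coneL DL natB eL_bx9)
open Crest.Agent.R116.RbM219
open Crest.Agent.R116.RbK219 (SOk RS)
open Crest.Agent.R116.SgO219 (PP)
open Crest.Agent.R116.Kz647
open Dg262 (SupOn)
open Dg219 (mw)
open Sl741 (slice xt rs)

section eight

variable {R s : ℝ} {a b : Fin 2} {Vis Vis' : Fin 12 → Prop} {θa θb g qa qb t : ℝ} {T : Type*}
    {Bs : T → Fin 8 → ℝ} {sgs : T → ℝ} {x0 : Fin 12 → ℝ} {f : Fin 2 → (Fin 12 → ℝ) → ℝ}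
    {x : ℕ → Fin 12 → ℝ} {hh : ℕ → ℝ} {lam : Fin 2 → (Fin 12 → ℝ) → ℝ} {B : Fin 8 → ℝ} {sg : ℝ}

theorem Out8.recTan (O : Out8 R s a b Vis θa θb g qa qb t Bs sgs x0 f x hh lam) :
    RecTan (L8 θa θb t) lam 0 12 where
  K0 := by norm_num
  lip := O.lip
  mono := O.rx.prf.anti
  sup := O.rx.prf.sm
  zero := O.zero 0

/-- slope of the D-max bound along an offset which is finer than a natural one -/
theorem Out8.kap (O : Out8 R s a b Vis θa θb g qa qb t Bs sgs x0 f x hh lam) (ht : t ≠ 0)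
    (hL : ∀ y : ℝ, 0 ≤ y → Leg8 (y • B)) {v c p : ℝ} (hn : nat8 v c p ≤ B) {y : ℝ} (hy : 0 ≤ y) :
    lam 0 (xt kp 0 (RL8.vec (y • B))) ≤ DL g s qa qb v c p * y := by
  have e : nat8 (y * v) (y * c) (y * p) = y • nat8 v c p := by
    funext i
    fin_cases i <;> simp [nat8] <;> ring
  have h1 : y • nat8 v c p ≤ y • B := by
    intro i
    simp only [Pi.smul_apply, smul_eq_mul]
    exact mul_le_mul_of_nonneg_left (hn i) hy
  have h2 := b8_anti O.rx.prf ht _ _ (by rw [← e]; exact leg8_nat _ _ _) (hL y hy) h1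
  have h3 := O.rx.dmax (y * v) (y * c) (y * p)
  rw [← b8_nat, e, DL_smul] at h3
  unfold b8 at h2 h3
  linarith

theorem leg8_smul {w : Fin 8 → ℝ} (hw : Leg8 w) {y : ℝ} (hy : 0 ≤ y) : Leg8 (y • w) := by
  obtain ⟨f1, f2, f3, f4, f5, f6, f7⟩ := hw
  constructor <;> simp only [Pi.smul_apply, smul_eq_mul] <;> nlinarith

theorem z8_val (l α : ℝ) {k : Fin 12} (hk : k ≠ 1) :
    z8 θa θb B l α k = l * B (cl8 k) + α * βL θa θb k := by
  have h1 : z8 θa θb B l α k = (l • B + α • nat8 1 (-θa) (-θb)) (cl8 k) := b8_val _ hk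
  rw [h1]
  simp only [Pi.add_apply, Pi.smul_apply, smul_eq_mul]
  congr 2
  fin_cases k <;> first | rfl | exact absurd rfl hk

/-- **`Prf` at the generic point** -/
theorem prf_z8 {lam0 lam2 : (Fin 12 → ℝ) → ℝ} (H : Prf (L8 θa θb t) s a b Vis (βL θa θb) lam0)
    {l α : ℝ} (hl : 0 < l) {h' : ℕ → ℝ} (hpos : ∀ m, 0 < h' m) (h0 : Tendsto h' atTop (𝓝 0))
    (ht : IsTan (L8 θa θb t) (L8B θa θb t B sg) lam0 (fun _ => z8 θa θb B l α) h' lam2)
    (hV1 : ¬ Vis 1)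
    (hV : ∀ k, Vis k → (Vis' k ∧ B (cl8 k) ≤ B 0 * βL θa θb k) ∨
      B (cl8 k) < B 0 * βL θa θb k) :
    Prf (L8B θa θb t B sg) s a b Vis' (βL θa θb) lam2 := by
  have hcs : ∀ c : Fin 2, cs c ≠ 1 := by intro c; fin_cases c <;> decide
  have hxs : ∀ c : Fin 2, xs c ≠ 1 := by intro c; fin_cases c <;> decide
  have z0 : z8 θa θb B l α 0 = l * B 0 + α := by
    rw [z8_val l α (by decide)]
    have e0 : βL θa θb 0 = 1 := rfl
    rw [e0, mul_one]; rfl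
  refine H.tan hpos h0 ht (fun _ => ?_) (fun _ => ?_) fun k hk => ?_
  · rw [z8_val l α (hcs b), z8_val l α (hcs a)]
    congr 2
    · fin_cases a <;> fin_cases b <;> rfl
    · fin_cases a <;> fin_cases b <;> rfl
  · rw [z8_val l α (hxs b), z8_val l α (hxs a)]
    congr 2
    · fin_cases a <;> fin_cases b <;> rfl
    · fin_cases a <;> fin_cases b <;> rfl
  · have hk1 : k ≠ 1 := by rintro rfl; exact hV1 hk
    rcases hV k hk with ⟨h1, h2⟩ | h1
    · refine Or.inl ⟨h1, fun _ => ?_⟩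
      rw [z8_val l α hk1, z0]
      nlinarith
    · refine Or.inr ⟨l * (B 0 * βL θa θb k - B (cl8 k)), mul_pos hl (by linarith),
        Eventually.of_forall fun _ => ?_⟩
      rw [z8_val l α hk1, z0]
      nlinarith

/-- **THE GENERIC POINT OF A HALF PLANE, `D` frozen**: tangents of `f = (ν, own)` at the bases
`X m = rL (v0 + V m) + E m • B` (slots `≠ 1`), `D` raised -/
theorem z8_out (O : Out8 R s a b Vis θa θb g qa qb t Bs sgs x0 f x hh lam) (ht0 : 0 < t)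
    (hS : SOk (nat8 1 (-θa) (-θb)) B sg) (hL : Leg8 B) {c0 : ℝ} (hc0 : 0 < c0) {ρ : Fin 8 → ℝ}
    (hR : Rates8 θa θb t B sg c0 (lam 0) ρ) {v c p : ℝ} (hn : nat8 v c p ≤ B) (hV1 : ¬ Vis 1)
    (hV : ∀ k, Vis k → (Vis' k ∧ B (cl8 k) ≤ B 0 * βL θa θb k) ∨ B (cl8 k) < B 0 * βL θa θb k)
    {N : Set (ℝ × ℝ)} (hN : ∀ᵐ z : ℝ × ℝ, z ∈ N) {y : ℝ} (hy : 0 < y)
    {Pr : ℕ → ℕ → Prop} (hPr : ∀ m, ∀ᶠ l in atTop, Pr m l) :
    ∃ (l α : ℝ) (h' : ℕ → ℝ) (lam2 : Fin 2 → (Fin 12 → ℝ) → ℝ) (ρ2 : Fin 8 → ℝ) (ψ : ℕ → ℕ),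
      0 < l ∧ l < y ∧ ((l * sg, α) : ℝ × ℝ) ∈ N ∧ z8 θa θb B l α ∈ L8 θa θb t ∧
      Half8 θa θb t B sg lam 0 ρ (DL g s qa qb v c p) l α h' lam2 ρ2 ∧
      (∀ j, IsTan (L8 θa θb t) (L8B θa θb t B sg) (lam j) (fun _ => z8 θa θb B l α) h' (lam2 j)) ∧
      (∀ m, 0 < h' m) ∧ Tendsto h' atTop (𝓝 0) ∧ StrictMono ψ ∧ (∀ m, Pr m (ψ m)) ∧
      (∀ j, IsTan (Leg monL R) (L8B θa θb t B sg) (f j)
        (fun m => x (ψ m) + hh (ψ m) • z8 θa θb B l α) (fun m => hh (ψ m) * h' m) (lam2 j)) ∧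
      Prf (L8B θa θb t B sg) s a b Vis' (βL θa θb) (lam2 0) := by
  obtain ⟨l, α, hl, hly, hzN, hzL, H⟩ := half8 ht0 O.recTan hS hL hc0 hR hy
    (O.kap ht0.ne' (fun y hy => leg8_smul hL hy) hn hy.le) hN
  set h1 : ℕ → ℝ := fun l => 1 / ((l : ℝ) + 1) with hh1
  have hpos : ∀ l, 0 < h1 l := fun l => by rw [hh1]; positivity
  have hh0 : Tendsto h1 atTop (𝓝 0) := tendsto_one_div_add_atTop_nhds_zero_nat
  obtain ⟨φ, lam2, ρ2, hφ, hT, hH⟩ := H h1 hpos hh0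
  have hpos' : ∀ m, 0 < h1 (φ m) := fun m => hpos _
  have h0' : Tendsto (fun m => h1 (φ m)) atTop (𝓝 0) := hh0.comp hφ.tendsto_atTop
  obtain ⟨ψ, hψ, hPψ, hTT⟩ := diag_at O.pos O.tan hzL hpos' hT hPr
  exact ⟨l, α, fun m => h1 (φ m), lam2, ρ2, ψ, hl, hly, hzN, hzL, hH, hT, hpos', h0', hψ, hPψ, hTT,
    prf_z8 O.rx.prf hl hpos' h0' (hT 0) hV1 hV⟩

/-- the bases, slots `≠ 1` -/
theorem base8_val {θa θb w0 sa sb v0 H y t hm l α : ℝ} {k : Fin 12} (hk : k ≠ 1) :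
    (rL θa θb w0 sa sb v0 + H • (y8 t + y • r8 θa θb) + hm • z8 θa θb B l α) k =
      rL θa θb w0 sa sb (v0 + (H * y + hm * α)) k + hm * l * B (cl8 k) := by
  rw [rL_add]
  simp only [Pi.add_apply, Pi.smul_apply, smul_eq_mul]
  rw [z8_val l α hk, y8_at hk]
  have h1 : r8 θa θb k = βL θa θb k := by
    unfold r8
    rw [Function.update_of_ne hk]; rfl
  rw [h1]
  ring


end eight

section nine

variable {R s : ℝ} {a b : Fin 2} {Vis Vis' : Fin 12 → Prop} {θa θb g qa qb : ℝ} {T : Type*}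
    {Bs : T → Fin 9 → ℝ} {sgs : T → ℝ} {x0 : Fin 12 → ℝ} {f : Fin 2 → (Fin 12 → ℝ) → ℝ}
    {x : ℕ → Fin 12 → ℝ} {hh : ℕ → ℝ} {lam : Fin 2 → (Fin 12 → ℝ) → ℝ} {B : Fin 9 → ℝ} {sg : ℝ}

theorem Out9.recTan (O : Out9 R s a b Vis θa θb g qa qb Bs sgs x0 f x hh lam) :
    RecTan (PP (mw monL)) lam 0 12 where
  K0 := by norm_num
  lip := by rw [← coneL_PP]; exact O.lip
  mono := by rw [← coneL_PP]; exact O.rx.prf.anti
  sup := by rw [← coneL_PP]; exact O.rx.prf.sm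
  zero := O.zero 0

theorem Out9.kap (O : Out9 R s a b Vis θa θb g qa qb Bs sgs x0 f x hh lam)
    (hL : ∀ y : ℝ, 0 ≤ y → Leg9 (y • B)) {v c p : ℝ} (hn : nat9 v c p ≤ B) {y : ℝ} (hy : 0 ≤ y) :
    lam 0 (RL9.vec (y • B)) ≤ DL g s qa qb v c p * y := by
  have e : nat9 (y * v) (y * c) (y * p) = y • nat9 v c p := by
    funext i
    fin_cases i <;> simp [nat9] <;> ring
  have h1 : y • nat9 v c p ≤ y • B := by
    intro i
    simp only [Pi.smul_apply, smul_eq_mul]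
    exact mul_le_mul_of_nonneg_left (hn i) hy
  have h2 := v9_anti O.rx.prf _ _ (by rw [← e]; exact leg9_nat _ _ _) (hL y hy) h1
  have h3 := O.rx.dmax (y * v) (y * c) (y * p)
  rw [← RL9_nat, e, DL_smul] at h3
  linarith

theorem leg9_smul {w : Fin 9 → ℝ} (hw : Leg9 w) {y : ℝ} (hy : 0 ≤ y) : Leg9 (y • w) := by
  obtain ⟨f1, f2, f3, f4, f5, f6, f7, f8, f9, f10⟩ := hw
  constructor <;> simp only [Pi.smul_apply, smul_eq_mul] <;> nlinarith

theorem z9_val (l α : ℝ) (k : Fin 12) :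
    z9 θa θb B l α k = l * B (cl9 k) + α * βL θa θb k := by
  have h1 : z9 θa θb B l α k = (l • B + α • nat9 1 (-θa) (-θb)) (cl9 k) := v9_val _ _
  rw [h1]
  simp only [Pi.add_apply, Pi.smul_apply, smul_eq_mul]
  congr 2
  fin_cases k <;> rfl

/-- **`Prf` at the generic point** -/
theorem prf_z9 {lam0 lam2 : (Fin 12 → ℝ) → ℝ} (H : Prf coneL s a b Vis (βL θa θb) lam0)
    {l α : ℝ} (hl : 0 < l) {h' : ℕ → ℝ} (hpos : ∀ m, 0 < h' m) (h0 : Tendsto h' atTop (𝓝 0))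
    (ht : IsTan (PP (mw monL)) (L9B θa θb B sg) lam0 (fun _ => z9 θa θb B l α) h' lam2)
    (hV : ∀ k, Vis k → (Vis' k ∧ B (cl9 k) ≤ B 0 * βL θa θb k) ∨
      B (cl9 k) < B 0 * βL θa θb k) :
    Prf (L9B θa θb B sg) s a b Vis' (βL θa θb) lam2 := by
  rw [← coneL_PP] at ht
  have z0 : z9 θa θb B l α 0 = l * B 0 + α := by
    rw [z9_val l α]
    have e0 : βL θa θb 0 = 1 := rfl
    rw [e0, mul_one]; rfl
  refine H.tan hpos h0 ht (fun _ => ?_) (fun _ => ?_) fun k hk => ?_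
  · rw [z9_val l α, z9_val l α]
    congr 2
    · fin_cases a <;> fin_cases b <;> rfl
    · fin_cases a <;> fin_cases b <;> rfl
  · rw [z9_val l α, z9_val l α]
    congr 2
    · fin_cases a <;> fin_cases b <;> rfl
    · fin_cases a <;> fin_cases b <;> rfl
  · rcases hV k hk with ⟨h1, h2⟩ | h1
    · refine Or.inl ⟨h1, fun _ => ?_⟩
      rw [z9_val l α, z0]
      nlinarith
    · refine Or.inr ⟨l * (B 0 * βL θa θb k - B (cl9 k)), mul_pos hl (by linarith),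
        Eventually.of_forall fun _ => ?_⟩
      rw [z9_val l α, z0]
      nlinarith

/-- **THE GENERIC POINT OF A HALF PLANE, `D` live** -/
theorem z9_out (O : Out9 R s a b Vis θa θb g qa qb Bs sgs x0 f x hh lam)
    (hS : SOk (nat9 1 (-θa) (-θb)) B sg) (hL : Leg9 B) {c0 : ℝ} (hc0 : 0 < c0) {ρ : Fin 9 → ℝ}
    (hR : Rates9 θa θb B sg c0 (lam 0) ρ) {v c p : ℝ} (hn : nat9 v c p ≤ B)
    (hV : ∀ k, Vis k → (Vis' k ∧ B (cl9 k) ≤ B 0 * βL θa θb k) ∨ B (cl9 k) < B 0 * βL θa θb k)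
    {N : Set (ℝ × ℝ)} (hN : ∀ᵐ z : ℝ × ℝ, z ∈ N) {y : ℝ} (hy : 0 < y)
    {Pr : ℕ → ℕ → Prop} (hPr : ∀ m, ∀ᶠ l in atTop, Pr m l) :
    ∃ (l α : ℝ) (h' : ℕ → ℝ) (lam2 : Fin 2 → (Fin 12 → ℝ) → ℝ) (ρ2 : Fin 9 → ℝ) (ψ : ℕ → ℕ),
      0 < l ∧ l < y ∧ ((l * sg, α) : ℝ × ℝ) ∈ N ∧ z9 θa θb B l α ∈ PP (mw monL) ∧
      Half9 θa θb B sg lam 0 ρ (DL g s qa qb v c p) l α h' lam2 ρ2 ∧
      (∀ j, IsTan (PP (mw monL)) (L9B θa θb B sg) (lam j) (fun _ => z9 θa θb B l α) h'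
        (lam2 j)) ∧
      (∀ m, 0 < h' m) ∧ Tendsto h' atTop (𝓝 0) ∧ StrictMono ψ ∧ (∀ m, Pr m (ψ m)) ∧
      (∀ j, IsTan (Leg monL R) (L9B θa θb B sg) (f j)
        (fun m => x (ψ m) + hh (ψ m) • z9 θa θb B l α) (fun m => hh (ψ m) * h' m) (lam2 j)) ∧
      Prf (L9B θa θb B sg) s a b Vis' (βL θa θb) (lam2 0) := by
  obtain ⟨l, α, hl, hly, hzN, hzL, H⟩ := half9 O.recTan hS hL hc0 hR hy
    (O.kap (fun y hy => leg9_smul hL hy) hn hy.le) hN
  set h1 : ℕ → ℝ := fun l => 1 / ((l : ℝ) + 1) with hh1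
  have hpos : ∀ l, 0 < h1 l := fun l => by rw [hh1]; positivity
  have hh0 : Tendsto h1 atTop (𝓝 0) := tendsto_one_div_add_atTop_nhds_zero_nat
  obtain ⟨φ, lam2, ρ2, hφ, hT, hH⟩ := H h1 hpos hh0
  have hpos' : ∀ m, 0 < h1 (φ m) := fun m => hpos _
  have h0' : Tendsto (fun m => h1 (φ m)) atTop (𝓝 0) := hh0.comp hφ.tendsto_atTop
  obtain ⟨ψ, hψ, hPψ, hTT⟩ := diag_at (P := Leg monL R) (L := PP (mw monL)) O.pos
    (by rw [← coneL_PP]; exact O.tan) hzL hpos' hT hPr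
  exact ⟨l, α, fun m => h1 (φ m), lam2, ρ2, ψ, hl, hly, hzN, hzL, hH, hT, hpos', h0', hψ, hPψ, hTT,
    prf_z9 O.rx.prf hl hpos' h0' (hT 0) hV⟩

/-- the bases -/
theorem base9_val {θa θb w0 sa sb v0 H y hm l α : ℝ} (k : Fin 12) :
    (rL θa θb w0 sa sb v0 + H • (y • r9 θa θb) + hm • z9 θa θb B l α) k =
      rL θa θb w0 sa sb (v0 + (H * y + hm * α)) k + hm * l * B (cl9 k) := by
  rw [rL_add]
  simp only [Pi.add_apply, Pi.smul_apply, smul_eq_mul]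
  rw [z9_val l α k]
  have h1 : r9 θa θb k = βL θa θb k := rfl
  rw [h1]
  ring

end nine

end Crest.Agent.R116.Rcx363
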