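import Crest.Agent.R116.Tp2_139
import Crest.Agent.R116.Kz3_647
import Crest.Agent.R116.SgL1_337

-- ▼ part R116/Tp3_139
section

/-!
# R116 (K side, ties), tangential identity and direction inequality on the plane `oS` (helper139)

* `rep_oS*` : representatives of the parallel classes of `oS` (`θ - θb = 1` : `C_b ∥ X`,
  `θ - θb = 1/2` : `C_b ∥ H`)
* `cls_T`, `cls_V` : from 647's `Half`: `Σ ρ2 t A t = -(lam (vec A) - lam 0)`, `-κ ≤ Σ ρ2 t B t`
* `kap_oS`, `kap_oS9` : D-max on `oS`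
* `TV` : the two relations; `tv8`, `tv8_1`, `tv8_h`, `tv9`, `tv9_1`, `tv9_h`
* `plS` and the last step: `eUpNZ_of`, `eUp_of`, `s1_of`, `dUpNZ_of`
-/

set_option autoImplicit false
set_option linter.unusedVariables false
set_option linter.unusedSimpArgs false
set_option linter.unusedSectionVars false

open Set Filter Topology

namespace Crest.Agent.R116.Tp139

open Crest.Agent.R136
open Dg219 (Walls mw)
open Sl741 (slice xt rs)
open Dg262 (SupOn)
open RbK219 RbM219 Kz647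
open ChL222 (monL)
open Tie460
open Sg337 (DL)

/-! ### representatives -/

section rep

variable {ι W τ : Type*} [Fintype ι] [DecidableEq ι] [Fintype W] [Fintype τ] [DecidableEq τ]

/-- one slot per parallel class -/
theorem rep_of {A B : τ → ℝ} {sg : ℝ} (h : SOk A B sg) {R0 : Finset τ} (w : τ → τ)
    (h1 : ∀ t, w t ∈ R0) (h2 : ∀ t, Par A B t (w t))
    (h3 : ∀ t ∈ R0, ∀ t' ∈ R0, Par A B t t' → t = t') : ∀ t, ∃! t', t' ∈ R0 ∧ Par A B t t' := by
  intro t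
  refine ⟨w t, ⟨h1 t, h2 t⟩, ?_⟩
  rintro t' ⟨ht', hp⟩
  exact (h3 (w t) (h1 t) t' ht' (Par.trans' h (Par.symm' (h2 t)) hp)).symm

variable {Q : Walls ι W} {R : RS ι τ} {A B : τ → ℝ} {sg : ℝ} {y0 : ι → ℝ} {J : Type*}
  {g : J → (ι → ℝ) → ℝ} {j0 : J} {ρ : τ → ℝ} {κ l α : ℝ} {h : ℕ → ℝ} {lam : J → (ι → ℝ) → ℝ}
  {ρ2 : τ → ℝ}

/-- **tangential identity** -/
theorem cls_T (H : Half Q R A B sg y0 g j0 ρ κ l α h lam ρ2) {R0 : Finset τ}
    (hR : ∀ t, ∃! t', t' ∈ R0 ∧ Par A B t t') :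
    ∑ t ∈ R0, ρ2 t * A t = -(g j0 (R.vec A) - g j0 0) := by
  have h1 := H.rates.nat 1 0 R0 hR
  have h2 := H.rcd 1
  have e1 : R.vec ((0:ℝ) • B + (1:ℝ) • A) = R.vec A := by simp
  have e2 : R.vec ((1:ℝ) • A) = R.vec A := by simp
  rw [e1] at h1
  rw [e2] at h2
  rw [h1] at h2
  rw [← h2, neg_neg]
  exact Finset.sum_congr rfl fun t _ => by ring

/-- **direction inequality** -/
theorem cls_V (H : Half Q R A B sg y0 g j0 ρ κ l α h lam ρ2) {R0 : Finset τ}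
    (hR : ∀ t, ∃! t', t' ∈ R0 ∧ Par A B t t') : -κ ≤ ∑ t ∈ R0, ρ2 t * B t := by
  have h1 := H.rates.nat 0 1 R0 hR
  have h2 := H.row
  have e1 : R.vec ((1:ℝ) • B + (0:ℝ) • A) = R.vec B := by simp
  rw [e1] at h1
  rw [h1] at h2
  have h3 : ∑ t ∈ R0, ρ2 t * B t = ∑ t ∈ R0, ρ2 t * (1 * B t + 0 * A t) :=
    Finset.sum_congr rfl fun t _ => by ring
  rw [h3]; linarith

end rep

variable {θ θb k k' s c qa qb : ℝ}

theorem mem6 {P : Fin 8 → Prop} (h0 : P 0) (h1 : P 1) (h2 : P 2) (h3 : P 3) (h4 : P 4)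
    (h5 : P 5) : ∀ t ∈ ({0, 1, 2, 3, 4, 5} : Finset (Fin 8)), P t := by
  intro t h
  simp only [Finset.mem_insert, Finset.mem_singleton] at h
  rcases h with rfl | rfl | rfl | rfl | rfl | rfl <;> assumption

theorem mem5 {P : Fin 8 → Prop} (h0 : P 0) (h1 : P 1) (h3 : P 3) (h4 : P 4)
    (h5 : P 5) : ∀ t ∈ ({0, 1, 3, 4, 5} : Finset (Fin 8)), P t := by
  intro t h
  simp only [Finset.mem_insert, Finset.mem_singleton] at h
  rcases h with rfl | rfl | rfl | rfl | rfl <;> assumption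

theorem mem6' {P : Fin 9 → Prop} (h0 : P 0) (h1 : P 1) (h2 : P 2) (h3 : P 3) (h4 : P 4)
    (h5 : P 5) : ∀ t ∈ ({0, 1, 2, 3, 4, 5} : Finset (Fin 9)), P t := by
  intro t h
  simp only [Finset.mem_insert, Finset.mem_singleton] at h
  rcases h with rfl | rfl | rfl | rfl | rfl | rfl <;> assumption

theorem mem5' {P : Fin 9 → Prop} (h0 : P 0) (h1 : P 1) (h3 : P 3) (h4 : P 4)
    (h5 : P 5) : ∀ t ∈ ({0, 1, 3, 4, 5} : Finset (Fin 9)), P t := by
  intro t h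
  simp only [Finset.mem_insert, Finset.mem_singleton] at h
  rcases h with rfl | rfl | rfl | rfl | rfl <;> assumption

/-- `oS`, no resonance -/
theorem rep_oS (hb : θb < θ) (hb2 : θb < 2 * θ) (h1 : θ - θb ≠ 1) (h2 : θ - θb ≠ 1 / 2) :
    ∀ t, ∃! t', t' ∈ ({0, 1, 2, 3, 4, 5} : Finset (Fin 8)) ∧
      Par (nat8 1 (-θ) (-θb)) oS t t' := by
  refine rep_of (sok_oS hb hb2) ![0, 1, 2, 3, 4, 5, 0, 0] (by decide) ?_ ?_
  · refine all8 rfl rfl rfl rfl rfl rfl ?_ ?_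
    · change Par _ _ 6 0
      simp only [Par]; ev8; ring
    · change Par _ _ 7 0
      simp only [Par]; ev8; ring
  · refine mem6 ?_ ?_ ?_ ?_ ?_ ?_ <;> refine mem6 ?_ ?_ ?_ ?_ ?_ ?_ <;>
      intro hp <;> first
        | rfl
        | (exfalso; simp only [Par] at hp; ev8; linarith)
        | (exfalso; simp only [Par] at hp; ev8; exact h1 (by linarith))
        | (exfalso; simp only [Par] at hp; ev8; exact h2 (by linarith))


/-- `oS`, `C_b` in the class of `H` -/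
theorem rep_oSh (hb2 : θb < 2 * θ) (hb : θ - θb = 1 / 2) :
    ∀ t, ∃! t', t' ∈ ({0, 1, 3, 4, 5} : Finset (Fin 8)) ∧ Par (nat8 1 (-θ) (-θb)) oS t t' := by
  refine rep_of (sok_oS (by linarith) hb2) ![0, 1, 5, 3, 4, 5, 0, 0] (by decide) ?_ ?_
  · refine all8 rfl rfl ?_ rfl rfl rfl ?_ ?_
    · change Par _ _ 2 5
      simp only [Par]; ev8; linarith
    · change Par _ _ 6 0
      simp only [Par]; ev8; ring
    · change Par _ _ 7 0
      simp only [Par]; ev8; ring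
  · refine mem5 ?_ ?_ ?_ ?_ ?_ <;> refine mem5 ?_ ?_ ?_ ?_ ?_ <;>
      intro hp <;> first
        | rfl
        | (exfalso; simp only [Par] at hp; ev8; linarith)

/-- `oS9`, no resonance -/
theorem rep_oS9 (hθ : 0 < θ) (hb : θb < θ) (hb2 : θb < 2 * θ - 1) (h1 : θ - θb ≠ 1)
    (h2 : θ - θb ≠ 1 / 2) :
    ∀ t, ∃! t', t' ∈ ({0, 1, 2, 3, 4, 5} : Finset (Fin 9)) ∧
      Par (nat9 1 (-θ) (-θb)) oS9 t t' := by
  refine rep_of (sok_oS9 hb hb2 hθ) ![0, 1, 2, 3, 4, 5, 0, 0, 0] (by decide) ?_ ?_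
  · refine all9 rfl rfl rfl rfl rfl rfl ?_ ?_ ?_
    · change Par _ _ 6 0
      simp only [Par]; ev9; ring
    · change Par _ _ 7 0
      simp only [Par]; ev9; ring
    · change Par _ _ 8 0
      simp only [Par]; ev9; ring
  · refine mem6' ?_ ?_ ?_ ?_ ?_ ?_ <;> refine mem6' ?_ ?_ ?_ ?_ ?_ ?_ <;>
      intro hp <;> first
        | rfl
        | (exfalso; simp only [Par] at hp; ev9; linarith)
        | (exfalso; simp only [Par] at hp; ev9; exact h1 (by linarith))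
        | (exfalso; simp only [Par] at hp; ev9; exact h2 (by linarith))

/-- `oS9`, `C_b` in the class of `X` -/
theorem rep_oS91 (hθ : 0 < θ) (hb2 : θb < 2 * θ - 1) (hb : θ - θb = 1) :
    ∀ t, ∃! t', t' ∈ ({0, 1, 3, 4, 5} : Finset (Fin 9)) ∧ Par (nat9 1 (-θ) (-θb)) oS9 t t' := by
  refine rep_of (sok_oS9 (by linarith) hb2 hθ) ![0, 1, 3, 3, 4, 5, 0, 0, 0] (by decide) ?_ ?_
  · refine all9 rfl rfl ?_ rfl rfl rfl ?_ ?_ ?_
    · change Par _ _ 2 3
      simp only [Par]; ev9; linarith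
    · change Par _ _ 6 0
      simp only [Par]; ev9; ring
    · change Par _ _ 7 0
      simp only [Par]; ev9; ring
    · change Par _ _ 8 0
      simp only [Par]; ev9; ring
  · refine mem5' ?_ ?_ ?_ ?_ ?_ <;> refine mem5' ?_ ?_ ?_ ?_ ?_ <;>
      intro hp <;> first
        | rfl
        | (exfalso; simp only [Par] at hp; ev9; linarith)


/-! ### D-max -/



/-! ### the two relations of the plane `oS` -/

/-- tangential identity and direction inequality of `oS`; `ρz` joint rate of `z` and the flags,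
`r, ρX, ρH` the split of a joint class -/
structure TV (θ θb s c qa qb ρz m r ρX ρN ρH : ℝ) : Prop where
  T : ρz - θ * m - θb * r + (1 - θ) * ρX + (1 - θb) * ρN + (1 - 2 * θ) * ρH =
    (4 - s - c) - θ * (3 + qa) - θb * (1 + qb)
  V : 4 + qa + qb ≤ m + r + ρX + ρN + 2 * ρH

section tv8

variable {t : ℝ} {J : Type*} {lam lam2 : J → (Fin 12 → ℝ) → ℝ} {j0 : J} {ρ ρ2 : Fin 8 → ℝ}
  {l α : ℝ} {h : ℕ → ℝ}

theorem xt_zero8 : xt kp 0 (0 : K8 → ℝ) = 0 := by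
  funext i
  unfold xt
  split_ifs <;> rfl

theorem tv8 (H : Half8 θ θb t oS 1 lam j0 ρ (-(4 + qa + qb)) l α h lam2 ρ2)
    (h0 : lam j0 0 = 0)
    (hrec : lam j0 (xt kp 0 (RL8.vec (nat8 1 (-θ) (-θb)))) = DL c s qa qb 1 (-θ) (-θb))
    (hb : θb < θ) (hb2 : θb < 2 * θ) (h1 : θ - θb ≠ 1) (h2 : θ - θb ≠ 1 / 2) :
    TV θ θb s c qa qb (ρ2 0) (ρ2 1) (ρ2 2) (ρ2 3) (ρ2 4) (ρ2 5) := by
  have a1 := cls_T H (rep_oS hb hb2 h1 h2)
  have a2 := cls_V H (rep_oS hb hb2 h1 h2)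
  simp only [xt_zero8, h0, hrec] at a1
  rw [Finset.sum_insert (by decide), Finset.sum_insert (by decide), Finset.sum_insert (by decide),
    Finset.sum_insert (by decide), Finset.sum_insert (by decide), Finset.sum_singleton] at a1 a2
  unfold DL at a1
  ev8
  exact ⟨by linarith, by linarith⟩


/-- `C_b ∥ H` : any split of the joint rate -/
theorem tv8_h (H : Half8 θ θb t oS 1 lam j0 ρ (-(4 + qa + qb)) l α h lam2 ρ2)
    (h0 : lam j0 0 = 0)
    (hrec : lam j0 (xt kp 0 (RL8.vec (nat8 1 (-θ) (-θb)))) = DL c s qa qb 1 (-θ) (-θb))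
    (hb2 : θb < 2 * θ) (hb : θ - θb = 1 / 2) {r ρH : ℝ} (hr : r / 2 + ρH = ρ2 5) :
    TV θ θb s c qa qb (ρ2 0) (ρ2 1) r (ρ2 3) (ρ2 4) ρH := by
  have a1 := cls_T H (rep_oSh hb2 hb)
  have a2 := cls_V H (rep_oSh hb2 hb)
  simp only [xt_zero8, h0, hrec] at a1
  rw [Finset.sum_insert (by decide), Finset.sum_insert (by decide), Finset.sum_insert (by decide),
    Finset.sum_insert (by decide), Finset.sum_singleton] at a1 a2
  unfold DL at a1
  have e : θb = θ - 1 / 2 := by linarith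
  rw [← hr] at a1 a2
  ev8
  exact ⟨by rw [e] at a1 ⊢; linarith, by linarith⟩

end tv8

section tv9

variable {J : Type*} {lam lam2 : J → (Fin 12 → ℝ) → ℝ} {j0 : J} {ρ ρ2 : Fin 9 → ℝ}
  {l α : ℝ} {h : ℕ → ℝ}

theorem tv9 (H : Half9 θ θb oS9 1 lam j0 ρ (-(4 + qa + qb)) l α h lam2 ρ2)
    (h0 : lam j0 0 = 0)
    (hrec : lam j0 (RL9.vec (nat9 1 (-θ) (-θb))) = DL c s qa qb 1 (-θ) (-θb))
    (hθ : 0 < θ) (hb : θb < θ) (hb2 : θb < 2 * θ - 1) (h1 : θ - θb ≠ 1)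
    (h2 : θ - θb ≠ 1 / 2) :
    TV θ θb s c qa qb (ρ2 0) (ρ2 1) (ρ2 2) (ρ2 3) (ρ2 4) (ρ2 5) := by
  have a1 := cls_T H (rep_oS9 hθ hb hb2 h1 h2)
  have a2 := cls_V H (rep_oS9 hθ hb hb2 h1 h2)
  simp only [h0, hrec] at a1
  rw [Finset.sum_insert (by decide), Finset.sum_insert (by decide), Finset.sum_insert (by decide),
    Finset.sum_insert (by decide), Finset.sum_insert (by decide), Finset.sum_singleton] at a1 a2
  unfold DL at a1
  ev9
  exact ⟨by linarith, by linarith⟩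

/-- `C_b ∥ X` : any split of the joint rate -/
theorem tv9_1 (H : Half9 θ θb oS9 1 lam j0 ρ (-(4 + qa + qb)) l α h lam2 ρ2)
    (h0 : lam j0 0 = 0)
    (hrec : lam j0 (RL9.vec (nat9 1 (-θ) (-θb))) = DL c s qa qb 1 (-θ) (-θb))
    (hθ : 0 < θ) (hb2 : θb < 2 * θ - 1) (hb : θ - θb = 1) {r ρX : ℝ} (hr : r + ρX = ρ2 3) :
    TV θ θb s c qa qb (ρ2 0) (ρ2 1) r ρX (ρ2 4) (ρ2 5) := by
  have a1 := cls_T H (rep_oS91 hθ hb2 hb)
  have a2 := cls_V H (rep_oS91 hθ hb2 hb)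
  simp only [h0, hrec] at a1
  rw [Finset.sum_insert (by decide), Finset.sum_insert (by decide), Finset.sum_insert (by decide),
    Finset.sum_insert (by decide), Finset.sum_singleton] at a1 a2
  unfold DL at a1
  have e : θb = θ - 1 := by linarith
  rw [← hr] at a1 a2
  ev9
  exact ⟨by rw [e] at a1 ⊢; linarith, by linarith⟩


end tv9

/-! ### the last step above -/

/-- rates of a plane on which all flags are in the class of `z` -/
def plS (s ρz m r ρX ρN ρH : ℝ) : Pl where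
  x := 1 - ρX
  n := 1 - ρN
  h := 1 - ρH
  m := m
  r := r
  e := ρz - (1 - s)
  w := 0
  u := 0
  d := 0

variable {ρz m r ρX ρN ρH : ℝ} {A : Pl}

theorem TV.tan (H : TV θ θb s c qa qb ρz m r ρX ρN ρH) :
    (plS s ρz m r ρX ρN ρH).Tan c θ θb qa qb := by
  have := H.T
  unfold Pl.Tan Pl.Fa Pl.Fb plS
  simp only
  linarith

theorem TV.ver (H : TV θ θb s c qa qb ρz m r ρX ρN ρH) :
    (plS s ρz m r ρX ρN ρH).Fa qa + (plS s ρz m r ρX ρN ρH).Fb qb ≤ 0 := by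
  have := H.V
  unfold Pl.Fa Pl.Fb plS
  simp only
  linarith

theorem TV.ver1 (H : TV θ θb s c qa qb ρz m r ρX ρN ρH) :
    (plS s ρz m r ρX ρN ρH).x + 2 * (plS s ρz m r ρX ρN ρH).h + (plS s ρz m r ρX ρN ρH).n -
      (plS s ρz m r ρX ρN ρH).m - (plS s ρz m r ρX ρN ρH).r + qa + qb ≤ 0 := by
  have := H.V
  unfold plS
  simp only
  linarith



theorem s1_of (H : TV θ (2 * θ - k) s c qa qb ρz m r ρX ρN ρH)
    (P : (plS s ρz m r ρX ρN ρH).Pos) (FB : (plS s ρz m r ρX ρN ρH).FanB s) (ant : m ≤ A.m)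
    (nz : ρN = 1 → (1 + k - 2 * θ) * A.n ≤ A.e + (k - θ) * A.w + k * A.u) :
    S1 k θ s c qa qb A (plS s ρz m r ρX ρN ρH) where
  P := P
  FB := FB
  dz := rfl
  tan := H.tan
  ver := H.ver1
  ant := ant
  nz := fun h => nz (by change 1 - ρN = 0 at h; linarith)

theorem dUpNZ_of (H : TV θ (θ - k) s c qa qb ρz m r ρX ρN ρH)
    (P : (plS s ρz m r ρX ρN ρH).Pos) (FB : (plS s ρz m r ρX ρN ρH).FanB s) (ant : m ≤ A.m)
    (nz : ρN = 1 → (1 + k' - 2 * θ) * A.n ≤ A.e + (k' - θ) * A.w + k' * A.u) :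
    DUpNZ k k' θ s c qa qb A (plS s ρz m r ρX ρN ρH) where
  P := P
  FB := FB
  dz := rfl
  tan := H.tan
  ver := H.ver
  ant := ant
  nz := fun h => nz (by change 1 - ρN = 0 at h; linarith)

end Crest.Agent.R116.Tp139
end

-- ▼ part R116/Tp4_139

/-!
# R116 (K side, ties), the plane `oSe e` : `D` finer than at the record by `e` times the offset
(helper139)

Offset `![0,1,1,1,1,2,0,0,e]`, `0 < e`: admissible for every sign of `β_D = 2 θ - θb - 1`.
`C_b ∥ X` if `θ - θb = 1`, `C_b ∥ H` if `θ - θb = 1/2`; `D` is alone if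
`e (1 + |θ| + |θb|) < |β_D|` or `β_D = 0`, except `θ = 1/2, θb = 0` (class `{C_b, H, D}`).
* `sok_oSe`, `leg_oSe`, `aln_oSe`, `kap_oSe`
* `TVe`, `tve`, `tve_1`, `tve_h`, `tve_d`
* `aln_oSe`, `ant_ee`, `ant_de` : rate of `C_a` on `oSe` ≤ rate on `T⁻` (`k > 1`, `k' > 1`)
-/

set_option autoImplicit false
set_option linter.unusedVariables false
set_option linter.unusedSimpArgs false
set_option linter.unusedSectionVars false

open Set Filter Topology

namespace Crest.Agent.R116.Tp139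

open Crest.Agent.R136
open Dg219 (Walls mw)
open Sl741 (slice xt rs)
open Dg262 (SupOn)
open RbK219 RbM219 Kz647
open ChL222 (monL)
open Tie460
open Sg337 (DL)

/-- `S₁` or `T⁺` of an `e`-plane, flags frozen at the record, `D` finer by `e` times the offset -/
def oSe (e : ℝ) : Fin 9 → ℝ := ![0, 1, 1, 1, 1, 2, 0, 0, e]

section vals
variable (e : ℝ)
theorem u0 : oSe e 0 = 0 := rfl
theorem u1 : oSe e 1 = 1 := rfl
theorem u2 : oSe e 2 = 1 := rfl
theorem u3 : oSe e 3 = 1 := rfl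
theorem u4 : oSe e 4 = 1 := rfl
theorem u5 : oSe e 5 = 2 := rfl
theorem u6 : oSe e 6 = 0 := rfl
theorem u7 : oSe e 7 = 0 := rfl
theorem u8 : oSe e 8 = e := rfl
end vals

/-- evaluate all entries -/
macro "eve" : tactic => `(tactic| simp only [eD9, kU9, kD9, m0, m1, m2, m3, m4, m5, m6, m7, m8,
  u0, u1, u2, u3, u4, u5, u6, u7, u8] at *)

variable {θ θb k k' s c qa qb e : ℝ}

theorem sok_oSe (he : 0 < e) (hb : θb < θ) (hb2 : θb < 2 * θ) :
    SOk (nat9 1 (-θ) (-θb)) (oSe e) 1 where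
  sg1 := Or.inl rfl
  nn := by refine all9 ?_ ?_ ?_ ?_ ?_ ?_ ?_ ?_ ?_ <;> eve <;> linarith
  zero := by refine all9 ?_ ?_ ?_ ?_ ?_ ?_ ?_ ?_ ?_ <;> intro h <;> eve <;> linarith

theorem leg_oSe (he : 0 < e) : Leg9 (oSe e) := by constructor <;> eve <;> linarith

/-- `D` is not parallel to the line slots -/
def DAl (θ θb e : ℝ) : Prop :=
  (2 * θ - θb - 1 ≠ 0 → e * (1 + |θ| + |θb|) < |2 * θ - θb - 1|) ∧
    (2 * θ - θb - 1 = 0 → θ ≠ 1 / 2)

theorem DAl.ne (h : DAl θ θb e) (he : 0 < e) {a : ℝ} (ha : |a| ≤ 1 + |θ| + |θb|)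
    (h0 : 2 * θ - θb - 1 = 0 → a ≠ 0) : 2 * θ - θb - 1 ≠ e * a := by
  intro h1
  by_cases h2 : 2 * θ - θb - 1 = 0
  · rw [h2] at h1
    rcases mul_eq_zero.1 h1.symm with h3 | h3
    · linarith
    · exact h0 h2 h3
  · have h3 := h.1 h2
    rw [h1, abs_mul, abs_of_pos he] at h3
    have := mul_le_mul_of_nonneg_left ha he.le
    linarith

theorem exists_DAl (θ θb : ℝ) {e0 : ℝ} (he0 : 0 < e0) (h : 2 * θ - θb - 1 = 0 → θ ≠ 1 / 2) :
    ∃ e, 0 < e ∧ e < e0 ∧ DAl θ θb e := by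
  have hM : 0 < 1 + |θ| + |θb| := by positivity
  by_cases h2 : 2 * θ - θb - 1 = 0
  · exact ⟨e0 / 2, by positivity, by linarith, fun h' => absurd h2 h', h⟩
  · have h3 : 0 < |2 * θ - θb - 1| := abs_pos.2 h2
    refine ⟨min (e0 / 2) (|2 * θ - θb - 1| / (2 * (1 + |θ| + |θb|))),
      lt_min (by positivity) (by positivity), ?_, fun _ => ?_, h⟩
    · exact (min_le_left _ _).trans_lt (by linarith)
    · calc min (e0 / 2) (|2 * θ - θb - 1| / (2 * (1 + |θ| + |θb|))) * (1 + |θ| + |θb|)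
          ≤ (|2 * θ - θb - 1| / (2 * (1 + |θ| + |θb|))) * (1 + |θ| + |θb|) :=
            mul_le_mul_of_nonneg_right (min_le_right _ _) hM.le
        _ = |2 * θ - θb - 1| / 2 := by field_simp
        _ < _ := by linarith

section abs
variable (θ θb)
theorem ab1 : |-θ| ≤ 1 + |θ| + |θb| := by
  rw [abs_neg]; linarith [abs_nonneg θ, abs_nonneg θb]
theorem ab2 : |-θb| ≤ 1 + |θ| + |θb| := by
  rw [abs_neg]; linarith [abs_nonneg θ, abs_nonneg θb]
theorem ab3 : |1 - θ| ≤ 1 + |θ| + |θb| := by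
  have := abs_sub (1:ℝ) θ
  rw [abs_one] at this; linarith [abs_nonneg θb]
theorem ab4 : |1 - θb| ≤ 1 + |θ| + |θb| := by
  have := abs_sub (1:ℝ) θb
  rw [abs_one] at this; linarith [abs_nonneg θ]
theorem ab5 : |(1 - 2 * θ) / 2| ≤ 1 + |θ| + |θb| := by
  have := abs_sub (1:ℝ) (2 * θ)
  rw [abs_one, abs_mul, abs_two] at this
  rw [abs_div, abs_two]; linarith [abs_nonneg θ, abs_nonneg θb]
end abs

theorem mem7' {P : Fin 9 → Prop} (h0 : P 0) (h1 : P 1) (h2 : P 2) (h3 : P 3) (h4 : P 4)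
    (h5 : P 5) (h8 : P 8) : ∀ t ∈ ({0, 1, 2, 3, 4, 5, 8} : Finset (Fin 9)), P t := by
  intro t h
  simp only [Finset.mem_insert, Finset.mem_singleton] at h
  rcases h with rfl | rfl | rfl | rfl | rfl | rfl | rfl <;> assumption

theorem mem6d {P : Fin 9 → Prop} (h0 : P 0) (h1 : P 1) (h3 : P 3) (h4 : P 4)
    (h5 : P 5) (h8 : P 8) : ∀ t ∈ ({0, 1, 3, 4, 5, 8} : Finset (Fin 9)), P t := by
  intro t h
  simp only [Finset.mem_insert, Finset.mem_singleton] at h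
  rcases h with rfl | rfl | rfl | rfl | rfl | rfl <;> assumption

/-- `D` against the line slots -/
theorem d_ne (hd : DAl θ θb e) (he : 0 < e) (hθ : 0 < θ) (hb : θb < θ)
    (hθ2 : 2 * θ - θb - 1 = 0 → θb ≠ 0 ∨ θ = 1 / 2) :
    2 * θ - θb - 1 ≠ e * -θ ∧ 2 * θ - θb - 1 ≠ e * -θb ∧ 2 * θ - θb - 1 ≠ e * (1 - θ) ∧
      2 * θ - θb - 1 ≠ e * (1 - θb) ∧ 2 * θ - θb - 1 ≠ e * ((1 - 2 * θ) / 2) := by
  refine ⟨hd.ne he (ab1 _ _) fun h => ?_, hd.ne he (ab2 _ _) fun h => ?_,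
    hd.ne he (ab3 _ _) fun h => ?_, hd.ne he (ab4 _ _) fun h => ?_,
    hd.ne he (ab5 _ _) fun h => ?_⟩
  · linarith
  · intro h2
    rcases hθ2 h with h3 | h3
    · exact h3 (by linarith)
    · exact hd.2 h h3
  · intro h2; linarith
  · intro h2; linarith
  · intro h2; exact hd.2 h (by linarith)

theorem d_ne' (hd : DAl θ θb e) (he : 0 < e) (hθ : 0 < θ) (hb : θb < θ) :
    2 * θ - θb - 1 ≠ e * -θ ∧ 2 * θ - θb - 1 ≠ e * -θb ∧ 2 * θ - θb - 1 ≠ e * (1 - θ) ∧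
      2 * θ - θb - 1 ≠ e * (1 - θb) ∧ 2 * θ - θb - 1 ≠ e * ((1 - 2 * θ) / 2) := by
  refine d_ne hd he hθ hb fun h => ?_
  by_cases h2 : θb = 0
  · right; linarith
  · exact Or.inl h2

/-- `oSe`, `C_b` alone -/
theorem rep_oSe (he : 0 < e) (hθ : 0 < θ) (hb : θb < θ) (hb2 : θb < 2 * θ) (hd : DAl θ θb e)
    (h1 : θ - θb ≠ 1) (h2 : θ - θb ≠ 1 / 2) :
    ∀ t, ∃! t', t' ∈ ({0, 1, 2, 3, 4, 5, 8} : Finset (Fin 9)) ∧
      Par (nat9 1 (-θ) (-θb)) (oSe e) t t' := by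
  obtain ⟨d1, d2, d3, d4, d5⟩ := d_ne' hd he hθ hb
  refine rep_of (sok_oSe he hb hb2) ![0, 1, 2, 3, 4, 5, 0, 0, 8] (by decide) ?_ ?_
  · refine all9 rfl rfl rfl rfl rfl rfl ?_ ?_ rfl
    · change Par _ _ 6 0
      simp only [Par]; eve; ring
    · change Par _ _ 7 0
      simp only [Par]; eve; ring
  · refine mem7' ?_ ?_ ?_ ?_ ?_ ?_ ?_ <;> refine mem7' ?_ ?_ ?_ ?_ ?_ ?_ ?_ <;>
      intro hp <;> first
        | rfl
        | (exfalso; simp only [Par] at hp; eve; linarith)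
        | (exfalso; simp only [Par] at hp; eve; exact h1 (by linarith))
        | (exfalso; simp only [Par] at hp; eve; exact h2 (by linarith))
        | (exfalso; simp only [Par] at hp; eve; exact d1 (by linarith))
        | (exfalso; simp only [Par] at hp; eve; exact d2 (by linarith))
        | (exfalso; simp only [Par] at hp; eve; exact d3 (by linarith))
        | (exfalso; simp only [Par] at hp; eve; exact d4 (by linarith))
        | (exfalso; simp only [Par] at hp; eve; exact d5 (by linarith))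


/-- `oSe`, `C_b ∥ H` -/
theorem rep_oSeh (he : 0 < e) (hθ : 0 < θ) (hb2 : θb < 2 * θ) (hd : DAl θ θb e)
    (hb : θ - θb = 1 / 2) :
    ∀ t, ∃! t', t' ∈ ({0, 1, 3, 4, 5, 8} : Finset (Fin 9)) ∧
      Par (nat9 1 (-θ) (-θb)) (oSe e) t t' := by
  obtain ⟨d1, d2, d3, d4, d5⟩ := d_ne' hd he hθ (by linarith)
  refine rep_of (sok_oSe he (by linarith) hb2) ![0, 1, 5, 3, 4, 5, 0, 0, 8] (by decide) ?_ ?_
  · refine all9 rfl rfl ?_ rfl rfl rfl ?_ ?_ rfl
    · change Par _ _ 2 5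
      simp only [Par]; eve; linarith
    · change Par _ _ 6 0
      simp only [Par]; eve; ring
    · change Par _ _ 7 0
      simp only [Par]; eve; ring
  · refine mem6d ?_ ?_ ?_ ?_ ?_ ?_ <;> refine mem6d ?_ ?_ ?_ ?_ ?_ ?_ <;>
      intro hp <;> first
        | rfl
        | (exfalso; simp only [Par] at hp; eve; linarith)
        | (exfalso; simp only [Par] at hp; eve; exact d1 (by linarith))
        | (exfalso; simp only [Par] at hp; eve; exact d2 (by linarith))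
        | (exfalso; simp only [Par] at hp; eve; exact d3 (by linarith))
        | (exfalso; simp only [Par] at hp; eve; exact d4 (by linarith))
        | (exfalso; simp only [Par] at hp; eve; exact d5 (by linarith))

/-- `oSe`, `θ = 1/2`, `θb = 0` : class `{C_b, H, D}` -/
theorem rep_oSed (he : 0 < e) (hθ : θ = 1 / 2) (hb : θb = 0) :
    ∀ t, ∃! t', t' ∈ ({0, 1, 3, 4, 5} : Finset (Fin 9)) ∧
      Par (nat9 1 (-θ) (-θb)) (oSe e) t t' := by
  subst hθ hb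
  refine rep_of (sok_oSe he (by norm_num) (by norm_num)) ![0, 1, 5, 3, 4, 5, 0, 0, 5] (by decide)
    ?_ ?_
  · refine all9 rfl rfl ?_ rfl rfl rfl ?_ ?_ ?_
    · change Par _ _ 2 5
      simp only [Par]; eve; norm_num
    · change Par _ _ 6 0
      simp only [Par]; eve; ring
    · change Par _ _ 7 0
      simp only [Par]; eve; ring
    · change Par _ _ 8 5
      simp only [Par]; eve; norm_num
  · refine mem5' ?_ ?_ ?_ ?_ ?_ <;> refine mem5' ?_ ?_ ?_ ?_ ?_ <;>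
      intro hp <;> first
        | rfl
        | (exfalso; simp only [Par] at hp; eve; linarith)


section cmpe

variable {lam : (Fin 12 → ℝ) → ℝ} {M : Set (Fin 12 → ℝ)}
  {c₁ c₂ : ℝ} {ρ₁ ρ₂ : Fin 9 → ℝ}
  (hs : SupOn lam M) (he : 0 < e) (hθ : 0 < θ) (hd : DAl θ θb e) (hc₁ : 0 < c₁) (hc₂ : 0 < c₂)
include hs he hθ hd hc₁ hc₂



end cmpe


/-- the two relations of the plane `oSe` -/
structure TVe (θ θb s c qa qb e ρz m r ρX ρN ρH ρD : ℝ) : Prop where
  T : ρz - θ * m - θb * r + (1 - θ) * ρX + (1 - θb) * ρN + (1 - 2 * θ) * ρH +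
    (2 * θ - θb - 1) * ρD = (4 - s - c) - θ * (3 + qa) - θb * (1 + qb)
  V : 4 + qa + qb ≤ m + r + ρX + ρN + 2 * ρH + e * ρD

section tve

variable {J : Type*} {lam lam2 : J → (Fin 12 → ℝ) → ℝ} {j0 : J} {ρ ρ2 : Fin 9 → ℝ}
  {l α : ℝ} {h : ℕ → ℝ}

theorem tve (H : Half9 θ θb (oSe e) 1 lam j0 ρ (-(4 + qa + qb)) l α h lam2 ρ2)
    (h0 : lam j0 0 = 0)
    (hrec : lam j0 (RL9.vec (nat9 1 (-θ) (-θb))) = DL c s qa qb 1 (-θ) (-θb))
    (he : 0 < e) (hθ : 0 < θ) (hb : θb < θ) (hb2 : θb < 2 * θ) (hd : DAl θ θb e)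
    (h1 : θ - θb ≠ 1) (h2 : θ - θb ≠ 1 / 2) :
    TVe θ θb s c qa qb e (ρ2 0) (ρ2 1) (ρ2 2) (ρ2 3) (ρ2 4) (ρ2 5) (ρ2 8) := by
  have a1 := cls_T H (rep_oSe he hθ hb hb2 hd h1 h2)
  have a2 := cls_V H (rep_oSe he hθ hb hb2 hd h1 h2)
  simp only [h0, hrec] at a1
  rw [Finset.sum_insert (by decide), Finset.sum_insert (by decide), Finset.sum_insert (by decide),
    Finset.sum_insert (by decide), Finset.sum_insert (by decide), Finset.sum_insert (by decide),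
    Finset.sum_singleton] at a1 a2
  unfold DL at a1
  eve
  exact ⟨by linarith, by linarith⟩


/-- `C_b ∥ H` : any split of the joint rate -/
theorem tve_h (H : Half9 θ θb (oSe e) 1 lam j0 ρ (-(4 + qa + qb)) l α h lam2 ρ2)
    (h0 : lam j0 0 = 0)
    (hrec : lam j0 (RL9.vec (nat9 1 (-θ) (-θb))) = DL c s qa qb 1 (-θ) (-θb))
    (he : 0 < e) (hθ : 0 < θ) (hb2 : θb < 2 * θ) (hd : DAl θ θb e)
    (hb : θ - θb = 1 / 2) {r ρH : ℝ} (hr : r / 2 + ρH = ρ2 5) :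
    TVe θ θb s c qa qb e (ρ2 0) (ρ2 1) r (ρ2 3) (ρ2 4) ρH (ρ2 8) := by
  have a1 := cls_T H (rep_oSeh he hθ hb2 hd hb)
  have a2 := cls_V H (rep_oSeh he hθ hb2 hd hb)
  simp only [h0, hrec] at a1
  rw [Finset.sum_insert (by decide), Finset.sum_insert (by decide), Finset.sum_insert (by decide),
    Finset.sum_insert (by decide), Finset.sum_insert (by decide), Finset.sum_singleton] at a1 a2
  unfold DL at a1
  have e : θb = θ - 1 / 2 := by linarith
  rw [← hr] at a1 a2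
  eve
  exact ⟨by rw [e] at a1 ⊢; linarith, by linarith⟩

/-- `θ = 1/2, θb = 0`, class `{C_b, H, D}` : any split of the joint rate -/
theorem tve_d (H : Half9 θ θb (oSe e) 1 lam j0 ρ (-(4 + qa + qb)) l α h lam2 ρ2)
    (h0 : lam j0 0 = 0)
    (hrec : lam j0 (RL9.vec (nat9 1 (-θ) (-θb))) = DL c s qa qb 1 (-θ) (-θb))
    (he : 0 < e) (hθ : θ = 1 / 2) (hb : θb = 0) {r ρH ρD : ℝ}
    (hr : r / 2 + ρH + e / 2 * ρD = ρ2 5) :
    TVe θ θb s c qa qb e (ρ2 0) (ρ2 1) r (ρ2 3) (ρ2 4) ρH ρD := by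
  have a1 := cls_T H (rep_oSed he hθ hb)
  have a2 := cls_V H (rep_oSed he hθ hb)
  simp only [h0, hrec] at a1
  rw [Finset.sum_insert (by decide), Finset.sum_insert (by decide), Finset.sum_insert (by decide),
    Finset.sum_insert (by decide), Finset.sum_singleton] at a1 a2
  unfold DL at a1
  rw [← hr] at a1 a2
  subst hθ hb
  eve
  exact ⟨by linarith, by linarith⟩

end tve

end Crest.Agent.R116.Tp139
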