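import Crest.Agent.R116.NZ11_90_Mg
import Crest.Agent.R116.Tp6_139
import Crest.Agent.R116.Pd2_363
import Crest.Agent.R116.Tq4_126

/-!
# R116, `κ`-tie (helper363): tables and values of the planes `kD` and `oS`

* `plK_kD`      : 741's table `PlK` of `kD`, `k < 1`
* `plU_oS`      : 139's table `PlU` of `oS`, `κ = θ - θb`
* `T8`, `V8`    : record identity and D-max of the class function of a plane
* `tvS`         : 139's `TV` of the plane `oS`, `κ ≠ 1`
-/

set_option autoImplicit false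
set_option linter.unusedVariables false
set_option linter.unusedSectionVars false

open Set Filter Topology MeasureTheory

namespace Crest.Agent.R116.FlK363

open Crest.Agent.R138
open Crest.Agent.R138.Ex926 (Base U IsTan)
open Crest.Agent.R136
open Crest.Agent.R116.PL504 (nb rL eL βL)
open Crest.Agent.R116.Sg337 (DL coneL)
open Crest.Agent.R116.RbM219
open Crest.Agent.R116.RbK219
open Crest.Agent.R116.Kz647
open Crest.Agent.R116.Tp139
open Crest.Agent.R116.Tq741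
open Crest.Agent.R116.Tq126
open Crest.Agent.R116.Rcx363
open Crest.Agent.R116.Pd363
open Crest.Agent.R116.NZ90 (Lam8)
open ChL222 (monL)
open Tie460 (Pl KF' S1 KUp')
open Dg219 (mw Walls)
open Sl741 (slice xt rs)

theorem nat_cut (v c p : ℝ) : (fun i : Fin 8 => nat9 v c p i.castSucc) = nat8 v c p := by
  funext i
  fin_cases i <;> rfl

/-! ### tables -/






theorem cS_half : cS (1 / 2) = ![0, 1, 2, 3, 4, 2, 0, 0, 8] := by
  funext i
  fin_cases i <;> evc <;> norm_num [cS]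

theorem cS_one : cS 1 = ![0, 1, 2, 2, 4, 5, 0, 0, 8] := by
  funext i
  fin_cases i <;> evc <;> norm_num [cS]

theorem cS_gen {k : ℝ} (h1 : k ≠ 1) (h : k ≠ 1 / 2) :
    cS k = ![0, 1, 2, 3, 4, 5, 0, 0, 8] := by
  unfold cS
  rw [if_neg h1, if_neg h]

/-- 139's table of `oS` -/
theorem plU_oS {θ θb k : ℝ} : PlU k (cS k) (sn8 (dl (nat8 1 (-θ) (-θb)) oS 1) 1) := by
  have d2 : sn8 (dl (nat8 1 (-θ) (-θb)) oS 1) 1 2 = 1 := by
    show dl _ _ _ 2 = 1
    unfold dl; rw [s2, if_neg one_ne_zero, mul_one]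
  have d3 : sn8 (dl (nat8 1 (-θ) (-θb)) oS 1) 1 3 = 1 := by
    show dl _ _ _ 3 = 1
    unfold dl; rw [s3, if_neg one_ne_zero, mul_one]
  have d5 : sn8 (dl (nat8 1 (-θ) (-θb)) oS 1) 1 5 = 2 := by
    show dl _ _ _ 5 = 2
    unfold dl; rw [s5, if_neg two_ne_zero, one_mul]
  by_cases h1 : k = 1
  · subst h1
    rw [cS_one]
    refine ⟨by decide, by unfold Tp139.Al; decide, by unfold Tp139.Al; decide, fun h => absurd rfl h,
      fun _ => by unfold Tp139.Al; decide, fun h => absurd rfl h, fun _ => ⟨by decide, by decide, ?_⟩,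
      fun h => absurd h (by norm_num), by decide⟩
    rw [d3, d2]
  by_cases h2 : k = 1 / 2
  · subst h2
    rw [cS_half]
    refine ⟨by decide, by unfold Tp139.Al; decide, by unfold Tp139.Al; decide, fun _ => by unfold Tp139.Al; decide,
      fun h => absurd rfl h, fun _ h => absurd rfl h, fun h => absurd h h1,
      fun _ => ⟨by decide, by decide, ?_⟩, by decide⟩
    rw [d5, d2]; norm_num
  · rw [cS_gen h1 h2]
    exact ⟨by decide, by unfold Tp139.Al; decide, by unfold Tp139.Al; decide, fun _ => by unfold Tp139.Al; decide,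
      fun _ => by unfold Tp139.Al; decide, fun _ _ => by unfold Tp139.Al; decide, fun h => absurd h h1,
      fun h => absurd h h2, by decide⟩

/-! ### values -/

section val

variable {L : Set (Fin 12 → ℝ)} {s : ℝ} {a b : Fin 2} {Vis : Fin 12 → Prop}
    {θ θb g qa qb t : ℝ} {lam lam2 : Fin 2 → (Fin 12 → ℝ) → ℝ} {ρ ρ2 : Fin 8 → ℝ}
    {κ l α sg v c p : ℝ} {h : ℕ → ℝ} {B : Fin 8 → ℝ}

theorem b8_nat' (v c p : ℝ) : xt kp 0 (RL8.vec (nat8 v c p)) = ntD 0 v c p := b8_nat _ _ _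

/-- record identity of the record tangent -/
theorem rec8 (hrx : Rx (L8 θ θb t) (ntD 0) s a b Vis θ θb g qa qb (lam 0)) :
    lam 0 (xt kp 0 (RL8.vec (nat8 1 (-θ) (-θb)))) = DL g s qa qb 1 (-θ) (-θb) := by
  have h1 := hrx.rcd 1
  rw [mul_one, mul_one] at h1
  rw [b8_nat']; exact h1

/-- record identity of the class function of a plane -/
theorem T8 (H : Half8 θ θb t B sg lam 0 ρ κ l α h lam2 ρ2) (h0 : lam 0 0 = 0)
    (hrx : Rx (L8 θ θb t) (ntD 0) s a b Vis θ θb g qa qb (lam 0)) :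
    Lam8 (lam2 0) (nat9 1 (-θ) (-θb)) = DL g s qa qb 1 (-θ) (-θb) := by
  have h1 := H.rcd 1
  rw [one_smul] at h1
  show lam2 0 (xt kp 0 (RL8.vec (fun i : Fin 8 => nat9 1 (-θ) (-θb) i.castSucc))) = _
  rw [nat_cut]
  rw [h1, xt_zero8, h0, sub_zero]
  exact rec8 hrx

/-- D-max of the class function of a natural plane -/
theorem V8 (H : Half8 θ θb t (nat8 v c p) sg lam 0 ρ (DL g s qa qb v c p) l α h lam2 ρ2) :
    Lam8 (lam2 0) (nat9 v c p) ≤ DL g s qa qb v c p := by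
  show lam2 0 (xt kp 0 (RL8.vec (fun i : Fin 8 => nat9 v c p i.castSucc))) ≤ _
  rw [nat_cut]
  exact H.row

/-- 139's `TV` of the plane `oS`, `κ ≠ 1` -/
theorem tvS (H : Half8 θ θb t oS 1 lam 0 ρ (DL g s qa qb 0 1 1) l α h lam2 ρ2) (h0 : lam 0 0 = 0)
    (hrx : Rx (L8 θ θb t) (ntD 0) s a b Vis θ θb g qa qb (lam 0)) (hb : θb < θ) (hb2 : θb < 2 * θ)
    (h1 : θ - θb ≠ 1) {φ : Fin 9 → V9 → ℝ} {dl' : V9}
    (C : Cl9 (cS (θ - θb)) dl' s (Lam8 (lam2 0)) φ (sn8 ρ2 0))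
    (hh : θ - θb = 1 / 2 → rE (cS (θ - θb)) φ / 2 + (1 - hE (cS (θ - θb)) φ) = ρ2 5) :
    TV θ θb s g qa qb (ρ2 0) (ρ2 1) (rE (cS (θ - θb)) φ) (1 - xE (cS (θ - θb)) φ) (ρ2 4)
      (1 - hE (cS (θ - θb)) φ) := by
  have eκ : DL g s qa qb 0 1 1 = -(4 + qa + qb) := by unfold DL; ring
  rw [eκ] at H
  have hx : (1 - xE (cS (θ - θb)) φ) = ρ2 3 := by
    rw [xE_al C (by
      by_cases h2 : θ - θb = 1 / 2
      · rw [h2, cS_half]; decide
      · rw [cS_gen h1 h2]; decide)]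
    show 1 - (1 - ρ2 3) = _
    ring
  rw [hx]
  by_cases h2 : θ - θb = 1 / 2
  · exact tv8_h H h0 (rec8 hrx) hb2 h2 (hh h2)
  · have hr : rE (cS (θ - θb)) φ = ρ2 2 := by
      rw [rE_al C (by rw [cS_gen h1 h2]; decide)]; rfl
    have hH : (1 - hE (cS (θ - θb)) φ) = ρ2 5 := by
      rw [hE_al C (by rw [cS_gen h1 h2]; decide)]
      show 1 - (1 - ρ2 5) = _
      ring
    rw [hr, hH]
    exact Tp139.tv8 H h0 (rec8 hrx) hb hb2 h1 h2

end val

end Crest.Agent.R116.FlK363
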