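import Crest.Agent.R136.Rbw4_219_Mg
import Crest.Agent.R136.Rc5_683
import Crest.Agent.R136.Rbw5_219
import Crest.Agent.R116.RbK2_219

-- ▼ part R136/Rb6_741
section

/-!
# R136: record blow-up, part 6 (helper741): `PP` for a surface of the walls

`ppu` : the hypothesis `Srf.PPU` of `Rc683.ae_rec_tan`, if the signs of `dh` agree inside every
group (no zero slopes: such slots have to be frozen first, see `Sl1_741`).
-/

set_option autoImplicit false
set_option linter.unusedSectionVars false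
set_option linter.unusedVariables false

open Set Filter Topology MeasureTheory

namespace Crest.Agent.R136.Rb741

open Dg219 (Tn Walls lf zz)
open Dg262 (Mix Inc SupOn Grp X)
open Rc146 (gapW SDir)
open Rc683 (Srf)

variable {ι : Type*} [Fintype ι] [DecidableEq ι]

section

variable {ν : (ι → ℝ) → ℝ} {P : Set (ι → ℝ)} {K : ℝ} {g : ι → ℕ} {a b : ι → ℝ}
  {wv : ℕ → ℝ × ℝ} {Lc : Set (ι → ℝ)} {rk : ι → ℕ} {rm : ℕ → ι → ℝ} {lam r : ℝ × ℝ}
  {bb : ι → ℝ} {κ0 x₀ δ rr : ℝ}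


/-- a nonzero slope parallel to the record line: the later coordinates move in one direction -/
theorem par_of (hg : Grp a b g wv) (hr : r ≠ 0) {i : ι} (hne : a i ≠ 0 ∨ b i ≠ 0)
    (h : Tn a b r i = 0) : ∃ t : ℝ, ∀ l, g i < g l → 0 < t * Tn a b r l := by
  set u := wv (g i) with hu
  have h1 : a i * u.1 + b i * u.2 = 0 := hg.fix i
  have h2 : a i * r.1 + b i * r.2 = 0 := h
  have key : ∃ t : ℝ, u = t • r := by
    by_cases ha : a i = 0
    · have hb : b i ≠ 0 := by rcases hne with h' | h'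
                              · exact absurd ha h'
                              · exact h'
      rw [ha] at h1 h2
      have u2 : u.2 = 0 := by
        have : b i * u.2 = 0 := by linarith
        exact (mul_eq_zero.1 this).resolve_left hb
      have r2 : r.2 = 0 := by
        have : b i * r.2 = 0 := by linarith
        exact (mul_eq_zero.1 this).resolve_left hb
      have r1 : r.1 ≠ 0 := fun h' => hr (Prod.ext h' r2)
      refine ⟨u.1 / r.1, Prod.ext ?_ ?_⟩
      · simp only [Prod.smul_fst, smul_eq_mul]; field_simp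
      · simp only [Prod.smul_snd, smul_eq_mul]; rw [u2, r2, mul_zero]
    · have r2 : r.2 ≠ 0 := by
        intro h'
        rw [h', mul_zero, add_zero] at h2
        exact hr (Prod.ext ((mul_eq_zero.1 h2).resolve_left ha) h')
      refine ⟨u.2 / r.2, Prod.ext ?_ ?_⟩
      · simp only [Prod.smul_fst, smul_eq_mul]
        have e : a i * (u.1 * r.2) = a i * (u.2 * r.1) := by
          linear_combination r.2 * h1 - u.2 * h2
        have e' := mul_left_cancel₀ ha e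
        field_simp; linarith
      · simp only [Prod.smul_snd, smul_eq_mul]; field_simp
  obtain ⟨t, ht⟩ := key
  refine ⟨t, fun l hl => ?_⟩
  have h3 : 0 < Tn a b u l := hg.up i l hl
  rw [ht, Tn_smul, Pi.smul_apply, smul_eq_mul] at h3
  exact h3

end

section

variable {W : Type*} [Fintype W] {Q : Walls ι W} {lo hi y0 ρ0 : ι → ℝ}




end

end Crest.Agent.R136.Rb741
end

-- ▼ part R136/Sl1_741
section

/-!
# R136: frozen slots (helper741)

`xt p v c` : extension of a vector on the kept slots `{i // p i}` by `v` on the frozen ones.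
`Walls.slice` : walls with frozen slots (the frozen slots carry no wall).
**`ae_rec_tan_slice`** : record blow-up with frozen slots: full tangents on all slots, `OutH` for
the surfaces of the slice.
-/

set_option autoImplicit false
set_option linter.unusedSectionVars false
set_option linter.unusedVariables false

open Set Filter Topology Metric MeasureTheory

namespace Crest.Agent.R136.Sl741

open Dg219 (Tn Walls lf zz)
open Dg262 (Mix Inc SupOn Grp X)
open Rc146 (OutH)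
open Rc683 (Srf)
open Crest.Agent.R138

variable {ι : Type*} [Fintype ι] [DecidableEq ι] {W : Type*} [Fintype W]
  {p : ι → Prop} [DecidablePred p]

/-- extension by `v` on the frozen slots -/
def xt (p : ι → Prop) [DecidablePred p] (v : ι → ℝ) (c : {i // p i} → ℝ) : ι → ℝ :=
  fun i => if h : p i then c ⟨i, h⟩ else v i

/-- restriction to the kept slots -/
def rs (p : ι → Prop) (c : ι → ℝ) : {i // p i} → ℝ := fun i => c i.1

theorem xt_in (v : ι → ℝ) (c : {i // p i} → ℝ) {i : ι} (h : p i) : xt p v c i = c ⟨i, h⟩ :=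
  dif_pos h

theorem xt_off (v : ι → ℝ) (c : {i // p i} → ℝ) {i : ι} (h : ¬ p i) : xt p v c i = v i :=
  dif_neg h

theorem xt_val (v : ι → ℝ) (c : {i // p i} → ℝ) (i : {i // p i}) : xt p v c i.1 = c i := by
  rw [xt_in v c i.2]

theorem rs_xt (v : ι → ℝ) (c : {i // p i} → ℝ) : rs p (xt p v c) = c := by
  funext i; exact xt_val v c i

theorem xt_rs {v c : ι → ℝ} (h : ∀ i, ¬ p i → c i = v i) : xt p v (rs p c) = c := by
  funext i
  by_cases hi : p i
  · rw [xt_in _ _ hi]; rfl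
  · rw [xt_off _ _ hi, h i hi]

theorem xt_add (v w : ι → ℝ) (c d : {i // p i} → ℝ) : xt p (v + w) (c + d) = xt p v c + xt p w d := by
  funext i
  by_cases hi : p i
  · rw [Pi.add_apply, xt_in _ _ hi, xt_in _ _ hi, xt_in _ _ hi]; rfl
  · rw [Pi.add_apply, xt_off _ _ hi, xt_off _ _ hi, xt_off _ _ hi]; rfl

theorem xt_smul (t : ℝ) (c : {i // p i} → ℝ) : xt p 0 (t • c) = t • xt p 0 c := by
  funext i
  by_cases hi : p i
  · rw [Pi.smul_apply, xt_in _ _ hi, xt_in _ _ hi]; rfl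
  · rw [Pi.smul_apply, xt_off _ _ hi, xt_off _ _ hi]; simp

theorem xt_add0 (v : ι → ℝ) (c d : {i // p i} → ℝ) : xt p v (c + d) = xt p v c + xt p 0 d := by
  have := xt_add v 0 c d
  rwa [add_zero] at this

theorem xt_sup (v : ι → ℝ) (c d : {i // p i} → ℝ) : xt p v (c ⊔ d) = xt p v c ⊔ xt p v d := by
  funext i
  by_cases hi : p i
  · rw [Pi.sup_apply, xt_in _ _ hi, xt_in _ _ hi, xt_in _ _ hi]; rfl
  · rw [Pi.sup_apply, xt_off _ _ hi, xt_off _ _ hi, xt_off _ _ hi, sup_idem]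

theorem xt_inf (v : ι → ℝ) (c d : {i // p i} → ℝ) : xt p v (c ⊓ d) = xt p v c ⊓ xt p v d := by
  funext i
  by_cases hi : p i
  · rw [Pi.inf_apply, xt_in _ _ hi, xt_in _ _ hi, xt_in _ _ hi]; rfl
  · rw [Pi.inf_apply, xt_off _ _ hi, xt_off _ _ hi, xt_off _ _ hi, inf_idem]

theorem xt_mono (v : ι → ℝ) {c d : {i // p i} → ℝ} (h : c ≤ d) : xt p v c ≤ xt p v d := by
  intro i
  by_cases hi : p i
  · rw [xt_in _ _ hi, xt_in _ _ hi]; exact h _
  · rw [xt_off _ _ hi, xt_off _ _ hi]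

theorem xt_dist (v : ι → ℝ) (c d : {i // p i} → ℝ) : dist (xt p v c) (xt p v d) ≤ dist c d := by
  rw [dist_pi_le_iff dist_nonneg]
  intro i
  by_cases hi : p i
  · rw [xt_in _ _ hi, xt_in _ _ hi]; exact dist_le_pi_dist c d _
  · rw [xt_off _ _ hi, xt_off _ _ hi, dist_self]; exact dist_nonneg

theorem xt_norm (c : {i // p i} → ℝ) : ‖xt p 0 c‖ ≤ ‖c‖ := by
  rw [pi_norm_le_iff_of_nonneg (norm_nonneg _)]
  intro i
  by_cases hi : p i
  · rw [xt_in _ _ hi]; exact norm_le_pi_norm c _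
  · rw [xt_off _ _ hi]; simp

theorem xt_sum (v : ι → ℝ) (c d : {i // p i} → ℝ) :
    ∑ i, (xt p v d i - xt p v c i) = ∑ i, (d i - c i) := by
  rw [← Fintype.sum_subtype_add_sum_subtype p]
  have h1 : ∑ i : {i // ¬ p i}, (xt p v d i.1 - xt p v c i.1) = 0 :=
    Finset.sum_eq_zero fun i _ => by rw [xt_off _ _ i.2, xt_off _ _ i.2, sub_self]
  rw [h1, add_zero]
  exact Finset.sum_congr rfl fun i _ => by rw [xt_val, xt_val]

/-- walls with frozen slots -/
def slice (Q : Walls ι W) (p : ι → Prop) [DecidablePred p] (v : ι → ℝ) (hp : ∀ w, p (Q.hd w)) :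
    Walls {i // p i} W where
  hd := fun w => ⟨Q.hd w, hp w⟩
  co := fun w s => Q.co w s.1
  cst := fun w => Q.cst w + ∑ s : {i // ¬ p i}, (Q.co w s.1 : ℝ) * v s.1
  rk := fun s => Q.rk s.1
  low := fun w s hs => Q.low w s.1 hs

section

variable {Q : Walls ι W} {v : ι → ℝ} {hp : ∀ w, p (Q.hd w)} {lo hi x0 a b : ι → ℝ}

theorem rhs_xt (w : W) (u : ι → ℝ) (c : {i // p i} → ℝ) :
    Q.rhs w (xt p u c) = (slice Q p v hp).rhs w c +
      ∑ s : {i // ¬ p i}, (Q.co w s.1 : ℝ) * u s.1 := by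
  unfold Walls.rhs
  rw [← Fintype.sum_subtype_add_sum_subtype p]
  congr 1
  · exact Finset.sum_congr rfl fun i _ => by rw [xt_val]; rfl
  · exact Finset.sum_congr rfl fun i _ => by rw [xt_off _ _ i.2]

theorem rhs_xt0 (w : W) (c : {i // p i} → ℝ) :
    Q.rhs w (xt p 0 c) = (slice Q p v hp).rhs w c := by
  rw [rhs_xt (v := v) (hp := hp)]; simp

theorem mem_slice_P (hv : ∀ i, ¬ p i → lo i ≤ v i ∧ v i ≤ hi i) {c : {i // p i} → ℝ} :
    c ∈ (slice Q p v hp).P (rs p lo) (rs p hi) ↔ xt p v c ∈ Q.P lo hi := by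
  constructor
  · rintro ⟨h1, h2⟩
    refine ⟨fun k => ?_, fun w => ?_⟩
    · by_cases hk : p k
      · rw [xt_in _ _ hk]; exact h1 ⟨k, hk⟩
      · rw [xt_off _ _ hk]; exact hv k hk
    · have h3 : c ⟨Q.hd w, hp w⟩ ≤ (slice Q p v hp).rhs w c +
        (Q.cst w + ∑ s : {i // ¬ p i}, (Q.co w s.1 : ℝ) * v s.1) := h2 w
      rw [rhs_xt (v := v) (hp := hp), xt_in _ _ (hp w)]; linarith
  · rintro ⟨h1, h2⟩
    refine ⟨fun k => ?_, fun w => ?_⟩
    · have := h1 k.1
      rw [xt_val] at this; exact this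
    · have := h2 w
      rw [rhs_xt (v := v) (hp := hp), xt_in _ _ (hp w)] at this
      change c ⟨Q.hd w, hp w⟩ ≤ (slice Q p v hp).rhs w c +
        (Q.cst w + ∑ s : {i // ¬ p i}, (Q.co w s.1 : ℝ) * v s.1)
      linarith

theorem slice_Act (h0 : ∀ i, ¬ p i → x0 i = v i) (ha : ∀ i, ¬ p i → a i = 0)
    (hb : ∀ i, ¬ p i → b i = 0) {w : W} :
    (slice Q p v hp).Act (rs p x0) (rs p a) (rs p b) w ↔ Q.Act x0 a b w := by
  have e0 : Q.rhs w x0 = (slice Q p v hp).rhs w (rs p x0) +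
      ∑ s : {i // ¬ p i}, (Q.co w s.1 : ℝ) * v s.1 := by
    rw [← rhs_xt (v := v) (hp := hp), xt_rs h0]
  have e1 : Q.rhs w a = (slice Q p v hp).rhs w (rs p a) := by
    have := rhs_xt0 (Q := Q) (v := v) (hp := hp) w (rs p a)
    rw [← this, xt_rs fun i hi => by rw [ha i hi]; rfl]
  have e2 : Q.rhs w b = (slice Q p v hp).rhs w (rs p b) := by
    have := rhs_xt0 (Q := Q) (v := v) (hp := hp) w (rs p b)
    rw [← this, xt_rs fun i hi => by rw [hb i hi]; rfl]
  unfold Walls.Act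
  rw [e0, e1, e2]
  have e3 : (slice Q p v hp).cst w =
    Q.cst w + ∑ s : {i // ¬ p i}, (Q.co w s.1 : ℝ) * v s.1 := rfl
  have e4 : (slice Q p v hp).hd w = ⟨Q.hd w, hp w⟩ := rfl
  rw [e3, e4]
  change (x0 (Q.hd w) = _ ∧ a (Q.hd w) = _ ∧ b (Q.hd w) = _) ↔ _
  constructor
  · rintro ⟨h1, h2, h3⟩; exact ⟨by linarith, h2, h3⟩
  · rintro ⟨h1, h2, h3⟩; exact ⟨by linarith, h2, h3⟩

theorem mem_slice_L (h0 : ∀ i, ¬ p i → x0 i = v i) (ha : ∀ i, ¬ p i → a i = 0)
    (hb : ∀ i, ¬ p i → b i = 0) {c : {i // p i} → ℝ} :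
    c ∈ (slice Q p v hp).L (rs p x0) (rs p a) (rs p b) ↔ xt p 0 c ∈ Q.L x0 a b := by
  constructor
  · intro h w hw
    have := h w ((slice_Act h0 ha hb).2 hw)
    rw [rhs_xt0 (v := v) (hp := hp), xt_in _ _ (hp w)]; exact this
  · intro h w hw
    have := h w ((slice_Act h0 ha hb).1 hw)
    rw [rhs_xt0 (v := v) (hp := hp), xt_in _ _ (hp w)] at this; exact this

theorem X_slice (h0 : ∀ i, ¬ p i → x0 i = v i) (ha : ∀ i, ¬ p i → a i = 0)
    (hb : ∀ i, ¬ p i → b i = 0) (z : ℝ × ℝ) :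
    xt p v (X (rs p x0) (rs p a) (rs p b) z) = X x0 a b z := by
  have : X (rs p x0) (rs p a) (rs p b) z = rs p (X x0 a b z) := rfl
  rw [this, xt_rs]
  intro i hi
  simp only [X, h0 i hi, ha i hi, hb i hi, zero_mul, add_zero]

theorem mem_slice_O (h0 : ∀ i, ¬ p i → x0 i = v i) (ha : ∀ i, ¬ p i → a i = 0)
    (hb : ∀ i, ¬ p i → b i = 0) {z : ℝ × ℝ} (hz : z ∈ Q.O lo hi x0 a b) :
    z ∈ (slice Q p v hp).O (rs p lo) (rs p hi) (rs p x0) (rs p a) (rs p b) := by
  refine ⟨fun k => hz.1 k.1, fun w => ?_⟩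
  rcases hz.2 w with h | h
  · exact Or.inl ((slice_Act h0 ha hb).2 h)
  · right
    rw [← X_slice (v := v) h0 ha hb z, rhs_xt (v := v) (hp := hp), xt_in _ _ (hp w)] at h
    change X (rs p x0) (rs p a) (rs p b) z ⟨Q.hd w, hp w⟩ <
      (slice Q p v hp).rhs w (X (rs p x0) (rs p a) (rs p b) z) +
        (Q.cst w + ∑ s : {i // ¬ p i}, (Q.co w s.1 : ℝ) * v s.1)
    linarith

end

/-- `OutH` depends on `lam` on the window cone only -/
theorem outH_congr {κ : Type*} [DecidableEq κ] {grp : ι → κ} {S : Finset κ} {LW L : Set (ι → ℝ)}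
    {a b : ι → ℝ} {l : ℝ × ℝ} {dh : ι → ℝ} {n : κ → ℝ × ℝ} {lam lam' : (ι → ℝ) → ℝ}
    {φ : κ → (ι → ℝ) → ℝ} {r : κ → ℝ} (H : OutH grp S LW L a b l dh n lam φ r)
    (he : ∀ c ∈ LW, lam' c = lam c) : OutH grp S LW L a b l dh n lam' φ r where
  split := fun c hc c' hc' h => by rw [he c hc, he c' hc']; exact H.split c hc c' hc' h
  loc := H.loc
  zero := H.zero
  mono := H.mono
  smod := H.smod
  rate := H.rate
  r_nonneg := H.r_nonneg
  r_le := H.r_le

/-- a tangent is unique on the cone -/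
theorem tan_unique {V : Type*} [NormedAddCommGroup V] [NormedSpace ℝ V] {P D : Set V}
    {ν lam : V → ℝ} {x : ℕ → V} {h : ℕ → ℝ} (hpos : ∀ l, 0 < h l)
    (H : Ex926.IsTan P D ν x h lam) {c : V} (hc : c ∈ D) :
    Tendsto (fun l => (ν (x l + h l • c) - ν (x l)) / h l) atTop (𝓝 (lam c)) := by
  rw [Metric.tendsto_nhds]
  intro ε hε
  filter_upwards [H ‖c‖ (ε / 2) (by positivity)] with l hl
  have h1 := (hl c hc le_rfl).2
  rw [Real.dist_eq]
  have h2 := hpos l
  have e : (ν (x l + h l • c) - ν (x l)) / h l - lam c =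
      (ν (x l + h l • c) - ν (x l) - h l * lam c) / h l := by field_simp
  rw [e, abs_div, abs_of_pos h2, div_lt_iff₀ h2]
  nlinarith


end Crest.Agent.R136.Sl741
end

-- ▼ part R136/Sl2_741
section

/-!
# R136: frozen slots, `RecOut` form (helper741)

**`ae_rec_slice`** : 219's `Rc683.ae_rec` with frozen slots: full tangents on all slots, `RecOut`
for the surfaces of the slice.
-/

set_option autoImplicit false
set_option linter.unusedSectionVars false
set_option linter.unusedVariables false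

open Set Filter Topology Metric MeasureTheory

namespace Crest.Agent.R136.Sl741

open Dg219 (Tn Walls lf zz)
open Dg262 (Mix Inc SupOn Grp X)
open Rc146 (OutH RecOut)
open Rc683 (Srf)
open Crest.Agent.R138

variable {ι : Type*} [Fintype ι] [DecidableEq ι] {W : Type*} [Fintype W]
  {p : ι → Prop} [DecidablePred p]

/-- `RecOut` depends on `lam` on the window cone only -/
theorem recOut_congr {κ : Type*} [DecidableEq κ] {grp : ι → κ} {S : Finset κ}
    {LW L : Set (ι → ℝ)} {a b : ι → ℝ} {l : ℝ × ℝ} {dh : ι → ℝ} {n : κ → ℝ × ℝ}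
    {lam lam' : (ι → ℝ) → ℝ} {φ : κ → (ι → ℝ) → ℝ} {r : κ → ℝ}
    (H : RecOut grp S LW L a b l dh n lam φ r) (he : ∀ c ∈ LW, lam' c = lam c) :
    RecOut grp S LW L a b l dh n lam' φ r :=
  { outH_congr H.toOutH he with
    stat := H.stat
    add := H.add
    hom := H.hom }

/-- **RECORD BLOW-UP with frozen slots** : `¬ p i` = frozen slot (slope 0 along the record line, no
wall with this head); surfaces `sf s` of the slice; `K`-Lipschitz functions `f j` on the legal set,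
`f j0` the profile. At almost every record point, along every sequence of scales there are tangents
of all `f j` (on ALL slots) at moving base points of the record line, with `RecOut` for all surfaces,
for `lam j0` at vectors which vanish on the frozen slots -/
theorem ae_rec_slice {Q : Walls ι W} {hp : ∀ w, p (Q.hd w)} {lo hi y0 ρ0 : ι → ℝ}
    (hv : ∀ i, ¬ p i → lo i ≤ y0 i ∧ y0 i ≤ hi i) (hρ : ∀ i, ¬ p i → ρ0 i = 0)
    {T : Type*} [Countable T] {sf : T → Srf {i // p i}}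
    (ok : ∀ s, (sf s).Ok (slice Q p y0 hp) (rs p y0) (rs p ρ0))
    (hR : ∀ s, ∃ wv, (sf s).Rok (slice Q p y0 hp) wv)
    {J : Type*} [Finite J] {f : J → (ι → ℝ) → ℝ} {j0 : J} {K : ℝ} (hK : 0 ≤ K)
    (hν : ∀ j, ∀ p ∈ Q.P lo hi, ∀ q ∈ Q.P lo hi, |f j p - f j q| ≤ K * dist p q)
    (hm : ∀ p ∈ Q.P lo hi, ∀ q ∈ Q.P lo hi, p ≤ q →
      0 ≤ f j0 p - f j0 q ∧ f j0 p - f j0 q ≤ ∑ i, (q i - p i))
    (hs : SupOn (f j0) (Q.P lo hi)) {U : Set ℝ}
    (hU : ∀ ξ ∈ U, (ξ, (0:ℝ)) ∈ Q.O lo hi y0 ρ0 0) :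
    ∀ᵐ ξ : ℝ, ξ ∈ U → ∃ c0 : T → ℝ, (∀ s, 0 < c0 s) ∧
      (∀ s, (sf s).LW (slice Q p y0 hp) (c0 s) ⊆
        (slice Q p y0 hp).L (rs p y0) (rs p ρ0) 0) ∧
      ∀ h : ℕ → ℝ, (∀ l, 0 < h l) → Tendsto h atTop (𝓝 0) →
      ∃ (x h' : ℕ → ℝ) (lam : J → (ι → ℝ) → ℝ), Tendsto x atTop (𝓝 ξ) ∧ (∀ m, 0 < h' m) ∧
        Tendsto h' atTop (𝓝 0) ∧
        (∀ j, Ex926.IsTan (Q.P lo hi) (Q.L y0 ρ0 0) (f j) (fun m => y0 + x m • ρ0) h'
          (lam j)) ∧
        ∀ s, ∃ (φ : ℕ → ({i // p i} → ℝ) → ℝ) (r : ℕ → ℝ), RecOut (sf s).g (sf s).S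
          ((sf s).LW (slice Q p y0 hp) (c0 s)) ((sf s).L (slice Q p y0 hp)) (sf s).a (sf s).b
          (sf s).l (sf s).dh (sf s).n (fun c => lam j0 (xt p 0 c)) φ r := by
  set Q' := slice Q p y0 hp with hQ'
  have h00 : ∀ i, ¬ p i → y0 i = y0 i := fun _ _ => rfl
  have hb0 : ∀ i, ¬ p i → (0 : ι → ℝ) i = 0 := fun _ _ => rfl
  have hr0 : rs p (0 : ι → ℝ) = 0 := rfl
  have hP' : ∀ {c : {i // p i} → ℝ}, c ∈ Q'.P (rs p lo) (rs p hi) ↔ xt p y0 c ∈ Q.P lo hi :=
    mem_slice_P hv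
  have hL' : ∀ {c : {i // p i} → ℝ}, c ∈ Q'.L (rs p y0) (rs p ρ0) 0 ↔
      xt p 0 c ∈ Q.L y0 ρ0 0 := mem_slice_L h00 hρ hb0
  set f' : J → ({i // p i} → ℝ) → ℝ := fun j c => f j (xt p y0 c) with hf'
  have hν' : ∀ j, ∀ c ∈ Q'.P (rs p lo) (rs p hi), ∀ d ∈ Q'.P (rs p lo) (rs p hi),
      |f' j c - f' j d| ≤ K * dist c d := fun j c hc d hd =>
    (hν j _ (hP'.1 hc) _ (hP'.1 hd)).trans (mul_le_mul_of_nonneg_left (xt_dist _ _ _) hK)
  have hm' : ∀ c ∈ Q'.P (rs p lo) (rs p hi), ∀ d ∈ Q'.P (rs p lo) (rs p hi), c ≤ d →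
      0 ≤ f' j0 c - f' j0 d ∧ f' j0 c - f' j0 d ≤ ∑ i, (d i - c i) := by
    intro c hc d hd hcd
    have := hm _ (hP'.1 hc) _ (hP'.1 hd) (xt_mono y0 hcd)
    rw [xt_sum] at this; exact this
  have hs' : SupOn (f' j0) (Q'.P (rs p lo) (rs p hi)) := by
    intro c hc d hd h1 h2
    have := hs _ (hP'.1 hc) _ (hP'.1 hd) (by rw [← xt_inf]; exact hP'.1 h1)
      (by rw [← xt_sup]; exact hP'.1 h2)
    rw [← xt_inf, ← xt_sup] at this; exact this
  have hU' : ∀ ξ ∈ U, (ξ, (0:ℝ)) ∈ Q'.O (rs p lo) (rs p hi) (rs p y0) (rs p ρ0) 0 :=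
    fun ξ hξ => mem_slice_O h00 hρ hb0 (hU ξ hξ)
  have key := Rc683.ae_rec (Q := Q') (f := f') (j0 := j0) ok hR hK hν' hm' hs' hU'
  filter_upwards [key] with ξ hξ hξU
  obtain ⟨c0, hc0, hc0', H⟩ := hξ hξU
  refine ⟨c0, hc0, hc0', fun h hpos h0 => ?_⟩
  obtain ⟨x, h', lam', hx, hh', hh0, hT, hO⟩ := H h hpos h0
  -- full tangents
  have hM : Dg219.Cone (Q.L y0 ρ0 0) := Walls.cone
  have hcl : IsClosed (Q.L y0 ρ0 0) := Walls.isClosed_L
  obtain ⟨φ1, hφ1, lam, hlam⟩ := Rc683.exists_tan (J := J) (P := fun _ => Q.P lo hi)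
    (D := fun _ => Q.L y0 ρ0 0) (ν := f) (fun _ => hcl) hK
    (fun j p hp q hq => by rw [← dist_eq_norm]; exact hν j p hp q hq)
    (x := fun m => y0 + x m • ρ0) hh' (fun _ C => by
      obtain ⟨ε, hε, H1⟩ := Walls.legal (hU ξ hξU) C
      have e1 : ∀ᶠ m in atTop, dist ((x m, (0:ℝ)) : ℝ × ℝ) (ξ, 0) < ε := by
        filter_upwards [Metric.tendsto_nhds.1 hx ε hε] with m hm
        rw [Prod.dist_eq, dist_self]
        exact max_lt hm hε
      filter_upwards [e1, hh0.eventually_lt_const hε] with m hm1 hm2 c hc hcC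
      have := H1 (x m, 0) hm1 (h' m) (hh' m) hm2 c hc hcC
      rwa [Rc683.line_eq] at this) (fun _ => hM.zero)
  have hφt := hφ1.tendsto_atTop
  refine ⟨fun m => x (φ1 m), fun m => h' (φ1 m), lam, hx.comp hφt, fun m => hh' _,
    hh0.comp hφt, hlam, fun s => ?_⟩
  obtain ⟨φ, r, hφr⟩ := hO s
  refine ⟨φ, r, recOut_congr hφr fun c hc => ?_⟩
  have hcL := hc0' s hc
  -- the two tangents agree
  have t1 := tan_unique (fun m => hh' (φ1 m)) (hlam j0) (hL'.1 hcL)
  have t2 := tan_unique (fun m => hh' (φ1 m)) (Rc683.tan_comp (hT j0) hφt) hcL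
  refine tendsto_nhds_unique t1 (t2.congr fun m => ?_)
  have hy : xt p y0 (rs p y0 + x (φ1 m) • rs p ρ0) = y0 + x (φ1 m) • ρ0 := by
    rw [xt_add0, xt_smul, xt_rs (fun _ _ => rfl), xt_rs fun i hi => by rw [hρ i hi]; rfl]
  have hy2 : xt p y0 (rs p y0 + x (φ1 m) • rs p ρ0 + h' (φ1 m) • c) =
      y0 + x (φ1 m) • ρ0 + h' (φ1 m) • xt p 0 c := by
    rw [xt_add0, xt_smul, hy]
  simp only [hf']
  rw [hy, hy2]

end Crest.Agent.R136.Sl741
end

-- ▼ part R116/RbK3_219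

/-!
# R116 (K side), rates on the half planes, part 3 (helper219)

* `diagM`     : diagonal with a moving second base
* `SOk.rok`   : the data of 741's record blow-up for `RS.srf`
* `RateG`     : rate of a whole group of parallel ray slots
* `SRates`    : all rates of one surface; `SOk.rates` from `OutH`
* **`ae_rates`** : record blow-up in `RS` language (no hypothesis about the blow-up), with frozen
  slots
-/

set_option autoImplicit false
set_option linter.unusedSectionVars false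
set_option linter.unusedVariables false

open Set Filter Topology Metric MeasureTheory

namespace Crest.Agent.R116.RbK219

open Crest.Agent.R136
open Crest.Agent.R138
open Dg262 (X X_cont SupOn)
open Dg219 (Tn lf det2 zz lf_zz Cone Sep Geo gset mem_gset Walls gC nC dhC gC_zero gC_eq nC_zero
  nC_of dirC exists_grpC)
open Rc146 (OutH LH DH SH SDir gapW RecOut)
open Rc683 (Srf)
open Sl741 (slice xt rs)

/-! ### diagonal, moving second base -/

section diag

open Crest.Agent.R138.Ex926 (IsTan)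

variable {V : Type*} [NormedAddCommGroup V] [NormedSpace ℝ V]

theorem diagM_aux {P L L' : Set V} {ν g lam : V → ℝ} {x : ℕ → V} {h : ℕ → ℝ}
    (hpos : ∀ l, 0 < h l) {y : ℕ → V} (hy : ∀ m, y m ∈ L)
    {k : ℕ → ℝ} (kpos : ∀ m, 0 < k m) (ht2 : IsTan L L' g y k lam) {ψ : ℕ → ℕ}
    (hψ2 : ∀ m, ∀ c ∈ L, ‖c‖ ≤ ‖y m‖ + k m * m → x (ψ m) + h (ψ m) • c ∈ P ∧
      |ν (x (ψ m) + h (ψ m) • c) - ν (x (ψ m)) - h (ψ m) * g c| ≤ k m / (m + 1) * h (ψ m)) :
    IsTan P L' ν (fun m => x (ψ m) + h (ψ m) • y m) (fun m => h (ψ m) * k m) lam := by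
  intro C ε hε
  obtain ⟨N1, hN1⟩ := exists_nat_gt C
  obtain ⟨N2, hN2⟩ := exists_nat_gt (4 / ε)
  filter_upwards [ht2 C (ε / 2) (by positivity), eventually_ge_atTop (max N1 N2)] with m h1 h2 c hc hcC
  have hj1 : (N1 : ℝ) ≤ m := by exact_mod_cast (le_max_left _ _).trans h2
  have hj2 : (N2 : ℝ) ≤ m := by exact_mod_cast (le_max_right _ _).trans h2
  obtain ⟨m1, m2⟩ := h1 c hc hcC
  have hk := kpos m
  have hh := hpos (ψ m)
  have hn : ‖y m + k m • c‖ ≤ ‖y m‖ + k m * m := by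
    refine (norm_add_le _ _).trans ?_
    rw [norm_smul, Real.norm_of_nonneg hk.le]
    have : k m * ‖c‖ ≤ k m * m := mul_le_mul_of_nonneg_left (by linarith) hk.le
    linarith
  obtain ⟨p1, p2⟩ := hψ2 m _ m1 hn
  obtain ⟨q1, q2⟩ := hψ2 m _ (hy m) (by
    have : 0 ≤ k m * m := by positivity
    linarith)
  have e1 : x (ψ m) + h (ψ m) • y m + (h (ψ m) * k m) • c =
      x (ψ m) + h (ψ m) • (y m + k m • c) := by
    rw [smul_add, smul_smul, add_assoc]
  refine ⟨by rw [e1]; exact p1, ?_⟩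
  rw [e1]
  have h4 : k m / (m + 1) ≤ k m * (ε / 4) := by
    rw [div_le_iff₀ (by positivity)]
    rw [div_lt_iff₀ hε] at hN2
    have : 1 ≤ ε / 4 * ((m : ℝ) + 1) := by nlinarith
    calc k m = k m * 1 := (mul_one _).symm
      _ ≤ k m * (ε / 4 * ((m : ℝ) + 1)) := mul_le_mul_of_nonneg_left this hk.le
      _ = k m * (ε / 4) * (m + 1) := by ring
  have p3 : |ν (x (ψ m) + h (ψ m) • (y m + k m • c)) - ν (x (ψ m)) -
      h (ψ m) * g (y m + k m • c)| ≤
      k m * (ε / 4) * h (ψ m) := p2.trans (mul_le_mul_of_nonneg_right h4 hh.le)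
  have q3 : |ν (x (ψ m) + h (ψ m) • y m) - ν (x (ψ m)) - h (ψ m) * g (y m)| ≤
      k m * (ε / 4) * h (ψ m) := q2.trans (mul_le_mul_of_nonneg_right h4 hh.le)
  have r3 : h (ψ m) * |g (y m + k m • c) - g (y m) - k m * lam c| ≤ h (ψ m) * (ε / 2 * k m) :=
    mul_le_mul_of_nonneg_left m2 hh.le
  have e2 : ν (x (ψ m) + h (ψ m) • (y m + k m • c)) - ν (x (ψ m) + h (ψ m) • y m) -
      h (ψ m) * k m * lam c =
      (ν (x (ψ m) + h (ψ m) • (y m + k m • c)) - ν (x (ψ m)) - h (ψ m) * g (y m + k m • c)) -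
      (ν (x (ψ m) + h (ψ m) • y m) - ν (x (ψ m)) - h (ψ m) * g (y m)) +
      h (ψ m) * (g (y m + k m • c) - g (y m) - k m * lam c) := by ring
  show |ν (x (ψ m) + h (ψ m) • (y m + k m • c)) - ν (x (ψ m) + h (ψ m) • y m) -
      h (ψ m) * k m * lam c| ≤ ε * (h (ψ m) * k m)
  rw [e2]
  have s1 := abs_add_le ((ν (x (ψ m) + h (ψ m) • (y m + k m • c)) - ν (x (ψ m)) -
      h (ψ m) * g (y m + k m • c)) - (ν (x (ψ m) + h (ψ m) • y m) - ν (x (ψ m)) -
      h (ψ m) * g (y m)))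
      (h (ψ m) * (g (y m + k m • c) - g (y m) - k m * lam c))
  have s2 := abs_sub (ν (x (ψ m) + h (ψ m) • (y m + k m • c)) - ν (x (ψ m)) -
      h (ψ m) * g (y m + k m • c)) (ν (x (ψ m) + h (ψ m) • y m) - ν (x (ψ m)) -
      h (ψ m) * g (y m))
  rw [abs_mul, abs_of_pos hh] at s1
  linarith

/-- **diagonal** with a moving second base `y m ∈ L` -/
theorem diagM {J : Type*} [Finite J] {P L L' : J → Set V} {ν g lam : J → V → ℝ} {x : ℕ → V}
    {h : ℕ → ℝ} (hpos : ∀ l, 0 < h l) (ht : ∀ j, IsTan (P j) (L j) (ν j) x h (g j)) {y : ℕ → V}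
    (hy : ∀ j m, y m ∈ L j) {k : ℕ → ℝ} (kpos : ∀ m, 0 < k m)
    (ht2 : ∀ j, IsTan (L j) (L' j) (g j) y k (lam j))
    {A : ℕ → ℕ → Prop} (hA : ∀ m, ∀ᶠ l in atTop, A m l) :
    ∃ ψ : ℕ → ℕ, StrictMono ψ ∧ (∀ m, A m (ψ m)) ∧ ∀ j,
      IsTan (P j) (L' j) (ν j) (fun m => x (ψ m) + h (ψ m) • y m) (fun m => h (ψ m) * k m)
        (lam j) := by
  classical
  obtain ⟨ψ, hψ, hψ2⟩ := Filter.extraction_forall_of_eventually
    (P := fun m l => (∀ j, ∀ c ∈ L j, ‖c‖ ≤ ‖y m‖ + k m * m → x l + h l • c ∈ P j ∧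
      |ν j (x l + h l • c) - ν j (x l) - h l * g j c| ≤ k m / (m + 1) * h l) ∧ A m l) (fun m =>
      (Filter.eventually_all.2 fun j => ht j (‖y m‖ + k m * m) (k m / (m + 1)) (by
        have := kpos m; positivity)).and (hA m))
  refine ⟨ψ, hψ, fun m => (hψ2 m).2, fun j => ?_⟩
  exact diagM_aux hpos (hy j) kpos (ht2 j) fun m => (hψ2 m).1 j

end diag

variable {ι W τ : Type*} [Fintype ι] [DecidableEq ι] [Fintype W] [Fintype τ] [DecidableEq τ]

section

variable {R : RS ι τ} {A B : τ → ℝ} {sg : ℝ} {y0 : ι → ℝ}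

/-- data of 741's record blow-up for the surface -/
theorem SOk.rok (h : SOk A B sg) {Q : Walls ι W} : ∃ wv, (R.srf y0 A B sg).Rok Q wv := by
  refine Rc683.Rok.closed (s := R.srf y0 A B sg) (h.a_nonneg (R := R)) (fun i hi => ?_) rfl rfl
  exact mul_pos (R.pos i) (h.zero _ (h.a_zero.1 hi))

/-! ### groups of parallel ray slots -/

/-- parallel ray slots -/
def Par (A B : τ → ℝ) (t t' : τ) : Prop := A t * B t' = A t' * B t

theorem SOk.grp_par (h : SOk A B sg) (i j : ι) :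
    (R.srf y0 A B sg).g i = (R.srf y0 A B sg).g j ↔ Par A B (R.cls j) (R.cls i) := by
  change gC (R.vec (sg • B)) (R.vec A) i = gC (R.vec (sg • B)) (R.vec A) j ↔ _
  rw [gC_par h.ab]
  have h1 := (R.pos i).ne'
  have h2 := (R.pos j).ne'
  have h3 := h.ne
  unfold Par
  constructor
  · intro h0
    simp only [RS.vec, Pi.smul_apply, smul_eq_mul] at h0
    have h4 : R.mu i * R.mu j * sg *
        (A (R.cls j) * B (R.cls i) - A (R.cls i) * B (R.cls j)) = 0 := by
      linear_combination h0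
    have h5 := (mul_eq_zero.1 h4).resolve_left (mul_ne_zero (mul_ne_zero h1 h2) h3)
    linarith
  · intro h0
    simp only [RS.vec, Pi.smul_apply, smul_eq_mul]
    linear_combination (R.mu i * R.mu j * sg) * h0

open Classical in
/-- the direction of the group of the ray slot `t`: level of `t` raised by one -/
noncomputable def RS.eG (R : RS ι τ) (A B : τ → ℝ) (sg : ℝ) (t : τ) (i : ι) : ℝ :=
  if Par A B t (R.cls i) then R.mu i * (dl A B sg (R.cls i) / dl A B sg t) else 0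

/-- rate of the whole group of the ray slot `t`, in units of the level of `t` -/
def RS.RateG (R : RS ι τ) (A B : τ → ℝ) (sg : ℝ) (lam : (ι → ℝ) → ℝ) (LW : Set (ι → ℝ)) (t : τ)
    (ρ : ℝ) : Prop :=
  ∀ (p : ι → ℝ) (u x : ℝ), (∀ i, Par A B t (R.cls i) →
      p i = R.mu i * (dl A B sg (R.cls i) / dl A B sg t) * u) → p ∈ LW →
    p + x • R.eG A B sg t ∈ LW → lam p - lam (p + x • R.eG A B sg t) = ρ * x

variable {LW L : Set (ι → ℝ)} {lam : (ι → ℝ) → ℝ} {φ : ℕ → (ι → ℝ) → ℝ} {r : ℕ → ℝ}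

theorem SOk.rateG_of (h : SOk A B sg) {t : τ} (hA : A t ≠ 0) (hL : LW ⊆ L)
    (H : OutH (R.srf y0 A B sg).g (R.srf y0 A B sg).S LW L (R.srf y0 A B sg).a
      (R.srf y0 A B sg).b (R.srf y0 A B sg).l (R.srf y0 A B sg).dh (R.srf y0 A B sg).n lam φ r)
    {j : ι} (hj : R.cls j = t) :
    R.RateG A B sg lam LW t (r ((R.srf y0 A B sg).g j) / dl A B sg t) := by
  intro p u x hp hpm hpe
  have hd := (h.dl_pos t).ne'
  have hg : ∀ i, (R.srf y0 A B sg).g i = (R.srf y0 A B sg).g j ↔ Par A B t (R.cls i) := by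
    intro i; rw [h.grp_par (R := R) (y0 := y0), hj]
  rw [rate_inc H hL (h.mem_S hA hj) hpm hpe (u := u / dl A B sg t) (t := x / dl A B sg t)
    (fun i hi => by
      rw [hp i ((hg i).1 hi), h.dh_eq]; field_simp)
    (fun i hi => by
      rw [Pi.smul_apply, smul_eq_mul, RS.eG, if_pos ((hg i).1 hi), h.dh_eq]; field_simp)
    (fun i hi => by
      rw [Pi.smul_apply, smul_eq_mul, RS.eG, if_neg (fun h' => hi ((hg i).2 h')), mul_zero])]
  ring

/-- **all rates of a surface**; `ρ t` = rate of the group of `t` in units of the level of `t` -/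
structure SRates (R : RS ι τ) (A B : τ → ℝ) (sg : ℝ) (lam : (ι → ℝ) → ℝ) (LW : Set (ι → ℝ))
    (ρ : τ → ℝ) : Prop where
  alone : ∀ t, Aln A B t → A t ≠ 0 → R.RateAt lam LW t (ρ t)
  grp : ∀ t, A t ≠ 0 → R.RateG A B sg lam LW t (ρ t)
  nn : ∀ t, A t ≠ 0 → 0 ≤ ρ t
  le : ∀ t, A t ≠ 0 → ρ t ≤ ∑ i, R.eG A B sg t i
  par : ∀ t t', A t ≠ 0 → Par A B t t' → ρ t * dl A B sg t = ρ t' * dl A B sg t'
  /-- value at the natural points with the same levels of the slots parallel to the record -/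
  nat : ∀ α l α' l' : ℝ, 0 ≤ l → 0 ≤ l' → (∀ t, A t = 0 → l * B t = l' * B t) → ∀ rep : Finset τ,
    (∀ t, A t ≠ 0 → ∃! t', t' ∈ rep ∧ Par A B t t') → (∀ t ∈ rep, A t ≠ 0) →
    lam (R.vec (l' • B + α' • A)) - lam (R.vec (l • B + α • A)) =
      -∑ t ∈ rep, ρ t * ((l' - l) * B t + (α' - α) * A t)

theorem Par.symm' {t t' : τ} (h : Par A B t t') : Par A B t' t := by
  unfold Par at h ⊢; linarith

/-- the groups of the half plane = parallel classes of the slots with `A ≠ 0` -/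
theorem SOk.A_ne (h : SOk A B sg) {i : ι}
    (hi : (R.srf y0 A B sg).g i ∈ (R.srf y0 A B sg).S) : A (R.cls i) ≠ 0 := by
  intro hA
  have h1 := (Rc146.mem_SH.1 hi).2
  have hB : B (R.cls i) ≠ 0 := fun hB => by have := h.zero _ hB; linarith
  have ha : R.vec (sg • B) i ≠ 0 := fun ha => hB (h.a_zero.1 ha)
  have hb : R.vec A i = 0 := by simp only [RS.vec, hA, mul_zero]
  apply h1
  change det2 (nC (R.vec (sg • B)) (R.vec A) (gC (R.vec (sg • B)) (R.vec A) i)) (-sg, 0) = 0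
  rw [nC_of ha, hb]
  unfold det2
  simp

theorem SOk.sdir (h : SOk A B sg) : SDir (R.srf y0 A B sg).g (R.srf y0 A B sg).a
    (R.srf y0 A B sg).b (R.srf y0 A B sg).n (R.srf y0 A B sg).dh := by
  have := dirC (a := R.vec (sg • B)) (b := R.vec A)
  exact ⟨this.fst, this.snd, this.ne, this.det⟩

/-- **all rates of the surface from `OutH`** -/
theorem SOk.rates (h : SOk A B sg) {Q : Walls ι W} {c0 : ℝ}
    (hL : (R.srf y0 A B sg).LW Q c0 ⊆ L)
    (H : OutH (R.srf y0 A B sg).g (R.srf y0 A B sg).S ((R.srf y0 A B sg).LW Q c0) L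
      (R.srf y0 A B sg).a (R.srf y0 A B sg).b (R.srf y0 A B sg).l (R.srf y0 A B sg).dh
      (R.srf y0 A B sg).n lam φ r) (hc0 : 0 ≤ c0) :
    ∃ ρ : τ → ℝ, SRates R A B sg lam ((R.srf y0 A B sg).LW Q c0) ρ := by
  classical
  choose j hj using R.sur
  set ρ : τ → ℝ := fun t => r ((R.srf y0 A B sg).g (j t)) / dl A B sg t with hρ
  have hdh : ∀ i, 0 < (R.srf y0 A B sg).dh i := fun i => by
    rw [h.dh_eq]; exact mul_pos (R.pos i) (h.dl_pos _)
  have hmem : ∀ α l : ℝ, 0 ≤ l → R.vec (l • B + α • A) ∈ (R.srf y0 A B sg).LW Q c0 := by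
    intro α l hl
    have := h.memLW (R := R) (y0 := y0) (Q := Q) (c0 := c0) (α := α) hl
      (Walls.cone (Q := Q) (x0 := (R.srf y0 A B sg).x0) (a := (R.srf y0 A B sg).a)
        (b := (R.srf y0 A B sg).b)).zero (by rw [norm_zero]; exact mul_nonneg hc0 hl)
    rwa [add_zero] at this
  refine ⟨ρ, ⟨fun t ht hA => h.rateAt_of ht hA hL H (hj t), fun t hA => h.rateG_of hA hL H (hj t),
    fun t hA => ?_, fun t hA => ?_, fun t t' hA hp => ?_, ?_⟩⟩
  · exact div_nonneg (H.r_nonneg _ (h.mem_S hA (hj t)) fun i _ => (hdh i).le) (h.dl_pos t).le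
  · have h1 := H.r_le _ (h.mem_S hA (hj t)) fun i _ => (hdh i).le
    simp only [hρ]
    rw [div_le_iff₀ (h.dl_pos t)]
    refine h1.trans (le_of_eq ?_)
    rw [Finset.sum_filter, Finset.sum_mul]
    refine Finset.sum_congr rfl fun i _ => ?_
    have hg : (R.srf y0 A B sg).g i = (R.srf y0 A B sg).g (j t) ↔ Par A B t (R.cls i) := by
      rw [h.grp_par (R := R) (y0 := y0), hj]
    unfold RS.eG
    by_cases hp : Par A B t (R.cls i)
    · rw [if_pos (hg.2 hp), if_pos hp, h.dh_eq]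
      have := (h.dl_pos t).ne'
      field_simp
    · rw [if_neg (fun h' => hp (hg.1 h')), if_neg hp, zero_mul]
  · simp only [hρ]
    have hg : (R.srf y0 A B sg).g (j t) = (R.srf y0 A B sg).g (j t') := by
      rw [h.grp_par (R := R) (y0 := y0), hj, hj]; exact hp.symm'
    rw [div_mul_cancel₀ _ (h.dl_pos t).ne', div_mul_cancel₀ _ (h.dl_pos t').ne', hg]
  · intro α l α' l' hl hl' hpar rep hrep hrepA
    have hz : Tn (R.srf y0 A B sg).a (R.srf y0 A B sg).b (l * sg, α) = R.vec (l • B + α • A) :=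
      h.Tn_nat α l
    have hz' : Tn (R.srf y0 A B sg).a (R.srf y0 A B sg).b (l' * sg, α') =
        R.vec (l' • B + α' • A) := h.Tn_nat α' l'
    have key := nat_val H hL (h.sdir (R := R) (y0 := y0)) (z := (l * sg, α))
      (z' := (l' * sg, α')) (by rw [hz]; exact hmem α l hl) (by rw [hz']; exact hmem α' l' hl')
      (fun i hi => by
        have hA : A (R.cls i) = 0 := by
          by_contra hA
          exact hi (h.mem_S hA rfl)
        rw [hz, hz']
        simp only [RS.vec, Pi.add_apply, Pi.smul_apply, smul_eq_mul, hA, mul_zero, add_zero]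
        rw [hpar _ hA])
    rw [hz, hz'] at key
    rw [key]
    congr 1
    symm
    refine Finset.sum_bij (fun t _ => (R.srf y0 A B sg).g (j t)) (fun t ht => ?_)
      (fun t ht t' ht' htt => ?_) (fun k hk => ?_) (fun t ht => ?_)
    · exact h.mem_S (hrepA t ht) (hj t)
    · have h1 := (h.grp_par (R := R) (y0 := y0) (j t) (j t')).1 htt
      rw [hj, hj] at h1
      obtain ⟨u, -, hu⟩ := hrep t (hrepA t ht)
      rw [hu t ⟨ht, rfl⟩, hu t' ⟨ht', h1.symm'⟩]
    · obtain ⟨i, -, hi⟩ := Finset.mem_image.1 (Rc146.mem_SH.1 hk).1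
      have hA := h.A_ne (R := R) (y0 := y0) (i := i) (by rw [hi]; exact hk)
      obtain ⟨t', ⟨ht', hp⟩, -⟩ := hrep _ hA
      refine ⟨t', ht', ?_⟩
      rw [← hi, h.grp_par (R := R) (y0 := y0), hj]
      exact hp
    · have hd := (h.dl_pos t).ne'
      have hmu := (R.pos (j t)).ne'
      have h1 := (h.sdir (R := R) (y0 := y0)).Tn_eq ((l' * sg, α') - (l * sg, α)) (j t)
      have h2 : Tn (R.srf y0 A B sg).a (R.srf y0 A B sg).b ((l' * sg, α') - (l * sg, α)) (j t) =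
          R.mu (j t) * ((l' - l) * B t + (α' - α) * A t) := by
        rw [RS.srf_Tn]
        have hs := h.sq
        simp only [RS.vec, Prod.fst_sub, Prod.snd_sub, Pi.add_apply, Pi.smul_apply, smul_eq_mul,
          hj]
        have e : (l' * sg - l * sg) * sg = l' - l := by linear_combination (l' - l) * hs
        rw [e]
      rw [h2, h.dh_eq, hj] at h1
      have h3 : (l' - l) * B t + (α' - α) * A t =
          lf ((R.srf y0 A B sg).n ((R.srf y0 A B sg).g (j t)))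
            ((l' * sg, α') - (l * sg, α)) * dl A B sg t := by
        have h4 : R.mu (j t) * ((l' - l) * B t + (α' - α) * A t) = R.mu (j t) *
            (lf ((R.srf y0 A B sg).n ((R.srf y0 A B sg).g (j t)))
              ((l' * sg, α') - (l * sg, α)) * dl A B sg t) := by
          rw [h1]; ring
        exact mul_left_cancel₀ hmu h4
      simp only [hρ]
      rw [h3]
      field_simp

end

/-! ### the record blow-up in `RS` language -/

/-- **RATES AT THE RECORD**: `¬ p i` = frozen slots; record line `y0 + ξ • ρ0` with slopes `R.vec A`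
on the kept slots, `0` on the frozen ones; surfaces `B s` (countably many). At almost every record
point, along every sequence of scales: tangents of all `f j` at moving base points of the record line
and all rates of `lam j0` (at vectors which vanish on the frozen slots) -/
theorem ae_rates {Q : Walls ι W} {p : ι → Prop} [DecidablePred p] {hp : ∀ w, p (Q.hd w)}
    {lo hi y0 ρ0 : ι → ℝ} (hv : ∀ i, ¬ p i → lo i ≤ y0 i ∧ y0 i ≤ hi i)
    (hρ : ∀ i, ¬ p i → ρ0 i = 0) {R : RS {i // p i} τ} {A : τ → ℝ} (hA : rs p ρ0 = R.vec A)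
    {T : Type*} [Countable T] {B : T → τ → ℝ} {sg : T → ℝ} (hS : ∀ s, SOk A (B s) (sg s))
    (hF : ∀ s, (slice Q p y0 hp).Full (rs p y0) (R.vec (sg s • B s)) (R.vec A))
    (hleg : ∀ s, R.vec (B s) ∈ (slice Q p y0 hp).L (rs p y0) (R.vec A) 0)
    {J : Type*} [Finite J] {f : J → (ι → ℝ) → ℝ} {j0 : J} {K : ℝ} (hK : 0 ≤ K)
    (hν : ∀ j, ∀ p ∈ Q.P lo hi, ∀ q ∈ Q.P lo hi, |f j p - f j q| ≤ K * dist p q)
    (hm : ∀ p ∈ Q.P lo hi, ∀ q ∈ Q.P lo hi, p ≤ q →
      0 ≤ f j0 p - f j0 q ∧ f j0 p - f j0 q ≤ ∑ i, (q i - p i))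
    (hs : SupOn (f j0) (Q.P lo hi)) {U : Set ℝ}
    (hU : ∀ ξ ∈ U, (ξ, (0:ℝ)) ∈ Q.O lo hi y0 ρ0 0) :
    ∀ᵐ ξ : ℝ, ξ ∈ U → ∃ c0 : T → ℝ, (∀ s, 0 < c0 s) ∧
      (∀ s, (R.srf (rs p y0) A (B s) (sg s)).LW (slice Q p y0 hp) (c0 s) ⊆
        (slice Q p y0 hp).L (rs p y0) (rs p ρ0) 0) ∧
      ∀ h : ℕ → ℝ, (∀ l, 0 < h l) → Tendsto h atTop (𝓝 0) →
      ∃ (x h' : ℕ → ℝ) (lam : J → (ι → ℝ) → ℝ), Tendsto x atTop (𝓝 ξ) ∧ (∀ m, 0 < h' m) ∧
        Tendsto h' atTop (𝓝 0) ∧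
        (∀ j, Ex926.IsTan (Q.P lo hi) (Q.L y0 ρ0 0) (f j) (fun m => y0 + x m • ρ0) h'
          (lam j)) ∧
        ∀ s, (∃ (φ : ℕ → ({i // p i} → ℝ) → ℝ) (r : ℕ → ℝ),
            RecOut (R.srf (rs p y0) A (B s) (sg s)).g (R.srf (rs p y0) A (B s) (sg s)).S
              ((R.srf (rs p y0) A (B s) (sg s)).LW (slice Q p y0 hp) (c0 s))
              ((R.srf (rs p y0) A (B s) (sg s)).L (slice Q p y0 hp))
              (R.srf (rs p y0) A (B s) (sg s)).a (R.srf (rs p y0) A (B s) (sg s)).b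
              (R.srf (rs p y0) A (B s) (sg s)).l (R.srf (rs p y0) A (B s) (sg s)).dh
              (R.srf (rs p y0) A (B s) (sg s)).n (fun c => lam j0 (xt p 0 c)) φ r) ∧
          ∃ ρ : τ → ℝ, SRates R A (B s) (sg s) (fun c => lam j0 (xt p 0 c))
            ((R.srf (rs p y0) A (B s) (sg s)).LW (slice Q p y0 hp) (c0 s)) ρ := by
  have ok : ∀ s, (R.srf (rs p y0) A (B s) (sg s)).Ok (slice Q p y0 hp) (rs p y0) (rs p ρ0) := by
    intro s
    rw [hA]
    exact (hS s).srf_ok (hF s) (hleg s)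
  have key := Sl741.ae_rec_slice (Q := Q) (hp := hp) hv hρ
    (sf := fun s => R.srf (rs p y0) A (B s) (sg s)) ok (fun s => (hS s).rok) (f := f) (j0 := j0)
    hK hν hm hs hU
  filter_upwards [key] with ξ hξ hξU
  obtain ⟨c0, hc0, hsub, H⟩ := hξ hξU
  refine ⟨c0, hc0, hsub, fun h hpos h0 => ?_⟩
  obtain ⟨x, h', lam, hx, hh', hh0, hT, hO⟩ := H h hpos h0
  refine ⟨x, h', lam, hx, hh', hh0, hT, fun s => ?_⟩
  obtain ⟨φ, r, hφr⟩ := hO s
  have hLL : (R.srf (rs p y0) A (B s) (sg s)).LW (slice Q p y0 hp) (c0 s) ⊆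
      (R.srf (rs p y0) A (B s) (sg s)).L (slice Q p y0 hp) := by
    rintro _ ⟨w, c, -, hc, -, rfl⟩
    exact (Walls.cone (Q := slice Q p y0 hp)).add _ (Walls.Tn_mem w) _ hc
  exact ⟨⟨φ, r, hφr⟩, (hS s).rates hLL hφr.toOutH (hc0 s).le⟩

end Crest.Agent.R116.RbK219
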