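import Mathlib
import Crest.Agent.R116.RbK2_219
import Crest.Agent.R116.RbK3_219
import Crest.Agent.R116.RbM1_219
import Crest.Agent.R116.Tp1_139
import Crest.Agent.R138.Qf7_926
import Crest.Agent.R116.Rcx5_363
import Crest.Agent.R116.Tq2_126
import Crest.Agent.R116.IIr2_460

-- ▼ part R116/NZ1_90
section

/-!
# R116, K-TEXT II-c: the `N`-`z` chain rule at a record (helper90)

`g` = blow-up of the profile at a record point (antitone, supermodular on the legal cone `L`).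
The record line has slopes `ρ`; the natural half plane above it has the transversal slopes `βp`,
the one below has `βm` (one plane: `ρ = a - θ b`, `βp = βm = b`; double tie: two planes).
Window facts: above, the `N`-step has rate `≥ rp`, below `≤ rm`; below, the `z`-step (slots `uz`)
has rate `≤ rz`; every line has `z`-rate `≥ own`.

**`nz` : `ρ N * (rp - rm) ≤ rz - own`.**

With `rp = 1 - n₊`, `rm = 1 - n₋`, `rz = (1 - s) + e₋`, `own = 1 - s` and (`e`-tie)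
`ρ N = 1 + k - θ`, (`κ`-tie) `ρ N = 1 + k' - 2 θ`: `(1 + k - θ) (n₋ - n₊) ≤ e₋`.

Proof: telescope the `z`-step of size `1` over the natural boxes `P m` above the record point
(`N`-level `m h`): the `N`-step at `z = 1` is dominated by the one of the natural box below the
record with the same `N`-level.  The `N`-step is always done after the slots `q` have been refined by
the same `h` (walls `N ≤ z + C_b`, `N ≤ E + X`, ...).
-/

set_option autoImplicit false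
set_option linter.unusedSectionVars false

open Filter Topology

namespace Crest.Agent.R116.NZ90

variable {ι : Type*} [DecidableEq ι]

/-- supermodularity on a set (same as `Dg262.SupOn`) -/
def Sup (g : (ι → ℝ) → ℝ) (L : Set (ι → ℝ)) : Prop :=
  ∀ p ∈ L, ∀ q ∈ L, p ⊓ q ∈ L → p ⊔ q ∈ L → g p + g q ≤ g (p ⊔ q) + g (p ⊓ q)

/-- the boxes: natural box `v ρ + s β`, slots `q` refined by `x`, slot `N` by `y`, slots `uz` by `z` -/
def Bx (ρ β q uz : ι → ℝ) (N : ι) (v s x y z : ℝ) : ι → ℝ := fun i =>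
  ρ i * v + β i * s + x * q i + (if i = N then y else 0) + z * uz i


/-- increments decrease when the other slots are refined -/
theorem incr {g : (ι → ℝ) → ℝ} {L : Set (ι → ℝ)} (hs : Sup g L) {p q p' q' : ι → ℝ}
    (hp : p ∈ L) (hq : q ∈ L) (hp' : p' ∈ L) (hq' : q' ∈ L)
    (h : ∀ i, (p' i = p i ∧ q' i = q i ∧ p i ≤ q i) ∨ (p i = q i ∧ p' i = q' i ∧ p i ≤ p' i)) :
    g q - g q' ≤ g p - g p' := by
  have e1 : p' ⊓ q = p := by
    funext i
    simp only [Pi.inf_apply]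
    rcases h i with ⟨h1, _, h3⟩ | ⟨h1, _, h3⟩
    · rw [h1]; exact min_eq_left h3
    · rw [← h1]; exact min_eq_right h3
  have e2 : p' ⊔ q = q' := by
    funext i
    simp only [Pi.sup_apply]
    rcases h i with ⟨h1, h2, h3⟩ | ⟨h1, h2, h3⟩
    · rw [h1, h2]; exact max_eq_right h3
    · rw [← h1, ← h2]; exact max_eq_left h3
  have := hs p' hp' q hq (by rw [e1]; exact hp) (by rw [e2]; exact hq')
  rw [e1, e2] at this
  linarith

/-- the data at a record point -/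
structure Rec (g : (ι → ℝ) → ℝ) (L : Set (ι → ℝ)) (ρ βp βm q uz : ι → ℝ) (N : ι)
    (K c0 own rp rm rz : ℝ) : Prop where
  sup : Sup g L
  hc0 : 0 < c0
  bp : ∀ i, 0 ≤ βp i
  bpN : 0 < βp N
  bmN : 0 < βm N
  rN : 0 < ρ N
  uz0 : ∀ i, 0 ≤ uz i
  uzZ : ∀ i, uz i ≠ 0 → uz i = ρ i ∧ βp i = 0 ∧ βm i = 0
  q0 : ∀ i, 0 ≤ q i
  qN : q N = 0
  qz : ∀ i, uz i ≠ 0 → q i = 0
  /-- at equal `N`-level the slot `i` is finer above the record -/
  cp : ∀ i, uz i = 0 → ρ i * βp N ≤ βp i * ρ N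
  cm : ∀ i, uz i = 0 → ρ i * βm N ≤ βm i * ρ N
  legp : ∀ s x y z, 0 ≤ s → 0 ≤ y → y ≤ x → 0 ≤ z → Bx ρ βp q uz N 0 s x y z ∈ L
  legm : ∀ v s x y z, 0 ≤ v → s ≤ 0 → 0 ≤ y → y ≤ x → 0 ≤ z → Bx ρ βm q uz N v s x y z ∈ L
  lip : ∀ z, 0 ≤ z → g (Bx ρ βp q uz N 0 0 0 0 0) - g (Bx ρ βp q uz N 0 0 0 0 z) ≤ K * z
  Np : ∀ s h, 0 < h → h ≤ c0 * s →
    rp * h ≤ g (Bx ρ βp q uz N 0 s h 0 0) - g (Bx ρ βp q uz N 0 s h h 0)
  Nm : ∀ v s h, 0 ≤ v → 0 < h → h ≤ c0 * (-s) →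
    g (Bx ρ βm q uz N v s h 0 0) - g (Bx ρ βm q uz N v s h h 0) ≤ rm * h
  Zm : ∀ v s h, 0 ≤ v → 0 < h → h ≤ c0 * (-s) →
    g (Bx ρ βm q uz N v s 0 0 0) - g (Bx ρ βm q uz N v s 0 0 h) ≤ rz * h
  ow : ∀ s x z, 0 ≤ s → 0 ≤ x → 0 < z →
    own * z ≤ g (Bx ρ βp q uz N 0 s x 0 0) - g (Bx ρ βp q uz N 0 s x 0 z)

section

variable {g : (ι → ℝ) → ℝ} {L : Set (ι → ℝ)} {ρ βp βm q uz : ι → ℝ} {N : ι}
  {K c0 own rp rm rz : ℝ}

/-- limit lemma -/
theorem le_of_div {x y C : ℝ} {n0 : ℕ} (h : ∀ n : ℕ, n0 ≤ n → 0 < n → x ≤ y + C / n) : x ≤ y := by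
  have h1 : Tendsto (fun n : ℕ => y + C / n) atTop (𝓝 (y + 0)) :=
    tendsto_const_nhds.add (tendsto_const_div_atTop_nhds_zero_nat C)
  rw [add_zero] at h1
  refine ge_of_tendsto h1 ?_
  filter_upwards [eventually_ge_atTop (n0 + 1)] with n hn
  exact h n (by omega) (by omega)




end

end Crest.Agent.R116.NZ90
namespace Crest.Agent.R116.NZ90.Rec
end Crest.Agent.R116.NZ90.Rec
end

-- ▼ part R116/NZ2_90
section

/-!
# R116, K-TEXT II-c: the `N`-`z` chain rule, triangle form with flag slots (helper90)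

Same statement as `NZ90.nz`, with honest flag slots and no condition on the half plane below the
record.  `Z` = `z` and the flag slots which refine along the record (`ρ i > 0`); above the record they
do not depend on the height (they are dead up to the level of the record box).
* `cp` : at equal `N`-level every other slot of the record is coarser than the natural box ABOVE;
* below the record only natural boxes at distance `O(h)` are used: their `N`-rate is `≤ rm`, the rate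
  of the joint `Z`-step is `≤ rz`.

**`nz2` : `ρ N * (rp - rm) ≤ rz - own`.**

`e`-tie: `rz = (1 - s) + e₋ + (k + θ) u₋` (`u` = rate of the slot `G`, slopes `(k, -1)`);
`κ`-tie, half plane `S₁` above: `rz = (1 - s) + e₋ + (k' - θ) w₋`, needs `θ ≤ k'` only.
-/

set_option autoImplicit false
set_option linter.unusedSectionVars false

open Filter Topology

namespace Crest.Agent.R116.NZ90

variable {ι : Type*} [DecidableEq ι]

/-- natural box above the record point, slots `q` refined by `x`, `N` by `y` -/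
def Ub (βp q : ι → ℝ) (N : ι) (s x y : ℝ) : ι → ℝ := fun i =>
  βp i * s + x * q i + (if i = N then y else 0)

/-- natural box below the record, slots `q` refined by `x`, `N` by `y`, `Z` by `z ρ` -/
def Lb (ρ βm q : ι → ℝ) (Z : Finset ι) (N : ι) (v s x y z : ℝ) : ι → ℝ := fun i =>
  ρ i * v + βm i * s + x * q i + (if i = N then y else 0) + (if i ∈ Z then z * ρ i else 0)

/-- the join of the two -/
def Cb (ρ βp βm q : ι → ℝ) (Z : Finset ι) (N : ι) (s x y v σ z : ℝ) : ι → ℝ := fun i =>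
  if i ∈ Z then ρ i * v + βm i * σ + z * ρ i else βp i * s + x * q i + (if i = N then y else 0)

/-- the data at a record point -/
structure Rec2 (g : (ι → ℝ) → ℝ) (L : Set (ι → ℝ)) (ρ βp βm q : ι → ℝ) (Z : Finset ι) (N : ι)
    (R r0 K c0 own rp rm rz : ℝ) : Prop where
  sup : Sup g L
  supc : ∀ p ∈ L, ∀ p' ∈ L, p ⊔ p' ∈ L
  hc0 : 0 < c0
  hr0 : 0 < r0
  hR : 0 ≤ R
  hK : 0 ≤ K
  bdr : ∀ i, |ρ i| ≤ R
  bdb : ∀ i, |βm i| ≤ R
  bp : ∀ i, 0 ≤ βp i
  bpN : 0 < βp N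
  bmN : 0 < βm N
  rN : 0 < ρ N
  NZ : N ∉ Z
  zr : ∀ i ∈ Z, r0 ≤ ρ i
  zb : ∀ i ∈ Z, βp i = 0
  zq : ∀ i ∈ Z, q i = 0
  q0 : ∀ i, 0 ≤ q i
  qN : q N = 0
  /-- at equal `N`-level the slot `i` of the record is coarser than above -/
  cp : ∀ i, i ∉ Z → i ≠ N → ρ i * βp N ≤ βp i * ρ N
  cq : ∀ i, i ∉ Z → i ≠ N → 1 ≤ q i ∨ (ρ i ≤ 0 ∧ 0 ≤ βm i)
  legU : ∀ s x y, 0 ≤ s → 0 ≤ y → y ≤ x → Ub βp q N s x y ∈ L
  legB : ∀ v s x y z, 0 ≤ v → s ≤ 0 → 0 ≤ y → y ≤ x → 0 ≤ z → z ≤ x →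
    Lb ρ βm q Z N v s x y z ∈ L
  Np : ∀ s x h, 0 < h → h ≤ x → x ≤ c0 * s →
    rp * h ≤ g (Ub βp q N s x 0) - g (Ub βp q N s x h)
  Nm : ∀ v s h, 0 ≤ v → 0 < h → h ≤ c0 * (-s) →
    g (Lb ρ βm q Z N v s h 0 0) - g (Lb ρ βm q Z N v s h h 0) ≤ rm * h
  Zm : ∀ v s h, 0 ≤ v → 0 < h → h ≤ c0 * (-s) →
    g (Lb ρ βm q Z N v s h 0 0) - g (Lb ρ βm q Z N v s h 0 h) ≤ rz * h
  /-- own rate of `z` -/
  ow : ∀ s x v σ, 0 ≤ s → 0 ≤ x → 0 ≤ v → σ ≤ 0 → (∀ i ∈ Z, 0 ≤ ρ i * v + βm i * σ) →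
    Cb ρ βp βm q Z N s x 0 v σ 0 ∈ L →
    own * v ≤ g (Ub βp q N s x 0) - g (Cb ρ βp βm q Z N s x 0 v σ 0)
  lip : ∀ s x v σ, 0 ≤ s → 0 ≤ x → 0 ≤ v → σ ≤ 0 → (∀ i ∈ Z, 0 ≤ ρ i * v + βm i * σ) →
    Cb ρ βp βm q Z N s x 0 v σ 0 ∈ L →
    g (Ub βp q N s x 0) - g (Cb ρ βp βm q Z N s x 0 v σ 0) ≤ K * (v - σ)

section

variable {g : (ι → ℝ) → ℝ} {L : Set (ι → ℝ)} {ρ βp βm q : ι → ℝ} {Z : Finset ι} {N : ι}
  {R r0 K c0 own rp rm rz : ℝ}


end

end Crest.Agent.R116.NZ90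
end

-- ▼ part R116/NZ3_90
section

/-!
# R116, K-TEXT II-c: the `N`-`z` chain rule over the rates of 219 (helper90)

`lam` = one tangent of the profile at a record point, on the legal cone `Q.L y0 (R.vec A) 0` of the
record; `A` = slopes of the ray slots along the record.
* `RateZ` : the joint step of the slots `Z` (`z` and the flags which refine along the record);
  `rateZ_of` : from `OutH`, the rate is `∑ r k * (n k).2` over the groups of `Z`
* **`nz_rs`** : `A N * (rp - rm) ≤ rz - own`, upper surface `(A, Bp)` with the slots `Z` frozen,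
  lower surface `(A, Bm)`.
-/

set_option autoImplicit false
set_option linter.unusedSectionVars false
set_option linter.unusedVariables false

open Set Filter Topology

namespace Crest.Agent.R116.NZ90

open Crest.Agent.R136
open Dg219 (Tn lf det2 Cone Walls gC nC dhC dirC)
open Rc146 (OutH)
open Rc683 (Srf)
open RbK219 (RS SOk Aln dl)

variable {ι W τ : Type*} [Fintype ι] [DecidableEq ι] [Fintype W] [Fintype τ] [DecidableEq τ]

/-! ### the joint step of `Z` -/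

/-- joint increment of the slots `Z` in the direction of the record -/
def eZ (R : RS ι τ) (A : τ → ℝ) (Z : Finset τ) (i : ι) : ℝ :=
  if R.cls i ∈ Z then R.mu i * A (R.cls i) else 0


section

variable {R : RS ι τ} {A B : τ → ℝ} {sg : ℝ} {y0 : ι → ℝ}



end

/-! ### the chart with one slot for `N` -/

/-- the chart slots of `N` all follow `j0` -/
def col (R : RS ι τ) (N : τ) (j0 : ι) (c : ι → ℝ) (i : ι) : ℝ :=
  if R.cls i = N then R.mu i * c j0 else c i

/-- levels of a ray vector in that chart -/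
def sl (R : RS ι τ) (N : τ) (j0 : ι) (B : τ → ℝ) (i : ι) : ℝ :=
  if R.cls i = N then (if i = j0 then B N else 0) else R.mu i * B (R.cls i)

section

variable {R : RS ι τ} {N : τ} {j0 : ι}

theorem col_sup (c d : ι → ℝ) : col R N j0 (c ⊔ d) = col R N j0 c ⊔ col R N j0 d := by
  funext i
  simp only [col, Pi.sup_apply]
  split_ifs
  · exact (mul_max_of_nonneg _ _ (R.pos i).le)
  · rfl

theorem col_inf (c d : ι → ℝ) : col R N j0 (c ⊓ d) = col R N j0 c ⊓ col R N j0 d := by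
  funext i
  simp only [col, Pi.inf_apply]
  split_ifs
  · exact (mul_min_of_nonneg _ _ (R.pos i).le)
  · rfl

end

/-! ### room outside `Z` and `N` -/

/-- room vector which vanishes on `Z` and `N` -/
noncomputable def rmZ (R : RS ι τ) (Q : Walls ι W) (Z : Finset τ) (N : τ) (i : ι) : ℝ :=
  if R.cls i ∈ Z ∨ R.cls i = N then 0 else Q.rs i

section

variable {R : RS ι τ} {Q : Walls ι W} {Z : Finset τ} {N : τ} {A : τ → ℝ} {y0 : ι → ℝ}

theorem rmZ_nonneg (i : ι) : 0 ≤ rmZ R Q Z N i := by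
  unfold rmZ
  split_ifs
  · exact le_rfl
  · linarith [Q.one_le_rs i]

theorem rhs_mono {w : W} {c d : ι → ℝ} (h : ∀ s, Q.co w s ≠ 0 → c s ≤ d s) :
    Q.rhs w c ≤ Q.rhs w d := by
  unfold Walls.rhs
  refine Finset.sum_le_sum fun s _ => ?_
  by_cases h0 : Q.co w s = 0
  · rw [h0]; simp
  · exact mul_le_mul_of_nonneg_left (h s h0) (Nat.cast_nonneg _)

/-- a wall with a summand outside `Z ∪ {N}` has room -/
theorem rmZ_room {w : W} (h : ∃ s, Q.co w s ≠ 0 ∧ R.cls s ∉ Z ∧ R.cls s ≠ N) :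
    rmZ R Q Z N (Q.hd w) + 1 ≤ Q.rhs w (rmZ R Q Z N) := by
  obtain ⟨s, hs, hsZ, hsN⟩ := h
  have h1 : rmZ R Q Z N s = Q.rs s := by
    unfold rmZ; rw [if_neg (by push Not; exact ⟨hsZ, hsN⟩)]
  have h2 : rmZ R Q Z N (Q.hd w) + 1 ≤ Q.rs s := by
    have h3 := Q.rs_lt hs
    unfold rmZ
    split_ifs
    · linarith [Q.one_le_rs (Q.hd w)]
    · exact h3
  rw [← h1] at h2
  exact h2.trans (Q.le_rhs rmZ_nonneg hs)

/-- the walls of the record: condition on the summands -/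
structure WOk (R : RS ι τ) (Q : Walls ι W) (y0 : ι → ℝ) (A : τ → ℝ) (Z : Finset τ) (N : τ) :
    Prop where
  out : ∀ w, Q.Act y0 (R.vec A) 0 w → R.cls (Q.hd w) ∉ Z →
    ∃ s, Q.co w s ≠ 0 ∧ R.cls s ∉ Z ∧ R.cls s ≠ N
  inn : ∀ w, Q.Act y0 (R.vec A) 0 w → R.cls (Q.hd w) ∈ Z →
    (∀ s, Q.co w s ≠ 0 → R.cls s ∈ Z) ∨ ∃ s, Q.co w s ≠ 0 ∧ R.cls s ∉ Z ∧ R.cls s ≠ N

theorem rmZ_mem (hw : WOk R Q y0 A Z N) : rmZ R Q Z N ∈ Q.L y0 (R.vec A) 0 := by
  intro w hact
  have h0 := Q.rhs_nonneg (w := w) (rmZ_nonneg (R := R) (Q := Q) (Z := Z) (N := N))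
  by_cases hz : R.cls (Q.hd w) ∈ Z
  · have : rmZ R Q Z N (Q.hd w) = 0 := by unfold rmZ; rw [if_pos (Or.inl hz)]
    rw [this]; exact h0
  · linarith [rmZ_room (hw.out w hact hz)]

theorem rmZ_eN (hw : WOk R Q y0 A Z N) (hNZ : N ∉ Z) {K : ℝ} (hK0 : 0 ≤ K)
    (hK : ∀ i, R.mu i ≤ K) : K • rmZ R Q Z N + R.e N ∈ Q.L y0 (R.vec A) 0 := by
  intro w hact
  rw [Q.rhs_add, Q.rhs_smul]
  have h0 := Q.rhs_nonneg (w := w) (rmZ_nonneg (R := R) (Q := Q) (Z := Z) (N := N))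
  have h1 : 0 ≤ Q.rhs w (R.e N) := Q.rhs_nonneg (fun i => R.e_nonneg N i)
  simp only [Pi.add_apply, Pi.smul_apply, smul_eq_mul]
  by_cases hz : R.cls (Q.hd w) ∈ Z
  · have e1 : rmZ R Q Z N (Q.hd w) = 0 := by unfold rmZ; rw [if_pos (Or.inl hz)]
    have e2 : R.e N (Q.hd w) = 0 := RbK219.mem_e_zero (fun h => hNZ (h ▸ hz))
    rw [e1, e2]
    have := mul_nonneg hK0 h0
    linarith
  · have h2 := rmZ_room (hw.out w hact hz)
    have h3 : R.e N (Q.hd w) ≤ K := by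
      unfold RS.e
      split_ifs
      · exact hK _
      · exact hK0
    have h4 := mul_le_mul_of_nonneg_left h2 hK0
    linarith



theorem neg_vecA_mem (t : ℝ) : t • R.vec A ∈ Q.L y0 (R.vec A) 0 := fun w hw => by
  rw [Q.rhs_smul, Pi.smul_apply, smul_eq_mul, hw.2.1]

/-- the legal cone of the record is closed under joins -/
theorem L_sup {p q : ι → ℝ} (hp : p ∈ Q.L y0 (R.vec A) 0) (hq : q ∈ Q.L y0 (R.vec A) 0) :
    p ⊔ q ∈ Q.L y0 (R.vec A) 0 := by
  intro w hw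
  have h1 := hp w hw
  have h2 := hq w hw
  have h3 : Q.rhs w p ≤ Q.rhs w (p ⊔ q) := rhs_mono fun s _ => le_sup_left
  have h4 : Q.rhs w q ≤ Q.rhs w (p ⊔ q) := rhs_mono fun s _ => le_sup_right
  rw [Pi.sup_apply]
  exact max_le (h1.trans h3) (h2.trans h4)

/-- the cone of the record is in the cone of the surface -/
theorem L_sub {B : τ → ℝ} {sg : ℝ} : Q.L y0 (R.vec A) 0 ⊆ (R.srf y0 A B sg).L Q := by
  intro c hc w hw
  refine hc w ⟨hw.1, hw.2.2, ?_⟩
  have : Q.rhs w 0 = 0 := by unfold Walls.rhs; simp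
  rw [this]; rfl

end

/-! ### the boxes in the chart -/

section boxes

variable {R : RS ι τ} {Q : Walls ι W} {Z : Finset τ} {N : τ} {j0 : ι} {A : τ → ℝ} {y0 : ι → ℝ}

theorem col_Ub (hj0 : R.cls j0 = N) {Bp : τ → ℝ} {q : ι → ℝ} (hq : ∀ i, R.cls i = N → q i = 0)
    (s x y : ℝ) : col R N j0 (Ub (sl R N j0 Bp) q j0 s x y) =
      s • R.vec Bp + x • q + y • R.e N := by
  funext i
  simp only [col, Ub, sl, Pi.add_apply, Pi.smul_apply, smul_eq_mul, RS.vec, RS.e]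
  by_cases h : R.cls i = N
  · rw [if_pos h, if_pos hj0, if_pos h, hq i h, hq j0 hj0, h]
    simp only [if_true]; ring
  · have hij : i ≠ j0 := fun e => h (e ▸ hj0)
    rw [if_neg h, if_neg h, if_neg hij, if_neg h]; ring

theorem col_Lb (hj0 : R.cls j0 = N) (hNZ : N ∉ Z) {Bd : τ → ℝ} {q : ι → ℝ}
    (hq : ∀ i, R.cls i = N → q i = 0) {Zi : Finset ι} (hZi : ∀ i, i ∈ Zi ↔ R.cls i ∈ Z)
    (v s x y z : ℝ) :
    col R N j0 (Lb (sl R N j0 A) (fun i => -(sl R N j0 Bd i)) q Zi j0 v s x y z) =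
      R.vec ((-s) • Bd + v • A) + x • q + y • R.e N + z • eZ R A Z := by
  funext i
  simp only [col, Lb, sl, eZ, Pi.add_apply, Pi.smul_apply, smul_eq_mul, RS.vec, RS.e]
  by_cases h : R.cls i = N
  · have h1 : j0 ∉ Zi := fun e => hNZ (hj0 ▸ (hZi j0).1 e)
    have h2 : R.cls i ∉ Z := fun e => hNZ (h ▸ e)
    rw [if_pos h, if_neg h1, if_neg h2, hq i h, hq j0 hj0, if_pos h, h]
    simp only [if_pos hj0, if_true]
    ring
  · have hij : i ≠ j0 := fun e => h (e ▸ hj0)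
    rw [if_neg h, if_neg h, if_neg h, if_neg hij, if_neg h]
    by_cases hz : R.cls i ∈ Z
    · rw [if_pos hz, if_pos ((hZi i).2 hz)]; ring
    · rw [if_neg hz, if_neg (fun e => hz ((hZi i).1 e))]; ring

/-- room for an increment `e` -/
theorem roomy {L : Set (ι → ℝ)} (hL : Cone L) {m e : ι → ℝ} (hm : m ∈ L) (hme : m + e ∈ L)
    {x y : ℝ} (hy : 0 ≤ y) (hyx : y ≤ x) : x • m + y • e ∈ L := by
  have h1 := hL.add _ (hL.smul _ hm (x - y) (by linarith)) _ (hL.smul _ hme y hy)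
  have h2 : (x - y) • m + y • (m + e) = x • m + y • e := by
    funext i
    simp only [Pi.add_apply, Pi.smul_apply, smul_eq_mul]; ring
  rwa [h2] at h1

end boxes

/-! ### the theorem -/

section main

variable {R : RS ι τ} {Q : Walls ι W} {y0 : ι → ℝ} {A Bp Bm : τ → ℝ}


end main

end Crest.Agent.R116.NZ90
end

-- ▼ part R116/NZ4_90
section

/-!
# R116, K-TEXT II-c: the `N`-`z` chain rule, slots of `Z` which also refine above (helper90)

As `NZ90.nz2`, but a slot `i ∈ Z` may be refined above the record (`0 ≤ βp i`), slower than along the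
record at equal `N`-level: `βp i * ρ N < ρ i * βp N` (flag `B` on `T⁺` of the `κ`-tie, `1 < k'`).

* **`nz4`** : `ρ N * (rp - rm) ≤ rz - own`
* **`nz_rs4`** : the same over 219's surfaces
* **`nz_sr`** : the same over `SRates`: `rz = ∑ t ∈ rep, ρm t * A t`
-/

set_option autoImplicit false
set_option linter.unusedSectionVars false
set_option linter.unusedVariables false

open Filter Topology

namespace Crest.Agent.R116.NZ90

section abstract

variable {ι : Type*} [DecidableEq ι]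

/-- natural box above the record point, slots `q` refined by `x`, `N` by `y`, `Z` by `z βp` -/
def Vb (βp q : ι → ℝ) (Z : Finset ι) (N : ι) (s x y z : ℝ) : ι → ℝ := fun i =>
  βp i * s + x * q i + (if i = N then y else 0) + (if i ∈ Z then z * βp i else 0)

theorem Vb_zero (βp q : ι → ℝ) (Z : Finset ι) (N : ι) (s x y : ℝ) :
    Vb βp q Z N s x y 0 = Ub βp q N s x y := by
  funext i; simp only [Vb, Ub]; split_ifs <;> ring

/-- the data at a record point -/
structure Rec4 (g : (ι → ℝ) → ℝ) (L : Set (ι → ℝ)) (ρ βp βm q : ι → ℝ) (Z : Finset ι) (N : ι)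
    (R r0 K c0 own rp rm rz : ℝ) : Prop where
  sup : Sup g L
  anti : ∀ p ∈ L, ∀ p' ∈ L, p ≤ p' → g p' ≤ g p
  supc : ∀ p ∈ L, ∀ p' ∈ L, p ⊔ p' ∈ L
  hc0 : 0 < c0
  hr0 : 0 < r0
  hR : 0 ≤ R
  hK : 0 ≤ K
  bdr : ∀ i, |ρ i| ≤ R
  bdb : ∀ i, |βm i| ≤ R
  bp : ∀ i, 0 ≤ βp i
  bpN : 0 < βp N
  bmN : 0 < βm N
  rN : 0 < ρ N
  NZ : N ∉ Z
  zr : ∀ i ∈ Z, r0 * βp N + βp i * ρ N ≤ ρ i * βp N
  zq : ∀ i ∈ Z, q i = 0
  q0 : ∀ i, 0 ≤ q i
  qN : q N = 0
  /-- at equal `N`-level the slot `i` of the record is coarser than above -/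
  cp : ∀ i, i ∉ Z → i ≠ N → ρ i * βp N ≤ βp i * ρ N
  cq : ∀ i, i ∉ Z → i ≠ N → 1 ≤ q i ∨ (ρ i ≤ 0 ∧ 0 ≤ βm i)
  legV : ∀ s x y z, 0 ≤ s → 0 ≤ y → y ≤ x → 0 ≤ z → z ≤ x → Vb βp q Z N s x y z ∈ L
  legB : ∀ v s x y z, 0 ≤ v → s ≤ 0 → 0 ≤ y → y ≤ x → 0 ≤ z → z ≤ x →
    Lb ρ βm q Z N v s x y z ∈ L
  Np : ∀ s x h, 0 < h → h ≤ x → x ≤ c0 * s →
    rp * h ≤ g (Ub βp q N s x 0) - g (Ub βp q N s x h)
  Nm : ∀ v s h, 0 ≤ v → 0 < h → h ≤ c0 * (-s) →
    g (Lb ρ βm q Z N v s h 0 0) - g (Lb ρ βm q Z N v s h h 0) ≤ rm * h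
  Zm : ∀ v s h, 0 ≤ v → 0 < h → h ≤ c0 * (-s) →
    g (Lb ρ βm q Z N v s h 0 0) - g (Lb ρ βm q Z N v s h 0 h) ≤ rz * h
  /-- own rate of `z` -/
  ow : ∀ s x v σ, 0 ≤ s → 0 ≤ x → 0 ≤ v → σ ≤ 0 → (∀ i ∈ Z, βp i * s ≤ ρ i * v + βm i * σ) →
    Cb ρ βp βm q Z N s x 0 v σ 0 ∈ L →
    own * v ≤ g (Ub βp q N s x 0) - g (Cb ρ βp βm q Z N s x 0 v σ 0)
  lip : ∀ s x v σ, 0 ≤ s → 0 ≤ x → 0 ≤ v → σ ≤ 0 → (∀ i ∈ Z, βp i * s ≤ ρ i * v + βm i * σ) →
    Cb ρ βp βm q Z N s x 0 v σ 0 ∈ L →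
    g (Ub βp q N s x 0) - g (Cb ρ βp βm q Z N s x 0 v σ 0) ≤ K * (v - σ)

section

variable {g : (ι → ℝ) → ℝ} {L : Set (ι → ℝ)} {ρ βp βm q : ι → ℝ} {Z : Finset ι} {N : ι}
  {R r0 K c0 own rp rm rz : ℝ}

set_option maxHeartbeats 4000000 in
/-- **the `N`-`z` chain rule**, `Z` may refine above -/
theorem nz4 (H : Rec4 g L ρ βp βm q Z N R r0 K c0 own rp rm rz) :
    ρ N * (rp - rm) ≤ rz - own := by
  have hc := H.hc0
  have hbp := H.bpN
  have hbm := H.bmN
  have hρ := H.rN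
  have hR := H.hR
  have hr0 := H.hr0
  have hKK := H.hK
  -- constants
  obtain ⟨w, hw⟩ : ∃ w : ℝ, w = (1 + 1 / ρ N) / c0 := ⟨_, rfl⟩
  have hw0 : 0 < w := by rw [hw]; positivity
  have hcw : c0 * w = 1 + 1 / ρ N := by rw [hw]; field_simp
  obtain ⟨κ, hκ⟩ : ∃ κ : ℝ, κ = βm N * w / ρ N := ⟨_, rfl⟩
  have hκ0 : 0 < κ := by rw [hκ]; positivity
  have hρκ : ρ N * κ = βm N * w := by rw [hκ]; field_simp
  obtain ⟨K1, hK1⟩ : ∃ K1 : ℝ, K1 = R * κ + R * w + (1 + 1 / ρ N) + 1 / βp N := ⟨_, rfl⟩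
  have hρi : 0 < 1 / ρ N := by positivity
  have hβi : 0 < 1 / βp N := by positivity
  have hK11 : 1 ≤ K1 := by
    rw [hK1]
    have := mul_nonneg hR hκ0.le
    have := mul_nonneg hR hw0.le
    linarith
  have hK10 : 0 < K1 := by linarith
  obtain ⟨A1, hA1⟩ := exists_nat_ge (K1 * βp N / c0)
  obtain ⟨A2, hA2⟩ := exists_nat_ge (((R * w * ρ N + R)) / r0)
  rw [div_le_iff₀ hc] at hA1
  obtain ⟨A, hA⟩ : ∃ A : ℕ, A = max A1 A2 := ⟨_, rfl⟩
  have hAp : K1 * βp N ≤ A * c0 := hA1.trans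
    (mul_le_mul_of_nonneg_right (by rw [hA]; exact_mod_cast le_max_left _ _) hc.le)
  have hAz : R * w * ρ N + R ≤ r0 * A := by
    have h1 : (R * w * ρ N + R) / r0 ≤ A := hA2.trans (by rw [hA]; exact_mod_cast le_max_right _ _)
    rw [div_le_iff₀ hr0] at h1
    linarith
  -- the slots of `Z`
  have hZβ : ∀ i ∈ Z, βp i * ρ N ≤ R * βp N := by
    intro i hi
    have h1 := H.zr i hi
    have h2 := mul_le_mul_of_nonneg_right (abs_le.1 (H.bdr i)).2 hbp.le
    have h3 : 0 ≤ r0 * βp N := by positivity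
    linarith
  have hZρ : ∀ i ∈ Z, 0 ≤ ρ i := by
    intro i hi
    have h1 := H.zr i hi
    have h2 : 0 ≤ βp i * ρ N := mul_nonneg (H.bp i) hρ.le
    have h3 : 0 < r0 * βp N := by positivity
    by_contra hcon
    push Not at hcon
    have := mul_neg_of_neg_of_pos hcon hbp
    linarith
  have hA0 : (0 : ℝ) ≤ A := Nat.cast_nonneg A
  -- the final estimate for `M` steps
  have main : ∀ M : ℕ, A ≤ M → 0 < M →
      ρ N * (rp - rm) + own - rz ≤ 0 +
        (ρ N * (A * ((rp - rm) - rz / ρ N) + K * (A / ρ N + κ + w) + |own| * κ)) / M := by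
    intro M hM hM0
    have hMr : (0 : ℝ) < M := by exact_mod_cast hM0
    obtain ⟨h, hh⟩ : ∃ h : ℝ, h = ρ N / M := ⟨_, rfl⟩
    have hh0 : 0 < h := by rw [hh]; positivity
    have hMh : (M : ℝ) * h = ρ N := by rw [hh]; field_simp
    obtain ⟨h', hh'⟩ : ∃ h' : ℝ, h' = h / ρ N := ⟨_, rfl⟩
    have hh'0 : 0 < h' := by rw [hh']; positivity
    have hρh' : ρ N * h' = h := by rw [hh']; field_simp
    obtain ⟨x, hx⟩ : ∃ x : ℝ, x = K1 * h := ⟨_, rfl⟩
    have hhx : h ≤ x := by rw [hx]; exact le_mul_of_one_le_left hh0.le hK11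
    have hρhh : 0 ≤ 1 / ρ N * h := (mul_pos hρi hh0).le
    have hβhh : 0 ≤ 1 / βp N * h := (mul_pos hβi hh0).le
    have hx0 : 0 ≤ x := by linarith
    -- levels
    have hσ : -(w * h) ≤ 0 := by have := mul_pos hw0 hh0; linarith
    have hwin : h ≤ c0 * -(-(w * h)) := by
      rw [neg_neg, ← mul_assoc, hcw]
      linarith
    have hwin' : h' ≤ c0 * -(-(w * h)) := by
      rw [neg_neg, ← mul_assoc, hcw, hh']
      have : h / ρ N = 1 / ρ N * h := by ring
      rw [this]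
      linarith
    have hv0 : ∀ m : ℕ, 0 ≤ (m : ℝ) * h' + κ * h := fun m => by positivity
    have hs0 : ∀ m : ℕ, 0 ≤ (m : ℝ) * h / βp N := fun m => by positivity
    have hzl1 : ∀ m : ℕ, A ≤ m → ∀ i ∈ Z, βp i * (((m : ℝ) + 1) * h / βp N) ≤
        ρ i * ((m : ℝ) * h' + κ * h) + βm i * -(w * h) := by
      intro m hm i hi
      have hmr : (A : ℝ) ≤ m := by exact_mod_cast hm
      have hm0 : (0 : ℝ) ≤ m := Nat.cast_nonneg m
      have hρi0 := hZρ i hi
      have h2 := (abs_le.1 (H.bdb i)).2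
      -- multiply by `βp N * ρ N`
      have a1 : r0 * βp N * (m * h) + βp i * ρ N * (m * h) ≤ ρ i * βp N * (m * h) := by
        have := mul_le_mul_of_nonneg_right (H.zr i hi) (mul_nonneg hm0 hh0.le)
        linarith
      have a2 : βp i * ρ N * h ≤ R * βp N * h :=
        mul_le_mul_of_nonneg_right (hZβ i hi) hh0.le
      have a3 : (R * w * ρ N + R) * (βp N * h) ≤ r0 * m * (βp N * h) := by
        refine mul_le_mul_of_nonneg_right (hAz.trans ?_) (by positivity)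
        exact mul_le_mul_of_nonneg_left hmr hr0.le
      have a4 : βm i * (w * h) * (ρ N * βp N) ≤ R * (w * h) * (ρ N * βp N) :=
        mul_le_mul_of_nonneg_right (mul_le_mul_of_nonneg_right h2 (by positivity)) (by positivity)
      have a5 : 0 ≤ ρ i * (κ * h) * (ρ N * βp N) := by positivity
      have key : βp i * ρ N * ((m + 1) * h) ≤
          (ρ i * ((m : ℝ) * h' + κ * h) + βm i * -(w * h)) * (ρ N * βp N) := by
        have e1 : (ρ i * ((m : ℝ) * h' + κ * h) + βm i * -(w * h)) * (ρ N * βp N) =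
            ρ i * βp N * (m * (ρ N * h')) + ρ i * (κ * h) * (ρ N * βp N) -
              βm i * (w * h) * (ρ N * βp N) := by ring
        rw [e1, hρh']
        have e2 : R * (w * h) * (ρ N * βp N) = R * w * ρ N * (βp N * h) := by ring
        have e3 : (R * w * ρ N + R) * (βp N * h) = R * w * ρ N * (βp N * h) + R * βp N * h := by
          ring
        have e4 : r0 * m * (βp N * h) = r0 * βp N * (m * h) := by ring
        have e5 : βp i * ρ N * ((m + 1) * h) = βp i * ρ N * (m * h) + βp i * ρ N * h := by ring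
        linarith
      have e6 : βp i * ((m + 1) * h / βp N) * (ρ N * βp N) = βp i * ρ N * ((m + 1) * h) := by
        field_simp
      have hpos : 0 < ρ N * βp N := by positivity
      refine le_of_mul_le_mul_right ?_ hpos
      rw [e6]; exact key
    have hzl' : ∀ m m' : ℕ, A ≤ m → m' ≤ m + 1 → ∀ i ∈ Z, βp i * ((m' : ℝ) * h / βp N) ≤
        ρ i * ((m : ℝ) * h' + κ * h) + βm i * -(w * h) := by
      intro m m' hm hm' i hi
      refine le_trans ?_ (hzl1 m hm i hi)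
      refine mul_le_mul_of_nonneg_left ?_ (H.bp i)
      refine div_le_div_of_nonneg_right (mul_le_mul_of_nonneg_right ?_ hh0.le) hbp.le
      exact_mod_cast hm'
    have hzl : ∀ m : ℕ, A ≤ m → ∀ i ∈ Z, βp i * ((m : ℝ) * h / βp N) ≤
        ρ i * ((m : ℝ) * h' + κ * h) + βm i * -(w * h) := fun m hm =>
      hzl' m m hm (by omega)
    have hUl : ∀ s x y : ℝ, 0 ≤ s → 0 ≤ y → y ≤ x → Ub βp q N s x y ∈ L := by
      intro s x y hs hy hyx
      rw [← Vb_zero βp q Z]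
      exact H.legV _ _ _ _ hs hy hyx le_rfl (hy.trans hyx)
    -- domination of the slots outside `Z`
    have dom : ∀ (m : ℕ) (x' : ℝ), 0 ≤ x' → x' ≤ (1 + 1 / ρ N) * h → ∀ i, i ∉ Z → i ≠ N →
        ρ i * ((m : ℝ) * h' + κ * h) + βm i * -(w * h) + x' * q i ≤
          βp i * (m * h / βp N) + x * q i := by
      intro m x' hx'0 hx' i hi hiN
      have hm0 : (0 : ℝ) ≤ m := Nat.cast_nonneg m
      have h0 : 0 ≤ βp i * (m * h / βp N) := mul_nonneg (H.bp i) (hs0 m)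
      have hq := H.q0 i
      have hxx : x' * q i ≤ x * q i := by
        refine mul_le_mul_of_nonneg_right (hx'.trans ?_) hq
        rw [hx, hK1]
        have h1 := mul_nonneg (mul_nonneg hR hκ0.le) hh0.le
        have h2 := mul_nonneg (mul_nonneg hR hw0.le) hh0.le
        linarith
      rcases H.cq i hi hiN with h1 | ⟨h1, h2⟩
      · have e1 : ρ i * (m * h') ≤ βp i * (m * h / βp N) := by
          have h3 := H.cp i hi hiN
          rw [mul_div_assoc', le_div_iff₀ hbp, ← hρh']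
          linarith [mul_le_mul_of_nonneg_right h3 (mul_nonneg hm0 hh'0.le)]
        have h4 := (abs_le.1 (H.bdr i)).2
        have h5 := (abs_le.1 (H.bdb i)).1
        have e2 : ρ i * (κ * h) ≤ R * (κ * h) := mul_le_mul_of_nonneg_right h4 (by positivity)
        have e3 : βm i * -(w * h) ≤ R * (w * h) := by
          have := mul_nonneg (by linarith : 0 ≤ βm i + R) (mul_nonneg hw0.le hh0.le)
          linarith
        have e4 : (x - x') * 1 ≤ (x - x') * q i := by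
          refine mul_le_mul_of_nonneg_left h1 ?_
          rw [hx, hK1]
          have h6 := mul_nonneg (mul_nonneg hR hκ0.le) hh0.le
          have h7 := mul_nonneg (mul_nonneg hR hw0.le) hh0.le
          linarith
        have e5 : R * (κ * h) + R * (w * h) ≤ x - x' := by
          rw [hx, hK1]; linarith
        linarith
      · have e1 : ρ i * ((m : ℝ) * h' + κ * h) ≤ 0 :=
          mul_nonpos_of_nonpos_of_nonneg h1 (hv0 m)
        have e2 : βm i * -(w * h) ≤ 0 := by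
          have := mul_nonneg h2 (mul_nonneg hw0.le hh0.le)
          linarith
        linarith
    -- the slot `N` of the lower box
    have hN : ∀ m : ℕ, ρ N * ((m : ℝ) * h' + κ * h) + βm N * -(w * h) = m * h := by
      intro m
      have e1 : ρ N * (κ * h) = βm N * (w * h) := by rw [← mul_assoc, hρκ]; ring
      calc ρ N * ((m : ℝ) * h' + κ * h) + βm N * -(w * h)
          = m * (ρ N * h') + (ρ N * (κ * h) - βm N * (w * h)) := by ring
        _ = m * h := by rw [hρh', e1]; ring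
    have hNs : ∀ m : ℕ, βp N * (m * h / βp N) = m * h := fun m => by field_simp
    -- legality of the joins
    have cleg : ∀ (m m' : ℕ), A ≤ m → m ≤ m' → m' ≤ m + 1 → ∀ y z x' : ℝ, 0 ≤ y → y ≤ x → 0 ≤ z → z ≤ x' →
        0 ≤ x' → x' ≤ (1 + 1 / ρ N) * h →
        Cb ρ βp βm q Z N (m' * h / βp N) x y ((m : ℝ) * h' + κ * h) (-(w * h)) z ∈ L := by
      intro m m' hm hmm hmm1' y z x' hy hyx hz hzx hx'0 hx'
      have e : Cb ρ βp βm q Z N (m' * h / βp N) x y ((m : ℝ) * h' + κ * h) (-(w * h)) z =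
          Ub βp q N (m' * h / βp N) x y ⊔
            Lb ρ βm q Z N ((m : ℝ) * h' + κ * h) (-(w * h)) x' 0 z := by
        funext i
        simp only [Cb, Ub, Lb, Pi.sup_apply]
        have hmm' : (m : ℝ) ≤ m' := by exact_mod_cast hmm
        by_cases hi : i ∈ Z
        · have hiN : i ≠ N := fun e => H.NZ (e ▸ hi)
          rw [if_pos hi, if_pos hi, if_neg hiN, if_neg hiN, H.zq i hi]
          have h1 := hzl' m m' hm hmm1' i hi
          have h2 : 0 ≤ z * ρ i := mul_nonneg hz (hZρ i hi)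
          rw [max_eq_right (by linarith)]
          ring
        · rw [if_neg hi, if_neg hi]
          by_cases hiN : i = N
          · subst hiN
            rw [if_pos rfl, if_pos rfl, hN m, H.qN, hNs m']
            have h3 : (m : ℝ) * h ≤ m' * h := mul_le_mul_of_nonneg_right hmm' hh0.le
            rw [max_eq_left (by linarith)]
          · rw [if_neg hiN, if_neg hiN]
            have h1 := dom m x' hx'0 hx' i hi hiN
            have h3 : βp i * (m * h / βp N) ≤ βp i * (m' * h / βp N) := by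
              refine mul_le_mul_of_nonneg_left ?_ (H.bp i)
              exact div_le_div_of_nonneg_right (mul_le_mul_of_nonneg_right hmm' hh0.le) hbp.le
            rw [max_eq_left (by linarith)]
      rw [e]
      exact H.supc _ (hUl _ _ _ (hs0 m') hy hyx) _
        (H.legB _ _ _ _ _ (hv0 m) hσ le_rfl hx'0 hz hzx)
    have hbnd : h ≤ (1 + 1 / ρ N) * h := by linarith
    have hbnd' : h' ≤ (1 + 1 / ρ N) * h := by
      rw [hh']
      have : h / ρ N = 1 / ρ N * h := by ring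
      rw [this]; linarith
    -- the chain step
    have step : ∀ m : ℕ, A ≤ m →
        (rp - rm) * h - rz * h' ≤
        (g (Ub βp q N (m * h / βp N) x 0) -
          g (Cb ρ βp βm q Z N (m * h / βp N) x 0 ((m : ℝ) * h' + κ * h) (-(w * h)) 0)) -
        (g (Ub βp q N ((m + 1 : ℕ) * h / βp N) x 0) -
          g (Cb ρ βp βm q Z N ((m + 1 : ℕ) * h / βp N) x 0
            (((m + 1 : ℕ) : ℝ) * h' + κ * h) (-(w * h)) 0)) := by
      intro m hm
      have hmr : (A : ℝ) ≤ m := by exact_mod_cast hm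
      have hm0 : (0 : ℝ) ≤ m := Nat.cast_nonneg m
      -- N-step above
      have k1 : rp * h ≤ g (Ub βp q N (m * h / βp N) x 0) - g (Ub βp q N (m * h / βp N) x h) := by
        refine H.Np _ _ _ hh0 hhx ?_
        rw [mul_div_assoc', le_div_iff₀ hbp, hx]
        have h1 := mul_le_mul_of_nonneg_right hAp hh0.le
        have h2 := mul_le_mul_of_nonneg_right (mul_le_mul_of_nonneg_right hmr hc.le) hh0.le
        linarith
      -- N-step below
      have k2 := H.Nm ((m : ℝ) * h' + κ * h) (-(w * h)) h (hv0 m) hh0 hwin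
      -- N-step at the record level
      have k3 : g (Cb ρ βp βm q Z N (m * h / βp N) x 0 ((m : ℝ) * h' + κ * h) (-(w * h)) 0) -
          g (Cb ρ βp βm q Z N (m * h / βp N) x h ((m : ℝ) * h' + κ * h) (-(w * h)) 0) ≤
          g (Lb ρ βm q Z N ((m : ℝ) * h' + κ * h) (-(w * h)) h 0 0) -
          g (Lb ρ βm q Z N ((m : ℝ) * h' + κ * h) (-(w * h)) h h 0) := by
        refine incr H.sup (H.legB _ _ _ _ _ (hv0 m) hσ le_rfl hh0.le le_rfl hh0.le)
          (cleg m m hm le_rfl (by omega) 0 0 h le_rfl hx0 le_rfl hh0.le hh0.le hbnd)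
          (H.legB _ _ _ _ _ (hv0 m) hσ hh0.le le_rfl le_rfl hh0.le)
          (cleg m m hm le_rfl (by omega) h 0 h hh0.le hhx le_rfl hh0.le hh0.le hbnd) ?_
        intro i
        by_cases hiN : i = N
        · right
          subst hiN
          simp only [Cb, Lb, if_neg H.NZ, if_true, H.qN]
          have e1 := hN m
          have e2 := hNs m
          refine ⟨by linarith, by linarith, by linarith⟩
        · left
          simp only [Cb, Lb, if_neg hiN]
          refine ⟨trivial, trivial, ?_⟩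
          by_cases hi : i ∈ Z
          · rw [if_pos hi, if_pos hi, H.zq i hi]
            linarith
          · rw [if_neg hi, if_neg hi]
            have := dom m h hh0.le hbnd i hi hiN
            linarith
      -- the `Z`-step after the `N`-step
      have hmm1 : (m : ℝ) * h / βp N ≤ ((m + 1 : ℕ) : ℝ) * h / βp N := by
        refine div_le_div_of_nonneg_right (mul_le_mul_of_nonneg_right ?_ hh0.le) hbp.le
        push_cast; linarith
      have hstep : h / βp N ≤ x := by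
        have h1 : h / βp N = 1 / βp N * h := by ring
        rw [h1, hx]
        refine mul_le_mul_of_nonneg_right ?_ hh0.le
        rw [hK1]
        have := mul_nonneg hR hκ0.le
        have := mul_nonneg hR hw0.le
        linarith
      have hstep0 : 0 ≤ h / βp N := by positivity
      have k4' : g (Vb βp q Z N (m * h / βp N) x h (h / βp N)) ≤ g (Ub βp q N (m * h / βp N) x h) := by
        refine H.anti _ (hUl _ _ _ (hs0 m) hh0.le hhx) _
          (H.legV _ _ _ _ (hs0 m) hh0.le hhx hstep0 hstep) ?_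
        intro i
        simp only [Vb, Ub]
        by_cases hi : i ∈ Z
        · rw [if_pos hi]
          have := mul_nonneg hstep0 (H.bp i)
          linarith
        · rw [if_neg hi]; linarith
      have k4 : g (Ub βp q N ((m + 1 : ℕ) * h / βp N) x 0) -
          g (Cb ρ βp βm q Z N ((m + 1 : ℕ) * h / βp N) x 0 ((m : ℝ) * h' + κ * h) (-(w * h)) 0) ≤
          g (Vb βp q Z N (m * h / βp N) x h (h / βp N)) -
          g (Cb ρ βp βm q Z N (m * h / βp N) x h ((m : ℝ) * h' + κ * h) (-(w * h)) 0) := by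
        refine incr H.sup (H.legV _ _ _ _ (hs0 m) hh0.le hhx hstep0 hstep)
          (hUl _ _ _ (hs0 (m + 1)) le_rfl hx0)
          (cleg m m hm le_rfl (by omega) h 0 h hh0.le hhx le_rfl hh0.le hh0.le hbnd)
          (cleg m (m + 1) hm (by omega) le_rfl 0 0 h le_rfl hx0 le_rfl hh0.le hh0.le hbnd) ?_
        intro i
        by_cases hi : i ∈ Z
        · right
          have hiN : i ≠ N := fun e => H.NZ (e ▸ hi)
          simp only [Cb, Ub, Vb, if_pos hi, if_neg hiN, H.zq i hi]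
          have h1 := hzl' m (m + 1) hm le_rfl i hi
          have e1 : βp i * (((m + 1 : ℕ) : ℝ) * h / βp N) = βp i * (m * h / βp N) + h / βp N * βp i := by
            push_cast; field_simp
          rw [e1] at h1 ⊢
          exact ⟨by ring, trivial, by linarith⟩
        · left
          simp only [Cb, Ub, Vb, if_neg hi]
          by_cases hiN : i = N
          · subst hiN
            rw [if_pos rfl, if_pos rfl, H.qN, hNs m, hNs (m + 1)]
            push_cast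
            exact ⟨by ring, trivial, by linarith⟩
          · rw [if_neg hiN, if_neg hiN]
            have := mul_le_mul_of_nonneg_left hmm1 (H.bp i)
            exact ⟨by ring, trivial, by linarith⟩
      -- the joint `Z`-step
      have k5 := H.Zm ((m : ℝ) * h' + κ * h) (-(w * h)) h' (hv0 m) hh'0 hwin'
      have k6 : g (Cb ρ βp βm q Z N ((m + 1 : ℕ) * h / βp N) x 0
            ((m : ℝ) * h' + κ * h) (-(w * h)) 0) -
          g (Cb ρ βp βm q Z N ((m + 1 : ℕ) * h / βp N) x 0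
            (((m + 1 : ℕ) : ℝ) * h' + κ * h) (-(w * h)) 0) ≤
          g (Lb ρ βm q Z N ((m : ℝ) * h' + κ * h) (-(w * h)) h' 0 0) -
          g (Lb ρ βm q Z N ((m : ℝ) * h' + κ * h) (-(w * h)) h' 0 h') := by
        refine incr H.sup (H.legB _ _ _ _ _ (hv0 m) hσ le_rfl hh'0.le le_rfl hh'0.le)
          (cleg m (m + 1) hm (by omega) le_rfl 0 0 h' le_rfl hx0 le_rfl hh'0.le hh'0.le hbnd')
          (H.legB _ _ _ _ _ (hv0 m) hσ le_rfl hh'0.le hh'0.le le_rfl)
          (cleg (m + 1) (m + 1) (by omega) le_rfl (by omega) 0 0 h' le_rfl hx0 le_rfl hh'0.le hh'0.le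
            hbnd') ?_
        intro i
        by_cases hi : i ∈ Z
        · right
          have hiN : i ≠ N := fun e => H.NZ (e ▸ hi)
          simp only [Cb, Lb, if_pos hi, if_neg hiN, H.zq i hi]
          push_cast
          refine ⟨by ring, by ring, ?_⟩
          have := mul_nonneg hh'0.le (hZρ i hi)
          linarith
        · left
          simp only [Cb, Lb, if_neg hi]
          refine ⟨trivial, trivial, ?_⟩
          by_cases hiN : i = N
          · subst hiN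
            rw [if_pos rfl, H.qN, hN m, hNs (m + 1)]
            push_cast; linarith
          · rw [if_neg hiN]
            have h1 := dom m h' hh'0.le hbnd' i hi hiN
            have h2 := mul_le_mul_of_nonneg_left hmm1 (H.bp i)
            linarith
      linarith
    -- telescoping
    have tel : ∀ n : ℕ,
        n * ((rp - rm) * h - rz * h') ≤
        (g (Ub βp q N (A * h / βp N) x 0) -
          g (Cb ρ βp βm q Z N (A * h / βp N) x 0 ((A : ℝ) * h' + κ * h) (-(w * h)) 0)) -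
        (g (Ub βp q N ((A + n : ℕ) * h / βp N) x 0) -
          g (Cb ρ βp βm q Z N ((A + n : ℕ) * h / βp N) x 0
            (((A + n : ℕ) : ℝ) * h' + κ * h) (-(w * h)) 0)) := by
      intro n
      induction n with
      | zero => simp
      | succ n ih =>
        have h2 := step (A + n) (by omega)
        have e : A + (n + 1) = A + n + 1 := by ring
        rw [e]
        push_cast at ih h2 ⊢
        linarith
    have h1 := tel (M - A)
    have e1 : A + (M - A) = M := by omega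
    rw [e1] at h1
    have e3 : ((M - A : ℕ) : ℝ) = M - A := by rw [Nat.cast_sub hM]
    rw [e3] at h1
    -- the last box
    have h2 := H.ow (M * h / βp N) x ((M : ℝ) * h' + κ * h) (-(w * h)) (hs0 M) hx0 (hv0 M) hσ
      (hzl M hM) (cleg M M hM le_rfl (by omega) 0 0 h le_rfl hx0 le_rfl hh0.le hh0.le hbnd)
    -- the first box
    have h3 := H.lip (A * h / βp N) x ((A : ℝ) * h' + κ * h) (-(w * h)) (hs0 A) hx0 (hv0 A) hσ
      (hzl A le_rfl) (cleg A A le_rfl le_rfl (by omega) 0 0 h le_rfl hx0 le_rfl hh0.le hh0.le hbnd)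
    have e4 : (M : ℝ) * h' = 1 := by
      rw [hh', ← mul_div_assoc, hMh]; field_simp
    rw [e4] at h1 h2
    have e5 : ((M : ℝ) - A) * ((rp - rm) * h - rz * h') =
        ρ N * (rp - rm) - rz - A * ((rp - rm) * h - rz * h') := by
      have e6 : (M : ℝ) * ((rp - rm) * h - rz * h') = (M * h) * (rp - rm) - (M * h') * rz := by ring
      rw [hMh, e4] at e6
      linarith
    rw [e5] at h1
    have e7 : own * (1 + κ * h) ≥ own - |own| * (κ * h) := by
      have h8 := neg_abs_le own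
      have := mul_nonneg (by linarith : 0 ≤ own + |own|) (mul_nonneg hκ0.le hh0.le)
      linarith
    have e8 : (ρ N * (A * ((rp - rm) - rz / ρ N) + K * (A / ρ N + κ + w) + |own| * κ)) / M =
        A * ((rp - rm) * h - rz * h') + K * ((A : ℝ) * h' + κ * h - -(w * h)) + |own| * (κ * h) := by
      rw [hh', hh]
      field_simp
      ring
    rw [e8]
    linarith
  have := le_of_div (n0 := A) (C := ρ N * (A * ((rp - rm) - rz / ρ N) + K * (A / ρ N + κ + w)
    + |own| * κ)) (x := ρ N * (rp - rm) + own - rz) (y := 0) main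
  linarith

end

end abstract

end Crest.Agent.R116.NZ90
end

-- ▼ part R116/NZ5_90
section

/-!
# R116, K-TEXT II-c: the `N`-`z` chain rule over the rates `SRates` of 219 (helper90)

* `RateZw`, `rateZw_of` : rate of the joint `Z`-step from `SRates`, `= ∑ t ∈ rep, ρ t * A t`
* **`nz_rs4`** : `nz4` over 219's surfaces, a slot of `Z` may also be refined above the record
* **`nz_sr`** : `A N * (ρp N - ρm N) ≤ ∑ t ∈ rep, ρm t * A t - own`
-/

set_option autoImplicit false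
set_option linter.unusedSectionVars false
set_option linter.unusedVariables false

open Set Filter Topology

namespace Crest.Agent.R116.NZ90

open Crest.Agent.R136
open Dg219 (Tn lf det2 Cone Walls gC nC dhC dirC)
open Rc146 (OutH)
open Rc683 (Srf)
open RbK219 (RS SOk Aln dl Par SRates)

variable {ι W τ : Type*} [Fintype ι] [DecidableEq ι] [Fintype W] [Fintype τ] [DecidableEq τ]

/-! ### the joint step of `Z` -/

/-- `ρ` = rate of the joint `Z`-step; `Z` a union of parallel classes, all partial steps in `LW` -/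
def RateZw (R : RS ι τ) (lam : (ι → ℝ) → ℝ) (LW : Set (ι → ℝ)) (A B : τ → ℝ) (Z : Finset τ)
    (ρ : ℝ) : Prop :=
  ∀ (p : ι → ℝ) (l α x : ℝ), 0 ≤ x →
    (∀ i, R.cls i ∈ Z → p i = R.mu i * (l * B (R.cls i) + α * A (R.cls i))) →
    (∀ Z' : Finset τ, Z' ⊆ Z → (∀ t ∈ Z', ∀ t', Par A B t t' → t' ∈ Z') →
      p + x • eZ R A Z' ∈ LW) →
    lam p - lam (p + x • eZ R A Z) = ρ * x

section

variable {R : RS ι τ} {A B : τ → ℝ} {sg : ℝ}

theorem par_dlA (h : SOk A B sg) {t c : τ} (ht : 0 < A t) (hp : Par A B t c) :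
    A t * dl A B sg c = A c * dl A B sg t := by
  unfold RbK219.Par at hp
  unfold dl
  by_cases h0 : B t = 0
  · rw [h0, mul_zero] at hp
    have h1 : B c = 0 := (mul_eq_zero.1 hp).resolve_left ht.ne'
    rw [if_pos h0, if_pos h1]; ring
  · have h1 : B c ≠ 0 := by
      intro h1
      rw [h1, mul_zero] at hp
      have h2 := h.zero c h1
      exact h0 ((mul_eq_zero.1 hp.symm).resolve_left h2.ne')
    rw [if_neg h0, if_neg h1]
    linear_combination sg * hp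

theorem par_dlB (h : SOk A B sg) {t c : τ} (ht : 0 < A t) (hp : Par A B t c) :
    B t * dl A B sg c = B c * dl A B sg t := by
  unfold RbK219.Par at hp
  unfold dl
  by_cases h0 : B t = 0
  · rw [h0, mul_zero] at hp
    have h1 : B c = 0 := (mul_eq_zero.1 hp).resolve_left ht.ne'
    rw [if_pos h0, if_pos h1, h0, h1]; ring
  · have h1 : B c ≠ 0 := by
      intro h1
      rw [h1, mul_zero] at hp
      have h2 := h.zero c h1
      exact h0 ((mul_eq_zero.1 hp.symm).resolve_left h2.ne')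
    rw [if_neg h0, if_neg h1]
    ring

theorem par_trans {t c d : τ} (hc : A c ≠ 0) (h1 : Par A B t c) (h2 : Par A B c d) :
    Par A B t d := by
  unfold RbK219.Par at *
  apply mul_left_cancel₀ hc
  linear_combination A t * h2 + A d * h1

open Classical in
/-- **rate of the joint `Z`-step** -/
theorem rateZw_of (h : SOk A B sg) {lam : (ι → ℝ) → ℝ} {LW : Set (ι → ℝ)} {ρ : τ → ℝ}
    (H : SRates R A B sg lam LW ρ) {Z rep : Finset τ} (hA : ∀ t ∈ Z, 0 < A t)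
    (hZc : ∀ t ∈ Z, ∀ t', Par A B t t' → t' ∈ Z) (hrep : rep ⊆ Z)
    (hex : ∀ c ∈ Z, ∃ t ∈ rep, Par A B t c)
    (hun : ∀ t ∈ rep, ∀ t' ∈ rep, ∀ c ∈ Z, Par A B t c → Par A B t' c → t = t') :
    RateZw R lam LW A B Z (∑ t ∈ rep, ρ t * A t) := by
  intro p l α x hx hp hmem
  have key : ∀ S : Finset τ, S ⊆ rep →
      lam p - lam (p + x • eZ R A (Z.filter (fun c => ∃ t ∈ S, Par A B t c))) =
        (∑ t ∈ S, ρ t * A t) * x := by
    intro S
    induction S using Finset.induction_on with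
    | empty =>
      intro _
      have : eZ R A (Z.filter (fun c => ∃ t ∈ (∅ : Finset τ), Par A B t c)) = 0 := by
        funext i
        unfold eZ
        rw [if_neg]
        · rfl
        · simp
      rw [this]
      simp
    | insert t S htS ih =>
      intro hS
      have hSr : S ⊆ rep := fun c hc => hS (Finset.mem_insert_of_mem hc)
      have htr : t ∈ rep := hS (Finset.mem_insert_self _ _)
      have htZ := hrep htr
      have htA := hA t htZ
      have hd := (h.dl_pos t).ne'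
      have h1 := ih hSr
      have hnot : ∀ c ∈ Z, Par A B t c → c ∉ Z.filter (fun c => ∃ t ∈ S, Par A B t c) := by
        intro c hc hpc hcon
        obtain ⟨t', ht', hp'⟩ := (Finset.mem_filter.1 hcon).2
        have := hun t htr t' (hSr ht') c hc hpc hp'
        exact htS (this ▸ ht')
      have e1 : eZ R A (Z.filter (fun c => ∃ t' ∈ insert t S, Par A B t' c)) =
          eZ R A (Z.filter (fun c => ∃ t' ∈ S, Par A B t' c)) + A t • R.eG A B sg t := by
        funext i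
        simp only [Pi.add_apply, Pi.smul_apply, smul_eq_mul, RS.eG]
        by_cases hpc : Par A B t (R.cls i)
        · have hcZ := hZc t htZ _ hpc
          rw [if_pos hpc]
          unfold eZ
          rw [if_pos (Finset.mem_filter.2 ⟨hcZ, t, Finset.mem_insert_self _ _, hpc⟩),
            if_neg (hnot _ hcZ hpc)]
          have h2 := par_dlA h htA hpc
          rw [zero_add]
          have h3 : A (R.cls i) = A t * dl A B sg (R.cls i) / dl A B sg t := by
            rw [h2]; field_simp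
          rw [h3]; ring
        · rw [if_neg hpc, mul_zero, add_zero]
          unfold eZ
          by_cases hc : R.cls i ∈ Z.filter (fun c => ∃ t' ∈ S, Par A B t' c)
          · rw [if_pos hc, if_pos]
            obtain ⟨h2, t', ht', h3⟩ := Finset.mem_filter.1 hc
            exact Finset.mem_filter.2 ⟨h2, t', Finset.mem_insert_of_mem ht', h3⟩
          · rw [if_neg hc, if_neg]
            intro hcon
            obtain ⟨h2, t', ht', h3⟩ := Finset.mem_filter.1 hcon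
            rcases Finset.mem_insert.1 ht' with h4 | h4
            · exact hpc (h4 ▸ h3)
            · exact hc (Finset.mem_filter.2 ⟨h2, t', h4, h3⟩)
      have hcl : ∀ S' : Finset τ, S' ⊆ rep → ∀ c ∈ Z.filter (fun c => ∃ t' ∈ S', Par A B t' c),
          ∀ d, Par A B c d → d ∈ Z.filter (fun c => ∃ t' ∈ S', Par A B t' c) := by
        intro S' _ c hc d hd'
        obtain ⟨h2, t', ht', h3⟩ := Finset.mem_filter.1 hc
        exact Finset.mem_filter.2 ⟨hZc c h2 d hd', t', ht', par_trans (hA c h2).ne' h3 hd'⟩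
      have m1 := hmem (Z.filter (fun c => ∃ t' ∈ S, Par A B t' c)) (Finset.filter_subset _ _)
        (hcl S hSr)
      have m2 := hmem (Z.filter (fun c => ∃ t' ∈ insert t S, Par A B t' c))
        (Finset.filter_subset _ _) (hcl _ hS)
      rw [e1, smul_add, smul_smul, ← add_assoc] at m2
      have h4 := H.grp t htA.ne' _ (l * B t + α * A t) (x * A t) (fun i hi => by
        have hcZ := hZc t htZ _ hi
        have h5 := hnot _ hcZ hi
        simp only [Pi.add_apply, Pi.smul_apply, smul_eq_mul]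
        unfold eZ
        rw [if_neg h5, mul_zero, add_zero, hp i hcZ]
        have h6 := par_dlA h htA hi
        have h7 := par_dlB h htA hi
        have h8 : A (R.cls i) = A t * dl A B sg (R.cls i) / dl A B sg t := by
          rw [h6]; field_simp
        have h9 : B (R.cls i) = B t * dl A B sg (R.cls i) / dl A B sg t := by
          rw [h7]; field_simp
        rw [h8, h9]; ring) m1 m2
      rw [e1, smul_add, smul_smul, ← add_assoc, Finset.sum_insert htS]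
      linarith
  have h1 := key rep (fun _ h => h)
  have h2 : Z.filter (fun c => ∃ t ∈ rep, Par A B t c) = Z :=
    Finset.filter_true_of_mem fun c hc => by
      obtain ⟨t, ht, h3⟩ := hex c hc
      exact ⟨t, ht, h3⟩
  rwa [h2] at h1

end

/-! ### walls -/

section

variable {R : RS ι τ} {Q : Walls ι W} {Z : Finset τ} {N : τ} {A B : τ → ℝ} {y0 : ι → ℝ}

/-- the walls of the record: condition on the summands; `B` = offset of the lower surface -/
structure WOk4 (R : RS ι τ) (Q : Walls ι W) (y0 : ι → ℝ) (A B : τ → ℝ) (Z : Finset τ) (N : τ) :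
    Prop where
  out : ∀ w, Q.Act y0 (R.vec A) 0 w → R.cls (Q.hd w) ∉ Z →
    ∃ s, Q.co w s ≠ 0 ∧ R.cls s ∉ Z ∧ R.cls s ≠ N
  inn : ∀ w, Q.Act y0 (R.vec A) 0 w → R.cls (Q.hd w) ∈ Z →
    (∀ s, Q.co w s ≠ 0 → Par A B (R.cls (Q.hd w)) (R.cls s)) ∨
      ∃ s, Q.co w s ≠ 0 ∧ R.cls s ∉ Z ∧ R.cls s ≠ N

theorem WOk4.wok (hw : WOk4 R Q y0 A B Z N) (hZc : ∀ t ∈ Z, ∀ t', Par A B t t' → t' ∈ Z) :
    WOk R Q y0 A Z N where
  out := hw.out
  inn := fun w hact hz => (hw.inn w hact hz).imp (fun h s hs => hZc _ hz _ (h s hs)) id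


theorem eZ_nonneg {C : τ → ℝ} {Z' : Finset τ} (hC : ∀ t ∈ Z', 0 ≤ C t) (i : ι) :
    0 ≤ eZ R C Z' i := by
  unfold eZ
  split_ifs with h
  · exact mul_nonneg (R.pos i).le (hC _ h)
  · exact le_rfl



theorem col_Vb {j0 : ι} (hj0 : R.cls j0 = N) (hNZ : N ∉ Z) {Bp : τ → ℝ} {q : ι → ℝ}
    (hq : ∀ i, R.cls i = N → q i = 0) {Zi : Finset ι} (hZi : ∀ i, i ∈ Zi ↔ R.cls i ∈ Z)
    (s x y z : ℝ) : col R N j0 (Vb (sl R N j0 Bp) q Zi j0 s x y z) =
      s • R.vec Bp + x • q + y • R.e N + z • eZ R Bp Z := by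
  funext i
  simp only [col, Vb, sl, eZ, Pi.add_apply, Pi.smul_apply, smul_eq_mul, RS.vec, RS.e]
  by_cases h : R.cls i = N
  · have h1 : j0 ∉ Zi := fun e => hNZ (hj0 ▸ (hZi j0).1 e)
    have h2 : R.cls i ∉ Z := fun e => hNZ (h ▸ e)
    rw [if_pos h, if_neg h1, if_neg h2, hq i h, hq j0 hj0, if_pos h, h]
    simp only [if_pos hj0, if_true]
    ring
  · have hij : i ≠ j0 := fun e => h (e ▸ hj0)
    rw [if_neg h, if_neg h, if_neg hij, if_neg h]
    by_cases hz : R.cls i ∈ Z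
    · rw [if_pos hz, if_pos ((hZi i).2 hz)]; ring
    · rw [if_neg hz, if_neg (fun e => hz ((hZi i).1 e))]; ring

end

/-! ### the theorem -/

section main

variable {R : RS ι τ} {Q : Walls ι W} {y0 : ι → ℝ} {A Bp Bm : τ → ℝ}


end main

end Crest.Agent.R116.NZ90
end

-- ▼ part R116/NZ6_90
section

/-!
# R116, K-TEXT II-c: the `N`-`z` chain rule in the letters `Rates8` of 219 (helper90)

* `nz_rs5` : as `nz_rs4`, the `Z`-step below is any upper bound at the points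
  `natural point + c`, `c` legal, `c = 0` on `Z` and `N`
* `LamOk`  : what is used of the record tangent `lam`
* **`nz8`** : the theorem over the light chart (the two planes of the tables: `NZ7_90`)
-/

set_option autoImplicit false
set_option linter.unusedSectionVars false
set_option linter.unusedVariables false

open Set Filter Topology

namespace Crest.Agent.R116.NZ90

open Crest.Agent.R136
open Crest.Agent.R138
open Net191 (Mons Legal Leg)
open Dg219 (Tn lf det2 Cone Walls gC nC dhC dirC mw)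
open Rc146 (OutH)
open Rc683 (Srf)
open RbK219 (RS SOk Aln dl Par SRates)
open Sl741 (slice xt rs)
open ChL222 (monL mfL)
open RbM219

section gen

variable {ι W τ : Type*} [Fintype ι] [DecidableEq ι] [Fintype W] [Fintype τ] [DecidableEq τ]

section

variable {R : RS ι τ} {Q : Walls ι W} {Z : Finset τ} {N : τ} {A B : τ → ℝ} {y0 : ι → ℝ}

/-- every active wall of the record has a summand outside `Z ∪ {N}` -/
def WOut (R : RS ι τ) (Q : Walls ι W) (y0 : ι → ℝ) (A : τ → ℝ) (Z : Finset τ) (N : τ) : Prop :=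
  ∀ w, Q.Act y0 (R.vec A) 0 w → ∃ s, Q.co w s ≠ 0 ∧ R.cls s ∉ Z ∧ R.cls s ≠ N

theorem WOut.wok (hw : WOut R Q y0 A Z N) : WOk R Q y0 A Z N where
  out := fun w hact _ => hw w hact
  inn := fun w hact _ => Or.inr (hw w hact)

theorem WOut.room (hw : WOut R Q y0 A Z N) {e : ι → ℝ} (he0 : ∀ i, 0 ≤ e i)
    {K : ℝ} (hK0 : 0 ≤ K) (hK : ∀ i, e i ≤ K) :
    K • rmZ R Q Z N + e ∈ Q.L y0 (R.vec A) 0 := by
  intro w hact
  rw [Q.rhs_add, Q.rhs_smul]
  have h1 : 0 ≤ Q.rhs w e := Q.rhs_nonneg he0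
  simp only [Pi.add_apply, Pi.smul_apply, smul_eq_mul]
  have h3 := rmZ_room (hw w hact)
  have h4 := mul_le_mul_of_nonneg_left h3 hK0
  linarith [hK (Q.hd w)]

end

/-! ### the theorem -/

section main

variable {R : RS ι τ} {Q : Walls ι W} {y0 : ι → ℝ} {A Bp Bm : τ → ℝ}

set_option maxHeartbeats 4000000 in
/-- **`N`-`z` chain rule at a record point**; the `Z`-step below is an inequality -/
theorem nz_rs5 (hp : SOk A Bp 1) (hm : SOk A Bm (-1))
    (hlp : R.vec Bp ∈ Q.L y0 (R.vec A) 0) (hlm : R.vec Bm ∈ Q.L y0 (R.vec A) 0)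
    {cp cm : ℝ} (hcp : 0 < cp) (hcm : 0 < cm) {lam : (ι → ℝ) → ℝ}
    (hs : ∀ p ∈ Q.L y0 (R.vec A) 0, ∀ q ∈ Q.L y0 (R.vec A) 0, p ⊓ q ∈ Q.L y0 (R.vec A) 0 →
      p ⊔ q ∈ Q.L y0 (R.vec A) 0 → lam p + lam q ≤ lam (p ⊔ q) + lam (p ⊓ q))
    (hanti : ∀ p ∈ Q.L y0 (R.vec A) 0, ∀ q ∈ Q.L y0 (R.vec A) 0, p ≤ q → lam q ≤ lam p)
    {K : ℝ} (hK : 0 ≤ K)
    (hlip : ∀ p ∈ Q.L y0 (R.vec A) 0, ∀ q ∈ Q.L y0 (R.vec A) 0, |lam p - lam q| ≤ K * dist p q)
    {N z0 : τ} {Z : Finset τ} (hNZ : N ∉ Z) (hz0 : z0 ∈ Z) (hAz : A z0 = 1)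
    (hAN : 0 < A N) (hBpN : 0 < Bp N) (hBmN : Bm N < Bm z0 * A N)
    (hBz0 : Bp z0 = 0) (hBZ : ∀ t ∈ Z, Bp t * A N < A t * Bp N)
    (hcmp : ∀ t, t ∉ Z → t ≠ N → A t * Bp N ≤ Bp t * A N)
    (hw : WOut R Q y0 A Z N) {Kz : ℝ} (hKz : 0 ≤ Kz) {rp rm rz own : ℝ}
    (hrp : R.RateAt lam ((R.srf y0 A Bp 1).LW Q cp) N rp)
    (hrm : R.RateAt lam ((R.srf y0 A Bm (-1)).LW Q cm) N rm)
    (hrz : ∀ (c : ι → ℝ) (l α x : ℝ), 0 < l → 0 ≤ x → c ∈ Q.L y0 (R.vec A) 0 →
      (∀ i, R.cls i ∈ Z ∨ R.cls i = N → c i = 0) →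
      (∀ i, R.cls i ∉ Z → R.cls i ≠ N → x ≤ c i) →
      (∀ Z' : Finset τ, Z' ⊆ Z → c + x • eZ R A Z' ∈ Q.L y0 (R.vec A) 0) →
      ‖c‖ + x * Kz ≤ cm * l →
      (∀ Z' : Finset τ, Z' ⊆ Z → R.vec (l • Bm + α • A) + c + x • eZ R A Z' ∈
        (R.srf y0 A Bm (-1)).LW Q cm) →
      lam (R.vec (l • Bm + α • A) + c) - lam (R.vec (l • Bm + α • A) + c + x • eZ R A Z) ≤
        rz * x)
    (hown : ∀ p ∈ Q.L y0 (R.vec A) 0, ∀ p' ∈ Q.L y0 (R.vec A) 0, p ≤ p' →
      (∃ s : ℝ, 0 ≤ s ∧ ∀ i, R.cls i ∈ Z → p i = s * R.vec Bp i) → ∀ x : ℝ, 0 ≤ x →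
      (∀ i, R.cls i = z0 → p' i = p i + R.mu i * x) → own * x ≤ lam p - lam p') :
    A N * (rp - rm) ≤ rz - own := by
  classical
  obtain ⟨j0, hj0⟩ := R.sur N
  obtain ⟨jz, hjz⟩ := R.sur z0
  have cone : Cone (Q.L y0 (R.vec A) 0) := Walls.cone
  have hBp0 : ∀ t, 0 ≤ Bp t := fun t => by have := hp.nn t; rwa [one_mul] at this
  have hAZ : ∀ t ∈ Z, 0 < A t := by
    intro t ht
    have h1 := hBZ t ht
    have h2 := mul_nonneg (hBp0 t) hAN.le
    by_contra hcon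
    push Not at hcon
    have := mul_nonpos_of_nonpos_of_nonneg hcon hBpN.le
    linarith
  -- unshifted offset below
  obtain ⟨Bd, hBd⟩ : ∃ Bd : τ → ℝ, Bd = fun t => Bm t - Bm z0 * A t := ⟨_, rfl⟩
  have hBdz : Bd z0 = 0 := by rw [hBd]; simp only; rw [hAz]; ring
  have hBdN : Bd N < 0 := by rw [hBd]; simp only; linarith
  have hnat : ∀ v s : ℝ, R.vec ((-s) • Bd + v • A) =
      R.vec ((-s) • Bm + (v + s * Bm z0) • A) := by
    intro v s
    funext i
    simp only [RS.vec, Pi.add_apply, Pi.smul_apply, smul_eq_mul, hBd]; ring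
  -- constants of the room
  obtain ⟨K1, hK1⟩ : ∃ K1 : ℝ, K1 = 1 + ∑ i, (R.mu i + |R.vec A i| + |R.vec Bp i|) := ⟨_, rfl⟩
  have hterm : ∀ i, 0 ≤ R.mu i + |R.vec A i| + |R.vec Bp i| := fun i =>
    add_nonneg (add_nonneg (R.pos i).le (abs_nonneg _)) (abs_nonneg _)
  have hsum : ∀ i, R.mu i + |R.vec A i| + |R.vec Bp i| ≤
      ∑ i, (R.mu i + |R.vec A i| + |R.vec Bp i|) := fun i =>
    Finset.single_le_sum (f := fun i => R.mu i + |R.vec A i| + |R.vec Bp i|)
      (fun i _ => hterm i) (Finset.mem_univ i)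
  have hsum0 : 0 ≤ ∑ i, (R.mu i + |R.vec A i| + |R.vec Bp i|) :=
    Finset.sum_nonneg fun i _ => hterm i
  have hK11 : 1 ≤ K1 := by rw [hK1]; linarith
  have hK10 : 0 ≤ K1 := by linarith
  have hKmu : ∀ i, R.mu i ≤ K1 := fun i => by
    rw [hK1]; linarith [hsum i, abs_nonneg (R.vec A i), abs_nonneg (R.vec Bp i)]
  have hKA : ∀ i, |R.vec A i| ≤ K1 := fun i => by
    rw [hK1]; linarith [hsum i, abs_nonneg (R.vec Bp i), (R.pos i).le]
  have hKB : ∀ i, |R.vec Bp i| ≤ K1 := fun i => by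
    rw [hK1]; linarith [hsum i, abs_nonneg (R.vec A i), (R.pos i).le]
  have hwok := hw.wok
  obtain ⟨m, hmdef⟩ : ∃ m : ι → ℝ, m = K1 • rmZ R Q Z N := ⟨_, rfl⟩
  have hmM : m ∈ Q.L y0 (R.vec A) 0 := by
    rw [hmdef]; exact cone.smul _ (rmZ_mem hwok) _ hK10
  have hmN : m + R.e N ∈ Q.L y0 (R.vec A) 0 := by
    rw [hmdef]; exact rmZ_eN hwok hNZ hK10 hKmu
  have hmZ : ∀ Z' : Finset τ, Z' ⊆ Z → m + eZ R A Z' ∈ Q.L y0 (R.vec A) 0 := by
    intro Z' h1
    rw [hmdef]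
    refine hw.room (eZ_nonneg fun t ht => (hAZ t (h1 ht)).le) hK10 fun i => ?_
    unfold eZ
    split_ifs
    · exact (le_abs_self _).trans (hKA i)
    · exact hK10
  have hmB : m + eZ R Bp Z ∈ Q.L y0 (R.vec A) 0 := by
    rw [hmdef]
    refine hw.room (eZ_nonneg fun t ht => hBp0 t) hK10 fun i => ?_
    unfold eZ
    split_ifs
    · exact (le_abs_self _).trans (hKB i)
    · exact hK10
  obtain ⟨q, hq⟩ : ∃ q : ι → ℝ, q = (2 : ℝ) • m := ⟨_, rfl⟩
  have hqi : ∀ i, q i = 2 * (K1 * rmZ R Q Z N i) := fun i => by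
    rw [hq, hmdef]; simp only [Pi.smul_apply, smul_eq_mul]
  have hqZ : ∀ i, R.cls i ∈ Z → q i = 0 := fun i hi => by
    rw [hqi]; unfold rmZ; rw [if_pos (Or.inl hi)]; ring
  have hqN : ∀ i, R.cls i = N → q i = 0 := fun i hi => by
    rw [hqi]; unfold rmZ; rw [if_pos (Or.inr hi)]; ring
  have hq0 : ∀ i, 0 ≤ q i := fun i => by
    rw [hqi]
    have := mul_nonneg hK10 (rmZ_nonneg (R := R) (Q := Q) (Z := Z) (N := N) i)
    linarith
  have hq1 : ∀ i, R.cls i ∉ Z → R.cls i ≠ N → 1 ≤ q i := fun i h1 h2 => by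
    have e1 : rmZ R Q Z N i = Q.rs i := by
      unfold rmZ; rw [if_neg (by push Not; exact ⟨h1, h2⟩)]
    rw [hqi, e1]
    have h3 := Q.one_le_rs i
    have h4 : 1 * 1 ≤ K1 * Q.rs i := mul_le_mul hK11 h3 zero_le_one hK10
    linarith
  -- legal increments
  have hoffg : ∀ e : ι → ℝ, m + e ∈ Q.L y0 (R.vec A) 0 → ∀ x y z : ℝ, 0 ≤ y → y ≤ x → 0 ≤ z →
      z ≤ x → x • q + y • R.e N + z • e ∈ Q.L y0 (R.vec A) 0 := by
    intro e he x y z hy hyx hz hzx
    have h1 := cone.add _ (roomy cone hmM hmN hy hyx) _ (roomy cone hmM he hz hzx)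
    have h2 : x • m + y • R.e N + (x • m + z • e) = x • q + y • R.e N + z • e := by
      rw [hq]
      funext i
      simp only [Pi.add_apply, Pi.smul_apply, smul_eq_mul]; ring
    rwa [h2] at h1
  have hZZ := hmZ Z (fun _ h => h)
  have hoff := hoffg (eZ R A Z) hZZ
  have heZn : ∀ Z' : Finset τ, ‖eZ R A Z'‖ ≤ K1 := by
    intro Z'
    rw [pi_norm_le_iff_of_nonneg hK10]
    intro i
    rw [Real.norm_eq_abs]
    unfold eZ
    split_ifs
    · exact hKA i
    · rw [abs_zero]; exact hK10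
  obtain ⟨D, hD⟩ : ∃ D : ℝ, D = ‖q‖ + ‖R.e N‖ + K1 + Kz + 1 := ⟨_, rfl⟩
  have hD0 : 0 < D := by rw [hD]; positivity
  have hnormg : ∀ e : ι → ℝ, ‖e‖ ≤ K1 → ∀ x y z : ℝ, 0 ≤ y → y ≤ x → 0 ≤ z → z ≤ x →
      ‖x • q + y • R.e N + z • e‖ ≤ x * D := by
    intro e he x y z hy hyx hz hzx
    have hx : 0 ≤ x := hy.trans hyx
    have h1 : ‖x • q‖ = x * ‖q‖ := by rw [norm_smul, Real.norm_of_nonneg hx]
    have h2 : ‖y • R.e N‖ ≤ x * ‖R.e N‖ := by
      rw [norm_smul, Real.norm_of_nonneg hy]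
      exact mul_le_mul_of_nonneg_right hyx (norm_nonneg _)
    have h3 : ‖z • e‖ ≤ x * K1 := by
      rw [norm_smul, Real.norm_of_nonneg hz]
      exact mul_le_mul hzx he (norm_nonneg _) hx
    have h4 := norm_add_le (x • q + y • R.e N) (z • e)
    have h5 := norm_add_le (x • q) (y • R.e N)
    have h6 : x * D = x * ‖q‖ + x * ‖R.e N‖ + x * K1 + x * Kz + x := by rw [hD]; ring
    rw [h6]
    have h7 := mul_nonneg hx hKz
    linarith
  have hnorm := hnormg (eZ R A Z) (heZn Z)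
  obtain ⟨c0, hc0⟩ : ∃ c0 : ℝ, c0 = min (cp / D) (cm / D) := ⟨_, rfl⟩
  have hc00 : 0 < c0 := by rw [hc0]; exact lt_min (by positivity) (by positivity)
  have hc0p : ∀ x s : ℝ, 0 ≤ s → x ≤ c0 * s → x * D ≤ cp * s := by
    intro x s hs' hx
    have h1 : c0 ≤ cp / D := by rw [hc0]; exact min_le_left _ _
    have h2 : x ≤ cp / D * s := hx.trans (mul_le_mul_of_nonneg_right h1 hs')
    calc x * D ≤ cp / D * s * D := mul_le_mul_of_nonneg_right h2 hD0.le
      _ = cp * s := by field_simp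
  have hc0m : ∀ x s : ℝ, 0 ≤ s → x ≤ c0 * s → x * D ≤ cm * s := by
    intro x s hs' hx
    have h1 : c0 ≤ cm / D := by rw [hc0]; exact min_le_right _ _
    have h2 : x ≤ cm / D * s := hx.trans (mul_le_mul_of_nonneg_right h1 hs')
    calc x * D ≤ cm / D * s * D := mul_le_mul_of_nonneg_right h2 hD0.le
      _ = cm * s := by field_simp
  -- slots of `Z` in the chart
  obtain ⟨Zi, hZi⟩ : ∃ Zi : Finset ι, Zi = Finset.univ.filter (fun i => R.cls i ∈ Z) := ⟨_, rfl⟩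
  have hZm : ∀ i, i ∈ Zi ↔ R.cls i ∈ Z := fun i => by
    rw [hZi, Finset.mem_filter]; simp
  have hj0Z : j0 ∉ Zi := fun h => hNZ (hj0 ▸ (hZm j0).1 h)
  have hslZ : ∀ (B : τ → ℝ) (i : ι), R.cls i ∈ Z → sl R N j0 B i = R.mu i * B (R.cls i) := by
    intro B i hi
    have h1 : ¬ R.cls i = N := fun e => hNZ (e ▸ hi)
    unfold sl
    rw [if_neg h1]
  have hslN : ∀ B : τ → ℝ, sl R N j0 B j0 = B N := by
    intro B; unfold sl; rw [if_pos hj0, if_pos rfl]
  -- bounds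
  obtain ⟨RR, hRR⟩ : ∃ RR : ℝ, RR = ∑ i, (|sl R N j0 A i| + |sl R N j0 Bd i|) := ⟨_, rfl⟩
  have hRt : ∀ i, |sl R N j0 A i| + |sl R N j0 Bd i| ≤ RR := fun i => by
    rw [hRR]
    exact Finset.single_le_sum (f := fun i => |sl R N j0 A i| + |sl R N j0 Bd i|)
      (fun i _ => add_nonneg (abs_nonneg _) (abs_nonneg _)) (Finset.mem_univ i)
  have hRR0 : 0 ≤ RR := by
    have := hRt j0
    linarith [abs_nonneg (sl R N j0 A j0), abs_nonneg (sl R N j0 Bd j0)]
  obtain ⟨r0, hr0, hr0Z⟩ : ∃ r0 : ℝ, 0 < r0 ∧ ∀ i ∈ Zi,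
      r0 * sl R N j0 Bp j0 + sl R N j0 Bp i * sl R N j0 A j0 ≤
        sl R N j0 A i * sl R N j0 Bp j0 := by
    obtain ⟨i1, hi1, hmin⟩ := Finset.exists_min_image Zi
      (fun i => (sl R N j0 A i * Bp N - sl R N j0 Bp i * A N) / Bp N)
      ⟨jz, (hZm jz).2 (hjz ▸ hz0)⟩
    refine ⟨(sl R N j0 A i1 * Bp N - sl R N j0 Bp i1 * A N) / Bp N, ?_, fun i hi => ?_⟩
    · refine div_pos ?_ hBpN
      rw [hslZ A i1 ((hZm i1).1 hi1), hslZ Bp i1 ((hZm i1).1 hi1)]
      have h1 := mul_lt_mul_of_pos_left (hBZ _ ((hZm i1).1 hi1)) (R.pos i1)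
      linarith
    · have h1 := hmin i hi
      rw [hslN, hslN]
      have h2 := mul_le_mul_of_nonneg_right h1 hBpN.le
      rw [div_mul_cancel₀ _ hBpN.ne', div_mul_cancel₀ _ hBpN.ne'] at h2
      rw [div_mul_cancel₀ _ hBpN.ne']
      linarith
  -- membership
  have hU : ∀ s x y : ℝ, 0 ≤ s → 0 ≤ y → y ≤ x →
      col R N j0 (Ub (sl R N j0 Bp) q j0 s x y) ∈ Q.L y0 (R.vec A) 0 := by
    intro s x y hs' hy hyx
    rw [col_Ub hj0 hqN]
    have h1 := hoff x y 0 hy hyx le_rfl (hy.trans hyx)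
    have h2 := cone.add _ (cone.smul _ hlp s hs') _ h1
    rw [zero_smul, add_zero] at h2
    rwa [← add_assoc] at h2
  have hV : ∀ s x y z : ℝ, 0 ≤ s → 0 ≤ y → y ≤ x → 0 ≤ z → z ≤ x →
      col R N j0 (Vb (sl R N j0 Bp) q Zi j0 s x y z) ∈ Q.L y0 (R.vec A) 0 := by
    intro s x y z hs' hy hyx hz hzx
    rw [col_Vb hj0 hNZ hqN hZm]
    have h1 := cone.add _ (cone.smul _ hlp s hs') _ (hoffg _ hmB x y z hy hyx hz hzx)
    rwa [← add_assoc, ← add_assoc] at h1
  have hnatM : ∀ l α : ℝ, 0 ≤ l → R.vec (l • Bm + α • A) ∈ Q.L y0 (R.vec A) 0 := by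
    intro l α hl
    rw [R.vec_add, R.vec_smul, R.vec_smul]
    exact cone.add _ (cone.smul _ hlm l hl) _ (neg_vecA_mem α)
  have hB : ∀ v s x y z : ℝ, 0 ≤ v → s ≤ 0 → 0 ≤ y → y ≤ x → 0 ≤ z → z ≤ x →
      col R N j0 (Lb (sl R N j0 A) (fun i => -(sl R N j0 Bd i)) q Zi j0 v s x y z) ∈
        Q.L y0 (R.vec A) 0 := by
    intro v s x y z _ hs' hy hyx hz hzx
    rw [col_Lb hj0 hNZ hqN hZm, hnat]
    have h1 := cone.add _ (hnatM (-s) (v + s * Bm z0) (by linarith)) _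
      (hoff x y z hy hyx hz hzx)
    rwa [← add_assoc, ← add_assoc] at h1
  -- window cones
  have hWp : ∀ s x y : ℝ, 0 ≤ s → 0 ≤ y → y ≤ x → x ≤ c0 * s →
      s • R.vec Bp + x • q + y • R.e N ∈ (R.srf y0 A Bp 1).LW Q cp := by
    intro s x y hs' hy hyx hxs
    have h1 := hp.memLW (R := R) (y0 := y0) (Q := Q) (c0 := cp) (α := 0) hs'
      (L_sub (hoff x y 0 hy hyx le_rfl (hy.trans hyx)))
      ((hnorm x y 0 hy hyx le_rfl (hy.trans hyx)).trans (hc0p x s hs' hxs))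
    rw [zero_smul, zero_smul, add_zero, add_zero, R.vec_smul, ← add_assoc] at h1
    exact h1
  have hWm : ∀ v s x y z : ℝ, s ≤ 0 → 0 ≤ y → y ≤ x → 0 ≤ z → z ≤ x → x ≤ c0 * -s →
      R.vec ((-s) • Bm + (v + s * Bm z0) • A) + x • q + y • R.e N + z • eZ R A Z ∈
        (R.srf y0 A Bm (-1)).LW Q cm := by
    intro v s x y z hs' hy hyx hz hzx hxs
    have h1 := hm.memLW (R := R) (y0 := y0) (Q := Q) (c0 := cm) (α := v + s * Bm z0)
      (l := -s) (by linarith) (L_sub (hoff x y z hy hyx hz hzx))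
      ((hnorm x y z hy hyx hz hzx).trans (hc0m x (-s) (by linarith) hxs))
    rwa [← add_assoc, ← add_assoc] at h1
  have hWz : ∀ Z' : Finset τ, Z' ⊆ Z → ∀ v s x z : ℝ, s ≤ 0 → 0 ≤ z → z ≤ x → x ≤ c0 * -s →
      R.vec ((-s) • Bm + (v + s * Bm z0) • A) + x • q + z • eZ R A Z' ∈
        (R.srf y0 A Bm (-1)).LW Q cm := by
    intro Z' hZ'1 v s x z hs' hz hzx hxs
    have h0 : 0 ≤ x := hz.trans hzx
    have h1 := hm.memLW (R := R) (y0 := y0) (Q := Q) (c0 := cm) (α := v + s * Bm z0)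
      (l := -s) (by linarith) (L_sub (hoffg _ (hmZ Z' hZ'1) x 0 z le_rfl h0 hz hzx))
      ((hnormg _ (heZn Z') x 0 z le_rfl h0 hz hzx).trans (hc0m x (-s) (by linarith) hxs))
    rw [zero_smul, add_zero] at h1
    rwa [← add_assoc] at h1
  have hrec : Rec4 (fun c => lam (col R N j0 c)) {c | col R N j0 c ∈ Q.L y0 (R.vec A) 0}
      (sl R N j0 A) (sl R N j0 Bp) (fun i => -(sl R N j0 Bd i)) q Zi j0 RR r0 (K * RR) c0 own
      rp rm rz := by
    refine
      { sup := ?_, anti := ?_, supc := ?_, hc0 := hc00, hr0 := hr0, hR := hRR0, hK := mul_nonneg hK hRR0,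
        bdr := ?_, bdb := ?_, bp := ?_, bpN := ?_, bmN := ?_, rN := ?_, NZ := hj0Z, zr := hr0Z,
        zq := fun i hi => hqZ i ((hZm i).1 hi), q0 := hq0, qN := hqN j0 hj0,
        cp := ?_, cq := ?_, legV := hV, legB := hB, Np := ?_, Nm := ?_, Zm := ?_, ow := ?_,
        lip := ?_ }
    · intro p hp' p' hp'' h1 h2
      simp only [Set.mem_ofPred_eq] at hp' hp'' h1 h2
      rw [col_inf] at h1
      rw [col_sup] at h2
      have := hs _ hp' _ hp'' h1 h2
      simp only [col_sup, col_inf]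
      exact this
    · intro p hp' p' hp'' hle
      simp only [Set.mem_ofPred_eq] at hp' hp''
      refine hanti _ hp' _ hp'' fun i => ?_
      simp only [col]
      split_ifs
      · exact mul_le_mul_of_nonneg_left (hle j0) (R.pos i).le
      · exact hle i
    · intro p hp' p' hp''
      simp only [Set.mem_ofPred_eq] at hp' hp'' ⊢
      rw [col_sup]
      exact L_sup hp' hp''
    · intro i
      linarith [hRt i, abs_nonneg (sl R N j0 Bd i)]
    · intro i
      rw [abs_neg]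
      linarith [hRt i, abs_nonneg (sl R N j0 A i)]
    · intro i
      unfold sl
      split_ifs
      · exact hBp0 N
      · exact le_rfl
      · exact mul_nonneg (R.pos i).le (hBp0 _)
    · rw [hslN]; exact hBpN
    · simp only [hslN]; linarith
    · rw [hslN]; exact hAN
    · intro i hi hij
      rw [hslN, hslN]
      have hi' : R.cls i ∉ Z := fun h => hi ((hZm i).2 h)
      unfold sl
      by_cases h : R.cls i = N
      · rw [if_pos h, if_pos h, if_neg hij, if_neg hij]; linarith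
      · rw [if_neg h, if_neg h]
        have h1 := mul_le_mul_of_nonneg_left (hcmp _ hi' h) (R.pos i).le
        linarith
    · intro i hi hij
      have hi' : R.cls i ∉ Z := fun h => hi ((hZm i).2 h)
      by_cases h : R.cls i = N
      · right
        unfold sl
        rw [if_pos h, if_neg hij]
        simp only [if_pos h, if_neg hij]
        exact ⟨le_rfl, by simp⟩
      · left
        exact hq1 i hi' h
    · intro s x h hh hhx hxs
      have hs' : 0 ≤ s := by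
        by_contra hcon
        push Not at hcon
        have := mul_neg_of_pos_of_neg hc00 hcon
        linarith
      rw [col_Ub hj0 hqN, col_Ub hj0 hqN, zero_smul, add_zero]
      have h1 := hWp s x 0 hs' le_rfl (hh.le.trans hhx) hxs
      have h2 := hWp s x h hs' hh.le hhx hxs
      rw [zero_smul, add_zero] at h1
      have h3 := hrp _ (s * Bp N) h (fun i hi => by
        simp only [Pi.add_apply, Pi.smul_apply, smul_eq_mul, RS.vec, hqN i hi, hi]; ring) h1 h2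
      exact h3.ge
    · intro v s h hv hh hhs
      have hs' : s ≤ 0 := by
        by_contra hcon
        push Not at hcon
        have := mul_neg_of_pos_of_neg hc00 (neg_neg_of_pos hcon)
        linarith
      rw [col_Lb hj0 hNZ hqN hZm, col_Lb hj0 hNZ hqN hZm, hnat]
      have h1 := hWm v s h 0 0 hs' le_rfl hh.le le_rfl hh.le hhs
      have h2 := hWm v s h h 0 hs' hh.le le_rfl le_rfl hh.le hhs
      simp only [zero_smul, add_zero] at h1 h2 ⊢
      have h3 := hrm _ ((-s) * Bm N + (v + s * Bm z0) * A N) h (fun i hi => by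
        simp only [Pi.add_apply, Pi.smul_apply, smul_eq_mul, RS.vec, hqN i hi, hi]; ring) h1 h2
      exact h3.le
    · intro v s h hv hh hhs
      have hs' : s ≤ 0 := by
        by_contra hcon
        push Not at hcon
        have := mul_neg_of_pos_of_neg hc00 (neg_neg_of_pos hcon)
        linarith
      rw [col_Lb hj0 hNZ hqN hZm, col_Lb hj0 hNZ hqN hZm, hnat]
      simp only [zero_smul, add_zero]
      have hs0 : 0 < -s := by
        by_contra hcon
        push Not at hcon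
        have := mul_nonpos_of_nonneg_of_nonpos hc00.le hcon
        linarith
      have h3 := hrz (h • q) (-s) (v + s * Bm z0) h hs0 hh.le ?_ ?_ ?_ ?_ ?_
        (fun Z' h1 => hWz Z' h1 v s h h hs' hh.le le_rfl hhs)
      · exact h3
      · have h4 := hoffg (eZ R A Z) hZZ h 0 0 le_rfl hh.le le_rfl hh.le
        rwa [zero_smul, zero_smul, add_zero, add_zero] at h4
      · intro i hi
        simp only [Pi.smul_apply, smul_eq_mul]
        rcases hi with hi | hi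
        · rw [hqZ i hi, mul_zero]
        · rw [hqN i hi, mul_zero]
      · intro i h4 h5
        simp only [Pi.smul_apply, smul_eq_mul]
        have := mul_le_mul_of_nonneg_left (hq1 i h4 h5) hh.le
        linarith
      · intro Z' h1
        have h4 := hoffg (eZ R A Z') (hmZ Z' h1) h 0 h le_rfl hh.le hh.le le_rfl
        rwa [zero_smul, add_zero] at h4
      · have h4 := hc0m h (-s) hs0.le hhs
        have h5 : ‖h • q‖ = h * ‖q‖ := by rw [norm_smul, Real.norm_of_nonneg hh.le]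
        rw [h5]
        have h6 : h * D = h * ‖q‖ + h * ‖R.e N‖ + h * K1 + h * Kz + h := by rw [hD]; ring
        have h7 := mul_nonneg hh.le (norm_nonneg (R.e N))
        have h8 := mul_nonneg hh.le hK10
        linarith
    · intro s x v σ hs' hx hv hσ hz hC
      simp only [Set.mem_ofPred_eq] at hC ⊢
      refine hown _ (hU s x 0 hs' le_rfl hx) _ hC ?_ ⟨s, hs', fun i h3 => ?_⟩ v hv ?_
      · intro i
        simp only [col]
        by_cases h : R.cls i = N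
        · rw [if_pos h, if_pos h]
          refine mul_le_mul_of_nonneg_left ?_ (R.pos i).le
          simp only [Ub, Cb, if_neg hj0Z]
          exact le_rfl
        · rw [if_neg h, if_neg h]
          by_cases h2 : i ∈ Zi
          · have h3 := (hZm i).1 h2
            have hij : i ≠ j0 := fun e => h (e ▸ hj0)
            simp only [Ub, Cb, if_pos h2, if_neg hij]
            rw [hqZ i h3]
            have := hz i h2
            linarith
          · simp only [Ub, Cb, if_neg h2]; exact le_rfl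
      · have h : R.cls i ≠ N := fun e => hNZ (e ▸ h3)
        have hij : i ≠ j0 := fun e => h (e ▸ hj0)
        simp only [col, if_neg h, Ub, if_neg hij]
        rw [hslZ Bp i h3, hqZ i h3]
        simp only [RS.vec]
        ring
      · intro i hi
        have h3 : R.cls i ∈ Z := by rw [hi]; exact hz0
        have h : R.cls i ≠ N := fun e => hNZ (e ▸ h3)
        have h2 := (hZm i).2 h3
        have hij : i ≠ j0 := fun e => h (e ▸ hj0)
        simp only [col, if_neg h, Ub, Cb, if_pos h2, if_neg hij]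
        rw [hslZ Bp i h3, hqZ i h3, hslZ A i h3, hslZ Bd i h3, hi, hBdz, hAz, hBz0]
        ring
    · intro s x v σ hs' hx hv hσ hz hC
      simp only [Set.mem_ofPred_eq] at hC ⊢
      have h1 := hlip _ (hU s x 0 hs' le_rfl hx) _ hC
      have hvs : 0 ≤ v - σ := by linarith
      have h2 : dist (col R N j0 (Ub (sl R N j0 Bp) q j0 s x 0))
          (col R N j0 (Cb (sl R N j0 A) (sl R N j0 Bp) (fun i => -(sl R N j0 Bd i)) q Zi j0
            s x 0 v σ 0)) ≤ RR * (v - σ) := by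
        rw [dist_pi_le_iff (mul_nonneg hRR0 hvs)]
        intro i
        rw [Real.dist_eq]
        have hb : 0 ≤ RR * (v - σ) := mul_nonneg hRR0 hvs
        simp only [col]
        by_cases h : R.cls i = N
        · rw [if_pos h, if_pos h]
          simp only [Ub, Cb, if_neg hj0Z, sub_self, abs_zero]
          exact hb
        · rw [if_neg h, if_neg h]
          by_cases h2 : i ∈ Zi
          · have h3 := (hZm i).1 h2
            have hij : i ≠ j0 := fun e => h (e ▸ hj0)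
            simp only [Ub, Cb, if_pos h2, if_neg hij]
            have e1 : |sl R N j0 A i| ≤ RR := by linarith [hRt i, abs_nonneg (sl R N j0 Bd i)]
            have e2 : |sl R N j0 Bd i| ≤ RR := by linarith [hRt i, abs_nonneg (sl R N j0 A i)]
            have e3 : |sl R N j0 A i * v| ≤ RR * v := by
              rw [abs_mul, abs_of_nonneg hv]; exact mul_le_mul_of_nonneg_right e1 hv
            have e4 : |sl R N j0 Bd i * σ| ≤ RR * -σ := by
              rw [abs_mul, abs_of_nonpos hσ]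
              exact mul_le_mul_of_nonneg_right e2 (by linarith)
            have h7 := hz i h2
            have h8 : 0 ≤ sl R N j0 Bp i * s := by
              rw [hslZ Bp i h3]
              exact mul_nonneg (mul_nonneg (R.pos i).le (hBp0 _)) hs'
            rw [hqZ i h3, abs_le]
            have e5 := abs_le.1 e3
            have e6 := abs_le.1 e4
            constructor <;> linarith
          · simp only [Ub, Cb, if_neg h2, sub_self, abs_zero]
            exact hb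
      calc lam _ - lam _ ≤ |lam _ - lam _| := le_abs_self _
        _ ≤ K * dist _ _ := h1
        _ ≤ K * (RR * (v - σ)) := mul_le_mul_of_nonneg_left h2 hK
        _ = K * RR * (v - σ) := by ring
  have key := nz4 hrec
  rwa [hslN] at key

end main

/-- the `Z`-step of `nz_rs5` from `SRates`, `Z` a union of parallel classes -/
theorem zstep_of {R : RS ι τ} {Q : Walls ι W} {y0 : ι → ℝ} {A Bm : τ → ℝ} (h : SOk A Bm (-1))
    {lam : (ι → ℝ) → ℝ} {cm : ℝ} {ρ : τ → ℝ}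
    (H : SRates R A Bm (-1) lam ((R.srf y0 A Bm (-1)).LW Q cm) ρ) {Z rep : Finset τ}
    (hA : ∀ t ∈ Z, 0 < A t) (hZc : ∀ t ∈ Z, ∀ t', Par A Bm t t' → t' ∈ Z) (hrep : rep ⊆ Z)
    (hex : ∀ c ∈ Z, ∃ t ∈ rep, Par A Bm t c)
    (hun : ∀ t ∈ rep, ∀ t' ∈ rep, ∀ c ∈ Z, Par A Bm t c → Par A Bm t' c → t = t')
    (c : ι → ℝ) (l α x : ℝ) (hx : 0 ≤ x) (hc : ∀ i, R.cls i ∈ Z → c i = 0)
    (hmem : ∀ Z' : Finset τ, Z' ⊆ Z → R.vec (l • Bm + α • A) + c + x • eZ R A Z' ∈
        (R.srf y0 A Bm (-1)).LW Q cm) :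
    lam (R.vec (l • Bm + α • A) + c) - lam (R.vec (l • Bm + α • A) + c + x • eZ R A Z) =
      (∑ t ∈ rep, ρ t * A t) * x := by
  refine rateZw_of h H hA hZc hrep hex hun _ l α x hx (fun i hi => ?_) fun Z' h1 _ => hmem Z' h1
  simp only [Pi.add_apply, Pi.smul_apply, smul_eq_mul, RS.vec, hc i hi, add_zero]

end gen

/-! ### the light chart -/

section light

/-- what is used of the record tangent; `own` : at the frozen level of the flags only -/
structure LamOk (L : Set (Fin 12 → ℝ)) (lam : (Fin 12 → ℝ) → ℝ) (K own : ℝ) : Prop where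
  K0 : 0 ≤ K
  sup : ∀ p ∈ L, ∀ q ∈ L, p ⊓ q ∈ L → p ⊔ q ∈ L → lam p + lam q ≤ lam (p ⊔ q) + lam (p ⊓ q)
  anti : ∀ p ∈ L, ∀ q ∈ L, p ≤ q → lam q ≤ lam p
  lip : ∀ p ∈ L, ∀ q ∈ L, |lam p - lam q| ≤ K * dist p q
  own : ∀ p ∈ L, ∀ q ∈ L, p ≤ q → p 0 = 0 → p 1 = 0 → p 2 = 0 → p 7 = 0 → p 8 = 0 →
    own * q 0 ≤ lam p - lam q

variable {θa θb t : ℝ}

/-- the legal cone of the record, `D` frozen, in the kept slots -/
abbrev M8 (θa θb t : ℝ) : Set (K8 → ℝ) :=
  (Q8 t).L (rs kp (y8 t)) (RL8.vec (nat8 1 (-θa) (-θb))) 0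

theorem mem_M8 {c : K8 → ℝ} : c ∈ M8 θa θb t ↔ xt kp 0 c ∈ L8 θa θb t := by
  have h := Sl741.mem_slice_L (Q := mw monL) (p := kp) (v := y8 t) (hp := kp_hd) (x0 := y8 t)
    (a := r8 θa θb) (b := 0) (fun i _ => rfl) (fun i hi => by
      have : i = 1 := not_not.1 hi
      subst this
      unfold r8; rw [Function.update_self]) (fun i _ => rfl) (c := c)
  rw [rs_r8] at h
  exact h

theorem wout8 (ht : t ≠ 0) {Z : Finset (Fin 8)} {N : Fin 8}
    (h : ∀ k, ∀ e ∈ mfL k, e 1 = 0 → ∃ s, s ≠ 1 ∧ e s ≠ 0 ∧ cl8 s ∉ Z ∧ cl8 s ≠ N) :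
    WOut RL8 (Q8 t) (rs kp (y8 t)) (nat8 1 (-θa) (-θb)) Z N := by
  intro w hact
  have h1 := act_D ht hact
  obtain ⟨s, hs, h2, h3, h4⟩ := h w.1 w.2.1 w.2.2 h1
  exact ⟨⟨s, hs⟩, h2, h3, h4⟩

/-- `z`, `B`, `G` -/
abbrev ZBG : Finset (Fin 8) := {0, 6, 7}

theorem leg_ZBG : ∀ k, ∀ e ∈ mfL k, e 1 = 0 →
    ∃ s, s ≠ 1 ∧ e s ≠ 0 ∧ cl8 s ∉ ZBG ∧ cl8 s ≠ 4 := by decide

/-- **`N`-`z` chain rule in the light chart** -/
theorem nz8 (ht : t ≠ 0) {Bp Bm : Fin 8 → ℝ} (hp : SOk (nat8 1 (-θa) (-θb)) Bp 1)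
    (hm : SOk (nat8 1 (-θa) (-θb)) Bm (-1)) (hBp : Leg8 Bp) (hBm : Leg8 Bm) {cp cm : ℝ}
    (hcp : 0 < cp) (hcm : 0 < cm) {lam : (Fin 12 → ℝ) → ℝ} {K own : ℝ}
    (hl : LamOk (L8 θa θb t) lam K own) {Z : Finset (Fin 8)} (hNZ : (4 : Fin 8) ∉ Z)
    (hz0 : (0 : Fin 8) ∈ Z) (hz6 : (6 : Fin 8) ∈ Z) (hz7 : (7 : Fin 8) ∈ Z)
    (hAN : 0 < 1 - θb) (hBpN : 0 < Bp 4)
    (hBmN : Bm 4 < Bm 0 * (1 - θb)) (hBp0 : ∀ i ∈ Z, Bp i = 0)
    (hBZ : ∀ i ∈ Z, Bp i * (1 - θb) < nat8 1 (-θa) (-θb) i * Bp 4)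
    (hcmp : ∀ i, i ∉ Z → i ≠ 4 → nat8 1 (-θa) (-θb) i * Bp 4 ≤ Bp i * (1 - θb))
    (hw : ∀ k, ∀ e ∈ mfL k, e 1 = 0 → ∃ s, s ≠ 1 ∧ e s ≠ 0 ∧ cl8 s ∉ Z ∧ cl8 s ≠ 4)
    {Kz : ℝ} (hKz : 0 ≤ Kz) {rp rm rz : ℝ}
    (hrp : RL8.RateAt (fun c => lam (xt kp 0 c)) ((srf8 θa θb t Bp 1).LW (Q8 t) cp) 4 rp)
    (hrm : RL8.RateAt (fun c => lam (xt kp 0 c)) ((srf8 θa θb t Bm (-1)).LW (Q8 t) cm) 4 rm)
    (hrz : ∀ (c : K8 → ℝ) (l α x : ℝ), 0 < l → 0 ≤ x → c ∈ M8 θa θb t →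
      (∀ i, RL8.cls i ∈ Z ∨ RL8.cls i = 4 → c i = 0) →
      (∀ i, RL8.cls i ∉ Z → RL8.cls i ≠ 4 → x ≤ c i) →
      (∀ Z' : Finset (Fin 8), Z' ⊆ Z →
        c + x • eZ RL8 (nat8 1 (-θa) (-θb)) Z' ∈ M8 θa θb t) →
      ‖c‖ + x * Kz ≤ cm * l →
      (∀ Z' : Finset (Fin 8), Z' ⊆ Z → RL8.vec (l • Bm + α • nat8 1 (-θa) (-θb)) + c +
        x • eZ RL8 (nat8 1 (-θa) (-θb)) Z' ∈ (srf8 θa θb t Bm (-1)).LW (Q8 t) cm) →
      lam (xt kp 0 (RL8.vec (l • Bm + α • nat8 1 (-θa) (-θb)) + c)) -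
        lam (xt kp 0 (RL8.vec (l • Bm + α • nat8 1 (-θa) (-θb)) + c +
          x • eZ RL8 (nat8 1 (-θa) (-θb)) Z)) ≤ rz * x) :
    (1 - θb) * (rp - rm) ≤ rz - own := by
  have eN : nat8 1 (-θa) (-θb) 4 = 1 - θb := by simp [nat8]; ring
  have ez : nat8 1 (-θa) (-θb) 0 = 1 := by simp [nat8]
  have key := nz_rs5 (R := RL8) (Q := Q8 t) (y0 := rs kp (y8 t)) (A := nat8 1 (-θa) (-θb))
    (Bp := Bp) (Bm := Bm) hp hm (RL8_mem ht hBp) (RL8_mem ht hBm) hcp hcm
    (lam := fun c => lam (xt kp 0 c)) (fun p hp' q hq' h1 h2 => by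
      have e1 := hl.sup _ (mem_M8.1 hp') _ (mem_M8.1 hq') (by
        have := mem_M8.1 h1
        rwa [Sl741.xt_inf] at this) (by
        have := mem_M8.1 h2
        rwa [Sl741.xt_sup] at this)
      simp only [Sl741.xt_sup, Sl741.xt_inf]
      exact e1) (fun p hp' q hq' hle =>
      hl.anti _ (mem_M8.1 hp') _ (mem_M8.1 hq') (Sl741.xt_mono 0 hle)) hl.K0
    (fun p hp' q hq' => (hl.lip _ (mem_M8.1 hp') _ (mem_M8.1 hq')).trans
      (mul_le_mul_of_nonneg_left (Sl741.xt_dist 0 p q) hl.K0))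
    (N := 4) (z0 := 0) (Z := Z) hNZ hz0 ez (by rw [eN]; exact hAN) hBpN
    (by rw [eN]; exact hBmN) (hBp0 0 hz0) (by rw [eN]; exact hBZ) (by rw [eN]; exact hcmp)
    (wout8 ht hw) hKz hrp hrm hrz (own := own) (fun p hp' p' hp'' hle hps x hx hxx => by
      obtain ⟨s, -, hps⟩ := hps
      have hp0 : ∀ (i : Fin 12) (hi : i ≠ 1), cl8 i ∈ Z → xt kp 0 p i = 0 := by
        intro i hi hiZ
        rw [Sl741.xt_in (p := kp) _ _ (hi : kp i), hps ⟨i, hi⟩ hiZ]
        change s * (1 * Bp (cl8 i)) = 0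
        rw [hBp0 _ hiZ]; ring
      have h1 := hl.own _ (mem_M8.1 hp') _ (mem_M8.1 hp'') (Sl741.xt_mono 0 hle)
        (hp0 0 (by decide) hz0) (Sl741.xt_off (p := kp) _ _ (by simp [kp]))
        (hp0 2 (by decide) hz7) (hp0 7 (by decide) hz6) (hp0 8 (by decide) hz6)
      have h2 := hxx ⟨0, by decide⟩ rfl
      have h3 : xt kp 0 p' 0 = x := by
        have h4 := hp0 0 (by decide) hz0
        rw [Sl741.xt_in (p := kp) _ _ (by decide : kp 0)] at h4 ⊢
        rw [h2, h4]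
        change 0 + 1 * x = x
        ring
      rw [h3] at h1
      exact h1)
  rwa [eN] at key

end light

end Crest.Agent.R116.NZ90
end

-- ▼ part R116/NZ7_90
section

/-!
# R116, K-TEXT II-c: the `N`-`z` chain rule on the planes of the tie tables (helper90)

Below the record the planes `eD k`, `kD` of 139, above the frozen `S₁ = oS`; `own` = lower bound of
the `z`-rate of the record tangent.

* **`nz8_e`** : `e`-tie `θb = θ - k`:
  `(1 + k - θ) (ρp N - ρm N) ≤ ρm z + (k + θ) ρm G - own`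
* **`nz8_k`** : `κ`-tie and double tie `θb = 2 θ - k`, `θ < k < 1`, `k ≠ 1/2`:
  `(1 + k - 2 θ) (ρp N - ρm N) ≤ ρm z + (k - θ) ρm B - own`
-/

set_option autoImplicit false
set_option linter.unusedVariables false
set_option linter.unusedSimpArgs false

open Set Filter Topology

namespace Crest.Agent.R116.NZ90

open Crest.Agent.R136
open Dg219 (Walls mw)
open Sl741 (slice xt rs)
open RbK219 RbM219
open ChL222 (monL mfL)
open Tp139

variable {θ θb k t : ℝ}

theorem sum_pair {f : Fin 8 → ℝ} {a b : Fin 8} (h : a ≠ b) :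
    ∑ i ∈ ({a, b} : Finset (Fin 8)), f i = f a + f b := Finset.sum_pair h

theorem zbg : ∀ i : Fin 8, i ∈ ZBG → i = 0 ∨ i = 6 ∨ i = 7 := by decide

theorem oS_zbg : ∀ i ∈ ZBG, oS i = 0 := by
  intro i hi
  rcases zbg i hi with rfl | rfl | rfl <;> rfl

theorem in07 : ∀ i : Fin 8, i ∈ ({0, 7} : Finset (Fin 8)) → i = 0 ∨ i = 7 := by decide

theorem in06 : ∀ i : Fin 8, i ∈ ({0, 6} : Finset (Fin 8)) → i = 0 ∨ i = 6 := by decide

/-- **`e`-tie** -/
theorem nz8_e (ht : t ≠ 0) (hθ : 0 < θ) (hk : 0 < k) (hθ1 : θ < 1 + k) (hb : θb = θ - k)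
    {cp cm : ℝ} (hcp : 0 < cp) (hcm : 0 < cm) {lam : (Fin 12 → ℝ) → ℝ} {K own : ℝ}
    (hl : LamOk (L8 θ θb t) lam K own) {ρp ρm : Fin 8 → ℝ}
    (rp : Rates8 θ θb t oS 1 cp lam ρp) (rm : Rates8 θ θb t (eD k) (-1) cm lam ρm) :
    (1 + k - θ) * (ρp 4 - ρm 4) ≤ ρm 0 + (k + θ) * ρm 7 - own := by
  have q1 := mul_pos hθ hk
  have q2 := mul_pos hk hk
  have hm := sok_eD hθ hk hb
  have eA : (1 + k - θ) = 1 - θb := by rw [hb]; ring
  have A4 : nat8 1 (-θ) (-θb) 4 ≠ 0 := by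
    have : 0 < nat8 1 (-θ) (-θb) 4 := by ev8; linarith
    exact this.ne'
  have a4p : Aln (nat8 1 (-θ) (-θb)) oS 4 := by
    subst hb
    refine all8 ?_ ?_ ?_ ?_ ?_ ?_ ?_ ?_ <;> intro ht h <;> first | exact ht rfl | (ev8; nlinarith)
  have a4m : Aln (nat8 1 (-θ) (-θb)) (eD k) 4 := by
    have q3 := mul_pos hk (by linarith : 0 < 1 + k - θ)
    subst hb
    refine all8 ?_ ?_ ?_ ?_ ?_ ?_ ?_ ?_ <;> intro ht h <;> first | exact ht rfl | (ev8; nlinarith)
  have par06 : Par (nat8 1 (-θ) (-θb)) (eD k) 0 6 := by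
    unfold Par; ev8; rw [hb]; ring
  have par60 : Par (nat8 1 (-θ) (-θb)) (eD k) 6 0 := par06.symm'
  have par00 : Par (nat8 1 (-θ) (-θb)) (eD k) 0 0 := rfl
  have par77 : Par (nat8 1 (-θ) (-θb)) (eD k) 7 7 := rfl
  have n07 : ¬ Par (nat8 1 (-θ) (-θb)) (eD k) 0 7 := by
    unfold Par; intro h; ev8; rw [hb] at h; nlinarith
  have n76 : ¬ Par (nat8 1 (-θ) (-θb)) (eD k) 7 6 := by
    unfold Par; intro h; ev8; rw [hb] at h; nlinarith
  have n70 : ¬ Par (nat8 1 (-θ) (-θb)) (eD k) 7 0 := fun h => n07 h.symm'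
  have key := nz8 (θa := θ) (θb := θb) (Z := ZBG) (Bp := oS) (Bm := eD k) ht
    (sok_oS (by linarith) (by linarith)) hm leg_oS leg_eD hcp hcm hl (by decide) (by decide)
    (by decide) (by decide) (by linarith) (by ev8; linarith) (by ev8; linarith) oS_zbg ?_ ?_
    leg_ZBG
    (Kz := 0) le_rfl (rp.alone 4 a4p A4) (rm.alone 4 a4m A4)
    (fun c l α x hl' hx hc hcZ hcn hcm' hn hmem => (zstep_of (rep := {0, 7}) hm rm ?_ ?_ ?_ ?_ ?_
      c l α x hx (fun i hi => hcZ i (Or.inl hi)) hmem).le)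
  · have e := sum_pair (f := fun i => ρm i * nat8 1 (-θ) (-θb) i) (a := 0) (b := 7) (by decide)
    rw [e] at key
    have e0 : nat8 1 (-θ) (-θb) 0 = 1 := rfl
    have e7 : nat8 1 (-θ) (-θb) 7 = k + θ := by ev8; rw [hb]; ring
    rw [e0, e7] at key
    rw [eA]
    linarith
  · subst hb
    refine all8 ?_ ?_ ?_ ?_ ?_ ?_ ?_ ?_ <;> intro hi <;>
      first | (exact absurd hi (by decide)) | (ev8; nlinarith)
  · subst hb
    refine all8 ?_ ?_ ?_ ?_ ?_ ?_ ?_ ?_ <;> intro hi hi4 <;>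
      first | (exact absurd (by decide) hi) | (exact absurd rfl hi4) | (ev8; nlinarith)
  · subst hb
    refine all8 ?_ ?_ ?_ ?_ ?_ ?_ ?_ ?_ <;> intro hi <;>
      first | (exact absurd hi (by decide)) | (ev8; nlinarith)
  · intro i hi
    have h3 := zbg i hi
    subst hb
    rcases h3 with rfl | rfl | rfl
    · refine all8 ?_ ?_ ?_ ?_ ?_ ?_ ?_ ?_ <;> intro hp <;>
        first | decide | (exfalso; unfold Par at hp; ev8; nlinarith)
    · refine all8 ?_ ?_ ?_ ?_ ?_ ?_ ?_ ?_ <;> intro hp <;>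
        first | decide | (exfalso; unfold Par at hp; ev8; nlinarith)
    · refine all8 ?_ ?_ ?_ ?_ ?_ ?_ ?_ ?_ <;> intro hp <;>
        first | decide | (exfalso; unfold Par at hp; ev8; nlinarith)
  · decide
  · intro i hi
    have h3 := zbg i hi
    rcases h3 with rfl | rfl | rfl
    · exact ⟨0, by decide, par00⟩
    · exact ⟨0, by decide, par06⟩
    · exact ⟨7, by decide, par77⟩
  · intro i hi j hj c hc h1 h2
    have h3 := zbg c hc
    have h4 := in07 i hi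
    have h5 := in07 j hj
    rcases h4 with rfl | rfl <;> rcases h5 with rfl | rfl
    · rfl
    · rcases h3 with rfl | rfl | rfl
      · exact absurd h2 n70
      · exact absurd h2 n76
      · exact absurd h1 n07
    · rcases h3 with rfl | rfl | rfl
      · exact absurd h1 n70
      · exact absurd h1 n76
      · exact absurd h2 n07
    · rfl

/-- **`κ`-tie and double tie** -/
theorem nz8_k (ht : t ≠ 0) (hθ : 0 < θ) (hθk : θ < k) (hk1 : k < 1) (hk2 : k ≠ 1 / 2)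
    (hb : θb = 2 * θ - k)
    {cp cm : ℝ} (hcp : 0 < cp) (hcm : 0 < cm) {lam : (Fin 12 → ℝ) → ℝ} {K own : ℝ}
    (hl : LamOk (L8 θ θb t) lam K own) {ρp ρm : Fin 8 → ℝ}
    (rp : Rates8 θ θb t oS 1 cp lam ρp) (rm : Rates8 θ θb t kD (-1) cm lam ρm) :
    (1 + k - 2 * θ) * (ρp 4 - ρm 4) ≤ ρm 0 + (k - θ) * ρm 6 - own := by
  have hk : 0 < k := by linarith
  have hm := sok_kD hθ hk hb
  have eA : (1 + k - 2 * θ) = 1 - θb := by rw [hb]; ring
  have A4 : nat8 1 (-θ) (-θb) 4 ≠ 0 := by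
    have : 0 < nat8 1 (-θ) (-θb) 4 := by ev8; linarith
    exact this.ne'
  have a4p : Aln (nat8 1 (-θ) (-θb)) oS 4 := by
    subst hb
    refine all8 ?_ ?_ ?_ ?_ ?_ ?_ ?_ ?_ <;> intro ht h <;> first | exact ht rfl | (ev8; linarith)
  have a4m : Aln (nat8 1 (-θ) (-θb)) kD 4 := by
    subst hb
    refine all8 ?_ ?_ ?_ ?_ ?_ ?_ ?_ ?_ <;> intro ht h <;> first | exact ht rfl | (ev8; linarith)
  have par07 : Par (nat8 1 (-θ) (-θb)) kD 0 7 := by
    unfold Par; ev8; rw [hb]; ring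
  have par00 : Par (nat8 1 (-θ) (-θb)) kD 0 0 := rfl
  have par66 : Par (nat8 1 (-θ) (-θb)) kD 6 6 := rfl
  have n06 : ¬ Par (nat8 1 (-θ) (-θb)) kD 0 6 := by
    unfold Par; intro h; ev8; linarith
  have n67 : ¬ Par (nat8 1 (-θ) (-θb)) kD 6 7 := by
    unfold Par; intro h; ev8; linarith
  have n60 : ¬ Par (nat8 1 (-θ) (-θb)) kD 6 0 := fun h => n06 h.symm'
  have key := nz8 (θa := θ) (θb := θb) (Z := ZBG) (Bp := oS) (Bm := kD) ht
    (sok_oS (by linarith) (by linarith)) hm leg_oS leg_kD hcp hcm hl (by decide) (by decide)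
    (by decide) (by decide) (by linarith) (by ev8; linarith) (by ev8; linarith) oS_zbg ?_ ?_
    leg_ZBG
    (Kz := 0) le_rfl (rp.alone 4 a4p A4) (rm.alone 4 a4m A4)
    (fun c l α x hl' hx hc hcZ hcn hcm' hn hmem => (zstep_of (rep := {0, 6}) hm rm ?_ ?_ ?_ ?_ ?_
      c l α x hx (fun i hi => hcZ i (Or.inl hi)) hmem).le)
  · have e := sum_pair (f := fun i => ρm i * nat8 1 (-θ) (-θb) i) (a := 0) (b := 6) (by decide)
    rw [e] at key
    have e0 : nat8 1 (-θ) (-θb) 0 = 1 := rfl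
    have e6 : nat8 1 (-θ) (-θb) 6 = k - θ := by ev8; rw [hb]; ring
    rw [e0, e6] at key
    rw [eA]
    linarith
  · subst hb
    refine all8 ?_ ?_ ?_ ?_ ?_ ?_ ?_ ?_ <;> intro hi <;>
      first | (exact absurd hi (by decide)) | (ev8; linarith)
  · subst hb
    refine all8 ?_ ?_ ?_ ?_ ?_ ?_ ?_ ?_ <;> intro hi hi4 <;>
      first | (exact absurd (by decide) hi) | (exact absurd rfl hi4) | (ev8; linarith)
  · subst hb
    refine all8 ?_ ?_ ?_ ?_ ?_ ?_ ?_ ?_ <;> intro hi <;>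
      first | (exact absurd hi (by decide)) | (ev8; linarith)
  · intro i hi
    have h3 := zbg i hi
    subst hb
    rcases h3 with rfl | rfl | rfl
    · refine all8 ?_ ?_ ?_ ?_ ?_ ?_ ?_ ?_ <;> intro hp <;>
        first | decide | (exfalso; unfold Par at hp; ev8; linarith)
    · refine all8 ?_ ?_ ?_ ?_ ?_ ?_ ?_ ?_ <;> intro hp <;>
        first | decide | (exfalso; unfold Par at hp; ev8; linarith) |
          (exfalso; unfold Par at hp; ev8; exact hk2 (by linarith))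
    · refine all8 ?_ ?_ ?_ ?_ ?_ ?_ ?_ ?_ <;> intro hp <;>
        first | decide | (exfalso; unfold Par at hp; ev8; nlinarith)
  · decide
  · intro i hi
    have h3 := zbg i hi
    rcases h3 with rfl | rfl | rfl
    · exact ⟨0, by decide, par00⟩
    · exact ⟨6, by decide, par66⟩
    · exact ⟨0, by decide, par07⟩
  · intro i hi j hj c hc h1 h2
    have h3 := zbg c hc
    have h4 := in06 i hi
    have h5 := in06 j hj
    rcases h4 with rfl | rfl <;> rcases h5 with rfl | rfl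
    · rfl
    · rcases h3 with rfl | rfl | rfl
      · exact absurd h2 n60
      · exact absurd h1 n06
      · exact absurd h2 n67
    · rcases h3 with rfl | rfl | rfl
      · exact absurd h1 n60
      · exact absurd h2 n06
      · exact absurd h1 n67
    · rfl

end Crest.Agent.R116.NZ90
end

-- ▼ part R116/NZ8_90
section

/-!
# R116, K-TEXT II-c: the `N`-`z` chain rule at the resonance `k = 1/2` of the `κ`-plane (helper90)

At `k = 1/2` the slots `H` and `B` are parallel on `kD`.  `kH` is the surface with `C_a`, `C_b`, `H`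
finer by `1/2`: there `B` is alone.
* `cl_pts`       : increments are smaller at finer points
* **`nz8_half`** : `(1 + k - 2 θ) (ρp N - ρm N) ≤ ρm z + (k - θ) ρh B - own`, `ρh` = rates on `kH`
* **`kH_le`**    : `ρh B * y ≤` any increment of `B` by `y` of a tangent at a point of `kD`
-/

set_option autoImplicit false
set_option linter.unusedVariables false
set_option linter.unusedSimpArgs false

open Set Filter Topology

namespace Crest.Agent.R116.NZ90

open Crest.Agent.R136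
open Crest.Agent.R138
open Dg219 (Walls mw Cone)
open Dg262 (SupOn)
open Sl741 (slice xt rs)
open RbK219 RbM219
open ChL222 (monL mfL)
open Tp139

/-- increments are smaller at finer points -/
theorem cl_pts {ι : Type*} {M : Set (ι → ℝ)} {lam : (ι → ℝ) → ℝ} (hs : SupOn lam M)
    {p q e : ι → ℝ} (hp : p ∈ M) (hq : q ∈ M) (hpe : p + e ∈ M) (hqe : q + e ∈ M) (hle : p ≤ q)
    (he : ∀ i, 0 ≤ e i) (heq : ∀ i, e i ≠ 0 → p i = q i) :
    lam q - lam (q + e) ≤ lam p - lam (p + e) := by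
  have e1 : (p + e) ⊔ q = q + e := by
    funext i
    simp only [Pi.sup_apply, Pi.add_apply]
    by_cases h : e i = 0
    · rw [h, add_zero, add_zero]; exact sup_eq_right.2 (hle i)
    · rw [heq i h]; exact sup_eq_left.2 (by linarith [he i])
  have e2 : (p + e) ⊓ q = p := by
    funext i
    simp only [Pi.inf_apply, Pi.add_apply]
    by_cases h : e i = 0
    · rw [h, add_zero]; exact inf_eq_left.2 (hle i)
    · rw [heq i h]; exact inf_eq_right.2 (by linarith [he i])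
  have h1 := hs (p + e) hpe q hq (by rw [e2]; exact hp) (by rw [e1]; exact hqe)
  rw [e1, e2] at h1
  linarith

variable {θ θb k t : ℝ}

theorem LamOk.sup8 {θa θb t : ℝ} {lam : (Fin 12 → ℝ) → ℝ} {K own : ℝ}
    (hl : LamOk (L8 θa θb t) lam K own) :
    SupOn (fun c => lam (xt kp 0 c)) (M8 θa θb t) := by
  intro p hp q hq h1 h2
  have e1 := hl.sup _ (mem_M8.1 hp) _ (mem_M8.1 hq) (by
    have := mem_M8.1 h1
    rwa [Sl741.xt_inf] at this) (by
    have := mem_M8.1 h2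
    rwa [Sl741.xt_sup] at this)
  simp only [Sl741.xt_sup, Sl741.xt_inf]
  exact e1

/-- the background vector: `0` on `z`, `B`, `G`, `N` -/
noncomputable abbrev v8 (t : ℝ) : K8 → ℝ := rmZ RL8 (Q8 t) ZBG 4

theorem v8_room (ht : t ≠ 0) {e : K8 → ℝ} (he0 : ∀ i, 0 ≤ e i) (he1 : ∀ i, e i ≤ 1) :
    v8 t + e ∈ M8 θ θb t := by
  have := (wout8 (θa := θ) (θb := θb) ht leg_ZBG).room he0 zero_le_one he1
  rwa [one_smul] at this

theorem v8_zero {i : K8} (hi : cl8 i.1 = 0 ∨ cl8 i.1 = 6 ∨ cl8 i.1 = 7 ∨ cl8 i.1 = 4) :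
    v8 t i = 0 := by
  unfold v8 rmZ
  rw [if_pos]
  rcases hi with h | h | h | h
  · left; change cl8 i.1 ∈ ZBG; rw [h]; decide
  · left; change cl8 i.1 ∈ ZBG; rw [h]; decide
  · left; change cl8 i.1 ∈ ZBG; rw [h]; decide
  · right; exact h

/-- points near a natural point of a surface -/
noncomputable abbrev pt8 (θ θb t : ℝ) (B : Fin 8 → ℝ) (l α ε : ℝ) : K8 → ℝ :=
  RL8.vec (l • B + α • nat8 1 (-θ) (-θb)) + ε • v8 t

theorem pt8_at {B : Fin 8 → ℝ} {l α ε : ℝ} {i : K8}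
    (hi : cl8 i.1 = 0 ∨ cl8 i.1 = 6 ∨ cl8 i.1 = 7 ∨ cl8 i.1 = 4) :
    pt8 θ θb t B l α ε i = l * B (cl8 i.1) + α * nat8 1 (-θ) (-θb) (cl8 i.1) := by
  unfold pt8
  rw [Pi.add_apply, Pi.smul_apply, v8_zero hi]
  simp only [RS.vec, RL8, Pi.add_apply, Pi.smul_apply, smul_eq_mul]
  ring

theorem cone8 : Cone (M8 θ θb t) := Walls.cone

theorem vec_mem8 (ht : t ≠ 0) {B : Fin 8 → ℝ} (hB : Leg8 B) {l α : ℝ} (hl : 0 ≤ l) :
    RL8.vec (l • B + α • nat8 1 (-θ) (-θb)) ∈ M8 θ θb t := by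
  rw [RS.vec_add, RS.vec_smul, RS.vec_smul]
  exact cone8.add _ (cone8.smul _ (RL8_mem ht hB) l hl) _ (neg_vecA_mem α)

theorem pt8_mem (ht : t ≠ 0) {B : Fin 8 → ℝ} (hB : Leg8 B) {l α ε : ℝ} (hl : 0 ≤ l) (hε : 0 ≤ ε)
    {e : K8 → ℝ} (he0 : ∀ i, 0 ≤ e i) (he1 : ∀ i, e i ≤ 1) :
    pt8 θ θb t B l α ε + ε • e ∈ M8 θ θb t := by
  have h1 := cone8.add _ (vec_mem8 (θ := θ) (θb := θb) ht hB hl (α := α)) _
    (cone8.smul _ (v8_room (θ := θ) (θb := θb) ht he0 he1) ε hε)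
  rwa [smul_add, ← add_assoc] at h1

theorem pt8_win (ht : t ≠ 0) {B : Fin 8 → ℝ} {sg : ℝ} (hS : SOk (nat8 1 (-θ) (-θb)) B sg)
    {c0 : ℝ} {l α ε : ℝ} (hl : 0 ≤ l) (hε : 0 ≤ ε) (hb : ε * (‖v8 t‖ + 1) ≤ c0 * l)
    {e : K8 → ℝ} (he0 : ∀ i, 0 ≤ e i) (he1 : ∀ i, e i ≤ 1) :
    pt8 θ θb t B l α ε + ε • e ∈ (srf8 θ θb t B sg).LW (Q8 t) c0 := by
  have h1 := hS.memLW (R := RL8) (y0 := rs kp (y8 t)) (Q := Q8 t) (c0 := c0) (α := α) hl
    (c := ε • (v8 t + e))
    (L_sub (cone8.smul _ (v8_room (θ := θ) (θb := θb) ht he0 he1) ε hε)) (by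
      have h2 : ‖e‖ ≤ 1 := by
        rw [pi_norm_le_iff_of_nonneg zero_le_one]
        intro i
        rw [Real.norm_eq_abs, abs_of_nonneg (he0 i)]
        exact he1 i
      rw [norm_smul, Real.norm_of_nonneg hε]
      refine le_trans (mul_le_mul_of_nonneg_left ?_ hε) hb
      linarith [norm_add_le (v8 t) e])
  rwa [smul_add, ← add_assoc] at h1

theorem pt8_le {B₁ B₂ : Fin 8 → ℝ} {l₁ α₁ l₂ α₂ ε : ℝ}
    (h : ∀ i, l₁ * B₁ i + α₁ * nat8 1 (-θ) (-θb) i ≤ l₂ * B₂ i + α₂ * nat8 1 (-θ) (-θb) i) :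
    pt8 θ θb t B₁ l₁ α₁ ε ≤ pt8 θ θb t B₂ l₂ α₂ ε := by
  intro i
  have h1 := h (cl8 i.1)
  unfold pt8
  simp only [RS.vec, RL8, Pi.add_apply, Pi.smul_apply, smul_eq_mul]
  linarith

/-! ### the surface `kH` -/

/-- `kD` with `C_a`, `C_b`, `H` finer by `1/2` -/
noncomputable def kH : Fin 8 → ℝ := ![0, -1/2, -3/2, -1, -2, -3/2, -1, 0]

theorem h0 : kH 0 = 0 := rfl
theorem h1 : kH 1 = -1/2 := rfl
theorem h2 : kH 2 = -3/2 := rfl
theorem h3 : kH 3 = -1 := rfl
theorem h4 : kH 4 = -2 := rfl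
theorem h5 : kH 5 = -3/2 := rfl
theorem h6 : kH 6 = -1 := rfl
theorem h7 : kH 7 = 0 := rfl

/-- evaluate all entries -/
macro "evH" : tactic => `(tactic| simp only [h0, h1, h2, h3, h4, h5, h6, h7, kU, kD, n0, n1, n2, n3,
  n4, n5, n6, n7, s0, s1, s2, s3, s4, s5, s6, s7] at *)

theorem sok_kH (hk : 0 < k) (hb : θb = 2 * θ - k) : SOk (nat8 1 (-θ) (-θb)) kH (-1) where
  sg1 := Or.inr rfl
  nn := by refine all8 ?_ ?_ ?_ ?_ ?_ ?_ ?_ ?_ <;> evH <;> norm_num
  zero := by refine all8 ?_ ?_ ?_ ?_ ?_ ?_ ?_ ?_ <;> intro h <;> evH <;> linarith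

theorem leg_kH : Leg8 kH := by constructor <;> evH <;> norm_num

theorem aln_kH4 (hθ : 0 < θ) (hθ2 : θ < 1 / 2) (hb : θb = 2 * θ - 1 / 2) :
    Aln (nat8 1 (-θ) (-θb)) kH 4 := by
  subst hb
  refine all8 ?_ ?_ ?_ ?_ ?_ ?_ ?_ ?_ <;> intro ht h <;> first | exact ht rfl | (evH; linarith)

theorem aln_kH6 (hθ : 0 < θ) (hθ2 : θ < 1 / 2) (hb : θb = 2 * θ - 1 / 2) :
    Aln (nat8 1 (-θ) (-θb)) kH 6 := by
  subst hb
  refine all8 ?_ ?_ ?_ ?_ ?_ ?_ ?_ ?_ <;> intro ht h <;> first | exact ht rfl | (evH; linarith)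

theorem cls07 {B : Fin 8 → ℝ} (h0 : B 0 = 0) (h7 : B 7 = 0) (hθb : 0 < 2 * θ - θb)
    (hB : ∀ i, i ≠ 0 → i ≠ 7 → B i ≠ 0) :
    ∀ i ∈ ({0, 7} : Finset (Fin 8)), ∀ j, Par (nat8 1 (-θ) (-θb)) B i j →
      j ∈ ({0, 7} : Finset (Fin 8)) := by
  intro i hi j hp
  by_contra hj
  have hj' : j ≠ 0 ∧ j ≠ 7 := by
    constructor
    · rintro rfl; exact hj (by decide)
    · rintro rfl; exact hj (by decide)
  have h1 := hB j hj'.1 hj'.2
  unfold Par at hp
  rcases in07 i hi with rfl | rfl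
  · rw [h0, mul_zero] at hp
    have : nat8 1 (-θ) (-θb) 0 ≠ 0 := by evH; norm_num
    exact (mul_ne_zero this h1) hp
  · rw [h7, mul_zero] at hp
    have : nat8 1 (-θ) (-θb) 7 ≠ 0 := by evH; linarith
    exact (mul_ne_zero this h1) hp

/-- the class `{z, G}` -/
theorem step07 {B : Fin 8 → ℝ} (hS : SOk (nat8 1 (-θ) (-θb)) B (-1)) (h0 : B 0 = 0) (h7 : B 7 = 0)
    (hθb : 0 < 2 * θ - θb) (hB : ∀ i, i ≠ 0 → i ≠ 7 → B i ≠ 0) {lam : (Fin 12 → ℝ) → ℝ} {cm : ℝ}
    {ρ : Fin 8 → ℝ} (rm : Rates8 θ θb t B (-1) cm lam ρ) {c : K8 → ℝ} {l α x : ℝ} (hx : 0 ≤ x)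
    (hc : ∀ i, RL8.cls i ∈ ({0, 7} : Finset (Fin 8)) → c i = 0)
    (hmem : ∀ Z' : Finset (Fin 8), Z' ⊆ {0, 7} → RL8.vec (l • B + α • nat8 1 (-θ) (-θb)) + c +
      x • eZ RL8 (nat8 1 (-θ) (-θb)) Z' ∈ (srf8 θ θb t B (-1)).LW (Q8 t) cm) :
    lam (xt kp 0 (RL8.vec (l • B + α • nat8 1 (-θ) (-θb)) + c)) -
      lam (xt kp 0 (RL8.vec (l • B + α • nat8 1 (-θ) (-θb)) + c +
        x • eZ RL8 (nat8 1 (-θ) (-θb)) {0, 7})) = ρ 0 * x := by
  have p07 : Par (nat8 1 (-θ) (-θb)) B 0 7 := by unfold Par; rw [h0, h7]; ring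
  have key := zstep_of (rep := {0}) hS rm (Z := {0, 7}) ?_ (cls07 h0 h7 hθb hB) (by decide) ?_ ?_
    c l α x hx hc hmem
  · rw [Finset.sum_singleton] at key
    rw [key]
    have : nat8 1 (-θ) (-θb) 0 = 1 := rfl
    rw [this]; ring
  · intro i hi
    rcases in07 i hi with rfl | rfl
    · evH; norm_num
    · evH; linarith
  · intro i hi
    refine ⟨0, by decide, ?_⟩
    rcases in07 i hi with rfl | rfl
    · exact rfl
    · exact p07
  · intro i hi j hj _ _ _ _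
    rw [Finset.mem_singleton] at hi hj
    rw [hi, hj]

/-- **the chain rule on `kH`** -/
theorem nz8_kH (ht : t ≠ 0) (hθ : 0 < θ) (hθ2 : θ < 1 / 2) (hb : θb = 2 * θ - 1 / 2)
    {cp cm : ℝ} (hcp : 0 < cp) (hcm : 0 < cm) {lam : (Fin 12 → ℝ) → ℝ} {K own : ℝ}
    (hl : LamOk (L8 θ θb t) lam K own) {ρp ρm : Fin 8 → ℝ}
    (rp : Rates8 θ θb t oS 1 cp lam ρp) (rm : Rates8 θ θb t kH (-1) cm lam ρm) :
    (3 / 2 - 2 * θ) * (ρp 4 - ρm 4) ≤ ρm 0 + (1 / 2 - θ) * ρm 6 - own := by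
  have hm := sok_kH (k := 1 / 2) (by norm_num) hb
  have eA : (3 / 2 - 2 * θ) = 1 - θb := by rw [hb]; ring
  have A4 : nat8 1 (-θ) (-θb) 4 ≠ 0 := by
    have : 0 < nat8 1 (-θ) (-θb) 4 := by evH; linarith
    exact this.ne'
  have a4p : Aln (nat8 1 (-θ) (-θb)) oS 4 := by
    subst hb
    refine all8 ?_ ?_ ?_ ?_ ?_ ?_ ?_ ?_ <;> intro ht h <;> first | exact ht rfl | (evH; linarith)
  have par07 : Par (nat8 1 (-θ) (-θb)) kH 0 7 := by
    unfold Par; evH; rw [hb]; ring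
  have par00 : Par (nat8 1 (-θ) (-θb)) kH 0 0 := rfl
  have par66 : Par (nat8 1 (-θ) (-θb)) kH 6 6 := rfl
  have n06 : ¬ Par (nat8 1 (-θ) (-θb)) kH 0 6 := by
    unfold Par; intro h; evH; linarith
  have n67 : ¬ Par (nat8 1 (-θ) (-θb)) kH 6 7 := by
    unfold Par; intro h; evH; linarith
  have n60 : ¬ Par (nat8 1 (-θ) (-θb)) kH 6 0 := fun h => n06 h.symm'
  have key := nz8 (θa := θ) (θb := θb) (Z := ZBG) (Bp := oS) (Bm := kH) ht
    (sok_oS (by linarith) (by linarith)) hm leg_oS leg_kH hcp hcm hl (by decide) (by decide)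
    (by decide) (by decide) (by linarith) (by evH; linarith) (by evH; linarith) oS_zbg ?_ ?_
    leg_ZBG
    (Kz := 0) le_rfl (rp.alone 4 a4p A4) (rm.alone 4 (aln_kH4 hθ hθ2 hb) A4)
    (fun c l α x hl' hx hc hcZ hcn hcm' hn hmem => (zstep_of (rep := {0, 6}) hm rm ?_ ?_ ?_ ?_ ?_
      c l α x hx (fun i hi => hcZ i (Or.inl hi)) hmem).le)
  · have e := sum_pair (f := fun i => ρm i * nat8 1 (-θ) (-θb) i) (a := 0) (b := 6) (by decide)
    rw [e] at key
    have e0 : nat8 1 (-θ) (-θb) 0 = 1 := rfl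
    have e6 : nat8 1 (-θ) (-θb) 6 = 1 / 2 - θ := by evH; rw [hb]; ring
    rw [e0, e6] at key
    rw [eA]
    linarith
  · subst hb
    refine all8 ?_ ?_ ?_ ?_ ?_ ?_ ?_ ?_ <;> intro hi <;>
      first | (exact absurd hi (by decide)) | (evH; linarith)
  · subst hb
    refine all8 ?_ ?_ ?_ ?_ ?_ ?_ ?_ ?_ <;> intro hi hi4 <;>
      first | (exact absurd (by decide) hi) | (exact absurd rfl hi4) | (evH; linarith)
  · subst hb
    refine all8 ?_ ?_ ?_ ?_ ?_ ?_ ?_ ?_ <;> intro hi <;>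
      first | (exact absurd hi (by decide)) | (evH; linarith)
  · intro i hi
    have h3 := zbg i hi
    subst hb
    rcases h3 with rfl | rfl | rfl
    · refine all8 ?_ ?_ ?_ ?_ ?_ ?_ ?_ ?_ <;> intro hp <;>
        first | decide | (exfalso; unfold Par at hp; evH; linarith)
    · refine all8 ?_ ?_ ?_ ?_ ?_ ?_ ?_ ?_ <;> intro hp <;>
        first | decide | (exfalso; unfold Par at hp; evH; linarith)
    · refine all8 ?_ ?_ ?_ ?_ ?_ ?_ ?_ ?_ <;> intro hp <;>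
        first | decide | (exfalso; unfold Par at hp; evH; linarith)
  · decide
  · intro i hi
    have h3 := zbg i hi
    rcases h3 with rfl | rfl | rfl
    · exact ⟨0, by decide, par00⟩
    · exact ⟨6, by decide, par66⟩
    · exact ⟨0, by decide, par07⟩
  · intro i hi j hj c hc h1 h2
    have h3 := zbg c hc
    have h4 := in06 i hi
    have h5 := in06 j hj
    rcases h4 with rfl | rfl <;> rcases h5 with rfl | rfl
    · rfl
    · rcases h3 with rfl | rfl | rfl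
      · exact absurd h2 n60
      · exact absurd h1 n06
      · exact absurd h2 n67
    · rcases h3 with rfl | rfl | rfl
      · exact absurd h1 n60
      · exact absurd h2 n06
      · exact absurd h1 n67
    · rfl

theorem aln_kD4 (hθ : 0 < θ) (hk : 0 < k) (hk1 : k < 1) (hb : θb = 2 * θ - k) :
    Aln (nat8 1 (-θ) (-θb)) kD 4 := by
  subst hb
  refine all8 ?_ ?_ ?_ ?_ ?_ ?_ ?_ ?_ <;> intro ht h <;> first | exact ht rfl | (evH; linarith)

theorem e8_nn (s : Fin 8) (i : K8) : 0 ≤ RL8.e s i := RL8.e_nonneg s i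

theorem e8_le (s : Fin 8) (i : K8) : RL8.e s i ≤ 1 := by
  unfold RS.e
  split_ifs
  · exact le_rfl
  · exact zero_le_one

theorem eZ07_nn (hθb : 0 ≤ 2 * θ - θb) (Z' : Finset (Fin 8)) (h : Z' ⊆ {0, 7}) (i : K8) :
    0 ≤ eZ RL8 (nat8 1 (-θ) (-θb)) Z' i := by
  refine eZ_nonneg (fun s hs => ?_) i
  rcases in07 s (h hs) with rfl | rfl
  · evH; norm_num
  · evH; linarith

theorem eZ07_le (h0 : 2 * θ - θb ≤ 1) (Z' : Finset (Fin 8)) (h : Z' ⊆ {0, 7}) (i : K8) :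
    eZ RL8 (nat8 1 (-θ) (-θb)) Z' i ≤ 1 := by
  unfold eZ
  split_ifs with hi
  · have h1 := in07 _ (h hi)
    change 1 * nat8 1 (-θ) (-θb) (cl8 i.1) ≤ 1
    change cl8 i.1 = 0 ∨ cl8 i.1 = 7 at h1
    rcases h1 with h1 | h1 <;> rw [h1] <;> evH <;> linarith
  · exact zero_le_one

/-- one increment on two surfaces -/
theorem cl8_gen (ht : t ≠ 0) {B₁ B₂ : Fin 8 → ℝ} {sg₁ sg₂ : ℝ}
    (S₁ : SOk (nat8 1 (-θ) (-θb)) B₁ sg₁) (S₂ : SOk (nat8 1 (-θ) (-θb)) B₂ sg₂)
    (L₁ : Leg8 B₁) (L₂ : Leg8 B₂) {lam : (Fin 12 → ℝ) → ℝ} {K own : ℝ}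
    (hl : LamOk (L8 θ θb t) lam K own) {c₁ c₂ l₁ l₂ α₁ α₂ : ℝ} (hc₁ : 0 < c₁) (hc₂ : 0 < c₂)
    (hl₁ : 0 < l₁) (hl₂ : 0 < l₂)
    (hle : ∀ i, l₁ * B₁ i + α₁ * nat8 1 (-θ) (-θb) i ≤ l₂ * B₂ i + α₂ * nat8 1 (-θ) (-θb) i)
    {e : K8 → ℝ} (he0 : ∀ i, 0 ≤ e i) (he1 : ∀ i, e i ≤ 1)
    (heq : ∀ i : K8, e i ≠ 0 → (cl8 i.1 = 0 ∨ cl8 i.1 = 6 ∨ cl8 i.1 = 7 ∨ cl8 i.1 = 4) ∧
      l₁ * B₁ (cl8 i.1) + α₁ * nat8 1 (-θ) (-θb) (cl8 i.1) =
        l₂ * B₂ (cl8 i.1) + α₂ * nat8 1 (-θ) (-θb) (cl8 i.1)) {r₁ r₂ : ℝ}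
    (H₁ : ∀ ε, 0 < ε → ε * (‖v8 t‖ + 1) ≤ c₁ * l₁ →
      lam (xt kp 0 (pt8 θ θb t B₁ l₁ α₁ ε)) - lam (xt kp 0 (pt8 θ θb t B₁ l₁ α₁ ε + ε • e)) ≤
        r₁ * ε)
    (H₂ : ∀ ε, 0 < ε → ε * (‖v8 t‖ + 1) ≤ c₂ * l₂ →
      r₂ * ε ≤
        lam (xt kp 0 (pt8 θ θb t B₂ l₂ α₂ ε)) - lam (xt kp 0 (pt8 θ θb t B₂ l₂ α₂ ε + ε • e))) :
    r₂ ≤ r₁ := by
  have hN : 0 < ‖v8 t‖ + 1 := by positivity
  obtain ⟨ε, hε⟩ : ∃ ε : ℝ, ε = min (c₁ * l₁) (c₂ * l₂) / (‖v8 t‖ + 1) := ⟨_, rfl⟩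
  have hε0 : 0 < ε := by rw [hε]; exact div_pos (lt_min (mul_pos hc₁ hl₁) (mul_pos hc₂ hl₂)) hN
  have e1 : ε * (‖v8 t‖ + 1) ≤ c₁ * l₁ := by
    rw [hε, div_mul_cancel₀ _ hN.ne']; exact min_le_left _ _
  have e2 : ε * (‖v8 t‖ + 1) ≤ c₂ * l₂ := by
    rw [hε, div_mul_cancel₀ _ hN.ne']; exact min_le_right _ _
  have z0 : ∀ i : K8, (0 : ℝ) ≤ (0 : K8 → ℝ) i := fun _ => le_rfl
  have z1 : ∀ i : K8, (0 : K8 → ℝ) i ≤ (1 : ℝ) := fun _ => zero_le_one
  have m1 := pt8_mem (θ := θ) (θb := θb) (α := α₁) ht L₁ hl₁.le hε0.le z0 z1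
  have m2 := pt8_mem (θ := θ) (θb := θb) (α := α₂) ht L₂ hl₂.le hε0.le z0 z1
  rw [smul_zero, add_zero] at m1 m2
  have key := cl_pts hl.sup8 m1 m2 (pt8_mem ht L₁ hl₁.le hε0.le he0 he1)
    (pt8_mem ht L₂ hl₂.le hε0.le he0 he1) (pt8_le hle)
    (fun i => mul_nonneg hε0.le (he0 i)) (fun i hi => by
      have h3 : e i ≠ 0 := fun h => hi (by rw [Pi.smul_apply, h, smul_zero])
      obtain ⟨a, b⟩ := heq i h3
      rw [pt8_at a, pt8_at a, b])
  have k1 := H₁ ε hε0 e1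
  have k2 := H₂ ε hε0 e2
  have k3 : r₂ * ε ≤ r₁ * ε := k2.trans (key.trans k1)
  exact le_of_mul_le_mul_right k3 hε0

/-- rate of an alone slot of `{N, B}` at the points `pt8` -/
theorem alone8 (ht : t ≠ 0) {B : Fin 8 → ℝ} {sg : ℝ} (hS : SOk (nat8 1 (-θ) (-θb)) B sg)
    {lam : (Fin 12 → ℝ) → ℝ} {c0 : ℝ} {ρ : Fin 8 → ℝ} (r : Rates8 θ θb t B sg c0 lam ρ)
    {s : Fin 8} (hs : s = 4 ∨ s = 6) (ha : Aln (nat8 1 (-θ) (-θb)) B s)
    (hA : nat8 1 (-θ) (-θb) s ≠ 0) {l α ε x : ℝ} (hl : 0 ≤ l) (hε : 0 ≤ ε)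
    (hb : ε * (‖v8 t‖ + 1) ≤ c0 * l) (hx0 : 0 ≤ x) (hx : x ≤ ε) :
    lam (xt kp 0 (pt8 θ θb t B l α ε)) - lam (xt kp 0 (pt8 θ θb t B l α ε + x • RL8.e s)) =
      ρ s * x := by
  have z0 : ∀ i : K8, (0 : ℝ) ≤ (0 : K8 → ℝ) i := fun _ => le_rfl
  have z1 : ∀ i : K8, (0 : K8 → ℝ) i ≤ (1 : ℝ) := fun _ => zero_le_one
  have m1 := pt8_win (θ := θ) (θb := θb) (α := α) ht hS hl hε hb z0 z1
  rw [smul_zero, add_zero] at m1
  have m2 : pt8 θ θb t B l α ε + x • RL8.e s ∈ (srf8 θ θb t B sg).LW (Q8 t) c0 := by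
    rcases hε.eq_or_lt with h | h
    · have hx' : x = 0 := le_antisymm (hx.trans h.symm.le) hx0
      rw [hx', zero_smul, add_zero]; exact m1
    · have h3 := pt8_win (θ := θ) (θb := θb) (α := α) ht hS hl hε hb
        (e := (x / ε) • RL8.e s)
        (fun i => mul_nonneg (div_nonneg hx0 hε) (e8_nn s i))
        (fun i => mul_le_one₀ ((div_le_one h).2 hx) (e8_nn s i) (e8_le s i))
      rwa [smul_smul, mul_div_cancel₀ _ h.ne'] at h3
  refine r.alone s ha hA _ (l * B s + α * nat8 1 (-θ) (-θb) s) x (fun i hi => ?_) m1 m2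
  have hi' : cl8 i.1 = s := hi
  rw [pt8_at (by rcases hs with h | h <;> rw [h] at hi' <;> simp [hi']), hi']
  change _ = 1 * _
  ring

/-- **the chain rule at the resonance** -/
theorem nz8_half (ht : t ≠ 0) (hθ : 0 < θ) (hθk : θ < k) (hk : k = 1 / 2) (hb : θb = 2 * θ - k)
    {cp cm ch : ℝ} (hcp : 0 < cp) (hcm : 0 < cm) (hch : 0 < ch) {lam : (Fin 12 → ℝ) → ℝ}
    {K own : ℝ} (hl : LamOk (L8 θ θb t) lam K own) {ρp ρm ρh : Fin 8 → ℝ}
    (rp : Rates8 θ θb t oS 1 cp lam ρp) (rm : Rates8 θ θb t kD (-1) cm lam ρm)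
    (rh : Rates8 θ θb t kH (-1) ch lam ρh) :
    (1 + k - 2 * θ) * (ρp 4 - ρm 4) ≤ ρm 0 + (k - θ) * ρh 6 - own := by
  have hk0 : 0 < k := by rw [hk]; norm_num
  have key := nz8_kH ht hθ (by linarith) (by rw [hb, hk]) hcp hch hl rp rh
  have S₁ := sok_kD hθ hk0 hb
  have S₂ := sok_kH hk0 hb
  have hle : ∀ i, (1:ℝ) * kD i + 0 * nat8 1 (-θ) (-θb) i ≤ 1 * kH i + 0 * nat8 1 (-θ) (-θb) i := by
    refine all8 ?_ ?_ ?_ ?_ ?_ ?_ ?_ ?_ <;> evH <;> norm_num
  have A4 : nat8 1 (-θ) (-θb) 4 ≠ 0 := by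
    have : 0 < nat8 1 (-θ) (-θb) 4 := by evH; linarith
    exact this.ne'
  have k4 : ρh 4 ≤ ρm 4 := by
    refine cl8_gen ht S₁ S₂ leg_kD leg_kH hl hcm hch one_pos one_pos hle (e := RL8.e 4)
      (e8_nn 4) (e8_le 4) (fun i hi => ?_) (fun ε h1 h2 => ?_) (fun ε h1 h2 => ?_)
    · have h3 : cl8 i.1 = 4 := by
        by_contra h
        exact hi (mem_e_zero h)
      rw [h3]
      refine ⟨Or.inr (Or.inr (Or.inr rfl)), ?_⟩
      evH
      ring
    · exact (alone8 ht S₁ rm (Or.inl rfl) (aln_kD4 hθ hk0 (by linarith) hb) A4 zero_le_one h1.le h2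
        h1.le le_rfl).le
    · exact (alone8 ht S₂ rh (Or.inl rfl) (aln_kH4 hθ (by linarith) (by rw [hb, hk])) A4
        zero_le_one h1.le h2 h1.le le_rfl).ge
  have hbb : 2 * θ - θb = 1 / 2 := by rw [hb, hk]; ring
  have k0 : ρh 0 ≤ ρm 0 := by
    refine cl8_gen ht S₁ S₂ leg_kD leg_kH hl hcm hch one_pos one_pos hle
      (e := eZ RL8 (nat8 1 (-θ) (-θb)) {0, 7})
      (eZ07_nn (by rw [hbb]; norm_num) _ (Finset.Subset.refl _))
      (eZ07_le (by rw [hbb]; norm_num) _ (Finset.Subset.refl _))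
      (fun i hi => ?_) (fun ε h1 h2 => ?_) (fun ε h1 h2 => ?_)
    · have h3 : cl8 i.1 = 0 ∨ cl8 i.1 = 7 := by
        by_contra h
        refine hi ?_
        unfold eZ
        rw [if_neg]
        intro h'
        exact h (in07 _ h')
      rcases h3 with h3 | h3 <;> rw [h3]
      · refine ⟨Or.inl rfl, ?_⟩; evH
      · refine ⟨Or.inr (Or.inr (Or.inl rfl)), ?_⟩; evH; ring
    · refine (step07 S₁ (by evH) (by evH; ring) (by rw [hbb]; norm_num) ?_ rm h1.le (c := ε • v8 t)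
        (fun i hi => ?_) fun Z' hZ' => ?_).le
      · refine all8 ?_ ?_ ?_ ?_ ?_ ?_ ?_ ?_ <;> intro a b <;>
          first | exact absurd rfl a | exact absurd rfl b | (evH; norm_num)
      · rw [Pi.smul_apply, v8_zero (by
          rcases in07 _ hi with h | h
          · exact Or.inl h
          · exact Or.inr (Or.inr (Or.inl h))), smul_zero]
      · exact pt8_win ht S₁ zero_le_one h1.le h2 (eZ07_nn (by rw [hbb]; norm_num) _ hZ')
          (eZ07_le (by rw [hbb]; norm_num) _ hZ')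
    · refine (step07 S₂ rfl rfl (by rw [hbb]; norm_num) ?_ rh h1.le (c := ε • v8 t)
        (fun i hi => ?_) fun Z' hZ' => ?_).ge
      · refine all8 ?_ ?_ ?_ ?_ ?_ ?_ ?_ ?_ <;> intro a b <;>
          first | exact absurd rfl a | exact absurd rfl b | (evH; norm_num)
      · rw [Pi.smul_apply, v8_zero (by
          rcases in07 _ hi with h | h
          · exact Or.inl h
          · exact Or.inr (Or.inr (Or.inl h))), smul_zero]
      · exact pt8_win ht S₂ zero_le_one h1.le h2 (eZ07_nn (by rw [hbb]; norm_num) _ hZ')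
          (eZ07_le (by rw [hbb]; norm_num) _ hZ')
  have h5 : (1 + k - 2 * θ) = 3 / 2 - 2 * θ := by rw [hk]; ring
  have h6 : (k - θ) = 1 / 2 - θ := by rw [hk]
  rw [h5, h6]
  have h7 : (3 / 2 - 2 * θ) * (ρp 4 - ρm 4) ≤ (3 / 2 - 2 * θ) * (ρp 4 - ρh 4) :=
    mul_le_mul_of_nonneg_left (by linarith) (by linarith)
  linarith

/-- the comparison point on `kH` is finer -/
theorem kH_cl {l α h C b : ℝ} (hθ : 0 < θ) (hθ2 : θ < 1 / 2) (hh : 0 < h) (hC : 1 ≤ C)
    (bl : -C ≤ b) (bu : b ≤ C) (hs : h * (200 * C) < l) : ∀ j : Fin 8, j ≠ 6 → ∀ x : ℝ, x ≤ C →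
      l * kD j + α * nat8 1 (-θ) (-(2 * θ - 1 / 2)) j + h * x ≤
        (l + h * (20 * C * (1 / 2 - θ) - b)) * kH j +
          (α + h * (20 * C)) * nat8 1 (-θ) (-(2 * θ - 1 / 2)) j := by
  have g0 : 0 < h * C := mul_pos hh (by linarith)
  have g1 : 0 ≤ h * C * θ := mul_nonneg g0.le hθ.le
  have g2 : h * C * θ ≤ h * C * (1 / 2) := mul_le_mul_of_nonneg_left hθ2.le g0.le
  have g3 : h * b ≤ h * C := mul_le_mul_of_nonneg_left bu hh.le
  have g4 : -(h * C) ≤ h * b := by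
    have := mul_le_mul_of_nonneg_left bl hh.le
    linarith
  refine all8 ?_ ?_ ?_ ?_ ?_ ?_ ?_ ?_ <;> intro hj x hx <;>
    have g6 : h * x ≤ h * C := mul_le_mul_of_nonneg_left hx hh.le <;>
    first | exact absurd rfl hj | (evH; linarith)

/-- **increments of `B` of a tangent at a point of `kD`** -/
theorem kH_le (ht : t ≠ 0) (hθ : 0 < θ) (hθk : θ < k) (hk : k = 1 / 2) (hb : θb = 2 * θ - k)
    {ch : ℝ} (hch : 0 < ch) {lam : (Fin 12 → ℝ) → ℝ} {K own : ℝ}
    (hl : LamOk (L8 θ θb t) lam K own) {ρh : Fin 8 → ℝ}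
    (rh : Rates8 θ θb t kH (-1) ch lam ρh) {l α : ℝ} (hl0 : 0 < l) {D : Set (K8 → ℝ)}
    {h : ℕ → ℝ} (hpos : ∀ m, 0 < h m) (hlim : Tendsto h atTop (𝓝 0)) {lam2 : (K8 → ℝ) → ℝ}
    (htan : Ex926.IsTan (M8 θ θb t) D (fun c => lam (xt kp 0 c))
      (fun _ => RL8.vec (l • kD + α • nat8 1 (-θ) (-θb))) h lam2)
    {c : K8 → ℝ} {b y : ℝ} (hcb : ∀ i : K8, cl8 i.1 = 6 → c i = b) (hy : 0 ≤ y) (hc : c ∈ D)
    (hc' : c + y • RL8.e 6 ∈ D) : ρh 6 * y ≤ lam2 c - lam2 (c + y • RL8.e 6) := by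
  have hk0 : 0 < k := by rw [hk]; norm_num
  have hbk : θb = 2 * θ - 1 / 2 := by rw [hb, hk]
  have hθ2 : θ < 1 / 2 := by linarith
  have S₂ := sok_kH hk0 hb
  have A6 : nat8 1 (-θ) (-θb) 6 ≠ 0 := by
    have : 0 < nat8 1 (-θ) (-θb) 6 := by evH; linarith
    exact this.ne'
  -- constants
  obtain ⟨C, hC⟩ : ∃ C : ℝ, C = ‖c‖ + ‖c + y • RL8.e 6‖ + |b| + 1 := ⟨_, rfl⟩
  have hC1 : 1 ≤ C := by
    rw [hC]; linarith [norm_nonneg c, norm_nonneg (c + y • RL8.e 6), abs_nonneg b]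
  have hcC : ‖c‖ ≤ C := by
    rw [hC]; linarith [norm_nonneg (c + y • RL8.e 6), abs_nonneg b]
  have hcC' : ‖c + y • RL8.e 6‖ ≤ C := by
    rw [hC]; linarith [norm_nonneg c, abs_nonneg b]
  have hbC : |b| ≤ C := by
    rw [hC]; linarith [norm_nonneg c, norm_nonneg (c + y • RL8.e 6)]
  obtain ⟨bl, bu⟩ := abs_le.1 hbC
  obtain ⟨M, hM⟩ : ∃ M : ℝ, M = 20 * C := ⟨_, rfl⟩
  obtain ⟨m6, hm6⟩ : ∃ m6 : ℝ, m6 = M * (1 / 2 - θ) - b := ⟨_, rfl⟩
  have hm6l : |m6| ≤ 20 * C := by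
    rw [hm6, hM, abs_le]
    constructor
    · have : 0 ≤ 20 * C * (1 / 2 - θ) := by
        apply mul_nonneg <;> linarith
      linarith
    · have : 20 * C * (1 / 2 - θ) ≤ 20 * C * (1 / 2) :=
        mul_le_mul_of_nonneg_left (by linarith) (by linarith)
      linarith
  obtain ⟨ml, mu⟩ := abs_le.1 hm6l
  refine le_of_forall_pos_le_add fun ε hε => ?_
  have ev1 := htan C (ε / 2) (by linarith)
  have ev2 : ∀ᶠ m in atTop, h m < l / (200 * C) :=
    hlim.eventually_lt_const (by positivity)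
  have ev3 : ∀ᶠ m in atTop, h m < ch * l / (2 * ((y + 1) * (‖v8 t‖ + 1))) :=
    hlim.eventually_lt_const (by positivity)
  obtain ⟨m, e1, e2, e3⟩ := (ev1.and (ev2.and ev3)).exists
  have hm0 := hpos m
  obtain ⟨p1, q1⟩ := e1 c hc hcC
  obtain ⟨p2, q2⟩ := e1 _ hc' hcC'
  have hsm : h m * (200 * C) < l := by
    rwa [lt_div_iff₀ (by positivity)] at e2
  -- the comparison point
  have hl' : l / 2 ≤ l + h m * m6 := by
    have : -(h m * (20 * C)) ≤ h m * m6 := by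
      have := mul_le_mul_of_nonneg_left ml hm0.le
      linarith
    nlinarith
  have hl'0 : 0 < l + h m * m6 := by linarith
  have hv : 0 < ‖v8 t‖ + 1 := by positivity
  have hwin : h m * y * (‖v8 t‖ + 1) ≤ ch * (l + h m * m6) := by
    have h3 : h m * (2 * ((y + 1) * (‖v8 t‖ + 1))) < ch * l := by
      rwa [lt_div_iff₀ (by positivity)] at e3
    have h4 : ch * (l / 2) ≤ ch * (l + h m * m6) := mul_le_mul_of_nonneg_left hl' hch.le
    have h5 : 0 ≤ h m * (‖v8 t‖ + 1) := by positivity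
    nlinarith
  have hrate := alone8 (θ := θ) (θb := θb) (α := α + h m * M) ht S₂ rh (Or.inr rfl)
    (aln_kH6 hθ hθ2 hbk) A6 hl'0.le (mul_nonneg hm0.le hy) hwin (mul_nonneg hm0.le hy) le_rfl
  have eε : h m • (y • RL8.e 6) = (h m * y) • RL8.e 6 := smul_smul _ _ _
  have hbase : ∀ i : K8, (RL8.vec (l • kD + α • nat8 1 (-θ) (-θb)) + h m • c) i =
      l * kD (cl8 i.1) + α * nat8 1 (-θ) (-θb) (cl8 i.1) + h m * c i := by
    intro i
    simp only [RS.vec, RL8, Pi.add_apply, Pi.smul_apply, smul_eq_mul]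
    ring
  have hci : ∀ i : K8, c i ≤ C := fun i =>
    (le_abs_self _).trans ((norm_le_pi_norm c i).trans hcC)
  have hcl : ∀ j : Fin 8, j ≠ 6 → ∀ x : ℝ, x ≤ C →
      l * kD j + α * nat8 1 (-θ) (-θb) j + h m * x ≤
        (l + h m * m6) * kH j + (α + h m * M) * nat8 1 (-θ) (-θb) j := by
    rw [hm6, hM, hbk]
    exact kH_cl hθ hθ2 hm0 hC1 bl bu hsm
  have hb6 : l * kD 6 + α * nat8 1 (-θ) (-θb) 6 + h m * b =
      (l + h m * m6) * kH 6 + (α + h m * M) * nat8 1 (-θ) (-θb) 6 := by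
    rw [hm6, hM, hbk]
    clear * -
    evH
    ring
  have hle : RL8.vec (l • kD + α • nat8 1 (-θ) (-θb)) + h m • c ≤
      pt8 θ θb t kH (l + h m * m6) (α + h m * M) (h m * y) := by
    intro i
    rw [hbase]
    have hv0 : 0 ≤ v8 t i := rmZ_nonneg i
    by_cases h6 : cl8 i.1 = 6
    · rw [pt8_at (Or.inr (Or.inl h6)), h6, hcb i h6, hb6]
    · have h7 := hcl (cl8 i.1) h6 (c i) (hci i)
      refine h7.trans ?_
      unfold pt8
      simp only [RS.vec, RL8, Pi.add_apply, Pi.smul_apply, smul_eq_mul]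
      have := mul_nonneg (mul_nonneg hm0.le hy) hv0
      linarith
  have z0 : ∀ i : K8, (0 : ℝ) ≤ (0 : K8 → ℝ) i := fun _ => le_rfl
  have z1 : ∀ i : K8, (0 : K8 → ℝ) i ≤ (1 : ℝ) := fun _ => zero_le_one
  have m2 := pt8_mem (θ := θ) (θb := θb) (α := α + h m * M) ht leg_kH hl'0.le
    (mul_nonneg hm0.le hy) z0 z1
  rw [smul_zero, add_zero] at m2
  have p2' : RL8.vec (l • kD + α • nat8 1 (-θ) (-θb)) + h m • c + (h m * y) • RL8.e 6 ∈
      M8 θ θb t := by
    rw [smul_add, eε, ← add_assoc] at p2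
    exact p2
  have key := cl_pts hl.sup8 p1 m2 p2' (pt8_mem ht leg_kH hl'0.le (mul_nonneg hm0.le hy)
    (e8_nn 6) (e8_le 6)) hle (fun i => mul_nonneg (mul_nonneg hm0.le hy) (e8_nn 6 i))
    (fun i hi => by
      have h6 : cl8 i.1 = 6 := by
        by_contra h'
        exact hi (by rw [Pi.smul_apply, mem_e_zero h', smul_zero])
      rw [hbase, pt8_at (Or.inr (Or.inl h6)), h6, hcb i h6, hb6])
  rw [hrate] at key
  rw [smul_add, eε, ← add_assoc] at q2
  have a1 := abs_le.1 q1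
  have a2 := abs_le.1 q2
  have h8 : h m * (ρh 6 * y) ≤ h m * (lam2 c - lam2 (c + y • RL8.e 6) + ε) := by
    linarith [a1.1, a1.2, a2.1, a2.2]
  exact le_of_mul_le_mul_left h8 hm0

end Crest.Agent.R116.NZ90
end

-- ▼ part R116/NZ9_90
section

/-!
# R116, K-TEXT II-c: the `N`-`z` chain rule over the record output of 363 (helper90)

* `lamOk_of`  : `Prf` + Lipschitz ⊢ `LamOk`
* `Out8.lamOk`
* `kH_half`   : `kH_le` over 647's `Half8`
-/

set_option autoImplicit false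
set_option linter.unusedVariables false

open Set Filter Topology

namespace Crest.Agent.R116.NZ90

open Crest.Agent.R136
open Crest.Agent.R138
open Dg219 (Walls mw Cone)
open Dg262 (SupOn)
open Sl741 (slice xt rs)
open RbK219 RbM219
open ChL222 (monL mfL)
open Tp139
open Rcx363
open Kz647

theorem lamOk_of {L : Set (Fin 12 → ℝ)} {s : ℝ} {a b : Fin 2} {Vis : Fin 12 → Prop}
    {β : Fin 12 → ℝ} {lam : (Fin 12 → ℝ) → ℝ} {K : ℝ} (hK : 0 ≤ K) (H : Prf L s a b Vis β lam)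
    (lip : ∀ p ∈ L, ∀ q ∈ L, |lam p - lam q| ≤ K * dist p q)
    (hV : ∀ k, Vis k → k = 0 ∨ k = 1 ∨ k = 2 ∨ k = 7 ∨ k = 8) : LamOk L lam K (1 - s) where
  K0 := hK
  sup := H.sm
  anti := fun p hp q hq hle => by linarith [(H.anti p hp q hq hle).1]
  lip := lip
  own := fun p hp q hq hle h0 h1 h2 h7 h8 => by
    have := H.own p hp q hq hle 0 h0.le fun k hk => by
      rw [zero_mul]
      rcases hV k hk with rfl | rfl | rfl | rfl | rfl
      · exact h0.le
      · exact h1.le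
      · exact h2.le
      · exact h7.le
      · exact h8.le
    rwa [sub_zero] at this

/-- over 363's record output -/
theorem Out8.lamOk {R s : ℝ} {a b : Fin 2} {Vis : Fin 12 → Prop} {θa θb g qa qb t : ℝ}
    {T : Type*} {B : T → Fin 8 → ℝ} {sg : T → ℝ} {x0 : Fin 12 → ℝ}
    {f : Fin 2 → (Fin 12 → ℝ) → ℝ} {x : ℕ → Fin 12 → ℝ} {hh : ℕ → ℝ}
    {lam : Fin 2 → (Fin 12 → ℝ) → ℝ}
    (O : Rcx363.Out8 R s a b Vis θa θb g qa qb t B sg x0 f x hh lam)
    (hV : ∀ k, Vis k → k = 0 ∨ k = 1 ∨ k = 2 ∨ k = 7 ∨ k = 8) :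
    LamOk (L8 θa θb t) (lam 0) 12 (1 - s) :=
  lamOk_of (by norm_num) O.rx.prf (O.lip 0) hV

/-- `kH_le` at the generic point of 647 -/
theorem kH_half {θ θb k t : ℝ} (ht : t ≠ 0) (hθ : 0 < θ) (hθk : θ < k) (hk : k = 1 / 2)
    (hb : θb = 2 * θ - k) {ch : ℝ} (hch : 0 < ch) {J : Type*} {lam : J → (Fin 12 → ℝ) → ℝ}
    {j0 : J} {K own : ℝ} (hl : LamOk (L8 θ θb t) (lam j0) K own) {ρh : Fin 8 → ℝ}
    (rh : Rates8 θ θb t kH (-1) ch (lam j0) ρh) {ρ : Fin 8 → ℝ} {κ l α : ℝ} {h : ℕ → ℝ}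
    {lam2 : J → (Fin 12 → ℝ) → ℝ} {ρ2 : Fin 8 → ℝ}
    (H : Half8 θ θb t kD (-1) lam j0 ρ κ l α h lam2 ρ2) {c : K8 → ℝ} {b y : ℝ}
    (hcb : ∀ i : K8, cl8 i.1 = 6 → c i = b) (hy : 0 ≤ y)
    (hc : c ∈ (srf8 θ θb t kD (-1)).L (Q8 t))
    (hc' : c + y • RL8.e 6 ∈ (srf8 θ θb t kD (-1)).L (Q8 t)) :
    ρh 6 * y ≤ lam2 j0 (xt kp 0 c) - lam2 j0 (xt kp 0 (c + y • RL8.e 6)) :=
  kH_le ht hθ hθk hk hb hch hl rh H.lpos H.hpos H.lim (H.tan j0) hcb hy hc hc'

end Crest.Agent.R116.NZ90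
end

-- ▼ part R116/NZ10_90

/-!
# R116, K-TEXT II-c: (NZ) in the letters of 460's planes (helper90)

* `kH_Lam`, `kH_lin` : rate of `B` at any position of the class function on `kD` (741's `LinS`)
* **`nzE`**          : field `nz` of `EUpNZ`
* **`nzK`**          : field `nz` of `S1` and `DUpNZ`, every `k < 1`
-/

set_option autoImplicit false
set_option linter.unusedVariables false

open Set Filter Topology

namespace Crest.Agent.R116.NZ90

open Crest.Agent.R136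
open Crest.Agent.R138
open Dg219 (Walls mw Cone)
open Sl741 (slice xt rs)
open RbK219 RbM219
open ChL222 (monL mfL)
open Tp139
open Rcx363
open Kz647
open Tq741
open Tq126 (cut leg8_cut)
open Tie460 (Pl)
open Pos126 (mem8)

/-- the class function of 741 -/
noncomputable abbrev Lam8 (lam2 : (Fin 12 → ℝ) → ℝ) (w : V9) : ℝ :=
  lam2 (xt kp 0 (RL8.vec (fun i : Fin 8 => w i.castSucc)))

section

variable {θ θb k t : ℝ} (ht : t ≠ 0) (hθ : 0 < θ) (hθk : θ < k) (hk : k = 1 / 2)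
  (hb : θb = 2 * θ - k) {ch : ℝ} (hch : 0 < ch) {J : Type*} {lam : J → (Fin 12 → ℝ) → ℝ}
  {j0 : J} {K own : ℝ} (hl : LamOk (L8 θ θb t) (lam j0) K own) {ρh : Fin 8 → ℝ}
  (rh : Rates8 θ θb t kH (-1) ch (lam j0) ρh) {ρ : Fin 8 → ℝ} {κ l α : ℝ} {h : ℕ → ℝ}
  {lam2 : J → (Fin 12 → ℝ) → ℝ} {ρ2 : Fin 8 → ℝ}
  (H : Half8 θ θb t kD (-1) lam j0 ρ κ l α h lam2 ρ2)
include ht hθ hθk hk hb hch hl rh H

/-- increments of `B` of the class function -/
theorem kH_Lam {w : V9} {y : ℝ} (hw : LegM 0 w) (hw' : LegM 0 (w + y • e9 6)) (hy : 0 ≤ y) :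
    ρh 6 * y ≤ Lam8 (lam2 j0) w - Lam8 (lam2 j0) (w + y • e9 6) := by
  have e : RL8.vec (cut (w + y • e9 6)) = RL8.vec (cut w) + y • RL8.e 6 := by
    funext i
    simp only [RS.vec, Pi.add_apply, Pi.smul_apply, smul_eq_mul, RS.e, cut]
    by_cases hi : RL8.cls i = 6
    · rw [if_pos hi, hi]
      have : e9 6 (Fin.castSucc (6 : Fin 8)) = 1 := e9_same 6
      rw [this]; ring
    · have h6 : e9 6 (Fin.castSucc (RL8.cls i)) = 0 := e9_ne (fun h' =>
        hi (Fin.castSucc_injective 8 (h'.trans (rfl : (6 : Fin 9) = Fin.castSucc (6 : Fin 8)))))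
      rw [if_neg hi, h6]
      ring
  have key := kH_half ht hθ hθk hk hb hch hl rh H (c := RL8.vec (cut w)) (b := w 6) (y := y)
    (fun i hi => by
      change 1 * w (Fin.castSucc (cl8 i.1)) = w 6
      rw [hi, one_mul]; rfl) hy (mem8 ht (leg8_cut hw)) (by
      rw [← e]; exact mem8 ht (leg8_cut hw'))
  rw [← e] at key
  exact key


end

/-! ### the fields of 460 -/

/-- field `nz` of `EUpNZ` -/
theorem nzE {θ θb k t : ℝ} (ht : t ≠ 0) (hθ : 0 < θ) (hk : 0 < k) (hθ1 : θ < 1 + k)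
    (hb : θb = θ - k) {cp cm : ℝ} (hcp : 0 < cp) (hcm : 0 < cm) {lam : (Fin 12 → ℝ) → ℝ}
    {K s : ℝ} (hl : LamOk (L8 θ θb t) lam K (1 - s)) {ρp ρm : Fin 8 → ℝ}
    (rp : Rates8 θ θb t oS 1 cp lam ρp) (rm : Rates8 θ θb t (eD k) (-1) cm lam ρm) {A : Pl}
    (hn : A.n = 1 - ρm 4) (he : ρm 0 - (1 - s) ≤ A.e) (hw : 0 ≤ A.w) (hu : ρm 7 ≤ A.u)
    (hp : ρp 4 = 1) : (1 + k - θ) * A.n ≤ A.e + k * A.w + (k + θ) * A.u := by
  have key := nz8_e ht hθ hk hθ1 hb hcp hcm hl rp rm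
  have h1 := mul_nonneg hk.le hw
  have h2 := mul_le_mul_of_nonneg_left hu (by linarith : 0 ≤ k + θ)
  rw [hp] at key
  rw [hn]
  linarith

/-- field `nz` of `S1` and of `DUpNZ` -/
theorem nzK {θ θb k t : ℝ} (ht : t ≠ 0) (hθ : 0 < θ) (hθk : θ < k) (hk1 : k < 1)
    (hb : θb = 2 * θ - k) {cp cm ch : ℝ} (hcp : 0 < cp) (hcm : 0 < cm) (hch : 0 < ch)
    {lam : (Fin 12 → ℝ) → ℝ} {K s : ℝ} (hl : LamOk (L8 θ θb t) lam K (1 - s))
    {ρp ρm ρh : Fin 8 → ℝ} (rp : Rates8 θ θb t oS 1 cp lam ρp)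
    (rm : Rates8 θ θb t kD (-1) cm lam ρm) (rh : Rates8 θ θb t kH (-1) ch lam ρh) {A : Pl}
    (hn : A.n = 1 - ρm 4) (he : ρm 0 - (1 - s) ≤ A.e) (hw : k ≠ 1 / 2 → ρm 6 ≤ A.w)
    (hw' : k = 1 / 2 → ρh 6 ≤ A.w) (hu : 0 ≤ A.u) (hp : ρp 4 = 1) :
    (1 + k - 2 * θ) * A.n ≤ A.e + (k - θ) * A.w + k * A.u := by
  have h1 := mul_nonneg (by linarith : 0 ≤ k) hu
  rw [hn]
  by_cases h : k = 1 / 2
  · have key := nz8_half ht hθ hθk h hb hcp hcm hch hl rp rm rh
    have h2 := mul_le_mul_of_nonneg_left (hw' h) (by linarith : 0 ≤ k - θ)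
    rw [hp] at key
    linarith
  · have key := nz8_k ht hθ hθk hk1 h hb hcp hcm hl rp rm
    have h2 := mul_le_mul_of_nonneg_left (hw h) (by linarith : 0 ≤ k - θ)
    rw [hp] at key
    linarith

end Crest.Agent.R116.NZ90
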