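import Crest.Agent.R116.Kw1_647
import Crest.Agent.R116.Tp1_139
import Crest.Agent.R116.SgL1_337
import Crest.Agent.R116.Rcx5_363
import Crest.Agent.R116.KTie_794

-- ▼ part R116/Kw3_647
section

/-!
# R116, K-TEXT II-c, thin tie `k < 1`, `k ≤ θ` (helper647): the field `sum : c + qa + qb ≤ m + r` of
`KTie` from `Rates8` on `kD` (`T⁻` of the kappa plane), the profile facts and D-max.
-/

set_option autoImplicit false
set_option linter.unusedSectionVars false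
set_option linter.unusedVariables false

open Set Filter Topology Metric MeasureTheory

namespace Crest.Agent.R116.Kv647

open Crest.Agent.R136
open Crest.Agent.R138
open Dg262 (X X_cont SupOn)
open Dg219 (Tn lf Cone Walls mw mw_P)
open Sl741 (slice xt rs)
open Crest.Agent.R116.RbK219 Crest.Agent.R116.RbM219
open Crest.Agent.R116.Tp139 hiding cl8
open Crest.Agent.R116.Kw647 hiding nat8
open ChL222 (monL)
open PL504 (eL βL)
open Sg337 (DL)

variable {θ k θb t : ℝ} {lam : (Fin 12 → ℝ) → ℝ}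

/-- class vectors are legal offsets at the record -/
theorem mem8 (ht : t ≠ 0) {d : Fin 8 → ℝ} (hd : Leg8 d) :
    RL8.vec d ∈ {c : K8 → ℝ | xt kp 0 c ∈ L8 θ θb t} := by
  have h := RL8_mem (a := rs kp (r8 θ θb)) ht hd
  have hp1 : ∀ i, ¬ kp i → r8 θ θb i = 0 := fun i hi => by
    have hi' : i = 1 := not_not.1 hi
    subst hi'
    unfold r8; rw [Function.update_self]
  exact (Sl741.mem_slice_L (Q := mw monL) (v := y8 t) (hp := kp_hd) (x0 := y8 t)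
    (a := r8 θ θb) (b := 0) (fun _ _ => rfl) hp1 (fun _ _ => rfl)).1 h

theorem aln_kD_P (hθ : 0 < θ) (hk : 0 < k) (hk1 : k < 1) (hb : θb = 2 * θ - k) :
    Aln (nat8 1 (-θ) (-θb)) kD 2 := by
  subst hb
  refine all8 ?_ ?_ ?_ ?_ ?_ ?_ ?_ ?_ <;> intro ht h <;>
    simp only [kD, n0, n1, n2, n3, n4, n5, n6, n7] at h <;> first | exact ht rfl | linarith

/-- **the field `sum`** : `k ≤ θ`, `k < 1`; only the height and the flag slot `E` are visible -/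
theorem sum8 (hθ : 0 < θ) (hk : 0 < k) (hk1 : k < 1) (hkθ : k ≤ θ) (hb : θb = 2 * θ - k)
    (ht : t ≠ 0) {K : ℝ}
    (hlip : ∀ p ∈ L8 θ θb t, ∀ q ∈ L8 θ θb t, |lam p - lam q| ≤ K * dist p q)
    (hanti : ∀ p ∈ L8 θ θb t, ∀ q ∈ L8 θ θb t, p ≤ q →
      0 ≤ lam p - lam q ∧ lam p - lam q ≤ ∑ i, (q i - p i))
    (hsm : SupOn lam (L8 θ θb t)) (h0 : lam 0 = 0) {s g qa qb : ℝ} {Vis : Fin 12 → Prop}
    (hV : ∀ i, Vis i → i = 0 ∨ i = 2)
    (hown : ∀ p ∈ L8 θ θb t, ∀ q ∈ L8 θ θb t, p ≤ q → ∀ u, p 0 ≤ u →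
      (∀ i, Vis i → p i ≤ u * βL θ θb i) → (1 - s) * (q 0 - u) ≤ lam p - lam q)
    (hmax : ∀ v c p, lam (xt kp 0 (RL8.vec (nat8 v c p))) ≤ DL g s qa qb v c p)
    {c0 : ℝ} (hc0 : 0 < c0)
    (hM : (srf8 θ θb t kD (-1)).LW (Q8 t) c0 ⊆ (Q8 t).L (rs kp (y8 t)) (rs kp (r8 θ θb)) 0)
    {ρ : Fin 8 → ℝ} (hR : Rates8 θ θb t kD (-1) c0 lam ρ) :
    g + qa + qb ≤ ρ 1 + ρ 2 := by
  have hS := sok_kD hθ hk hb
  set M : Set (K8 → ℝ) := {c : K8 → ℝ | xt kp 0 c ∈ L8 θ θb t} with hMdef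
  have hp1 : ∀ i, ¬ kp i → r8 θ θb i = 0 := fun i hi => by
    have hi' : i = 1 := not_not.1 hi
    subst hi'
    unfold r8; rw [Function.update_self]
  have hML : (Q8 t).L (rs kp (y8 t)) (rs kp (r8 θ θb)) 0 ⊆ M := fun c hc =>
    (Sl741.mem_slice_L (Q := mw monL) (v := y8 t) (hp := kp_hd) (x0 := y8 t)
      (a := r8 θ θb) (b := 0) (fun _ _ => rfl) hp1 (fun _ _ => rfl)).1 hc
  have hx0 : xt kp (0 : Fin 12 → ℝ) (0 : K8 → ℝ) = 0 := by
    funext i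
    by_cases hi : kp i
    · rw [Sl741.xt_in _ _ hi]; rfl
    · rw [Sl741.xt_off _ _ hi]
  set G : (K8 → ℝ) → ℝ := fun c => lam (xt kp 0 c) with hG
  have hsG : ∀ p ∈ M, ∀ q ∈ M, p ⊓ q ∈ M → p ⊔ q ∈ M → G p + G q ≤ G (p ⊔ q) + G (p ⊓ q) := by
    intro p hp q hq h1 h2
    have := hsm _ hp _ hq (by rw [← Sl741.xt_inf]; exact h1) (by rw [← Sl741.xt_sup]; exact h2)
    rw [← Sl741.xt_inf, ← Sl741.xt_sup] at this
    exact this
  have hmem : ∀ d : Fin 8 → ℝ, Leg8 d → RL8.vec d ∈ M := fun d hd => mem8 ht hd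
  have hA2 : nat8 1 (-θ) (-θb) 2 ≠ 0 := by
    rw [n2, hb]
    have : 0 < 2 * θ - k := by linarith
    linarith
  have hle : ∀ d d' : Fin 8 → ℝ, (∀ i, d i ≤ d' i) → xt kp (0 : Fin 12 → ℝ) (RL8.vec d) ≤
      xt kp 0 (RL8.vec d') := fun d d' hd => Sl741.xt_mono 0 fun i => by
    simp only [RS.vec, RL8, one_mul]; exact hd _
  -- legality of the two segments
  have hCl : ∀ σ : ℝ, 0 ≤ σ → Leg8 (lvt (1 : Fin 8) σ) := by
    intro σ hσ
    constructor <;> simp [lvt] <;> linarith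
  have e2 : ∀ y σ : ℝ, y • RL8.e 1 + y • RL8.e 5 + σ • RL8.e 2 =
      RL8.vec (lvt (1 : Fin 8) y + lvt 5 y + lvt 2 σ) := by
    intro y σ
    rw [RL8.vec_add, RL8.vec_add, vec_lvt, vec_lvt, vec_lvt]
  have hPl : ∀ y σ : ℝ, 0 ≤ σ → σ ≤ y → Leg8 (lvt (1 : Fin 8) y + lvt 5 y + lvt 2 σ) := by
    intro y σ h1 h2
    constructor <;> simp [lvt] <;> linarith
  have hvd : ∀ d d' : Fin 8 → ℝ, dist (RL8.vec d) (RL8.vec d') ≤ dist d d' := by
    intro d d'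
    rw [dist_pi_le_iff dist_nonneg]
    intro i
    simp only [RS.vec, RL8, one_mul]
    exact dist_le_pi_dist d d' _
  have hK : 0 ≤ K := by
    by_contra hcon
    have h1 := hlip _ (hmem (lvt 1 1) (hCl 1 zero_le_one)) _ (hmem (lvt 1 0) (hCl 0 le_rfl))
    have h2 : (0:ℝ) ≤ K * dist (xt kp 0 (RL8.vec (lvt (1 : Fin 8) 1)))
        (xt kp 0 (RL8.vec (lvt (1 : Fin 8) 0))) := (abs_nonneg _).trans h1
    have h3 : (1:ℝ) ≤ dist (xt kp 0 (RL8.vec (lvt (1 : Fin 8) 1)))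
        (xt kp 0 (RL8.vec (lvt (1 : Fin 8) 0))) := by
      have h4 := dist_le_pi_dist (xt kp (0 : Fin 12 → ℝ) (RL8.vec (lvt (1 : Fin 8) 1)))
        (xt kp 0 (RL8.vec (lvt (1 : Fin 8) 0))) 3
      rw [Sl741.xt_in (p := kp) _ _ (by decide : (3 : Fin 12) ≠ 1),
        Sl741.xt_in (p := kp) _ _ (by decide : (3 : Fin 12) ≠ 1)] at h4
      simp [RS.vec, RL8, cl8, lvt, Real.dist_eq] at h4
      exact h4
    nlinarith
  have hGl : ∀ d d' : Fin 8 → ℝ, Leg8 d → Leg8 d' → |G (RL8.vec d) - G (RL8.vec d')| ≤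
      K * dist d d' := by
    intro d d' h1 h2
    refine (hlip _ (hmem d h1) _ (hmem d' h2)).trans ?_
    exact mul_le_mul_of_nonneg_left ((Sl741.xt_dist _ _ _).trans (hvd d d')) hK
  have hld : ∀ (i : Fin 8) (x y : ℝ), dist (lvt i x) (lvt i y) ≤ dist x y := by
    intro i x y
    rw [dist_pi_le_iff dist_nonneg]
    intro j
    unfold lvt
    split_ifs
    · exact le_rfl
    · rw [dist_self]; exact dist_nonneg
  have key := tie_le RL8 (lam := G) (M := M) hsG hθ hk hk1.le hkθ (y0 := rs kp (y8 t))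
    (sg := -1) (A := nat8 1 (-θ) (-θb)) (B := kD) (μ := 0) (q := g + qa + qb)
    (by rw [hb]; rfl) (by rw [zero_smul, add_zero]; rfl) hS (Q := Q8 t) RL8_full hc0
    (fun c hc => hML (hM hc)) (aln_kD hθ hk hb) (aln_kD_P hθ hk hk1 hb)
    (m := ρ 1) (r := ρ 2) (hR.alone 1 (aln_kD hθ hk hb) (A1_ne hθ))
    (hR.alone 2 (aln_kD_P hθ hk hk1 hb) hA2) (y := 1) one_pos
    (fun σ h1 h2 => by rw [← vec_lvt]; exact hmem _ (hCl σ h1))
    (fun σ h1 h2 => by rw [e2]; exact hmem _ (hPl 1 σ h1 h2)) ?_ ?_ ?_ ?_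
  · exact key
  · -- continuity of the first segment
    refine (LipschitzOnWith.of_dist_le_mul (K := ⟨K, hK⟩) fun x hx y hy => ?_).continuousOn
    rw [Real.dist_eq, ← vec_lvt, ← vec_lvt]
    refine (hGl _ _ (hCl x hx.1) (hCl y hy.1)).trans ?_
    exact mul_le_mul_of_nonneg_left (hld _ _ _) hK
  · refine (LipschitzOnWith.of_dist_le_mul (K := ⟨K, hK⟩) fun x hx y hy => ?_).continuousOn
    rw [Real.dist_eq, e2, e2]
    refine (hGl _ _ (hPl 1 x hx.1 hx.2) (hPl 1 y hy.1 hy.2)).trans ?_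
    refine mul_le_mul_of_nonneg_left ?_ hK
    rw [dist_add_left]
    exact hld _ _ _
  · -- cost of `H`
    have e1 : (1:ℝ) • RL8.e 1 = RL8.vec (lvt (1 : Fin 8) 1) := (vec_lvt _ _ _).symm
    have e3 : (1:ℝ) • RL8.e 1 + (1:ℝ) • RL8.e 5 = RL8.vec (lvt (1 : Fin 8) 1 + lvt 5 1) := by
      rw [RL8.vec_add, vec_lvt, vec_lvt]
    have hl3 : Leg8 (lvt (1 : Fin 8) 1 + lvt 5 1) := by
      constructor <;> simp [lvt] <;> norm_num
    change G ((1:ℝ) • RL8.e 1) - G ((1:ℝ) • RL8.e 1 + (1:ℝ) • RL8.e 5) ≤ 1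
    rw [e3, e1]
    have h1 := (hanti _ (hmem _ (hCl 1 zero_le_one)) _ (hmem _ hl3) (hle _ _ fun i => by
      simp only [Pi.add_apply, lvt]; split_ifs <;> linarith)).2
    refine h1.trans (le_of_eq ?_)
    rw [Sl741.xt_sum]
    rw [Finset.sum_eq_single (⟨9, by decide⟩ : K8)]
    · simp [RS.vec, RL8, cl8, lvt]
    · intro i _ hi
      obtain ⟨i, hi1⟩ := i
      fin_cases i <;> simp [RS.vec, RL8, cl8, lvt] at hi hi1 ⊢
    · intro h; exact absurd (Finset.mem_univ _) h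
  · -- D-max, own profile, monotonicity
    have h1 : G 0 = 0 := by simp only [hG, hx0, h0]
    have hnat : Leg8 (nat8 (-1) 1 1) := leg8_nat _ _ _
    have e4 : RL8.vec (nat8 (-1) 1 1) + (1:ℝ) • RL8.e 0 =
        RL8.vec (nat8 (-1) 1 1 + lvt (0 : Fin 8) 1) := by
      rw [RL8.vec_add, vec_lvt]
    have hl4 : Leg8 (nat8 (-1) 1 1 + lvt (0 : Fin 8) 1) := by
      constructor <;> simp [lvt, nat8] <;> norm_num
    have h5 := hmax (-1) 1 1
    have h6 := hown _ (hmem _ hnat) _ (hmem _ hl4) (hle _ _ fun i => by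
      simp only [Pi.add_apply, lvt]; split_ifs <;> linarith) (-1) (by
        rw [Sl741.xt_in (p := kp) _ _ (by decide : (0 : Fin 12) ≠ 1)]
        simp [RS.vec, RL8, cl8, nat8]) (fun i hi => by
        rcases hV i hi with rfl | rfl
        · rw [Sl741.xt_in (p := kp) _ _ (by decide : (0 : Fin 12) ≠ 1)]
          simp [RS.vec, RL8, cl8, nat8, βL, eL]
        · rw [Sl741.xt_in (p := kp) _ _ (by decide : (2 : Fin 12) ≠ 1)]
          simp [RS.vec, RL8, cl8, nat8, βL, eL, hb]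
          linarith)
    have h7 : xt kp (0 : Fin 12 → ℝ) (RL8.vec (nat8 (-1) 1 1 + lvt (0 : Fin 8) 1)) 0 = 0 := by
      rw [Sl741.xt_in (p := kp) _ _ (by decide : (0 : Fin 12) ≠ 1)]
      simp [RS.vec, RL8, cl8, nat8, lvt]
    rw [h7] at h6
    refine hD_of RL8 (lam := G) (s := s) (c := g) (qa := qa) (qb := qb) (y := 1) ?_ ?_ ?_
    · change (s + g + qa + qb) * 1 ≤ G 0 - G (RL8.vec (nat8 (-1) 1 1))
      rw [h1]
      have : G (RL8.vec (nat8 (-1) 1 1)) ≤ DL g s qa qb (-1) 1 1 := h5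
      unfold DL at this
      linarith
    · change (1 - s) * 1 ≤ G (RL8.vec (nat8 (-1) 1 1)) -
        G (RL8.vec (nat8 (-1) 1 1) + (1:ℝ) • RL8.e 0)
      rw [e4]
      have : (1 - s) * (0 - (-1)) ≤ G (RL8.vec (nat8 (-1) 1 1)) -
        G (RL8.vec (nat8 (-1) 1 1 + lvt (0 : Fin 8) 1)) := h6
      linarith
    · change G (RL8.vec (nat8 (-1) 1 1) + (1:ℝ) • RL8.e 0 + (1:ℝ) • RL8.e 7) ≤
        G (RL8.vec (nat8 (-1) 1 1) + (1:ℝ) • RL8.e 0)
      have e5 : RL8.vec (nat8 (-1) 1 1) + (1:ℝ) • RL8.e 0 + (1:ℝ) • RL8.e 7 =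
          RL8.vec (nat8 (-1) 1 1 + lvt (0 : Fin 8) 1 + lvt 7 1) := by
        rw [e4, RL8.vec_add _ (lvt 7 1), vec_lvt]
      have hv5 : nat8 (-1) 1 1 + lvt (0 : Fin 8) 1 + lvt 7 1 =
          (![0, 1, 1, 0, 0, 1, 0, 0] : Fin 8 → ℝ) := by
        funext i
        simp only [Pi.add_apply, lvt, nat8]
        fin_cases i <;> simp <;> norm_num
      have hl5 : Leg8 (nat8 (-1) 1 1 + lvt (0 : Fin 8) 1 + lvt 7 1) := by
        rw [hv5]
        constructor <;> simp <;> norm_num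
      rw [e5, e4]
      have := (hanti _ (hmem _ hl4) _ (hmem _ hl5) (hle _ _ fun i => by
        simp only [Pi.add_apply, lvt]; split_ifs <;> linarith)).1
      linarith

end Crest.Agent.R116.Kv647
end

-- ▼ part R116/Fk1_647

/-!
# R116, ties (helper647): the field `sum` of `KTie` over 363's `Out8`, and the visible slots of the
cells of `FillK`, `FillE`, `FillD`.
-/

set_option autoImplicit false
set_option linter.unusedSectionVars false
set_option linter.unusedVariables false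

open Set Filter Topology MeasureTheory

namespace Crest.Agent.R116.Fk647

open Crest.Agent.R138.Ex926 (Base U)
open Crest.Agent.R136
open Crest.Agent.R136.MkA627
open Crest.Agent.R136.TD627
open Crest.Agent.R116.KI439 hiding kD
open Crest.Agent.R116.Gd222 (TSet)
open Crest.Agent.R116.ChL222 (LInc monL)
open Crest.Agent.R116.Tw468 (OutT OutR)
open Crest.Agent.R116.KF439 (PL)
open Crest.Agent.R116.CtxB468
open Crest.Agent.R116.KTie794
open Crest.Agent.R116.PL504 (eL βL rL)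
open Crest.Agent.R116.Sg337 (DL)
open Crest.Agent.R116.RbM219
open Crest.Agent.R116.RbK219 (SOk RS)
open Crest.Agent.R116.Tp139 (kD)
open Crest.Agent.R116.Rcx363
open Dg262 (SupOn)
open Sl741 (xt rs)

section out

variable {R s : ℝ} {a b : Fin 2} {Vis Vis' : Fin 12 → Prop} {θa θb g qa qb t : ℝ} {T : Type*}
    {Bs : T → Fin 8 → ℝ} {sgs : T → ℝ} {x0 : Fin 12 → ℝ} {f : Fin 2 → (Fin 12 → ℝ) → ℝ}
    {x : ℕ → Fin 12 → ℝ} {hh : ℕ → ℝ} {lam : Fin 2 → (Fin 12 → ℝ) → ℝ}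

/-- **the field `sum` of `KTie`, from the producer** : `k = 2 θa - θb ≤ θa`, `k < 1` -/
theorem sum8_out (O : Out8 R s a b Vis θa θb g qa qb t Bs sgs x0 f x hh lam) (ht0 : 0 < t)
    (hθ : 0 < θa) (hk : 0 < 2 * θa - θb) (hk1 : 2 * θa - θb < 1) (hkθ : 2 * θa - θb ≤ θa)
    (hV : ∀ i, Vis i → i = 0 ∨ i = 2) {c0 : ℝ} (hc0 : 0 < c0)
    (hM : (srf8 θa θb t kD (-1)).LW (Q8 t) c0 ⊆ (Q8 t).L (rs kp (y8 t)) (rs kp (r8 θa θb)) 0)
    {ρ : Fin 8 → ℝ} (hR : Rates8 θa θb t kD (-1) c0 (lam 0) ρ) :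
    g + qa + qb ≤ ρ 1 + ρ 2 := by
  refine Kv647.sum8 (k := 2 * θa - θb) (Vis := Vis) hθ hk hk1 hkθ (by ring) ht0.ne' (O.lip 0)
    O.rx.prf.anti O.rx.prf.sm (O.zero 0) hV O.rx.prf.own (fun v c p => ?_) hc0 hM hR
  rw [RL8_nat]
  exact O.rx.dmax v c p


end out

section vis

variable {G : Geo TSet (Fin 2)} {L : ℕ → ℕ → LRay} {r : ℕ → ℝ} {g s : ℝ} {θ q : Fin 2 → ℝ}
    {Rg : ℝ} {B : Base} {I : ℕ → Finset (ℕ × ℝ)} {lev : ℕ → ℚ → ℕ} {A : ℕ → ℝ}
    {f : ℕ → ℚ → ℕ → ℤ → ℕ} {b : ℕ → ℚ → ℕ → TSet} {vm : ℕ → ℚ → ℝ} {w : Fin 2 → ℕ → ℚ → ℝ}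
    {fr : ℕ → ℚ → ℕ × ℝ → LInc} {fl : ℕ → ℕ × ℝ → LInc} {sc : Fin 12 → ℕ → ℝ}

/-- only `0, 1, 2, 7, 8` can be visible -/
theorem vis_flag (h : OutT G L r g s θ q Rg B I lev A f b vm w fr fl sc) (i : Fin 12)
    (hv : VisT B I fl sc i) : i = 0 ∨ i = 1 ∨ i = 2 ∨ i = 7 ∨ i = 8 := by
  by_contra hn
  refine hv (h.inv_ray ?_)
  revert hn
  clear hv
  revert i
  decide

/-- `D` is invisible for `2 θa - θb ≤ 1` -/
theorem vis_noD (h : OutT G L r g s θ q Rg B I lev A f b vm w fr fl sc)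
    (hk : 2 * θ 0 - θ 1 ≤ 1) : ¬ VisT B I fl sc 1 :=
  not_not.2 (h.invD (by linarith))

/-- visible slots of `FillK`, `k' ≤ 1` -/
theorem vis_kap (h : OutT G L r g s θ q Rg B I lev A f b vm w fr fl sc) (hB : InvB B I fl sc)
    (hk : 2 * θ 0 - θ 1 ≤ 1) (i : Fin 12) (hv : VisT B I fl sc i) : i = 0 ∨ i = 2 := by
  rcases vis_flag h i hv with rfl | rfl | rfl | rfl | rfl
  · exact Or.inl rfl
  · exact absurd hv (vis_noD h hk)
  · exact Or.inr rfl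
  · exact absurd hB.1 hv
  · exact absurd hB.2 hv


/-- visible slots of `FillE` -/
theorem vis_e (h : OutT G L r g s θ q Rg B I lev A f b vm w fr fl sc) (hE : InvE B I fl sc)
    (i : Fin 12) (hv : VisT B I fl sc i) : i = 0 ∨ i = 7 ∨ i = 8 := by
  rcases vis_flag h i hv with rfl | rfl | rfl | rfl | rfl
  · exact Or.inl rfl
  · exact absurd hE.2 hv
  · exact absurd hE.1 hv
  · exact Or.inr (Or.inl rfl)
  · exact Or.inr (Or.inr rfl)


end vis

end Crest.Agent.R116.Fk647
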