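import Crest.Agent.R116.Tk2_538
import Crest.Agent.R116.Tp4_139
import Crest.Agent.R116.Hf1_850
import Crest.Agent.R116.Tq4_126
import Crest.Agent.R116.Pe0_794
import Crest.Agent.R116.Pu4_171
import Crest.Agent.R116.Fk1_647
import Crest.Agent.R116.D0T_794

-- ▼ part R116/Th5a_658
section

/-!
# R116 (K side, ties), `1/2 ≤ s`, the `κ`-plane below the record, `1/2 < k < 1` (helper658)

`D` frozen, classes `{z, G}` and single slots.
* `plA s ρ`  : the rates as a `Pl`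
* `khalf_A`  : `FctP`, `FctK` ⊢ `KHalf k (plA s ρ)`
* `rep_kD`, `tan_A`, `ver_A` : tangential identity and direction inequality from `Half8`
* **`kD_false`** : class level
-/

set_option autoImplicit false
set_option linter.unusedVariables false
set_option linter.unusedSimpArgs false

open Set Filter Topology

namespace Crest.Agent.R116.Th658

open Crest.Agent.R136
open Sl741 (slice xt rs)
open RbK219 RbM219 Kz647
open Sg337 (DL)
open Tie460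
open Crest.Agent.R116.Tq741 Crest.Agent.R116.Tp139 Crest.Agent.R116.Pu171
open Tk538 (al_cK p1_kU p2_kU mw_kU)

/-- rates of the plane -/
def plA (s : ℝ) (ρ : V9) : Pl where
  x := 1 - ρ 3
  n := 1 - ρ 4
  h := 1 - ρ 5
  m := ρ 1
  r := ρ 2
  e := ρ 0 - (1 - s)
  w := ρ 6
  u := 0
  d := 0

variable {dl : V9} {s : ℝ} {Λ : V9 → ℝ} {φ : Fin 9 → V9 → ℝ} {ρ : V9} {Sk : V9 → Prop}
  {k κ1 κ2 κ3 θ θb c qa qb : ℝ}

theorem pos_A (H : Cl9 Tk538.cK dl s Λ φ ρ) : (plA s ρ).Pos where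
  x0 := sub_nonneg.2 (Cl9.le_cst H (al_cK 3 (by decide) (by decide)))
  n0 := sub_nonneg.2 (Cl9.le_cst H (al_cK 4 (by decide) (by decide)))
  h0 := sub_nonneg.2 (Cl9.le_cst H (al_cK 5 (by decide) (by decide)))
  m0 := Cl9.nonneg H (al_cK 1 (by decide) (by decide))
  r0 := Cl9.nonneg H (al_cK 2 (by decide) (by decide))
  e0 := sub_nonneg.2 H.own
  w0 := Cl9.nonneg H (al_cK 6 (by decide) (by decide))
  u0 := le_rfl
  d0 := le_rfl

/-- **`KHalf`** -/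
theorem khalf_A (H : Cl9 Tk538.cK dl s Λ φ ρ) (FP : FctP Sk Λ) (FK : FctK k Λ)
    (hS : SkU κ1 κ2 κ3 Sk) (h1 : 0 < κ1) (h2 : 0 < κ2) (h3 : 0 < κ3) (hk : k ≤ 2) :
    KHalf k (plA s ρ) where
  P := pos_A H
  mw := Or.inl (mw_kU H FK)
  nx := fun h => absurd h (not_lt.2 hk)
  p1 := by
    have := p1_kU H FP hS h1 h2 h3
    change ρ 1 + (1 - ρ 3) ≤ 1
    linarith
  p2 := by
    have := p2_kU H FP hS h1 h2 h3
    change ρ 2 + (1 - ρ 4) ≤ 1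
    linarith
  p3 := le_rfl

theorem cK_eq (h1 : 1 / 2 < k) (h2 : k < 1) : Tq126.cK k = Tk538.cK := by
  have e2 : k ≠ 2 := by linarith
  have e1 : k ≠ 1 := h2.ne
  have e3 : k ≠ 1 / 2 := h1.ne'
  unfold Tq126.cK Tk538.cK
  rw [if_neg e2, if_neg e1, if_neg e1, if_neg e1, if_neg e3]

/-- representatives of the parallel classes -/
theorem rep_kD (hθ : 0 < θ) (h1 : 1 / 2 < k) (h2 : k < 1) (hb : θb = 2 * θ - k) :
    ∀ t, ∃! t', t' ∈ ({0, 1, 2, 3, 4, 5, 6} : Finset (Fin 8)) ∧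
      Par (nat8 1 (-θ) (-θb)) kD t t' := by
  have hc : ∀ i j : Fin 8, Tk538.cK i.castSucc = Tk538.cK j.castSucc ↔
      Par (nat8 1 (-θ) (-θb)) kD i j := fun i j => by
    rw [← cK_eq h1 h2]
    exact Tq126.hc_kD hθ (by linarith) hb i j
  refine rep_of (sok_kD hθ (by linarith : 0 < k) hb) ![0, 1, 2, 3, 4, 5, 6, 0] (by decide)
    (fun t => (hc _ _).1 ?_) (fun t ht t' ht' hp => ?_)
  · revert t; decide
  · have key : ∀ t ∈ ({0, 1, 2, 3, 4, 5, 6} : Finset (Fin 8)),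
        ∀ t' ∈ ({0, 1, 2, 3, 4, 5, 6} : Finset (Fin 8)),
          Tk538.cK t.castSucc = Tk538.cK t'.castSucc → t = t' := by decide
    exact key t ht t' ht' ((hc _ _).2 hp)

section half

variable {t : ℝ} {lam lam2 : Fin 2 → (Fin 12 → ℝ) → ℝ} {ρ0 ρ2 : Fin 8 → ℝ} {l α : ℝ} {h : ℕ → ℝ}

/-- **tangential identity and direction inequality** -/
theorem tanver_A (H : Half8 θ θb t kD (-1) lam 0 ρ0 (DL c s qa qb 0 (-1) (-2)) l α h lam2 ρ2)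
    (h0 : lam 0 0 = 0)
    (hrec : lam 0 (xt kp 0 (RL8.vec (nat8 1 (-θ) (-θb)))) = DL c s qa qb 1 (-θ) (-θb))
    (hθ : 0 < θ) (h1 : 1 / 2 < k) (h2 : k < 1) (hb : θb = 2 * θ - k) :
    (plA s (Tq126.sn8 ρ2 0)).Tan c θ (2 * θ - k) qa qb ∧
      0 ≤ (plA s (Tq126.sn8 ρ2 0)).Fa qa + 2 * (plA s (Tq126.sn8 ρ2 0)).Fb qb := by
  have a1 := cls_T H (rep_kD hθ h1 h2 hb)
  have a2 := cls_V H (rep_kD hθ h1 h2 hb)
  simp only [xt_zero8, h0, hrec] at a1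
  rw [Finset.sum_insert (by decide), Finset.sum_insert (by decide), Finset.sum_insert (by decide),
    Finset.sum_insert (by decide), Finset.sum_insert (by decide), Finset.sum_insert (by decide),
    Finset.sum_singleton] at a1 a2
  unfold DL at a1 a2
  ev8
  have g0 : Tq126.sn8 ρ2 0 0 = ρ2 0 := rfl
  have g1 : Tq126.sn8 ρ2 0 1 = ρ2 1 := rfl
  have g2 : Tq126.sn8 ρ2 0 2 = ρ2 2 := rfl
  have g3 : Tq126.sn8 ρ2 0 3 = ρ2 3 := rfl
  have g4 : Tq126.sn8 ρ2 0 4 = ρ2 4 := rfl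
  have g5 : Tq126.sn8 ρ2 0 5 = ρ2 5 := rfl
  have g6 : Tq126.sn8 ρ2 0 6 = ρ2 6 := rfl
  subst hb
  constructor
  · unfold Pl.Tan Pl.Fa Pl.Fb plA
    simp only [g0, g1, g2, g3, g4, g5, g6]
    linarith
  · unfold Pl.Fa Pl.Fb plA
    simp only [g0, g1, g2, g3, g4, g5, g6]
    linarith

end half

/-- **class level: `1/2 ≤ s`, `1/2 < k < 1`, `(1 + k)/3 ≤ θ` is impossible below the record** -/
theorem kD_false (N : Num θ s c qa qb) (hs : 1 / 2 ≤ s) (hk : 1 / 2 < k) (hk1 : k < 1)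
    (hθ : (1 + k) / 3 ≤ θ) (H : Cl9 Tk538.cK dl s Λ φ ρ) (FP : FctP Sk Λ) (FK : FctK k Λ)
    (hS : SkU κ1 κ2 κ3 Sk) (h1 : 0 < κ1) (h2 : 0 < κ2) (h3 : 0 < κ3)
    (tan : (plA s ρ).Tan c θ (2 * θ - k) qa qb)
    (ver : 0 ≤ (plA s ρ).Fa qa + 2 * (plA s ρ).Fb qb) : False :=
  kHalf_false N hs hk.le (khalf_A H FP FK hS h1 h2 h3 (by linarith)) tan
    (mul_nonneg (by linarith) ver)

end Crest.Agent.R116.Th658
end

-- ▼ part R116/Th5b_658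
section

/-!
# R116 (K side, ties), the two-height facts at a natural plane over the context (helper658)

* **`pd8_fctP`** : `CtxT` + 363's `Pd8` of a natural offset, `s < 1`, ⊢ 171's `FctP Sk Λ`
-/

set_option autoImplicit false
set_option linter.unusedSectionVars false
set_option linter.unusedVariables false

open Set Filter Topology

namespace Crest.Agent.R116.Th658

open Crest.Agent.R138
open Crest.Agent.R138.Ex926 (Base U IsTan)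
open Crest.Agent.R136
open Crest.Agent.R136.MkA627
open Crest.Agent.R136.TD627
open Crest.Agent.R136.Net191
open Crest.Agent.R136.Lq196
open Crest.Agent.R136.Qg926 Crest.Agent.R136.Gf356 Crest.Agent.R116.EvL504
open Crest.Agent.R116.ChL222
open Crest.Agent.R116.PL504 (nb rL DN eL βL oL Shift eL_wall)
open Crest.Agent.R116.Sg337 (bx9)
open Crest.Agent.R116.Gd222 (TSet sN PDL DT)
open Crest.Agent.R116.KI439
open Crest.Agent.R116.KF439 (PL)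
open Crest.Agent.R116.CtxB468
open Crest.Agent.R116.Rcx363 (fo fo_lip Prf)
open Crest.Agent.R116.RbM219
open Crest.Agent.R116.RbK219 (RS)
open Crest.Agent.R116.Kz647
open Crest.Agent.R116.Pd363
open Crest.Agent.R116.SgF665 (wl wl_add wl_smul LM0 mem_LM0 bx9_mem)
open Crest.Agent.R116.Tq741
open Crest.Agent.R116.Tq794
open Crest.Agent.R116.Pu171
open Sl741 (slice xt rs)

section ctx

variable {G : Geo TSet (Fin 2)} {L : ℕ → ℕ → LRay} {r : ℕ → ℝ} {g s : ℝ} {θ q : Fin 2 → ℝ}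
    {Rg : ℝ} {B : Base} {I : ℕ → Finset (ℕ × ℝ)} {lev : ℕ → ℚ → ℕ} {A : ℕ → ℝ}
    {f : ℕ → ℚ → ℕ → ℤ → ℕ} {b : ℕ → ℚ → ℕ → TSet} {vm : ℕ → ℚ → ℝ} {w : Fin 2 → ℕ → ℚ → ℝ}
    {fr : ℕ → ℚ → ℕ × ℝ → LInc} {fl : ℕ → ℕ × ℝ → LInc} {sc : Fin 12 → ℕ → ℝ}
    {w0 sa sb δ R : ℝ} {I0 I' : ℕ → Finset (ℕ × ℝ)} {ν own : (Fin 12 → ℝ) → ℝ} {c₀ : ℝ}
    {v0 t κ sg l α v c p : ℝ} {a b' : Fin 2} {Vis' : Fin 12 → Prop} {X : ℕ → Fin 12 → ℝ}
    {h' H : ℕ → ℝ} {lam lam2 : Fin 2 → (Fin 12 → ℝ) → ℝ} {Sk : V9 → Prop}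

/-- **the two-height facts of a natural plane, `D` frozen** -/
theorem pd8_fctP {ρ ρ2 : Fin 8 → ℝ}
    (P : Pd8 R s a b' Vis' (θ 0) (θ 1) w0 sa sb v0 t κ (nat8 v c p) sg (fo ν own) lam ρ l α h' X H
      lam2 ρ2)
    (C : CtxT G L r g s θ q Rg B I lev A f b vm w fr fl sc w0 sa sb δ R I0 I' ν own c₀)
    (hs1 : s < 1) (ht : t ≠ 0)
    (hSk : ∀ w, LegM 0 w → Sk w → ∀ k, Vis' k → E8 w k ≤ w 0 * βL (θ 0) (θ 1) k) :
    FctP Sk (fun w => lam2 0 (xt kp 0 (RL8.vec (fun i : Fin 8 => w i.castSucc)))) := by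
  obtain ⟨zz, cc, pp, dd, hXn⟩ := pd8_natural P
  have ht' : ∀ j, IsTan (Leg monL R) LM0 (fo ν own j) X H (lam2 j) := fun j =>
    Rc683.tan_mono (P.tan j) Subset.rfl (LM0_L8B ht)
  have Hp := P.prf.mono (LM0_L8B (θa := θ 0) (θb := θ 1) (B := nat8 v c p) (sg := sg) ht)
  have hlip : ∃ K : ℝ, 0 ≤ K ∧ ∀ j, ∀ p ∈ LM0, ∀ q ∈ LM0,
      |lam2 j p - lam2 j q| ≤ K * ‖p - q‖ := by
    refine ⟨12, by norm_num, fun j p hp' q hq' => ?_⟩
    have := SgO219.tan_lip P.pos (ht' j) (K := 12) (fo_lip C j) p hp' q hq'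
    rwa [dist_eq_norm] at this
  have h1 := fctP8 (j0 := (0 : Fin 2)) (f := fo ν own) (RowU388.nprof_T C)
    (fun n => Sd369.coc_N B lev w w0 sa sb fl n) (fun _ => ((0 : ℕ), (0 : ℝ))) LM0_closed
    (by rw [← E8_zero]; exact E8_mem leg_zero) (fun p hp q hq => LM0_add hp hq)
    (fun t ht p hp => LM0_smul ht hp) Subset.rfl P.pos P.lim ht' rfl hlip
    (Eventually.of_forall fun n => by rw [hXn n]; simp [eL])
    (Eventually.of_forall fun n => by rw [hXn n]; simp [eL])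
    (Eventually.of_forall fun n => by rw [hXn n]; simp [eL]) (Sk := Sk) (σ := 1 - s)
    (by linarith) (fun w R' hw hS hL => own_R (s := s) (M := LM0) (fun d hd => E8_mem hd) E8_add hw
      hL fun t ht' => own_prf Hp (fun d hd => E8_mem hd) E8_add (fun _ => rfl) e9_nonneg8 hw
        (hSk w hw hS) ht')
  simpa only [E8_eq] using h1

end ctx

end Crest.Agent.R116.Th658
end

-- ▼ part R116/Th5c_658

/-!
# R116, ROW TIE, `1/2 ≤ s`: the `κ`-plane below the record, `1/2 < k' < 1`, `1 + k' ≤ 3 θ`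
(helper658)

* `reg5`        : the region `(s, θ)`
* `PlugK η`     : 369's own-strip fact `FctK` at 363's plane `kD` (binder)
* **`cell5`**   : over the context
* **`fillH5`**  : the `Fill`, for every case `V` with `E` or `D` tied (`κ`-tie and double tie)
-/

set_option autoImplicit false
set_option linter.unusedSectionVars false
set_option linter.unusedVariables false

open Set Filter Topology

namespace Crest.Agent.R116.Th658

open Crest.Agent.R138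
open Crest.Agent.R138.Ex926 (Base U IsTan)
open Crest.Agent.R136
open Crest.Agent.R136.MkA627
open Crest.Agent.R136.TD627
open Crest.Agent.R136.Net191
open Crest.Agent.R136.Lq196
open Crest.Agent.R116.ChL222
open Crest.Agent.R116.PL504 (nb rL DN eL βL oL Shift)
open Crest.Agent.R116.Sg337 (bx9 DL)
open Crest.Agent.R116.Gd222 (TSet sN PDL DT)
open Crest.Agent.R116.KI439
open Crest.Agent.R116.KF439 (PL)
open Crest.Agent.R116.KTop387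
open Crest.Agent.R116.CtxB468
open Crest.Agent.R116.KTie794
open Crest.Agent.R116.Rcx363
open Crest.Agent.R116.RbM219
open Crest.Agent.R116.RbK219 (RS)
open Crest.Agent.R116.Kz647
open Crest.Agent.R116.Pd363
open Crest.Agent.R116.Tq741
open Crest.Agent.R116.Tq794
open Crest.Agent.R116.Tp139
open Crest.Agent.R116.Pu171
open Crest.Agent.R116.Tie460
open Sl741 (slice xt rs)

/-- the region -/
def reg5 (s : ℝ) (θ : Fin 2 → ℝ) : Prop :=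
  1 / 2 ≤ s ∧ 1 / 2 < 2 * θ 0 - θ 1 ∧ 2 * θ 0 - θ 1 < 1 ∧ 1 + (2 * θ 0 - θ 1) ≤ 3 * θ 0


/-- **369's own-strip fact at the plane `kD`** (`E` tied, `D` invisible, `k' < 1`) -/
def PlugK (η : ℝ) : Prop :=
  ∀ {G : Geo TSet (Fin 2)} {L : ℕ → ℕ → LRay} {r : ℕ → ℝ} {g s : ℝ} {θ q : Fin 2 → ℝ}
    {Rg : ℝ} {B : Base} {I : ℕ → Finset (ℕ × ℝ)} {lev : ℕ → ℚ → ℕ} {A : ℕ → ℝ}
    {f : ℕ → ℚ → ℕ → ℤ → ℕ} {b : ℕ → ℚ → ℕ → TSet} {vm : ℕ → ℚ → ℝ} {w : Fin 2 → ℕ → ℚ → ℝ}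
    {fr : ℕ → ℚ → ℕ × ℝ → LInc} {fl : ℕ → ℕ × ℝ → LInc} {sc : Fin 12 → ℕ → ℝ}
    {w0 sa sb δ R : ℝ} {I0 I' : ℕ → Finset (ℕ × ℝ)} {ν own : (Fin 12 → ℝ) → ℝ} {c₀ : ℝ}
    {v0 t κ l α : ℝ} {a b' : Fin 2} {Vis' : Fin 12 → Prop} {X : ℕ → Fin 12 → ℝ}
    {h' H : ℕ → ℝ} {lam lam2 : Fin 2 → (Fin 12 → ℝ) → ℝ} {ρ ρ2 : Fin 8 → ℝ},
    CtxT G L r (g + 2 * s) s θ q Rg B I lev A f b vm w fr fl sc w0 sa sb δ R I0 I' ν own c₀ →
    NumL η g s θ q → w0 + (θ 1 + sb) < R → w0 + 1 + sb < R → θ 0 + |θ 1| + 1 ≤ Rg →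
    InvT PL B I 1 fl (sc 1) → TieT θ B I lev fl sc 2 → 2 * θ 0 - θ 1 < 1 →
    0 < v0 → v0 < 1 → 0 < t →
    Pd8 R s a b' Vis' (θ 0) (θ 1) w0 sa sb v0 t κ kD (-1) (fo ν own) lam ρ l α h' X H lam2 ρ2 →
    FctK (2 * θ 0 - θ 1) (fun w => lam2 0 (xt kp 0 (RL8.vec (fun i : Fin 8 => w i.castSucc))))

section ctx

variable {G : Geo TSet (Fin 2)} {L : ℕ → ℕ → LRay} {r : ℕ → ℝ} {g s : ℝ} {θ q : Fin 2 → ℝ}
    {Rg : ℝ} {B : Base} {I : ℕ → Finset (ℕ × ℝ)} {lev : ℕ → ℚ → ℕ} {A : ℕ → ℝ}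
    {f : ℕ → ℚ → ℕ → ℤ → ℕ} {b : ℕ → ℚ → ℕ → TSet} {vm : ℕ → ℚ → ℝ} {w : Fin 2 → ℕ → ℚ → ℝ}
    {fr : ℕ → ℚ → ℕ × ℝ → LInc} {fl : ℕ → ℕ × ℝ → LInc} {sc : Fin 12 → ℕ → ℝ}
    {w0 sa sb δ R : ℝ} {I0 I' : ℕ → Finset (ℕ × ℝ)} {ν own : (Fin 12 → ℝ) → ℝ} {c₀ : ℝ} {η : ℝ}

/-- **the cell over the context** -/
theorem cell5 (hW : PlugK η) (hη : η < 1)
    (C : CtxT G L r (g + 2 * s) s θ q Rg B I lev A f b vm w fr fl sc w0 sa sb δ R I0 I' ν own c₀)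
    (hN : NumL η g s θ q) (hR0 : w0 + (θ 1 + sb) < R) (hR1 : w0 + 1 + sb < R)
    (hRg : θ 0 + |θ 1| + 1 ≤ Rg) (hmic : Mic ν (θ 0) (θ 1) w0 sa sb)
    (hV1 : InvT PL B I 1 fl (sc 1)) (hT : TieT θ B I lev fl sc 2) (h5 : reg5 s θ) : False := by
  obtain ⟨hs, hk, hk1, hθ⟩ := h5
  have hθ0 := hN.θa
  have hk0 : 0 < 2 * θ 0 - θ 1 := by linarith
  have hb : θ 1 = 2 * θ 0 - (2 * θ 0 - θ 1) := by ring
  have hSok := sok_kD hθ0 hk0 hb
  obtain ⟨v0, -, hv0, hv1, a, b', x, hh, lam, -, -, O⟩ := exists_out8 C hR0 hR1 hθ0 (by linarith)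
    hmic hV1 (t := 1) one_pos (T := Unit) (Bs := fun _ => kD) (sg := fun _ => -1)
    (fun _ => hSok) (fun _ => leg_kD) (N := Set.univ) (Eventually.of_forall fun _ => trivial)
  obtain ⟨c0, hc0, -, -, ρ, hR⟩ := O.surf ()
  have e0 : kD 0 = 0 := rfl
  have hVis : ∀ k, VisT B I fl sc k → ((VisT B I fl sc k ∧ k ≠ 7 ∧ k ≠ 8) ∧
      kD (cl8 k) ≤ kD 0 * βL (θ 0) (θ 1) k) ∨ kD (cl8 k) < kD 0 * βL (θ 0) (θ 1) k := by
    intro k hk'
    rcases Fk647.vis_flag C.out k hk' with rfl | rfl | rfl | rfl | rfl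
    · refine Or.inl ⟨⟨hk', by decide, by decide⟩, ?_⟩
      change kD 0 ≤ kD 0 * _
      rw [e0, zero_mul]
    · exact absurd hV1 hk'
    · refine Or.inl ⟨⟨hk', by decide, by decide⟩, ?_⟩
      change kD 7 ≤ kD 0 * _
      rw [e0, zero_mul]
      ev8; norm_num
    · refine Or.inr ?_
      change kD 6 < kD 0 * _
      rw [e0, zero_mul]
      ev8; norm_num
    · refine Or.inr ?_
      change kD 6 < kD 0 * _
      rw [e0, zero_mul]
      ev8; norm_num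
  obtain ⟨l, α, h', X, H, lam2, ρ2, -, -, -, P⟩ :=
    plane8 (Vis' := fun k => VisT B I fl sc k ∧ k ≠ 7 ∧ k ≠ 8) (v := 0) (c := -1) (p := -2) O
      one_pos hSok leg_kD hc0 hR le_rfl (not_not.2 hV1) hVis (N := Set.univ)
      (Eventually.of_forall fun _ => trivial) (y := 1) one_pos
  have hc : ∀ i j : Fin 8, Tk538.cK i.castSucc = Tk538.cK j.castSucc ↔
      RbK219.Par (nat8 1 (-(θ 0)) (-(θ 1))) kD i j := fun i j => by
    rw [← cK_eq hk hk1]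
    exact Tq126.hc_kD hθ0 hk0 hb i j
  obtain ⟨φ, Hc⟩ := P.cls one_pos hSok
    (fun k hk' => Fk647.vis_flag C.out k hk'.1) hc (by decide) (Tq126.hz_kD hθ0 hk0 hb)
  have hSk : ∀ w : V9, LegM 0 w → w 7 < (2 * θ 0 - θ 1) * w 0 →
      ∀ k, (VisT B I fl sc k ∧ k ≠ 7 ∧ k ≠ 8) → E8 w k ≤ w 0 * βL (θ 0) (θ 1) k := by
    intro w hw hw7 k hk'
    rcases Fk647.vis_flag C.out k hk'.1 with rfl | rfl | rfl | rfl | rfl
    · have e1 : βL (θ 0) (θ 1) 0 = 1 := rfl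
      rw [e1, mul_one]; exact le_rfl
    · exact absurd hV1 hk'.1
    · have e2 : βL (θ 0) (θ 1) 2 = -(θ 1) - 2 * -(θ 0) := rfl
      change w 7 ≤ w 0 * _
      rw [e2]
      nlinarith
    · exact absurd rfl hk'.2.1
    · exact absurd rfl hk'.2.2
  have FP := pd8_fctP (Sk := fun w => w 7 < (2 * θ 0 - θ 1) * w 0) (v := 0) (c := -1) (p := -2)
    P C hN.s1 one_ne_zero hSk
  have FK := hW C hN hR0 hR1 hRg hV1 hT hk1 hv0 hv1 one_pos P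
  have hrec : lam 0 (xt kp 0 (RL8.vec (nat8 1 (-(θ 0)) (-(θ 1))))) =
      DL (g + 2 * s) s (q 0) (q 1) 1 (-(θ 0)) (-(θ 1)) := by
    have h1 := O.rx.rcd 1
    rw [RL8_nat]
    simpa only [mul_one, ntD] using h1
  obtain ⟨tan, ver⟩ := tanver_A P.half (O.zero 0) hrec hθ0 hk hk1 hb
  exact kD_false (num_of hη hN) hs hk hk1 (by linarith) Hc FP FK
    (κ1 := 1) (κ2 := 2 * θ 0 - θ 1) (κ3 := 1) (fun w _ h7 _ => h7) one_pos hk0 one_pos tan ver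

end ctx

/-- **THE FILL** : `κ`-tie and double tie, `1/2 ≤ s`, `1/2 < k' < 1`, `1 + k' ≤ 3 θ` -/
theorem fillH5 {η : ℝ} (hη : η < 1) (hD0 : D0T η reg5) (hW : PlugK η)
    {V : (Fin 2 → ℝ) → Base → (ℕ → Finset (ℕ × ℝ)) → (ℕ → ℚ → ℕ) → (ℕ → ℕ × ℝ → LInc) →
      (Fin 12 → ℕ → ℝ) → Prop}
    (hV : ∀ θ B I lev fl sc, V θ B I lev fl sc → VisE θ B I lev fl sc) :
    Fill η V fun g s θ q => 1 / 2 ≤ s → 1 / 2 < 2 * θ 0 - θ 1 → 2 * θ 0 - θ 1 < 1 →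
      1 + (2 * θ 0 - θ 1) ≤ 3 * θ 0 → False := by
  intro g s θ q hN
  refine ⟨θ 0 + |θ 1| + 1, fun Rg hRg => ?_⟩
  intro G L r B I lev A f b vm w fr fl sc w0 sa sb δ R I0 I' ν own c₀ C hV' hs hk hk1 hθ
  obtain ⟨w0, sa, sb, δ, R, I0, I', ν, own, c₀, C, hR0, hR1⟩ := strict_ctx C
  have hV1 : InvT PL B I 1 fl (sc 1) := C.out.invD (by linarith)
  have hT : TieT θ B I lev fl sc 2 := by
    rcases hV _ _ _ _ _ _ hV' with h | h
    · exact h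
    · exact absurd hV1 h.1
  have h5 : reg5 s θ := ⟨hs, hk, hk1, hθ⟩
  have hmic := hD0 C hN h5 hR0 hR1 hRg hV1 (fun _ => by linarith [hN.θa]) (fun _ => hk1)
  exact cell5 hW hη C hN hR0 hR1 hRg hmic hV1 hT h5

/-- `κ`-tie -/
theorem fillH5_k {η : ℝ} (hη : η < 1) (hD0 : D0T η reg5) (hW : PlugK η) :
    Fill η (fun θ B I lev fl sc => InvB B I fl sc ∧ VisE θ B I lev fl sc)
      fun g s θ q => 1 / 2 ≤ s → 1 / 2 < 2 * θ 0 - θ 1 → 2 * θ 0 - θ 1 < 1 →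
        1 + (2 * θ 0 - θ 1) ≤ 3 * θ 0 → False :=
  fillH5 hη hD0 hW fun _ _ _ _ _ _ h => h.2

/-- double tie -/
theorem fillH5_d {η : ℝ} (hη : η < 1) (hD0 : D0T η reg5) (hW : PlugK η) :
    Fill η (fun θ B I lev fl sc => VisB θ B I lev fl sc ∧ VisE θ B I lev fl sc)
      fun g s θ q => 1 / 2 ≤ s → 1 / 2 < 2 * θ 0 - θ 1 → 2 * θ 0 - θ 1 < 1 →
        1 + (2 * θ 0 - θ 1) ≤ 3 * θ 0 → False :=
  fillH5 hη hD0 hW fun _ _ _ _ _ _ h => h.2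

end Crest.Agent.R116.Th658
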