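import Crest.Agent.R116.UpC4_448
import Crest.Agent.R116.CWd3_480
import Crest.Agent.R116.Cad1_538
import Crest.Agent.R116.Ba2_449
import Crest.Agent.R116.Ckm4_538
import Crest.Agent.R116.LZg6_725
import Crest.Agent.R116.LKMDef_299
import Crest.Agent.R116.WDefC_188
import Crest.Agent.R116.Cov2_369
import Crest.Agent.R116.KMRDef_890

-- ▼ part R116/KMt1_448
section

/-!
# R116 (S0155), wave side, base `KMt`, part 1: change of level of the plate averages (helper448)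

`loc_u` : one child cap of level `ρ'`, unsliced function, seen through the near parent caps.
`plt_le`, `apl_le_Den` : the plate average of level `r` at a frame `z` is at most `C (ρ'/ρ)^3` times
the density of the packets of level `R` (plates `ρ⁻¹ × ρ⁻¹ × ρ'/ρ`) at the translated point.
-/

set_option autoImplicit false
set_option linter.unusedSectionVars false

open MeasureTheory FourierTransform
open scoped ContDiff ENNReal

namespace Crest.Agent.R116.KMt448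

open Crest.Agent.R138.Wf448
open Crest.Agent.R138.Defs (E2 ee)
open Crest.Agent.R138.Wpk685 (win fat cen caps)
open Crest.Agent.R138.Loc878 (nearL mem_nearL Near capwin_prod sum_near_le)
open Crest.Agent.R116.CWp480 Crest.Agent.R116.CDef480 Crest.Agent.R116.CWc480
  Crest.Agent.R116.CWd480
open Crest.Agent.R116.Up192 (pa pa_pos SV_pa)
open Crest.Agent.R116.Cad538 (frc wt wt_frame wt_ball Den frc_le_frc norm_frc_le)
open Crest.Agent.R116.UpC448 (frc_eq Pl_mono Pl_le_Pl)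
open Crest.Agent.R116.WC188

/-- the parts of `g` in the parent caps near `m'`. -/
noncomputable def gnear (ρ ρ' : ℝ) (m' : ℤ × ℤ) (g : E3 → ℂ) (ζ : E3) : ℂ :=
  ∑ m ∈ nearL ρ ρ' m', capc ρ m ζ * g ζ

theorem umc_near {ρ ρ' : ℝ} (hρ : 0 < ρ) (hρρ : ρ ≤ ρ') {g : E3 → ℂ}
    (hg : ∀ ζ, g ζ ≠ 0 → ‖slp ζ‖ ≤ 2) (z : E3 × ℝ) (m' : ℤ × ℤ) :
    umc ρ' (trc z g) m' = umc ρ' (trc z (gnear ρ ρ' m' g)) m' := by
  unfold umc
  congr 1
  funext ζ
  unfold trc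
  rw [← mul_assoc, ← mul_assoc]
  congr 1
  have h1 := sum_capc_mul hρ hg ζ
  have h2 : capc ρ' m' ζ * g ζ = ∑ m ∈ caps ρ, capc ρ' m' ζ * (capc ρ m ζ * g ζ) := by
    rw [← Finset.mul_sum]
    exact congrArg (fun x => capc ρ' m' ζ * x) h1
  rw [h2]
  unfold gnear
  rw [Finset.mul_sum]
  symm
  refine Finset.sum_subset (fun m hm => (mem_nearL.1 hm).1) fun m hm hm2 => ?_
  have h3 : ¬ Near ρ ρ' m' m := fun h => hm2 (mem_nearL.2 ⟨hm, h⟩)
  have h4 := capwin_prod hρ hρρ h3 (slp ζ)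
  have h5 : capc ρ' m' ζ * capc ρ m ζ = 0 := by
    rw [mul_comm]
    exact h4
  rw [← mul_assoc, h5, zero_mul]

/-- **local change of level, unsliced**, one child cap. -/
theorem loc_u {a : ℝ} (ha : 1 ≤ a) (n : ℕ) (T : ℝ) {L : ℝ} (hL : 1 ≤ L) :
    ∃ C : ℝ, 0 ≤ C ∧ ∀ (ρ ρ' : ℝ) (hρ : 0 < ρ) (hρ' : 0 < ρ'), ρ ≤ ρ' →
    ∀ (A : E3 ≃L[ℝ] E3) (K : ℝ) (w : E3 → ℝ), SV A K n w → ∀ m' : ℤ × ℤ,
    (∀ m ∈ nearL ρ ρ' m', ∀ x, ‖A x‖ ≤ L * ‖Pl ρ 1 hρ one_pos (cen ρ m) x‖) →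
    (∀ x, ‖A x‖ ≤ L * ‖Pl ρ' 1 hρ' one_pos (cen ρ' m') x‖) →
    ∀ (t : ℝ) (z : E3 × ℝ), |t| * ρ' ^ 2 ≤ T → |t + z.2| * ρ ^ 2 ≤ T →
    ∀ (g : E3 → ℂ), Integrable g → MemLp g 2 → Rng a g → (∀ ζ, g ζ ≠ 0 → ‖slp ζ‖ ≤ 2) →
    ∫⁻ y, ENNReal.ofReal (w (y - t • vel (cen ρ' m'))) * ‖umc ρ' (trc z g) m' y‖ₑ ^ 2 ≤
      ENNReal.ofReal (C * K ^ 9) * ∑ m ∈ nearL ρ ρ' m', ∫⁻ y,
        ENNReal.ofReal (w (y - (t + z.2) • vel (cen ρ m) - z.1)) * ‖umc ρ g m y‖ₑ ^ 2 := by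
  obtain ⟨C1, hC1, h1⟩ := B_ana_u ha n T hL
  obtain ⟨C2, hC2, h2⟩ := A_ana_u ha n T hL
  refine ⟨C1 * C2, by positivity, ?_⟩
  intro ρ ρ' hρ hρ' hρρ A K w hw m' hA hA' t z ht htz g hg hg2 hr hs
  have hK := hw.one_le
  have hi : Integrable (gnear ρ ρ' m' g) :=
    integrable_finsetSum _ fun m _ => capc_int hg ρ m
  have hi2 : MemLp (gnear ρ ρ' m' g) 2 := memLp_finsetSum _ fun m _ => capc_l2 hg2 ρ m
  have hne : ∀ ζ, gnear ρ ρ' m' g ζ ≠ 0 → g ζ ≠ 0 := by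
    intro ζ h h0
    apply h
    unfold gnear
    simp [h0]
  have b1 := h1 ρ' hρ' A K w hw {m'} (by
    intro m hm x
    rw [Finset.mem_singleton] at hm
    subst hm
    exact hA' x) t ht (trc z (gnear ρ ρ' m' g)) (trc_int' hi z) (trc_l2' hi2 z)
    (fun ζ hζ => hr ζ (hne ζ (trc_ne hζ)))
  rw [Finset.sum_singleton, ← umc_near hρ hρρ hs z m'] at b1
  have b2 := h2 ρ hρ A K _ (hw.comp_sub z.1) (nearL ρ ρ' m') hA (t + z.2) htz g hg hg2 hr
  have e1 : (fun ζ => ∑ m ∈ nearL ρ ρ' m', capc ρ m ζ * g ζ) = gnear ρ ρ' m' g := rfl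
  rw [e1, ← WE_trc] at b2
  refine b1.trans ((mul_le_mul_right b2 _).trans (le_of_eq ?_))
  rw [← mul_assoc, ← ENNReal.ofReal_mul (by positivity)]
  congr 2
  ring

/-! ### one plate -/

theorem near_dist {ρ ρ' : ℝ} {m m' : ℤ × ℤ} (h : m ∈ nearL ρ ρ' m') :
    ‖cen ρ m - cen ρ' m'‖ ≤ 3 * ρ' := (mem_nearL.1 h).2.le

/-- the plate in the frame. -/
theorem plt_frc {ρ ρ' : ℝ} (hρ : 0 < ρ) (hρ' : 0 < ρ') (hρρ : ρ ≤ ρ') {C : E2} {X Y : E3} {s : ℝ}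
    (h : Y ∈ plt ρ'⁻¹ 1 C X s) : ‖frc ρ (ρ / ρ') C (Y - s • vel C - X)‖ ≤ 2 := by
  obtain ⟨h1, h2⟩ := h
  have hk : 0 ≤ ρ / ρ' := by positivity
  have hk1 : ρ / ρ' ≤ 1 := by rw [div_le_one hρ']; exact hρρ
  refine (norm_frc_le hρ.le hk _ _).trans ?_
  have e1 : lat (Y - s • vel C - X) = lat Y - (lat X + s • C) := by
    rw [lat_sub, lat_sub, lat_smul]
    unfold vel
    rw [lat_pt]
    abel
  have e2 : nrm C (Y - s • vel C - X) 0 = nrm C Y 0 - nrm C X s := by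
    unfold nrm
    rw [e1]
    simp only [PiLp.sub_apply, PiLp.smul_apply, smul_eq_mul, inner_sub_right, inner_add_right,
      real_inner_smul_right, real_inner_self_eq_norm_sq]
    unfold vel
    rw [pt_two]
    ring
  rw [e1, e2]
  have h3 : ρ * ‖lat Y - (lat X + s • C)‖ ≤ 1 := by
    calc ρ * ‖lat Y - (lat X + s • C)‖ ≤ ρ' * ρ'⁻¹ := by gcongr
      _ = 1 := mul_inv_cancel₀ hρ'.ne'
  have h4 : ρ / ρ' * |nrm C Y 0 - nrm C X s| ≤ 1 := by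
    calc ρ / ρ' * |nrm C Y 0 - nrm C X s| ≤ 1 * 1 :=
          mul_le_mul hk1 h2 (abs_nonneg _) zero_le_one
      _ = 1 := one_mul _
  linarith

/-- energy of one child cap on a plate. -/
theorem plt_le {a : ℝ} (ha : 1 ≤ a) (n : ℕ) (T : ℝ) :
    ∃ C : ℝ, 0 ≤ C ∧ ∀ (ρ ρ' : ℝ), 0 < ρ → ρ ≤ ρ' → ∀ (m' : ℤ × ℤ) (z : E3 × ℝ) (X : E3) (s : ℝ),
    |s| * ρ' ^ 2 ≤ T → |s + z.2| * ρ ^ 2 ≤ T →
    ∀ (g : E3 → ℂ), Integrable g → MemLp g 2 → Rng a g → (∀ ζ, g ζ ≠ 0 → ‖slp ζ‖ ≤ 2) →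
    ∫⁻ Y in plt ρ'⁻¹ 1 (cen ρ' m') X s, ‖umc ρ' (trc z g) m' Y‖ₑ ^ 2 ≤
      ENNReal.ofReal C * ∑ m ∈ nearL ρ ρ' m', ∫⁻ y, ENNReal.ofReal
        (wt (frc ρ (ρ / ρ') (cen ρ m)) n (y - (X + z.1) - (s + z.2) • vel (cen ρ m))) *
          ‖umc ρ g m y‖ₑ ^ 2 := by
  obtain ⟨C, hC, h⟩ := loc_u ha n T (L := 5) (by norm_num)
  refine ⟨3 ^ n * (C * 5 ^ n), by positivity, ?_⟩
  intro ρ ρ' hρ hρρ m' z X s hs hsz g hg hg2 hr hsl
  have hρ' : 0 < ρ' := hρ.trans_le hρρ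
  have hk : 0 < ρ / ρ' := by positivity
  have hk1 : ρ / ρ' ≤ 1 := by rw [div_le_one hρ']; exact hρρ
  set C' := cen ρ' m' with hC'
  set A : E3 ≃L[ℝ] E3 := Pl ρ (ρ / ρ') hρ hk C' with hA
  have hnear : ∀ m ∈ nearL ρ ρ' m', ρ / ρ' * ‖cen ρ m - C'‖ ≤ 3 * ρ := by
    intro m hm
    calc ρ / ρ' * ‖cen ρ m - C'‖ ≤ ρ / ρ' * (3 * ρ') := by gcongr; exact near_dist hm
      _ = 3 * ρ := by field_simp
  have hA1 : ∀ m ∈ nearL ρ ρ' m', ∀ x, ‖A x‖ ≤ 5 * ‖Pl ρ 1 hρ one_pos (cen ρ m) x‖ := by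
    intro m hm x
    have e1 := Pl_le_Pl hρ hk (D := 3) (by norm_num) (C := C') (C' := cen ρ m)
      (by rw [norm_sub_rev]; exact hnear m hm) x
    have e2 := Pl_mono hρ hk hρ one_pos le_rfl hk1 (cen ρ m) x
    have e3 := norm_nonneg (Pl ρ 1 hρ one_pos (cen ρ m) x)
    linarith
  have hA2 : ∀ x, ‖A x‖ ≤ 5 * ‖Pl ρ' 1 hρ' one_pos C' x‖ := by
    intro x
    have e2 := Pl_mono hρ hk hρ' one_pos hρρ hk1 C' x
    have e3 := norm_nonneg (Pl ρ' 1 hρ' one_pos C' x)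
    linarith
  have key := h ρ ρ' hρ hρ' hρρ A 1 (fun y => pa n A (y - X)) (SV_pa A n X) m' hA1 hA2 s z hs hsz
    g hg hg2 hr hsl
  have h1 : ∫⁻ Y in plt ρ'⁻¹ 1 C' X s, ‖umc ρ' (trc z g) m' Y‖ₑ ^ 2 ≤
      ENNReal.ofReal (3 ^ n) * ∫⁻ y, ENNReal.ofReal (pa n A (y - s • vel C' - X)) *
        ‖umc ρ' (trc z g) m' y‖ₑ ^ 2 := by
    rw [← lintegral_const_mul' _ _ ENNReal.ofReal_ne_top]
    refine le_trans ?_ (setLIntegral_le_lintegral (plt ρ'⁻¹ 1 C' X s) _)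
    have hpm : MeasurableSet (plt ρ'⁻¹ 1 C' X s) := by
      have hc : Continuous lat := latL.continuous
      have h1 : Continuous fun Y : E3 => ‖lat Y - (lat X + s • C')‖ := by fun_prop
      have h2 : Continuous fun Y : E3 => |nrm C' Y 0 - nrm C' X s| := by
        unfold nrm
        fun_prop
      exact ((isClosed_le h1 continuous_const).inter
        (isClosed_le h2 continuous_const)).measurableSet
    refine setLIntegral_mono' hpm fun y hy => ?_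
    rw [← mul_assoc, ← ENNReal.ofReal_mul (by positivity)]
    have h2 := plt_frc hρ hρ' hρρ hy
    have h3 := wt_ball (frc ρ (ρ / ρ') C') (X := 2) (by norm_num) n h2
    have e1 : wt (frc ρ (ρ / ρ') C') n (y - s • vel C' - X) = pa n A (y - s • vel C' - X) := by
      unfold wt pa
      rw [frc_eq hρ hk]
    rw [e1, show (1 : ℝ) + 2 = 3 by norm_num] at h3
    calc ‖umc ρ' (trc z g) m' y‖ₑ ^ 2 = 1 * ‖umc ρ' (trc z g) m' y‖ₑ ^ 2 := (one_mul _).symm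
      _ ≤ _ := by
        refine mul_le_mul' ?_ le_rfl
        rw [← ENNReal.ofReal_one]
        exact ENNReal.ofReal_le_ofReal h3
  refine h1.trans ((mul_le_mul' le_rfl key).trans ?_)
  rw [one_pow, mul_one, ← mul_assoc, ← ENNReal.ofReal_mul (by positivity),
    show (3:ℝ) ^ n * (C * 5 ^ n) = (3 ^ n * C) * 5 ^ n by ring,
    ENNReal.ofReal_mul (p := 3 ^ n * C) (by positivity), mul_assoc]
  refine mul_le_mul' le_rfl ?_
  rw [Finset.mul_sum]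
  refine Finset.sum_le_sum fun m hm => ?_
  rw [← lintegral_const_mul' _ _ ENNReal.ofReal_ne_top]
  refine lintegral_mono fun y => ?_
  rw [← mul_assoc, ← ENNReal.ofReal_mul (by positivity)]
  refine mul_le_mul' (ENNReal.ofReal_le_ofReal ?_) le_rfl
  have e2 : y - (s + z.2) • vel (cen ρ m) - z.1 - X =
      y - (X + z.1) - (s + z.2) • vel (cen ρ m) := by abel
  rw [e2]
  have e3 : pa n A (y - (X + z.1) - (s + z.2) • vel (cen ρ m)) =
      wt (frc ρ (ρ / ρ') C') n (y - (X + z.1) - (s + z.2) • vel (cen ρ m)) := by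
    unfold wt pa
    rw [frc_eq hρ hk]
  rw [e3]
  refine wt_frame (frc ρ (ρ / ρ') (cen ρ m)) (frc ρ (ρ / ρ') C') (by norm_num) n ?_
  have h5 := frc_le_frc hρ.le hk.le (C := C') (C' := cen ρ m) (K := 3) (by norm_num)
    (hnear m hm) (y - (X + z.1) - (s + z.2) • vel (cen ρ m))
  linarith

end Crest.Agent.R116.KMt448
end

-- ▼ part R116/KMt2_448
section

/-!
# R116 (S0155), wave side, base `KMt`, part 2: `NP` of level `r` by the density of level `R`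
(helper448)
-/

set_option autoImplicit false
set_option linter.unusedSectionVars false

open MeasureTheory FourierTransform
open scoped ContDiff ENNReal

namespace Crest.Agent.R116.KMt448

open Crest.Agent.R138.Defs (E2 ee)
open Crest.Agent.R138.Wpk685 (win fat cen caps)
open Crest.Agent.R138.Loc878 (nearL mem_nearL Near capwin_prod sum_near_le)
open Crest.Agent.R116.CDef480 Crest.Agent.R116.CWd480
open Crest.Agent.R116.Cad538 (frc wt wt_frame wt_ball Den frc_le_frc norm_frc_le)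
open Crest.Agent.R116
open Crest.Agent.R116.WC188

/-- the size of the caps of level `r`. -/
noncomputable abbrev an (r : ℝ) : ℝ := r ^ (-(1/2) : ℝ)

theorem an_pos {r : ℝ} (hr : 0 < r) : 0 < an r := Real.rpow_pos_of_pos hr _

theorem an_anti {r R : ℝ} (hr : 0 < r) (hrR : r ≤ R) : an R ≤ an r :=
  Real.rpow_le_rpow_of_nonpos hr hrR (by norm_num)

theorem an_le_one {r : ℝ} (hr : 1 ≤ r) : an r ≤ 1 :=
  Real.rpow_le_one_of_one_le_of_nonpos hr (by norm_num)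

theorem an_sq {r : ℝ} (hr : 0 < r) : an r ^ 2 = r⁻¹ := by
  unfold an
  rw [← Real.rpow_natCast, ← Real.rpow_mul hr.le]
  norm_num
  rw [Real.rpow_neg_one]

theorem an_inv {r : ℝ} (hr : 0 < r) : (an r)⁻¹ = r ^ (1/2 : ℝ) := by
  unfold an
  rw [Real.rpow_neg hr.le, inv_inv]

/-- thin side of the plates of level `R` seen from the level `r`: `kp = an R / an r = (r/R)^(1/2)`. -/
noncomputable abbrev kp (r R : ℝ) : ℝ := an R / an r

theorem kp_pos {r R : ℝ} (hr : 0 < r) (hR : 0 < R) : 0 < kp r R := div_pos (an_pos hR) (an_pos hr)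

theorem kp_le_one {r R : ℝ} (hr : 0 < r) (hrR : r ≤ R) : kp r R ≤ 1 := by
  unfold kp
  rw [div_le_one (an_pos hr)]
  exact an_anti hr hrR

theorem an_le_kp {r R : ℝ} (hr : 1 ≤ r) (hR : 0 < R) : an R ≤ kp r R := by
  unfold kp
  rw [le_div_iff₀ (an_pos (by linarith))]
  have := an_pos hR
  have h2 := an_le_one hr
  nlinarith

theorem kp_inv {r R : ℝ} (hr : 0 < r) (hR : 0 < R) : (kp r R)⁻¹ = (R / r) ^ (1/2 : ℝ) := by
  unfold kp
  rw [inv_div, Real.div_rpow hR.le hr.le, ← an_inv hR, ← an_inv hr]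
  have := an_pos hr
  have := an_pos hR
  field_simp

/-- the density of the packets of level `R` in the plates `R^(1/2) × R^(1/2) × (R/r)^(1/2)`. -/
noncomputable abbrev Aup (n : ℕ) (r R : ℝ) (g : E3 → ℂ) (S : ℤ × ℤ → Set E3) (X : E3) (t : ℝ) :
    ℝ≥0∞ := Cad538.Acc n (an R) (kp r R) (an R) g S (caps (an R)) X t

/-- **plate average of level `r` by the density of level `R`**. -/
theorem apl_le {a : ℝ} (ha : 1 ≤ a) (n : ℕ) (T : ℝ) :
    ∃ C : ℝ, 0 ≤ C ∧ ∀ (r R : ℝ), 1 ≤ r → r ≤ R → ∀ (z p : E3 × ℝ), |p.2| ≤ T * r →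
    |p.2 + z.2| ≤ T * R →
    ∀ (g : E3 → ℂ), Integrable g → MemLp g 2 → Rng a g → (∀ ζ, g ζ ≠ 0 → ‖slp ζ‖ ≤ 2) →
    apl r (trc z g) p ≤ ENNReal.ofReal (C * (R / r) ^ (3/2 : ℝ)) *
      Aup n r R g (fun _ => Set.univ) (p + z).1 (p + z).2 := by
  obtain ⟨C, hC, h⟩ := plt_le ha n T
  refine ⟨36 * C, by positivity, ?_⟩
  intro r R hr hrR z p hp hpz g hg hg2 hrg hsl
  have hr0 : 0 < r := by linarith
  have hR0 : 0 < R := by linarith
  have hρ := an_pos hR0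
  have hρ' := an_pos hr0
  have h1 : ∀ m' ∈ caps (an r), ∫⁻ Y in plt (r ^ (1/2 : ℝ)) 1 (cen (an r) m') p.1 p.2,
      ‖umc (an r) (trc z g) m' Y‖ₑ ^ 2 ≤ ENNReal.ofReal C * ∑ m ∈ nearL (an R) (an r) m',
        ∫⁻ y, ENNReal.ofReal (wt (frc (an R) (kp r R) (cen (an R) m)) n
          (y - (p.1 + z.1) - (p.2 + z.2) • vel (cen (an R) m))) * ‖umc (an R) g m y‖ₑ ^ 2 := by
    intro m' _
    have h2 := h (an R) (an r) hρ (an_anti hr0 hrR) m' z p.1 p.2 (by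
      rw [an_sq hr0, ← div_eq_mul_inv, div_le_iff₀ hr0]; exact hp) (by
      rw [an_sq hR0, ← div_eq_mul_inv, div_le_iff₀ hR0]; exact hpz) g hg hg2 hrg hsl
    rw [an_inv hr0] at h2
    exact h2
  unfold apl
  refine (mul_le_mul' le_rfl (Finset.sum_le_sum h1)).trans ?_
  rw [← Finset.mul_sum]
  refine (mul_le_mul' le_rfl (mul_le_mul' le_rfl (sum_near_le hρ' _))).trans (le_of_eq ?_)
  unfold Aup Cad538.Acc Den
  simp only [Measure.restrict_univ, Prod.fst_add, Prod.snd_add]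
  have e36 : (36 : ℝ≥0∞) = ENNReal.ofReal 36 := by norm_num
  have hk := kp_pos hr0 hR0
  rw [e36, ← mul_assoc, ← mul_assoc, ← mul_assoc, ← ENNReal.ofReal_mul (by positivity),
    ← ENNReal.ofReal_mul (by positivity), ← ENNReal.ofReal_mul (by positivity)]
  congr 2
  have e1 : (R / r) ^ (3/2 : ℝ) * ((an R) ^ 2 * kp r R) = r⁻¹ := by
    have e2 : (R / r) ^ (3/2 : ℝ) = (R / r) * (kp r R)⁻¹ := by
      rw [kp_inv hr0 hR0, show (3/2 : ℝ) = 1 + 1/2 by norm_num,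
        Real.rpow_add (by positivity), Real.rpow_one]
    rw [e2, an_sq hR0]
    field_simp
  rw [mul_assoc (36 * C), e1]
  ring

theorem cylc_add {A r R : ℝ} (hA : 1 ≤ A) (hrR : r ≤ R) {z p : E3 × ℝ}
    (hz : z ∈ cylc R) (hp : p ∈ cylc (A * r)) : p + z ∈ cylc ((A + 1) * R) := by
  obtain ⟨h1, h2⟩ := hz
  obtain ⟨h3, h4⟩ := hp
  have h5 : A * r ≤ A * R := by nlinarith
  constructor
  · rw [Prod.fst_add]
    refine (norm_add_le _ _).trans ?_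
    linarith
  · rw [Prod.snd_add]
    refine (abs_add_le _ _).trans ?_
    linarith

/-- translation of a function on a region. -/
theorem lint_shift (F : E3 × ℝ → ℝ≥0∞) {S T : Set (E3 × ℝ)} (hS : MeasurableSet S)
    (hT : MeasurableSet T) (z : E3 × ℝ) (h : ∀ p ∈ S, p + z ∈ T) :
    ∫⁻ p in S, F (p + z) ≤ ∫⁻ p in T, F p := by
  have : (volume : Measure (E3 × ℝ)).IsAddRightInvariant := by
    rw [Measure.volume_eq_prod]; infer_instance
  rw [← lintegral_indicator hS, ← lintegral_indicator hT,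
    ← lintegral_add_right_eq_self (T.indicator F) z]
  refine lintegral_mono fun p => ?_
  by_cases hp : p ∈ S
  · rw [Set.indicator_of_mem hp, Set.indicator_of_mem (h p hp)]
  · rw [Set.indicator_of_notMem hp]
    exact bot_le

/-- **`NP` of level `r` by the density of level `R`**. -/
theorem NP_le_Aup {a A : ℝ} (ha : 1 ≤ a) (n : ℕ) (hA : 1 ≤ A) :
    ∃ C : ℝ, 0 ≤ C ∧ ∀ (r R : ℝ), 1 ≤ r → r ≤ R →
    ∀ (g : E3 → ℂ), Integrable g → MemLp g 2 → Rng a g → (∀ ζ, g ζ ≠ 0 → ‖slp ζ‖ ≤ 2) →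
    NP A r g R ≤ ENNReal.ofReal (C * (R / r) ^ (7 : ℝ)) *
      ∫⁻ p in cylc ((A + 1) * R), (Aup n r R g (fun _ => Set.univ) p.1 p.2) ^ (3/2 : ℝ) := by
  obtain ⟨C, hC, h⟩ := apl_le ha n (A + 1)
  refine ⟨256 * C ^ (3/2 : ℝ), by positivity, ?_⟩
  intro r R hr hrR g hg hg2 hrg hsl
  have hr0 : 0 < r := by linarith
  have hR0 : 0 < R := by linarith
  have hRr : 1 ≤ R / r := by rw [le_div_iff₀ hr0, one_mul]; exact hrR
  set F : E3 × ℝ → ℝ≥0∞ := fun p => (Aup n r R g (fun _ => Set.univ) p.1 p.2) ^ (3/2 : ℝ) with hF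
  set I : ℝ≥0∞ := ∫⁻ p in cylc ((A + 1) * R), F p with hI
  unfold NP
  refine iSup_le fun Z => iSup_le fun hZ => ?_
  have h1 : ∀ z ∈ Z, ∫⁻ p in cylc (A * r), (apl r (trc z g) p) ^ (3/2 : ℝ) ≤
      ENNReal.ofReal (C * (R / r) ^ (3/2 : ℝ)) ^ (3/2 : ℝ) * I := by
    intro z hz
    have hzc := hZ.mem z hz
    have h2 : ∀ p ∈ cylc (A * r), (apl r (trc z g) p) ^ (3/2 : ℝ) ≤
        ENNReal.ofReal (C * (R / r) ^ (3/2 : ℝ)) ^ (3/2 : ℝ) * F (p + z) := by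
      intro p hp
      have h3 := cylc_add hA hrR hzc hp
      have h4 : |p.2| ≤ (A + 1) * r := by
        have := hp.2
        nlinarith
      have h5 : |p.2 + z.2| ≤ (A + 1) * R := h3.2
      refine (ENNReal.rpow_le_rpow (h r R hr hrR z p h4 h5 g hg hg2 hrg hsl)
        (by norm_num)).trans (le_of_eq ?_)
      rw [ENNReal.mul_rpow_of_nonneg _ _ (by norm_num)]
    refine (setLIntegral_mono' (Ba449.meas_cylc _) h2).trans ?_
    rw [lintegral_const_mul' _ _ (ENNReal.rpow_ne_top_of_nonneg (by norm_num)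
      ENNReal.ofReal_ne_top)]
    exact mul_le_mul' le_rfl (lint_shift F (Ba449.meas_cylc _) (Ba449.meas_cylc _) z
      fun p hp => cylc_add hA hrR hzc hp)
  refine (Finset.sum_le_sum h1).trans ?_
  rw [Finset.sum_const, nsmul_eq_mul]
  refine (mul_le_mul' (Ba449.card_net hr0 hrR hZ) le_rfl).trans ?_
  rw [← mul_assoc]
  refine mul_le_mul' ?_ le_rfl
  rw [ENNReal.ofReal_rpow_of_nonneg (by positivity) (by norm_num),
    ← ENNReal.ofReal_mul (by positivity)]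
  refine ENNReal.ofReal_le_ofReal ?_
  rw [Real.mul_rpow hC (by positivity), ← Real.rpow_mul (by positivity)]
  have e1 : (R / r) ^ 4 * (R / r) ^ ((3/2 : ℝ) * (3/2)) ≤ (R / r) ^ (7 : ℝ) := by
    rw [← Real.rpow_natCast, ← Real.rpow_add (by positivity)]
    refine Real.rpow_le_rpow_of_exponent_le hRr ?_
    norm_num
  calc 256 * (R / r) ^ 4 * (C ^ (3/2 : ℝ) * (R / r) ^ ((3/2 : ℝ) * (3/2)))
      = 256 * C ^ (3/2 : ℝ) * ((R / r) ^ 4 * (R / r) ^ ((3/2 : ℝ) * (3/2))) := by ring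
    _ ≤ _ := by gcongr

end Crest.Agent.R116.KMt448
end

-- ▼ part R116/Ckm5_538
section

/-!
# R116 (S0155), wave side: box hypothesis of `kcc_sharp` inside one direction cap (helper538)

`DensR` : penalised density of energies `U i` of selections `S i` (directions `C i`) on the compatible
members of the class SS (725 / 299), reward `sg^q`, centres in the selections.
`cap_box` : `DensR` at `(w, ρ, R)` gives the box hypothesis of `kcc_sharp` for the class `SSg M` at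
`(w', ρ', L R)` inside a cap of size `s`, with the gain `s^q`.
-/

set_option autoImplicit false

open MeasureTheory
open scoped ENNReal

namespace Crest.Agent.R116.Ckm538

open Crest.Agent.R138.Defs (E2)
open Crest.Agent.R116.CDef480
open Crest.Agent.R116.LZg725 (Cf Mem rx ry InK Adm)
open Crest.Agent.R116.LKMDef299 (Cpt SSg)

/-- **penalised density** on compatible members of length `R`, thin side `ρ`, sides at least `w`. -/
def DensR {κ : Type} (M q w ρ R Δ : ℝ) (F : Finset κ) (C : κ → E2) (U : κ → E3 → ℝ≥0∞)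
    (S : κ → Set E3) : Prop :=
  ∀ m : Mem, m.Ok M ρ → Cpt M ρ m → m.R = R → m.s0 = 0 → w ≤ m.s1 * R → m.sg ≤ 1 →
    (∃ i ∈ F, m.X0 ∈ S i) →
    ∑ i ∈ F, ∫⁻ y in S i ∩ {y | (C i, lat y, y 2) ∈ m.rays ρ}, U i y ≤
      ENNReal.ofReal (Δ * m.sg ^ q * m.scost ρ)

/-- index of a slope in the grid of mesh `σ / 4` centred at `η`. -/
noncomputable def six (σ : ℝ) (η C : E2) : ℤ × ℤ :=
  (⌊(C - η) 0 / (σ / 4)⌋, ⌊(C - η) 1 / (σ / 4)⌋)

/-- grid point. -/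
noncomputable def spt (σ : ℝ) (η : E2) (j : ℤ × ℤ) : E2 :=
  η + (!₂[σ / 4 * j.1, σ / 4 * j.2] : E2)

theorem six_near {σ : ℝ} (hσ : 0 < σ) (η C : E2) : ‖C - spt σ η (six σ η C)‖ ≤ σ / 2 := by
  have h4 : 0 < σ / 4 := by positivity
  have h : ‖C - spt σ η (six σ η C)‖ ≤ 2 * (σ / 4) := by
    refine norm2_le h4.le ?_ ?_
    · have e : (C - spt σ η (six σ η C)) 0 = (C - η) 0 - σ / 4 * ((six σ η C).1 : ℝ) := by
        simp only [spt, PiLp.sub_apply, PiLp.add_apply]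
        simp
        ring
      rw [e]
      exact floor_err h4
    · have e : (C - spt σ η (six σ η C)) 1 = (C - η) 1 - σ / 4 * ((six σ η C).2 : ℝ) := by
        simp only [spt, PiLp.sub_apply, PiLp.add_apply]
        simp
        ring
      rw [e]
      exact floor_err h4
  linarith

theorem six_mem {σ L : ℝ} (hσ : 0 < σ) {η C : E2} (h : ‖C - η‖ ≤ L * σ) :
    six σ η C ∈ Finset.Icc (-⌈4 * L⌉) ⌈4 * L⌉ ×ˢ Finset.Icc (-⌈4 * L⌉) ⌈4 * L⌉ := by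
  have h4 : 0 < σ / 4 := by positivity
  have e : 4 * L * (σ / 4) = L * σ := by ring
  rw [Finset.mem_product]
  exact ⟨floor_mem' h4 (((abs_comp_le _ _).trans h).trans e.ge),
    floor_mem' h4 (((abs_comp_le _ _).trans h).trans e.ge)⟩

theorem card_six {L : ℝ} (hL : 0 ≤ L) :
    ((Finset.Icc (-⌈4 * L⌉) ⌈4 * L⌉ ×ˢ Finset.Icc (-⌈4 * L⌉) ⌈4 * L⌉ : Finset (ℤ × ℤ)).card : ℝ) ≤
      (8 * L + 3) ^ 2 := by
  rw [Finset.card_product]
  push_cast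
  have h := card_Icc_ceil' (a := 4 * L) (by positivity)
  rw [sq]
  refine mul_le_mul ?_ ?_ (Nat.cast_nonneg _) (by positivity) <;> linarith

theorem lint_biUnion_le {X I : Type*} [MeasurableSpace X] (μ : Measure X) (s : Finset I)
    (t : I → Set X) (f : X → ℝ≥0∞) :
    ∫⁻ x in ⋃ i ∈ s, t i, f x ∂μ ≤ ∑ i ∈ s, ∫⁻ x in t i, f x ∂μ := by
  classical
  induction s using Finset.induction_on with
  | empty => simp
  | insert a s ha ih =>
    rw [Finset.set_biUnion_insert, Finset.sum_insert ha]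
    exact (lintegral_union_le _ _ _).trans (add_le_add le_rfl ih)

set_option maxHeartbeats 1000000 in
open Classical in
/-- one disc of slopes. -/
theorem disc_box {κ : Type} {M q w ρ R Δ : ℝ} (hM : 1 ≤ M) {L : ℝ} (hL : 1 ≤ L)
    (hw : 0 < w) (hR : 0 < R) (hΔ : 0 ≤ Δ) {F : Finset κ} {C : κ → E2} {U : κ → E3 → ℝ≥0∞}
    {S : κ → Set E3} (hD : DensR (M1 M (2 + 4 * M)) q w ρ R Δ F C U S)
    {w' ρ' : ℝ} (hww : w ≤ w') (hρρ : ρ ≤ ρ') (hρ' : 0 ≤ ρ') {A : Set (E2 × E3)} {c : ℝ}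
    {m : Mem} (hOk : m.Ok M ρ') (hCpt : Cpt M ρ' m) (hmR : m.R = L * R) (hs0 : m.s0 = 0)
    (hw1 : w' ≤ m.s1 * (L * R)) (hAm : A = {r | (r.1, lat r.2, r.2 2) ∈ m.rays ρ'})
    (hc : c = m.scost ρ') {σ : ℝ} (hσ : 0 < σ) (hwσ : w ≤ σ * R) (hσ1 : σ ≤ 1)
    (hσsg : σ ≤ m.sg)
    (ξ : E2) {F' : Finset κ} (hF' : F' ⊆ F) (hξ : ∀ i ∈ F', ‖C i - ξ‖ ≤ σ / 2) :
    ∑ i ∈ F', ∫⁻ y in S i ∩ thk w' ρ' A (C i), U i y ≤
      ENNReal.ofReal (Δ * σ ^ q * (Cov M (2 + 4 * M) L * c)) := by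
  set K : ℝ := 2 + 4 * M with hK
  have hK1 : 1 ≤ K := by rw [hK]; linarith
  have hw'0 : 0 < w' := hw.trans_le hww
  set G : Set (E2 × E3) := {p | ∃ i ∈ F', p.1 = C i ∧ p.2 ∈ S i ∩ thk w' ρ' A (C i)} with hG
  have hGood : ∀ p ∈ G, Good K ρ' m p.1 p.2 ∧ ‖p.1 - ξ‖ ≤ σ / 2 := by
    rintro p ⟨i, hi, hp1, hp2, y', hy', h1, h2⟩
    refine ⟨?_, by rw [hp1]; exact hξ i hi⟩
    rw [hAm] at hy'
    have h3 := rays_good hOk.hR hs0 (B := ρ') (m := m) (C := C i) (y := y') hy'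
    rw [hp1]
    refine thk_good hM hOk hs0 hCpt hw'0.le ?_ hρ' h3 h1 h2
    rw [hmR]; exact hw1
  obtain ⟨Ks, mk, hmk, hcov, hcard⟩ := cover hM hK1 hL hOk hCpt hs0 hσ hσsg hρρ ξ G hGood
  have hmRL : m.R / L = R := by rw [hmR]; field_simp
  rw [hmRL] at hcard
  -- union bound
  have h1 : ∀ i ∈ F', ∫⁻ y in S i ∩ thk w' ρ' A (C i), U i y ≤
      ∑ k ∈ Ks, ∫⁻ y in S i ∩ {y | (C i, lat y, y 2) ∈ (mk k).rays ρ}, U i y := by
    intro i hi
    refine le_trans (lintegral_mono_set ?_) (lint_biUnion_le volume Ks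
      (fun k => S i ∩ {y | (C i, lat y, y 2) ∈ (mk k).rays ρ}) (U i))
    intro y hy
    obtain ⟨k, hk, hk2⟩ := hcov (C i, y) ⟨i, hi, rfl, hy⟩
    rw [Set.mem_iUnion₂]
    exact ⟨k, hk, hy.1, hk2⟩
  set E : ℝ := Δ * σ ^ q * (min (2 * K * L * m.s1) σ * σ * max (σ ^ 2) (ρ / R) * R ^ 3) with hE
  have h2 : ∀ k ∈ Ks, ∑ i ∈ F', ∫⁻ y in S i ∩ {y | (C i, lat y, y 2) ∈ (mk k).rays ρ}, U i y ≤
      ENNReal.ofReal E := by
    intro k hk
    obtain ⟨a1, a2, a3, a4, a5, a6, p, hp, a7⟩ := hmk k hk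
    rw [hmRL] at a3
    have hs1R : w ≤ (mk k).s1 * R := by
      rw [a6]
      rcases min_choice (2 * K * L * m.s1) σ with h3 | h3
      · rw [h3]
        have h4 : 0 ≤ m.s1 * R := mul_nonneg hOk.hs1.le hR.le
        calc w ≤ w' := hww
          _ ≤ m.s1 * (L * R) := hw1
          _ = (1 * L) * (m.s1 * R) := by ring
          _ ≤ (2 * K * L) * (m.s1 * R) := by
              refine mul_le_mul_of_nonneg_right ?_ h4
              exact mul_le_mul_of_nonneg_right (by linarith) (by linarith)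
          _ = _ := by ring
      · rw [h3]; exact hwσ
    have h3 := hD (mk k) a1 a2 a3 a4 hs1R (by rw [a5]; exact hσ1) (by
      obtain ⟨i, hi, hp1, hp2⟩ := hp
      exact ⟨i, hF' hi, by rw [a7]; exact hp2.1⟩)
    refine (Finset.sum_le_sum_of_subset hF').trans (h3.trans (le_of_eq ?_))
    rw [hE]
    unfold Mem.scost Mem.T
    rw [a3, a5, a6]
  calc ∑ i ∈ F', ∫⁻ y in S i ∩ thk w' ρ' A (C i), U i y
      ≤ ∑ i ∈ F', ∑ k ∈ Ks, ∫⁻ y in S i ∩ {y | (C i, lat y, y 2) ∈ (mk k).rays ρ}, U i y :=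
        Finset.sum_le_sum h1
    _ = ∑ k ∈ Ks, ∑ i ∈ F', ∫⁻ y in S i ∩ {y | (C i, lat y, y 2) ∈ (mk k).rays ρ}, U i y :=
        Finset.sum_comm
    _ ≤ ∑ _k ∈ Ks, ENNReal.ofReal E := Finset.sum_le_sum h2
    _ = ENNReal.ofReal ((Ks.card : ℝ) * E) := by
        rw [Finset.sum_const, nsmul_eq_mul, ENNReal.ofReal_mul (Nat.cast_nonneg _),
          ENNReal.ofReal_natCast]
    _ ≤ _ := by
        refine ENNReal.ofReal_le_ofReal ?_
        have hσq : 0 ≤ σ ^ q := Real.rpow_nonneg hσ.le q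
        have hcov0 := Cov_nonneg hM hK1 hL
        have hsc := hOk.scost_pos
        have h5 : c = m.s1 * m.sg * m.T ρ' * (L * R) ^ 3 := by
          rw [hc]; unfold Mem.scost; rw [hmR]
        have h6 : 0 ≤ m.s1 * m.sg * m.T ρ' := by
          have := hOk.hs1; have := hOk.sg_pos; have := hOk.T_pos
          positivity
        calc (Ks.card : ℝ) * E = (Δ * σ ^ q * R ^ 3) * ((Ks.card : ℝ) *
              (min (2 * K * L * m.s1) σ * σ * max (σ ^ 2) (ρ / R))) := by rw [hE]; ring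
          _ ≤ (Δ * σ ^ q * R ^ 3) * (Cov M K L * (m.s1 * m.sg * m.T ρ')) :=
              mul_le_mul_of_nonneg_left hcard (by positivity)
          _ = Δ * σ ^ q * (Cov M K L * (m.s1 * m.sg * m.T ρ' * R ^ 3)) := by ring
          _ ≤ Δ * σ ^ q * (Cov M K L * (m.s1 * m.sg * m.T ρ' * (L * R) ^ 3)) := by
              have h7 : R ^ 3 ≤ (L * R) ^ 3 := pow_le_pow_left₀ hR.le (by nlinarith) 3
              gcongr
          _ = _ := by rw [h5]

set_option maxHeartbeats 1000000 in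
open Classical in
/-- **box hypothesis inside one direction cap**, explicit member. -/
theorem cap_box' {κ : Type} {M q w ρ R Δ : ℝ} (hM : 1 ≤ M) (hq : 0 ≤ q) {L : ℝ} (hL : 1 ≤ L)
    (hw : 0 < w) (hR : 0 < R) (hΔ : 0 ≤ Δ) {F : Finset κ} {C : κ → E2} {U : κ → E3 → ℝ≥0∞}
    {S : κ → Set E3} (hD : DensR (M1 M (2 + 4 * M)) q w ρ R Δ F C U S)
    {w' ρ' : ℝ} (hww : w ≤ w') (hρρ : ρ ≤ ρ') (hρ' : 0 ≤ ρ')
    {s Λ : ℝ} (hws : w ≤ s * R) (hs1 : s ≤ 1) (hΛ : 1 ≤ Λ) (ξ : E2)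
    {F' : Finset κ} (hF' : F' ⊆ F) (hξ : ∀ i ∈ F', ‖C i - ξ‖ ≤ Λ * s)
    {A : Set (E2 × E3)} {c : ℝ}
    {m : Mem} (hOk : m.Ok M ρ') (hCpt : Cpt M ρ' m) (hmR : m.R = L * R) (hs0 : m.s0 = 0)
    (hw1 : w' ≤ m.s1 * (L * R)) (hAm : A = {r | (r.1, lat r.2, r.2 2) ∈ m.rays ρ'})
    (hc : c = m.scost ρ') (hLw : L * w ≤ w') :
    ∑ i ∈ F', ∫⁻ y in S i ∩ thk w' ρ' A (C i), U i y ≤
      ENNReal.ofReal ((8 * Λ + 3) ^ 2 * Cov M (2 + 4 * M) L * (Δ * s ^ q) * c) := by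
  have hs0' : 0 < s := by
    by_contra hn
    have : s * R ≤ 0 := mul_nonpos_of_nonpos_of_nonneg (not_lt.1 hn) hR.le
    linarith
  have hΛ0 : 0 ≤ Λ := by linarith
  have hL0 : 0 < L := by linarith
  have hsg := hOk.sg_pos
  set σ : ℝ := min s m.sg with hσd
  have hσ : 0 < σ := lt_min hs0' hsg
  have hσs : σ ≤ s := min_le_left _ _
  have hσsg : σ ≤ m.sg := min_le_right _ _
  have hwsg : w ≤ m.sg * R := by
    have h1 : w' ≤ m.sg * (L * R) := hw1.trans (mul_le_mul_of_nonneg_right hOk.hsg (by positivity))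
    have h2 : L * w ≤ L * (m.sg * R) := by
      calc L * w ≤ w' := hLw
        _ ≤ m.sg * (L * R) := h1
        _ = _ := by ring
    exact le_of_mul_le_mul_left h2 hL0
  have hwσ : w ≤ σ * R := by
    rcases min_choice s m.sg with h1 | h1
    · rw [hσd, h1]; exact hws
    · rw [hσd, h1]; exact hwsg
  set η : E2 := if s ≤ m.sg then ξ else m.c with hη
  set F2 : Finset κ := F'.filter (fun i => (S i ∩ thk w' ρ' A (C i)).Nonempty) with hF2
  have hnear : ∀ i ∈ F2, ‖C i - η‖ ≤ Λ * σ := by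
    intro i hi
    obtain ⟨hi1, y, hy1, y', hy', h1, h2⟩ := Finset.mem_filter.1 hi
    by_cases hcase : s ≤ m.sg
    · rw [hη, if_pos hcase, hσd, min_eq_left hcase]
      exact hξ i hi1
    · rw [hη, if_neg hcase, hσd, min_eq_right (not_le.1 hcase).le]
      rw [hAm] at hy'
      have h3 : ‖C i - m.c‖ ≤ m.sg := hy'.1
      nlinarith
  set KA : Finset (ℤ × ℤ) := Finset.Icc (-⌈4 * Λ⌉) ⌈4 * Λ⌉ ×ˢ Finset.Icc (-⌈4 * Λ⌉) ⌈4 * Λ⌉
    with hKA
  set E : ℝ≥0∞ := ENNReal.ofReal (Δ * s ^ q * (Cov M (2 + 4 * M) L * c)) with hE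
  have hc0 : 0 ≤ c := by rw [hc]; exact hOk.scost_pos.le
  have hcov0 := Cov_nonneg (K := 2 + 4 * M) hM (by linarith) hL
  have h1 : ∑ i ∈ F', ∫⁻ y in S i ∩ thk w' ρ' A (C i), U i y =
      ∑ i ∈ F2, ∫⁻ y in S i ∩ thk w' ρ' A (C i), U i y := by
    rw [hF2, Finset.sum_filter]
    refine Finset.sum_congr rfl fun i _ => ?_
    split_ifs with h2
    · rfl
    · rw [Set.not_nonempty_iff_eq_empty.1 h2, setLIntegral_empty]
  have h2 : ∑ i ∈ F2, ∫⁻ y in S i ∩ thk w' ρ' A (C i), U i y =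
      ∑ j ∈ KA, ∑ i ∈ F2 with six σ η (C i) = j, ∫⁻ y in S i ∩ thk w' ρ' A (C i), U i y := by
    rw [Finset.sum_fiberwise_of_maps_to (s := F2) (t := KA) (g := fun i => six σ η (C i))
      (fun i hi => six_mem hσ (hnear i hi))]
  have h3 : ∀ j ∈ KA, ∑ i ∈ F2 with six σ η (C i) = j,
      ∫⁻ y in S i ∩ thk w' ρ' A (C i), U i y ≤ E := by
    intro j _
    refine le_trans (disc_box hM hL hw hR hΔ hD hww hρρ hρ' hOk hCpt hmR hs0 hw1 hAm hc hσ hwσ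
      (hσs.trans hs1) hσsg (spt σ η j) (F' := F2.filter (fun i => six σ η (C i) = j)) ?_ ?_) ?_
    · exact ((Finset.filter_subset _ _).trans (Finset.filter_subset _ _)).trans hF'
    · intro i hi
      have := six_near hσ η (C i)
      rwa [(Finset.mem_filter.1 hi).2] at this
    · refine ENNReal.ofReal_le_ofReal ?_
      have : σ ^ q ≤ s ^ q := Real.rpow_le_rpow hσ.le hσs hq
      gcongr
  rw [h1, h2]
  calc ∑ j ∈ KA, ∑ i ∈ F2 with six σ η (C i) = j, ∫⁻ y in S i ∩ thk w' ρ' A (C i), U i y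
      ≤ ∑ _j ∈ KA, E := Finset.sum_le_sum h3
    _ = (KA.card : ℝ≥0∞) * E := by rw [Finset.sum_const, nsmul_eq_mul]
    _ ≤ ENNReal.ofReal ((8 * Λ + 3) ^ 2) * E := by
        refine mul_le_mul' ?_ le_rfl
        rw [← ENNReal.ofReal_natCast]
        exact ENNReal.ofReal_le_ofReal (card_six hΛ0)
    _ = _ := by
        rw [hE, ← ENNReal.ofReal_mul (by positivity)]
        congr 1
        ring

open Classical in
/-- **box hypothesis inside one direction cap**. -/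
theorem cap_box {κ : Type} {M q w ρ R Δ : ℝ} (hM : 1 ≤ M) (hq : 0 ≤ q) {L : ℝ} (hL : 1 ≤ L)
    (hw : 0 < w) (hR : 0 < R) (hΔ : 0 ≤ Δ) {F : Finset κ} {C : κ → E2} {U : κ → E3 → ℝ≥0∞}
    {S : κ → Set E3} (hD : DensR (M1 M (2 + 4 * M)) q w ρ R Δ F C U S)
    {w' ρ' : ℝ} (hww : w ≤ w') (hρρ : ρ ≤ ρ') (hρ' : 0 ≤ ρ')
    {s Λ : ℝ} (hws : w ≤ s * R) (hs1 : s ≤ 1) (hΛ : 1 ≤ Λ) (ξ : E2)
    {F' : Finset κ} (hF' : F' ⊆ F) (hξ : ∀ i ∈ F', ‖C i - ξ‖ ≤ Λ * s)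
    {A : Set (E2 × E3)} {c : ℝ} (hA : SSg M w' ρ' (L * R) A c) (hLw : L * w ≤ w') :
    ∑ i ∈ F', ∫⁻ y in S i ∩ thk w' ρ' A (C i), U i y ≤
      ENNReal.ofReal ((8 * Λ + 3) ^ 2 * Cov M (2 + 4 * M) L * (Δ * s ^ q) * c) := by
  obtain ⟨m, hOk, hCpt, hmR, hs0, hw1, _, hAm, hc⟩ := hA
  exact cap_box' hM hq hL hw hR hΔ hD hww hρρ hρ' hws hs1 hΛ ξ hF' hξ hOk hCpt hmR hs0 hw1 hAm hc
    hLw

/-- the member which contains everything. -/
noncomputable def bigm (V0 R : ℝ) : Mem := ⟨0, V0, V0, R, 0, 0, linf 0 0⟩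

theorem bigm_ok {V0 R : ℝ} (hV : 1 ≤ V0) (hR : 0 < R) (B : ℝ) : (bigm V0 R).Ok 1 B := by
  have hV0 : 0 < V0 := by linarith
  refine ⟨hR, hV0, le_rfl, linf_disc _ _, fun s _ => ?_, ?_, ?_⟩
  · change |(linf 0 0).ny s| * _ ≤ 1 * V0
    rw [linf_ny, abs_zero, zero_mul, one_mul]; exact hV0.le
  · change |(linf 0 0).ld 0 _ _ _| ≤ 1 * V0
    rw [linf_ld, abs_zero, one_mul]; exact hV0.le
  · change |(linf 0 0).ev (lat 0) _ _| ≤ 1 * V0 * R
    rw [linf_ev]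
    have e : lat (0 : E3) = 0 := by ext i; fin_cases i <;> rfl
    have e2 : (bigm V0 R).s0 = 0 := rfl
    rw [e, sub_zero, zero_add, e2, zero_smul, inner_zero_right, abs_zero]
    positivity

theorem bigm_cpt {V0 R : ℝ} (hV : 1 ≤ V0) (hR : 0 < R) (B : ℝ) : Cpt 1 B (bigm V0 R) := by
  intro s _
  change |(linf 0 0).ny s| * _ ≤ 1 * (V0 * R)
  rw [linf_ny, abs_zero, zero_mul]; positivity

theorem bigm_rays {V A V0 R : ℝ} (hV : 0 ≤ V) (hA : 0 ≤ A) (hV0 : 1 + V + A + V ^ 2 ≤ V0)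
    (hR : 0 < R) (B : ℝ) {C : E2} {y : E3} (hC : ‖C‖ ≤ V) (hy : ‖y‖ ≤ A * R) :
    (C, lat y, y 2) ∈ (bigm V0 R).rays B := by
  have hlat : ‖lat y‖ ≤ A * R := (lat_norm_le y).trans hy
  have hy2 : |y 2| ≤ A * R := (two_norm_le y).trans hy
  have hsqV : 0 ≤ V ^ 2 := by positivity
  have e0 : lat (0 : E3) = 0 := by ext i; fin_cases i <;> rfl
  refine ⟨?_, fun s hs => ?_⟩
  · change ‖C - 0‖ ≤ V0
    rw [sub_zero]; nlinarith
  · have hs' : |s| ≤ R := by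
      have : (bigm V0 R).s0 = 0 := rfl
      rw [this, sub_zero] at hs
      exact hs
    have h1 : ‖rx C (lat y) s‖ ≤ (A + V) * R := by
      unfold LZg725.rx
      refine (norm_sub_le _ _).trans ?_
      rw [norm_smul, Real.norm_eq_abs]
      have := mul_le_mul hs' hC (norm_nonneg _) hR.le
      nlinarith
    refine ⟨?_, ?_⟩
    · unfold Mem.box
      rw [Set.mem_ofPred_eq, LZg725.lat_rpos, LZg725.rpos_two]
      change InK 0 V0 ((bigm V0 R).T B) R (lat 0) ((0 : E3) 2) 0 (rx C (lat y) s)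
        (ry C (y 2) s) s
      refine ⟨by rw [sub_zero]; exact hs', ?_, ?_⟩
      · rw [e0, sub_zero, smul_zero, add_zero]
        refine h1.trans (mul_le_mul_of_nonneg_right (by linarith) hR.le)
      · rw [LZg725.nrm_ray']
        have e3 : LZg725.nrm 0 (lat (0 : E3)) ((0 : E3) 2) 0 = 0 := by
          unfold LZg725.nrm; simp
        rw [e3, inner_zero_left, sub_zero, add_zero, sub_zero]
        have hT : V0 ^ 2 ≤ (bigm V0 R).T B := le_max_left _ _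
        have h2 : |s * ‖C‖ ^ 2 / 2| ≤ R * V ^ 2 := by
          rw [abs_div, abs_mul, abs_of_nonneg (sq_nonneg ‖C‖), abs_of_pos (two_pos : (0:ℝ) < 2)]
          have := mul_le_mul hs' (pow_le_pow_left₀ (norm_nonneg _) hC 2) (sq_nonneg _) hR.le
          have h3 : 0 ≤ |s| * ‖C‖ ^ 2 := by positivity
          linarith
        refine (abs_add_le _ _).trans ?_
        have h4 : V0 ≤ V0 ^ 2 := by nlinarith
        calc |y 2| + |s * ‖C‖ ^ 2 / 2| ≤ A * R + R * V ^ 2 := add_le_add hy2 h2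
          _ ≤ V0 * R := by nlinarith
          _ ≤ V0 ^ 2 * R := mul_le_mul_of_nonneg_right h4 hR.le
          _ ≤ _ := mul_le_mul_of_nonneg_right hT hR.le
    · unfold Cf.val
      rw [LZg725.lat_rpos, LZg725.rpos_two]
      change |(linf 0 0).ev (rx C (lat y) s) (ry C (y 2) s) s| ≤ V0 * R
      rw [linf_ev, sub_zero, smul_zero, add_zero]
      refine (abs_real_inner_le_norm _ _).trans ?_
      rw [norm_e0, one_mul]
      exact h1.trans (mul_le_mul_of_nonneg_right (by linarith) hR.le)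

theorem DensR_mono {κ : Type} {M M' q w ρ R Δ : ℝ} (hM : M ≤ M') {F : Finset κ} {C : κ → E2}
    {U : κ → E3 → ℝ≥0∞} {S : κ → Set E3} (hD : DensR M' q w ρ R Δ F C U S) :
    DensR M q w ρ R Δ F C U S := by
  intro m h1 h2 h3 h4 h5 h6 h7
  exact hD m (LKMDef299.Ok.mono h1 hM)
    (LKMDef299.Cpt.mono h2 (mul_nonneg h1.hs1.le h1.hR.le) hM) h3 h4 h5 h6 h7

theorem M1_mono {M K M' K' : ℝ} (hM0 : 0 ≤ M) (hK0 : 0 ≤ K) (hM : M ≤ M') (hK : K ≤ K') :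
    M1 M K ≤ M1 M' K' := by
  unfold M1
  have := mul_le_mul hM hK hK0 (hM0.trans hM)
  linarith

/-- **total energy** from the penalised density. -/
theorem whole_le {κ : Type} {M q w ρ R Δ : ℝ} (hM : 1 ≤ M) (hq : 0 ≤ q)
    (hw : 0 < w) (hwR : w ≤ R) (hρR : ρ ≤ R) (hρ : 0 ≤ ρ) (hΔ : 0 ≤ Δ) {F : Finset κ}
    {C : κ → E2} {U : κ → E3 → ℝ≥0∞}
    {S : κ → Set E3} (hD : DensR (M1 M (2 + 4 * M)) q w ρ R Δ F C U S) {V A : ℝ} (hV : 0 ≤ V)
    (hA : 0 ≤ A) (hC : ∀ i ∈ F, ‖C i‖ ≤ V) (hS : ∀ i ∈ F, ∀ y ∈ S i, ‖y‖ ≤ A * R) :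
    ∑ i ∈ F, ∫⁻ y in S i, U i y ≤ ENNReal.ofReal ((8 * (1 + V + A + V ^ 2) + 3) ^ 2 *
      Cov 1 6 1 * (1 + V + A + V ^ 2) ^ 4 * (Δ * R ^ 3)) := by
  have hR : 0 < R := hw.trans_le hwR
  set V0 : ℝ := 1 + V + A + V ^ 2 with hV0
  have hV01 : 1 ≤ V0 := by have := sq_nonneg V; linarith
  have h2 : M1 1 (2 + 4 * 1) ≤ M1 M (2 + 4 * M) :=
    M1_mono zero_le_one (by norm_num) hM (by linarith)
  have h1 := cap_box' (κ := κ) (M := 1) (q := q) (w := w) (ρ := ρ) (R := R) (Δ := Δ) le_rfl hq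
    (L := 1) le_rfl hw hR hΔ (DensR_mono h2 hD) (w' := w) (ρ' := ρ) le_rfl le_rfl hρ (s := 1)
    (Λ := V0) (by rw [one_mul]; exact hwR) le_rfl hV01 0 (F' := F) (Finset.Subset.refl _)
    (fun i hi => by
      rw [sub_zero, mul_one]
      refine (hC i hi).trans ?_
      have := sq_nonneg V; linarith)
    (m := bigm V0 R) (bigm_ok hV01 hR ρ) (bigm_cpt hV01 hR ρ) (one_mul R).symm rfl
    (by rw [one_mul]
        exact hwR.trans (by
          have : 1 * R ≤ V0 * R := mul_le_mul_of_nonneg_right hV01 hR.le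
          rw [one_mul] at this
          exact this)) rfl rfl (by rw [one_mul])
  have h3 : ∑ i ∈ F, ∫⁻ y in S i, U i y ≤ ∑ i ∈ F, ∫⁻ y in S i ∩
      thk w ρ {r | (r.1, lat r.2, r.2 2) ∈ (bigm V0 R).rays ρ} (C i), U i y := by
    refine Finset.sum_le_sum fun i hi => lintegral_mono_set fun y hy => ⟨hy, y, ?_, ?_, ?_⟩
    · exact bigm_rays hV hA hV0.ge hR ρ (hC i hi) (hS i hi y hy)
    · rw [sub_self]
      have e : lat (0 : E3) = 0 := by ext i; fin_cases i <;> rfl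
      rw [e, norm_zero]; exact hw.le
    · rw [sub_self, nrm_zero]
      have e : lat (0 : E3) = 0 := by ext i; fin_cases i <;> rfl
      rw [e, inner_zero_right]
      simp [hρ]
  refine h3.trans (h1.trans (ENNReal.ofReal_le_ofReal (le_of_eq ?_)))
  have hT : (bigm V0 R).T ρ = V0 ^ 2 := by
    refine max_eq_left ?_
    change ρ / R ≤ V0 ^ 2
    rw [div_le_iff₀ hR]
    have h4 : (1 : ℝ) ≤ V0 ^ 2 := one_le_pow₀ hV01
    have h5 := mul_le_mul_of_nonneg_right h4 hR.le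
    linarith
  unfold Mem.scost
  rw [hT]
  change (8 * V0 + 3) ^ 2 * Cov 1 (2 + 4 * 1) 1 * (Δ * 1 ^ q) * (V0 * V0 * V0 ^ 2 * R ^ 3) = _
  rw [Real.one_rpow, show (2 : ℝ) + 4 * 1 = 6 by norm_num]
  ring

end Crest.Agent.R116.Ckm538
end

-- ▼ part R116/Ckm6_538
section

/-!
# R116 (S0155), wave side: KMC in coefficient form (helper538)

`kmc_sharp` : sharp part on one direction cap.
`kmc_core` : **Kakeya maximal estimate for the densities `Den` on a family of direction caps**,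
packets `w × w × ρ` of length `R`, `w² ≤ ρ R`, `ρ ≤ w ≤ R`, from `LKMg (SSg M)`.
-/

set_option autoImplicit false

open MeasureTheory
open scoped ENNReal

namespace Crest.Agent.R116.Ckm538

open Crest.Agent.R138.Defs (E2)
open Crest.Agent.R116.CDef480
open Crest.Agent.R116.LZg725 (Cf Mem rx ry InK Adm)
open Crest.Agent.R116.LKMDef299 (Cpt SSg)
open Crest.Agent.R116.Cad538

theorem ssg_nonneg {M w ρ R : ℝ} {A : Set (E2 × E3)} {c : ℝ} (h : SSg M w ρ R A c) : 0 ≤ c := by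
  obtain ⟨m, hOk, _, _, _, _, _, _, hc⟩ := h
  rw [hc]; exact hOk.scost_pos.le

theorem norm_vel_le (C : E2) : ‖vel C‖ ≤ ‖C‖ + ‖C‖ ^ 2 := by
  unfold vel
  refine (norm3_le _).trans ?_
  rw [lat_pt, pt_two, abs_div, abs_neg, abs_of_nonneg (sq_nonneg ‖C‖),
    abs_of_pos (two_pos : (0:ℝ) < 2)]
  have := sq_nonneg ‖C‖
  linarith


theorem plate_sub {w ρ y : ℝ} (hw : 0 < w) (hρ : 0 < ρ) (C : E2) (X z : E3) (t : ℝ)
    (hz : ‖frc w⁻¹ ρ⁻¹ C (z - X - t • vel C)‖ ≤ y / 2) :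
    ‖lat (z - (X + t • vel C))‖ ≤ y / 2 * w ∧ |nrm C (z - (X + t • vel C)) 0| ≤ y / 2 * ρ := by
  rw [sub_sub] at hz
  have h1 := (lat_le_frc (kp := ρ⁻¹) (inv_nonneg.2 hw.le) C (z - (X + t • vel C))).trans hz
  have h2 := (nrm_le_frc (th := w⁻¹) (inv_nonneg.2 hρ.le) C (z - (X + t • vel C))).trans hz
  rw [inv_mul_le_iff₀ hw] at h1
  rw [inv_mul_le_iff₀ hρ] at h2
  exact ⟨by linarith, by linarith⟩

theorem plate_far {w ρ y A L V R : ℝ} (hw : 0 < w) (hρ : 0 < ρ) (hρw : ρ ≤ w) (hy : 0 < y)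
    (hyw : y * w ≤ R) (hL : 0 ≤ L) (hV : 0 ≤ V) {C : E2} (hC : ‖C‖ ≤ V) {X z : E3} {t : ℝ}
    (hz1 : ‖z‖ ≤ A * R) (ht : |t| ≤ L * R)
    (hz : ‖frc w⁻¹ ρ⁻¹ C (z - X - t • vel C)‖ ≤ y / 2) :
    ‖X‖ ≤ (A + L * (V + V ^ 2) + (2 + V) + L + 1) * R := by
  obtain ⟨h1, h2⟩ := plate_sub hw hρ C X z t hz
  have hR : 0 ≤ R := (by positivity : 0 ≤ y * w).trans hyw
  have h3 := norm3_le_nrm C (z - (X + t • vel C))
  have h4 : (1 + ‖C‖) * ‖lat (z - (X + t • vel C))‖ ≤ (1 + V) * (y / 2 * w) :=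
    mul_le_mul (by linarith) h1 (norm_nonneg _) (by positivity)
  have h5 : ‖X‖ ≤ ‖z‖ + ‖t • vel C‖ + ‖z - (X + t • vel C)‖ := by
    have e : X = z - t • vel C - (z - (X + t • vel C)) := by abel
    calc ‖X‖ = ‖z - t • vel C - (z - (X + t • vel C))‖ := by rw [← e]
      _ ≤ _ := (norm_sub_le _ _).trans (add_le_add (norm_sub_le _ _) le_rfl)
  rw [norm_smul, Real.norm_eq_abs] at h5
  have h6 : ‖vel C‖ ≤ V + V ^ 2 := (norm_vel_le _).trans
    (add_le_add hC (pow_le_pow_left₀ (norm_nonneg _) hC 2))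
  have h7 : |t| * ‖vel C‖ ≤ L * R * (V + V ^ 2) :=
    mul_le_mul ht h6 (norm_nonneg _) (by positivity)
  have h9 : y / 2 * w ≤ R := by
    have : 0 ≤ y * w := by positivity
    linarith
  have h10 : y / 2 * ρ ≤ R := by
    have h12 : y * ρ ≤ y * w := by gcongr
    have : 0 ≤ y * ρ := by positivity
    linarith
  have h11 : (1 + V) * (y / 2 * w) ≤ (1 + V) * R := mul_le_mul_of_nonneg_left h9 (by positivity)
  have e : (A + L * (V + V ^ 2) + (2 + V) + L + 1) * R =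
      A * R + L * R * (V + V ^ 2) + (1 + V) * R + R + (L + 1) * R := by ring
  rw [e]
  have : 0 ≤ (L + 1) * R := by positivity
  linarith

/-- numerical bound of the normalisation. -/
theorem f0_le {L1 w ρ R y : ℝ} (hL1 : 1 ≤ L1) (hw : 0 < w) (hρ : 0 < ρ) (hR : 0 < R)
    (hy : 1 ≤ y) (hwρ : w ^ 2 ≤ ρ * R) :
    (w⁻¹ ^ 2 * ρ⁻¹) * ((L1 * (y * w)) ^ 2 * max (y * ρ) ((L1 * (y * w)) ^ 2 / (L1 * R))) ≤
      (L1 * y) ^ 4 := by
  have hL10 : 0 < L1 := by linarith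
  have hy0 : 0 < y := by linarith
  have hLR0 : 0 < L1 * R := by positivity
  set ρ' : ℝ := max (y * ρ) ((L1 * (y * w)) ^ 2 / (L1 * R)) with hρ'
  have e1 : (w⁻¹ ^ 2 * ρ⁻¹) * ((L1 * (y * w)) ^ 2 * ρ') = (L1 * y) ^ 2 * (ρ' / ρ) := by
    field_simp
  have hly : 1 ≤ L1 * y := one_le_mul_of_one_le_of_one_le hL1 hy
  have e2 : ρ' / ρ ≤ (L1 * y) ^ 2 := by
    rw [div_le_iff₀ hρ]
    refine max_le ?_ ?_
    · refine mul_le_mul_of_nonneg_right ?_ hρ.le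
      have h1 : y ≤ L1 * y := le_mul_of_one_le_left hy0.le hL1
      nlinarith
    · rw [div_le_iff₀ hLR0]
      calc (L1 * (y * w)) ^ 2 = (L1 * y) ^ 2 * w ^ 2 := by ring
        _ ≤ (L1 * y) ^ 2 * (ρ * R) := by gcongr
        _ ≤ (L1 * y) ^ 2 * (ρ * (L1 * R)) := by
            have : R ≤ L1 * R := le_mul_of_one_le_left hR.le hL1
            gcongr
        _ = _ := by ring
  rw [e1]
  calc (L1 * y) ^ 2 * (ρ' / ρ) ≤ (L1 * y) ^ 2 * (L1 * y) ^ 2 := by gcongr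
    _ = _ := by ring

theorem pow4_rpow {x : ℝ} (hx : 0 ≤ x) : (x ^ 4) ^ (3/2 : ℝ) = x ^ 6 := by
  rw [← Real.rpow_natCast x 4, ← Real.rpow_mul hx, ← Real.rpow_natCast x 6]
  norm_num

/-- numerical end of `kmc_sharp`. -/
theorem sharp_num {L1 C1 c2 w R y ε s q Δ : ℝ} (hL1 : 1 ≤ L1) (hC1 : 0 ≤ C1) (hc2 : 0 ≤ c2)
    (hw : 0 < w) (hR : 0 < R) (hy : 1 ≤ y) (hε : 0 < ε) (hs : 0 < s) (hΔ : 0 ≤ Δ) :
    (L1 * y) ^ 6 * (C1 * (L1 * (y * w) / (L1 * R)) ^ (-ε) * Real.sqrt (c2 * (Δ * s ^ q)) *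
      (L1 * R)) ≤
    L1 ^ 6 * C1 * Real.sqrt c2 * L1 * y ^ 6 * (w / R) ^ (-ε) * s ^ (q / 2) * Real.sqrt Δ * R := by
  have hL10 : 0 < L1 := by linarith
  have hy0 : 0 < y := by linarith
  have e3 : L1 * (y * w) / (L1 * R) = y * (w / R) := by field_simp
  have hwR0 : 0 < w / R := by positivity
  have e4 : (L1 * (y * w) / (L1 * R)) ^ (-ε) ≤ (w / R) ^ (-ε) := by
    rw [e3]
    refine Real.rpow_le_rpow_of_nonpos hwR0 ?_ (by linarith)
    exact le_mul_of_one_le_left hwR0.le hy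
  rw [Real.sqrt_mul hc2, Real.sqrt_mul hΔ]
  have e5 : Real.sqrt (s ^ q) = s ^ (q / 2) := by
    rw [Real.sqrt_eq_rpow, ← Real.rpow_mul hs.le]
    congr 1; ring
  rw [e5]
  calc (L1 * y) ^ 6 * (C1 * (L1 * (y * w) / (L1 * R)) ^ (-ε) *
        (Real.sqrt c2 * (Real.sqrt Δ * s ^ (q / 2))) * (L1 * R))
      ≤ (L1 * y) ^ 6 * (C1 * (w / R) ^ (-ε) *
        (Real.sqrt c2 * (Real.sqrt Δ * s ^ (q / 2))) * (L1 * R)) := by gcongr
    _ = _ := by ring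

/-- **sharp part on one direction cap**. `y = 2 Y`. -/
theorem kmc_sharp {κ : Type} {M : ℝ} (hM : 1 ≤ M) (hKM : ∀ V : ℝ, LKMg (SSg M) V)
    {q A L Λ V : ℝ}
    (hq : 0 ≤ q) (hA : 0 ≤ A) (hL : 0 ≤ L) (hΛ : 1 ≤ Λ) (hV : 0 ≤ V) {ε : ℝ} (hε : 0 < ε) :
    ∃ C0 : ℝ, 0 ≤ C0 ∧ ∀ (w ρ R y : ℝ), 0 < w → w ≤ R → w ^ 2 ≤ ρ * R → ρ ≤ w →
      1 ≤ y → y * w ≤ R → ∀ (F : Finset κ) (C : κ → E2) (U : κ → E3 → ℝ≥0∞) (S : κ → Set E3),
      (∀ i, MeasurableSet (S i)) → (∀ i ∈ F, ‖C i‖ ≤ V) → (∀ i ∈ F, ∀ z ∈ S i, ‖z‖ ≤ A * R) →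
      ∀ Δ : ℝ, 0 ≤ Δ → DensR (M1 M (2 + 4 * M)) q w ρ R Δ F C U S →
      ∀ s : ℝ, w ≤ s * R → s ≤ 1 → ∀ (ξ : E2) (F' : Finset κ), F' ⊆ F →
      (∀ i ∈ F', ‖C i - ξ‖ ≤ Λ * s) →
      ∫⁻ t in Set.Icc (-(L * R)) (L * R), ∫⁻ X,
        (Shd volume (y / 2) (w⁻¹ ^ 2 * ρ⁻¹) (fun i => frc w⁻¹ ρ⁻¹ (C i)) (fun i => vel (C i))
          U S F' X t) ^ (3/2 : ℝ) ≤
      ENNReal.ofReal (C0 * y ^ 6 * (w / R) ^ (-ε) * s ^ (q / 2) * Real.sqrt Δ * R) *
        ∑ i ∈ F', ∫⁻ z in S i, U i z := by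
  set L1 : ℝ := A + L * (V + V ^ 2) + (2 + V) + L + 1 with hL1
  have hLV : 0 ≤ L * (V + V ^ 2) := by positivity
  have hL11 : 1 ≤ L1 := by rw [hL1]; linarith
  have hL10 : 0 < L1 := by linarith
  have hLL1 : L ≤ L1 := by rw [hL1]; linarith
  have hAL1 : A ≤ L1 := by rw [hL1]; linarith
  set V' : ℝ := 2 + V with hV'
  set c2 : ℝ := (8 * Λ + 3) ^ 2 * Cov M (2 + 4 * M) L1 with hc2
  have hcov0 := Cov_nonneg (K := 2 + 4 * M) hM (by linarith) hL11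
  have hc20 : 0 ≤ c2 := by positivity
  obtain ⟨C1, hC1, hk⟩ := kcc_sharp (κ := κ) (T := SSg M) (fun _ _ _ _ _ h => ssg_nonneg h) hV
      (by rw [hV']; linarith : V ≤ V') (hKM V') ε hε
  refine ⟨L1 ^ 6 * C1 * Real.sqrt c2 * L1, by positivity, ?_⟩
  intro w ρ R y hw hwR hwρ hρw hy hyw F C U S hSm hC hSA Δ hΔ hD s hws hs1 ξ F' hF' hξ
  have hR0 : 0 < R := hw.trans_le hwR
  have hy0 : 0 < y := by linarith
  have hρ : 0 < ρ := by
    by_contra hn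
    have h1 : ρ * R ≤ 0 := mul_nonpos_of_nonpos_of_nonneg (not_lt.1 hn) hR0.le
    have h2 := pow_pos hw 2
    linarith
  have hs0 : 0 < s := by
    by_contra hn
    have : s * R ≤ 0 := mul_nonpos_of_nonpos_of_nonneg (not_lt.1 hn) hR0.le
    linarith
  have hyw1 : w ≤ y * w := le_mul_of_one_le_left hw.le hy
  have hyw0 : 0 ≤ y * w := by positivity
  have hyρ1 : ρ ≤ y * ρ := le_mul_of_one_le_left hρ.le hy
  set w' : ℝ := L1 * (y * w) with hw'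
  set ρ' : ℝ := max (y * ρ) (w' ^ 2 / (L1 * R)) with hρ'
  have hw'0 : 0 < w' := by positivity
  have hLR0 : 0 < L1 * R := by positivity
  have hw'R : w' ≤ L1 * R := mul_le_mul_of_nonneg_left hyw hL10.le
  have hyww' : y * w ≤ w' := le_mul_of_one_le_left hyw0 hL11
  have hww : w ≤ w' := hyw1.trans hyww'
  have hLww : L1 * w ≤ w' := mul_le_mul_of_nonneg_left hyw1 hL10.le
  have hρρ : ρ ≤ ρ' := hyρ1.trans (le_max_left _ _)
  have hρ'0 : 0 < ρ' := hρ.trans_le hρρ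
  have hρ'w : ρ' ≤ w' := by
    refine max_le ?_ ?_
    · exact (mul_le_mul_of_nonneg_left hρw hy0.le).trans hyww'
    · rw [div_le_iff₀ hLR0, sq]
      exact mul_le_mul_of_nonneg_left hw'R hw'0.le
  have hw'ρ' : w' ^ 2 ≤ ρ' * (L1 * R) := by
    rw [← div_le_iff₀ hLR0]; exact le_max_right _ _
  have hfin : ∀ i ∈ F', ∫⁻ z in S i, U i z ≠ ⊤ := by
    intro i hi
    have h1 := whole_le hM hq hw hwR (hρw.trans hwR) hρ.le hΔ hD hV hA hC hSA
    have h2 : ∫⁻ z in S i, U i z ≤ ∑ i ∈ F, ∫⁻ z in S i, U i z :=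
      Finset.single_le_sum (f := fun i => ∫⁻ z in S i, U i z) (fun _ _ => zero_le) (hF' hi)
    exact ne_top_of_le_ne_top ENNReal.ofReal_ne_top (h2.trans h1)
  have key := hk w' ρ' (L1 * R) hw'0 hw'R hw'ρ' hρ'w F' C U S hSm
    (fun i hi => hC i (hF' hi)) (fun i hi z hz => by
      have h1 := hSA i (hF' hi) z hz
      have h2 : A * R ≤ L1 * R := mul_le_mul_of_nonneg_right hAL1 hR0.le
      rw [hV', add_mul, add_mul]
      linarith) hfin (c2 * (Δ * s ^ q)) (by positivity)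
    (fun A' c hA' => cap_box hM hq hL11 hw hR0 hΔ hD hww hρρ hρ'0.le hws hs1 hΛ ξ hF' hξ hA' hLww)
  set G : ℝ → E3 → ℝ≥0∞ := fun t X => ENNReal.ofReal ((w' ^ 2 * ρ')⁻¹) *
          ∑ i ∈ F', ∫⁻ z in S i ∩ pcell (w' / 2) (ρ' / 2) (C i) (X + t • vel (C i)), U i z
    with hG
  set Sh : E3 → ℝ → ℝ≥0∞ := fun X t => Shd volume (y / 2) (w⁻¹ ^ 2 * ρ⁻¹)
    (fun i => frc w⁻¹ ρ⁻¹ (C i)) (fun i => vel (C i)) U S F' X t with hShdef
  set f0 : ℝ := (w⁻¹ ^ 2 * ρ⁻¹) * (w' ^ 2 * ρ') with hf0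
  have hf00 : 0 ≤ f0 := by positivity
  have hShG : ∀ t X, Sh X t ≤ ENNReal.ofReal f0 * G t X := by
    intro t X
    simp only [hG, hShdef]
    rw [← mul_assoc, ← ENNReal.ofReal_mul hf00]
    have e : f0 * (w' ^ 2 * ρ')⁻¹ = w⁻¹ ^ 2 * ρ⁻¹ := by rw [hf0]; field_simp
    rw [e]
    unfold Shd
    refine mul_le_mul' le_rfl (Finset.sum_le_sum fun i _ => ?_)
    refine lintegral_mono_set fun z hz => ⟨hz.1, ?_⟩
    obtain ⟨h1, h2⟩ := plate_sub hw hρ (C i) X z t hz.2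
    refine ⟨h1.trans ?_, h2.trans ?_⟩
    · linarith
    · have := le_max_left (y * ρ) (w' ^ 2 / (L1 * R))
      rw [← hρ'] at this
      linarith
  have hSh0 : ∀ t, |t| ≤ L * R → ∀ X, X ∉ {X : E3 | ‖X‖ ≤ L1 * R} → Sh X t = 0 := by
    intro t ht X hX
    simp only [hShdef]
    unfold Shd
    rw [Finset.sum_eq_zero, mul_zero]
    intro i hi
    have : S i ∩ {z | ‖frc w⁻¹ ρ⁻¹ (C i) (z - X - t • vel (C i))‖ ≤ y / 2} = ∅ := by
      rw [Set.eq_empty_iff_forall_notMem]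
      rintro z ⟨hz1, hz2⟩
      exact hX (plate_far hw hρ hρw hy0 hyw hL hV (hC i (hF' hi)) (hSA i (hF' hi) z hz1) ht hz2)
    rw [this, setLIntegral_empty]
  have hBm : MeasurableSet {X : E3 | ‖X‖ ≤ L1 * R} :=
    (isClosed_le continuous_norm continuous_const).measurableSet
  have hLL : Set.Icc (-(L * R)) (L * R) ⊆ Set.Icc (-(L1 * R)) (L1 * R) := by
    have : L * R ≤ L1 * R := mul_le_mul_of_nonneg_right hLL1 hR0.le
    exact Set.Icc_subset_Icc (by linarith) this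
  set cc : ℝ≥0∞ := ENNReal.ofReal f0 ^ (3/2 : ℝ) with hcc
  have hccn : cc ≠ ⊤ := ENNReal.rpow_ne_top_of_nonneg (by norm_num) ENNReal.ofReal_ne_top
  calc ∫⁻ t in Set.Icc (-(L * R)) (L * R), ∫⁻ X, (Sh X t) ^ (3/2 : ℝ)
      ≤ ∫⁻ t in Set.Icc (-(L * R)) (L * R), cc * ∫⁻ X in {X : E3 | ‖X‖ ≤ L1 * R},
          (G t X) ^ (3/2 : ℝ) := by
        refine setLIntegral_mono' measurableSet_Icc fun t ht => ?_
        rw [← lintegral_const_mul' _ _ hccn, ← lintegral_indicator hBm]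
        refine lintegral_mono fun X => ?_
        by_cases hX : X ∈ {X : E3 | ‖X‖ ≤ L1 * R}
        · rw [Set.indicator_of_mem hX, hcc, ← ENNReal.mul_rpow_of_nonneg _ _ (by norm_num)]
          exact ENNReal.rpow_le_rpow (hShG t X) (by norm_num)
        · rw [Set.indicator_of_notMem hX, hSh0 t (abs_le.2 ht) X hX, ENNReal.zero_rpow_of_pos
            (by norm_num)]
    _ = cc * ∫⁻ t in Set.Icc (-(L * R)) (L * R), ∫⁻ X in {X : E3 | ‖X‖ ≤ L1 * R},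
          (G t X) ^ (3/2 : ℝ) := lintegral_const_mul' _ _ hccn
    _ ≤ cc * ∫⁻ t in Set.Icc (-(L1 * R)) (L1 * R), ∫⁻ X in {X : E3 | ‖X‖ ≤ L1 * R},
          (G t X) ^ (3/2 : ℝ) := mul_le_mul' le_rfl (lintegral_mono_set hLL)
    _ ≤ cc * (ENNReal.ofReal (C1 * (w' / (L1 * R)) ^ (-ε) * Real.sqrt (c2 * (Δ * s ^ q)) *
          (L1 * R)) * ∑ i ∈ F', ∫⁻ z in S i, U i z) := mul_le_mul' le_rfl key
    _ ≤ _ := by
        rw [← mul_assoc]
        refine mul_le_mul' ?_ le_rfl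
        have hcc1 : cc ≤ ENNReal.ofReal ((L1 * y) ^ 6) := by
          rw [hcc, ENNReal.ofReal_rpow_of_nonneg hf00 (by norm_num), ← pow4_rpow (by positivity)]
          exact ENNReal.ofReal_le_ofReal (Real.rpow_le_rpow hf00
            (f0_le hL11 hw hρ hR0 hy hwρ) (by norm_num))
        refine (mul_le_mul' hcc1 le_rfl).trans ?_
        rw [← ENNReal.ofReal_mul (by positivity)]
        exact ENNReal.ofReal_le_ofReal (sharp_num hL11 hC1 hc20 hw hR0 hy hε hs0 hΔ)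

end Crest.Agent.R116.Ckm538
end

-- ▼ part R116/Ckm7_538
section

/-!
# R116 (S0155), wave side: KMC in coefficient form, smooth weights, families of caps (helper538)
-/

set_option autoImplicit false

open MeasureTheory
open scoped ENNReal

namespace Crest.Agent.R116.Ckm538

open Crest.Agent.R138.Defs (E2)
open Crest.Agent.R116.CDef480
open Crest.Agent.R116.LKMDef299 (Cpt SSg)
open Crest.Agent.R116.Cad538

theorem rpow32_le {l a : ℝ≥0∞} (h : a ≤ l) : a ^ (3/2 : ℝ) ≤ l ^ (1/2 : ℝ) * a := by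
  have e : (3/2 : ℝ) = 1/2 + 1 := by norm_num
  rw [e, ENNReal.rpow_add_of_nonneg _ _ (by norm_num) (by norm_num), ENNReal.rpow_one]
  exact mul_le_mul' (ENNReal.rpow_le_rpow h (by norm_num)) le_rfl

/-- tail on one direction cap. -/
theorem tail_part {κ : Type} {w ρ : ℝ} (hw : 0 < w) (hρ : 0 < ρ) {C : κ → E2}
    {U : κ → E3 → ℝ≥0∞} {S : κ → Set E3} {F F' : Finset κ} (hF' : F' ⊆ F)
    (hU : ∀ i ∈ F, Measurable (U i)) {E : ℝ}
    (hE : ∑ i ∈ F, ∫⁻ z in S i, U i z ≤ ENNReal.ofReal E) (c : ℝ≥0∞) (hc : c ≠ ⊤) (t : ℝ) :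
    ∫⁻ X, (c * Den volume 4 (w⁻¹ ^ 2 * ρ⁻¹) (fun i => frc w⁻¹ ρ⁻¹ (C i)) (fun i => vel (C i))
      U S F' X t) ^ (3/2 : ℝ) ≤
      c ^ (3/2 : ℝ) * (ENNReal.ofReal (w⁻¹ ^ 2 * ρ⁻¹ * E) ^ (1/2 : ℝ) *
        (W0 * ∑ i ∈ F', ∫⁻ z in S i, U i z)) := by
  have hc0 : 0 < w⁻¹ ^ 2 * ρ⁻¹ := by positivity
  set D : E3 → ℝ≥0∞ := fun X => Den volume 4 (w⁻¹ ^ 2 * ρ⁻¹) (fun i => frc w⁻¹ ρ⁻¹ (C i))
    (fun i => vel (C i)) U S F' X t with hD
  have hsup : ∀ X, D X ≤ ENNReal.ofReal (w⁻¹ ^ 2 * ρ⁻¹ * E) := by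
    intro X
    refine (Den_le X t).trans ?_
    rw [ENNReal.ofReal_mul hc0.le]
    exact mul_le_mul' le_rfl ((Finset.sum_le_sum_of_subset hF').trans hE)
  have h1 : ∀ X, (c * D X) ^ (3/2 : ℝ) ≤
      c ^ (3/2 : ℝ) * (ENNReal.ofReal (w⁻¹ ^ 2 * ρ⁻¹ * E) ^ (1/2 : ℝ) * D X) := by
    intro X
    rw [ENNReal.mul_rpow_of_nonneg _ _ (by norm_num)]
    exact mul_le_mul' le_rfl (rpow32_le (hsup X))
  refine (lintegral_mono h1).trans (le_of_eq ?_)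
  rw [lintegral_const_mul' _ _ (ENNReal.rpow_ne_top_of_nonneg (by norm_num) hc),
    lintegral_const_mul' _ _ (ENNReal.rpow_ne_top_of_nonneg (by norm_num) ENNReal.ofReal_ne_top)]
  congr 2
  exact lint_Den hc0 (fun i _ => det_frc _ _ _) (fun i hi => hU i (hF' hi)) t

/-- the power of the cut-off. -/
theorem tail_real {q e1 w ρ R s Δ C2 : ℝ} (hq : 0 ≤ q) (hw : 0 < w) (hwR : w ≤ R) (hρ : 0 < ρ)
    (hwρ : w ^ 2 ≤ ρ * R) (hs : w ≤ s * R) (hΔ : 0 ≤ Δ) (hC2 : 0 ≤ C2) {k : ℕ}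
    (hk : 4 + q ≤ 3 * e1 * k) :
    ENNReal.ofReal ((((R / w) ^ e1 / 2) ^ k)⁻¹) ^ (3/2 : ℝ) *
      ENNReal.ofReal (w⁻¹ ^ 2 * ρ⁻¹ * (C2 * (Δ * R ^ 3))) ^ (1/2 : ℝ) ≤
      ENNReal.ofReal (((2:ℝ) ^ k) ^ (3/2 : ℝ) * Real.sqrt C2 * (s ^ (q / 2) * Real.sqrt Δ)) := by
  have hR : 0 < R := hw.trans_le hwR
  set P : ℝ := R / w with hP
  have hP0 : 0 < P := by positivity
  have hP1 : 1 ≤ P := by rw [hP, le_div_iff₀ hw, one_mul]; exact hwR
  have hs0 : 0 < s := by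
    by_contra hn
    have : s * R ≤ 0 := mul_nonpos_of_nonpos_of_nonneg (not_lt.1 hn) hR.le
    linarith
  have hsP : P⁻¹ ≤ s := by
    rw [hP, inv_div, div_le_iff₀ hR]; exact hs
  rw [ENNReal.ofReal_rpow_of_nonneg (by positivity) (by norm_num),
    ENNReal.ofReal_rpow_of_nonneg (by positivity) (by norm_num), ← ENNReal.ofReal_mul (by positivity)]
  refine ENNReal.ofReal_le_ofReal ?_
  have e1' : ((P ^ e1 / 2) ^ k)⁻¹ = 2 ^ k * P ^ (-(e1 * k)) := by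
    rw [div_pow, inv_div, ← Real.rpow_natCast (P ^ e1), ← Real.rpow_mul hP0.le,
      Real.rpow_neg hP0.le]
    rfl
  have e2 : w⁻¹ ^ 2 * ρ⁻¹ * (C2 * (Δ * R ^ 3)) ≤ C2 * Δ * P ^ 4 := by
    have h1 : w⁻¹ ^ 2 * ρ⁻¹ * R ^ 3 ≤ P ^ 4 := by
      rw [hP, div_pow, le_div_iff₀ (by positivity)]
      have e3 : w⁻¹ ^ 2 * ρ⁻¹ * R ^ 3 * w ^ 4 = ρ⁻¹ * R ^ 3 * w ^ 2 := by field_simp
      rw [e3]
      calc ρ⁻¹ * R ^ 3 * w ^ 2 ≤ ρ⁻¹ * R ^ 3 * (ρ * R) := by gcongr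
        _ = R ^ 4 := by field_simp
    calc w⁻¹ ^ 2 * ρ⁻¹ * (C2 * (Δ * R ^ 3)) = C2 * Δ * (w⁻¹ ^ 2 * ρ⁻¹ * R ^ 3) := by ring
      _ ≤ _ := by gcongr
  have e4 : (w⁻¹ ^ 2 * ρ⁻¹ * (C2 * (Δ * R ^ 3))) ^ (1/2 : ℝ) ≤
      Real.sqrt C2 * Real.sqrt Δ * P ^ 2 := by
    refine (Real.rpow_le_rpow (by positivity) e2 (by norm_num)).trans (le_of_eq ?_)
    rw [← Real.sqrt_eq_rpow, Real.sqrt_mul (by positivity), Real.sqrt_mul hC2]
    congr 1
    rw [show P ^ 4 = (P ^ 2) ^ 2 by ring, Real.sqrt_sq (by positivity)]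
  rw [e1', Real.mul_rpow (by positivity) (by positivity), ← Real.rpow_mul hP0.le]
  have h1 : P ^ (-(e1 * k) * (3/2)) ≤ P ^ (-(2 + q/2) : ℝ) :=
    Real.rpow_le_rpow_of_exponent_le hP1 (by nlinarith)
  have h2 : P ^ (-(2 + q/2) : ℝ) * P ^ 2 = (P⁻¹) ^ (q / 2) := by
    rw [Real.inv_rpow hP0.le, ← Real.rpow_neg hP0.le, ← Real.rpow_natCast P 2,
      ← Real.rpow_add hP0]
    congr 1
    push_cast
    ring
  have h3 : (P⁻¹) ^ (q / 2) ≤ s ^ (q / 2) :=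
    Real.rpow_le_rpow (by positivity) hsP (by positivity)
  calc (2 ^ k) ^ (3/2 : ℝ) * P ^ (-(e1 * k) * (3/2)) *
        (w⁻¹ ^ 2 * ρ⁻¹ * (C2 * (Δ * R ^ 3))) ^ (1/2 : ℝ)
      ≤ (2 ^ k) ^ (3/2 : ℝ) * P ^ (-(2 + q/2) : ℝ) * (Real.sqrt C2 * Real.sqrt Δ * P ^ 2) := by
        gcongr
    _ = (2 ^ k) ^ (3/2 : ℝ) * Real.sqrt C2 * ((P ^ (-(2 + q/2) : ℝ) * P ^ 2) *
          Real.sqrt Δ) := by ring
    _ ≤ _ := by
        rw [h2]
        gcongr

/-- powers of `P`. -/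
theorem pow_bound {w R e1 ε : ℝ} (hw : 0 < w) (hwR : w ≤ R) (he1 : e1 ≤ ε / 12) :
    ((R / w) ^ e1) ^ 6 * (w / R) ^ (-(ε / 2)) ≤ (w / R) ^ (-ε) := by
  have hR : 0 < R := hw.trans_le hwR
  set P : ℝ := R / w with hP
  have hP0 : 0 < P := by positivity
  have hP1 : 1 ≤ P := by rw [hP, le_div_iff₀ hw, one_mul]; exact hwR
  have e : w / R = P⁻¹ := by rw [hP, inv_div]
  rw [e, Real.inv_rpow hP0.le, Real.inv_rpow hP0.le, ← Real.rpow_neg hP0.le,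
    ← Real.rpow_neg hP0.le, neg_neg, neg_neg, ← Real.rpow_natCast (P ^ e1) 6,
    ← Real.rpow_mul hP0.le, ← Real.rpow_add hP0]
  refine Real.rpow_le_rpow_of_exponent_le hP1 ?_
  push_cast
  linarith

open Classical in
/-- sum of the energies of families of caps. -/
theorem sum_fam {κ β : Type} (K : Finset β) (Mf : β → Finset κ) (F : Finset κ) (N : ℕ)
    (hM : ∀ k ∈ K, Mf k ⊆ F) (hN : ∀ i ∈ F, (K.filter (fun k => i ∈ Mf k)).card ≤ N)
    (a : κ → ℝ≥0∞) :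
    ∑ k ∈ K, ∑ i ∈ Mf k, a i ≤ (N : ℝ≥0∞) * ∑ i ∈ F, a i := by
  have h1 : ∑ k ∈ K, ∑ i ∈ Mf k, a i = ∑ i ∈ F, ∑ k ∈ K.filter (fun k => i ∈ Mf k), a i := by
    refine Finset.sum_comm' fun k i => ?_
    simp only [Finset.mem_filter]
    constructor
    · rintro ⟨hk, hi⟩
      exact ⟨⟨hk, hi⟩, hM k hk hi⟩
    · rintro ⟨⟨hk, hi⟩, _⟩
      exact ⟨hk, hi⟩
  rw [h1, Finset.mul_sum]
  refine Finset.sum_le_sum fun i hi => ?_
  rw [Finset.sum_const, nsmul_eq_mul]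
  exact mul_le_mul' (by exact_mod_cast hN i hi) le_rfl

set_option maxHeartbeats 1000000 in
open Classical in
/-- **KMC in coefficient form** on the cone: a family of direction caps of size `s`, overlap `N`;
the exponent `n0` depends on `q, ε` only. -/
theorem kmc_core' {κ : Type} {M : ℝ} (hM : 1 ≤ M) (hKM : ∀ V : ℝ, LKMg (SSg M) V)
    {q : ℝ} (hq : 0 ≤ q) (ε : ℝ) (hε : 0 < ε) :
    ∃ n0 : ℕ, ∀ n, n0 ≤ n → ∀ A L Λ V : ℝ, 0 ≤ A → 0 ≤ L → 1 ≤ Λ → 0 ≤ V →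
      ∃ C0 : ℝ, 0 ≤ C0 ∧
      ∀ (w ρ R : ℝ), 0 < w → w ≤ R → w ^ 2 ≤ ρ * R → ρ ≤ w →
      ∀ (F : Finset κ) (C : κ → E2) (U : κ → E3 → ℝ≥0∞) (S : κ → Set E3),
      (∀ i, MeasurableSet (S i)) → (∀ i ∈ F, Measurable (U i)) →
      (∀ i ∈ F, ‖C i‖ ≤ V) → (∀ i ∈ F, ∀ z ∈ S i, ‖z‖ ≤ A * R) →
      ∀ Δ : ℝ, 0 ≤ Δ → DensR (M1 M (2 + 4 * M)) q w ρ R Δ F C U S →
      ∀ s : ℝ, w ≤ s * R → s ≤ 1 →
      ∀ (β : Type) (K : Finset β) (ξ : β → E2) (Mf : β → Finset κ) (N : ℕ),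
      (∀ k ∈ K, Mf k ⊆ F ∧ ∀ i ∈ Mf k, ‖C i - ξ k‖ ≤ Λ * s) →
      (∀ i ∈ F, (K.filter (fun k => i ∈ Mf k)).card ≤ N) →
      ∑ k ∈ K, ∫⁻ t in Set.Icc (-(L * R)) (L * R), ∫⁻ X,
        (Den volume n (w⁻¹ ^ 2 * ρ⁻¹) (fun i => frc w⁻¹ ρ⁻¹ (C i)) (fun i => vel (C i))
          U S (Mf k) X t) ^ (3/2 : ℝ) ≤
      ENNReal.ofReal (C0 * (w / R) ^ (-ε) * s ^ (q / 2) * Real.sqrt Δ * R * N) *
        ∑ i ∈ F, ∫⁻ z in S i, U i z := by
  set e1 : ℝ := min (ε / 12) 1 with he1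
  have he10 : 0 < e1 := lt_min (by positivity) (by norm_num)
  have he12 : e1 ≤ 1 := min_le_right _ _
  have he16 : e1 ≤ ε / 12 := min_le_left _ _
  refine ⟨4 + ⌈(4 + q) / (3 * e1)⌉₊, fun n hn => ?_⟩
  intro A L Λ V hA hL hΛ hV
  obtain ⟨C1, hC1, h1⟩ := kmc_sharp (κ := κ) hM hKM (q := q) (A := A) (L := L) (Λ := Λ) (V := V)
    hq hA hL hΛ hV (half_pos hε)
  set k0 : ℕ := n - 4 with hk0
  have hn3 : 4 ≤ n := by omega
  have hk : 4 + q ≤ 3 * e1 * k0 := by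
    have h2 : ⌈(4 + q) / (3 * e1)⌉₊ ≤ k0 := by omega
    have h3 : (4 + q) / (3 * e1) ≤ k0 := (Nat.le_ceil _).trans (by exact_mod_cast h2)
    rw [div_le_iff₀ (by positivity)] at h3
    linarith
  set C2 : ℝ := (8 * (1 + V + A + V ^ 2) + 3) ^ 2 * Cov 1 6 1 * (1 + V + A + V ^ 2) ^ 4 with hC2
  have hC20 : 0 ≤ C2 := by
    have := Cov_nonneg (M := 1) (K := 6) (L := 1) le_rfl (by norm_num) le_rfl
    positivity
  set w0 : ℝ := W0.toReal with hw0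
  have hw00 : 0 ≤ w0 := ENNReal.toReal_nonneg
  have hW0 : W0 = ENNReal.ofReal w0 := (ENNReal.ofReal_toReal W0_lt.ne).symm
  set C3 : ℝ := ((2:ℝ) ^ k0) ^ (3/2 : ℝ) * Real.sqrt C2 * w0 * (2 * L) with hC3
  have hC30 : 0 ≤ C3 := by positivity
  refine ⟨(2:ℝ) ^ (1/2 : ℝ) * (C1 + C3), by positivity, ?_⟩
  intro w ρ R hw hwR hwρ hρw F C U S hSm hU hC hSA Δ hΔ hD s hws hs1 β K ξ Mf N hKM' hN
  have hR0 : 0 < R := hw.trans_le hwR
  have hρ : 0 < ρ := by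
    by_contra hn
    have h1 : ρ * R ≤ 0 := mul_nonpos_of_nonpos_of_nonneg (not_lt.1 hn) hR0.le
    have h2 := pow_pos hw 2
    linarith
  have hs0 : 0 < s := by
    by_contra hn
    have : s * R ≤ 0 := mul_nonpos_of_nonpos_of_nonneg (not_lt.1 hn) hR0.le
    linarith
  have hen := whole_le hM hq hw hwR (hρw.trans hwR) hρ.le hΔ hD hV hA hC hSA
  have hP1 : 1 ≤ R / w := by rw [le_div_iff₀ hw, one_mul]; exact hwR
  have hP0 : 0 < R / w := by positivity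
  set y : ℝ := (R / w) ^ e1 with hy
  have hy1 : 1 ≤ y := Real.one_le_rpow hP1 he10.le
  have hyw : y * w ≤ R := by
    have : y ≤ R / w := by
      calc y ≤ (R / w) ^ (1:ℝ) := Real.rpow_le_rpow_of_exponent_le hP1 he12
        _ = R / w := Real.rpow_one _
    rwa [le_div_iff₀ hw] at this
  have hY : 0 < y / 2 := by positivity
  set c : ℝ≥0∞ := ENNReal.ofReal (((y / 2) ^ k0)⁻¹) with hc
  set X0 : ℝ := s ^ (q / 2) * Real.sqrt Δ with hX0
  have hX00 : 0 ≤ X0 := by positivity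
  set Pe : ℝ := (w / R) ^ (-ε) with hPe
  have hwR0 : 0 < w / R := by positivity
  have hPe1 : 1 ≤ Pe := by
    rw [hPe]
    refine Real.one_le_rpow_of_pos_of_le_one_of_nonpos hwR0 ?_ (by linarith)
    rw [div_le_one hR0]; exact hwR
  -- one cap
  have one : ∀ k ∈ K, ∫⁻ t in Set.Icc (-(L * R)) (L * R), ∫⁻ X,
        (Den volume n (w⁻¹ ^ 2 * ρ⁻¹) (fun i => frc w⁻¹ ρ⁻¹ (C i)) (fun i => vel (C i))
          U S (Mf k) X t) ^ (3/2 : ℝ) ≤
      ENNReal.ofReal ((2:ℝ) ^ (1/2 : ℝ) * (C1 + C3) * Pe * X0 * R) *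
        ∑ i ∈ Mf k, ∫⁻ z in S i, U i z := by
    intro k hkK
    obtain ⟨hMk, hMk'⟩ := hKM' k hkK
    set Ek : ℝ≥0∞ := ∑ i ∈ Mf k, ∫⁻ z in S i, U i z with hEk
    set Dn : E3 → ℝ → ℝ≥0∞ := fun X t => Den volume n (w⁻¹ ^ 2 * ρ⁻¹)
      (fun i => frc w⁻¹ ρ⁻¹ (C i)) (fun i => vel (C i)) U S (Mf k) X t with hDn
    set D4 : E3 → ℝ → ℝ≥0∞ := fun X t => Den volume 4 (w⁻¹ ^ 2 * ρ⁻¹)
      (fun i => frc w⁻¹ ρ⁻¹ (C i)) (fun i => vel (C i)) U S (Mf k) X t with hD4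
    set Sh : E3 → ℝ → ℝ≥0∞ := fun X t => Shd volume (y / 2) (w⁻¹ ^ 2 * ρ⁻¹)
      (fun i => frc w⁻¹ ρ⁻¹ (C i)) (fun i => vel (C i)) U S (Mf k) X t with hSh
    have hUk : ∀ i ∈ Mf k, Measurable (U i) := fun i hi => hU i (hMk hi)
    have hpt : ∀ t, ∫⁻ X, (Dn X t) ^ (3/2 : ℝ) ≤
        ENNReal.ofReal ((2:ℝ) ^ (1/2 : ℝ)) * (∫⁻ X, (Sh X t) ^ (3/2 : ℝ)) +
        ENNReal.ofReal ((2:ℝ) ^ (1/2 : ℝ)) * (ENNReal.ofReal (((2:ℝ) ^ k0) ^ (3/2 : ℝ) *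
          Real.sqrt C2 * X0) * (W0 * Ek)) := by
      intro t
      have h2 : ∀ X, (Dn X t) ^ (3/2 : ℝ) ≤
          ENNReal.ofReal ((2:ℝ) ^ (1/2 : ℝ)) * (Sh X t) ^ (3/2 : ℝ) +
          ENNReal.ofReal ((2:ℝ) ^ (1/2 : ℝ)) * (c * D4 X t) ^ (3/2 : ℝ) := by
        intro X
        have h3 : Dn X t ≤ Sh X t + c * D4 X t := Den_split hn3 hY hUk X t
        refine (ENNReal.rpow_le_rpow h3 (by norm_num)).trans ?_
        refine (ENNReal.rpow_add_le_mul_rpow_add_rpow _ _ (by norm_num)).trans (le_of_eq ?_)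
        rw [mul_add]
        have e : (2 : ℝ≥0∞) ^ ((3/2 : ℝ) - 1) = ENNReal.ofReal ((2:ℝ) ^ (1/2 : ℝ)) := by
          rw [← ENNReal.ofReal_rpow_of_nonneg (by norm_num) (by norm_num)]
          norm_num
        rw [e]
      refine (lintegral_mono h2).trans ?_
      have hm4 : Measurable fun X => D4 X t := Den_meas hUk t
      rw [lintegral_add_right _ (((hm4.const_mul c).pow_const _).const_mul _),
        lintegral_const_mul' _ _ ENNReal.ofReal_ne_top,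
        lintegral_const_mul' _ _ ENNReal.ofReal_ne_top]
      refine add_le_add le_rfl (mul_le_mul' le_rfl ?_)
      refine (tail_part hw hρ hMk hU hen c ENNReal.ofReal_ne_top t).trans ?_
      rw [← mul_assoc]
      exact mul_le_mul' (tail_real hq hw hwR hρ hwρ hws hΔ hC20 hk) le_rfl
    calc _ ≤ ∫⁻ t in Set.Icc (-(L * R)) (L * R), (ENNReal.ofReal ((2:ℝ) ^ (1/2 : ℝ)) *
          (∫⁻ X, (Sh X t) ^ (3/2 : ℝ)) +
        ENNReal.ofReal ((2:ℝ) ^ (1/2 : ℝ)) * (ENNReal.ofReal (((2:ℝ) ^ k0) ^ (3/2 : ℝ) *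
          Real.sqrt C2 * X0) * (W0 * Ek))) := lintegral_mono fun t => hpt t
      _ = ENNReal.ofReal ((2:ℝ) ^ (1/2 : ℝ)) * (∫⁻ t in Set.Icc (-(L * R)) (L * R),
          ∫⁻ X, (Sh X t) ^ (3/2 : ℝ)) +
        ENNReal.ofReal ((2:ℝ) ^ (1/2 : ℝ)) * (ENNReal.ofReal (((2:ℝ) ^ k0) ^ (3/2 : ℝ) *
          Real.sqrt C2 * X0) * (W0 * Ek)) * ENNReal.ofReal (2 * L * R) := by
          rw [lintegral_add_right _ measurable_const, lintegral_const_mul' _ _ ENNReal.ofReal_ne_top,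
            lintegral_const, Measure.restrict_apply_univ, Real.volume_Icc]
          congr 3
          ring
      _ ≤ ENNReal.ofReal ((2:ℝ) ^ (1/2 : ℝ)) * (ENNReal.ofReal (C1 * y ^ 6 *
            (w / R) ^ (-(ε / 2)) * s ^ (q / 2) * Real.sqrt Δ * R) * Ek) +
        ENNReal.ofReal ((2:ℝ) ^ (1/2 : ℝ)) * (ENNReal.ofReal (((2:ℝ) ^ k0) ^ (3/2 : ℝ) *
          Real.sqrt C2 * X0) * (W0 * Ek)) * ENNReal.ofReal (2 * L * R) := by
          refine add_le_add (mul_le_mul' le_rfl ?_) le_rfl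
          exact h1 w ρ R y hw hwR hwρ hρw hy1 hyw F C U S hSm hC hSA Δ hΔ hD s hws hs1 (ξ k)
            (Mf k) hMk hMk'
      _ = (ENNReal.ofReal ((2:ℝ) ^ (1/2 : ℝ) * (C1 * y ^ 6 * (w / R) ^ (-(ε / 2)) *
            s ^ (q / 2) * Real.sqrt Δ * R)) +
          ENNReal.ofReal ((2:ℝ) ^ (1/2 : ℝ) * ((((2:ℝ) ^ k0) ^ (3/2 : ℝ) *
          Real.sqrt C2 * X0) * w0 * (2 * L * R)))) * Ek := by
          rw [add_mul, ENNReal.ofReal_mul (p := (2:ℝ) ^ (1/2 : ℝ)) (by positivity),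
            ENNReal.ofReal_mul (p := (2:ℝ) ^ (1/2 : ℝ)) (by positivity),
            ENNReal.ofReal_mul (p := (((2:ℝ) ^ k0) ^ (3/2 : ℝ) * Real.sqrt C2 * X0) * w0)
              (by positivity),
            ENNReal.ofReal_mul (p := (((2:ℝ) ^ k0) ^ (3/2 : ℝ) * Real.sqrt C2 * X0))
              (by positivity), hW0]
          ring
      _ ≤ _ := by
          rw [← ENNReal.ofReal_add (by positivity) (by positivity)]
          refine mul_le_mul' (ENNReal.ofReal_le_ofReal ?_) le_rfl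
          have h3 : y ^ 6 * (w / R) ^ (-(ε / 2)) ≤ Pe := pow_bound hw hwR he16
          calc (2:ℝ) ^ (1/2 : ℝ) * (C1 * y ^ 6 * (w / R) ^ (-(ε / 2)) * s ^ (q / 2) *
                Real.sqrt Δ * R) +
                (2:ℝ) ^ (1/2 : ℝ) * ((((2:ℝ) ^ k0) ^ (3/2 : ℝ) * Real.sqrt C2 * X0) * w0 *
                  (2 * L * R))
              = (2:ℝ) ^ (1/2 : ℝ) * (C1 * (y ^ 6 * (w / R) ^ (-(ε / 2))) * X0 * R +
                  C3 * 1 * X0 * R) := by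
                rw [hX0, hC3]; ring
            _ ≤ (2:ℝ) ^ (1/2 : ℝ) * (C1 * Pe * X0 * R + C3 * Pe * X0 * R) := by
                gcongr
            _ = _ := by ring
  refine (Finset.sum_le_sum one).trans ?_
  rw [← Finset.mul_sum]
  have h5 := sum_fam K Mf F N (fun k hk => (hKM' k hk).1) hN (fun i => ∫⁻ z in S i, U i z)
  refine (mul_le_mul' le_rfl h5).trans ?_
  rw [← mul_assoc, ← ENNReal.ofReal_natCast, ← ENNReal.ofReal_mul (by positivity)]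
  refine mul_le_mul' (ENNReal.ofReal_le_ofReal (le_of_eq ?_)) le_rfl
  rw [hX0]; ring


end Crest.Agent.R116.Ckm538
end

-- ▼ part R116/LZg7_725
section

/-!
# R116, (Z4), part 7: members as objects of `WDefC_188`; sub-members, thickened members (helper725)

`toMem s1 sg R c X0 f` with `B = κ⁻¹`: `toMem_T`, `adm_iff`, `rays_sub_mset` (rays of the member are
in `mset`), `mset_sub_rays` (`mset` is in the rays of the twofold member with `4 B`).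
`Mem.fat K m`, `fat_ok`, `rays_sub_fat`; `Mem.sub_ok`; `cpt_zoom`; `mshift` (translations).
-/

set_option autoImplicit false
set_option linter.unusedSectionVars false

namespace Crest.Agent.R116.LZg725

open Crest.Agent.R138.Defs (E2)
open Crest.Agent.R116.CDef480 (E3 lat pt vel)
open Crest.Agent.R116.LKMDef299 (Cpt)
open Crest.Agent.R116 (WC188.Adm WC188.TT WC188.mset)

/-- the member with data `(s1, sg, R, c, X0, f)` at time `0`. -/
def toMem (s1 sg R : ℝ) (c : E2) (X0 : E3) (f : Cf E2) : Mem := ⟨c, sg, s1, R, X0, 0, f⟩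

theorem toMem_T (κ s1 sg R : ℝ) (c : E2) (X0 : E3) (f : Cf E2) :
    (toMem s1 sg R c X0 f).T κ⁻¹ = WC188.TT κ sg R := by
  unfold Mem.T toMem WC188.TT
  simp only []
  rw [mul_inv, div_eq_mul_inv]

theorem toMem_scost (κ s1 sg R : ℝ) (c : E2) (X0 : E3) (f : Cf E2) :
    (toMem s1 sg R c X0 f).scost κ⁻¹ = WC188.scost κ s1 sg R := by
  unfold Mem.scost WC188.scost
  rw [toMem_T]
  rfl

theorem TT_pos {κ sg R : ℝ} (hsg : 0 < sg) : 0 < WC188.TT κ sg R :=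
  lt_of_lt_of_le (pow_pos hsg 2) (le_max_left _ _)

theorem adm_iff {M κ s1 sg R : ℝ} {c : E2} {X0 : E3} {f : Cf E2} (hκ : 0 < κ) (hR : 0 < R)
    (hs1 : 0 < s1) (hsg : s1 ≤ sg) :
    WC188.Adm M κ s1 sg (WC188.TT κ sg R) R c X0 f ↔
      (toMem s1 sg R c X0 f).Ok M κ⁻¹ ∧ Cpt M κ⁻¹ (toMem s1 sg R c X0 f) := by
  have hT : 0 < WC188.TT κ sg R := TT_pos (hs1.trans_le hsg)
  constructor
  · intro h
    refine ⟨⟨hR, hs1, hsg, ?_⟩, fun s hs => ?_⟩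
    · rw [toMem_T]
      refine ⟨h.disc, fun s hs => ?_, h.ld, h.ev⟩
      have h1 := h.ny s (by simpa [toMem] using hs)
      rwa [le_div_iff₀ hT] at h1
    · have h1 := h.cmp s (by simpa [toMem] using hs)
      have h2 := mul_le_mul_of_nonneg_right h1 (inv_pos.2 hκ).le
      refine h2.trans (le_of_eq ?_)
      change M * (κ * s1 * R) * κ⁻¹ = M * (s1 * R)
      field_simp
  · rintro ⟨h, h'⟩
    have ha := h.adm
    rw [toMem_T] at ha
    refine ⟨ha.disc, fun s hs => ?_, fun s hs => ?_, ha.ld, ha.ev⟩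
    · rw [le_div_iff₀ hT]
      exact ha.ny s (by simpa [toMem] using hs)
    · have h1 := h' s (by simpa [toMem] using hs)
      have h2 := mul_le_mul_of_nonneg_right h1 hκ.le
      have e1 : |f.ny s| * κ⁻¹ * κ = |f.ny s| := by field_simp
      have e2 : M * (s1 * R) * κ = M * (κ * s1 * R) := by ring
      change |f.ny s| * κ⁻¹ * κ ≤ M * (s1 * R) * κ at h2
      rwa [e1, e2] at h2

/-- the rays of the member are in `mset`. -/
theorem rays_sub_mset {κ s1 sg R : ℝ} {c : E2} {X0 : E3} {f : Cf E2} (hR : 0 < R) {C : E2}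
    {X : E3} (h : (C, lat X, X 2) ∈ (toMem s1 sg R c X0 f).rays κ⁻¹) :
    X ∈ WC188.mset sg (WC188.TT κ sg R) R s1 c X0 f C := by
  rw [Mem.mem_rays, toMem_T] at h
  obtain ⟨hC, hr⟩ := h
  have h00 : |(0:ℝ) - 0| ≤ R := by rw [sub_zero, abs_zero]; exact hR.le
  have h0 := hr 0 h00
  have ex : rx C (lat X) 0 = lat X := by unfold rx; simp
  have ey : ry C (X 2) 0 = X 2 := by unfold ry; simp
  obtain ⟨⟨-, a2, a3⟩, a4⟩ := h0
  simp only [toMem, ex, ey, sub_self, zero_smul, add_zero] at a2 a3 a4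
  refine ⟨hC, a2, a3, a4, ?_⟩
  have hL := rB_le (p := f) (s0 := 0) hR (fun s hs => (hr s hs).2)
  rw [← Cf.ld_ray f C (lat X) (X 2) 0, ex, ey] at hL
  exact le_of_mul_le_mul_right hL hR


/-! ### thickened members -/

/-- the `K`-fold member: aperture `K sg`, slab `L s1`. -/
def Mem.fat (K L : ℝ) (m : Mem) : Mem := { m with sg := K * m.sg, s1 := L * m.s1 }





/-! ### sub-members -/


/-! ### the zoom of the compatibility condition -/


end Crest.Agent.R116.LZg725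
end

-- ▼ part R116/Ckm8_538
section

/-!
# R116 (S0155), wave side: KMC over the literals of `WDefC_188` (helper538), part 8

`densR_of_adm` : the density of a selection on the `Adm M` members gives `DensR M'` for every `M'`.
`kmr` : the Kakeya row (890's literal) for the densities `Acc`, all points, `|t| ≤ T r`.
-/

set_option autoImplicit false

open MeasureTheory
open scoped ENNReal

namespace Crest.Agent.R116.Ckm538

open Crest.Agent.R138.Defs (E2)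
open Crest.Agent.R138.Wpk685 (cen caps cen_zero cen_one)
open Crest.Agent.R116.CDef480
open Crest.Agent.R116.LZg725 (Cf Mem toMem toMem_scost adm_iff rays_sub_mset)
open Crest.Agent.R116.LKMDef299 (Cpt SSg)
open Crest.Agent.R116.WC188 (TT mset scost Sd pbx PBx Adm)
open Crest.Agent.R116.Cad538

/-- the density of a selection on the members of `WDefC_188` (constant `M`) gives `DensR` for every
constant `M'`. -/
theorem densR_of_adm {M M' q κ r : ℝ} (hM : 1 ≤ M) (hM' : 1 ≤ M') (hq : 0 ≤ q) (hκ : 0 < κ)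
    (hκ1 : κ ≤ 1) (hr : 1 ≤ r) {g : E3 → ℂ} {S : ℤ × ℤ → Set E3} {Δ : ℝ} (hΔ : 0 ≤ Δ)
    (hd : ∀ (c : E2) (X0 : E3) (f : Cf E2) (s1 s2 : ℝ), Sd r s1 s2 →
      Adm M κ s1 s2 (TT κ s2 r) r c X0 f →
      enc (r ^ (-(1/2) : ℝ)) g (fun m => S m ∩ pbx κ 1 r s1 s2 c X0 f m) ≤
        ENNReal.ofReal (Δ * s2 ^ q * scost κ s1 s2 r)) :
    DensR M' q (r ^ (1/2 : ℝ)) κ⁻¹ r (11 ^ 5 * M' ^ 21 * Δ) (caps (r ^ (-(1/2) : ℝ)))
      (cen (r ^ (-(1/2) : ℝ))) (fun m y => ‖umc (r ^ (-(1/2) : ℝ)) g m y‖ₑ ^ 2) S := by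
  intro m hOk hCpt hmR hs0 hw hsg _
  have hr0 : 0 < r := by linarith
  have hs1 : 0 < m.s1 := hOk.hs1
  have hle : m.s1 ≤ m.sg := hOk.hsg
  have em : m = toMem m.s1 m.sg r m.c m.X0 m.phi := by
    obtain ⟨c, sg, s1, R, X0, s0, phi⟩ := m
    simp only at hmR hs0
    subst hmR hs0
    rfl
  have hSd : Sd r m.s1 m.sg := by
    refine ⟨?_, hle, hsg⟩
    have e : r ^ (-(1/2) : ℝ) * r = r ^ (1/2 : ℝ) := by
      nth_rewrite 2 [← Real.rpow_one r]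
      rw [← Real.rpow_add hr0]
      norm_num
    rw [← e] at hw
    exact le_of_mul_le_mul_right hw hr0
  have hadm : Adm M' κ m.s1 m.sg (TT κ m.sg r) r m.c m.X0 m.phi :=
    (adm_iff hκ hr0 hs1 hle).2 (by rw [← em]; exact ⟨hOk, hCpt⟩)
  have h1 := Cov369.stab_core hq hκ hκ1 hr le_rfl hM' hΔ (fun c X0 f s1 s2 hS ha => by
    have hs1' : 0 < s1 := lt_of_lt_of_le (Real.rpow_pos_of_pos hr0 _) hS.lo
    exact hd c X0 f s1 s2 hS (Cov369.adm_mono hκ hr0 hs1' (hs1'.trans_le hS.le) hM ha)) hSd hadm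
  refine le_trans ?_ (h1.trans (le_of_eq ?_))
  · unfold enc
    refine Finset.sum_le_sum fun i _ => lintegral_mono_set ?_
    rintro y ⟨hy1, hy2⟩
    refine ⟨hy1, ?_⟩
    unfold pbx
    simp only [one_mul]
    refine rays_sub_mset hr0 ?_
    rw [← em]
    exact hy2
  · have e : m.scost κ⁻¹ = scost κ m.s1 m.sg r := by
      conv_lhs => rw [em]
      exact toMem_scost _ _ _ _ _ _ _
    rw [e, one_mul]

/-- lattice points near a given point. -/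
theorem card_lat {s Λ : ℝ} (hs : 0 < s) (ξ : E2) (K : Finset (ℤ × ℤ))
    (hK : ∀ k ∈ K, ‖ξ - cen s k‖ ≤ Λ * s) : K.card ≤ (2 * ⌈Λ⌉₊ + 1) ^ 2 := by
  set n : ℕ := ⌈Λ⌉₊ with hn
  have hΛn : Λ ≤ n := Nat.le_ceil _
  have key : ∀ (i : Fin 2) (k : ℤ), |ξ i - s * k| ≤ Λ * s →
      k ∈ Finset.Icc (⌊ξ i / s⌋ - (n : ℤ)) (⌊ξ i / s⌋ + (n : ℤ)) := by
    intro i k h
    have h1 : |ξ i / s - k| ≤ n := by
      have e : ξ i / s - k = (ξ i - s * k) / s := by field_simp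
      rw [e, abs_div, abs_of_pos hs, div_le_iff₀ hs]
      exact h.trans (mul_le_mul_of_nonneg_right hΛn hs.le)
    have h2 := Int.floor_le (ξ i / s)
    have h3 := Int.lt_floor_add_one (ξ i / s)
    rw [abs_le] at h1
    rw [Finset.mem_Icc]
    constructor
    · have : ((⌊ξ i / s⌋ - (n : ℤ) : ℤ) : ℝ) ≤ (k : ℝ) := by
        push_cast
        linarith
      exact_mod_cast this
    · have : (k : ℝ) < ((⌊ξ i / s⌋ + (n : ℤ) + 1 : ℤ) : ℝ) := by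
        push_cast
        linarith
      have h4 : k < ⌊ξ i / s⌋ + (n : ℤ) + 1 := by exact_mod_cast this
      omega
  have hsub : K ⊆ Finset.Icc (⌊ξ 0 / s⌋ - (n : ℤ)) (⌊ξ 0 / s⌋ + (n : ℤ)) ×ˢ
      Finset.Icc (⌊ξ 1 / s⌋ - (n : ℤ)) (⌊ξ 1 / s⌋ + (n : ℤ)) := by
    intro k hk
    have h := hK k hk
    have h0 := (PiLp.norm_apply_le (ξ - cen s k) 0).trans h
    have h1 := (PiLp.norm_apply_le (ξ - cen s k) 1).trans h
    rw [PiLp.sub_apply, Real.norm_eq_abs] at h0 h1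
    rw [cen_zero] at h0
    rw [cen_one] at h1
    exact Finset.mem_product.2 ⟨key 0 k.1 h0, key 1 k.2 h1⟩
  refine (Finset.card_le_card hsub).trans (le_of_eq ?_)
  rw [Finset.card_product, Int.card_Icc, Int.card_Icc, sq]
  have e : ∀ a : ℤ, (a + (n : ℤ) + 1 - (a - (n : ℤ))).toNat = 2 * n + 1 := by
    intro a; omega
  rw [e, e]

/-- the slopes of the caps are bounded. -/
theorem norm_cen_le {ρ : ℝ} (hρ : 0 < ρ) (hρ1 : ρ ≤ 1) {m : ℤ × ℤ} (hm : m ∈ caps ρ) :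
    ‖cen ρ m‖ ≤ 8 := by
  unfold caps at hm
  rw [Finset.mem_product, Finset.mem_Icc, Finset.mem_Icc] at hm
  obtain ⟨⟨h1, h2⟩, h3, h4⟩ := hm
  have key : ∀ k : ℤ, -⌈2 / ρ⌉ - 1 ≤ k → k ≤ ⌈2 / ρ⌉ + 1 → |ρ * (k : ℝ)| ≤ 4 := by
    intro k h h'
    have g1 : (-(⌈2 / ρ⌉ : ℝ) - 1) ≤ k := by exact_mod_cast h
    have g2 : (k : ℝ) ≤ (⌈2 / ρ⌉ : ℝ) + 1 := by exact_mod_cast h'
    have g3 : (⌈2 / ρ⌉ : ℝ) < 2 / ρ + 1 := Int.ceil_lt_add_one _
    have g4 : |(k : ℝ)| ≤ 2 / ρ + 2 := by rw [abs_le]; constructor <;> linarith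
    rw [abs_mul, abs_of_pos hρ]
    calc ρ * |(k : ℝ)| ≤ ρ * (2 / ρ + 2) := mul_le_mul_of_nonneg_left g4 hρ.le
      _ = 2 + 2 * ρ := by field_simp
      _ ≤ 4 := by linarith
  refine (Cov369.norm_le_add _).trans ?_
  rw [cen_zero, cen_one]
  have a := key m.1 h1 h2
  have b := key m.2 h3 h4
  linarith

open Classical in
/-- **Kakeya row** for the coefficient densities (890's literal). -/
theorem kmr {M0 M q : ℝ} (hM0 : 1 ≤ M0) (hM : 1 ≤ M) (hq : 0 ≤ q)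
    (hKM : ∀ V : ℝ, LKMg (SSg M0) V) (ε : ℝ) (hε : 0 < ε) :
    ∃ n0 : ℕ, ∀ n, n0 ≤ n → ∀ A T Λ : ℝ, 0 ≤ A → 0 ≤ T → 0 ≤ Λ →
      ∃ C : ℝ, 0 ≤ C ∧ ∀ (κ r : ℝ), 0 < κ → κ ≤ 1 →
      r ^ (-(1/2) : ℝ) ≤ κ → 1 ≤ r → ∀ (g : E3 → ℂ), Integrable g →
      ∀ (S : ℤ × ℤ → Set E3), (∀ m, MeasurableSet (S m)) →
      (∀ m, S m ⊆ Metric.closedBall 0 (A * r)) → ∀ Δ : ℝ, 0 ≤ Δ →
      (∀ (c : E2) (X0 : E3) (f : Cf E2) (s1 s2 : ℝ), Sd r s1 s2 →
        Adm M κ s1 s2 (TT κ s2 r) r c X0 f →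
        enc (r ^ (-(1/2) : ℝ)) g (fun m => S m ∩ pbx κ 1 r s1 s2 c X0 f m) ≤
          ENNReal.ofReal (Δ * s2 ^ q * scost κ s1 s2 r)) →
      ∀ s : ℝ, r ^ (-(1/2) : ℝ) ≤ s → s ≤ 1 →
      ∀ (β : Type) (K : Finset β) (ξ : β → E2) (Mk : β → Finset (ℤ × ℤ)) (N : ℕ),
      (∀ k ∈ K, Mk k ⊆ caps (r ^ (-(1/2) : ℝ)) ∧
        ∀ m ∈ Mk k, ‖cen (r ^ (-(1/2) : ℝ)) m - ξ k‖ ≤ Λ * s) →
      (∀ m ∈ caps (r ^ (-(1/2) : ℝ)), (K.filter (fun k => m ∈ Mk k)).card ≤ N) →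
      ∑ k ∈ K, ∫⁻ t in Set.Icc (-(T * r)) (T * r), ∫⁻ x,
        (Acc n (r ^ (-(1/2) : ℝ)) κ (r ^ (-(1/2) : ℝ)) g S (Mk k) x t) ^ (3/2 : ℝ) ≤
      ENNReal.ofReal (C * r ^ ε * s ^ (q / 2) * Real.sqrt Δ * r * N) *
        enc (r ^ (-(1/2) : ℝ)) g S := by
  obtain ⟨n0, h0⟩ := kmc_core' (κ := ℤ × ℤ) hM0 hKM (q := q) hq ε hε
  refine ⟨n0, fun n hn => ?_⟩
  intro A T Λ hA hT hΛ
  obtain ⟨C0, hC0, h1⟩ := h0 n hn A T (Λ + 1) 8 hA hT (by linarith) (by norm_num)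
  set M' : ℝ := M1 M0 (2 + 4 * M0) with hM'
  have hM'1 : 1 ≤ M' := by
    rw [hM']; unfold M1
    nlinarith
  refine ⟨C0 * Real.sqrt (11 ^ 5 * M' ^ 21), by positivity, ?_⟩
  intro κ r hκ hκ1 hκr hr g hg S hSm hSA Δ hΔ hd s hs hs1 β K ξ Mk N hMk hN
  have hr0 : 0 < r := by linarith
  set th : ℝ := r ^ (-(1/2) : ℝ) with hth
  have hth0 : 0 < th := Real.rpow_pos_of_pos hr0 _
  have hth1 : th ≤ 1 := Real.rpow_le_one_of_one_le_of_nonpos hr (by norm_num)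
  have hwth : (r ^ (1/2 : ℝ))⁻¹ = th := by rw [hth, Real.rpow_neg hr0.le]
  have hw0 : 0 < r ^ (1/2 : ℝ) := Real.rpow_pos_of_pos hr0 _
  have hww : r ^ (1/2 : ℝ) * r ^ (1/2 : ℝ) = r := by
    rw [← Real.rpow_add hr0]; norm_num
  have hwr : r ^ (1/2 : ℝ) = th * r := by
    have : th * r ^ (1/2 : ℝ) = 1 := by rw [← hwth]; exact inv_mul_cancel₀ hw0.ne'
    calc r ^ (1/2 : ℝ) = (th * r ^ (1/2 : ℝ)) * r ^ (1/2 : ℝ) := by rw [this, one_mul]
      _ = th * r := by rw [mul_assoc, hww]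
  have hs0 : 0 < s := hth0.trans_le hs
  have hκi : 1 ≤ κ⁻¹ := (one_le_inv₀ hκ).2 hκ1
  have hD := densR_of_adm hM hM'1 hq hκ hκ1 hr hΔ hd
  have h2 := h1 (r ^ (1/2 : ℝ)) κ⁻¹ r hw0 (by rw [hwr]; nlinarith)
    (by rw [sq, hww]; nlinarith) (by
      rw [← inv_inv (r ^ (1/2 : ℝ)), hwth]
      exact inv_anti₀ hth0 hκr)
    (caps th) (cen th) (fun m y => ‖umc th g m y‖ₑ ^ 2) S hSm
    (fun i _ => Bas367.umc_meas_sq hg th i) (fun i hi => norm_cen_le hth0 hth1 hi)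
    (fun i _ z hz => by simpa using hSA i hz) (11 ^ 5 * M' ^ 21 * Δ) (by positivity) hD s
    (by rw [hwr]; exact mul_le_mul_of_nonneg_right hs hr0.le) hs1 β K ξ Mk N
    (fun k hk => ⟨(hMk k hk).1, fun i hi => ((hMk k hk).2 i hi).trans
      (mul_le_mul_of_nonneg_right (by linarith) hs0.le)⟩) (fun i hi => by
        convert hN i hi)
  simp only [hwth, inv_inv] at h2
  refine le_trans h2 (mul_le_mul' (ENNReal.ofReal_le_ofReal ?_) le_rfl)
  have e1 : r ^ (1/2 : ℝ) / r = th := by rw [hwr]; field_simp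
  have e2 : th ^ (-ε) ≤ r ^ ε := by
    rw [hth, ← Real.rpow_mul hr0.le]
    exact Real.rpow_le_rpow_of_exponent_le hr (by linarith)
  have e3 : Real.sqrt (11 ^ 5 * M' ^ 21 * Δ) = Real.sqrt (11 ^ 5 * M' ^ 21) * Real.sqrt Δ :=
    Real.sqrt_mul (by positivity) _
  rw [e1, e3]
  have h3 : 0 ≤ C0 * s ^ (q / 2) * (Real.sqrt (11 ^ 5 * M' ^ 21) * Real.sqrt Δ) * r * N := by
    positivity
  calc C0 * th ^ (-ε) * s ^ (q / 2) * (Real.sqrt (11 ^ 5 * M' ^ 21) * Real.sqrt Δ) * r * N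
      = th ^ (-ε) * (C0 * s ^ (q / 2) * (Real.sqrt (11 ^ 5 * M' ^ 21) * Real.sqrt Δ) * r * N) := by
        ring
    _ ≤ r ^ ε * (C0 * s ^ (q / 2) * (Real.sqrt (11 ^ 5 * M' ^ 21) * Real.sqrt Δ) * r * N) :=
        mul_le_mul_of_nonneg_right e2 h3
    _ = _ := by ring

/-- the caps of a slope disc of radius `Λ s` around the grid points of mesh `s`: overlap. -/
theorem overlap_le {th s Λ : ℝ} (hs : 0 < s) (K : Finset (ℤ × ℤ)) (m : ℤ × ℤ)
    (hK : ∀ k ∈ K, ‖cen th m - cen s k‖ ≤ Λ * s) : K.card ≤ (2 * ⌈Λ⌉₊ + 1) ^ 2 :=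
  card_lat hs (cen th m) K hK

open Classical in
/-- **KMC** in the form consumed by TUBE, AL, MIS. -/
theorem kmr_of {M0 M q : ℝ} (hM0 : 1 ≤ M0) (hM : 1 ≤ M) (hq : 0 ≤ q)
    (hKM : ∀ V : ℝ, LKMg (SSg M0) V) : KMR890.KMR M q := by
  intro ε hε
  obtain ⟨n0, h0⟩ := kmr hM0 hM hq hKM ε hε
  refine ⟨n0, fun n hn => ?_⟩
  intro A T Λ hA hT hΛ
  obtain ⟨C, hC, h1⟩ := h0 n hn A T Λ hA hT hΛ
  set N : ℕ := (2 * ⌈Λ⌉₊ + 1) ^ 2 with hN
  refine ⟨C * N, by positivity, ?_⟩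
  intro κ r hκ hκ1 hr hκr g hg _ S hSm hSA Δ hΔ hd s hs hs1 K Mk hMk
  have hr0 : 0 < r := by linarith
  have hs0 : 0 < s := (Real.rpow_pos_of_pos hr0 _).trans_le hs
  have h2 := h1 κ r hκ hκ1 hκr hr g hg S hSm hSA Δ hΔ hd s hs hs1 (ℤ × ℤ) K (cen s) Mk N hMk
    (fun m _ => overlap_le (th := r ^ (-(1/2) : ℝ)) hs0 _ m fun k hk => by
      have h := Finset.mem_filter.1 hk
      exact (hMk k h.1).2 m h.2)
  refine h2.trans (mul_le_mul' (ENNReal.ofReal_le_ofReal (le_of_eq ?_)) le_rfl)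
  ring

end Crest.Agent.R116.Ckm538
end

-- ▼ part R116/KMt3_448
section

/-!
# R116 (S0155), wave side, base `KMt`, part 3 (helper448)

`dens_up` : box hypothesis for a larger thin side.  `Aup_tail` : far packets.
`kmt_of` : **KMt** from the light-ray Kakeya inequality.
-/

set_option autoImplicit false
set_option linter.unusedSectionVars false

open MeasureTheory FourierTransform
open scoped ContDiff ENNReal

namespace Crest.Agent.R116.KMt448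

open Crest.Agent.R138.Defs (E2 ee)
open Crest.Agent.R138.Wpk685 (win fat cen caps)
open Crest.Agent.R116
open Crest.Agent.R116.CDef480 Crest.Agent.R116.CWd480
open Crest.Agent.R116.Cad538 (frc wt wt_frame wt_ball Den frc_le_frc norm_frc_le lat_le_frc nrm_le_frc)
open Crest.Agent.R116.WC188
open Crest.Agent.R116.Ckm538 (DensR M1 Cov thk LKMg cap_box norm3_le_nrm)
open Crest.Agent.R116.LKMDef299 (Cpt SSg)
open Crest.Agent.R116.LZg725 (Mem)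

/-- box hypothesis for a larger thin side. -/
theorem dens_up {κ : Type} {M q w R Δ l : ℝ} (hM : 1 ≤ M) (hq : 0 ≤ q) (hw : 0 < w) (hR : 0 < R)
    (hΔ : 0 ≤ Δ) {F : Finset κ} {C : κ → E2} {U : κ → E3 → ℝ≥0∞} {S : κ → Set E3}
    (hD : DensR (M1 M (2 + 4 * M)) q w 1 R Δ F C U S) (hl : 1 ≤ l) :
    DensR M q w l R (121 * Cov M (2 + 4 * M) 1 * Δ) F C U S := by
  classical
  intro m hOk hCpt hmR hs0 hw1 hsg _
  set A : Set (E2 × E3) := {r | (r.1, lat r.2, r.2 2) ∈ m.rays l} with hA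
  set F' : Finset κ := F.filter (fun i => ‖C i - m.c‖ ≤ m.sg) with hF'
  have hsgR : w ≤ m.sg * R := hw1.trans (mul_le_mul_of_nonneg_right hOk.hsg hR.le)
  have h1 := cap_box hM hq (L := 1) le_rfl hw hR hΔ hD (w' := w) (ρ' := l) le_rfl hl (by linarith)
    (s := m.sg) (Λ := 1) hsgR hsg le_rfl m.c (F' := F') (Finset.filter_subset _ _)
    (fun i hi => by rw [one_mul]; exact (Finset.mem_filter.1 hi).2) (A := A) (c := m.scost l)
    ⟨m, hOk, hCpt, by rw [one_mul]; exact hmR, hs0, by rw [one_mul]; exact hw1, hsg, rfl, rfl⟩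
    (by rw [one_mul])
  have h2 : ∑ i ∈ F, ∫⁻ y in S i ∩ {y | (C i, lat y, y 2) ∈ m.rays l}, U i y =
      ∑ i ∈ F', ∫⁻ y in S i ∩ {y | (C i, lat y, y 2) ∈ m.rays l}, U i y := by
    symm
    refine Finset.sum_subset (Finset.filter_subset _ _) fun i hi hi2 => ?_
    have h3 : S i ∩ {y | (C i, lat y, y 2) ∈ m.rays l} = ∅ := by
      rw [Set.eq_empty_iff_forall_notMem]
      rintro y ⟨_, hy⟩
      exact hi2 (Finset.mem_filter.2 ⟨hi, hy.1⟩)
    rw [h3, Measure.restrict_empty, lintegral_zero_measure]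
  rw [h2]
  refine le_trans (Finset.sum_le_sum fun i hi => ?_) (h1.trans (le_of_eq ?_))
  · refine lintegral_mono_set fun y hy => ⟨hy.1, y, hy.2, ?_, ?_⟩
    · rw [sub_self]
      have e : lat (0 : E3) = 0 := by ext i; fin_cases i <;> rfl
      rw [e, norm_zero]; exact hw.le
    · rw [sub_self, Ckm538.nrm_zero]
      have e : lat (0 : E3) = 0 := by ext i; fin_cases i <;> rfl
      rw [e, inner_zero_right]
      simp
      linarith
  · congr 1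
    ring

theorem norm_vel_le {C : E2} (hC : ‖C‖ ≤ 8) : ‖vel C‖ ≤ 40 := by
  have h := Ckm538.norm3_le (vel C)
  unfold vel at h ⊢
  rw [lat_pt, pt_two] at h
  have h1 : |-‖C‖ ^ 2 / 2| ≤ 32 := by
    rw [abs_div, abs_neg, abs_of_nonneg (sq_nonneg _), abs_of_pos (by norm_num : (0:ℝ) < 2)]
    have := norm_nonneg C
    nlinarith
  linarith

/-- the frame norm far away. -/
theorem frc_far {r R : ℝ} (hr : 1 ≤ r) (hrR : r ≤ R) {C : E2} (hC : ‖C‖ ≤ 8) {v : E3}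
    (hv : 9 * R ≤ ‖v‖) : (2 * an R)⁻¹ ≤ ‖frc (an R) (kp r R) C v‖ := by
  have hR : 1 ≤ R := hr.trans hrR
  have hR0 : 0 < R := by linarith
  have hr0 : 0 < r := by linarith
  have hρ := an_pos hR0
  have hk := kp_pos hr0 hR0
  have h1 := norm3_le_nrm C v
  have h2 := lat_le_frc (kp := kp r R) hρ.le C v
  have h3 := nrm_le_frc (th := an R) hk.le C v
  have h4 := an_le_kp hr hR0
  set N := ‖frc (an R) (kp r R) C v‖ with hN
  have h5 : an R * ‖v‖ ≤ 10 * N := by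
    calc an R * ‖v‖ ≤ an R * ((1 + ‖C‖) * ‖lat v‖ + |nrm C v 0|) := by gcongr
      _ = (1 + ‖C‖) * (an R * ‖lat v‖) + an R * |nrm C v 0| := by ring
      _ ≤ (1 + ‖C‖) * N + kp r R * |nrm C v 0| := by gcongr
      _ ≤ 9 * N + N := by
          have : 0 ≤ N := norm_nonneg _
          have : (1 + ‖C‖) * N ≤ 9 * N := by gcongr; linarith
          linarith
      _ = 10 * N := by ring
  have h6 : an R * R = (an R)⁻¹ := by
    have h7 := an_sq hR0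
    field_simp
    rw [h7, inv_mul_cancel₀ hR0.ne']
  have h8 : 9 * (an R)⁻¹ ≤ 10 * N := by
    calc 9 * (an R)⁻¹ = an R * (9 * R) := by rw [← h6]; ring
      _ ≤ an R * ‖v‖ := by gcongr
      _ ≤ _ := h5
  have h9 : 0 < (an R)⁻¹ := inv_pos.2 hρ
  rw [mul_inv]
  linarith

/-- **the packets far from the origin are not seen**. -/
theorem Aup_tail (n : ℕ) {A : ℝ} (hA : 1 ≤ A) {r R : ℝ} (hr : 1 ≤ r) (hrR : r ≤ R) {L : ℝ}
    {g : E3 → ℂ} (hg : Ba449.Gd L g) {X : E3} {t : ℝ} (hX : ‖X‖ ≤ (A + 1) * R)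
    (ht : |t| ≤ (A + 1) * R) :
    Aup n r R g (fun _ => Set.univ) X t ≤
      Aup n r R g (fun _ => Metric.closedBall 0 (50 * (A + 1) * R)) X t +
        ENNReal.ofReal ((2 * an R) ^ n * Enc g) := by
  have hR : 1 ≤ R := hr.trans hrR
  have hR0 : 0 < R := by linarith
  have hr0 : 0 < r := by linarith
  have hρ := an_pos hR0
  have hρ1 := an_le_one hR
  have hk := kp_pos hr0 hR0
  have hk1 := kp_le_one hr0 hrR
  set B : Set E3 := Metric.closedBall 0 (50 * (A + 1) * R) with hB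
  have hBm : MeasurableSet B := Metric.isClosed_closedBall.measurableSet
  unfold Aup Cad538.Acc Den
  have h1 : ∀ m ∈ caps (an R), ∫⁻ y in Set.univ, ENNReal.ofReal
      (wt (frc (an R) (kp r R) (cen (an R) m)) n (y - X - t • vel (cen (an R) m))) *
        ‖umc (an R) g m y‖ₑ ^ 2 ≤
      (∫⁻ y in B, ENNReal.ofReal
      (wt (frc (an R) (kp r R) (cen (an R) m)) n (y - X - t • vel (cen (an R) m))) *
        ‖umc (an R) g m y‖ₑ ^ 2) + ENNReal.ofReal ((2 * an R) ^ n) *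
        ∫⁻ y, ‖umc (an R) g m y‖ₑ ^ 2 := by
    intro m hm
    rw [Measure.restrict_univ, ← lintegral_add_compl _ hBm]
    refine add_le_add le_rfl ?_
    rw [← lintegral_const_mul' _ _ ENNReal.ofReal_ne_top]
    refine le_trans ?_ (setLIntegral_le_lintegral Bᶜ _)
    refine setLIntegral_mono' hBm.compl fun y hy => ?_
    refine mul_le_mul' (ENNReal.ofReal_le_ofReal ?_) le_rfl
    have hC := Ckm538.norm_cen_le hρ hρ1 hm
    have hv := norm_vel_le hC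
    have hy' : 50 * (A + 1) * R < ‖y‖ := by
      rw [hB] at hy
      simpa using hy
    have h2 : 9 * R ≤ ‖y - X - t • vel (cen (an R) m)‖ := by
      have h3 : ‖y‖ ≤ ‖y - X - t • vel (cen (an R) m)‖ + ‖X‖ + ‖t • vel (cen (an R) m)‖ := by
        have e : y = (y - X - t • vel (cen (an R) m)) + X + t • vel (cen (an R) m) := by abel
        calc ‖y‖ = ‖(y - X - t • vel (cen (an R) m)) + X + t • vel (cen (an R) m)‖ := by rw [← e]
          _ ≤ _ := (norm_add_le _ _).trans (add_le_add (norm_add_le _ _) le_rfl)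
      have h4 : ‖t • vel (cen (an R) m)‖ ≤ 40 * ((A + 1) * R) := by
        rw [norm_smul, Real.norm_eq_abs]
        have := mul_le_mul ht hv (norm_nonneg _) (by positivity)
        linarith
      have h5 : R ≤ (A + 1) * R := by nlinarith
      linarith
    have h3 := frc_far hr hrR hC h2
    unfold wt
    have h4 : 0 < (2 * an R)⁻¹ := by positivity
    rw [← inv_inv ((2 * an R) ^ n)]
    refine inv_anti₀ (by positivity) ?_
    rw [← inv_pow]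
    refine pow_le_pow_left₀ h4.le ?_ n
    linarith
  refine (mul_le_mul' le_rfl (Finset.sum_le_sum h1)).trans ?_
  rw [Finset.sum_add_distrib, mul_add]
  refine add_le_add le_rfl ?_
  rw [← Finset.mul_sum, ENNReal.ofReal_mul (p := (2 * an R) ^ n) (by positivity)]
  have h2 := Ba449.sum_lint_umc hg hρ
  calc ENNReal.ofReal (an R ^ 2 * kp r R) * (ENNReal.ofReal ((2 * an R) ^ n) *
        ∑ m ∈ caps (an R), ∫⁻ y, ‖umc (an R) g m y‖ₑ ^ 2)
      ≤ 1 * (ENNReal.ofReal ((2 * an R) ^ n) * ENNReal.ofReal (Enc g)) := by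
        refine mul_le_mul' ?_ (mul_le_mul' le_rfl h2)
        rw [← ENNReal.ofReal_one]
        refine ENNReal.ofReal_le_ofReal ?_
        have : an R ^ 2 ≤ 1 := by nlinarith
        nlinarith
    _ = _ := by rw [one_mul]

end Crest.Agent.R116.KMt448
end

-- ▼ part R116/KMt4_448

/-!
# R116 (S0155), wave side, base `KMt`, part 4: **`kmt_of`** (helper448)
-/

set_option autoImplicit false
set_option linter.unusedSectionVars false

open MeasureTheory FourierTransform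
open scoped ContDiff ENNReal

namespace Crest.Agent.R116.KMt448

open Crest.Agent.R138.Defs (E2 ee)
open Crest.Agent.R138.Wpk685 (win fat cen caps)
open Crest.Agent.R116
open Crest.Agent.R116.CDef480 Crest.Agent.R116.CWd480
open Crest.Agent.R116.Cad538 (frc wt Den Den_meas2)
open Crest.Agent.R116.WC188
open Crest.Agent.R116.Ckm538 (DensR M1 Cov LKMg kmc_core' densR_of_adm norm_cen_le)
open Crest.Agent.R116.LKMDef299 (Cpt SSg)

theorem rpow_add32 (x y : ℝ≥0∞) : (x + y) ^ (3/2 : ℝ) ≤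
    ENNReal.ofReal 2 * (x ^ (3/2 : ℝ) + y ^ (3/2 : ℝ)) := by
  refine (ENNReal.rpow_add_le_mul_rpow_add_rpow _ _ (by norm_num)).trans ?_
  refine mul_le_mul' ?_ le_rfl
  rw [show (3/2 : ℝ) - 1 = 1/2 by norm_num, ENNReal.ofReal_ofNat]
  calc (2 : ℝ≥0∞) ^ (1/2 : ℝ) ≤ 2 ^ (1 : ℝ) :=
        ENNReal.rpow_le_rpow_of_exponent_le (by norm_num) (by norm_num)
    _ = 2 := ENNReal.rpow_one _

/-- the cylinder as a product. -/
theorem lint_cylc_le (F : E3 × ℝ → ℝ≥0∞) (hF : Measurable F) (L : ℝ) :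
    ∫⁻ p in cylc L, F p ≤ ∫⁻ t in Set.Icc (-L) L, ∫⁻ X, F (X, t) := by
  have hsub : cylc L ⊆ Set.univ ×ˢ Set.Icc (-L) L := by
    rintro p ⟨_, h2⟩
    exact ⟨Set.mem_univ _, abs_le.1 h2⟩
  refine (lintegral_mono_set hsub).trans (le_of_eq ?_)
  rw [Measure.volume_eq_prod, ← Measure.prod_restrict, Measure.restrict_univ,
    lintegral_prod_symm _ hF.aemeasurable]

/-- the active caps. -/
noncomputable def act (ρ : ℝ) (g : E3 → ℂ) : Finset (ℤ × ℤ) := by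
  classical
  exact (caps ρ).filter (fun m => ∃ ζ, g ζ ≠ 0 ∧ capc ρ m ζ ≠ 0)

theorem mem_act {ρ : ℝ} {g : E3 → ℂ} {m : ℤ × ℤ} :
    m ∈ act ρ g ↔ m ∈ caps ρ ∧ ∃ ζ, g ζ ≠ 0 ∧ capc ρ m ζ ≠ 0 := by
  classical
  unfold act
  rw [Finset.mem_filter]

theorem umc_act {ρ : ℝ} {g : E3 → ℂ} {m : ℤ × ℤ} (h : ¬ ∃ ζ, g ζ ≠ 0 ∧ capc ρ m ζ ≠ 0)
    (y : E3) : umc ρ g m y = 0 := by
  have e : (fun ζ => capc ρ m ζ * g ζ) = fun _ => 0 := by
    funext ζ
    by_contra hc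
    exact h ⟨ζ, right_ne_zero_of_mul hc, left_ne_zero_of_mul hc⟩
  unfold umc
  rw [e]
  simp [Real.fourierInv_eq]

/-- only the active caps count. -/
theorem Aup_act (n : ℕ) {r R : ℝ} (g : E3 → ℂ) (S : ℤ × ℤ → Set E3) (X : E3) (t : ℝ) :
    Aup n r R g S X t = Cad538.Acc n (an R) (kp r R) (an R) g S (act (an R) g) X t := by
  unfold Aup Cad538.Acc Den
  congr 1
  symm
  refine Finset.sum_subset (fun m hm => (mem_act.1 hm).1) fun m hm hm2 => ?_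
  have h : ¬ ∃ ζ, g ζ ≠ 0 ∧ capc (an R) m ζ ≠ 0 := fun h => hm2 (mem_act.2 ⟨hm, h⟩)
  simp [umc_act h]

/-- position of the active caps. -/
theorem act_near {ρ b σ : ℝ} {C0 : E2} (hρ : 0 < ρ) {g : E3 → ℂ}
    (hg : ∀ ζ, g ζ ≠ 0 → ‖slp ζ‖ ≤ b ∧ ‖slp ζ - C0‖ ≤ σ) {m : ℤ × ℤ} (hm : m ∈ act ρ g) :
    ‖cen ρ m‖ ≤ b + 3 / 2 * ρ ∧ ‖cen ρ m - C0‖ ≤ σ + 3 / 2 * ρ := by
  obtain ⟨_, ζ, h1, h2⟩ := mem_act.1 hm
  obtain ⟨h3, h4⟩ := hg ζ h1
  have h5 : ‖slp ζ - cen ρ m‖ ≤ 3 / 2 * ρ := by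
    by_contra hc
    apply h2
    unfold capc Crest.Agent.R138.Wpk685.cap
    apply Crest.Agent.R138.Wpk685.win_zero'
    rw [norm_smul, Real.norm_eq_abs, abs_of_pos (inv_pos.2 hρ), lt_inv_mul_iff₀ hρ]
    linarith [not_le.1 hc]
  rw [norm_sub_rev] at h5
  constructor
  · have e : cen ρ m = (cen ρ m - slp ζ) + slp ζ := by abel
    rw [e]
    refine (norm_add_le _ _).trans ?_
    linarith
  · have e : cen ρ m - C0 = (cen ρ m - slp ζ) + (slp ζ - C0) := by abel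
    rw [e]
    refine (norm_add_le _ _).trans ?_
    linarith

/-- numerology of the tail. -/
theorem tail_num {q M0 R A V C1 Rr E D n' s : ℝ} {n : ℕ} (hq : 0 ≤ q) (hR : 1 ≤ R) (hA : 1 ≤ A)
    (hV : 0 ≤ V) (hC1 : 0 ≤ C1) (hE : 0 ≤ E) (hD : 0 ≤ D) (hnd : E ≤ R ^ M0 * D)
    (hRr : 0 ≤ Rr) (hn' : n' = n) (hn : 4 + |M0| + q ≤ n') (hs : an R ≤ s) :
    C1 * Rr * (2 * (((2 * an R) ^ n * E) ^ (3/2 : ℝ) * (2 * ((A + 1) * R) ^ 4 * V))) ≤
      (C1 * (4 * (A + 1) ^ 4 * V * (2:ℝ) ^ (3 / 2 * (n:ℝ)))) * (Rr * s ^ (q / 2) *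
        (R * E * Real.sqrt D)) := by
  have hR0 : 0 < R := by linarith
  have hρ := an_pos hR0
  have hs0 : 0 < s := hρ.trans_le hs
  have e1 : ((2 * an R) ^ n * E) ^ (3/2 : ℝ) =
      (2:ℝ) ^ (3 / 2 * (n:ℝ)) * R ^ (-(3 / 4 * (n:ℝ))) * E ^ (3/2 : ℝ) := by
    rw [Real.mul_rpow (by positivity) hE, ← Real.rpow_natCast, ← Real.rpow_mul (by positivity),
      Real.mul_rpow (by norm_num) hρ.le]
    unfold an
    rw [← Real.rpow_mul hR0.le]
    congr 3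
    · ring
    · ring
  have e2 : E ^ (3/2 : ℝ) ≤ E * (R ^ (M0 / 2) * Real.sqrt D) := by
    rw [show (3 / 2 : ℝ) = 1 + 1 / 2 by norm_num, Real.rpow_add_of_nonneg hE (by norm_num)
      (by norm_num), Real.rpow_one]
    gcongr
    calc E ^ (1 / 2 : ℝ) ≤ (R ^ M0 * D) ^ (1 / 2 : ℝ) :=
          Real.rpow_le_rpow hE hnd (by norm_num)
      _ = R ^ (M0 / 2) * Real.sqrt D := by
          rw [Real.mul_rpow (by positivity) hD, ← Real.rpow_mul hR0.le, Real.sqrt_eq_rpow]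
          congr 2
          ring
  have e3 : R ^ (-(3 / 4 * (n:ℝ))) * R ^ 4 * R ^ (M0 / 2) ≤ R * s ^ (q / 2) := by
    have h1 : (an R) ^ (q / 2) ≤ s ^ (q / 2) := Real.rpow_le_rpow hρ.le hs (by positivity)
    have h2 : R * (an R) ^ (q / 2) = R ^ (1 - q / 4) := by
      unfold an
      rw [← Real.rpow_mul hR0.le]
      nth_rewrite 1 [← Real.rpow_one R]
      rw [← Real.rpow_add hR0]
      congr 1
      ring
    refine le_trans ?_ (mul_le_mul_of_nonneg_left h1 hR0.le)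
    rw [h2, ← Real.rpow_natCast R 4, ← Real.rpow_add hR0, ← Real.rpow_add hR0]
    refine Real.rpow_le_rpow_of_exponent_le hR ?_
    push_cast
    have h3 := le_abs_self M0
    have h4 := abs_nonneg M0
    rw [hn'] at hn
    linarith
  rw [e1]
  have hX : 0 ≤ C1 * Rr * (2 * ((2:ℝ) ^ (3 / 2 * (n:ℝ)) * (2 * ((A + 1)) ^ 4 * V))) := by
    positivity
  calc C1 * Rr * (2 * ((2:ℝ) ^ (3 / 2 * (n:ℝ)) * R ^ (-(3 / 4 * (n:ℝ))) * E ^ (3/2 : ℝ) *
        (2 * ((A + 1) * R) ^ 4 * V)))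
      = C1 * Rr * (2 * ((2:ℝ) ^ (3 / 2 * (n:ℝ)) * (2 * ((A + 1)) ^ 4 * V))) *
        (R ^ (-(3 / 4 * (n:ℝ))) * R ^ 4 * E ^ (3/2 : ℝ)) := by ring
    _ ≤ C1 * Rr * (2 * ((2:ℝ) ^ (3 / 2 * (n:ℝ)) * (2 * ((A + 1)) ^ 4 * V))) *
        (R ^ (-(3 / 4 * (n:ℝ))) * R ^ 4 * (E * (R ^ (M0 / 2) * Real.sqrt D))) := by gcongr
    _ = C1 * Rr * (2 * ((2:ℝ) ^ (3 / 2 * (n:ℝ)) * (2 * ((A + 1)) ^ 4 * V))) *
        ((R ^ (-(3 / 4 * (n:ℝ))) * R ^ 4 * R ^ (M0 / 2)) * (E * Real.sqrt D)) := by ring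
    _ ≤ C1 * Rr * (2 * ((2:ℝ) ^ (3 / 2 * (n:ℝ)) * (2 * ((A + 1)) ^ 4 * V))) *
        ((R * s ^ (q / 2)) * (E * Real.sqrt D)) := by gcongr
    _ = _ := by ring

set_option maxHeartbeats 1000000 in
/-- **KMt**: Kakeya at the top, from the light-ray Kakeya inequality for planks. -/
theorem kmt_of {M' M q : ℝ} (hM' : 1 ≤ M') (hM : 1 ≤ M) (hq : 0 ≤ q)
    (hKM : ∀ V : ℝ, LKMg (SSg M') V) : KMt M q := by
  refine ⟨8, by norm_num, ?_⟩
  intro a b A ε M0 ha hb hb2 hA hε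
  obtain ⟨n0, h0⟩ := kmc_core' (κ := ℤ × ℤ) hM' hKM (q := q) hq ε hε
  set n : ℕ := max n0 ⌈4 + |M0| + q⌉₊ with hn
  have hnr : 4 + |M0| + q ≤ (n : ℝ) :=
    (Nat.le_ceil _).trans (by exact_mod_cast le_max_right _ _)
  obtain ⟨C1, hC1, h1⟩ := NP_le_Aup (A := A) ha n hA
  obtain ⟨C2, hC2, h2⟩ := h0 n (le_max_left _ _) (50 * (A + 1)) (A + 1) 4 8 (by positivity)
    (by positivity) (by norm_num) (by norm_num)
  set MA : ℝ := M1 M' (2 + 4 * M') with hMA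
  set MB : ℝ := M1 MA (2 + 4 * MA) with hMB
  have hMA1 : 1 ≤ MA := by rw [hMA]; unfold M1; nlinarith
  have hMB1 : 1 ≤ MB := by rw [hMB]; unfold M1; nlinarith
  have hCov : 0 ≤ Cov MA (2 + 4 * MA) 1 := Ckm538.Cov_nonneg hMA1 (by linarith) le_rfl
  set CD : ℝ := 121 * Cov MA (2 + 4 * MA) 1 * (11 ^ 5 * MB ^ 21) with hCD
  have hCD0 : 0 ≤ CD := by positivity
  set V : ℝ := Ba449.v3.toReal with hV
  have hV0 : 0 ≤ V := ENNReal.toReal_nonneg
  have hVe : Ba449.v3 = ENNReal.ofReal V := (ENNReal.ofReal_toReal Ba449.v3_lt.ne).symm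
  set CT : ℝ := 4 * (A + 1) ^ 4 * V * (2:ℝ) ^ (3 / 2 * (n:ℝ)) with hCT
  have hCT0 : 0 ≤ CT := by positivity
  refine ⟨C1 * (2 * (C2 * Real.sqrt CD)) + C1 * CT, by positivity, ?_⟩
  intro C0 σ g R D hSt r hrε hr hrR hrσ
  have hR : 1 ≤ R := hSt.R1
  have hR0 : 0 < R := by linarith
  have hr0 : 0 < r := by linarith
  have hg := Ba449.St.gd ha hb2.le hSt
  have hE := Ba449.Enc_nonneg g
  have hD := hSt.D0
  have hρ := an_pos hR0
  have hρ1 := an_le_one hR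
  have hk := kp_pos hr0 hR0
  have hk1 := kp_le_one hr0 hrR
  have hki : 1 ≤ (kp r R)⁻¹ := (one_le_inv₀ hk).2 hk1
  have hρσ : an R ≤ σ := (an_anti hr0 hrR).trans hrσ
  have hRr0 : 0 ≤ R / r := by positivity
  set s : ℝ := min 1 σ with hs
  have hρs : an R ≤ s := le_min hρ1 hρσ
  have hs0 : 0 < s := hρ.trans_le hρs
  set ξ : E2 := if σ ≤ 1 then C0 else 0 with hξ
  have hw0 : 0 < R ^ (1/2 : ℝ) := Real.rpow_pos_of_pos hR0 _
  have hwi : (R ^ (1/2 : ℝ))⁻¹ = an R := by rw [← an_inv hR0, inv_inv]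
  have hww : R ^ (1/2 : ℝ) * R ^ (1/2 : ℝ) = R := by
    rw [← Real.rpow_add hR0]; norm_num
  have hwR : R ^ (1/2 : ℝ) = an R * R := by
    have : an R * R ^ (1/2 : ℝ) = 1 := by rw [← hwi]; exact inv_mul_cancel₀ hw0.ne'
    calc R ^ (1/2 : ℝ) = (an R * R ^ (1/2 : ℝ)) * R ^ (1/2 : ℝ) := by rw [this, one_mul]
      _ = an R * R := by rw [mul_assoc, hww]
  set Sb : ℤ × ℤ → Set E3 := fun _ => Metric.closedBall 0 (50 * (A + 1) * R) with hSb
  -- box hypothesis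
  have hD1 := densR_of_adm (M := M) (M' := MB) (q := q) (κ := 1) (r := R) (g := g) (S := Sb)
    (Δ := D) hM hMB1 hq one_pos le_rfl hR hD (by
      intro c X0 f s1 s2 h3 h4
      refine le_trans ?_ (hSt.box c X0 f s1 s2 h3 h4)
      unfold enc
      exact Finset.sum_le_sum fun m _ => lintegral_mono_set Set.inter_subset_right)
  rw [inv_one] at hD1
  have hD2 := dens_up hMA1 hq hw0 hR0 (by positivity) hD1 hki
  have h3 := h2 (R ^ (1/2 : ℝ)) (kp r R)⁻¹ R hw0 (by rw [hwR]; nlinarith)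
    (by rw [sq, hww]; nlinarith) (by
      rw [← inv_inv (R ^ (1/2 : ℝ)), hwi]
      exact inv_anti₀ hρ (an_le_kp hr hR0))
    (caps (an R)) (cen (an R)) (fun m y => ‖umc (an R) g m y‖ₑ ^ 2) Sb
    (fun _ => Metric.isClosed_closedBall.measurableSet)
    (fun i _ => Bas367.umc_meas_sq hg.int (an R) i) (fun i hi => norm_cen_le hρ hρ1 hi)
    (fun i _ z hz => by simpa [hSb] using hz) _ (by positivity) hD2 s
    (by rw [hwR]; exact mul_le_mul_of_nonneg_right hρs hR0.le) (min_le_left _ _) Unit {()}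
    (fun _ => ξ) (fun _ => act (an R) g) 1 (by
      intro k _
      refine ⟨fun m hm => (mem_act.1 hm).1, fun m hm => ?_⟩
      obtain ⟨h4, h5⟩ := act_near (b := b) (σ := σ) (C0 := C0) hρ
        (fun ζ hζ => ⟨(hSt.supp ζ hζ).2.2.1, (hSt.supp ζ hζ).2.2.2⟩) hm
      simp only [hξ]
      split_ifs with h6
      · rw [hs, min_eq_right h6]
        linarith
      · rw [hs, min_eq_left (not_le.1 h6).le, sub_zero]
        linarith) (fun m _ => (Finset.card_le_univ _).trans (by simp))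
  rw [Finset.sum_singleton] at h3
  simp only [hwi, inv_inv] at h3
  -- energy
  have hen : ∑ i ∈ caps (an R), ∫⁻ z in Sb i, ‖umc (an R) g i z‖ₑ ^ 2 ≤ ENNReal.ofReal (Enc g) :=
    Ba449.enc_le hg hρ Sb
  have h4 := h3.trans (mul_le_mul' le_rfl hen)
  -- the region
  set G : E3 × ℝ → ℝ≥0∞ := fun p => (Aup n r R g Sb p.1 p.2) ^ (3/2 : ℝ) with hG
  have hGm : Measurable G :=
    (Den_meas2 fun i _ => Bas367.umc_meas_sq hg.int (an R) i).pow_const _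
  set τ : ℝ≥0∞ := ENNReal.ofReal ((2 * an R) ^ n * Enc g) with hτ
  have h5 : ∫⁻ p in cylc ((A + 1) * R), (Aup n r R g (fun _ => Set.univ) p.1 p.2) ^ (3/2 : ℝ) ≤
      ENNReal.ofReal 2 * (∫⁻ p in cylc ((A + 1) * R), G p) +
        ENNReal.ofReal 2 * (τ ^ (3/2 : ℝ) * (ENNReal.ofReal (2 * ((A + 1) * R) ^ 4) *
          Ba449.v3)) := by
    have h6 : ∀ p ∈ cylc ((A + 1) * R), (Aup n r R g (fun _ => Set.univ) p.1 p.2) ^ (3/2 : ℝ) ≤
        ENNReal.ofReal 2 * G p + ENNReal.ofReal 2 * τ ^ (3/2 : ℝ) := by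
      intro p hp
      rw [← mul_add]
      exact (ENNReal.rpow_le_rpow (Aup_tail n hA hr hrR hg hp.1 hp.2) (by norm_num)).trans
        (rpow_add32 _ _)
    refine (setLIntegral_mono' (Ba449.meas_cylc _) h6).trans (le_of_eq ?_)
    rw [lintegral_add_right _ measurable_const, lintegral_const_mul' _ _ ENNReal.ofReal_ne_top,
      setLIntegral_const, Ba449.vol_cylc (by positivity), mul_assoc]
  have h6 : ∫⁻ p in cylc ((A + 1) * R), G p ≤ ENNReal.ofReal (C2 * (an R * R / R) ^ (-ε) *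
      s ^ (q / 2) * Real.sqrt (CD * D) * R * 1) * ENNReal.ofReal (Enc g) := by
    refine (lint_cylc_le G hGm _).trans (le_trans (le_of_eq ?_) (h4.trans (le_of_eq ?_)))
    · refine lintegral_congr fun t => lintegral_congr fun X => ?_
      rw [hG]
      simp only
      rw [Aup_act]
      rfl
    · have e9 : 121 * Cov MA (2 + 4 * MA) 1 * (11 ^ 5 * MB ^ 21 * D) = CD * D := by
        rw [hCD]; ring
      rw [← hwR, e9, Nat.cast_one]
  have h7 := h1 r R hr hrR g hg.int (hg.memLp 2) (fun ζ hζ => ⟨(hSt.supp ζ hζ).1,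
    (hSt.supp ζ hζ).2.1⟩) (fun ζ hζ => hg.slp ζ hζ)
  refine h7.trans ((mul_le_mul' le_rfl (h5.trans (add_le_add (mul_le_mul' le_rfl h6)
    le_rfl))).trans ?_)
  rw [hVe, ENNReal.ofReal_rpow_of_nonneg (by positivity) (by norm_num),
    ← ENNReal.ofReal_mul (by positivity), ← ENNReal.ofReal_mul (by positivity),
    ← ENNReal.ofReal_mul (by positivity), ← ENNReal.ofReal_mul (by positivity),
    ← ENNReal.ofReal_mul (by positivity), ← ENNReal.ofReal_add (by positivity) (by positivity),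
    ← ENNReal.ofReal_mul (by positivity)]
  refine ENNReal.ofReal_le_ofReal ?_
  have hRrε : (R / r) ^ (7 : ℝ) ≤ R ^ (7 * ε) := by
    have h8 : R / r ≤ R ^ ε := by
      rw [div_le_iff₀ hr0]
      calc R = R ^ ε * R ^ (1 - ε) := by
            rw [← Real.rpow_add hR0]
            norm_num
        _ ≤ R ^ ε * r := by gcongr
    calc (R / r) ^ (7 : ℝ) ≤ (R ^ ε) ^ (7 : ℝ) := Real.rpow_le_rpow hRr0 h8 (by norm_num)
      _ = R ^ (7 * ε) := by rw [← Real.rpow_mul hR0.le]; ring_nf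
  have hRε : 1 ≤ R ^ ε := Real.one_le_rpow hR hε.le
  have e8 : R ^ (8 * ε) = R ^ (7 * ε) * R ^ ε := by
    rw [← Real.rpow_add hR0]; ring_nf
  have hane : (an R * R / R) ^ (-ε) ≤ R ^ ε := by
    rw [mul_div_assoc, div_self hR0.ne', mul_one]
    unfold an
    rw [← Real.rpow_mul hR0.le]
    exact Real.rpow_le_rpow_of_exponent_le hR (by linarith)
  have ht := tail_num (q := q) (M0 := M0) (R := R) (A := A) (V := V) (C1 := C1)
    (Rr := (R / r) ^ (7:ℝ)) (E := Enc g) (D := D) (n' := n) (s := s) (n := n) hq hR hA hV0 hC1 hE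
    hD hSt.nd (by positivity) rfl hnr hρs
  have hsq : Real.sqrt (CD * D) = Real.sqrt CD * Real.sqrt D := Real.sqrt_mul hCD0 D
  unfold SS
  rw [mul_add, hsq]
  have hP : 0 ≤ s ^ (q / 2) * (R * Enc g * Real.sqrt D) := by positivity
  have hm1 : C1 * (R / r) ^ (7:ℝ) * (2 * (C2 * (an R * R / R) ^ (-ε) * s ^ (q / 2) *
      (Real.sqrt CD * Real.sqrt D) * R * 1 * Enc g)) ≤
      (C1 * (2 * (C2 * Real.sqrt CD))) * (R ^ (8 * ε) * (s ^ (q / 2) *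
        (R * Enc g * Real.sqrt D))) := by
    calc C1 * (R / r) ^ (7:ℝ) * (2 * (C2 * (an R * R / R) ^ (-ε) * s ^ (q / 2) *
          (Real.sqrt CD * Real.sqrt D) * R * 1 * Enc g))
        = (C1 * (2 * (C2 * Real.sqrt CD))) * (((R / r) ^ (7:ℝ) * (an R * R / R) ^ (-ε)) *
          (s ^ (q / 2) * (R * Enc g * Real.sqrt D))) := by ring
      _ ≤ (C1 * (2 * (C2 * Real.sqrt CD))) * ((R ^ (7 * ε) * R ^ ε) *
          (s ^ (q / 2) * (R * Enc g * Real.sqrt D))) := by gcongr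
      _ = _ := by rw [e8]
  have hm2 : C1 * CT * ((R / r) ^ (7:ℝ) * s ^ (q / 2) * (R * Enc g * Real.sqrt D)) ≤
      (C1 * CT) * (R ^ (8 * ε) * (s ^ (q / 2) * (R * Enc g * Real.sqrt D))) := by
    rw [mul_assoc ((R / r) ^ (7:ℝ))]
    refine mul_le_mul_of_nonneg_left (mul_le_mul_of_nonneg_right ?_ hP) (by positivity)
    rw [e8]
    calc (R / r) ^ (7:ℝ) ≤ R ^ (7 * ε) := hRrε
      _ = R ^ (7 * ε) * 1 := (mul_one _).symm
      _ ≤ _ := by gcongr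
  calc _ ≤ (C1 * (2 * (C2 * Real.sqrt CD))) * (R ^ (8 * ε) * (s ^ (q / 2) *
        (R * Enc g * Real.sqrt D))) +
        (C1 * CT) * (R ^ (8 * ε) * (s ^ (q / 2) * (R * Enc g * Real.sqrt D))) :=
        add_le_add hm1 (by
          refine le_trans (le_of_eq ?_) (ht.trans hm2)
          ring)
    _ = _ := by ring

end Crest.Agent.R116.KMt448
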