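import Crest.Agent.R116.LZg6_725
import Crest.Agent.R116.Cad1_538

-- ▼ part R116/LZv1_725
section

/-!
# R116, (Z4): volumes of conformal slabs in light boxes (helper725)

`vol1` : sublevel sets of a quadratic polynomial where the derivative is large.
`vol_slices` : volume from the slices in one coordinate.
`vol_slab_gr`, `vol_slab_ny` : slabs in normalised coordinates.
`vol_sec` : section at time `s` of the part of the slab where `|gr_c| ≥ κ` or `|∂_y φ|` is large.
`vol_sec_ray`, `vol_pp` : points of the slab with a slope `C` of the aperture with `|L_p(C)| ≤ h`.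
-/

set_option autoImplicit false
set_option linter.unusedSectionVars false

open MeasureTheory
open scoped ENNReal

namespace Crest.Agent.R116.LZg725

open Crest.Agent.R138.Defs (E2)
open Crest.Agent.R116.CDef480 (E3 lat pt vel)

/-- sublevel sets of a quadratic polynomial on the set where the derivative is large. -/
theorem vol1 {a b d lam kap : ℝ} (hk : 0 < kap) :
    volume {u : ℝ | |a + b * u + d * u ^ 2| ≤ lam ∧ kap ≤ |b + 2 * d * u|} ≤
      ENNReal.ofReal (4 * lam / kap) := by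
  have key : ∀ e : ℝ, (e = 1 ∨ e = -1) →
      volume {u : ℝ | |a + b * u + d * u ^ 2| ≤ lam ∧ kap ≤ e * (b + 2 * d * u)} ≤
        ENNReal.ofReal (2 * lam / kap) := by
    intro e he
    refine (Real.volume_le_diam _).trans (Metric.ediam_le ?_)
    have main : ∀ u ∈ {u : ℝ | |a + b * u + d * u ^ 2| ≤ lam ∧ kap ≤ e * (b + 2 * d * u)},
        ∀ v ∈ {u : ℝ | |a + b * u + d * u ^ 2| ≤ lam ∧ kap ≤ e * (b + 2 * d * u)},
        u ≤ v → v - u ≤ 2 * lam / kap := by
      rintro u ⟨hu1, hu2⟩ v ⟨hv1, hv2⟩ huv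
      rw [le_div_iff₀ hk]
      have h1 := abs_le.1 hu1
      have h2 := abs_le.1 hv1
      have e1 : (a + b * v + d * v ^ 2) - (a + b * u + d * u ^ 2) =
          (v - u) * (((b + 2 * d * u) + (b + 2 * d * v)) / 2) := by ring
      rcases he with rfl | rfl
      · have h3 : (v - u) * kap ≤ (v - u) * (((b + 2 * d * u) + (b + 2 * d * v)) / 2) :=
          mul_le_mul_of_nonneg_left (by linarith) (by linarith)
        linarith [h1.1, h2.2]
      · have h3 : (v - u) * kap ≤ (v - u) * (-(((b + 2 * d * u) + (b + 2 * d * v)) / 2)) :=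
          mul_le_mul_of_nonneg_left (by linarith) (by linarith)
        linarith [h1.2, h2.1]
    intro u hu v hv
    rw [edist_dist, Real.dist_eq]
    refine ENNReal.ofReal_le_ofReal ?_
    rcases le_total u v with h | h
    · rw [abs_sub_comm, abs_of_nonneg (by linarith)]
      exact main u hu v hv h
    · rw [abs_of_nonneg (by linarith)]
      exact main v hv u hu h
  have hsub : {u : ℝ | |a + b * u + d * u ^ 2| ≤ lam ∧ kap ≤ |b + 2 * d * u|} ⊆
      {u : ℝ | |a + b * u + d * u ^ 2| ≤ lam ∧ kap ≤ 1 * (b + 2 * d * u)} ∪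
      {u : ℝ | |a + b * u + d * u ^ 2| ≤ lam ∧ kap ≤ -1 * (b + 2 * d * u)} := by
    rintro u ⟨h1, h2⟩
    rcases le_abs.1 h2 with h3 | h3
    · left; exact ⟨h1, by linarith⟩
    · right; exact ⟨h1, by linarith⟩
  refine (measure_mono hsub).trans ((measure_union_le _ _).trans ?_)
  refine (add_le_add (key 1 (Or.inl rfl)) (key (-1) (Or.inr rfl))).trans (le_of_eq ?_)
  rcases le_total 0 lam with hl | hl
  · rw [← ENNReal.ofReal_add (by positivity) (by positivity)]
    congr 1; ring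
  · have e1 : 2 * lam / kap ≤ 0 := div_nonpos_of_nonpos_of_nonneg (by linarith) hk.le
    have e2 : 4 * lam / kap ≤ 0 := div_nonpos_of_nonpos_of_nonneg (by linarith) hk.le
    rw [ENNReal.ofReal_of_nonpos e1, ENNReal.ofReal_of_nonpos e2, add_zero]

/-- the linear version. -/
theorem vol1_lin {a g lam : ℝ} (hg : g ≠ 0) :
    volume {u : ℝ | |a + g * u| ≤ lam} ≤ ENNReal.ofReal (4 * lam / |g|) := by
  have h := vol1 (a := a) (b := g) (d := 0) (lam := lam) (kap := |g|) (abs_pos.2 hg)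
  refine (measure_mono ?_).trans h
  intro u hu
  refine ⟨?_, ?_⟩
  · simpa using hu
  · simp

/-- volume from the slices in the coordinate `i`. -/
theorem vol_slices (i : Fin 3) {S : Set E3} (hS : MeasurableSet S) {L : Fin 2 → ℝ} {K : ℝ≥0∞}
    (hbox : ∀ X ∈ S, ∀ j : Fin 2, |X (i.succAbove j)| ≤ L j)
    (hsl : ∀ y : Fin 2 → ℝ, volume {u : ℝ | WithLp.toLp 2 (i.insertNth u y : Fin 3 → ℝ) ∈ S} ≤ K) :
    volume S ≤ K * (ENNReal.ofReal (2 * L 0) * ENNReal.ofReal (2 * L 1)) := by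
  set S1 : Set (Fin 3 → ℝ) := {x | WithLp.toLp 2 x ∈ S} with hS1
  have hm1 : MeasurableSet S1 := by
    have : Measurable (fun x : Fin 3 → ℝ => (WithLp.toLp 2 x : E3)) :=
      (MeasurableEquiv.toLp 2 (Fin 3 → ℝ)).measurable
    exact this hS
  have hv1 : volume S = volume S1 := by
    have hp := EuclideanSpace.volume_preserving_symm_measurableEquiv_toLp (Fin 3)
    have := hp.measure_preimage_equiv S1
    rw [← this]
    congr 1
  set S2 : Set (ℝ × (Fin 2 → ℝ)) :=
    {p | WithLp.toLp 2 (i.insertNth p.1 p.2 : Fin 3 → ℝ) ∈ S} with hS2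
  have hp2 := volume_preserving_piFinSuccAbove (fun _ : Fin 3 => ℝ) i
  have hv2 : volume S1 = volume S2 := by
    have := hp2.symm.measure_preimage_equiv S1
    rw [← this]
    congr 1
  have hm2 : MeasurableSet S2 :=
    (MeasurableEquiv.piFinSuccAbove (fun _ : Fin 3 => ℝ) i).symm.measurable hm1
  rw [hv1, hv2, Measure.volume_eq_prod, Measure.prod_apply_symm hm2]
  set B : Set (Fin 2 → ℝ) := {y | ∀ j, |y j| ≤ L j} with hB
  have hBv : volume B ≤ ENNReal.ofReal (2 * L 0) * ENNReal.ofReal (2 * L 1) := by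
    have e : B = Set.Icc (fun j => -L j) (fun j => L j) := by
      ext y
      simp only [hB, Set.mem_ofPred_eq, Set.mem_Icc, Pi.le_def, abs_le]
      exact ⟨fun h => ⟨fun j => (h j).1, fun j => (h j).2⟩, fun h j => ⟨h.1 j, h.2 j⟩⟩
    rw [e, Real.volume_Icc_pi, Fin.prod_univ_two]
    refine le_of_eq ?_
    congr 2 <;> ring
  calc ∫⁻ y, volume ((fun x => (x, y)) ⁻¹' S2)
      ≤ ∫⁻ y, B.indicator (fun _ => K) y := by
        refine lintegral_mono fun y => ?_
        by_cases hy : y ∈ B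
        · rw [Set.indicator_of_mem hy]
          exact hsl y
        · rw [Set.indicator_of_notMem hy]
          have : ((fun x => (x, y)) ⁻¹' S2) = ∅ := by
            ext u
            simp only [Set.mem_preimage, Set.mem_empty_iff_false, iff_false]
            intro hu
            apply hy
            intro j
            have h1 := hbox _ hu j
            have e1 : (WithLp.toLp 2 (i.insertNth u y : Fin 3 → ℝ) : E3) (i.succAbove j) = y j := by
              change (i.insertNth u y : Fin 3 → ℝ) (i.succAbove j) = y j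
              rw [Fin.insertNth_apply_succAbove]
            rwa [e1] at h1
          rw [this, measure_empty]
    _ = K * volume B := by
        rw [lintegral_indicator, setLIntegral_const]
        have : B = ⋂ j, {y | |y j| ≤ L j} := by ext y; simp [hB]
        rw [this]
        exact MeasurableSet.iInter fun j =>
          measurableSet_le ((measurable_pi_apply j).abs) measurable_const
    _ ≤ _ := mul_le_mul_right hBv K

/-- slabs in normalised coordinates, large lateral gradient. -/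
theorem vol_slab_gr {al g d A t lam kap : ℝ} {be : E2} (hk : 0 < kap) (hlam : 0 ≤ lam)
    (hA : 0 ≤ A) (ht : 0 ≤ t) :
    volume {Y : E3 | ‖lat Y‖ ≤ A ∧ |Y 2| ≤ t ∧
      |al + inner ℝ be (lat Y) + g * Y 2 + d * ‖lat Y‖ ^ 2| ≤ lam ∧
      kap ≤ ‖be + (2 * d) • lat Y‖} ≤ ENNReal.ofReal (64 * lam * A * t / kap) := by
  have hmlat : ∀ i : Fin 3, Measurable fun Y : E3 => Y i := CDef480.measurable_coord
  have hmm : Measurable fun Y : E3 =>
      |al + inner ℝ be (lat Y) + g * Y 2 + d * ‖lat Y‖ ^ 2| := by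
    have h1 := CDef480.measurable_lat
    have h2 : Measurable fun Y : E3 => inner ℝ be (lat Y) := measurable_const.inner h1
    exact (((measurable_const.add h2).add ((hmlat 2).const_mul g)).add
      ((h1.norm.pow_const 2).const_mul d)).abs
  have key : ∀ i : Fin 2, volume {Y : E3 | ‖lat Y‖ ≤ A ∧ |Y 2| ≤ t ∧
      |al + inner ℝ be (lat Y) + g * Y 2 + d * ‖lat Y‖ ^ 2| ≤ lam ∧
      kap / 2 ≤ |be i + 2 * d * lat Y i|} ≤ ENNReal.ofReal (32 * lam * A * t / kap) := by
    intro i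
    have hmi : Measurable fun Y : E3 => |be i + 2 * d * lat Y i| := by
      have : Measurable fun Y : E3 => lat Y i := by
        fin_cases i
        · exact hmlat 0
        · exact hmlat 1
      exact (measurable_const.add (this.const_mul _)).abs
    have hS : MeasurableSet {Y : E3 | ‖lat Y‖ ≤ A ∧ |Y 2| ≤ t ∧
        |al + inner ℝ be (lat Y) + g * Y 2 + d * ‖lat Y‖ ^ 2| ≤ lam ∧
        kap / 2 ≤ |be i + 2 * d * lat Y i|} :=
      (measurableSet_le CDef480.measurable_lat.norm measurable_const).inter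
        ((measurableSet_le (hmlat 2).abs measurable_const).inter
          ((measurableSet_le hmm measurable_const).inter (measurableSet_le measurable_const hmi)))
    have hcomp : ∀ (v : E2) (j : Fin 2), |v j| ≤ ‖v‖ := fun v j => by
      have := EuclideanSpace.norm_eq v
      rw [this]
      refine Real.le_sqrt_of_sq_le ?_
      rw [sq_abs, Fin.sum_univ_two, Real.norm_eq_abs, Real.norm_eq_abs, sq_abs, sq_abs]
      fin_cases j
      · exact le_add_of_nonneg_right (sq_nonneg _)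
      · exact le_add_of_nonneg_left (sq_nonneg _)
    have hk2 : 0 < kap / 2 := by linarith
    have hfin : ENNReal.ofReal (4 * lam / (kap / 2)) *
        (ENNReal.ofReal (2 * A) * ENNReal.ofReal (2 * t)) =
          ENNReal.ofReal (32 * lam * A * t / kap) := by
      rw [← ENNReal.ofReal_mul (by positivity), ← ENNReal.ofReal_mul (by positivity)]
      congr 1
      field_simp
      ring
    fin_cases i
    · refine (vol_slices 0 hS (L := ![A, t]) (K := ENNReal.ofReal (4 * lam / (kap / 2)))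
        ?_ ?_).trans (le_of_eq hfin)
      · rintro X ⟨h1, h2, -, -⟩ j
        fin_cases j
        · exact (hcomp (lat X) 1).trans h1
        · exact h2
      · intro y
        refine (measure_mono ?_).trans (vol1 (a := al + be 1 * y 0 + g * y 1 + d * y 0 ^ 2)
          (b := be 0) (d := d) (lam := lam) hk2)
        rintro u ⟨-, -, h3, h4⟩
        have e0 : (WithLp.toLp 2 ((0 : Fin 3).insertNth u y : Fin 3 → ℝ) : E3) 0 = u := rfl
        have e1 : (WithLp.toLp 2 ((0 : Fin 3).insertNth u y : Fin 3 → ℝ) : E3) 1 = y 0 := rfl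
        have e2 : (WithLp.toLp 2 ((0 : Fin 3).insertNth u y : Fin 3 → ℝ) : E3) 2 = y 1 := rfl
        rw [CDef480.inner2, CDef480.normsq2, CDef480.lat_zero, CDef480.lat_one, e0, e1, e2] at h3
        refine ⟨?_, h4⟩
        have e : al + be 1 * y 0 + g * y 1 + d * y 0 ^ 2 + be 0 * u + d * u ^ 2 =
          al + (be 0 * u + be 1 * y 0) + g * y 1 + d * (u ^ 2 + y 0 ^ 2) := by ring
        rw [e]; exact h3
    · refine (vol_slices 1 hS (L := ![A, t]) (K := ENNReal.ofReal (4 * lam / (kap / 2)))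
        ?_ ?_).trans (le_of_eq hfin)
      · rintro X ⟨h1, h2, -, -⟩ j
        fin_cases j
        · exact (hcomp (lat X) 0).trans h1
        · exact h2
      · intro y
        refine (measure_mono ?_).trans (vol1 (a := al + be 0 * y 0 + g * y 1 + d * y 0 ^ 2)
          (b := be 1) (d := d) (lam := lam) hk2)
        rintro u ⟨-, -, h3, h4⟩
        have e0 : (WithLp.toLp 2 ((1 : Fin 3).insertNth u y : Fin 3 → ℝ) : E3) 0 = y 0 := rfl
        have e1 : (WithLp.toLp 2 ((1 : Fin 3).insertNth u y : Fin 3 → ℝ) : E3) 1 = u := rfl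
        have e2 : (WithLp.toLp 2 ((1 : Fin 3).insertNth u y : Fin 3 → ℝ) : E3) 2 = y 1 := rfl
        rw [CDef480.inner2, CDef480.normsq2, CDef480.lat_zero, CDef480.lat_one, e0, e1, e2] at h3
        refine ⟨?_, h4⟩
        have e : al + be 0 * y 0 + g * y 1 + d * y 0 ^ 2 + be 1 * u + d * u ^ 2 =
          al + (be 0 * y 0 + be 1 * u) + g * y 1 + d * (y 0 ^ 2 + u ^ 2) := by ring
        rw [e]; exact h3
  have hsub : {Y : E3 | ‖lat Y‖ ≤ A ∧ |Y 2| ≤ t ∧
      |al + inner ℝ be (lat Y) + g * Y 2 + d * ‖lat Y‖ ^ 2| ≤ lam ∧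
      kap ≤ ‖be + (2 * d) • lat Y‖} ⊆
      {Y : E3 | ‖lat Y‖ ≤ A ∧ |Y 2| ≤ t ∧
      |al + inner ℝ be (lat Y) + g * Y 2 + d * ‖lat Y‖ ^ 2| ≤ lam ∧
      kap / 2 ≤ |be 0 + 2 * d * lat Y 0|} ∪ {Y : E3 | ‖lat Y‖ ≤ A ∧ |Y 2| ≤ t ∧
      |al + inner ℝ be (lat Y) + g * Y 2 + d * ‖lat Y‖ ^ 2| ≤ lam ∧
      kap / 2 ≤ |be 1 + 2 * d * lat Y 1|} := by
    rintro Y ⟨h1, h2, h3, h4⟩
    by_contra hcon
    rw [Set.mem_union, not_or] at hcon
    obtain ⟨c1, c2⟩ := hcon
    have c1' : |be 0 + 2 * d * lat Y 0| < kap / 2 := by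
      by_contra hc; exact c1 ⟨h1, h2, h3, not_lt.1 hc⟩
    have c2' : |be 1 + 2 * d * lat Y 1| < kap / 2 := by
      by_contra hc; exact c2 ⟨h1, h2, h3, not_lt.1 hc⟩
    have e1 : ‖be + (2 * d) • lat Y‖ ^ 2 =
        |be 0 + 2 * d * lat Y 0| ^ 2 + |be 1 + 2 * d * lat Y 1| ^ 2 := by
      rw [CDef480.normsq2, sq_abs, sq_abs]
      simp only [PiLp.add_apply, PiLp.smul_apply, smul_eq_mul]
    have e2 : kap ^ 2 ≤ ‖be + (2 * d) • lat Y‖ ^ 2 := pow_le_pow_left₀ hk.le h4 2
    have e3 : |be 0 + 2 * d * lat Y 0| ^ 2 ≤ (kap / 2) ^ 2 :=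
      pow_le_pow_left₀ (abs_nonneg _) c1'.le 2
    have e4 : |be 1 + 2 * d * lat Y 1| ^ 2 ≤ (kap / 2) ^ 2 :=
      pow_le_pow_left₀ (abs_nonneg _) c2'.le 2
    nlinarith [pow_pos hk 2]
  refine (measure_mono hsub).trans ((measure_union_le _ _).trans
    ((add_le_add (key 0) (key 1)).trans (le_of_eq ?_)))
  rw [← ENNReal.ofReal_add (by positivity) (by positivity)]
  congr 1; ring

/-- slabs in normalised coordinates, large `y`-derivative. -/
theorem vol_slab_ny {al g d A lam : ℝ} {be : E2} (hg : g ≠ 0) (hlam : 0 ≤ lam) (hA : 0 ≤ A) :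
    volume {Y : E3 | ‖lat Y‖ ≤ A ∧
      |al + inner ℝ be (lat Y) + g * Y 2 + d * ‖lat Y‖ ^ 2| ≤ lam} ≤
      ENNReal.ofReal (16 * lam * A ^ 2 / |g|) := by
  have hmlat : ∀ i : Fin 3, Measurable fun Y : E3 => Y i := CDef480.measurable_coord
  have hmm : Measurable fun Y : E3 =>
      |al + inner ℝ be (lat Y) + g * Y 2 + d * ‖lat Y‖ ^ 2| := by
    have h1 := CDef480.measurable_lat
    have h2 : Measurable fun Y : E3 => inner ℝ be (lat Y) := measurable_const.inner h1
    exact (((measurable_const.add h2).add ((hmlat 2).const_mul g)).add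
      ((h1.norm.pow_const 2).const_mul d)).abs
  have hS : MeasurableSet {Y : E3 | ‖lat Y‖ ≤ A ∧
      |al + inner ℝ be (lat Y) + g * Y 2 + d * ‖lat Y‖ ^ 2| ≤ lam} :=
    (measurableSet_le CDef480.measurable_lat.norm measurable_const).inter
      (measurableSet_le hmm measurable_const)
  have hcomp : ∀ (v : E2) (j : Fin 2), |v j| ≤ ‖v‖ := fun v j => by
    have := EuclideanSpace.norm_eq v
    rw [this]
    refine Real.le_sqrt_of_sq_le ?_
    rw [sq_abs, Fin.sum_univ_two, Real.norm_eq_abs, Real.norm_eq_abs, sq_abs, sq_abs]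
    fin_cases j
    · exact le_add_of_nonneg_right (sq_nonneg _)
    · exact le_add_of_nonneg_left (sq_nonneg _)
  have hfin : ENNReal.ofReal (4 * lam / |g|) *
      (ENNReal.ofReal (2 * A) * ENNReal.ofReal (2 * A)) =
        ENNReal.ofReal (16 * lam * A ^ 2 / |g|) := by
    have hg' : 0 < |g| := abs_pos.2 hg
    rw [← ENNReal.ofReal_mul (by positivity), ← ENNReal.ofReal_mul (by positivity)]
    congr 1
    field_simp
    ring
  refine (vol_slices 2 hS (L := ![A, A]) (K := ENNReal.ofReal (4 * lam / |g|))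
    ?_ ?_).trans (le_of_eq hfin)
  · rintro X ⟨h1, -⟩ j
    fin_cases j
    · exact (hcomp (lat X) 0).trans h1
    · exact (hcomp (lat X) 1).trans h1
  · intro y
    refine (measure_mono ?_).trans (vol1_lin (a := al + (be 0 * y 0 + be 1 * y 1) +
      d * (y 0 ^ 2 + y 1 ^ 2)) (lam := lam) hg)
    rintro u ⟨-, h3⟩
    have e0 : (WithLp.toLp 2 ((2 : Fin 3).insertNth u y : Fin 3 → ℝ) : E3) 0 = y 0 := rfl
    have e1 : (WithLp.toLp 2 ((2 : Fin 3).insertNth u y : Fin 3 → ℝ) : E3) 1 = y 1 := rfl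
    have e2 : (WithLp.toLp 2 ((2 : Fin 3).insertNth u y : Fin 3 → ℝ) : E3) 2 = u := rfl
    rw [CDef480.inner2, CDef480.normsq2, CDef480.lat_zero, CDef480.lat_one, e0, e1, e2] at h3
    change |al + (be 0 * y 0 + be 1 * y 1) + d * (y 0 ^ 2 + y 1 ^ 2) + g * u| ≤ lam
    have e : al + (be 0 * y 0 + be 1 * y 1) + d * (y 0 ^ 2 + y 1 ^ 2) + g * u =
      al + (be 0 * y 0 + be 1 * y 1) + g * u + d * (y 0 ^ 2 + y 1 ^ 2) := by ring
    rw [e]; exact h3

/-- normalised coordinates at time `s` around `(x0, y0, s0)` in the frame `c`: a volume preserving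
affine change of coordinates. -/
theorem vol_frame (c x0 : E2) (y0 s0 s : ℝ) (S : Set E3) :
    volume {X : E3 | pt ((lat X - x0) + (s - s0) • c) (nrm c (lat X) (X 2) s - nrm c x0 y0 s0) ∈ S}
      = volume S := by
  set v : E3 := pt ((s - s0) • c - x0) (s * ‖c‖ ^ 2 / 2 - nrm c x0 y0 s0) with hv
  have e : {X : E3 | pt ((lat X - x0) + (s - s0) • c)
      (nrm c (lat X) (X 2) s - nrm c x0 y0 s0) ∈ S} =
      (Cad538.frc 1 1 c : E3 →ₗ[ℝ] E3) ⁻¹' ((fun Y => Y + v) ⁻¹' S) := by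
    ext X
    simp only [Set.mem_ofPred_eq, Set.mem_preimage]
    have e1 : ((Cad538.frc 1 1 c : E3 →ₗ[ℝ] E3) X) + v =
        pt ((lat X - x0) + (s - s0) • c) (nrm c (lat X) (X 2) s - nrm c x0 y0 s0) := by
      change Cad538.frc 1 1 c X + v = _
      rw [Cad538.frc_apply, hv, ← CDef480.pt_add]
      congr 1
      · rw [one_smul]; abel
      · rw [one_mul, nrm_eq]
        unfold nrm
        ring
    rw [e1]
  rw [e, Measure.addHaar_preimage_linearMap, Cad538.det_frc, measure_preimage_add_right]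
  · norm_num
  · rw [Cad538.det_frc]; norm_num

end Crest.Agent.R116.LZg725
end

-- ▼ part R116/LZv2_725

/-!
# R116, (Z4): volume of the part of a conformal slab seen by the rays of the aperture (helper725)

`vol_sec`, `vol_sec_ny`: sections at time `s` (any frame `(c, X0, s0)`).
`vol_sec_ray`: `{X : |w| ≤ K sg R, |dN_c| ≤ K T R, |φ| ≤ lam, ∃ C, |C - c| ≤ K sg, |L_p(C)| ≤ h}` has
volume `≤ 256 K³ lam (sg R) (T R)` if `8 M lam ≤ sg R`, `8 M h ≤ sg`.
`vol_pp`: the space-time version, `≤ 512 K³ lam (sg R) (T R) R`.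
-/

set_option autoImplicit false
set_option linter.unusedSectionVars false

open MeasureTheory
open scoped ENNReal

namespace Crest.Agent.R116.LZg725

open Crest.Agent.R138.Defs (E2)
open Crest.Agent.R116.CDef480 (E3 lat pt vel)

variable {M : ℝ} {c x0 : E2} {y0 s0 s sg T R : ℝ} {p : Cf E2}

/-- `φ` in the coordinates `(w, N)` at time `s`. -/
theorem ev_sec (p : Cf E2) (c x0 : E2) (y0 s0 : ℝ) (x : E2) (y s : ℝ) :
    p.ev x y s = (p.ev x0 y0 s0 + p.ld c x0 y0 s0 * (s - s0)) +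
      inner ℝ (p.gr c x0 s0) ((x - x0) + (s - s0) • c) +
      p.ny s * (nrm c x y s - nrm c x0 y0 s0) + p.d * ‖(x - x0) + (s - s0) • c‖ ^ 2 := by
  rw [Cf.ev_expand p c x0 y0 s0 x y s]
  have e : p.ny s = p.ny s0 - 2 * p.d * (s - s0) := by unfold Cf.ny; ring
  rw [e]; ring

theorem vol_sec {A t lam kap : ℝ} (hk : 0 < kap) (hlam : 0 ≤ lam) (hA : 0 ≤ A) (ht : 0 ≤ t) :
    volume {X : E3 | ‖(lat X - x0) + (s - s0) • c‖ ≤ A ∧
      |nrm c (lat X) (X 2) s - nrm c x0 y0 s0| ≤ t ∧ |p.ev (lat X) (X 2) s| ≤ lam ∧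
      kap ≤ ‖p.gr c (lat X) s‖} ≤ ENNReal.ofReal (64 * lam * A * t / kap) := by
  rw [show {X : E3 | ‖(lat X - x0) + (s - s0) • c‖ ≤ A ∧
      |nrm c (lat X) (X 2) s - nrm c x0 y0 s0| ≤ t ∧ |p.ev (lat X) (X 2) s| ≤ lam ∧
      kap ≤ ‖p.gr c (lat X) s‖} = {X : E3 | pt ((lat X - x0) + (s - s0) • c)
        (nrm c (lat X) (X 2) s - nrm c x0 y0 s0) ∈ {Y : E3 | ‖lat Y‖ ≤ A ∧ |Y 2| ≤ t ∧
      |(p.ev x0 y0 s0 + p.ld c x0 y0 s0 * (s - s0)) + inner ℝ (p.gr c x0 s0) (lat Y) +
        p.ny s * Y 2 + p.d * ‖lat Y‖ ^ 2| ≤ lam ∧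
      kap ≤ ‖p.gr c x0 s0 + (2 * p.d) • lat Y‖}} from ?_, vol_frame]
  · exact vol_slab_gr hk hlam hA ht
  · ext X
    simp only [Set.mem_ofPred_eq, CDef480.lat_pt, CDef480.pt_two]
    rw [← ev_sec p c x0 y0 s0 (lat X) (X 2) s, ← Cf.gr_move p c x0 (lat X) s0 s]

theorem vol_sec_ny {A lam : ℝ} (hn : p.ny s ≠ 0) (hlam : 0 ≤ lam) (hA : 0 ≤ A) :
    volume {X : E3 | ‖(lat X - x0) + (s - s0) • c‖ ≤ A ∧ |p.ev (lat X) (X 2) s| ≤ lam} ≤
      ENNReal.ofReal (16 * lam * A ^ 2 / |p.ny s|) := by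
  rw [show {X : E3 | ‖(lat X - x0) + (s - s0) • c‖ ≤ A ∧ |p.ev (lat X) (X 2) s| ≤ lam} =
      {X : E3 | pt ((lat X - x0) + (s - s0) • c)
        (nrm c (lat X) (X 2) s - nrm c x0 0 s0) ∈ {Y : E3 | ‖lat Y‖ ≤ A ∧
      |(p.ev x0 0 s0 + p.ld c x0 0 s0 * (s - s0)) + inner ℝ (p.gr c x0 s0) (lat Y) +
        p.ny s * Y 2 + p.d * ‖lat Y‖ ^ 2| ≤ lam}} from ?_, vol_frame]
  · exact vol_slab_ny hn hlam hA
  · ext X
    simp only [Set.mem_ofPred_eq, CDef480.lat_pt, CDef480.pt_two]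
    rw [← ev_sec p c x0 0 s0 (lat X) (X 2) s]

/-- the points with a slope of small derivative have a large lateral gradient for this slope. -/
theorem gr_ge_half {lam h : ℝ} (hR : 0 < R) (hsg : 0 < sg) (hT : sg ^ 2 ≤ T) (hM : 0 ≤ M)
    (hdisc : p.disc = 1) (hny : |p.ny s| * T ≤ M * sg) (hd : 2 * |p.d| * (T * R) ≤ M * sg)
    (h1 : 8 * M * lam ≤ sg * R) (h2 : 8 * M * h ≤ sg) {C x : E2} {y : ℝ}
    (hev : |p.ev x y s| ≤ lam) (hld : |p.ld C x y s| ≤ h) : 1 / 2 ≤ ‖p.gr C x s‖ := by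
  have hn : |p.ny s| * sg ≤ M := ny_sg_le hsg hT (abs_nonneg _) hM hny
  have hd1 : 2 * |p.d| * R * sg ≤ M := ny_sg_le hsg hT (by positivity) hM (by linarith)
  have hlam : 0 ≤ lam := (abs_nonneg _).trans hev
  have hh : 0 ≤ h := (abs_nonneg _).trans hld
  have e1 : |p.ny s| * |p.ld C x y s| ≤ 1 / 8 := by
    have a1 : |p.ny s| * (8 * h) * sg ≤ M * (8 * h) := by
      have := mul_le_mul_of_nonneg_right hn (by positivity : 0 ≤ 8 * h)
      linarith
    have a2 : |p.ny s| * (8 * h) * sg ≤ 1 * sg := by linarith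
    have a3 : |p.ny s| * (8 * h) ≤ 1 := le_of_mul_le_mul_right a2 hsg
    have a4 := mul_le_mul_of_nonneg_left hld (abs_nonneg (p.ny s))
    linarith
  have e2 : 2 * |p.d| * |p.ev x y s| ≤ 1 / 8 := by
    have a1 : 2 * |p.d| * (8 * lam) * (sg * R) ≤ M * (8 * lam) := by
      have := mul_le_mul_of_nonneg_right hd1 (by positivity : 0 ≤ 8 * lam)
      linarith
    have a2 : 2 * |p.d| * (8 * lam) * (sg * R) ≤ 1 * (sg * R) := by linarith
    have a3 : 2 * |p.d| * (8 * lam) ≤ 1 := le_of_mul_le_mul_right a2 (mul_pos hsg hR)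
    have a4 := mul_le_mul_of_nonneg_left hev (by positivity : 0 ≤ 2 * |p.d|)
    linarith
  have e3 := Cf.norm_gr_sq p C x y s
  rw [hdisc] at e3
  have e4 : -(2 * (|p.ny s| * |p.ld C x y s|)) ≤ 2 * p.ny s * p.ld C x y s := by
    have := neg_abs_le (p.ny s * p.ld C x y s)
    rw [abs_mul] at this
    linarith
  have e5 : -(2 * (2 * |p.d| * |p.ev x y s|)) ≤ 4 * p.d * p.ev x y s := by
    have := neg_abs_le (p.d * p.ev x y s)
    rw [abs_mul] at this
    linarith
  have e6 : 1 / 2 ≤ ‖p.gr C x s‖ ^ 2 := by linarith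
  nlinarith [norm_nonneg (p.gr C x s)]

/-- the dichotomy: in a fixed frame `c` the lateral gradient or the `y`-derivative is large. -/
theorem gr_or_ny {K : ℝ} (hK : 0 ≤ K) (hsg : 0 < sg) {C x : E2} (hC : ‖C - c‖ ≤ K * sg)
    (hg : 1 / 2 ≤ ‖p.gr C x s‖) : 1 / 4 ≤ ‖p.gr c x s‖ ∨ 1 < |p.ny s| * (4 * K * sg) := by
  rcases le_or_gt (|p.ny s| * (4 * K * sg)) 1 with h | h
  · left
    have e := Cf.gr_dir p c C x s
    have h1 : ‖p.gr C x s‖ ≤ ‖p.gr c x s‖ + |p.ny s| * (K * sg) := by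
      rw [e]
      refine (norm_sub_le _ _).trans (add_le_add le_rfl ?_)
      rw [norm_smul, Real.norm_eq_abs]
      exact mul_le_mul_of_nonneg_left hC (abs_nonneg _)
    nlinarith
  · right; exact h

theorem vol_sec_or {K lam : ℝ} (hR : 0 < R) (hsg : 0 < sg) (hT : sg ^ 2 ≤ T) (hK : 1 ≤ K)
    (hlam : 0 ≤ lam) :
    volume {X : E3 | ‖(lat X - x0) + (s - s0) • c‖ ≤ K * sg * R ∧
      |nrm c (lat X) (X 2) s - nrm c x0 y0 s0| ≤ K * T * R ∧ |p.ev (lat X) (X 2) s| ≤ lam ∧
      (1 / 4 ≤ ‖p.gr c (lat X) s‖ ∨ 1 < |p.ny s| * (4 * K * sg))} ≤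
      ENNReal.ofReal (256 * K ^ 3 * (lam * (sg * R) * (T * R))) := by
  have hT0 : 0 < T := lt_of_lt_of_le (pow_pos hsg 2) hT
  have hK0 : 0 < K := by linarith
  have hA : 0 ≤ K * sg * R := by positivity
  have ht : 0 ≤ K * T * R := by positivity
  rcases le_or_gt (|p.ny s| * (4 * K * sg)) 1 with h | h
  · refine (measure_mono ?_).trans ((vol_sec (c := c) (x0 := x0) (y0 := y0) (s0 := s0) (s := s)
      (p := p) (kap := 1 / 4) (by norm_num) hlam hA ht).trans (ENNReal.ofReal_le_ofReal ?_))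
    · rintro X ⟨h1, h2, h3, h4 | h4⟩
      · exact ⟨h1, h2, h3, h4⟩
      · exact absurd h4 (not_lt.2 h)
    · have e : 64 * lam * (K * sg * R) * (K * T * R) / (1 / 4) =
          256 * K ^ 2 * (lam * (sg * R) * (T * R)) := by ring
      rw [e]
      refine mul_le_mul_of_nonneg_right ?_ (by positivity)
      nlinarith [sq_nonneg K]
  · have hn : p.ny s ≠ 0 := by
      intro h0; rw [h0, abs_zero, zero_mul] at h; linarith
    have hn' : 0 < |p.ny s| := abs_pos.2 hn
    refine (measure_mono ?_).trans ((vol_sec_ny (c := c) (x0 := x0) (s0 := s0) (s := s)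
      (p := p) hn hlam hA).trans (ENNReal.ofReal_le_ofReal ?_))
    · rintro X ⟨h1, h2, h3, -⟩
      exact ⟨h1, h3⟩
    · rw [div_le_iff₀ hn']
      have e1 : 16 * lam * (K * sg * R) ^ 2 ≤
          16 * lam * (K * sg * R) ^ 2 * (|p.ny s| * (4 * K * sg)) :=
        le_mul_of_one_le_right (by positivity) h.le
      have e2 : 16 * lam * (K * sg * R) ^ 2 * (|p.ny s| * (4 * K * sg)) =
          64 * K ^ 3 * (lam * (sg * R) * (sg ^ 2 * R)) * |p.ny s| := by ring
      have e3 : 64 * K ^ 3 * (lam * (sg * R) * (sg ^ 2 * R)) * |p.ny s| ≤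
          256 * K ^ 3 * (lam * (sg * R) * (T * R)) * |p.ny s| := by
        refine mul_le_mul_of_nonneg_right ?_ hn'.le
        have e4 : lam * (sg * R) * (sg ^ 2 * R) ≤ lam * (sg * R) * (T * R) :=
          mul_le_mul_of_nonneg_left (mul_le_mul_of_nonneg_right hT hR.le) (by positivity)
        have e5 : 0 ≤ lam * (sg * R) * (T * R) := by positivity
        nlinarith [pow_pos hK0 3, mul_le_mul_of_nonneg_left e4 (pow_pos hK0 3).le,
          mul_nonneg (pow_pos hK0 3).le e5]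
      linarith

/-- **volume of a section of the slab seen by the rays of the aperture**. -/
theorem vol_sec_ray {K lam h : ℝ} (hR : 0 < R) (hsg : 0 < sg) (hT : sg ^ 2 ≤ T) (hK : 1 ≤ K)
    (hM : 0 ≤ M) (hlam : 0 ≤ lam) (hdisc : p.disc = 1) (hny : |p.ny s| * T ≤ M * sg)
    (hd : 2 * |p.d| * (T * R) ≤ M * sg) (h1 : 8 * M * lam ≤ sg * R) (h2 : 8 * M * h ≤ sg) :
    volume {X : E3 | ‖(lat X - x0) + (s - s0) • c‖ ≤ K * sg * R ∧
      |nrm c (lat X) (X 2) s - nrm c x0 y0 s0| ≤ K * T * R ∧ |p.ev (lat X) (X 2) s| ≤ lam ∧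
      ∃ C : E2, ‖C - c‖ ≤ K * sg ∧ |p.ld C (lat X) (X 2) s| ≤ h} ≤
      ENNReal.ofReal (256 * K ^ 3 * (lam * (sg * R) * (T * R))) := by
  refine (measure_mono ?_).trans (vol_sec_or (c := c) (x0 := x0) (y0 := y0) (s0 := s0) (s := s)
    (p := p) hR hsg hT hK hlam)
  rintro X ⟨a1, a2, a3, C, hC, hL⟩
  exact ⟨a1, a2, a3, gr_or_ny (by linarith) hsg hC
    (gr_ge_half hR hsg hT hM hdisc hny hd h1 h2 a3 hL)⟩

theorem measurable_lat_fst : Measurable fun q : E3 × ℝ => lat q.1 :=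
  CDef480.measurable_lat.comp measurable_fst

theorem measurable_two_fst : Measurable fun q : E3 × ℝ => q.1 2 :=
  (CDef480.measurable_coord 2).comp measurable_fst

theorem measurable_nrm_st (c : E2) : Measurable fun q : E3 × ℝ => nrm c (lat q.1) (q.1 2) q.2 := by
  unfold nrm
  have a1 : Measurable fun q : E3 × ℝ => inner ℝ c (lat q.1) :=
    measurable_const.inner measurable_lat_fst
  have a2 : Measurable fun q : E3 × ℝ => q.2 * ‖c‖ ^ 2 / 2 :=
    (measurable_snd.mul_const (‖c‖ ^ 2)).div_const 2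
  exact (measurable_two_fst.add a1).add a2

theorem measurable_val (p : Cf E2) : Measurable fun q : E3 × ℝ => p.val q := by
  unfold Cf.val Cf.ev
  have a0 : Measurable fun q : E3 × ℝ => p.a0 + p.a1 * q.2 :=
    (measurable_snd.const_mul p.a1).const_add p.a0
  have a1 : Measurable fun q : E3 × ℝ => inner ℝ p.be (lat q.1) :=
    measurable_const.inner measurable_lat_fst
  have a2 : Measurable fun q : E3 × ℝ => p.g * q.1 2 := measurable_two_fst.const_mul p.g
  have a3 : Measurable fun q : E3 × ℝ => ‖lat q.1‖ ^ 2 := measurable_lat_fst.norm.pow_const 2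
  have a4 : Measurable fun q : E3 × ℝ => 2 * q.2 * q.1 2 :=
    (measurable_snd.const_mul 2).mul measurable_two_fst
  exact ((a0.add a1).add a2).add ((a3.sub a4).const_mul p.d)

theorem measurable_ny_st (p : Cf E2) : Measurable fun q : E3 × ℝ => |p.ny q.2| := by
  unfold Cf.ny
  have a1 : Measurable fun q : E3 × ℝ => 2 * p.d * q.2 := measurable_snd.const_mul (2 * p.d)
  exact (a1.const_sub p.g).abs

theorem measurable_gr_st (p : Cf E2) (c : E2) :
    Measurable fun q : E3 × ℝ => ‖p.gr c (lat q.1) q.2‖ := by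
  unfold Cf.gr Cf.ny
  have a1 : Measurable fun q : E3 × ℝ => (2 * p.d) • lat q.1 :=
    measurable_lat_fst.const_smul (2 * p.d)
  have a2 : Measurable fun q : E3 × ℝ => (p.g - 2 * p.d * q.2) • c :=
    ((measurable_snd.const_mul (2 * p.d)).const_sub p.g).smul_const c
  exact ((a1.const_add p.be).sub a2).norm

/-- **space-time volume of the part of the slab seen by the rays of the aperture**. -/
theorem vol_pp {K lam h : ℝ} (hR : 0 < R) (hsg : 0 < sg) (hT : sg ^ 2 ≤ T) (hK : 1 ≤ K)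
    (hM : 0 ≤ M) (hlam : 0 ≤ lam) (hdisc : p.disc = 1)
    (hny : ∀ s, |s - s0| ≤ R → |p.ny s| * T ≤ M * sg)
    (h1 : 8 * M * lam ≤ sg * R) (h2 : 8 * M * h ≤ sg) :
    volume {q : E3 × ℝ | |q.2 - s0| ≤ R ∧ ‖(lat q.1 - x0) + (q.2 - s0) • c‖ ≤ K * sg * R ∧
      |nrm c (lat q.1) (q.1 2) q.2 - nrm c x0 y0 s0| ≤ K * T * R ∧ |p.val q| ≤ lam ∧
      ∃ C : E2, ‖C - c‖ ≤ K * sg ∧ |p.ld C (lat q.1) (q.1 2) q.2| ≤ h} ≤
      ENNReal.ofReal (512 * K ^ 3 * (lam * (sg * R) * (T * R) * R)) := by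
  have hT0 : 0 ≤ T := (sq_nonneg sg).trans hT
  have hd : 2 * |p.d| * (T * R) ≤ M * sg := d_le_of_ny hR.le hT0 hny
  have hmlat : Measurable fun q : E3 × ℝ => lat q.1 := measurable_lat_fst
  have hnrm := measurable_nrm_st c
  have hval := measurable_val p
  have hgr := measurable_gr_st p c
  have hnyM := measurable_ny_st p
  set Q : Set (E3 × ℝ) := {q | |q.2 - s0| ≤ R ∧
    (‖(lat q.1 - x0) + (q.2 - s0) • c‖ ≤ K * sg * R ∧
      |nrm c (lat q.1) (q.1 2) q.2 - nrm c x0 y0 s0| ≤ K * T * R ∧ |p.val q| ≤ lam ∧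
      (1 / 4 ≤ ‖p.gr c (lat q.1) q.2‖ ∨ 1 < |p.ny q.2| * (4 * K * sg)))} with hQ
  have hw : Measurable fun q : E3 × ℝ => ‖(lat q.1 - x0) + (q.2 - s0) • c‖ :=
    ((hmlat.sub_const x0).add ((measurable_snd.sub_const s0).smul_const c)).norm
  have m1 : MeasurableSet {q : E3 × ℝ | |q.2 - s0| ≤ R} :=
    measurableSet_le (measurable_snd.sub_const s0).abs measurable_const
  have m2 : MeasurableSet {q : E3 × ℝ | ‖(lat q.1 - x0) + (q.2 - s0) • c‖ ≤ K * sg * R} :=
    measurableSet_le hw measurable_const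
  have m3 : MeasurableSet {q : E3 × ℝ |
      |nrm c (lat q.1) (q.1 2) q.2 - nrm c x0 y0 s0| ≤ K * T * R} :=
    measurableSet_le (hnrm.sub_const _).abs measurable_const
  have m4 : MeasurableSet {q : E3 × ℝ | |p.val q| ≤ lam} :=
    measurableSet_le hval.abs measurable_const
  have m5 : MeasurableSet {q : E3 × ℝ | 1 / 4 ≤ ‖p.gr c (lat q.1) q.2‖} :=
    measurableSet_le measurable_const hgr
  have m6 : MeasurableSet {q : E3 × ℝ | 1 < |p.ny q.2| * (4 * K * sg)} :=
    measurableSet_lt measurable_const (hnyM.mul_const _)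
  have hQm : MeasurableSet Q := by
    have e : Q = {q : E3 × ℝ | |q.2 - s0| ≤ R} ∩
        ({q : E3 × ℝ | ‖(lat q.1 - x0) + (q.2 - s0) • c‖ ≤ K * sg * R} ∩
        ({q : E3 × ℝ | |nrm c (lat q.1) (q.1 2) q.2 - nrm c x0 y0 s0| ≤ K * T * R} ∩
        ({q : E3 × ℝ | |p.val q| ≤ lam} ∩ ({q : E3 × ℝ | 1 / 4 ≤ ‖p.gr c (lat q.1) q.2‖} ∪
        {q : E3 × ℝ | 1 < |p.ny q.2| * (4 * K * sg)})))) := rfl
    rw [e]
    exact m1.inter (m2.inter (m3.inter (m4.inter (m5.union m6))))
  have hsub : {q : E3 × ℝ | |q.2 - s0| ≤ R ∧ ‖(lat q.1 - x0) + (q.2 - s0) • c‖ ≤ K * sg * R ∧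
      |nrm c (lat q.1) (q.1 2) q.2 - nrm c x0 y0 s0| ≤ K * T * R ∧ |p.val q| ≤ lam ∧
      ∃ C : E2, ‖C - c‖ ≤ K * sg ∧ |p.ld C (lat q.1) (q.1 2) q.2| ≤ h} ⊆ Q := by
    rintro q ⟨a0, a1, a2, a3, C, hC, hL⟩
    exact ⟨a0, a1, a2, a3, gr_or_ny (by linarith) hsg hC
      (gr_ge_half hR hsg hT hM hdisc (hny q.2 a0) hd h1 h2 a3 hL)⟩
  refine (measure_mono hsub).trans ?_
  rw [Measure.volume_eq_prod, Measure.prod_apply_symm hQm]
  calc ∫⁻ s, volume ((fun X => (X, s)) ⁻¹' Q)
      ≤ ∫⁻ s, (Set.Icc (s0 - R) (s0 + R)).indicator (fun _ =>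
          ENNReal.ofReal (256 * K ^ 3 * (lam * (sg * R) * (T * R)))) s := by
        refine lintegral_mono fun s => ?_
        by_cases hs : s ∈ Set.Icc (s0 - R) (s0 + R)
        · rw [Set.indicator_of_mem hs]
          refine (measure_mono ?_).trans (vol_sec_or (c := c) (x0 := x0) (y0 := y0) (s0 := s0)
            (s := s) (p := p) hR hsg hT hK hlam)
          rintro X ⟨-, h⟩
          exact h
        · rw [Set.indicator_of_notMem hs]
          have : ((fun X => (X, s)) ⁻¹' Q) = ∅ := by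
            ext X
            simp only [Set.mem_preimage, Set.mem_empty_iff_false, iff_false]
            rintro ⟨h, -⟩
            apply hs
            have := abs_le.1 h
            exact ⟨by linarith [this.1], by linarith [this.2]⟩
          rw [this, measure_empty]
    _ = ENNReal.ofReal (256 * K ^ 3 * (lam * (sg * R) * (T * R))) *
          volume (Set.Icc (s0 - R) (s0 + R)) := by
        rw [lintegral_indicator measurableSet_Icc, setLIntegral_const]
    _ = ENNReal.ofReal (512 * K ^ 3 * (lam * (sg * R) * (T * R) * R)) := by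
        rw [Real.volume_Icc, ← ENNReal.ofReal_mul (by positivity)]
        congr 1; ring

end Crest.Agent.R116.LZg725
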