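import Crest.Agent.R116.Sli3_850
import Crest.Agent.R116.DeDef_295
import Crest.Agent.R116.Cnv5_894

-- ▼ part R116/Stb1_850
section

/-!
# R116 (S0155), wave side: COV / STAB (helper850, shadow), part 1: covering of a dilated member by
members centred at its packets.
-/

set_option autoImplicit false

open MeasureTheory FourierTransform
open scoped ContDiff ENNReal

namespace Crest.Agent.R116.Stb850

open Crest.Agent.R138.Defs (E2 ee)
open Crest.Agent.R138.Wpk685 (th win fat cen caps cap)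
open Crest.Agent.R116.CDef480 (E3 lat slp hc extc capc umc enc Enc trc nrm)
open Crest.Agent.R116.LZg725 (Cf)
open Crest.Agent.R116.WC188
open Crest.Agent.R116.Sl850 (enc_cover enc_mono floor_mem coord_le nrm_change mem_pbx TT_pos sq_ge)

/-- the class (cell) of a packet, sizes `σ`, `λ`, `ν`. -/
noncomputable def cellG (ρ : ℝ) (c : E2) (X0 : E3) (σ l ν : ℝ) (m : ℤ × ℤ) (X : E3) :
    (ℤ × ℤ) × (ℤ × ℤ) × ℤ :=
  ((⌊(cen ρ m - c) 0 / σ⌋, ⌊(cen ρ m - c) 1 / σ⌋),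
    (⌊(lat X - lat X0) 0 / l⌋, ⌊(lat X - lat X0) 1 / l⌋),
    ⌊(nrm c X 0 - nrm c X0 0) / ν⌋)

/-- the set of cells. -/
@[irreducible] noncomputable def cellsG (K1 K2 K3 : ℤ) : Finset ((ℤ × ℤ) × (ℤ × ℤ) × ℤ) :=
  (Finset.Icc (-K1) K1 ×ˢ Finset.Icc (-K1) K1) ×ˢ (Finset.Icc (-K2) K2 ×ˢ Finset.Icc (-K2) K2) ×ˢ
    Finset.Icc (-K3) K3

theorem card_Icc_real {K : ℤ} (hK : 0 ≤ K) : ((Finset.Icc (-K) K).card : ℝ) = 2 * K + 1 := by
  have h : (((Finset.Icc (-K) K).card : ℕ) : ℤ) = 2 * K + 1 := by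
    rw [Int.card_Icc, Int.toNat_of_nonneg (by omega)]; ring
  calc (((Finset.Icc (-K) K).card : ℕ) : ℝ) = ((((Finset.Icc (-K) K).card : ℕ) : ℤ) : ℝ) :=
        (Int.cast_natCast _).symm
    _ = ((2 * K + 1 : ℤ) : ℝ) := by rw [h]
    _ = 2 * K + 1 := by push_cast; ring

theorem card_cellsG {K1 K2 K3 : ℤ} (h1 : 0 ≤ K1) (h2 : 0 ≤ K2) (h3 : 0 ≤ K3) :
    ((cellsG K1 K2 K3).card : ℝ) = (2 * K1 + 1) ^ 2 * (2 * K2 + 1) ^ 2 * (2 * K3 + 1) := by
  unfold cellsG
  simp only [Finset.card_product, Nat.cast_mul, card_Icc_real h1, card_Icc_real h2,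
    card_Icc_real h3]
  ring

theorem norm_le_coord {v : E2} {t : ℝ} (ht : 0 ≤ t) (h0 : |v 0| ≤ t) (h1 : |v 1| ≤ t) :
    ‖v‖ ≤ 3 / 2 * t := by
  have h2 := Crest.Agent.R116.CDef480.normsq2 v
  have h3 : v 0 ^ 2 ≤ t ^ 2 := by rw [← sq_abs]; gcongr
  have h4 : v 1 ^ 2 ≤ t ^ 2 := by rw [← sq_abs]; gcongr
  refine abs_le_of_sq_le_sq' ?_ (by positivity) |>.2
  nlinarith [sq_nonneg t]

theorem floor_close {x y t : ℝ} (ht : 0 < t) (h : ⌊x / t⌋ = ⌊y / t⌋) : |x - y| ≤ t := by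
  have h6 := (Int.abs_sub_lt_one_of_floor_eq_floor h).le
  have e : x / t - y / t = (1 / t) * (x - y) := by ring
  rw [e, abs_mul, abs_of_pos (by positivity : (0:ℝ) < 1 / t)] at h6
  rw [← le_div_iff₀' (by positivity)] at h6
  refine h6.trans_eq ?_
  field_simp

/-- points of the same cell. -/
theorem cellG_eq {ρ : ℝ} {c : E2} {X0 : E3} {σ l ν U : ℝ} (hσ : 0 < σ) (hl : 0 < l) (hν : 0 < ν)
    {m m' : ℤ × ℤ} {X X' : E3} (h : cellG ρ c X0 σ l ν m X = cellG ρ c X0 σ l ν m' X')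
    (hC : ‖cen ρ m' - c‖ ≤ U) :
    ‖cen ρ m - cen ρ m'‖ ≤ 3 / 2 * σ ∧ ‖lat X - lat X'‖ ≤ 3 / 2 * l ∧
      |nrm (cen ρ m') X 0 - nrm (cen ρ m') X' 0| ≤ ν + U * (3 / 2 * l) := by
  unfold cellG at h
  simp only [Prod.mk.injEq] at h
  obtain ⟨⟨h1, h2⟩, ⟨h3, h4⟩, h5⟩ := h
  have k1 := floor_close hσ h1
  have k2 := floor_close hσ h2
  have k3 := floor_close hl h3
  have k4 := floor_close hl h4
  have k5 := floor_close hν h5
  have l1 : ‖cen ρ m - cen ρ m'‖ ≤ 3 / 2 * σ := by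
    refine norm_le_coord hσ.le ?_ ?_
    · simpa [PiLp.sub_apply] using k1
    · simpa [PiLp.sub_apply] using k2
  have l2 : ‖lat X - lat X'‖ ≤ 3 / 2 * l := by
    refine norm_le_coord hl.le ?_ ?_
    · simpa [PiLp.sub_apply] using k3
    · simpa [PiLp.sub_apply] using k4
  refine ⟨l1, l2, ?_⟩
  rw [nrm_change c]
  refine (abs_add_le _ _).trans ?_
  have l3 : |inner ℝ (cen ρ m' - c) (lat X - lat X')| ≤ U * (3 / 2 * l) :=
    (abs_real_inner_le_norm _ _).trans (mul_le_mul hC l2 (norm_nonneg _)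
      ((norm_nonneg _).trans hC))
  have l4 : |nrm c X 0 - nrm c X' 0| ≤ ν := by
    have : nrm c X 0 - nrm c X' 0 = (nrm c X 0 - nrm c X0 0) - (nrm c X' 0 - nrm c X0 0) := by ring
    rw [this]; exact k5
  linarith

/-- points of a dilated member lie in the cells. -/
theorem cellG_mem {ρ : ℝ} {c : E2} {X0 : E3} {σ l ν U L V : ℝ} (hσ : 0 < σ) (hl : 0 < l)
    (hν : 0 < ν) {m : ℤ × ℤ} {X : E3} {K1 K2 K3 : ℤ} (hK1 : U / σ ≤ K1) (hK2 : L / l ≤ K2)
    (hK3 : V / ν ≤ K3) (h1 : ‖cen ρ m - c‖ ≤ U)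
    (h2 : ‖lat X - lat X0‖ ≤ L) (h3 : |nrm c X 0 - nrm c X0 0| ≤ V) :
    cellG ρ c X0 σ l ν m X ∈ cellsG K1 K2 K3 := by
  have aux : ∀ {x t W : ℝ} {K : ℤ}, 0 < t → W / t ≤ K → |x| ≤ W → ⌊x / t⌋ ∈ Finset.Icc (-K) K := by
    intro x t W K ht hW hx
    refine floor_mem ?_
    rw [abs_div, abs_of_pos ht]
    refine le_trans ?_ hW
    gcongr
  unfold cellG cellsG
  simp only [Finset.mem_product]
  exact ⟨⟨aux hσ hK1 ((coord_le _ 0).trans h1), aux hσ hK1 ((coord_le _ 1).trans h1)⟩,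
    ⟨aux hl hK2 ((coord_le _ 0).trans h2), aux hl hK2 ((coord_le _ 1).trans h2)⟩, aux hν hK3 h3⟩

theorem TT_ge_sq (κ s R : ℝ) : s ^ 2 ≤ TT κ s R := le_max_left _ _

/-- **core of the covering**. -/
theorem core {κ A M r s1 s2 t1 t2 B : ℝ} (hA : 1 ≤ A) (hM : 1 ≤ M) (hr : 1 ≤ r)
    (hs2 : 0 < s2) (ht : 0 < t2) (ht2 : s2 ≤ M * t2) (hT : TT κ s2 r ≤ M ^ 2 * TT κ t2 r)
    {c : E2} {X0 : E3} {f : Cf E2} (F : ℤ × ℤ → E3 → Cf E2) (g : E3 → ℂ) (S : ℤ × ℤ → Set E3)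
    (hmem : ∀ m X m' X', X ∈ pbx κ A r s1 s2 c X0 f m → X' ∈ pbx κ A r s1 s2 c X0 f m' →
      ‖cen (r ^ (-(1/2) : ℝ)) m - cen (r ^ (-(1/2) : ℝ)) m'‖ ≤ t2 → ‖lat X - lat X'‖ ≤ t2 * r →
      |(F m' X').ev (lat X) (X 2) 0| ≤ t1 * r ∧
        |(F m' X').ld (cen (r ^ (-(1/2) : ℝ)) m) (lat X) (X 2) 0| ≤ t1)
    (hB : ∀ m' X', X' ∈ pbx κ A r s1 s2 c X0 f m' →
      enc (r ^ (-(1/2) : ℝ)) g (fun m => S m ∩
        pbx κ 1 r t1 t2 (cen (r ^ (-(1/2) : ℝ)) m') X' (F m' X') m) ≤ ENNReal.ofReal B) :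
    enc (r ^ (-(1/2) : ℝ)) g (fun m => S m ∩ pbx κ A r s1 s2 c X0 f m) ≤
      ENNReal.ofReal (27783 * A ^ 7 * M ^ 8 * B) := by
  have hr0 : 0 < r := by linarith
  have hA0 : 0 < A := by linarith
  have hM0 : 0 < M := by linarith
  generalize hρ : r ^ (-(1/2) : ℝ) = ρ at hmem hB ⊢
  have hTi : 0 < TT κ t2 r := TT_pos ht
  have hTp : 0 < TT κ s2 r := TT_pos hs2
  have hTsq : t2 ^ 2 ≤ TT κ t2 r := TT_ge_sq κ t2 r
  set σ : ℝ := t2 / 2 with hσ
  set l : ℝ := t2 * r / (3 * A * M) with hl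
  set ν : ℝ := TT κ t2 r * r / 2 with hν
  have hσ0 : 0 < σ := by positivity
  have hl0 : 0 < l := by positivity
  have hν0 : 0 < ν := by positivity
  have b1 : A * s2 / σ ≤ 2 * A * M := by
    rw [div_le_iff₀ hσ0, hσ]
    calc A * s2 ≤ A * (M * t2) := by gcongr
      _ = 2 * A * M * (t2 / 2) := by ring
  have b2 : A * s2 * r / l ≤ 3 * A ^ 2 * M ^ 2 := by
    rw [div_le_iff₀ hl0, hl]
    calc A * s2 * r ≤ A * (M * t2) * r := by gcongr
      _ = 3 * A ^ 2 * M ^ 2 * (t2 * r / (3 * A * M)) := by field_simp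
  have b3 : A * TT κ s2 r * r / ν ≤ 2 * A * M ^ 2 := by
    rw [div_le_iff₀ hν0, hν]
    calc A * TT κ s2 r * r ≤ A * (M ^ 2 * TT κ t2 r) * r := by gcongr
      _ = 2 * A * M ^ 2 * (TT κ t2 r * r / 2) := by ring
  obtain ⟨K1, hK1a, hK1b⟩ : ∃ K : ℤ, A * s2 / σ ≤ K ∧ (K : ℝ) < A * s2 / σ + 1 :=
    ⟨⌈A * s2 / σ⌉, Int.le_ceil _, Int.ceil_lt_add_one _⟩
  obtain ⟨K2, hK2a, hK2b⟩ : ∃ K : ℤ, A * s2 * r / l ≤ K ∧ (K : ℝ) < A * s2 * r / l + 1 :=
    ⟨⌈A * s2 * r / l⌉, Int.le_ceil _, Int.ceil_lt_add_one _⟩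
  obtain ⟨K3, hK3a, hK3b⟩ : ∃ K : ℤ, A * TT κ s2 r * r / ν ≤ K ∧
      (K : ℝ) < A * TT κ s2 r * r / ν + 1 :=
    ⟨⌈A * TT κ s2 r * r / ν⌉, Int.le_ceil _, Int.ceil_lt_add_one _⟩
  have p1 : (0:ℤ) ≤ K1 := by
    have : (0 : ℝ) ≤ K1 := le_trans (by positivity) hK1a
    exact_mod_cast this
  have p2 : (0:ℤ) ≤ K2 := by
    have : (0 : ℝ) ≤ K2 := le_trans (by positivity) hK2a
    exact_mod_cast this
  have p3 : (0:ℤ) ≤ K3 := by
    have : (0 : ℝ) ≤ K3 := le_trans (by positivity) hK3a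
    exact_mod_cast this
  have q1 : (0:ℝ) ≤ K1 := by exact_mod_cast p1
  have q2 : (0:ℝ) ≤ K2 := by exact_mod_cast p2
  have q3 : (0:ℝ) ≤ K3 := by exact_mod_cast p3
  have hAM : 1 ≤ A * M := one_le_mul_of_one_le_of_one_le hA hM
  have hcard : ((cellsG K1 K2 K3).card : ℝ) ≤ 27783 * A ^ 7 * M ^ 8 := by
    rw [card_cellsG p1 p2 p3]
    have c1 : 2 * (K1:ℝ) + 1 ≤ 7 * (A * M) := by linarith
    have c2 : 2 * (K2:ℝ) + 1 ≤ 9 * (A * M) ^ 2 := by
      have : 1 ≤ (A * M) ^ 2 := one_le_pow₀ hAM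
      have e : A ^ 2 * M ^ 2 = (A * M) ^ 2 := by ring
      have : 3 * A ^ 2 * M ^ 2 = 3 * (A * M) ^ 2 := by rw [← e]; ring
      linarith
    have c3 : 2 * (K3:ℝ) + 1 ≤ 7 * (A * M ^ 2) := by
      have : 1 ≤ A * M ^ 2 := one_le_mul_of_one_le_of_one_le hA (one_le_pow₀ hM)
      linarith
    calc (2 * (K1:ℝ) + 1) ^ 2 * (2 * K2 + 1) ^ 2 * (2 * K3 + 1)
        ≤ (7 * (A * M)) ^ 2 * (9 * (A * M) ^ 2) ^ 2 * (7 * (A * M ^ 2)) := by gcongr
      _ = 27783 * A ^ 7 * M ^ 8 := by ring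
  have h1 := enc_cover ρ g (cellsG K1 K2 K3) (fun m => S m ∩ pbx κ A r s1 s2 c X0 f m)
    (fun m' X' m => S m ∩ pbx κ 1 r t1 t2 (cen ρ m') X' (F m' X') m) (cellG ρ c X0 σ l ν)
    (ENNReal.ofReal B) ?_ ?_ ?_
  · refine h1.trans ?_
    by_cases hB0 : 0 ≤ B
    · have h2 : ((cellsG K1 K2 K3).card : ℝ≥0∞) = ENNReal.ofReal ((cellsG K1 K2 K3).card : ℝ) := by
        rw [ENNReal.ofReal_natCast]
      rw [h2, ← ENNReal.ofReal_mul (by positivity)]
      refine ENNReal.ofReal_le_ofReal ?_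
      gcongr
    · rw [ENNReal.ofReal_of_nonpos (not_le.1 hB0).le, mul_zero]
      exact bot_le
  · intro m X hX
    have hX2 := hX.2
    rw [mem_pbx, hρ] at hX2
    exact cellG_mem hσ0 hl0 hν0 hK1a hK2a hK3a hX2.1 hX2.2.1 hX2.2.2.1
  · intro m X m' X' hX hX' hc
    have hX2 := hX.2
    have hX2' := hX'.2
    have k1' := hX2'
    rw [mem_pbx, hρ] at k1'
    obtain ⟨l1, l2, l3⟩ := cellG_eq hσ0 hl0 hν0 hc k1'.1
    have m1 : ‖cen ρ m - cen ρ m'‖ ≤ t2 := by
      refine l1.trans ?_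
      rw [hσ]; linarith
    have m2 : ‖lat X - lat X'‖ ≤ t2 * r := by
      refine l2.trans ?_
      have : l ≤ t2 * r / 3 := by
        rw [hl]
        have h3 : (3:ℝ) ≤ 3 * A * M := by nlinarith
        gcongr
      have : 0 < t2 * r := by positivity
      linarith
    have m3 : |nrm (cen ρ m') X 0 - nrm (cen ρ m') X' 0| ≤ TT κ t2 r * r := by
      refine l3.trans ?_
      have e1 : A * s2 * (3 / 2 * l) ≤ t2 ^ 2 * r / 2 := by
        calc A * s2 * (3 / 2 * l) ≤ A * (M * t2) * (3 / 2 * l) := by gcongr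
          _ = t2 ^ 2 * r / 2 := by rw [hl]; field_simp
      have e2 : t2 ^ 2 * r / 2 ≤ TT κ t2 r * r / 2 := by gcongr
      rw [hν]
      linarith
    refine ⟨hX.1, ?_⟩
    rw [mem_pbx, hρ, one_mul, one_mul, one_mul]
    obtain ⟨n1, n2⟩ := hmem m X m' X' hX2 hX2' m1 m2
    exact ⟨m1, m2, m3, n1, n2⟩
  · intro m' X' hX'
    exact hB m' X' hX'.2

end Crest.Agent.R116.Stb850
end

-- ▼ part R116/Stb2_850
section

/-!
# R116 (S0155), wave side: COV / STAB (helper850, shadow), part 2: density for the members `Adm 1`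
gives the dilated density for the members `Adm M`.
-/

set_option autoImplicit false

open MeasureTheory FourierTransform
open scoped ContDiff ENNReal

namespace Crest.Agent.R116.Stb850

open Crest.Agent.R138.Defs (E2 ee)
open Crest.Agent.R138.Wpk685 (th win fat cen caps cap)
open Crest.Agent.R116.CDef480 (E3 lat slp hc extc capc umc enc Enc trc nrm)
open Crest.Agent.R116.LZg725 (Cf)
open Crest.Agent.R116.WC188
open Crest.Agent.R116.Sl850 (enc_cover enc_mono floor_mem coord_le nrm_change mem_pbx TT_pos sq_ge)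

/-- flat conformal function through the ray of slope `C'` and lateral position `x'` (time `0`). -/
noncomputable def flt (C' x' : E2) : Cf E2 where
  a0 := -inner ℝ (EuclideanSpace.single 0 1) x'
  a1 := inner ℝ (EuclideanSpace.single 0 1) C'
  be := EuclideanSpace.single 0 1
  g := 0
  d := 0

theorem norm_e0 : ‖(EuclideanSpace.single 0 1 : E2)‖ = 1 := by simp

theorem flt_disc (C' x' : E2) : (flt C' x').disc = 1 := by
  unfold Cf.disc flt
  simp

theorem flt_ny (C' x' : E2) (s : ℝ) : (flt C' x').ny s = 0 := by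
  unfold Cf.ny flt
  simp

theorem flt_ev (C' x' x : E2) (y : ℝ) :
    (flt C' x').ev x y 0 = inner ℝ (EuclideanSpace.single 0 1) (x - x') := by
  unfold Cf.ev flt
  rw [inner_sub_right]
  ring

theorem flt_ld (C' x' C x : E2) (y : ℝ) :
    (flt C' x').ld C x y 0 = -inner ℝ (EuclideanSpace.single 0 1) (C - C') := by
  unfold Cf.ld
  rw [flt_ny]
  unfold flt
  simp only [mul_zero, zero_smul, add_zero, zero_mul, sub_zero, zero_div]
  rw [inner_sub_right]
  ring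

theorem inner_e0_le (v : E2) : |inner ℝ (EuclideanSpace.single 0 1 : E2) v| ≤ ‖v‖ := by
  have := abs_real_inner_le_norm (EuclideanSpace.single 0 1 : E2) v
  rwa [norm_e0, one_mul] at this

/-- density of a selection. -/
def Dsn (M κ q r : ℝ) (g : E3 → ℂ) (S : ℤ × ℤ → Set E3) (D : ℝ) : Prop :=
  ∀ (c : E2) (X0 : E3) (f : Cf E2) (s1 s2 : ℝ), Sd r s1 s2 → Adm M κ s1 s2 (TT κ s2 r) r c X0 f →
    enc (r ^ (-(1/2) : ℝ)) g (fun m => S m ∩ pbx κ 1 r s1 s2 c X0 f m) ≤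
      ENNReal.ofReal (D * s2 ^ q * scost κ s1 s2 r)

/-- **COV + STAB**, density form. -/
theorem stab {q : ℝ} (hq : 0 ≤ q) {κ A M r D : ℝ} (hA : 1 ≤ A) (hM : 1 ≤ M) (hr : 1 ≤ r)
    (hκ : 0 < κ) (hκ1 : κ ≤ 1) (hD : 0 ≤ D) {g : E3 → ℂ} {S : ℤ × ℤ → Set E3}
    (H : Dsn 1 κ q r g S D) {c : E2} {X0 : E3} {f : Cf E2} {s1 s2 : ℝ} (hs : Sd r s1 s2)
    (hAd : Adm M κ s1 s2 (TT κ s2 r) r c X0 f) :
    enc (r ^ (-(1/2) : ℝ)) g (fun m => S m ∩ pbx κ A r s1 s2 c X0 f m) ≤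
      ENNReal.ofReal (27783 * A ^ 8 * M ^ 11 * (D * s2 ^ q * scost κ s1 s2 r)) := by
  have hr0 : 0 < r := by linarith
  have hA0 : 0 < A := by linarith
  have hM0 : 0 < M := by linarith
  have h0 : 0 < r ^ (-(1/2) : ℝ) := by positivity
  have hs1 : 0 < s1 := lt_of_lt_of_le h0 hs.lo
  have hs2 : 0 < s2 := lt_of_lt_of_le hs1 hs.le
  have hT : 0 < TT κ s2 r := TT_pos hs2
  have hM2 : 1 ≤ M ^ 2 := one_le_pow₀ hM
  have hM3 : 1 ≤ M ^ 3 := one_le_pow₀ hM
  have hAM : 1 ≤ A * M := one_le_mul_of_one_le_of_one_le hA hM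
  have hκr : 0 < κ * r := by positivity
  have hq0 : 0 ≤ s2 ^ q := Real.rpow_nonneg hs2.le _
  by_cases hcase : s2 ≤ A * M ^ 3 * s1
  · -- flat full boxes
    have hsd : Sd r s2 s2 := ⟨hs.lo.trans hs.le, le_rfl, hs.hi⟩
    refine (core hA hM hr hs2 hs2 (by nlinarith) (by nlinarith)
      (t1 := s2) (fun m' X' => flt (cen (r ^ (-(1/2) : ℝ)) m') (lat X')) g S ?_ ?_
      (B := D * s2 ^ q * scost κ s2 s2 r)).trans ?_
    · intro m X m' X' _ _ l1 l2
      rw [flt_ev, flt_ld, abs_neg]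
      exact ⟨(inner_e0_le _).trans l2, (inner_e0_le _).trans l1⟩
    · intro m' X' _
      refine H _ _ _ s2 s2 hsd ⟨flt_disc _ _, fun s _ => ?_, fun s _ => ?_, ?_, ?_⟩
      · rw [flt_ny, abs_zero]; positivity
      · rw [flt_ny, abs_zero]; positivity
      · rw [flt_ld, sub_self, inner_zero_right, neg_zero, abs_zero]; positivity
      · rw [flt_ev, sub_self, inner_zero_right, abs_zero]; positivity
    · refine ENNReal.ofReal_le_ofReal ?_
      have e1 : scost κ s2 s2 r ≤ A * M ^ 3 * scost κ s1 s2 r := by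
        unfold scost
        calc s2 * s2 * TT κ s2 r * r ^ 3 ≤ (A * M ^ 3 * s1) * s2 * TT κ s2 r * r ^ 3 := by gcongr
          _ = _ := by ring
      calc 27783 * A ^ 7 * M ^ 8 * (D * s2 ^ q * scost κ s2 s2 r)
          ≤ 27783 * A ^ 7 * M ^ 8 * (D * s2 ^ q * (A * M ^ 3 * scost κ s1 s2 r)) := by gcongr
        _ = _ := by ring
  · -- thin slabs
    rw [not_le] at hcase
    -- the common part
    have main : ∀ t2 : ℝ, 0 < t2 → s2 ≤ M * t2 → t2 ≤ s2 → TT κ s2 r ≤ M ^ 2 * TT κ t2 r →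
        TT κ t2 r ≤ TT κ s2 r → (∀ s : ℝ, |s| ≤ r → |f.ny s| ≤ t2 / TT κ t2 r) →
        enc (r ^ (-(1/2) : ℝ)) g (fun m => S m ∩ pbx κ A r s1 s2 c X0 f m) ≤
          ENNReal.ofReal (27783 * A ^ 8 * M ^ 11 * (D * s2 ^ q * scost κ s1 s2 r)) := by
      intro t2 ht h1 h2 h3 h4 h5
      have k1 : A * M * s1 ≤ t2 := by
        have : A * M * s1 * M ^ 2 ≤ t2 * M := by nlinarith
        have h6 : A * M * s1 * M ≤ A * M * s1 * M ^ 2 := by
          have : M ≤ M ^ 2 := by nlinarith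
          gcongr
        have h7 : A * M * s1 * M ≤ t2 * M := h6.trans this
        exact le_of_mul_le_mul_right h7 hM0
      have hsd : Sd r (A * M * s1) t2 :=
        ⟨hs.lo.trans (le_mul_of_one_le_left hs1.le hAM), k1, h2.trans hs.hi⟩
      have k2 : A * s1 ≤ A * M * s1 := by
        have : A ≤ A * M := le_mul_of_one_le_right hA0.le hM
        gcongr
      refine (core hA hM hr hs2 ht h1 h3 (t1 := A * M * s1) (fun _ _ => f) g S ?_ ?_
        (B := D * t2 ^ q * scost κ (A * M * s1) t2 r)).trans ?_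
      · intro m X m' X' hX _ _ _
        rw [mem_pbx] at hX
        refine ⟨hX.2.2.2.1.trans ?_, hX.2.2.2.2.trans k2⟩
        gcongr
      · intro m' X' hX'
        rw [mem_pbx] at hX'
        refine H _ _ _ _ t2 hsd ⟨hAd.disc, fun s hs' => ?_, fun s hs' => ?_, ?_, ?_⟩
        · rw [one_mul]; exact h5 s hs'
        · refine (hAd.cmp s hs').trans ?_
          calc M * (κ * s1 * r) ≤ A * (M * (κ * s1 * r)) :=
                le_mul_of_one_le_left (by positivity) hA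
            _ = 1 * (κ * (A * M * s1) * r) := by ring
        · rw [one_mul]
          exact hX'.2.2.2.2.trans (k2.trans k1)
        · rw [one_mul]
          refine hX'.2.2.2.1.trans ?_
          have := k2.trans k1
          gcongr
      · refine ENNReal.ofReal_le_ofReal ?_
        have e1 : scost κ (A * M * s1) t2 r ≤ A * M * scost κ s1 s2 r := by
          unfold scost
          calc A * M * s1 * t2 * TT κ t2 r * r ^ 3 ≤ A * M * s1 * s2 * TT κ s2 r * r ^ 3 := by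
                have := TT_pos (κ := κ) (R := r) ht
                gcongr
            _ = _ := by ring
        have e2 : t2 ^ q ≤ s2 ^ q := Real.rpow_le_rpow ht.le h2 hq
        have e3 : 0 ≤ scost κ s1 s2 r := by unfold scost; positivity
        have e4 : 0 ≤ scost κ (A * M * s1) t2 r := by
          unfold scost
          have := TT_pos (κ := κ) (R := r) ht
          positivity
        calc 27783 * A ^ 7 * M ^ 8 * (D * t2 ^ q * scost κ (A * M * s1) t2 r)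
            ≤ 27783 * A ^ 7 * M ^ 8 * (D * s2 ^ q * (A * M * scost κ s1 s2 r)) := by gcongr
          _ = 27783 * A ^ 8 * (M ^ 9 * (D * s2 ^ q * scost κ s1 s2 r)) := by ring
          _ ≤ 27783 * A ^ 8 * (M ^ 11 * (D * s2 ^ q * scost κ s1 s2 r)) := by
            have : M ^ 9 ≤ M ^ 11 := pow_le_pow_right₀ hM (by norm_num)
            gcongr
          _ = _ := by ring
    have hMs : M * s1 ≤ s2 := by
      have : M * s1 ≤ A * M ^ 3 * s1 := by
        have : M ≤ A * M ^ 3 := by nlinarith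
        gcongr
      linarith
    rcases lt_or_ge (s2 ^ 2) (κ * r)⁻¹ with hlt | hge
    · -- `T = 1/(κ r)`
      have hTe : TT κ s2 r = (κ * r)⁻¹ := max_eq_right hlt.le
      refine main s2 hs2 (by nlinarith) le_rfl (by nlinarith) le_rfl fun s hs' => ?_
      refine (hAd.cmp s hs').trans ?_
      rw [hTe, div_inv_eq_mul]
      calc M * (κ * s1 * r) = (M * s1) * (κ * r) := by ring
        _ ≤ s2 * (κ * r) := by gcongr
    · have hTe : TT κ s2 r = s2 ^ 2 := max_eq_left hge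
      rcases le_or_gt (κ * r)⁻¹ ((s2 / M) ^ 2) with hle | hgt
      · -- shrink the aperture
        have hTi : TT κ (s2 / M) r = (s2 / M) ^ 2 := max_eq_left hle
        refine main (s2 / M) (by positivity) ?_ (div_le_self hs2.le hM) ?_ ?_ fun s hs' => ?_
        · rw [mul_div_cancel₀ _ hM0.ne']
        · rw [hTe, hTi]; field_simp; exact le_rfl
        · rw [hTe, hTi]
          have : s2 / M ≤ s2 := div_le_self hs2.le hM
          gcongr
        · refine (hAd.ny s hs').trans ?_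
          rw [hTe, hTi]
          refine le_of_eq ?_
          field_simp
      · -- the critical aperture
        set t : ℝ := Real.sqrt ((κ * r)⁻¹) with ht
        have ht0 : 0 < t := Real.sqrt_pos.2 (by positivity)
        have htsq : t ^ 2 = (κ * r)⁻¹ := Real.sq_sqrt (by positivity)
        have hts : t ≤ s2 := by
          refine abs_le_of_sq_le_sq' ?_ hs2.le |>.2
          rw [htsq]; exact hge
        have htM : s2 / M ≤ t := by
          refine abs_le_of_sq_le_sq' ?_ ht0.le |>.2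
          rw [htsq]; exact hgt.le
        have htM' : s2 ≤ M * t := by rwa [div_le_iff₀' hM0] at htM
        have hTi : TT κ t r = t ^ 2 := by
          unfold TT
          rw [htsq, max_self]
        refine main t ht0 htM' hts ?_ ?_ fun s hs' => ?_
        · rw [hTe, hTi]
          calc s2 ^ 2 ≤ (M * t) ^ 2 := by gcongr
            _ = M ^ 2 * t ^ 2 := by ring
        · rw [hTe, hTi]; gcongr
        · refine (hAd.cmp s hs').trans ?_
          rw [hTi]
          have e1 : t / t ^ 2 = t * (κ * r) := by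
            rw [htsq, div_inv_eq_mul]
          rw [e1]
          have e2 : M * s1 ≤ t := by
            have h6 : A * M ^ 3 * s1 ≤ M * t := (hcase.le).trans htM'
            have h7 : M * (M * s1) ≤ M * t := by
              refine le_trans ?_ h6
              have : M ^ 2 ≤ A * M ^ 3 := by nlinarith
              calc M * (M * s1) = M ^ 2 * s1 := by ring
                _ ≤ A * M ^ 3 * s1 := by gcongr
            exact le_of_mul_le_mul_left h7 hM0
          calc M * (κ * s1 * r) = (M * s1) * (κ * r) := by ring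
            _ ≤ t * (κ * r) := by gcongr

end Crest.Agent.R116.Stb850
end

-- ▼ part R116/Stb3_850

/-!
# R116 (S0155), wave side: COV / STAB (helper850, shadow), part 3: the literals `STABc q` (295) and
`Cov2 M q` (894).
-/

set_option autoImplicit false

open MeasureTheory FourierTransform
open scoped ContDiff ENNReal

namespace Crest.Agent.R116.Stb850

open Crest.Agent.R138.Defs (E2 ee)
open Crest.Agent.R138.Wpk685 (cen caps)
open Crest.Agent.R116.CDef480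
open Crest.Agent.R116.WC188
open Crest.Agent.R116.LZg725 (Cf)


lemma adm_mono {M κ r s1 s2 : ℝ} {c : E2} {X0 : E3} {f : Cf E2} (hκ : 0 < κ) (hr : 1 ≤ r)
    (hM : 1 ≤ M) (hs : Sd r s1 s2) (h : Adm 1 κ s1 s2 (TT κ s2 r) r c X0 f) :
    Adm M κ s1 s2 (TT κ s2 r) r c X0 f := by
  have hr0 : 0 < r := by linarith
  have h1 : 0 < s1 := lt_of_lt_of_le (Real.rpow_pos_of_pos hr0 _) hs.lo
  have h2 : 0 < s2 := lt_of_lt_of_le h1 hs.le
  have hT : 0 < TT κ s2 r := by unfold TT; positivity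
  refine ⟨h.disc, fun s hs' => (h.ny s hs').trans ?_, fun s hs' => (h.cmp s hs').trans ?_,
    h.ld.trans ?_, h.ev.trans ?_⟩
  · gcongr
  · gcongr
  · gcongr
  · gcongr

/-- the lemma `Cov2` of 894. -/
theorem cov2 {M q : ℝ} (hM : 1 ≤ M) (hq : 0 ≤ q) : Cnv894.Cov2 M q := by
  refine ⟨27783 * 2 ^ 8 * M ^ 11, ?_, ?_⟩
  · have : 1 ≤ M ^ 11 := one_le_pow₀ hM
    nlinarith
  intro κ r hκ hκ1 hr _ g D hD H c X0 f s1 s2 hs hAd
  have H1 : Dsn 1 κ q r g (fun _ => Set.univ) D := by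
    intro c X0 f s1 s2 hs hAd
    simp only [Set.univ_inter]
    exact H c X0 f s1 s2 hs (adm_mono hκ hr hM hs hAd)
  have h2 := stab hq (A := 2) (by norm_num) hM hr hκ hκ1 hD H1 hs hAd
  simp only [Set.univ_inter] at h2
  refine h2.trans (ENNReal.ofReal_le_ofReal (le_of_eq ?_))
  ring

end Crest.Agent.R116.Stb850
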