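import Crest.Agent.R116.Sup0_858
import Crest.Agent.R116.Ba2_449
import Crest.Agent.R116.DomC_210
import Crest.Agent.R116.CWd3_480

-- ▼ part R116/Sup1_858
section

/-!
# R116 (S0155), wave side, **A2k** (SUP of the cone), part 1: Jensen, densities (helper858)
-/

set_option autoImplicit false

open MeasureTheory FourierTransform
open scoped ContDiff ENNReal

namespace Crest.Agent.R116.Sup858

open Crest.Agent.R138.Defs (E2 ee)
open Crest.Agent.R138.Wpk685 (cen caps)
open Crest.Agent.R116.CDef480 Crest.Agent.R116.WC188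
open Crest.Agent.R116.LZg725 (Cf)
open Crest.Agent.R116.CWp480 Crest.Agent.R116.CWc480
open Crest.Agent.R138.Wf448 (adet)

/-! ### Jensen -/

theorem jensen32 {α : Type*} [MeasurableSpace α] (μ : Measure α) {K F : α → ℝ≥0∞}
    (hK : AEMeasurable K μ) (hF : AEMeasurable F μ) :
    (∫⁻ x, K x * F x ∂μ) ^ (3/2 : ℝ) ≤
      (∫⁻ x, K x ∂μ) ^ (1/2 : ℝ) * ∫⁻ x, K x * F x ^ (3/2 : ℝ) ∂μ := by
  have hpq : (3 : ℝ).HolderConjugate (3/2) := by
    rw [Real.holderConjugate_iff]; norm_num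
  have h1 := ENNReal.lintegral_mul_le_Lp_mul_Lq μ hpq
    (f := fun x => K x ^ (1/3 : ℝ)) (g := fun x => K x ^ (2/3 : ℝ) * F x)
    (hK.pow_const _) ((hK.pow_const _).mul hF)
  have e1 : ∀ x, ((fun x => K x ^ (1/3 : ℝ)) * fun x => K x ^ (2/3 : ℝ) * F x) x = K x * F x := by
    intro x
    simp only [Pi.mul_apply]
    rw [← mul_assoc, ← ENNReal.rpow_add_of_nonneg _ _ (by norm_num) (by norm_num)]
    norm_num
  have e2 : ∀ x, (K x ^ (1/3 : ℝ)) ^ (3:ℝ) = K x := by
    intro x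
    rw [← ENNReal.rpow_mul]; norm_num
  have e3 : ∀ x, (K x ^ (2/3 : ℝ) * F x) ^ (3/2:ℝ) = K x * F x ^ (3/2 : ℝ) := by
    intro x
    rw [ENNReal.mul_rpow_of_nonneg _ _ (by norm_num), ← ENNReal.rpow_mul]; norm_num
  simp only [e1, e2, e3] at h1
  calc (∫⁻ x, K x * F x ∂μ) ^ (3/2 : ℝ) ≤ ((∫⁻ x, K x ∂μ) ^ (1/(3:ℝ)) *
        (∫⁻ x, K x * F x ^ (3/2 : ℝ) ∂μ) ^ (1/(3/2:ℝ))) ^ (3/2 : ℝ) :=
        ENNReal.rpow_le_rpow h1 (by norm_num)
    _ = _ := by
        rw [ENNReal.mul_rpow_of_nonneg _ _ (by norm_num), ← ENNReal.rpow_mul, ← ENNReal.rpow_mul]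
        norm_num

theorem hoelder32 {α : Type*} [MeasurableSpace α] (μ : Measure α) {F : α → ℝ≥0∞}
    (hF : AEMeasurable F μ) {V : Set α} (hV : ∀ x, F x ≠ 0 → x ∈ V) :
    (∫⁻ x, F x ∂μ) ^ (3/2 : ℝ) ≤ (μ V) ^ (1/2 : ℝ) * ∫⁻ x, F x ^ (3/2 : ℝ) ∂μ := by
  have hm := measurableSet_toMeasurable μ V
  have h1 := jensen32 μ (K := (toMeasurable μ V).indicator 1) (F := F)
    ((measurable_one.indicator hm).aemeasurable) hF
  have e1 : ∀ x, (toMeasurable μ V).indicator (1 : α → ℝ≥0∞) x * F x = F x := by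
    intro x
    by_cases hx : F x = 0
    · rw [hx, mul_zero]
    · rw [Set.indicator_of_mem (subset_toMeasurable μ V (hV x hx))]; simp
  have e2 : ∀ x, (toMeasurable μ V).indicator (1 : α → ℝ≥0∞) x * F x ^ (3/2 : ℝ) =
      F x ^ (3/2 : ℝ) := by
    intro x
    by_cases hx : F x = 0
    · rw [hx, ENNReal.zero_rpow_of_pos (by norm_num), mul_zero]
    · rw [Set.indicator_of_mem (subset_toMeasurable μ V (hV x hx))]; simp
  simp only [e1, e2] at h1
  rw [lintegral_indicator_one hm, measure_toMeasurable] at h1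
  exact h1

theorem sum_pow32_le {ι : Type*} (s : Finset ι) (f : ι → ℝ≥0∞) :
    ∑ i ∈ s, f i ^ (3/2 : ℝ) ≤ (∑ i ∈ s, f i) ^ (3/2 : ℝ) := by
  classical
  induction s using Finset.induction_on with
  | empty => simp
  | insert a s ha ih =>
    rw [Finset.sum_insert ha, Finset.sum_insert ha]
    calc f a ^ (3/2 : ℝ) + ∑ i ∈ s, f i ^ (3/2 : ℝ) ≤ f a ^ (3/2 : ℝ) + (∑ i ∈ s, f i) ^ (3/2 : ℝ) :=
          add_le_add le_rfl ih
      _ ≤ _ := ENNReal.add_rpow_le_rpow_add _ _ (by norm_num)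

/-! ### box norms -/

theorem bn_eq {l k : ℝ} (hl : 0 < l) (hk : 0 < k) (C : E2) (Z : E3) :
    bn l k C Z = ‖Pl l k hl hk C Z‖ := by
  unfold bn
  rw [Pl_apply]
  unfold nrm
  congr 3
  ring

theorem bn_nonneg (l k : ℝ) (C : E2) (Z : E3) : 0 ≤ bn l k C Z := norm_nonneg _

theorem bn_lat {l k : ℝ} (hl : 0 < l) (C : E2) (Z : E3) : l * ‖lat Z‖ ≤ bn l k C Z := by
  unfold bn
  have h := norm_lat_le (pt (l • lat Z) (k * nrm C Z 0))
  rwa [lat_pt, norm_smul, Real.norm_eq_abs, abs_of_pos hl] at h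

theorem bn_nrm {l k : ℝ} (hk : 0 < k) (C : E2) (Z : E3) : k * |nrm C Z 0| ≤ bn l k C Z := by
  unfold bn
  have h := abs_two_le (pt (l • lat Z) (k * nrm C Z 0))
  rwa [pt_two, abs_mul, abs_of_pos hk] at h

theorem bn_le {l k : ℝ} (hl : 0 < l) (hk : 0 < k) (C : E2) (Z : E3) :
    bn l k C Z ≤ l * ‖lat Z‖ + k * |nrm C Z 0| := by
  unfold bn
  refine (norm_pt_le _ _).trans (le_of_eq ?_)
  rw [norm_smul, Real.norm_eq_abs, abs_of_pos hl, abs_mul, abs_of_pos hk]

theorem continuous_nrm0 (C : E2) : Continuous fun Z : E3 => nrm C Z 0 := by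
  unfold nrm
  have h1 : Continuous fun Z : E3 => Z 2 := (EuclideanSpace.proj (𝕜 := ℝ) (2 : Fin 3)).continuous
  have h2 : Continuous fun Z : E3 => lat Z := latL.continuous
  exact (h1.add (continuous_const.inner h2)).add continuous_const

theorem continuous_pt : Continuous fun p : E2 × ℝ => pt p.1 p.2 := by
  unfold pt
  refine (EuclideanSpace.equiv (Fin 3) ℝ).symm.continuous.comp ?_
  refine continuous_pi fun i => ?_
  have h0 : Continuous fun p : E2 × ℝ => p.1 0 :=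
    (EuclideanSpace.proj (𝕜 := ℝ) (0 : Fin 2)).continuous.comp continuous_fst
  have h1 : Continuous fun p : E2 × ℝ => p.1 1 :=
    (EuclideanSpace.proj (𝕜 := ℝ) (1 : Fin 2)).continuous.comp continuous_fst
  fin_cases i
  · exact h0
  · exact h1
  · exact continuous_snd

theorem continuous_bn (l k : ℝ) (C : E2) : Continuous (bn l k C) := by
  unfold bn
  have h2 : Continuous fun Z : E3 => lat Z := latL.continuous
  exact (continuous_pt.comp ((h2.const_smul l).prodMk
    ((continuous_nrm0 C).const_mul k))).norm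

/-- the volume scale of the box metric. -/
noncomputable def vs (l k : ℝ) (C : E2) : ℝ := if h : 0 < l ∧ 0 < k then
  adet (Pl l k h.1 h.2 C : E3 →L[ℝ] E3) else 1


theorem lint_bn {l k : ℝ} (hl : 0 < l) (hk : 0 < k) (C : E2) (F : ℝ → ℝ≥0∞) (Y : E3) :
    ENNReal.ofReal (vs l k C) * ∫⁻ X, F (bn l k C (Y - X)) = ∫⁻ Z : E3, F ‖Z‖ := by
  have h1 := lintegral_scale (Pl l k hl hk C) (fun Z => F ‖Z‖) Y
  have e1 : ∀ X, F (bn l k C (Y - X)) = F ‖Pl l k hl hk C (Y - X)‖ := fun X => by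
    rw [bn_eq hl hk]
  have e2 : vs l k C = adet (Pl l k hl hk C : E3 →L[ℝ] E3) := by
    unfold vs
    rw [dif_pos ⟨hl, hk⟩]
  simp only [e1, h1, e2]
  rw [← mul_assoc, ← ENNReal.ofReal_mul (adet0 _).le, mul_inv_cancel₀ (adet0 _).ne',
    ENNReal.ofReal_one, one_mul]

theorem lint_bn' {l k : ℝ} (hl : 0 < l) (hk : 0 < k) (C : E2) (F : ℝ → ℝ≥0∞) (X : E3) :
    ENNReal.ofReal (vs l k C) * ∫⁻ Y, F (bn l k C (Y - X)) = ∫⁻ Z : E3, F ‖Z‖ := by
  have h1 := lintegral_scale' (Pl l k hl hk C) (fun Z => F ‖Z‖) X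
  have e1 : ∀ Y, F (bn l k C (Y - X)) = F ‖Pl l k hl hk C (Y - X)‖ := fun Y => by
    rw [bn_eq hl hk]
  have e2 : vs l k C = adet (Pl l k hl hk C : E3 →L[ℝ] E3) := by
    unfold vs
    rw [dif_pos ⟨hl, hk⟩]
  simp only [e1, h1, e2]
  rw [← mul_assoc, ← ENNReal.ofReal_mul (adet0 _).le, mul_inv_cancel₀ (adet0 _).ne',
    ENNReal.ofReal_one, one_mul]

end Crest.Agent.R116.Sup858
end

-- ▼ part R116/SupL_858
section

/-!
# R116 (S0155), wave side, **A2k** (SUP of the cone): **level change** `levCh : LevCh` (helper858),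
from 480's `level_change_u`.
-/

set_option autoImplicit false

open MeasureTheory FourierTransform
open scoped ContDiff ENNReal

namespace Crest.Agent.R116.Sup858

open Crest.Agent.R138.Defs (E2 ee)
open Crest.Agent.R138.Wpk685 (cen caps)
open Crest.Agent.R116.CDef480 Crest.Agent.R116.WC188
open Crest.Agent.R116.LZg725 (Cf)
open Crest.Agent.R116.CWp480 Crest.Agent.R116.CWc480

theorem Pl_dom {l k ρ L : ℝ} (hl : 0 < l) (hk : 0 < k) (hk1 : k ≤ 1) (hρ : 0 < ρ) (hlρ : l ≤ ρ)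
    (hL : 0 ≤ L) {C C' : E2} (h : k * ‖C' - C‖ ≤ L * l) (x : E3) :
    ‖Pl l k hl hk C x‖ ≤ (L + 2) * ‖Pl ρ 1 hρ one_pos C' x‖ := by
  have h1 := bn_lat (l := ρ) (k := 1) hρ C' x
  have h2 := bn_nrm (l := ρ) (k := 1) one_pos C' x
  rw [bn_eq hρ one_pos] at h1 h2
  have h3 := bn_le hl hk C x
  rw [bn_eq hl hk] at h3
  have h4 : nrm C x 0 = nrm C' x 0 - inner ℝ (C' - C) (lat x) := by
    unfold nrm
    rw [inner_sub_left]
    ring
  have h5 : |nrm C x 0| ≤ |nrm C' x 0| + ‖C' - C‖ * ‖lat x‖ := by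
    rw [h4]
    refine (abs_sub _ _).trans (add_le_add le_rfl (abs_real_inner_le_norm _ _))
  have h6 := norm_nonneg (lat x)
  have h7 := abs_nonneg (nrm C' x 0)
  have h8 : k * |nrm C x 0| ≤ |nrm C' x 0| + L * l * ‖lat x‖ := by
    calc k * |nrm C x 0| ≤ k * (|nrm C' x 0| + ‖C' - C‖ * ‖lat x‖) := by gcongr
      _ = k * |nrm C' x 0| + (k * ‖C' - C‖) * ‖lat x‖ := by ring
      _ ≤ 1 * |nrm C' x 0| + (L * l) * ‖lat x‖ := by gcongr
      _ = _ := by ring
  have h9 : l * ‖lat x‖ ≤ ρ * ‖lat x‖ := by gcongr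
  rw [one_mul] at h2
  have h10 : L * l * ‖lat x‖ ≤ L * (ρ * ‖lat x‖) := by
    calc L * l * ‖lat x‖ = L * (l * ‖lat x‖) := by ring
      _ ≤ _ := by gcongr
  have h11 : L * (ρ * ‖lat x‖) ≤ L * ‖Pl ρ 1 hρ one_pos C' x‖ := by gcongr
  linarith

theorem capc_ne {ρ : ℝ} (hρ : 0 < ρ) {m : ℤ × ℤ} {ζ : E3} (h : capc ρ m ζ ≠ 0) :
    ‖cen ρ m - slp ζ‖ ≤ 2 * ρ := by
  by_contra hc
  push Not at hc
  apply h
  unfold capc Crest.Agent.R138.Wpk685.cap
  apply Crest.Agent.R138.Wpk685.win_zero'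
  rw [norm_smul, Real.norm_eq_abs, abs_of_pos (inv_pos.2 hρ), norm_sub_rev]
  calc (71/50 : ℝ) < ρ⁻¹ * (2 * ρ) := by field_simp; norm_num
    _ ≤ _ := by gcongr

/-- **level change.** -/
theorem levCh : LevCh := by
  intro a b L T n ha hb hb2 hL hT
  obtain ⟨Cst, hC, hlc⟩ := Crest.Agent.R116.CWd480.level_change_u ha n T
    (L := L + 2) (by linarith)
  refine ⟨Cst, hC, ?_⟩
  intro l k σ ρ ρ' C g hl hk hk1 hlρ hρ1 hlρ' hρ1' hσ hσ' hm hbd hs z z' p p' hz hp hp'
  classical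
  have hρ : 0 < ρ := hl.trans_le hlρ
  have hρ' : 0 < ρ' := hl.trans_le hlρ'
  have ha0 : 0 < a := by linarith
  -- the good function
  have hGd : Crest.Agent.R116.Ba449.Gd (3 * a) g := by
    refine ⟨hm, hbd, fun ζ hz => ?_, fun ζ hz => (hs ζ hz).2.2.1.trans hb2.le⟩
    obtain ⟨h1, h2, h3, -⟩ := hs ζ hz
    have hζ : 0 < ζ 2 := lt_of_lt_of_le (inv_pos.2 ha0) h1
    have h4 : ‖lat ζ‖ ≤ 2 * a := by
      rw [lat_slp hζ.ne', norm_smul, Real.norm_eq_abs, abs_of_pos hζ]
      calc ζ 2 * ‖slp ζ‖ ≤ a * 2 := mul_le_mul h2 (h3.trans hb2.le) (norm_nonneg _) ha0.le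
        _ = 2 * a := by ring
    have h5 := normsq3 ζ
    have h6 := norm_nonneg (lat ζ)
    have h7 := norm_nonneg ζ
    nlinarith
  set g' : E3 → ℂ := trc z' g with hg'
  have hGd' : Crest.Agent.R116.Ba449.Gd (3 * a) g' := hGd.trc z'
  have hne : ∀ (y : E3 × ℝ) (ζ : E3), trc y g ζ ≠ 0 → g ζ ≠ 0 := by
    intro y ζ h h0
    apply h
    unfold trc
    rw [h0, zero_mul]
  set s : Finset (ℤ × ℤ) := (caps ρ').filter (fun m => ‖cen ρ' m - C‖ ≤ σ + 2 * ρ') with hsdef
  set s' : Finset (ℤ × ℤ) := (caps ρ).filter (fun m => ‖cen ρ m - C‖ ≤ σ + 2 * ρ) with hs'def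
  have hdom : ∀ m ∈ s, ∀ x, ‖Pl l k hl hk C x‖ ≤ (L + 2) * ‖Pl ρ' 1 hρ' one_pos (cen ρ' m) x‖ := by
    intro m hm x
    refine Pl_dom hl hk hk1 hρ' hlρ' (by linarith) ?_ x
    refine le_trans ?_ hσ'
    have := (Finset.mem_filter.1 hm).2
    gcongr
  have hdom' : ∀ m ∈ s', ∀ x, ‖Pl l k hl hk C x‖ ≤ (L + 2) * ‖Pl ρ 1 hρ one_pos (cen ρ m) x‖ := by
    intro m hm x
    refine Pl_dom hl hk hk1 hρ hlρ (by linarith) ?_ x
    refine le_trans ?_ hσ
    have := (Finset.mem_filter.1 hm).2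
    gcongr
  have hfar : ∀ (τ : ℝ), 0 < τ → ∀ (y : E3 × ℝ), ∀ m : ℤ × ℤ, σ + 2 * τ < ‖cen τ m - C‖ →
      ∀ ζ, capc τ m ζ * trc y g ζ = 0 := by
    intro τ hτ y m hfm ζ
    by_contra hc
    have h1 := left_ne_zero_of_mul hc
    have h2 := hne y ζ (right_ne_zero_of_mul hc)
    have h3 := (hs ζ h2).2.2.2
    have h4 := capc_ne hτ h1
    have h5 : ‖cen τ m - C‖ ≤ ‖cen τ m - slp ζ‖ + ‖slp ζ - C‖ := by
      have := norm_add_le (cen τ m - slp ζ) (slp ζ - C)
      rwa [sub_add_sub_cancel] at this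
    linarith
  have hsum : ∀ ζ, g' ζ = ∑ m ∈ s, capc ρ' m ζ * g' ζ := by
    intro ζ
    have h1 : ∑ m ∈ s, capc ρ' m ζ * g' ζ = ∑ m ∈ caps ρ', capc ρ' m ζ * g' ζ := by
      refine Finset.sum_subset (Finset.filter_subset _ _) ?_
      intro m hm1 hm2
      refine hfar ρ' hρ' z' m ?_ ζ
      by_contra hc
      exact hm2 (Finset.mem_filter.2 ⟨hm1, not_lt.1 hc⟩)
    rw [h1, ← Finset.sum_mul]
    by_cases h0 : g' ζ = 0
    · rw [h0, mul_zero]
    · have h2 := (hs ζ (hne z' ζ h0)).2.2.1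
      have h3 : ∑ m ∈ caps ρ', capc ρ' m ζ = 1 :=
        Crest.Agent.R138.Wpk685.cap_win_sum hρ' (h2.trans hb2.le)
      rw [h3, one_mul]
  set w : E3 → ℝ := fun x => ((1 + ‖Pl l k hl hk C (x - p.1)‖) ^ n)⁻¹ with hw
  have hSV : SV (Pl l k hl hk C) 1 n w := SV_pt _ n p.1
  have hRng : Crest.Agent.R116.CWd480.Rng a g' := by
    intro ζ hζ
    have := hs ζ (hne z' ζ hζ)
    exact ⟨this.1, this.2.1⟩
  have e2 : p.2 + (z - z').2 = p'.2 := by
    have := congrArg Prod.snd hz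
    simp only [Prod.snd_add, Prod.snd_sub] at this ⊢
    linarith
  have e1 : (z - z').1 + p.1 = p'.1 := by
    have := congrArg Prod.fst hz
    simp only [Prod.fst_add, Prod.fst_sub] at this ⊢
    rw [sub_add_eq_add_sub, this]
    abel
  have key := hlc ρ' ρ hρ' hρ (Pl l k hl hk C) 1 w hSV s s' hdom hdom' p.2 (z - z') hp
    (by rw [e2]; exact hp') g' hGd'.int (hGd'.memLp 2) hRng hsum
  have e3 : trc (z - z') g' = trc z g := by
    rw [hg', Crest.Agent.R116.GlC210.trc_trc, add_sub_cancel]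
  rw [e3, e2] at key
  rw [one_pow, mul_one] at key
  have hL : wden ρ l k n C (trc z g) p = ∑ m ∈ s', ∫⁻ y,
      ENNReal.ofReal (w (y - p.2 • vel (cen ρ m))) * ‖umc ρ (trc z g) m y‖ₑ ^ 2 := by
    unfold wden
    rw [← Finset.sum_subset (Finset.filter_subset _ _ : s' ⊆ caps ρ)]
    · refine Finset.sum_congr rfl fun m _ => lintegral_congr fun y => ?_
      rw [hw]
      simp only [bn_eq hl hk]
    · intro m hm1 hm2
      have hz0 : ∀ ζ, capc ρ m ζ * trc z g ζ = 0 := by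
        refine hfar ρ hρ z m ?_
        by_contra hc
        exact hm2 (Finset.mem_filter.2 ⟨hm1, not_lt.1 hc⟩)
      have hu : ∀ y, umc ρ (trc z g) m y = 0 := by
        intro y
        unfold umc
        rw [show (fun ζ => capc ρ m ζ * trc z g ζ) = fun _ => (0:ℂ) from funext hz0]
        rw [Real.fourierInv_eq']
        simp
      simp [hu]
  have hR : ∑ m ∈ s, ∫⁻ y, ENNReal.ofReal (w (y - p'.2 • vel (cen ρ' m) - (z - z').1)) *
      ‖umc ρ' g' m y‖ₑ ^ 2 ≤ wden ρ' l k n C g' p' := by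
    unfold wden
    refine le_trans (le_of_eq ?_) (Finset.sum_le_sum_of_subset (Finset.filter_subset _ _ :
      s ⊆ caps ρ'))
    refine Finset.sum_congr rfl fun m _ => lintegral_congr fun y => ?_
    rw [hw]
    simp only [bn_eq hl hk]
    rw [sub_sub (y - p'.2 • vel (cen ρ' m)), e1]
  rw [hL]
  exact key.trans (mul_le_mul_right hR _)

end Crest.Agent.R116.Sup858
end

-- ▼ part R116/Sup2_858
section

/-!
# R116 (S0155), wave side, **A2k** (SUP of the cone), part 2: box densities of selections (helper858)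
-/

set_option autoImplicit false

open MeasureTheory FourierTransform
open scoped ContDiff ENNReal

namespace Crest.Agent.R116.Sup858

open Crest.Agent.R138.Defs (E2 ee)
open Crest.Agent.R138.Wpk685 (cen caps)
open Crest.Agent.R116.CDef480 Crest.Agent.R116.WC188
open Crest.Agent.R116.LZg725 (Cf)
open Crest.Agent.R116.CWp480 Crest.Agent.R116.CWc480
open Crest.Agent.R138.Wf448 (adet)
open Crest.Agent.R116.GlC210 (Gdc measurable_umcsq)

theorem adet_Pl {l k : ℝ} (hl : 0 < l) (hk : 0 < k) (C : E2) :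
    adet (Pl l k hl hk C : E3 →L[ℝ] E3) = l ^ 2 * k := by
  unfold adet
  have h : LinearMap.det ((Pl l k hl hk C : E3 →L[ℝ] E3) : E3 →ₗ[ℝ] E3) = l ^ 2 * k := by
    rw [← LinearMap.det_toMatrix (EuclideanSpace.basisFun (Fin 3) ℝ).toBasis,
      Matrix.det_fin_three]
    simp only [LinearMap.toMatrix_apply, OrthonormalBasis.coe_toBasis,
      OrthonormalBasis.coe_toBasis_repr_apply, EuclideanSpace.basisFun_apply,
      EuclideanSpace.basisFun_repr]
    have e : ∀ X : E3, ((Pl l k hl hk C : E3 →L[ℝ] E3) : E3 →ₗ[ℝ] E3) X =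
      pt (l • lat X) (k * (X 2 + inner ℝ C (lat X))) := fun X => rfl
    simp only [e, pt_zero, pt_one, pt_two, PiLp.smul_apply, lat_zero, lat_one, smul_eq_mul, inner2,
      PiLp.single_apply]
    simp
    left; ring
  rw [h, abs_of_pos (by positivity)]

/-- the unit box. -/
def ub (l k : ℝ) (C : E2) : Set E3 := {Z | bn l k C Z ≤ 1}

theorem meas_ub (l k : ℝ) (C : E2) : MeasurableSet (ub l k C) :=
  (isClosed_le (continuous_bn l k C) continuous_const).measurableSet

/-- box density of a selection. -/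
noncomputable def bden (ρ l k : ℝ) (C : E2) (g : E3 → ℂ) (S : ℤ × ℤ → Set E3) (p : E3 × ℝ) :
    ℝ≥0∞ :=
  ∑ m ∈ caps ρ, ∫⁻ Y in S m, (ub l k C).indicator 1 (Y - p.2 • vel (cen ρ m) - p.1) *
    ‖umc ρ g m Y‖ₑ ^ 2

theorem meas_mv (v : E3) : Measurable fun q : (E3 × ℝ) × E3 => q.2 - q.1.2 • v - q.1.1 :=
  (measurable_snd.sub ((measurable_snd.comp measurable_fst).smul_const v)).sub
    (measurable_fst.comp measurable_fst)

theorem measurable_bden {ρ l k : ℝ} {C : E2} {g : E3 → ℂ} (hg : Integrable g)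
    (S : ℤ × ℤ → Set E3) : Measurable (bden ρ l k C g S) := by
  unfold bden
  refine Finset.measurable_sum _ fun m _ => ?_
  refine Measurable.lintegral_prod_right' (ν := volume.restrict (S m))
    (f := fun q : (E3 × ℝ) × E3 => (ub l k C).indicator (1 : E3 → ℝ≥0∞)
      (q.2 - q.1.2 • vel (cen ρ m) - q.1.1) * ‖umc ρ g m q.2‖ₑ ^ 2) ?_
  exact ((measurable_one.indicator (meas_ub l k C)).comp (meas_mv _)).mul
    ((measurable_umcsq (ρ := ρ) hg m).comp measurable_snd)

/-- total mass of the box density at one time. -/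
theorem lint_bden {ρ l k : ℝ} (hl : 0 < l) (hk : 0 < k) {C : E2} {g : E3 → ℂ} (hg : Integrable g)
    (S : ℤ × ℤ → Set E3) (s : ℝ) :
    ENNReal.ofReal (vs l k C) * ∫⁻ X, bden ρ l k C g S (X, s) =
      ENNReal.ofReal (vb E3) * enc ρ g S := by
  have hvb : ∫⁻ Z : E3, (fun t : ℝ => (Set.Iic (1:ℝ)).indicator (1 : ℝ → ℝ≥0∞) t) ‖Z‖ =
      ENNReal.ofReal (vb E3) := by
    rw [← vb_eq]
    have e : (fun Z : E3 => (Set.Iic (1:ℝ)).indicator (1 : ℝ → ℝ≥0∞) ‖Z‖) =
        (Metric.closedBall (0 : E3) 1).indicator 1 := by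
      funext Z
      by_cases h : ‖Z‖ ≤ 1
      · rw [Set.indicator_of_mem (by exact h), Set.indicator_of_mem (by simpa using h)]; rfl
      · rw [Set.indicator_of_notMem (by exact h), Set.indicator_of_notMem (by simpa using h)]
    simp only [e]
    exact lintegral_indicator_one Metric.isClosed_closedBall.measurableSet
  have hind : ∀ Z, (ub l k C).indicator (1 : E3 → ℝ≥0∞) Z =
      (fun t : ℝ => (Set.Iic (1:ℝ)).indicator (1 : ℝ → ℝ≥0∞) t) (bn l k C Z) := by
    intro Z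
    by_cases h : bn l k C Z ≤ 1
    · rw [Set.indicator_of_mem (by exact h)]
      simp only
      rw [Set.indicator_of_mem (by exact h)]; rfl
    · rw [Set.indicator_of_notMem (by exact h)]
      simp only
      rw [Set.indicator_of_notMem (by exact h)]
  unfold bden
  rw [lintegral_finsetSum', Finset.mul_sum]
  · unfold enc
    rw [Finset.mul_sum]
    refine Finset.sum_congr rfl fun m _ => ?_
    rw [lintegral_lintegral_swap]
    · rw [← lintegral_const_mul' _ _ ENNReal.ofReal_ne_top,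
        ← lintegral_const_mul' _ _ ENNReal.ofReal_ne_top]
      refine lintegral_congr fun Y => ?_
      have h1 : Measurable fun X : E3 => (ub l k C).indicator (1 : E3 → ℝ≥0∞)
          (Y - s • vel (cen ρ m) - X) :=
        (measurable_one.indicator (meas_ub l k C)).comp (measurable_const.sub measurable_id)
      rw [lintegral_mul_const _ h1, ← mul_assoc]
      congr 1
      simp only [hind]
      rw [lint_bn hl hk C, hvb]
    · have h2 : Measurable fun q : E3 × E3 => ((q.1, s), q.2) := by fun_prop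
      have h3 := (((measurable_one.indicator (meas_ub l k C)).comp
        (meas_mv (vel (cen ρ m)))).mul ((measurable_umcsq (ρ := ρ) hg m).comp measurable_snd)).comp h2
      exact h3.aemeasurable
  · intro m _
    have h2 : Measurable fun q : E3 × E3 => ((q.1, s), q.2) := by fun_prop
    have h3 := (((measurable_one.indicator (meas_ub l k C)).comp
      (meas_mv (vel (cen ρ m)))).mul ((measurable_umcsq (ρ := ρ) hg m).comp measurable_snd)).comp h2
    exact (Measurable.lintegral_prod_right' (ν := volume.restrict (S m)) h3).aemeasurable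

/-- points charged by the density. -/
theorem bden_ne {ρ l k : ℝ} {C : E2} {g : E3 → ℂ} {S : ℤ × ℤ → Set E3} {p : E3 × ℝ}
    (hS : ∀ m, MeasurableSet (S m)) (h : bden ρ l k C g S p ≠ 0) :
    ∃ m ∈ caps ρ, ∃ Y ∈ S m, bn l k C (Y - p.2 • vel (cen ρ m) - p.1) ≤ 1 := by
  by_contra hc
  push Not at hc
  apply h
  unfold bden
  refine Finset.sum_eq_zero fun m hm => ?_
  rw [← lintegral_zero (μ := volume.restrict (S m))]
  refine setLIntegral_congr_fun (hS m) fun Y hY => ?_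
  have h1 : Y - p.2 • vel (cen ρ m) - p.1 ∉ ub l k C := fun hh => (not_lt.2 hh) (hc m hm Y hY)
  rw [Set.indicator_of_notMem h1, zero_mul]

/-- one plate: energy to the power `3/2` against the density. -/
theorem enc32_le {ρ l k : ℝ} (hl : 0 < l) (hk : 0 < k) {C : E2} {g : E3 → ℂ} (hg : Integrable g)
    {S : ℤ × ℤ → Set E3} {s : ℝ} {V : Set E3}
    (hV : ∀ X, bden ρ l k C g S (X, s) ≠ 0 → X ∈ V) :
    (ENNReal.ofReal (vb E3) * enc ρ g S) ^ (3/2 : ℝ) ≤ volume V ^ (1/2 : ℝ) *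
      ∫⁻ X, (ENNReal.ofReal (vs l k C) * bden ρ l k C g S (X, s)) ^ (3/2 : ℝ) := by
  rw [← lint_bden hl hk hg S s, ← lintegral_const_mul' _ _ ENNReal.ofReal_ne_top]
  refine hoelder32 volume ?_ ?_
  · exact (((measurable_bden hg S).comp (measurable_id.prodMk measurable_const)).const_mul
      _).aemeasurable
  · intro X hX
    exact hV X (right_ne_zero_of_mul hX)


/-- the densities of disjoint selections add up to the full weighted density. -/
theorem sum_bden_le {ρ l k : ℝ} {C : E2} {g : E3 → ℂ} {ι : Type*} (I : Finset ι)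
    (S : ι → ℤ × ℤ → Set E3) (hS : ∀ i ∈ I, ∀ m, MeasurableSet (S i m))
    (hd : ∀ i ∈ I, ∀ j ∈ I, i ≠ j → ∀ m, Disjoint (S i m) (S j m)) (n : ℕ) (p : E3 × ℝ) :
    ∑ i ∈ I, bden ρ l k C g (S i) p ≤ ENNReal.ofReal (2 ^ n) * wden ρ l k n C g p := by
  unfold bden wden
  rw [Finset.sum_comm, Finset.mul_sum]
  refine Finset.sum_le_sum fun m _ => ?_
  have h1 : ∑ i ∈ I, ∫⁻ Y in S i m, (ub l k C).indicator (1 : E3 → ℝ≥0∞)
      (Y - p.2 • vel (cen ρ m) - p.1) * ‖umc ρ g m Y‖ₑ ^ 2 =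
      ∫⁻ Y in ⋃ i ∈ I, S i m, (ub l k C).indicator (1 : E3 → ℝ≥0∞)
      (Y - p.2 • vel (cen ρ m) - p.1) * ‖umc ρ g m Y‖ₑ ^ 2 := by
    rw [lintegral_biUnion_finset (fun i hi j hj hij => hd i hi j hj hij m)
      (fun i hi => hS i hi m)]
  rw [h1, ← lintegral_const_mul' _ _ ENNReal.ofReal_ne_top]
  refine (setLIntegral_le_lintegral _ _).trans (lintegral_mono fun Y => ?_)
  rw [← mul_assoc, ← ENNReal.ofReal_mul (by positivity)]
  refine mul_le_mul_left ?_ _
  by_cases h : bn l k C (Y - p.2 • vel (cen ρ m) - p.1) ≤ 1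
  · rw [Set.indicator_of_mem (by exact h), Pi.one_apply, ← ENNReal.ofReal_one]
    refine ENNReal.ofReal_le_ofReal ?_
    have h0 := bn_nonneg l k C (Y - p.2 • vel (cen ρ m) - p.1)
    rw [← div_eq_mul_inv, le_div_iff₀ (by positivity), one_mul]
    gcongr
    linarith
  · rw [Set.indicator_of_notMem (by exact h)]
    exact zero_le

end Crest.Agent.R116.Sup858
end

-- ▼ part R116/Sup3_858
section

/-!
# R116 (S0155), wave side, **A2k** (SUP of the cone), part 3: densities against plate averages,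
Jensen, tails (helper858)
-/

set_option autoImplicit false

open MeasureTheory FourierTransform
open scoped ContDiff ENNReal

namespace Crest.Agent.R116.Sup858

open Crest.Agent.R138.Defs (E2 ee)
open Crest.Agent.R138.Wpk685 (cen caps)
open Crest.Agent.R116.CDef480 Crest.Agent.R116.WC188
open Crest.Agent.R116.LZg725 (Cf)
open Crest.Agent.R116.CWp480 Crest.Agent.R116.CWc480
open Crest.Agent.R138.Wf448 (adet)
open Crest.Agent.R116.GlC210 (Gdc measurable_umcsq)

/-! ### measurability of the plate averages -/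

theorem continuous_nrm (C : E2) : Continuous fun p : E3 × ℝ => nrm C p.1 p.2 := by
  unfold nrm
  have h1 : Continuous fun p : E3 × ℝ => p.1 2 :=
    (EuclideanSpace.proj (𝕜 := ℝ) (2 : Fin 3)).continuous.comp continuous_fst
  have h2 : Continuous fun p : E3 × ℝ => lat p.1 := latL.continuous.comp continuous_fst
  exact (h1.add (continuous_const.inner h2)).add ((continuous_snd.mul continuous_const).div_const _)

theorem closed_plt (w t : ℝ) (C : E2) :
    IsClosed {q : (E3 × ℝ) × E3 | q.2 ∈ plt w t C q.1.1 q.1.2} := by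
  unfold plt
  have h1 : Continuous fun q : (E3 × ℝ) × E3 => ‖lat q.2 - (lat q.1.1 + q.1.2 • C)‖ := by
    have a1 : Continuous fun q : (E3 × ℝ) × E3 => lat q.2 := latL.continuous.comp continuous_snd
    have a2 : Continuous fun q : (E3 × ℝ) × E3 => lat q.1.1 :=
      latL.continuous.comp (continuous_fst.comp continuous_fst)
    have a3 : Continuous fun q : (E3 × ℝ) × E3 => q.1.2 • C :=
      (continuous_snd.comp continuous_fst).smul continuous_const
    exact (a1.sub (a2.add a3)).norm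
  have h2 : Continuous fun q : (E3 × ℝ) × E3 => |nrm C q.2 0 - nrm C q.1.1 q.1.2| := by
    have a1 : Continuous fun q : (E3 × ℝ) × E3 => nrm C q.2 0 :=
      (continuous_nrm0 C).comp continuous_snd
    have a2 : Continuous fun q : (E3 × ℝ) × E3 => nrm C q.1.1 q.1.2 :=
      (continuous_nrm C).comp continuous_fst
    exact (a1.sub a2).abs
  exact (isClosed_le h1 continuous_const).inter (isClosed_le h2 continuous_const)

theorem meas_plt (w t : ℝ) (C : E2) (X : E3) (s : ℝ) : MeasurableSet (plt w t C X s) := by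
  have h := (closed_plt w t C).measurableSet
  have h2 : Measurable fun Y : E3 => ((X, s), Y) := by fun_prop
  exact h2 h

theorem measurable_apl {r : ℝ} {g : E3 → ℂ} (hg : Integrable g) : Measurable (apl r g) := by
  unfold apl
  refine Measurable.const_mul (Finset.measurable_sum _ fun m _ => ?_) _
  have e : ∀ p : E3 × ℝ, ∫⁻ Y in plt (r ^ (1/2 : ℝ)) 1 (cen (r ^ (-(1/2) : ℝ)) m) p.1 p.2,
      ‖umc (r ^ (-(1/2) : ℝ)) g m Y‖ₑ ^ 2 =
      ∫⁻ Y, {q : (E3 × ℝ) × E3 | q.2 ∈ plt (r ^ (1/2 : ℝ)) 1 (cen (r ^ (-(1/2) : ℝ)) m)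
        q.1.1 q.1.2}.indicator (fun q => ‖umc (r ^ (-(1/2) : ℝ)) g m q.2‖ₑ ^ 2) (p, Y) := by
    intro p
    rw [← lintegral_indicator (meas_plt _ _ _ _ _)]
    refine lintegral_congr fun Y => ?_
    by_cases h : Y ∈ plt (r ^ (1/2 : ℝ)) 1 (cen (r ^ (-(1/2) : ℝ)) m) p.1 p.2
    · rw [Set.indicator_of_mem h, Set.indicator_of_mem (by exact h)]
    · rw [Set.indicator_of_notMem h, Set.indicator_of_notMem (by exact h)]
  simp only [e]
  refine Measurable.lintegral_prod_right' (ν := volume) ?_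
  exact ((measurable_umcsq hg m).comp measurable_snd).indicator (closed_plt _ _ _).measurableSet

/-! ### box norms, again -/

theorem bn_sub_comm (l k : ℝ) (C : E2) (X Y : E3) : bn l k C (X - Y) = bn l k C (Y - X) := by
  unfold bn nrm
  rw [lat_sub, lat_sub, ← norm_neg]
  congr 1
  ext i
  fin_cases i
  · simp [lat]; ring
  · simp [lat]; ring
  · simp only [Fin.reduceFinMk, PiLp.neg_apply, pt_two, PiLp.sub_apply, inner_sub_right]
    ring

theorem bn_triangle {l k : ℝ} (hl : 0 < l) (hk : 0 < k) (C : E2) (X Y : E3) :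
    bn l k C (X + Y) ≤ bn l k C X + bn l k C Y := by
  rw [bn_eq hl hk, bn_eq hl hk, bn_eq hl hk, map_add]
  exact norm_add_le _ _

/-- a plate at the point `V` contains the unit box of its own size. -/
theorem mem_plt_of_bn {w : ℝ} (hw : 0 < w) {C : E2} {X Y : E3} {s : ℝ}
    (h : bn w⁻¹ 1 C (Y - s • vel C - X) ≤ 1) : Y ∈ plt w 1 C X s := by
  have h1 := bn_lat (l := w⁻¹) (k := 1) (inv_pos.2 hw) C (Y - s • vel C - X)
  have h2 := bn_nrm (l := w⁻¹) (k := 1) one_pos C (Y - s • vel C - X)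
  constructor
  · have h3 : w⁻¹ * ‖lat (Y - s • vel C - X)‖ ≤ 1 := h1.trans h
    rw [inv_mul_le_iff₀ hw, mul_one] at h3
    have e : lat Y - (lat X + s • C) = lat (Y - s • vel C - X) := by
      rw [lat_sub, lat_sub, lat_smul]
      unfold vel
      rw [lat_pt]
      abel
    rw [e]
    exact h3
  · have h3 : 1 * |nrm C (Y - s • vel C - X) 0| ≤ 1 := h2.trans h
    rw [one_mul] at h3
    have e : nrm C Y 0 - nrm C X s = nrm C (Y - s • vel C - X) 0 := by
      unfold nrm vel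
      rw [lat_sub, lat_sub, lat_smul, lat_pt, inner_sub_right, inner_sub_right, inner_smul_right,
        real_inner_self_eq_norm_sq]
      simp only [PiLp.sub_apply, PiLp.smul_apply, smul_eq_mul, pt_two]
      ring
    rw [e]
    exact h3

/-- the profile of the averages. -/
noncomputable def Kb (l k : ℝ) (n : ℕ) (C : E2) (Z : E3) : ℝ≥0∞ :=
  ENNReal.ofReal (vs l k C) * ENNReal.ofReal (((1 + bn l k C Z) ^ n)⁻¹)

theorem measurable_Kb (l k : ℝ) (n : ℕ) (C : E2) : Measurable (Kb l k n C) :=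
  ((((continuous_bn l k C).measurable.const_add 1).pow_const n).inv.ennreal_ofReal).const_mul _

/-- **the weighted density is an average of the plate averages.** -/
theorem wden_le_apl {l k : ℝ} (hl : 0 < l) (hk : 0 < k) (hk1 : k ≤ 1) {C : E2} {L : ℝ} (hL : 0 ≤ L)
    (n : ℕ) {r : ℝ} (hr : 1 ≤ r) (hlr : l ≤ r ^ (-(1/2) : ℝ)) {g : E3 → ℂ} (hg : Integrable g)
    (hnear : ∀ m ∈ caps (r ^ (-(1/2) : ℝ)), k * ‖cen (r ^ (-(1/2) : ℝ)) m - C‖ ≤ L * l ∨
      ∀ ζ, capc (r ^ (-(1/2) : ℝ)) m ζ * g ζ = 0) (X : E3) (s : ℝ) :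
    ENNReal.ofReal (vs l k C) * wden (r ^ (-(1/2) : ℝ)) l k n C g (X, s) ≤
      ENNReal.ofReal ((L + 3) ^ n / vb E3) * ∫⁻ X', Kb l k n C (X' - X) * apl r g (X', s) := by
  have hr0 : 0 < r := by linarith
  have hvb := vb_pos (V := E3)
  set ρ : ℝ := r ^ (-(1/2) : ℝ) with hρdef
  have hρ : 0 < ρ := Real.rpow_pos_of_pos hr0 _
  have hρw : (r ^ (1/2 : ℝ))⁻¹ = ρ := by rw [hρdef, ← Real.rpow_neg hr0.le]
  have hw : 0 < r ^ (1/2 : ℝ) := Real.rpow_pos_of_pos hr0 _
  have hρ2 : ρ ^ 2 = r⁻¹ := by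
    rw [hρdef, ← Real.rpow_natCast, ← Real.rpow_mul hr0.le]
    norm_num
    rw [Real.rpow_neg_one]
  -- lower bound of `apl`
  set P : ℤ × ℤ → E3 → ℝ≥0∞ := fun m X' => ∫⁻ Y, (ub ρ 1 (cen ρ m)).indicator (1 : E3 → ℝ≥0∞)
    (Y - s • vel (cen ρ m) - X') * ‖umc ρ g m Y‖ₑ ^ 2 with hP
  have hPm : ∀ m, Measurable (P m) := by
    intro m
    rw [hP]
    have h2 : Measurable fun q : E3 × E3 => ((q.1, s), q.2) := by fun_prop
    have h3 := (((measurable_one.indicator (meas_ub ρ 1 (cen ρ m))).comp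
      (meas_mv (vel (cen ρ m)))).mul ((measurable_umcsq (ρ := ρ) hg m).comp measurable_snd)).comp h2
    exact Measurable.lintegral_prod_right' (ν := volume) h3
  have hapl : ∀ X', ENNReal.ofReal r⁻¹ * ∑ m ∈ caps ρ, P m X' ≤ apl r g (X', s) := by
    intro X'
    unfold apl
    refine mul_le_mul_right (Finset.sum_le_sum fun m _ => ?_) _
    rw [hP, ← lintegral_indicator (meas_plt _ _ _ _ _)]
    refine lintegral_mono fun Y => ?_
    simp only
    by_cases h : Y - s • vel (cen ρ m) - X' ∈ ub ρ 1 (cen ρ m)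
    · rw [Set.indicator_of_mem h, Pi.one_apply, one_mul, Set.indicator_of_mem]
      refine mem_plt_of_bn hw ?_
      rw [hρw]
      exact h
    · rw [Set.indicator_of_notMem h, zero_mul]
      exact zero_le
  -- one cap
  have hone : ∀ m ∈ caps ρ, ENNReal.ofReal (vs l k C) * ∫⁻ Y, ENNReal.ofReal
      (((1 + bn l k C (Y - s • vel (cen ρ m) - X)) ^ n)⁻¹) * ‖umc ρ g m Y‖ₑ ^ 2 ≤
      ENNReal.ofReal ((L + 3) ^ n / vb E3) * ∫⁻ X', Kb l k n C (X' - X) *
        (ENNReal.ofReal r⁻¹ * P m X') := by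
    intro m hm
    rcases hnear m hm with hnr | hz
    swap
    · have hu : ∀ y, umc ρ g m y = 0 := by
        intro y
        unfold umc
        rw [show (fun ζ => capc ρ m ζ * g ζ) = fun _ => (0:ℂ) from funext hz]
        rw [Real.fourierInv_eq']
        simp
      simp [hu]
    have hdom : ∀ Z, bn l k C Z ≤ (L + 2) * bn ρ 1 (cen ρ m) Z := by
      intro Z
      rw [bn_eq hl hk, bn_eq hρ one_pos]
      exact Pl_dom hl hk hk1 hρ hlr hL hnr Z
    -- the mass of the small box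
    have hmass : ∀ V : E3, ENNReal.ofReal r⁻¹ * ∫⁻ X', (ub ρ 1 (cen ρ m)).indicator
        (1 : E3 → ℝ≥0∞) (V - X') = ENNReal.ofReal (vb E3) := by
      intro V
      have h1 := lint_bn (l := ρ) (k := 1) hρ one_pos (cen ρ m)
        (fun t : ℝ => (Set.Iic (1:ℝ)).indicator (1 : ℝ → ℝ≥0∞) t) V
      have e1 : vs ρ 1 (cen ρ m) = r⁻¹ := by
        unfold vs
        rw [dif_pos ⟨hρ, one_pos⟩, adet_Pl, hρ2, mul_one]
      have e2 : ∀ Z, (ub ρ 1 (cen ρ m)).indicator (1 : E3 → ℝ≥0∞) Z =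
          (Set.Iic (1:ℝ)).indicator (1 : ℝ → ℝ≥0∞) (bn ρ 1 (cen ρ m) Z) := by
        intro Z
        by_cases h : bn ρ 1 (cen ρ m) Z ≤ 1
        · rw [Set.indicator_of_mem (by exact h), Set.indicator_of_mem (by exact h)]; rfl
        · rw [Set.indicator_of_notMem (by exact h), Set.indicator_of_notMem (by exact h)]
      rw [e1] at h1
      simp only [e2, h1]
      rw [← vb_eq]
      have e : (fun Z : E3 => (Set.Iic (1:ℝ)).indicator (1 : ℝ → ℝ≥0∞) ‖Z‖) =
          (Metric.closedBall (0 : E3) 1).indicator 1 := by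
        funext Z
        by_cases h : ‖Z‖ ≤ 1
        · rw [Set.indicator_of_mem (by exact h), Set.indicator_of_mem (by simpa using h)]; rfl
        · rw [Set.indicator_of_notMem (by exact h), Set.indicator_of_notMem (by simpa using h)]
      simp only [e]
      exact lintegral_indicator_one Metric.isClosed_closedBall.measurableSet
    have hpt : ∀ Y : E3, ENNReal.ofReal (vs l k C) * (ENNReal.ofReal
        (((1 + bn l k C (Y - s • vel (cen ρ m) - X)) ^ n)⁻¹) * ‖umc ρ g m Y‖ₑ ^ 2) ≤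
        ENNReal.ofReal ((L + 3) ^ n / vb E3) * ∫⁻ X', Kb l k n C (X' - X) * (ENNReal.ofReal r⁻¹ *
          ((ub ρ 1 (cen ρ m)).indicator (1 : E3 → ℝ≥0∞) (Y - s • vel (cen ρ m) - X') *
            ‖umc ρ g m Y‖ₑ ^ 2)) := by
      intro Y
      set V : E3 := Y - s • vel (cen ρ m) with hV
      have h0 := bn_nonneg l k C (V - X)
      have hw1 : ∀ X', ENNReal.ofReal (vs l k C) * ENNReal.ofReal (((1 + bn l k C (V - X)) ^ n)⁻¹) *
          (ub ρ 1 (cen ρ m)).indicator (1 : E3 → ℝ≥0∞) (V - X') ≤ ENNReal.ofReal ((L + 3) ^ n) *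
          (Kb l k n C (X' - X) * (ub ρ 1 (cen ρ m)).indicator (1 : E3 → ℝ≥0∞) (V - X')) := by
        intro X'
        by_cases h : V - X' ∈ ub ρ 1 (cen ρ m)
        · rw [Set.indicator_of_mem h, Pi.one_apply, mul_one, mul_one]
          unfold Kb
          have e9 : ENNReal.ofReal ((L + 3) ^ n) * (ENNReal.ofReal (vs l k C) *
              ENNReal.ofReal (((1 + bn l k C (X' - X)) ^ n)⁻¹)) = ENNReal.ofReal (vs l k C) *
              ENNReal.ofReal ((L + 3) ^ n * ((1 + bn l k C (X' - X)) ^ n)⁻¹) := by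
            rw [ENNReal.ofReal_mul (by positivity)]
            ring
          rw [e9]
          refine mul_le_mul_right (ENNReal.ofReal_le_ofReal ?_) _
          have h3 : bn l k C (X' - X) ≤ (L + 2) + bn l k C (V - X) := by
            have e : X' - X = (X' - V) + (V - X) := by abel
            rw [e]
            refine (bn_triangle hl hk C _ _).trans (add_le_add ?_ le_rfl)
            rw [bn_sub_comm]
            refine (hdom _).trans ?_
            have : bn ρ 1 (cen ρ m) (V - X') ≤ 1 := h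
            nlinarith
          have h4 := bn_nonneg l k C (X' - X)
          have h5 : 1 + bn l k C (X' - X) ≤ (L + 3) * (1 + bn l k C (V - X)) := by nlinarith
          have h6 : (1 + bn l k C (X' - X)) ^ n ≤ (L + 3) ^ n * (1 + bn l k C (V - X)) ^ n := by
            rw [← mul_pow]
            gcongr
          rw [inv_eq_one_div, ← div_eq_mul_inv, div_le_div_iff₀ (by positivity) (by positivity)]
          linarith
        · rw [Set.indicator_of_notMem h, mul_zero]
          exact zero_le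
      calc _ = ENNReal.ofReal (1 / vb E3) * ((ENNReal.ofReal (vs l k C) * ENNReal.ofReal
            (((1 + bn l k C (V - X)) ^ n)⁻¹)) * ENNReal.ofReal (vb E3)) * ‖umc ρ g m Y‖ₑ ^ 2 := by
            have : ENNReal.ofReal (1 / vb E3) * ENNReal.ofReal (vb E3) = 1 := by
              rw [← ENNReal.ofReal_mul (by positivity), one_div, inv_mul_cancel₀ hvb.ne',
                ENNReal.ofReal_one]
            calc _ = (ENNReal.ofReal (1 / vb E3) * ENNReal.ofReal (vb E3)) *
                  (ENNReal.ofReal (vs l k C) * (ENNReal.ofReal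
                  (((1 + bn l k C (V - X)) ^ n)⁻¹) * ‖umc ρ g m Y‖ₑ ^ 2)) := by rw [this, one_mul]
              _ = _ := by ring
        _ = ENNReal.ofReal (1 / vb E3) * (ENNReal.ofReal r⁻¹ * ∫⁻ X', (ENNReal.ofReal (vs l k C) *
            ENNReal.ofReal (((1 + bn l k C (V - X)) ^ n)⁻¹) *
            (ub ρ 1 (cen ρ m)).indicator (1 : E3 → ℝ≥0∞) (V - X'))) * ‖umc ρ g m Y‖ₑ ^ 2 := by
            congr 2
            rw [lintegral_const_mul' _ _ (by
              refine ENNReal.mul_ne_top ENNReal.ofReal_ne_top ENNReal.ofReal_ne_top), ← hmass V]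
            ring
        _ ≤ ENNReal.ofReal (1 / vb E3) * (ENNReal.ofReal r⁻¹ * ∫⁻ X', ENNReal.ofReal ((L + 3) ^ n) *
          (Kb l k n C (X' - X) * (ub ρ 1 (cen ρ m)).indicator (1 : E3 → ℝ≥0∞) (V - X'))) *
          ‖umc ρ g m Y‖ₑ ^ 2 := by
            refine mul_le_mul_left (mul_le_mul_right (mul_le_mul_right
              (lintegral_mono hw1) _) _) _
        _ = _ := by
            rw [lintegral_const_mul' _ _ ENNReal.ofReal_ne_top]
            have e5 : ∀ X', Kb l k n C (X' - X) * (ENNReal.ofReal r⁻¹ *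
                ((ub ρ 1 (cen ρ m)).indicator (1 : E3 → ℝ≥0∞) (V - X') * ‖umc ρ g m Y‖ₑ ^ 2)) =
                (ENNReal.ofReal r⁻¹ * ‖umc ρ g m Y‖ₑ ^ 2) * (Kb l k n C (X' - X) *
                (ub ρ 1 (cen ρ m)).indicator (1 : E3 → ℝ≥0∞) (V - X')) := fun X' => by ring
            simp only [e5]
            rw [lintegral_const_mul' _ _ (by
              refine ENNReal.mul_ne_top ENNReal.ofReal_ne_top ?_
              exact ENNReal.pow_ne_top enorm_ne_top)]
            have e6 : ENNReal.ofReal ((L + 3) ^ n / vb E3) =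
                ENNReal.ofReal (1 / vb E3) * ENNReal.ofReal ((L + 3) ^ n) := by
              rw [← ENNReal.ofReal_mul (by positivity)]
              congr 1
              ring
            rw [e6]
            ring
    calc _ = ∫⁻ Y, ENNReal.ofReal (vs l k C) * (ENNReal.ofReal
        (((1 + bn l k C (Y - s • vel (cen ρ m) - X)) ^ n)⁻¹) * ‖umc ρ g m Y‖ₑ ^ 2) := by
          rw [lintegral_const_mul' _ _ ENNReal.ofReal_ne_top]
      _ ≤ ∫⁻ Y, ENNReal.ofReal ((L + 3) ^ n / vb E3) * ∫⁻ X', Kb l k n C (X' - X) *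
          (ENNReal.ofReal r⁻¹ * ((ub ρ 1 (cen ρ m)).indicator (1 : E3 → ℝ≥0∞)
            (Y - s • vel (cen ρ m) - X') * ‖umc ρ g m Y‖ₑ ^ 2)) := lintegral_mono hpt
      _ = ENNReal.ofReal ((L + 3) ^ n / vb E3) * ∫⁻ X', ∫⁻ Y, Kb l k n C (X' - X) *
          (ENNReal.ofReal r⁻¹ * ((ub ρ 1 (cen ρ m)).indicator (1 : E3 → ℝ≥0∞)
            (Y - s • vel (cen ρ m) - X') * ‖umc ρ g m Y‖ₑ ^ 2)) := by
          rw [lintegral_const_mul' _ _ ENNReal.ofReal_ne_top]
          congr 1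
          rw [lintegral_lintegral_swap]
          have h2 : Measurable fun q : E3 × E3 => ((q.2, s), q.1) := by fun_prop
          have h3 := (((measurable_one.indicator (meas_ub ρ 1 (cen ρ m))).comp
            (meas_mv (vel (cen ρ m)))).mul
            ((measurable_umcsq (ρ := ρ) hg m).comp measurable_snd)).comp h2
          have h4 : Measurable fun q : E3 × E3 => Kb l k n C (q.2 - X) :=
            (measurable_Kb l k n C).comp (measurable_snd.sub_const X)
          exact (h4.mul (h3.const_mul _)).aemeasurable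
      _ = _ := by
          congr 1
          refine lintegral_congr fun X' => ?_
          have h3 : Measurable fun Y : E3 => (ub ρ 1 (cen ρ m)).indicator (1 : E3 → ℝ≥0∞)
              (Y - s • vel (cen ρ m) - X') * ‖umc ρ g m Y‖ₑ ^ 2 :=
            (((measurable_one.indicator (meas_ub ρ 1 (cen ρ m))).comp
              ((measurable_id.sub_const _).sub_const _))).mul (measurable_umcsq (ρ := ρ) hg m)
          rw [lintegral_const_mul _ (h3.const_mul _), lintegral_const_mul _ h3]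
  unfold wden
  rw [Finset.mul_sum]
  calc _ ≤ ∑ m ∈ caps ρ, ENNReal.ofReal ((L + 3) ^ n / vb E3) * ∫⁻ X', Kb l k n C (X' - X) *
        (ENNReal.ofReal r⁻¹ * P m X') := Finset.sum_le_sum hone
    _ = ENNReal.ofReal ((L + 3) ^ n / vb E3) * ∫⁻ X', ∑ m ∈ caps ρ, Kb l k n C (X' - X) *
        (ENNReal.ofReal r⁻¹ * P m X') := by
        rw [← Finset.mul_sum, lintegral_finsetSum']
        intro m _
        exact (((measurable_Kb l k n C).comp (measurable_id.sub_const X)).mul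
          ((hPm m).const_mul _)).aemeasurable
    _ ≤ _ := by
        refine mul_le_mul_right (lintegral_mono fun X' => ?_) _
        simp only
        rw [← Finset.mul_sum, ← Finset.mul_sum]
        exact mul_le_mul_right (hapl X') _

end Crest.Agent.R116.Sup858
end

-- ▼ part R116/Sup4_858

/-!
# R116 (S0155), wave side, **A2k** (SUP of the cone), part 4: Jensen, near and far part (helper858)
-/

set_option autoImplicit false

open MeasureTheory FourierTransform
open scoped ContDiff ENNReal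

namespace Crest.Agent.R116.Sup858

open Crest.Agent.R138.Defs (E2 ee)
open Crest.Agent.R138.Wpk685 (cen caps)
open Crest.Agent.R116.CDef480 Crest.Agent.R116.WC188
open Crest.Agent.R116.LZg725 (Cf)
open Crest.Agent.R116.CWp480 Crest.Agent.R116.CWc480
open Crest.Agent.R138.Wf448 (adet)
open Crest.Agent.R116.GlC210 (Gdc measurable_umcsq)

theorem prof_le {n : ℕ} (hn : dd E3 ≤ n) : ∫⁻ Z : E3, ENNReal.ofReal (((1 + ‖Z‖) ^ n)⁻¹) ≤
    ENNReal.ofReal (cd3 E3) := by
  rw [← lintegral_dec3]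
  refine lintegral_mono fun Z => ?_
  unfold dec3
  refine ENNReal.ofReal_le_ofReal ?_
  have := norm_nonneg Z
  gcongr
  linarith

theorem lint_Kb {l k : ℝ} (hl : 0 < l) (hk : 0 < k) {n : ℕ} (hn : dd E3 ≤ n) (C : E2) (X : E3) :
    ∫⁻ X', Kb l k n C (X' - X) ≤ ENNReal.ofReal (cd3 E3) := by
  unfold Kb
  rw [lintegral_const_mul' _ _ ENNReal.ofReal_ne_top,
    lint_bn' hl hk C (fun t => ENNReal.ofReal (((1 + t) ^ n)⁻¹)) X]
  exact prof_le hn

theorem lint_Kb' {l k : ℝ} (hl : 0 < l) (hk : 0 < k) {n : ℕ} (hn : dd E3 ≤ n) (C : E2) (X' : E3) :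
    ∫⁻ X, Kb l k n C (X' - X) ≤ ENNReal.ofReal (cd3 E3) := by
  unfold Kb
  rw [lintegral_const_mul' _ _ ENNReal.ofReal_ne_top,
    lint_bn hl hk C (fun t => ENNReal.ofReal (((1 + t) ^ n)⁻¹)) X']
  exact prof_le hn

/-- **Jensen.** -/
theorem wden32_le {l k : ℝ} (hl : 0 < l) (hk : 0 < k) (hk1 : k ≤ 1) {C : E2} {L : ℝ} (hL : 0 ≤ L)
    {n : ℕ} (hn : dd E3 ≤ n) {r : ℝ} (hr : 1 ≤ r) (hlr : l ≤ r ^ (-(1/2) : ℝ)) {g : E3 → ℂ}
    (hg : Integrable g)
    (hnear : ∀ m ∈ caps (r ^ (-(1/2) : ℝ)), k * ‖cen (r ^ (-(1/2) : ℝ)) m - C‖ ≤ L * l ∨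
      ∀ ζ, capc (r ^ (-(1/2) : ℝ)) m ζ * g ζ = 0) (X : E3) (s : ℝ) :
    (ENNReal.ofReal (vs l k C) * wden (r ^ (-(1/2) : ℝ)) l k n C g (X, s)) ^ (3/2 : ℝ) ≤
      ENNReal.ofReal (((L + 3) ^ n / vb E3) ^ (3/2 : ℝ) * cd3 E3 ^ (1/2 : ℝ)) *
        ∫⁻ X', Kb l k n C (X' - X) * apl r g (X', s) ^ (3/2 : ℝ) := by
  have h1 := wden_le_apl hl hk hk1 hL n hr hlr hg hnear X s
  have hm : Measurable fun X' => apl r g (X', s) :=
    (measurable_apl hg).comp (measurable_id.prodMk measurable_const)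
  have hK : Measurable fun X' => Kb l k n C (X' - X) :=
    (measurable_Kb l k n C).comp (measurable_id.sub_const X)
  have hc := cd3_nonneg (V := E3)
  have hv := vb_pos (V := E3)
  have h2 := jensen32 volume hK.aemeasurable hm.aemeasurable
  calc _ ≤ (ENNReal.ofReal ((L + 3) ^ n / vb E3) * ∫⁻ X', Kb l k n C (X' - X) *
        apl r g (X', s)) ^ (3/2 : ℝ) := ENNReal.rpow_le_rpow h1 (by norm_num)
    _ = ENNReal.ofReal (((L + 3) ^ n / vb E3) ^ (3/2 : ℝ)) * (∫⁻ X', Kb l k n C (X' - X) *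
        apl r g (X', s)) ^ (3/2 : ℝ) := by
        rw [ENNReal.mul_rpow_of_nonneg _ _ (by norm_num),
          ENNReal.ofReal_rpow_of_nonneg (by positivity) (by norm_num)]
    _ ≤ ENNReal.ofReal (((L + 3) ^ n / vb E3) ^ (3/2 : ℝ)) * (ENNReal.ofReal (cd3 E3 ^ (1/2 : ℝ)) *
        ∫⁻ X', Kb l k n C (X' - X) * apl r g (X', s) ^ (3/2 : ℝ)) := by
        refine mul_le_mul_right (h2.trans (mul_le_mul_left ?_ _)) _
        rw [← ENNReal.ofReal_rpow_of_nonneg hc (by norm_num)]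
        exact ENNReal.rpow_le_rpow (lint_Kb hl hk hn C X) (by norm_num)
    _ = _ := by
        rw [← mul_assoc, ← ENNReal.ofReal_mul (by positivity)]

theorem lint_cylc {L : ℝ} {G : E3 × ℝ → ℝ≥0∞} (hG : Measurable G) :
    ∫⁻ p in cylc L, G p = ∫⁻ s in Set.Icc (-L) L, ∫⁻ X in Metric.closedBall (0:E3) L, G (X, s) := by
  rw [Crest.Agent.R116.Ba449.cylc_eq, Measure.volume_eq_prod, ← Measure.prod_restrict,
    lintegral_prod_symm' _ hG]

theorem cylc_mono {L L' : ℝ} (h : L ≤ L') : cylc L ⊆ cylc L' :=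
  fun _ hp => ⟨hp.1.trans h, hp.2.trans h⟩

theorem norm_le_bn {l k : ℝ} (hl : 0 < l) (hlk : l ≤ k) (C : E2) (Z : E3) :
    l * ‖Z‖ ≤ (3 + ‖C‖) * bn l k C Z := by
  have hk : 0 < k := hl.trans_le hlk
  have h1 := bn_lat (k := k) hl C Z
  have h2 := bn_nrm (l := l) hk C Z
  have h3 : Z = pt (lat Z) (nrm C Z 0 - inner ℝ C (lat Z)) := by
    have : nrm C Z 0 - inner ℝ C (lat Z) = Z 2 := by
      unfold nrm
      ring
    rw [this, pt_lat]
  have h4 : ‖Z‖ ≤ ‖lat Z‖ + |nrm C Z 0 - inner ℝ C (lat Z)| := by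
    conv_lhs => rw [h3]
    exact norm_pt_le _ _
  have h5 : |nrm C Z 0 - inner ℝ C (lat Z)| ≤ |nrm C Z 0| + ‖C‖ * ‖lat Z‖ :=
    (abs_sub _ _).trans (add_le_add le_rfl (abs_real_inner_le_norm _ _))
  have h6 : l * |nrm C Z 0| ≤ k * |nrm C Z 0| := by
    have := abs_nonneg (nrm C Z 0)
    gcongr
  have h7 := norm_nonneg C
  have h8 := norm_nonneg (lat Z)
  have h9 := bn_nonneg l k C Z
  calc l * ‖Z‖ ≤ l * (‖lat Z‖ + (|nrm C Z 0| + ‖C‖ * ‖lat Z‖)) := by
        gcongr
        linarith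
    _ = l * ‖lat Z‖ + l * |nrm C Z 0| + ‖C‖ * (l * ‖lat Z‖) := by ring
    _ ≤ bn l k C Z + bn l k C Z + ‖C‖ * bn l k C Z := by
        gcongr
        linarith
    _ ≤ _ := by nlinarith

/-- far part of the profile. -/
theorem Kb_far {l k : ℝ} (hl : 0 < l) (hlk : l ≤ k) (C : E2) (N : ℕ) {Λ : ℝ} (hΛ : 0 < Λ) {Z : E3}
    (hZ : Λ ≤ ‖Z‖) : Kb l k (dd E3 + N) C Z ≤
      ENNReal.ofReal (((l * Λ / (3 + ‖C‖)) ^ N)⁻¹) * Kb l k (dd E3) C Z := by
  have hk : 0 < k := hl.trans_le hlk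
  unfold Kb
  rw [← mul_assoc, mul_comm (ENNReal.ofReal (((l * Λ / (3 + ‖C‖)) ^ N)⁻¹)), mul_assoc,
    ← ENNReal.ofReal_mul (p := ((l * Λ / (3 + ‖C‖)) ^ N)⁻¹) (by positivity)]
  refine mul_le_mul_right (ENNReal.ofReal_le_ofReal ?_) _
  have h0 := bn_nonneg l k C Z
  have hC := norm_nonneg C
  have h1 : l * Λ / (3 + ‖C‖) ≤ 1 + bn l k C Z := by
    rw [div_le_iff₀ (by positivity)]
    have h2 := norm_le_bn hl hlk C Z
    have h3 : l * Λ ≤ l * ‖Z‖ := by gcongr
    nlinarith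
  rw [pow_add, mul_inv, mul_comm]
  gcongr

/-- near and far part. -/
theorem near_far {l k : ℝ} (hl : 0 < l) (hlk : l ≤ k) (C : E2) (N : ℕ) {Λ : ℝ} (hΛ : 0 < Λ)
    {F : E3 × ℝ → ℝ≥0∞} (hF : Measurable F) {E : ℝ≥0∞} (hE : ∀ p, F p ≤ E) :
    ∫⁻ p in cylc Λ, ∫⁻ X', Kb l k (dd E3 + N) C (X' - p.1) * F (X', p.2) ≤
      ENNReal.ofReal (cd3 E3) * (∫⁻ p in cylc (2 * Λ), F p) +
      ENNReal.ofReal (((l * Λ / (3 + ‖C‖)) ^ N)⁻¹) * ENNReal.ofReal (cd3 E3) * volume (cylc Λ) * E := by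
  have hk : 0 < k := hl.trans_le hlk
  set B : Set E3 := Metric.closedBall (0:E3) (2 * Λ) with hB
  have hBm : MeasurableSet B := Metric.isClosed_closedBall.measurableSet
  have hsplit : ∀ p : E3 × ℝ, ∫⁻ X', Kb l k (dd E3 + N) C (X' - p.1) * F (X', p.2) =
      (∫⁻ X' in B, Kb l k (dd E3 + N) C (X' - p.1) * F (X', p.2)) +
      ∫⁻ X' in Bᶜ, Kb l k (dd E3 + N) C (X' - p.1) * F (X', p.2) := fun p => by
    rw [lintegral_add_compl _ hBm]
  have hfar : ∀ p ∈ cylc Λ, ∫⁻ X' in Bᶜ, Kb l k (dd E3 + N) C (X' - p.1) * F (X', p.2) ≤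
      ENNReal.ofReal (((l * Λ / (3 + ‖C‖)) ^ N)⁻¹) * ENNReal.ofReal (cd3 E3) * E := by
    intro p hp
    calc _ ≤ ∫⁻ X' in Bᶜ, ENNReal.ofReal (((l * Λ / (3 + ‖C‖)) ^ N)⁻¹) *
          Kb l k (dd E3) C (X' - p.1) * E := by
          refine setLIntegral_mono' hBm.compl fun X' hX' => ?_
          refine mul_le_mul' (Kb_far hl hlk C N hΛ ?_) (hE _)
          rw [hB, Set.mem_compl_iff, mem_closedBall_zero_iff, not_le] at hX'
          have h1 : ‖X'‖ ≤ ‖X' - p.1‖ + ‖p.1‖ := by simpa using norm_add_le (X' - p.1) p.1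
          linarith [hp.1]
      _ ≤ ∫⁻ X', ENNReal.ofReal (((l * Λ / (3 + ‖C‖)) ^ N)⁻¹) *
          Kb l k (dd E3) C (X' - p.1) * E := setLIntegral_le_lintegral _ _
      _ = ENNReal.ofReal (((l * Λ / (3 + ‖C‖)) ^ N)⁻¹) *
          (∫⁻ X', Kb l k (dd E3) C (X' - p.1)) * E := by
          have hm : Measurable fun X' : E3 => Kb l k (dd E3) C (X' - p.1) :=
            (measurable_Kb l k _ C).comp (measurable_id.sub_const _)
          rw [lintegral_mul_const _ (hm.const_mul _), lintegral_const_mul _ hm]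
      _ ≤ _ := by
          gcongr
          exact lint_Kb hl hk le_rfl C _
  have hGm : Measurable fun q : (E3 × ℝ) × E3 => Kb l k (dd E3 + N) C (q.2 - q.1.1) *
      F (q.2, q.1.2) := by
    refine ((measurable_Kb l k _ C).comp (measurable_snd.sub
      (measurable_fst.comp measurable_fst))).mul (hF.comp ?_)
    exact measurable_snd.prodMk (measurable_snd.comp measurable_fst)
  have hm1 : Measurable fun p : E3 × ℝ => ∫⁻ X' in B, Kb l k (dd E3 + N) C (X' - p.1) *
      F (X', p.2) := Measurable.lintegral_prod_right' (ν := volume.restrict B) hGm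
  have hnear : ∫⁻ p in cylc Λ, ∫⁻ X' in B, Kb l k (dd E3 + N) C (X' - p.1) * F (X', p.2) ≤
      ENNReal.ofReal (cd3 E3) * ∫⁻ p in cylc (2 * Λ), F p := by
    rw [lint_cylc hm1, lint_cylc hF, ← lintegral_const_mul' _ _ ENNReal.ofReal_ne_top]
    calc _ ≤ ∫⁻ s in Set.Icc (-Λ) Λ, ENNReal.ofReal (cd3 E3) * ∫⁻ X' in B, F (X', s) := by
          refine lintegral_mono fun s => ?_
          simp only
          calc _ ≤ ∫⁻ X, ∫⁻ X' in B, Kb l k (dd E3 + N) C (X' - X) * F (X', s) :=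
                setLIntegral_le_lintegral _ _
            _ = ∫⁻ X' in B, ∫⁻ X, Kb l k (dd E3 + N) C (X' - X) * F (X', s) := by
                rw [lintegral_lintegral_swap]
                refine Measurable.aemeasurable ?_
                refine ((measurable_Kb l k _ C).comp (measurable_snd.sub measurable_fst)).mul
                  (hF.comp ?_)
                exact measurable_snd.prodMk measurable_const
            _ ≤ ∫⁻ X' in B, ENNReal.ofReal (cd3 E3) * F (X', s) := by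
                refine lintegral_mono fun X' => ?_
                have hm : Measurable fun X : E3 => Kb l k (dd E3 + N) C (X' - X) :=
                  (measurable_Kb l k _ C).comp (measurable_const.sub measurable_id)
                simp only
                rw [lintegral_mul_const _ hm]
                exact mul_le_mul_left (lint_Kb' hl hk (by omega) C X') _
            _ = _ := by rw [lintegral_const_mul' _ _ ENNReal.ofReal_ne_top]
      _ ≤ _ := by
          refine lintegral_mono_set ?_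
          intro s hs
          exact ⟨by linarith [hs.1], by linarith [hs.2]⟩
  calc _ = ∫⁻ p in cylc Λ, ((∫⁻ X' in B, Kb l k (dd E3 + N) C (X' - p.1) * F (X', p.2)) +
      ∫⁻ X' in Bᶜ, Kb l k (dd E3 + N) C (X' - p.1) * F (X', p.2)) := by simp only [hsplit]
    _ = (∫⁻ p in cylc Λ, (∫⁻ X' in B, Kb l k (dd E3 + N) C (X' - p.1) * F (X', p.2))) +
      ∫⁻ p in cylc Λ, ∫⁻ X' in Bᶜ, Kb l k (dd E3 + N) C (X' - p.1) * F (X', p.2) :=
        lintegral_add_left hm1 _
    _ ≤ ENNReal.ofReal (cd3 E3) * (∫⁻ p in cylc (2 * Λ), F p) + ∫⁻ _ in cylc Λ,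
        ENNReal.ofReal (((l * Λ / (3 + ‖C‖)) ^ N)⁻¹) * ENNReal.ofReal (cd3 E3) * E :=
        add_le_add hnear (setLIntegral_mono' (Crest.Agent.R116.Ba449.meas_cylc Λ) hfar)
    _ = _ := by
        rw [setLIntegral_const]
        ring

end Crest.Agent.R116.Sup858
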