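import Crest.Agent.R116.Br1_430
import Crest.Agent.R116.Br6_430
import Crest.Agent.R116.Ckm1_538
import Crest.Agent.R116.GlC_210
import Crest.Agent.R116.Ba2_449
import Crest.Agent.R116.Bas1_367
import Crest.Agent.R116.TuL_890
import Crest.Agent.R116.Lk1_367
import Crest.Agent.R116.A1k2_229
import Crest.Agent.R116.Bas2_367

-- ▼ part R116/Br2_430
section

/-!
# R116 (S0155), bridge K side -> wave side, part 2: weighted fine graining (helper430)

Weighted planks `(C i, a i, c i; w, ρ)`, weights `W i`, become weighted rays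
`(i, k)`, `k ∈ bx h h3 w ρ`, of weight `uu h h3 w (W i) = 4 (h/w)² (h3/h) W i`.
-/

set_option autoImplicit false

open MeasureTheory

namespace Crest.Agent.R116.Br430

open Crest.Agent.R116.LZg725 (nrm rx ry nrm_ray nrm_ray')
open Crest.Agent.R138.Tub70 (Lat nr norm_sub_nr)

section fine

variable {ι : Type*} {F : Finset ι} {h h3 w ρ : ℝ} {C a : ι → E2} {c : ι → ℝ} {W : ι → ℝ}

/-- weight of the rays of a plank of weight `W`. -/
noncomputable def uu (h h3 w W : ℝ) : ℝ := 4 * (h / w) ^ 2 * (h3 / h) * W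

theorem uu_nonneg {W : ℝ} (hh : 0 < h) (hh3 : 0 < h3) (hW : 0 ≤ W) : 0 ≤ uu h h3 w W := by
  unfold uu; positivity

open Classical in
/-- pointwise domination for one plank. -/
theorem pk_le_one {V r : ℝ} (hh : 0 < h) (hh3 : 0 < h3) (hh3' : h3 ≤ h) (hr : h ≤ r)
    (hhw : 2 * h ≤ w) (hw1 : w ≤ 1) (hρ : h * (2 + V) ≤ ρ) (hw2 : w ^ 2 ≤ ρ) {C a : E2} {c W : ℝ}
    (hC : ‖C‖ ≤ V) (hW : 0 ≤ W) {x : E2} {y s : ℝ} (hs : |s| ≤ 1) :
    (if InPk w ρ C a c x y s then W else 0) ≤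
      ∑ k ∈ bx h h3 w ρ, (if InTb r (bC h C k) (ba h a k) (bc h h3 C c k) x y s then
        uu h h3 w W else 0) := by
  have hw : 0 < w := by linarith
  rw [← Finset.sum_filter, Finset.sum_const, nsmul_eq_mul]
  split_ifs with hi
  · have h1 := card_thr hh hh3 hh3' hr hhw hw1 hρ hw2 hC hs hi
    have e : W = (w / h) ^ 2 / 4 * (h / h3) * uu h h3 w W := by
      unfold uu
      field_simp
    calc W = (w / h) ^ 2 / 4 * (h / h3) * uu h h3 w W := e
      _ ≤ _ := by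
        have := uu_nonneg (w := w) hh hh3 hW
        gcongr
  · have := uu_nonneg (w := w) hh hh3 hW
    positivity

open Classical in
/-- (i) pointwise domination. -/
theorem pk_le {V r : ℝ} (hh : 0 < h) (hh3 : 0 < h3) (hh3' : h3 ≤ h) (hr : h ≤ r)
    (hhw : 2 * h ≤ w) (hw1 : w ≤ 1) (hρ : h * (2 + V) ≤ ρ) (hw2 : w ^ 2 ≤ ρ)
    (hC : ∀ i ∈ F, ‖C i‖ ≤ V) (hW : ∀ i ∈ F, 0 ≤ W i) {x : E2} {y s : ℝ} (hs : |s| ≤ 1) :
    ∑ i ∈ F, (if InPk w ρ (C i) (a i) (c i) x y s then W i else 0) ≤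
      ∑ i ∈ F, ∑ k ∈ bx h h3 w ρ,
        (if InTb r (bC h (C i) k) (ba h (a i) k) (bc h h3 (C i) (c i) k) x y s then
          uu h h3 w (W i) else 0) :=
  Finset.sum_le_sum fun i hi =>
    pk_le_one hh hh3 hh3' hr hhw hw1 hρ hw2 (hC i hi) (hW i hi) hs

/-- (ii) energy. -/
theorem energy_le (hh : 0 < h) (hh3 : 0 < h3) (hw : 2 * h ≤ w) (hρ : h3 ≤ ρ)
    (hW : ∀ i ∈ F, 0 ≤ W i) :
    ∑ i ∈ F, ∑ _k ∈ bx h h3 w ρ, uu h h3 w (W i) ≤
      8020 * ((w / h) ^ 2 * (ρ / h)) * ∑ i ∈ F, W i := by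
  have hw0 : 0 < w := by linarith
  rw [Finset.mul_sum]
  refine Finset.sum_le_sum fun i hi => ?_
  rw [Finset.sum_const, nsmul_eq_mul]
  have hwi := hW i hi
  have h1 := card_bx_le hh hh3 hw hρ
  calc ((bx h h3 w ρ).card : ℝ) * uu h h3 w (W i)
      ≤ (2005 * ((w / h) ^ 4 * (ρ / h3))) * uu h h3 w (W i) := by
        have := uu_nonneg (w := w) hh hh3 hwi
        gcongr
    _ = 8020 * ((w / h) ^ 2 * (ρ / h)) * W i := by
        unfold uu
        field_simp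
        ring


end fine

end Crest.Agent.R116.Br430
end

-- ▼ part R116/Br7_430
section

/-!
# R116 (S0155), bridge K side -> wave side, part 7: planks of length one (helper430)

`lkm_norm`: the plank inequality at length one from `LKMtube (SSr M)`.
-/

set_option autoImplicit false

open MeasureTheory
open scoped ENNReal

namespace Crest.Agent.R116.Br430

open Crest.Agent.R116.LZg725
open Crest.Agent.R116.CDef480 (E3 lat pt)
open Crest.Agent.R116.LKMDef299 (Cpt LRay tube SSr LKMtube)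
open Crest.Agent.R138.Tub70 (Lat nr norm_sub_nr)

/-! ### abstract net summation -/

theorem net_sum {ι J : Type*} {F : Finset ι} {N : Finset J} {W n : ι → ℝ} {χ : J → ι → ℝ}
    {v P q Δ : ℝ} (hv : 0 < v) (hP : 0 ≤ P) (hq : 0 ≤ q) (hW : ∀ i ∈ F, 0 ≤ W i)
    (h1 : ∀ i ∈ F, n i * v ≤ P * ∑ j ∈ N, χ j i)
    (h2 : ∀ j ∈ N, ∑ i ∈ F, χ j i * (W i * q) ≤ Δ * v) :
    (∑ i ∈ F, n i * W i) * q ≤ P * (N.card * Δ) := by
  have h3 : ((∑ i ∈ F, n i * W i) * q) * v ≤ (P * (N.card * Δ)) * v := by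
    calc ((∑ i ∈ F, n i * W i) * q) * v = ∑ i ∈ F, (n i * v) * (W i * q) := by
          rw [Finset.sum_mul, Finset.sum_mul]
          exact Finset.sum_congr rfl fun i _ => by ring
      _ ≤ ∑ i ∈ F, (P * ∑ j ∈ N, χ j i) * (W i * q) :=
          Finset.sum_le_sum fun i hi =>
            mul_le_mul_of_nonneg_right (h1 i hi) (mul_nonneg (hW i hi) hq)
      _ = P * ∑ j ∈ N, ∑ i ∈ F, χ j i * (W i * q) := by
          rw [Finset.sum_comm, Finset.mul_sum]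
          refine Finset.sum_congr rfl fun i _ => ?_
          rw [mul_assoc, Finset.sum_mul]
      _ ≤ P * ∑ _j ∈ N, Δ * v :=
          mul_le_mul_of_nonneg_left (Finset.sum_le_sum h2) hP
      _ = (P * (N.card * Δ)) * v := by
          rw [Finset.sum_const, nsmul_eq_mul]; ring
  exact le_of_mul_le_mul_right h3 hv

theorem alg1 {h h3 w ρ K n Δ c : ℝ} (hh : 0 < h) (hh3 : 0 < h3) (hw : 0 < w) (hρ : 0 < ρ) :
    4 * (h / w) ^ 2 * (h3 / h) * ρ ^ 3 *
      (K * ((w / h) ^ 4 * (ρ / h3)) * c * (n * Δ) / (w ^ 2 * ρ)) =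
      4 * (ρ / h) ^ 3 * K * n * Δ * c := by
  field_simp

/-! ### the mass condition -/

/-- the fine ray. -/
noncomputable def fr' (h h3 : ℝ) (C a : E2) (k0 : ℝ) (k : RI) : LRay :=
  (bC h C k, ba h a k, bc h h3 C k0 k)

theorem mem_eq_mk1 {m : Mem} (hR : m.R = 1) (hs0 : m.s0 = 0) :
    m = mk1 m.c m.sg m.s1 (lat m.X0) (m.X0 2) m.phi := by
  obtain ⟨c, sg, s1, R, X0, s0, phi⟩ := m
  simp only at hR hs0
  subst hR hs0
  unfold mk1
  simp only [CDef480.pt_lat]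

open Classical in
/-- **mass condition of the fine rays**. -/
theorem mass_fine {ι : Type*} {F : Finset ι} {M V w ρ Δ : ℝ} (hM : 1 ≤ M) (hV : 0 ≤ V)
    (hw : 0 < w) (hw1 : w ≤ 1) (hwρ : w ^ 2 ≤ ρ) (hρw : ρ ≤ w) {C a : ι → E2} {k W : ι → ℝ}
    (hW : ∀ i ∈ F, 0 ≤ W i) (hΔ : 0 ≤ Δ)
    (H : ∀ m : Mem, m.Ok (5 + 5 * M) ρ → Cpt (5 + 5 * M) ρ m → m.R = 1 → m.s0 = 0 → w ≤ m.s1 →
      m.sg ≤ 1 → ∑ i ∈ F, (if (C i, a i, k i) ∈ m.rays ρ then W i * (w ^ 2 * ρ) else 0) ≤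
        Δ * m.scost ρ)
    {m : Mem} (hok : m.Ok M ρ) (hR : m.R = 1) (hs0 : m.s0 = 0) (hs1 : ρ ≤ m.s1)
    (hsg : m.sg ≤ 1) :
    ∑ i ∈ F, ∑ l ∈ bx (mh V ρ) (mh3 M V w ρ) w ρ,
      (if fr' (mh V ρ) (mh3 M V w ρ) (C i) (a i) (k i) l ∈ m.rays ρ then
        uu (mh V ρ) (mh3 M V w ρ) w (W i) * ρ ^ 3 else 0) ≤
      4 * (2 + V) ^ 3 * KB M * netJ.card * Δ * m.scost ρ := by
  have hm := mem_eq_mk1 hR hs0
  obtain ⟨hh, hh3, hh3h, h2w, he, hhρ, hh3ρ⟩ := mesh hM hV hw hw1 hwρ hρw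
  set h := mh V ρ with hhd
  set h3 := mh3 M V w ρ with hh3d
  have hρ : 0 < ρ := lt_of_lt_of_le (pow_pos hw 2) hwρ
  set c := m.c
  set sg := m.sg
  set s1 := m.s1
  set x0 := lat m.X0
  set y0 := m.X0 2
  set p := m.phi
  have hadm : Adm M c sg (max (sg ^ 2) ρ) 1 x0 y0 0 p := by
    have := hok.adm
    rw [hm, mk1_T] at this
    unfold mk1 at this
    simpa only [CDef480.lat_pt, CDef480.pt_two] using this
  have hcost : m.scost ρ = s1 * sg * max (sg ^ 2) ρ := by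
    rw [hm, mk1_scost]
  obtain ⟨mj, v, hv, hmj, hcov⟩ := cover (V := V) hM hV hw hw1 hwρ hρw hs1 hok.hsg hsg hadm
  rw [← hhd, ← hh3d] at hcov
  set D := (w / h) ^ 4 * (ρ / h3) with hD
  have hD0 : 0 ≤ D := by positivity
  have hcost0 : 0 ≤ m.scost ρ := hok.scost_pos.le
  have hKB := KB_nonneg M
  -- the left side
  have e1 : ∑ i ∈ F, ∑ l ∈ bx h h3 w ρ, (if fr' h h3 (C i) (a i) (k i) l ∈ m.rays ρ then
      uu h h3 w (W i) * ρ ^ 3 else 0) =
      (4 * (h / w) ^ 2 * (h3 / h)) * ρ ^ 3 * ∑ i ∈ F,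
        ((filt (InM c sg (max (sg ^ 2) ρ) x0 y0 p s1 h h3 (C i) (a i) (k i))
          (bx h h3 w ρ)).card : ℝ) * W i := by
    rw [Finset.mul_sum]
    refine Finset.sum_congr rfl fun i _ => ?_
    rw [← Finset.sum_filter, Finset.sum_const, nsmul_eq_mul]
    have e2 : (bx h h3 w ρ).filter (fun l => fr' h h3 (C i) (a i) (k i) l ∈ m.rays ρ) =
        filt (InM c sg (max (sg ^ 2) ρ) x0 y0 p s1 h h3 (C i) (a i) (k i)) (bx h h3 w ρ) := by
      ext l
      rw [mem_filt, Finset.mem_filter]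
      refine and_congr_right fun _ => ?_
      rw [hm, mk1_rays]
      rfl
    rw [e2]
    unfold uu
    ring
  -- the counts
  have key := net_sum (F := F) (N := netJ) (W := W)
    (n := fun i => ((filt (InM c sg (max (sg ^ 2) ρ) x0 y0 p s1 h h3 (C i) (a i) (k i))
          (bx h h3 w ρ)).card : ℝ))
    (χ := fun j i => if (mj j).Ok (5 + 5 * M) ρ ∧ Cpt (5 + 5 * M) ρ (mj j) ∧
      (C i, a i, k i) ∈ (mj j).rays ρ then 1 else 0)
    (v := v) (P := KB M * D * m.scost ρ) (q := w ^ 2 * ρ) (Δ := Δ) hv (by positivity)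
    (by positivity) hW (fun i _ => ?_) (fun j _ => ?_)
  · rw [e1]
    set sn := ∑ i ∈ F, ((filt (InM c sg (max (sg ^ 2) ρ) x0 y0 p s1 h h3 (C i) (a i) (k i))
          (bx h h3 w ρ)).card : ℝ) * W i
    have e3 : (2 + V) = ρ / h := by rw [← he]; field_simp
    rw [e3]
    have h5 : sn ≤ KB M * D * m.scost ρ * (netJ.card * Δ) / (w ^ 2 * ρ) := by
      rw [le_div_iff₀ (by positivity)]; exact key
    exact (mul_le_mul_of_nonneg_left h5 (by positivity)).trans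
      (le_of_eq (alg1 hh hh3 hw hρ))
  · by_cases hex : ∃ l ∈ bx h h3 w ρ, InM c sg (max (sg ^ 2) ρ) x0 y0 p s1 h h3 (C i) (a i) (k i) l
    · obtain ⟨⟨j, hj, j1, j2, j3⟩, hle⟩ := hcov (C i) (a i) (k i) hex
      refine hle.trans ?_
      rw [← hcost]
      have h6 : (1 : ℝ) ≤ ∑ j ∈ netJ, (if (mj j).Ok (5 + 5 * M) ρ ∧ Cpt (5 + 5 * M) ρ (mj j) ∧
          (C i, a i, k i) ∈ (mj j).rays ρ then (1 : ℝ) else 0) := by
        have h7 := Finset.single_le_sum (f := fun j => (if (mj j).Ok (5 + 5 * M) ρ ∧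
          Cpt (5 + 5 * M) ρ (mj j) ∧ (C i, a i, k i) ∈ (mj j).rays ρ then (1 : ℝ) else 0))
          (fun j _ => by split_ifs <;> norm_num) hj
        refine le_trans (le_of_eq ?_) h7
        rw [if_pos ⟨j1, j2, j3⟩]
      exact le_mul_of_one_le_right (by positivity) h6
    · have h9 : (filt (InM c sg (max (sg ^ 2) ρ) x0 y0 p s1 h h3 (C i) (a i) (k i))
          (bx h h3 w ρ)).card = 0 := by
        rw [Finset.card_eq_zero, Finset.eq_empty_iff_forall_notMem]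
        intro l hl
        rw [mem_filt] at hl
        exact hex ⟨l, hl.1, hl.2⟩
      rw [h9, Nat.cast_zero, zero_mul]
      refine mul_nonneg (by positivity) (Finset.sum_nonneg fun j _ => ?_)
      split_ifs <;> norm_num
  · obtain ⟨g1, g2, g3, g4, g5⟩ := hmj j
    by_cases hoc : (mj j).Ok (5 + 5 * M) ρ ∧ Cpt (5 + 5 * M) ρ (mj j)
    · have h10 := H (mj j) hoc.1 hoc.2 g1 g2 g3 g4
      rw [g5] at h10
      refine le_trans (le_of_eq ?_) h10
      refine Finset.sum_congr rfl fun i _ => ?_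
      by_cases hmem : (C i, a i, k i) ∈ (mj j).rays ρ
      · rw [if_pos ⟨hoc.1, hoc.2, hmem⟩, if_pos hmem, one_mul]
      · rw [if_neg (fun hn => hmem hn.2.2), if_neg hmem, zero_mul]
    · refine le_trans (le_of_eq ?_) (mul_nonneg hΔ hv.le)
      refine Finset.sum_eq_zero fun i _ => ?_
      rw [if_neg (fun hn => hoc ⟨hn.1, hn.2.1⟩), zero_mul]

/-! ### planks of length one -/

/-- constant of the energy. -/
noncomputable def K1 (V : ℝ) : ℝ := 8020 * (2 + V) ^ 3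

/-- constant of the density. -/
noncomputable def K2 (M V : ℝ) : ℝ := 4 * (2 + V) ^ 3 * KB M * netJ.card

theorem alg2 {h w ρ S : ℝ} (hh : 0 < h) :
    8020 * ((w / h) ^ 2 * (ρ / h)) * S * ρ ^ 3 = 8020 * (ρ / h) ^ 3 * (S * (w ^ 2 * ρ)) := by
  field_simp

open Classical in
/-- **planks of length one**. -/
theorem lkm_norm {M V : ℝ} (hM : 1 ≤ M) (hV : 0 ≤ V) (hK : LKMtube (SSr M) (7 * V + 11))
    {ε : ℝ} (hε : 0 < ε) :
    ∃ K : ℝ, 0 ≤ K ∧ ∀ w ρ : ℝ, 0 < w → w ≤ 1 → w ^ 2 ≤ ρ → ρ ≤ w →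
      ∀ (ι : Type) (F : Finset ι) (C a : ι → E2) (k W : ι → ℝ), (∀ i ∈ F, 0 ≤ W i) →
        (∀ i ∈ F, ‖C i‖ ≤ V) → (∀ i ∈ F, ‖a i‖ ≤ V) → (∀ i ∈ F, |k i| ≤ V) → ∀ Δ : ℝ, 0 ≤ Δ →
        (∀ m : Mem, m.Ok (5 + 5 * M) ρ → Cpt (5 + 5 * M) ρ m → m.R = 1 → m.s0 = 0 →
          w ≤ m.s1 → m.sg ≤ 1 →
          ∑ i ∈ F, (if (C i, a i, k i) ∈ m.rays ρ then W i * (w ^ 2 * ρ) else 0) ≤
            Δ * m.scost ρ) →
        ∫⁻ s in Set.Icc (-1 : ℝ) 1, ∫⁻ X : E3,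
          (∑ i ∈ F, (if InPk w ρ (C i) (a i) (k i) (lat X) (X 2) s then
            ENNReal.ofReal (W i) else 0)) ^ (3/2 : ℝ) ≤
        ENNReal.ofReal (K * w ^ (-ε) * Real.sqrt Δ * ∑ i ∈ F, W i * (w ^ 2 * ρ)) := by
  obtain ⟨K, hK0, hK1⟩ := hK (ε / 2) (by positivity)
  refine ⟨K * K1 V * Real.sqrt (K2 M V), ?_, ?_⟩
  · have : 0 ≤ K1 V := by unfold K1; positivity
    positivity
  intro w ρ hw hw1 hwρ hρw ι F C a k W hW hC ha hk Δ hΔ H
  obtain ⟨hh, hh3, hh3h, h2w, he, hhρ, hh3ρ⟩ := mesh hM hV hw hw1 hwρ hρw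
  have hρ : 0 < ρ := lt_of_lt_of_le (pow_pos hw 2) hwρ
  have hmass := fun {m : Mem} (hok : m.Ok M ρ) (hR : m.R = 1) (hs0 : m.s0 = 0)
    (hs1 : ρ ≤ m.s1) (hsg : m.sg ≤ 1) =>
    mass_fine hM hV hw hw1 hwρ hρw hW hΔ H hok hR hs0 hs1 hsg
  set h := mh V ρ with hhd
  set h3 := mh3 M V w ρ with hh3d
  have hKM := KB_nonneg M
  have hK2 : 0 ≤ K2 M V := by unfold K2; positivity
  -- the family of the fine rays
  have hsum : ∀ (f : ι → RI → ℝ), ∑ x : ↥(F ×ˢ bx h h3 w ρ), f x.1.1 x.1.2 =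
      ∑ i ∈ F, ∑ l ∈ bx h h3 w ρ, f i l := by
    intro f
    rw [← Finset.sum_product' F (bx h h3 w ρ) f]
    exact Finset.sum_coe_sort (F ×ˢ bx h h3 w ρ) (fun x => f x.1 x.2)
  have hmemF : ∀ x : ↥(F ×ˢ bx h h3 w ρ), x.1.1 ∈ F := fun x => (Finset.mem_product.mp x.2).1
  have hmemB : ∀ x : ↥(F ×ˢ bx h h3 w ρ), x.1.2 ∈ bx h h3 w ρ :=
    fun x => (Finset.mem_product.mp x.2).2
  have main := hK1 ρ hρ (hρw.trans hw1) ↥(F ×ˢ bx h h3 w ρ)
    (fun x => fr' h h3 (C x.1.1) (a x.1.1) (k x.1.1) x.1.2)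
    (fun x => uu h h3 w (W x.1.1)) (fun x => uu_nonneg hh hh3 (hW _ (hmemF x))) ?_ ?_ ?_
    (K2 M V * Δ) (by positivity) ?_
  · -- conclusion
    refine le_trans ?_ (main.trans ?_)
    · refine lintegral_mono_ae ?_
      filter_upwards [ae_restrict_mem measurableSet_Icc] with s hs
      refine lintegral_mono fun X => ?_
      refine ENNReal.rpow_le_rpow ?_ (by norm_num)
      have hs' : |s| ≤ 1 := by
        rw [abs_le]; exact ⟨hs.1, hs.2⟩
      have h1 := pk_le (F := F) (h := h) (h3 := h3) (w := w) (ρ := ρ) (C := C) (a := a) (c := k)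
        (W := W) (V := V) (r := ρ) hh hh3 hh3h hhρ h2w hw1 he.le hwρ hC hW (x := lat X) (y := X 2)
        hs'
      have h2 : ∑ i ∈ F, (if InPk w ρ (C i) (a i) (k i) (lat X) (X 2) s then
          ENNReal.ofReal (W i) else 0) = ENNReal.ofReal (∑ i ∈ F,
            (if InPk w ρ (C i) (a i) (k i) (lat X) (X 2) s then W i else 0)) := by
        rw [ENNReal.ofReal_sum_of_nonneg]
        · refine Finset.sum_congr rfl fun i _ => ?_
          split_ifs <;> simp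
        · intro i hi
          split_ifs
          · exact hW i hi
          · exact le_rfl
      rw [h2]
      refine (ENNReal.ofReal_le_ofReal h1).trans (le_of_eq ?_)
      rw [← hsum (fun i l => if InTb ρ (bC h (C i) l) (ba h (a i) l) (bc h h3 (C i) (k i) l)
        (lat X) (X 2) s then uu h h3 w (W i) else 0), ENNReal.ofReal_sum_of_nonneg]
      · refine Finset.sum_congr rfl fun x _ => ?_
        have h7 : InTb ρ (bC h (C x.1.1) x.1.2) (ba h (a x.1.1) x.1.2)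
            (bc h h3 (C x.1.1) (k x.1.1) x.1.2) (lat X) (X 2) s ↔
            X ∈ tube ρ (fr' h h3 (C x.1.1) (a x.1.1) (k x.1.1) x.1.2) s := Iff.rfl
        by_cases h4 : X ∈ tube ρ (fr' h h3 (C x.1.1) (a x.1.1) (k x.1.1) x.1.2) s
        · rw [if_pos (h7.mpr h4), if_pos h4]
        · rw [if_neg (fun hn => h4 (h7.mp hn)), if_neg h4, ENNReal.ofReal_zero]
      · intro x _
        split_ifs
        · exact uu_nonneg hh hh3 (hW _ (hmemF x))
        · exact le_rfl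
    · refine ENNReal.ofReal_le_ofReal ?_
      have e1 : ∑ x : ↥(F ×ˢ bx h h3 w ρ), uu h h3 w (W x.1.1) * ρ ^ 3 ≤
          K1 V * ∑ i ∈ F, W i * (w ^ 2 * ρ) := by
        rw [← Finset.sum_mul, hsum (fun i _ => uu h h3 w (W i))]
        have h5 := energy_le (F := F) (h := h) (h3 := h3) (w := w) (ρ := ρ) (W := W) hh hh3 h2w
          hh3ρ hW
        refine (mul_le_mul_of_nonneg_right h5 (by positivity)).trans (le_of_eq ?_)
        rw [alg2 hh, ← Finset.sum_mul]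
        unfold K1
        have e3 : (2 + V) = ρ / h := by rw [← he]; field_simp
        rw [e3]
      have e2 : ρ ^ (-(ε / 2)) ≤ w ^ (-ε) := by
        have h6 : ρ ^ (-(ε / 2)) ≤ (w ^ 2) ^ (-(ε / 2)) :=
          Real.rpow_le_rpow_of_nonpos (pow_pos hw 2) hwρ (by linarith)
        refine h6.trans (le_of_eq ?_)
        rw [← Real.rpow_natCast, ← Real.rpow_mul hw.le]
        congr 1
        push_cast
        ring
      have e3 : Real.sqrt (K2 M V * Δ) = Real.sqrt (K2 M V) * Real.sqrt Δ :=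
        Real.sqrt_mul hK2 Δ
      rw [e3]
      have hE : 0 ≤ ∑ i ∈ F, W i * (w ^ 2 * ρ) :=
        Finset.sum_nonneg fun i hi => mul_nonneg (hW i hi) (by positivity)
      have hK1V : 0 ≤ K1 V := by unfold K1; positivity
      have hE' : 0 ≤ ∑ x : ↥(F ×ˢ bx h h3 w ρ), uu h h3 w (W x.1.1) * ρ ^ 3 :=
        Finset.sum_nonneg fun x _ =>
          mul_nonneg (uu_nonneg hh hh3 (hW _ (hmemF x))) (by positivity)
      calc K * ρ ^ (-(ε / 2)) * (Real.sqrt (K2 M V) * Real.sqrt Δ) *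
            ∑ x : ↥(F ×ˢ bx h h3 w ρ), uu h h3 w (W x.1.1) * ρ ^ 3
          ≤ K * w ^ (-ε) * (Real.sqrt (K2 M V) * Real.sqrt Δ) *
            (K1 V * ∑ i ∈ F, W i * (w ^ 2 * ρ)) := by
            gcongr
        _ = K * K1 V * Real.sqrt (K2 M V) * w ^ (-ε) * Real.sqrt Δ *
            ∑ i ∈ F, W i * (w ^ 2 * ρ) := by ring
  · -- directions
    intro x
    obtain ⟨l1, -, -⟩ := norm_of_mem_bx hh hh3 hw.le (hmemB x)
    change ‖C x.1.1 + Lat h x.1.2.1‖ ≤ _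
    refine (norm_add_le _ _).trans ?_
    linarith [hC _ (hmemF x)]
  · -- positions
    intro x
    obtain ⟨-, l2, -⟩ := norm_of_mem_bx hh hh3 hw.le (hmemB x)
    change ‖a x.1.1 + Lat h x.1.2.2.1‖ ≤ _
    refine (norm_add_le _ _).trans ?_
    linarith [ha _ (hmemF x)]
  · -- heights
    intro x
    obtain ⟨l1, l2, l3⟩ := norm_of_mem_bx hh hh3 hw.le (hmemB x)
    change |k x.1.1 - inner ℝ (C x.1.1 + Lat h x.1.2.1) (Lat h x.1.2.2.1) + h3 * x.1.2.2.2| ≤ _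
    refine (abs_add_le _ _).trans ?_
    have h1 := abs_sub (k x.1.1) (inner ℝ (C x.1.1 + Lat h x.1.2.1) (Lat h x.1.2.2.1))
    have h2 : |inner ℝ (C x.1.1 + Lat h x.1.2.1) (Lat h x.1.2.2.1)| ≤ (V + 1) * 6 := by
      refine (abs_real_inner_le_norm _ _).trans ?_
      have h3 : ‖C x.1.1 + Lat h x.1.2.1‖ ≤ V + 1 := by
        refine (norm_add_le _ _).trans ?_
        linarith [hC _ (hmemF x)]
      exact mul_le_mul h3 (l2.trans (by linarith)) (norm_nonneg _) (by linarith)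
    have := hk _ (hmemF x)
    linarith
  · -- mass
    rintro A v ⟨m, hok, hR, hs0, hs1, hsg, rfl, rfl⟩
    have h1 := hmass hok hR hs0 hs1 hsg
    rw [hsum (fun i l => if fr' h h3 (C i) (a i) (k i) l ∈ m.rays ρ then
      uu h h3 w (W i) * ρ ^ 3 else 0)]
    refine h1.trans (le_of_eq ?_)
    unfold K2
    ring

end Crest.Agent.R116.Br430
end

-- ▼ part R116/Br8_430
section

/-!
# R116 (S0155), bridge K side -> wave side, part 8: the bridge (helper430)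

`bridge : 1 ≤ M → (∀ V, LKMtube (SSr M) V) → ∀ M2 ≥ 5 + 5 M, ∀ V, LKMg (SSg M2) V`.
PRODUCER: 79 (`LKMtube (SSr M)`).  CONSUMER: 538 (`KMt` from `LKMg (SSg M2)`).
-/

set_option autoImplicit false

open MeasureTheory
open scoped ENNReal

namespace Crest.Agent.R116.Br430

open Crest.Agent.R116.LZg725
open Crest.Agent.R116.CDef480 (E3 lat pt vel)
open Crest.Agent.R116.LKMDef299 (Cpt LRay SSr SSg LKMtube)
open Crest.Agent.R116.Ckm538 (Nr LKMg)
open Crest.Agent.R138.Tub70 (Lat nr norm_sub_nr)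

/-! ### dilations -/

/-- dilated conformal function: `(cfd R p)(R x, R y, R s) = R p(x, y, s)`. -/
noncomputable def cfd (R : ℝ) (p : Cf E2) : Cf E2 := ⟨R * p.a0, p.a1, p.be, p.g, p.d / R⟩

section dil

variable {R : ℝ} (hR : 0 < R)
include hR

theorem cfd_ev (p : Cf E2) (x : E2) (y s : ℝ) :
    (cfd R p).ev (R • x) (R * y) (R * s) = R * p.ev x y s := by
  unfold cfd Cf.ev
  simp only
  rw [real_inner_smul_right, norm_smul, Real.norm_eq_abs, mul_pow, sq_abs]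
  field_simp

theorem cfd_ny (p : Cf E2) (s : ℝ) : (cfd R p).ny (R * s) = p.ny s := by
  unfold cfd Cf.ny
  simp only
  field_simp

theorem cfd_ld (p : Cf E2) (C x : E2) (y s : ℝ) :
    (cfd R p).ld C (R • x) (R * y) (R * s) = p.ld C x y s := by
  have h := cfd_ny hR p s
  unfold Cf.ld
  rw [h]
  unfold cfd
  simp only
  have e1 : (2 * (p.d / R)) • (R • x) = (2 * p.d) • x := by
    rw [smul_smul]; congr 1; field_simp
  rw [e1]
  field_simp

theorem cfd_disc (p : Cf E2) : (cfd R p).disc = p.disc := by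
  unfold cfd Cf.disc
  simp only
  field_simp

omit hR in
theorem nrm_dil (C x : E2) (y s : ℝ) : nrm C (R • x) (R * y) (R * s) = R * nrm C x y s := by
  unfold nrm
  rw [real_inner_smul_right]
  ring

theorem cfd_adm {M : ℝ} {c : E2} {sg T r : ℝ} {x0 : E2} {y0 s0 : ℝ} {p : Cf E2}
    (h : Adm M c sg T r x0 y0 s0 p) :
    Adm M c sg T (R * r) (R • x0) (R * y0) (R * s0) (cfd R p) := by
  refine ⟨by rw [cfd_disc hR]; exact h.disc, fun s hs => ?_, ?_, ?_⟩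
  · have e : s = R * (s / R) := by field_simp
    rw [e, cfd_ny hR]
    refine h.ny (s / R) ?_
    have e1 : s / R - s0 = (s - R * s0) / R := by field_simp
    rw [e1, abs_div, abs_of_pos hR, div_le_iff₀ hR]
    linarith
  · rw [cfd_ld hR]; exact h.ld
  · rw [cfd_ev hR, abs_mul, abs_of_pos hR]
    have := mul_le_mul_of_nonneg_left h.ev hR.le
    linarith

/-- the dilated member. -/
noncomputable def dil (R : ℝ) (m : Mem) : Mem :=
  ⟨m.c, m.sg, m.s1, R * m.R, R • m.X0, R * m.s0, cfd R m.phi⟩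

theorem dil_T (m : Mem) (B : ℝ) : (dil R m).T (R * B) = m.T B := by
  unfold Mem.T dil
  simp only
  rw [mul_div_mul_left _ _ hR.ne']

theorem dil_scost (m : Mem) (B : ℝ) : (dil R m).scost (R * B) = R ^ 3 * m.scost B := by
  unfold Mem.scost
  rw [dil_T hR]
  unfold dil
  simp only
  ring

theorem dil_ok {M B : ℝ} {m : Mem} (h : m.Ok M B) : (dil R m).Ok M (R * B) := by
  refine ⟨mul_pos hR h.hR, h.hs1, h.hsg, ?_⟩
  rw [dil_T hR]
  change Adm M m.c m.sg (m.T B) (R * m.R) (lat (R • m.X0)) (R * m.X0 2) (R * m.s0) (cfd R m.phi)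
  rw [CDef480.lat_smul]
  exact cfd_adm hR h.adm

theorem dil_cpt {M B : ℝ} {m : Mem} (h : Cpt M B m) : Cpt M (R * B) (dil R m) := by
  intro s hs
  change |s - R * m.s0| ≤ R * m.R at hs
  change |(cfd R m.phi).ny s| * (R * B) ≤ M * (m.s1 * (R * m.R))
  have e : s = R * (s / R) := by field_simp
  rw [e, cfd_ny hR]
  have h1 := h (s / R) (by
    have e1 : s / R - m.s0 = (s - R * m.s0) / R := by field_simp
    rw [e1, abs_div, abs_of_pos hR, div_le_iff₀ hR]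
    linarith)
  have := mul_le_mul_of_nonneg_left h1 hR.le
  linarith

omit hR in
theorem rx_dil (C a : E2) (s : ℝ) : rx C (R • a) (R * s) = R • rx C a s := by
  unfold rx; module

omit hR in
theorem ry_dil (C : E2) (k s : ℝ) : ry C (R * k) (R * s) = R * ry C k s := by
  unfold ry; ring

theorem dil_rays {B : ℝ} {m : Mem} {C a : E2} {k : ℝ} (h : (C, a, k) ∈ m.rays B) :
    (C, R • a, R * k) ∈ (dil R m).rays (R * B) := by
  rw [Mem.mem_rays] at h ⊢
  rw [dil_T hR]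
  obtain ⟨h1, h2⟩ := h
  refine ⟨h1, fun s hs => ?_⟩
  change |s - R * m.s0| ≤ R * m.R at hs
  have e : s = R * (s / R) := by field_simp
  have h3 := h2 (s / R) (by
    have e1 : s / R - m.s0 = (s - R * m.s0) / R := by field_simp
    rw [e1, abs_div, abs_of_pos hR, div_le_iff₀ hR]
    linarith)
  obtain ⟨⟨g1, g2, g3⟩, g4⟩ := h3
  simp only at g1 g2 g3 g4
  change InK m.c m.sg (m.T B) (R * m.R) (lat (R • m.X0)) (R * m.X0 2) (R * m.s0)
    (rx C (R • a) s) (ry C (R * k) s) s ∧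
    |(cfd R m.phi).ev (rx C (R • a) s) (ry C (R * k) s) s| ≤ m.s1 * (R * m.R)
  rw [CDef480.lat_smul]
  set t := s / R with ht
  rw [e, rx_dil, ry_dil]
  refine ⟨⟨?_, ?_, ?_⟩, ?_⟩
  · rw [← mul_sub, abs_mul, abs_of_pos hR]
    gcongr
  · have e2 : R • rx C a t - R • lat m.X0 + (R * t - R * m.s0) • m.c =
        R • (rx C a t - lat m.X0 + (t - m.s0) • m.c) := by module
    rw [e2, norm_smul, Real.norm_of_nonneg hR.le]
    have := mul_le_mul_of_nonneg_left g2 hR.le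
    linarith
  · rw [nrm_dil, nrm_dil, ← mul_sub, abs_mul, abs_of_pos hR]
    have := mul_le_mul_of_nonneg_left g3 hR.le
    linarith
  · rw [cfd_ev hR, abs_mul, abs_of_pos hR]
    have := mul_le_mul_of_nonneg_left g4 hR.le
    linarith

end dil

/-! ### integrals -/

theorem lint_dil3 {R : ℝ} (hR : 0 < R) (f : E3 → ℝ≥0∞) :
    ∫⁻ X, f X = ENNReal.ofReal (R ^ 3) * ∫⁻ X : E3, f (R • X) := by
  have h2 := Measure.map_addHaar_smul (volume : Measure E3) hR.ne'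
  rw [finrank_euclideanSpace_fin, abs_of_pos (by positivity)] at h2
  have h3 : ∫⁻ x, f x ∂(Measure.map (R • · : E3 → E3) volume) = ∫⁻ x : E3, f (R • x) := by
    have := lintegral_map_equiv (μ := (volume : Measure E3)) f
      (Homeomorph.smulOfNeZero R hR.ne').toMeasurableEquiv
    simpa using this
  rw [← h3, h2, lintegral_smul_measure, smul_eq_mul, ← mul_assoc,
    ← ENNReal.ofReal_mul (by positivity), mul_inv_cancel₀ (by positivity), ENNReal.ofReal_one,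
    one_mul]

theorem lint_dil1 {R : ℝ} (hR : 0 < R) (f : ℝ → ℝ≥0∞) :
    ∫⁻ t in Set.Icc (-R) R, f t = ENNReal.ofReal R * ∫⁻ s in Set.Icc (-1 : ℝ) 1, f (R * s) := by
  have h2 := Measure.map_addHaar_smul (volume : Measure ℝ) hR.ne'
  rw [Module.finrank_self, pow_one, abs_of_pos (by positivity)] at h2
  rw [← lintegral_indicator measurableSet_Icc, ← lintegral_indicator measurableSet_Icc]
  have h3 : ∫⁻ x, (Set.Icc (-R) R).indicator f x ∂(Measure.map (R • · : ℝ → ℝ) volume) =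
      ∫⁻ x : ℝ, (Set.Icc (-R) R).indicator f (R • x) := by
    have := lintegral_map_equiv (μ := (volume : Measure ℝ)) ((Set.Icc (-R) R).indicator f)
      (Homeomorph.smulOfNeZero R hR.ne').toMeasurableEquiv
    simpa using this
  have h4 : ∀ x : ℝ, (Set.Icc (-R) R).indicator f (R • x) =
      (Set.Icc (-1 : ℝ) 1).indicator (fun s => f (R * s)) x := by
    intro x
    have h5 : R • x ∈ Set.Icc (-R) R ↔ x ∈ Set.Icc (-1 : ℝ) 1 := by
      rw [Set.mem_Icc, Set.mem_Icc, smul_eq_mul]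
      constructor
      · rintro ⟨a, b⟩
        exact ⟨by nlinarith, by nlinarith⟩
      · rintro ⟨a, b⟩
        exact ⟨by nlinarith, by nlinarith⟩
    by_cases h6 : x ∈ Set.Icc (-1 : ℝ) 1
    · rw [Set.indicator_of_mem (h5.mpr h6), Set.indicator_of_mem h6, smul_eq_mul]
    · rw [Set.indicator_of_notMem (fun hn => h6 (h5.mp hn)), Set.indicator_of_notMem h6]
  rw [lintegral_congr h4] at h3
  rw [← h3, h2, lintegral_smul_measure, smul_eq_mul, ← mul_assoc,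
    ← ENNReal.ofReal_mul (by positivity), mul_inv_cancel₀ (by positivity), ENNReal.ofReal_one,
    one_mul]

/-! ### the incidence -/

theorem Nr_iff {R w ρ : ℝ} (hR : 0 < R) (C : E2) (y X : E3) (s : ℝ) :
    Nr (R * w) (R * ρ) C y (R • X) (R * s) ↔
      InPk w ρ C (R⁻¹ • lat y) (R⁻¹ * y 2) (lat X) (X 2) s := by
  have e1 : R • X + (R * s) • vel C - y = R • (X + s • vel C - R⁻¹ • y) := by
    rw [smul_sub, smul_add, smul_smul, smul_smul, mul_inv_cancel₀ hR.ne', one_smul]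
  unfold Nr InPk
  rw [e1, CDef480.lat_smul, norm_smul, Real.norm_of_nonneg hR.le, mul_le_mul_iff_right₀ hR,
    Ckm538.nrm_smul0, abs_mul, abs_of_pos hR, mul_le_mul_iff_right₀ hR]
  have e2 : lat (X + s • vel C - R⁻¹ • y) = lat X - rx C (R⁻¹ • lat y) s := by
    rw [CDef480.lat_sub, CDef480.lat_add, CDef480.lat_smul, CDef480.lat_smul]
    unfold vel rx
    rw [CDef480.lat_pt]
    abel
  have e3 : CDef480.nrm C (X + s • vel C - R⁻¹ • y) 0 =
      nrm C (lat X) (X 2) s - (R⁻¹ * y 2 + inner ℝ C (R⁻¹ • lat y)) := by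
    rw [Ckm538.nrm_zero, e2]
    unfold nrm rx vel
    simp only [PiLp.sub_apply, PiLp.add_apply, PiLp.smul_apply, smul_eq_mul, CDef480.pt_two,
      inner_sub_right, real_inner_smul_right, real_inner_self_eq_norm_sq]
    ring
  rw [e2, e3]

/-! ### the bridge -/

open Classical in
/-- **BRIDGE**: the isotropic tube inequality of length one gives the plank inequality of all
lengths, for the conformal classes. -/
theorem bridge {M : ℝ} (hM : 1 ≤ M) (hK : ∀ V, LKMtube (SSr M) V) {M2 : ℝ}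
    (hM2 : 5 + 5 * M ≤ M2) (V : ℝ) : LKMg (SSg M2) V := by
  intro ε hε
  obtain ⟨K, hK0, hK1⟩ := lkm_norm hM (le_max_right V 0) (hK (7 * max V 0 + 11)) hε
  refine ⟨K, hK0, ?_⟩
  intro w ρ R hw hwR hwρ hρw ι F C y W hW hC hy Δ hΔ H
  have hR : 0 < R := hw.trans_le hwR
  have hρ : 0 < ρ := by
    by_contra hn
    have : ρ * R ≤ 0 := mul_nonpos_of_nonpos_of_nonneg (not_lt.1 hn) hR.le
    nlinarith [pow_pos hw 2]
  have ew : R * (w / R) = w := by field_simp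
  have eρ : R * (ρ / R) = ρ := by field_simp
  have hlat : ∀ X : E3, ‖lat X‖ ≤ ‖X‖ := Ckm538.lat_norm_le
  have htwo : ∀ X : E3, |X 2| ≤ ‖X‖ := Ckm538.two_norm_le
  have main := hK1 (w / R) (ρ / R) (by positivity) (by rw [div_le_one hR]; exact hwR)
    (by
      rw [div_pow, div_le_div_iff₀ (by positivity) hR]
      have := mul_le_mul_of_nonneg_right hwρ hR.le
      linarith [mul_assoc ρ R R, sq R])
    (div_le_div_of_nonneg_right hρw hR.le) ι F C (fun i => R⁻¹ • lat (y i))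
    (fun i => R⁻¹ * (y i) 2) W hW (fun i hi => (hC i hi).trans (le_max_left _ _))
    (fun i hi => ?_) (fun i hi => ?_) Δ hΔ ?_
  · -- conclusion
    have h1 : ∫⁻ t in Set.Icc (-R) R, ∫⁻ X in {X : E3 | ‖X‖ ≤ R},
        (∑ i ∈ F, (if Nr w ρ (C i) (y i) X t then ENNReal.ofReal (W i) else 0)) ^ (3/2 : ℝ) ≤
        ∫⁻ t in Set.Icc (-R) R, ∫⁻ X : E3,
        (∑ i ∈ F, (if Nr w ρ (C i) (y i) X t then ENNReal.ofReal (W i) else 0)) ^ (3/2 : ℝ) :=
      lintegral_mono fun t => setLIntegral_le_lintegral _ _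
    refine h1.trans ?_
    rw [lint_dil1 hR]
    have h2 : ∀ s : ℝ, ∫⁻ X : E3,
        (∑ i ∈ F, (if Nr w ρ (C i) (y i) X (R * s) then ENNReal.ofReal (W i) else 0)) ^
          (3/2 : ℝ) = ENNReal.ofReal (R ^ 3) * ∫⁻ X : E3,
        (∑ i ∈ F, (if InPk (w / R) (ρ / R) (C i) (R⁻¹ • lat (y i)) (R⁻¹ * (y i) 2)
          (lat X) (X 2) s then ENNReal.ofReal (W i) else 0)) ^ (3/2 : ℝ) := by
      intro s
      rw [lint_dil3 hR]
      congr 1
      refine lintegral_congr fun X => ?_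
      congr 1
      refine Finset.sum_congr rfl fun i _ => ?_
      have h3 := Nr_iff (w := w / R) (ρ := ρ / R) hR (C i) (y i) X s
      rw [ew, eρ] at h3
      by_cases h4 : InPk (w / R) (ρ / R) (C i) (R⁻¹ • lat (y i)) (R⁻¹ * (y i) 2) (lat X) (X 2) s
      · rw [if_pos (h3.mpr h4), if_pos h4]
      · rw [if_neg (fun hn => h4 (h3.mp hn)), if_neg h4]
    rw [lintegral_congr h2, lintegral_const_mul' _ _ ENNReal.ofReal_ne_top]
    refine (mul_le_mul_right (mul_le_mul_right main _) _).trans (le_of_eq ?_)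
    have hE : 0 ≤ ∑ i ∈ F, W i * (w ^ 2 * ρ) :=
      Finset.sum_nonneg fun i hi => mul_nonneg (hW i hi) (by positivity)
    rw [← ENNReal.ofReal_mul (by positivity), ← ENNReal.ofReal_mul hR.le,
      ← ENNReal.ofReal_mul (by positivity)]
    congr 1
    rw [← Finset.sum_mul, ← Finset.sum_mul]
    field_simp
  · -- positions
    rw [norm_smul, norm_inv, Real.norm_of_nonneg hR.le, inv_mul_le_iff₀ hR]
    calc ‖lat (y i)‖ ≤ V * R := (hlat _).trans (hy i hi)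
      _ ≤ R * max V 0 := by
        rw [mul_comm]
        gcongr
        exact le_max_left _ _
  · -- heights
    rw [abs_mul, abs_inv, abs_of_pos hR, inv_mul_le_iff₀ hR]
    calc |(y i) 2| ≤ V * R := (htwo _).trans (hy i hi)
      _ ≤ R * max V 0 := by
        rw [mul_comm]
        gcongr
        exact le_max_left _ _
  · -- mass
    intro m hok hcpt hmR hms0 hms1 hmsg
    have hS : SSg M2 w ρ R {r | (r.1, lat r.2, r.2 2) ∈ (dil R m).rays ρ}
        ((dil R m).scost ρ) := by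
      refine ⟨dil R m, ?_, ?_, ?_, ?_, ?_, hmsg, rfl, rfl⟩
      · have := dil_ok hR hok
        rw [eρ] at this
        exact LKMDef299.Ok.mono this hM2
      · have h1 := dil_cpt hR hcpt
        rw [eρ] at h1
        refine LKMDef299.Cpt.mono h1 ?_ hM2
        change 0 ≤ m.s1 * (R * m.R)
        have := hok.hs1
        have := hok.hR
        positivity
      · change R * m.R = R
        rw [hmR, mul_one]
      · change R * m.s0 = 0
        rw [hms0, mul_zero]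
      · change w ≤ m.s1 * R
        rwa [div_le_iff₀ hR] at hms1
    have h1 := H _ _ hS
    have h2 : (dil R m).scost ρ = R ^ 3 * m.scost (ρ / R) := by
      have := dil_scost hR m (ρ / R)
      rwa [eρ] at this
    rw [h2] at h1
    have h3 : ∀ i ∈ F, (if (C i, R⁻¹ • lat (y i), R⁻¹ * (y i) 2) ∈ m.rays (ρ / R) then
        W i * ((w / R) ^ 2 * (ρ / R)) else 0) ≤ (R ^ 3)⁻¹ *
        (if (C i, y i) ∈ {r : E2 × E3 | (r.1, lat r.2, r.2 2) ∈ (dil R m).rays ρ} then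
          W i * (w ^ 2 * ρ) else 0) := by
      intro i hi
      have hWi := hW i hi
      by_cases h4 : (C i, R⁻¹ • lat (y i), R⁻¹ * (y i) 2) ∈ m.rays (ρ / R)
      · have h5 := dil_rays hR h4
        rw [eρ, smul_smul, mul_inv_cancel₀ hR.ne', one_smul, ← mul_assoc,
          mul_inv_cancel₀ hR.ne', one_mul] at h5
        rw [if_pos h4, if_pos (show (C i, y i) ∈ {r : E2 × E3 |
          (r.1, lat r.2, r.2 2) ∈ (dil R m).rays ρ} from h5)]
        refine le_of_eq ?_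
        field_simp
      · rw [if_neg h4]
        split_ifs
        · positivity
        · simp
    refine (Finset.sum_le_sum h3).trans ?_
    rw [← Finset.mul_sum, inv_mul_le_iff₀ (by positivity)]
    refine h1.trans (le_of_eq ?_)
    ring

/-- existence form of the bridge. -/
theorem bridge_exists {M : ℝ} (hM : 1 ≤ M) (hK : ∀ V, LKMtube (SSr M) V) :
    ∃ M0 : ℝ, 1 ≤ M0 ∧ ∀ M2, M0 ≤ M2 → ∀ V, LKMg (SSg M2) V :=
  ⟨5 + 5 * M, by linarith, fun _ h V => bridge hM hK h V⟩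

/-- from 299's `LKM`. -/
theorem bridge_LKM (h : LKMDef299.LKM) : ∃ M0 : ℝ, 1 ≤ M0 ∧ ∀ M2, M0 ≤ M2 → ∀ V,
    LKMg (SSg M2) V := by
  obtain ⟨M, hM, hK⟩ := h
  exact bridge_exists hM hK

end Crest.Agent.R116.Br430
end

-- ▼ part R116/ChC1_210
section

/-!
# R116 (S0155), wave side, CHAIN-C (helper210): numbers for the wiring
-/

set_option autoImplicit false

open scoped ENNReal

namespace Crest.Agent.R116.GlC210

open Crest.Agent.R116.AsmP597

/-- the price is at most the growth. -/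
theorem price_le {c1 A a g : ℝ} {n L : ℕ} (hc1 : 0 < c1) (H : TowerP c1 A a g n L) :
    a * L + 1 ≤ c1 / 2 * n := by
  by_contra hcon
  push Not at hcon
  set e : ℝ := c1 / 2 * n - (a * L + 1) with he
  have he0 : e < 0 := by rw [he]; linarith
  set Q : ℝ := 2 * (4 * 1) ^ (6 * n) with hQ
  have hQ1 : 1 < Q := by
    have : (1:ℝ) ≤ (4 * 1) ^ (6 * n) := one_le_pow₀ (by norm_num)
    rw [hQ]; linarith
  set X : ℝ := Q ^ (-e)⁻¹ with hX
  have hX1 : 1 < X := Real.one_lt_rpow hQ1 (by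
    rw [inv_pos]; linarith)
  have hX0 : 0 < X := by linarith
  have hXe : X ^ e = Q⁻¹ := by
    rw [hX, ← Real.rpow_mul (by linarith)]
    have : (-e)⁻¹ * e = -1 := by
      have : e ≠ 0 := he0.ne
      field_simp
    rw [this, Real.rpow_neg_one]
  have key := H c1 0 0 le_rfl le_rfl hc1.le le_rfl (by linarith) X 1 1 0 hX1 le_rfl zero_le_one
    le_rfl (fun _ => 1) (fun _ _ => 1) (fun _ _ => 0) (fun _ _ _ _ => 1) (fun _ _ => 1)
    (fun _ _ => False) (fun _ _ => False)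
    (fun k _ => by simp)
    (fun t _ k _ => Nat.zero_lt_one)
    (fun t _ k _ => by
      refine le_trans ?_ le_self_add
      rw [mul_one, one_mul, ← ENNReal.ofReal_one]
      exact ENNReal.ofReal_le_ofReal (Real.one_le_rpow hX1.le (by linarith)))
    (fun j _ _ k _ h => h.elim)
    (fun h i j _ _ hij _ _ k _ => ⟨le_rfl, by
      rw [one_mul]
      refine Real.one_le_rpow hX1.le ?_
      have : (i : ℝ) ≤ j := by exact_mod_cast hij.le
      linarith⟩)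
    (fun h i j l _ _ _ _ _ _ k _ hn => hn.elim)
    (fun j _ _ k _ => ⟨le_rfl, by
      rw [one_mul]; exact Real.one_le_rpow hX1.le (by norm_num)⟩)
    (fun j _ _ k _ _ _ _ _ => by
      refine le_trans ?_ le_self_add
      rw [mul_one, ← ENNReal.ofReal_one]
      refine ENNReal.ofReal_le_ofReal ?_
      have : 0 ≤ X ^ (c1 / 2 - g) := Real.rpow_nonneg hX0.le _
      simp only [Real.rpow_zero, div_one, Real.one_rpow, mul_one, one_mul]
      linarith)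
    0 Nat.zero_lt_one
  have h1 : (1 : ℝ) ≤ (4 * 1) ^ (6 * n) * X ^ e := by
    have h2 : (1 : ℝ≥0∞) ≤ ENNReal.ofReal ((4 * 1) ^ (6 * n) * X ^ e) := by
      refine key.trans (le_of_eq ?_)
      congr 1
      rw [he]
      ring
    rwa [← ENNReal.ofReal_one, ENNReal.ofReal_le_ofReal_iff (by positivity)] at h2
  rw [hXe, hQ, mul_inv] at h1
  have h3 : (0:ℝ) < (4 * 1) ^ (6 * n) := by positivity
  have h4 : ((4:ℝ) * 1) ^ (6 * n) * (2⁻¹ * ((4 * 1) ^ (6 * n))⁻¹) = 2⁻¹ := by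
    field_simp
  rw [h4] at h1
  norm_num at h1

/-- `(s r')² ≥ x² r'` if `s ≥ x r'^(-1/2)`. -/
theorem sq_ge {r' s x : ℝ} (hr' : 0 < r') (hx : 0 ≤ x) (hs : x * r' ^ (-(1/2) : ℝ) ≤ s) :
    x ^ 2 * r' ≤ (s * r') ^ 2 := by
  have h1 : r' ^ (-(1/2) : ℝ) * r' = r' ^ (1/2 : ℝ) := by
    nth_rewrite 2 [← Real.rpow_one r']
    rw [← Real.rpow_add hr']; norm_num
  have h2 : x * r' ^ (1/2 : ℝ) ≤ s * r' := by
    calc x * r' ^ (1/2 : ℝ) = (x * r' ^ (-(1/2) : ℝ)) * r' := by rw [mul_assoc, h1]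
      _ ≤ s * r' := mul_le_mul_of_nonneg_right hs hr'.le
  calc x ^ 2 * r' = (x * r' ^ (1/2 : ℝ)) ^ 2 := by
        rw [mul_pow, ← Real.rpow_natCast (r' ^ (1/2 : ℝ)) 2, ← Real.rpow_mul hr'.le]
        norm_num
    _ ≤ (s * r') ^ 2 := pow_le_pow_left₀ (by positivity) h2 2

/-- Step 4 factor. -/
theorem maxfac_le {r r' s dl : ℝ} (hdl : 0 < dl) (hdl1 : dl ≤ 1) (hr' : 0 < r')
    (hrr : r' = dl * r) (hs : r' ^ (-(1/2) : ℝ) ≤ s) : max 1 (r / (s * r') ^ 2) ≤ dl⁻¹ := by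
  refine max_le ((one_le_inv₀ hdl).2 hdl1) ?_
  have h1 := sq_ge (s := s) hr' zero_le_one (by rwa [one_mul])
  rw [one_pow, one_mul] at h1
  have hr : r = dl⁻¹ * r' := by rw [hrr]; field_simp
  calc r / (s * r') ^ 2 ≤ r / r' := by
        refine div_le_div_of_nonneg_left ?_ hr' h1
        rw [hr]; positivity
    _ = dl⁻¹ := by rw [hr]; field_simp

/-- Step 4 factor of a thick label. -/
theorem max_thick {r r' s dl δ : ℝ} (hdl : 0 < dl) (hdl1 : dl ≤ 1) (hδ : δ ≤ 1/2) (hr' : 0 < r')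
    (hrr : r' = dl * r) (hs : dl ^ (-δ) * r' ^ (-(1/2) : ℝ) ≤ s) :
    max 1 (r / (s * r') ^ 2) ≤ dl⁻¹ ^ (1 - 2 * δ) := by
  have hX1 : 1 ≤ dl⁻¹ := (one_le_inv₀ hdl).2 hdl1
  have hX0 : 0 < dl⁻¹ := by positivity
  refine max_le (Real.one_le_rpow hX1 (by linarith)) ?_
  have h1 := sq_ge hr' (Real.rpow_nonneg hdl.le _) hs
  have hr : r = dl⁻¹ * r' := by rw [hrr]; field_simp
  have hx : 0 < dl ^ (-δ) := Real.rpow_pos_of_pos hdl _
  have e1 : dl ^ (-δ) = dl⁻¹ ^ δ := by rw [Real.inv_rpow hdl.le, Real.rpow_neg hdl.le]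
  calc r / (s * r') ^ 2 ≤ r / ((dl ^ (-δ)) ^ 2 * r') := by
        refine div_le_div_of_nonneg_left ?_ (by positivity) h1
        rw [hr]; positivity
    _ = dl⁻¹ / (dl⁻¹ ^ δ) ^ 2 := by rw [hr, e1]; field_simp
    _ = dl⁻¹ ^ (1 - 2 * δ) := by
        rw [← Real.rpow_natCast (dl⁻¹ ^ δ) 2, ← Real.rpow_mul hX0.le, Real.rpow_sub hX0,
          Real.rpow_one]
        congr 2
        push_cast; ring

/-- power of `dl` as a power of `X = dl⁻¹`. -/
theorem dl_neg {dl x : ℝ} (hdl : 0 < dl) : dl ^ (-x) = dl⁻¹ ^ x := by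
  rw [Real.inv_rpow hdl.le, Real.rpow_neg hdl.le]

theorem ofReal_mul_mono {x y : ℝ} (h : x ≤ y) (S : ℝ≥0∞) :
    ENNReal.ofReal x * S ≤ ENNReal.ofReal y * S := by gcongr

/-- `up` only sees the parents between the levels `i` and `j`. -/
theorem up_congr {par par' : ℕ → ℕ → ℕ} {i : ℕ} : ∀ (j k : ℕ), (∀ t, i ≤ t → par t = par' t) →
    up par j i k = up par' j i k := by
  intro j
  induction j with
  | zero => intro k _; rfl
  | succ j ih =>
    intro k h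
    by_cases hj : j + 1 ≤ i
    · simp only [up, if_pos hj]
    · simp only [up, if_neg hj]
      rw [h j (by omega)]
      exact ih _ h

/-- losses: `C ν^K R^x ≤ C' R^y`. -/
theorem loss_le {C Cν ν R e x y : ℝ} {K : ℕ} (hC : 0 ≤ C) (hCν : 1 ≤ Cν) (hν : 1 ≤ ν)
    (hνR : ν ≤ Cν * R ^ e) (hR : 1 ≤ R) (hy : K * e + x ≤ y) :
    C * ν ^ K * R ^ x ≤ (C * Cν ^ K) * R ^ y := by
  have hR0 : 0 < R := by linarith
  have h1 : ν ^ K ≤ Cν ^ K * R ^ (K * e) := by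
    calc ν ^ K ≤ (Cν * R ^ e) ^ K := pow_le_pow_left₀ (by linarith) hνR K
      _ = Cν ^ K * R ^ (K * e) := by
          rw [mul_pow, ← Real.rpow_natCast (R ^ e) K, ← Real.rpow_mul hR0.le, mul_comm e]
  calc C * ν ^ K * R ^ x ≤ C * (Cν ^ K * R ^ (K * e)) * R ^ x := by gcongr
    _ = (C * Cν ^ K) * R ^ (K * e + x) := by rw [Real.rpow_add hR0]; ring
    _ ≤ (C * Cν ^ K) * R ^ y := by
        gcongr

end Crest.Agent.R116.GlC210
end

-- ▼ part R116/ChC2_210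
section

/-!
# R116 (S0155), wave side, CHAIN-C (helper210): the tower of levels satisfies `TowerP`
-/

set_option autoImplicit false

open scoped ENNReal

namespace Crest.Agent.R116.GlC210

open Crest.Agent.R116.AsmP597
open Crest.Agent.R116.CDef480 Crest.Agent.R116.WC188

/-- parents, level `0` replaced by the root. -/
def parC (L : ℕ → Lev) (t k : ℕ) : ℕ := if t = 0 then 0 else (L (t + 1)).par k

/-- number of labels, level `0` = root. -/
def NC (L : ℕ → Lev) (t : ℕ) : ℕ := if t = 0 then 1 else (L t).n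

/-- functionals, level `0` = root. -/
noncomputable def SC (L : ℕ → Lev) (g : E3 → ℂ) (v : ℝ) (t k : ℕ) : ℝ≥0∞ :=
  if t = 0 then ENNReal.ofReal v else (L t).S g k

theorem up_parC (L : ℕ → Lev) {i : ℕ} (hi : 1 ≤ i) (j k : ℕ) :
    up (parC L) j i k = anc L j i k := by
  unfold anc
  refine up_congr j k fun t ht => ?_
  funext k
  simp only [parC]
  rw [if_neg (by omega)]

theorem core {c1 At ap gg : ℝ} {n Lw : ℕ} (H : TowerP c1 At ap gg n Lw) (hn : 1 ≤ n)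
    {c q δ Cw : ℝ} (hc1 : 0 < c1) (hcc : c1 ≤ c) (hq0 : 0 ≤ q) (hqc : q ≤ c) (hδ0 : 0 ≤ δ)
    (hδ2 : δ ≤ 1/2) (hCw : 0 ≤ Cw) (hCδ : Cw * δ ≤ c1 / 4) (hg1 : gg ≤ δ * c1)
    (hg2 : gg ≤ c1 / 4)
    {R dl E τ v : ℝ} (hdl0 : 0 < dl) (hdl1 : dl < 1) (hR : 0 < R) (hE : 1 ≤ E) (hτ : 0 ≤ τ)
    (hv : 0 ≤ v)
    {g : E3 → ℂ} (L : ℕ → Lev) (ac1 ac2 : ℕ → ℕ → ℕ) (pv : ℕ → ℝ) (p : ℕ → ℕ → ℕ → ℕ → ℝ)
    (tn : ℕ → Prop)
    (hrad : ∀ t ≤ n, (L t).r = R * dl ^ t)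
    (hsd : ∀ t ≤ n, ∀ k < (L t).n, Sd (L t).r ((L t).s k).1 ((L t).s k).2)
    (hpar : ∀ t < n, ∀ k < (L (t + 1)).n, (L (t + 1)).par k < (L t).n)
    (hRoot : ∀ k < (L 1).n, (L 1).S g k ≤
      ENNReal.ofReal (E * (max 1 (R / (((L 1).s k).1 * (L 1).r) ^ 2)) ^ (c / 2) * v))
    (hGen : ∀ t, 1 ≤ t → t < n → ∀ k < (L (t + 1)).n, (L (t + 1)).S g k ≤
      ENNReal.ofReal (E * (max 1 ((L t).r / (((L (t + 1)).s k).1 * (L (t + 1)).r) ^ 2)) ^ (c / 2)) *
        (L t).S g ((L (t + 1)).par k) + ENNReal.ofReal τ)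
    (hpv : ∀ x, 1 ≤ pv x ∧ pv x ≤ E * dl ^ (-(1/2) : ℝ))
    (hp : ∀ h i j x, h < i → i < j → 1 ≤ p h i j x ∧ p h i j x ≤ E * dl ^ (-((j : ℝ) - i)))
    (htiny : ∀ t < n, ∀ k < (L (t + 1)).n, tn (ac1 (t + 1) k) →
      (L (t + 1)).S g k ≤ ENNReal.ofReal τ)
    (hstep : ∀ t, t + 2 ≤ n → ∀ k < (L (t + 2)).n,
        ¬ tn (ac1 (t + 2) k) → ¬ tn (ac1 (t + 1) ((L (t + 2)).par k)) →
        Thin dl δ (L (t + 2)).r ((L (t + 2)).s k).1 →
        Wide dl Cw (L (t + 2)).r ((L (t + 2)).s k).2 →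
        Thin dl δ (L (t + 1)).r ((L (t + 1)).s ((L (t + 2)).par k)).1 →
        Wide dl Cw (L (t + 1)).r ((L (t + 1)).s ((L (t + 2)).par k)).2 →
        (L (t + 2)).S g k ≤ ENNReal.ofReal (E * dl ^ (-(Cw * δ)) *
            ((pv (ac1 (t + 1) ((L (t + 2)).par k)) / pv (ac1 (t + 2) k)) ^ (1/2 : ℝ) +
              dl ^ (1/2 : ℝ))) * (L (t + 1)).S g ((L (t + 2)).par k) + ENNReal.ofReal τ)
    (htube : ∀ h i j l : ℕ, 1 ≤ h → h < i → i < j → j < l → l ≤ n → l ≤ h + 4 * Lw →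
      ∀ k < (L j).n, ¬ Wide dl Cw (L j).r ((L j).s k).2 →
        (L j).S g k ≤ ENNReal.ofReal (E *
          dl ^ (-(At + At * (max 0 ((i : ℝ) + l - 2 * j) + max 0 ((h : ℝ) + j - 2 * i))
            + q / 4 * ((l : ℝ) - j))) *
          (p h i j (ac2 i (anc L j i k)) / p i j l (ac2 j k)) ^ (1 / 2 : ℝ)) *
            (L i).S g (anc L j i k) + ENNReal.ofReal τ) :
    ∀ k < (L n).n, (L n).S g k ≤
      ENNReal.ofReal ((4 * E) ^ (6 * n) * dl⁻¹ ^ (c / 2 * n - (ap * Lw + 1)) *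
        (v + (2 * E * dl⁻¹ ^ n) ^ (n + 1) * τ)) := by
  have hX1 : 1 < dl⁻¹ := (one_lt_inv₀ hdl0).2 hdl1
  have hX0 : 0 < dl⁻¹ := by positivity
  have hE0 : 0 < E := by linarith
  have hr : ∀ t ≤ n, 0 < (L t).r := fun t ht => by rw [hrad t ht]; positivity
  have hstepr : ∀ t < n, (L (t + 1)).r = dl * (L t).r := fun t ht => by
    rw [hrad t ht.le, hrad (t + 1) (by omega), pow_succ]; ring
  -- Step 4 in uniform form
  have hG : ∀ t < n, ∀ k < (L (t + 1)).n, SC L g v (t + 1) k ≤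
      ENNReal.ofReal (E * (max 1 ((if t = 0 then R else (L t).r) /
        (((L (t + 1)).s k).1 * (L (t + 1)).r) ^ 2)) ^ (c / 2)) *
        SC L g v t (parC L t k) + ENNReal.ofReal τ := by
    intro t ht k hk
    rcases Nat.eq_zero_or_pos t with h0 | h0
    · subst h0
      simp only [SC, if_neg Nat.one_ne_zero, if_true, zero_add]
      refine (hRoot k hk).trans (le_trans (le_of_eq ?_) le_self_add)
      rw [ENNReal.ofReal_mul (by positivity)]
    · simp only [SC, if_neg h0.ne', if_neg (Nat.succ_ne_zero t), parC]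
      exact hGen t h0 ht k hk
  have hrr : ∀ t < n, (L (t + 1)).r = dl * (if t = 0 then R else (L t).r) := by
    intro t ht
    rcases Nat.eq_zero_or_pos t with h0 | h0
    · subst h0
      rw [if_pos rfl, hrad 1 hn, pow_one, mul_comm]
    · rw [if_neg h0.ne']
      exact hstepr t ht
  have key := H c q (Cw * δ) hcc hq0 hqc (by positivity) hCδ dl⁻¹ E v τ hX1 hE hv hτ
    (NC L) (SC L g v) (parC L) (fun h i j k => p h i j (ac2 i k)) (fun j k => pv (ac1 j k))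
    (fun j k => ¬ Wide dl Cw (L j).r ((L j).s k).2)
    (fun j k => ¬ Thin dl δ (L j).r ((L j).s k).1 ∨ tn (ac1 j k))
    (fun k _ => le_of_eq (by simp [SC]))
    (fun t ht k hk => by
      simp only [NC, if_neg (Nat.succ_ne_zero t)] at hk
      simp only [NC, parC]
      split_ifs with h0
      · exact Nat.zero_lt_one
      · exact hpar t ht k hk)
    (fun t ht k hk => by
      simp only [NC, if_neg (Nat.succ_ne_zero t)] at hk
      refine (hG t ht k hk).trans ?_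
      gcongr
      · linarith
      · exact maxfac_le hdl0 hdl1.le (hr (t + 1) (by omega)) (hrr t ht)
          (hsd (t + 1) (by omega) k hk).lo)
    (fun j hj1 hjn k hk hga => by
      obtain ⟨t, rfl⟩ : ∃ t, j = t + 1 := ⟨j - 1, by omega⟩
      simp only [NC, if_neg (Nat.succ_ne_zero t)] at hk
      refine ⟨t, by omega, ?_⟩
      have e1 : up (parC L) (t + 1) t k = parC L t k := by
        rw [up_succ _ le_rfl, up_self]
      rw [e1]
      rcases hga with hth | hti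
      · refine (hG t (by omega) k hk).trans ?_
        gcongr
        have h1 := max_thick (δ := δ) hdl0 hdl1.le hδ2 (hr (t + 1) hjn) (hrr t (by omega))
          (not_le.1 hth).le
        calc (max 1 ((if t = 0 then R else (L t).r) /
              (((L (t + 1)).s k).1 * (L (t + 1)).r) ^ 2)) ^ (c / 2)
            ≤ (dl⁻¹ ^ (1 - 2 * δ)) ^ (c / 2) := by
              refine Real.rpow_le_rpow (by positivity) h1 (by linarith)
          _ = dl⁻¹ ^ ((1 - 2 * δ) * (c / 2)) := (Real.rpow_mul hX0.le _ _).symm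
          _ ≤ dl⁻¹ ^ ((c / 2 - gg) * (((t + 1 : ℕ) : ℝ) - t)) := by
              refine Real.rpow_le_rpow_of_exponent_le hX1.le ?_
              push_cast
              nlinarith [mul_le_mul_of_nonneg_left hcc hδ0]
      · refine le_trans ?_ le_add_self
        simp only [SC, if_neg (Nat.succ_ne_zero t)]
        exact htiny t (by omega) k hk hti)
    (fun h i j _ hhi hij _ _ k _ => by
      have := hp h i j (ac2 i k) hhi hij
      rwa [dl_neg hdl0] at this)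
    (fun h i j l h1 hhi hij hjl hln hlL k hk hna => by
      simp only [NC, if_neg (show j ≠ 0 by omega)] at hk
      have := htube h i j l h1 hhi hij hjl hln hlL k hk hna
      rw [dl_neg hdl0] at this
      simp only [SC, if_neg (show j ≠ 0 by omega), if_neg (show i ≠ 0 by omega)]
      rw [up_parC L (by omega)]
      exact this)
    (fun j _ _ k _ => by
      have := hpv (ac1 j k)
      rwa [dl_neg hdl0] at this)
    (fun j hj1 hjn k hk hn1 hg1' hn2 hg2' => by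
      obtain ⟨t, rfl⟩ : ∃ t, j = t + 1 := ⟨j - 1, by omega⟩
      simp only [NC, if_neg (Nat.succ_ne_zero (t + 1))] at hk
      simp only [SC, parC, if_neg (Nat.succ_ne_zero (t + 1)), if_neg (Nat.succ_ne_zero t)] at *
      rw [not_not] at hn1 hn2
      rw [not_or, not_not] at hg1' hg2'
      refine (hstep t (by omega) k hk hg2'.2 hg1'.2 hg2'.1 hn2 hg1'.1 hn1).trans ?_
      have e2 : dl ^ (1/2 : ℝ) = dl⁻¹ ^ (-(1/2) : ℝ) := by
        rw [Real.inv_rpow hdl0.le, Real.rpow_neg hdl0.le, inv_inv]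
      have e3 : E * dl⁻¹ ^ (Cw * δ) * dl ^ (1/2 : ℝ) ≤ E * dl⁻¹ ^ (c / 2 - gg) := by
        rw [e2, mul_assoc, ← Real.rpow_add hX0]
        refine mul_le_mul_of_nonneg_left ?_ hE0.le
        exact Real.rpow_le_rpow_of_exponent_le hX1.le (by linarith)
      refine add_le_add (ofReal_mul_mono ?_ _) le_rfl
      rw [mul_add, dl_neg hdl0]
      exact add_le_add le_rfl e3)
  intro k hk
  have := key k (by simp only [NC, if_neg (show n ≠ 0 by omega)]; exact hk)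
  simpa only [SC, if_neg (show n ≠ 0 by omega)] using this

end Crest.Agent.R116.GlC210
end

-- ▼ part R116/ChT_210
section

/-!
# R116 (S0155), wave side, CHAIN-C (helper210): trivial bound of `SIG` (bounded `R`, any `κ`)
-/

set_option autoImplicit false

open MeasureTheory
open scoped ENNReal

namespace Crest.Agent.R116.GlC210

open Crest.Agent.R138.Defs (E2 ee)
open Crest.Agent.R138.Wpk685 (cen caps)
open Crest.Agent.R116.CDef480 Crest.Agent.R116.WC188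
open Crest.Agent.R116

/-- **trivial bound of `SIG`** (no condition on `κ`, polynomial in `R`). -/
theorem SIG_triv {M κ q a b M0 A : ℝ} (ha : 1 ≤ a) (hb : b ≤ 2) (hq : 0 ≤ q)
    {C0 : E2} {σ : ℝ} {g : E3 → ℂ} {R D : ℝ} (hSt : St M κ q a b M0 C0 σ g R D)
    {r s1 s2 : ℝ} (hr : 1 ≤ r) (hrR : r ≤ R) (hs : Sd r s1 s2) :
    ENNReal.ofReal (s2 ^ (-q / 2)) * SIG M κ A r s1 s2 g R ≤
      ENNReal.ofReal (256 * R ^ (5 + M0 / 2 + q / 4) * SS g R D) := by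
  classical
  have hR : 1 ≤ R := hSt.R1
  have hR0 : 0 < R := by linarith
  have hr0 : 0 < r := by linarith
  have hg : Ba449.Gd (3 * a) g := Ba449.St.gd ha hb hSt
  have hE : 0 ≤ Enc g := Ba449.Enc_nonneg g
  have hD := hSt.D0
  have hs10 : 0 < s1 := (Real.rpow_pos_of_pos hr0 _).trans_le hs.lo
  have hs20 : 0 < s2 := hs10.trans_le hs.le
  -- cost at least one
  have hcost : 1 ≤ r * scost κ s1 s2 r := by
    have e1 : r ^ (-(1/2) : ℝ) * r ^ (-(1/2) : ℝ) = r⁻¹ := by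
      rw [← Real.rpow_add hr0, ← Real.rpow_neg_one]; norm_num
    have hrn : 0 < r ^ (-(1/2) : ℝ) := Real.rpow_pos_of_pos hr0 _
    have h1 : r⁻¹ ≤ s1 * s2 := by
      rw [← e1]; exact mul_le_mul hs.lo (hs.lo.trans hs.le) hrn.le hs10.le
    have h2 : r⁻¹ ≤ TT κ s2 r := by
      refine le_trans ?_ (le_max_left _ _)
      rw [← e1, sq]
      exact mul_le_mul (hs.lo.trans hs.le) (hs.lo.trans hs.le) hrn.le hs20.le
    have h3 : 0 < r⁻¹ := by positivity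
    unfold scost
    calc (1:ℝ) ≤ r ^ 2 := one_le_pow₀ hr
      _ = r * (r⁻¹ * r⁻¹ * r ^ 3) := by field_simp
      _ ≤ r * (s1 * s2 * TT κ s2 r * r ^ 3) := by gcongr
  have hw : ENNReal.ofReal ((r * scost κ s1 s2 r) ^ (-(1/2) : ℝ)) ≤ 1 := by
    rw [← ENNReal.ofReal_one]
    exact ENNReal.ofReal_le_ofReal (Real.rpow_le_one_of_one_le_of_nonpos hcost (by norm_num))
  -- value of one system
  have key : SIG M κ A r s1 s2 g R ≤ ENNReal.ofReal (256 * R ^ 4 * (R * Enc g) *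
      (R * Enc g) ^ (1 / 2 : ℝ)) := by
    unfold SIG
    refine iSup_le fun I => iSup_le fun P => iSup_le fun hP => ?_
    set Z : Finset (E3 × ℝ) := I.image (fun i => (P i).z) with hZ
    have hnet : Net r R Z := by
      constructor
      · intro z hz
        obtain ⟨i, hi, rfl⟩ := Finset.mem_image.1 hz
        exact hP.mem i hi
      · intro z hz z' hz'
        obtain ⟨i, hi, rfl⟩ := Finset.mem_image.1 hz
        obtain ⟨j, hj, rfl⟩ := Finset.mem_image.1 hz'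
        exact hP.sep i hi j hj
    have hcard : (Z.card : ℝ≥0∞) ≤ ENNReal.ofReal (256 * R ^ 4) := by
      refine (Ba449.card_net hr0 hrR hnet).trans (ENNReal.ofReal_le_ofReal ?_)
      gcongr
      exact div_le_self hR0.le hr
    have hone : ∀ i : ℕ, enc (r ^ (-(1/2) : ℝ)) (trc (P i).z g) (P i).S ≤
        ENNReal.ofReal (Enc g) := fun i => by
      have := Ba449.enc_le (hg.trc (P i).z) (Real.rpow_pos_of_pos hr0 (-(1/2))) (P i).S
      rwa [Ba449.Enc_trc] at this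
    calc val κ g r s1 s2 I P
        ≤ ∑ i ∈ I, 1 * (ENNReal.ofReal r * enc (r ^ (-(1/2) : ℝ)) (trc (P i).z g) (P i).S) ^
            (3 / 2 : ℝ) := by
          unfold val
          exact Finset.sum_le_sum fun i _ => mul_le_mul' hw le_rfl
      _ ≤ ∑ i ∈ I, (ENNReal.ofReal R * enc (r ^ (-(1/2) : ℝ)) (trc (P i).z g) (P i).S) *
            (ENNReal.ofReal (R * Enc g)) ^ (1 / 2 : ℝ) := by
          refine Finset.sum_le_sum fun i _ => ?_
          rw [one_mul, show (3 / 2 : ℝ) = 1 + 1 / 2 by norm_num,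
            ENNReal.rpow_add_of_nonneg _ _ (by norm_num) (by norm_num), ENNReal.rpow_one]
          have h1 : ENNReal.ofReal r * enc (r ^ (-(1/2) : ℝ)) (trc (P i).z g) (P i).S ≤
              ENNReal.ofReal R * enc (r ^ (-(1/2) : ℝ)) (trc (P i).z g) (P i).S :=
            mul_le_mul' (ENNReal.ofReal_le_ofReal hrR) le_rfl
          refine mul_le_mul' h1 (ENNReal.rpow_le_rpow (h1.trans ?_) (by norm_num))
          rw [ENNReal.ofReal_mul hR0.le]
          exact mul_le_mul' le_rfl (hone i)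
      _ = (ENNReal.ofReal R * ∑ i ∈ I, enc (r ^ (-(1/2) : ℝ)) (trc (P i).z g) (P i).S) *
            (ENNReal.ofReal (R * Enc g)) ^ (1 / 2 : ℝ) := by
          rw [← Finset.sum_mul, Finset.mul_sum]
      _ ≤ (ENNReal.ofReal R * ((Z.card : ℝ≥0∞) * ENNReal.ofReal (Enc g))) *
            (ENNReal.ofReal (R * Enc g)) ^ (1 / 2 : ℝ) := by
          gcongr
          rw [← Finset.sum_fiberwise_of_maps_to (s := I) (t := Z) (g := fun i => (P i).z)
            (fun i hi => Finset.mem_image_of_mem _ hi), ← nsmul_eq_mul, ← Finset.sum_const]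
          refine Finset.sum_le_sum fun z _ => ?_
          have h2 : ∑ i ∈ I with (P i).z = z, enc (r ^ (-(1/2) : ℝ)) (trc (P i).z g) (P i).S =
              ∑ i ∈ I with (P i).z = z, enc (r ^ (-(1/2) : ℝ)) (trc z g) (P i).S :=
            Finset.sum_congr rfl fun i hi => by rw [(Finset.mem_filter.1 hi).2]
          rw [h2]
          have h3 := Bas367.enc_union (ρ := r ^ (-(1/2) : ℝ)) (g := trc z g)
            (I.filter fun i => (P i).z = z) (fun i => (P i).S) (fun _ => Set.univ)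
            (fun i hi m => hP.meas i (Finset.mem_filter.1 hi).1 m)
            (fun i hi j hj hij m => hP.disj i (Finset.mem_filter.1 hi).1 j
              (Finset.mem_filter.1 hj).1 hij
              ((Finset.mem_filter.1 hi).2.trans (Finset.mem_filter.1 hj).2.symm) m)
            (fun i _ m => Set.subset_univ _)
          refine h3.trans ?_
          have := Ba449.enc_le (hg.trc z) (Real.rpow_pos_of_pos hr0 (-(1/2))) (fun _ => Set.univ)
          rwa [Ba449.Enc_trc] at this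
      _ ≤ (ENNReal.ofReal R * (ENNReal.ofReal (256 * R ^ 4) * ENNReal.ofReal (Enc g))) *
            (ENNReal.ofReal (R * Enc g)) ^ (1 / 2 : ℝ) := by gcongr
      _ = _ := by
          rw [ENNReal.ofReal_rpow_of_nonneg (by positivity) (by norm_num),
            ← ENNReal.ofReal_mul (by positivity), ← ENNReal.ofReal_mul (by positivity),
            ← ENNReal.ofReal_mul (by positivity)]
          congr 1
          ring
  -- the energy
  have e2 : (R * Enc g) ^ (1 / 2 : ℝ) ≤ R ^ (1 / 2 + M0 / 2 : ℝ) * Real.sqrt D := by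
    calc (R * Enc g) ^ (1 / 2 : ℝ) ≤ (R * (R ^ M0 * D)) ^ (1 / 2 : ℝ) :=
          Real.rpow_le_rpow (by positivity) (by gcongr; exact hSt.nd) (by norm_num)
      _ = _ := by
          rw [Real.mul_rpow hR0.le (by positivity), Real.mul_rpow (by positivity) hD,
            ← Real.rpow_mul hR0.le, Real.sqrt_eq_rpow, Real.rpow_add hR0, mul_assoc]
          congr 3
          ring
  have e3 : s2 ^ (-q / 2) ≤ R ^ (q / 4) := by
    have h1 : s2 ^ (-q / 2) ≤ (r ^ (-(1/2) : ℝ)) ^ (-q / 2) :=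
      Real.rpow_le_rpow_of_nonpos (Real.rpow_pos_of_pos hr0 _) (hs.lo.trans hs.le) (by linarith)
    calc s2 ^ (-q / 2) ≤ (r ^ (-(1/2) : ℝ)) ^ (-q / 2) := h1
      _ = r ^ (q / 4) := by
          rw [← Real.rpow_mul hr0.le]; congr 1; ring
      _ ≤ R ^ (q / 4) := Real.rpow_le_rpow hr0.le hrR (by linarith)
  calc ENNReal.ofReal (s2 ^ (-q / 2)) * SIG M κ A r s1 s2 g R
      ≤ ENNReal.ofReal (R ^ (q / 4)) * ENNReal.ofReal (256 * R ^ 4 * (R * Enc g) *
          (R * Enc g) ^ (1 / 2 : ℝ)) :=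
        mul_le_mul' (ENNReal.ofReal_le_ofReal e3) key
    _ = ENNReal.ofReal (R ^ (q / 4) * (256 * R ^ 4 * (R * Enc g) *
          (R * Enc g) ^ (1 / 2 : ℝ))) := (ENNReal.ofReal_mul (by positivity)).symm
    _ ≤ _ := by
        refine ENNReal.ofReal_le_ofReal ?_
        unfold SS
        calc R ^ (q / 4) * (256 * R ^ 4 * (R * Enc g) * (R * Enc g) ^ (1 / 2 : ℝ))
            ≤ R ^ (q / 4) * (256 * R ^ 4 * (R * Enc g) *
                (R ^ (1 / 2 + M0 / 2 : ℝ) * Real.sqrt D)) := by gcongr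
          _ = 256 * (R ^ (q / 4) * R ^ 4 * R ^ (1 / 2 + M0 / 2 : ℝ)) *
                (R * Enc g * Real.sqrt D) := by ring
          _ ≤ 256 * R ^ (5 + M0 / 2 + q / 4) * (R * Enc g * Real.sqrt D) := by
              have h4 : R ^ 4 = R ^ (4 : ℝ) := by norm_cast
              rw [h4, ← Real.rpow_add hR0, ← Real.rpow_add hR0]
              gcongr 256 * ?_ * _
              exact Real.rpow_le_rpow_of_exponent_le hR (by linarith)

end Crest.Agent.R116.GlC210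
end

-- ▼ part R116/ChC3_210
section

/-!
# R116 (S0155), wave side, CHAIN-C (helper210): pairing of class functionals, numbers
-/

set_option autoImplicit false

open MeasureTheory
open scoped ENNReal

namespace Crest.Agent.R116.GlC210

open Crest.Agent.R116.AsmP597
open Crest.Agent.R116.CDef480 Crest.Agent.R116.WC188

/-- **pairing of two class functionals.** -/
theorem pair_aux {𝒜1 𝒜2 : AuxF} {na1 na2 : ℝ → ℕ} {M q a b M0 : ℝ}
    (h1 : AuxOk 𝒜1 na1 M q a b M0) (h2 : AuxOk 𝒜2 na2 M q a b M0) :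
    ∃ (𝒜 : AuxF) (na : ℝ → ℕ), AuxOk 𝒜 na M q a b M0 ∧ ∀ κ η0 g R dl n L ac,
      Acl 𝒜 κ η0 g R dl n L ac → (∃ ac1, Acl 𝒜1 κ η0 g R dl n L ac1) ∧
        ∃ ac2, Acl 𝒜2 κ η0 g R dl n L ac2 := by
  refine ⟨fun κ η0 g R dl L j z f m y => na2 R * 𝒜1 κ η0 g R dl L j z f m y +
    𝒜2 κ η0 g R dl L j z f m y, fun R => na2 R * na1 R, ⟨?_, ?_, ?_, ?_⟩, ?_⟩
  · intro R
    exact Nat.one_le_iff_ne_zero.2 (Nat.mul_ne_zero (by have := h2.1 R; omega)
      (by have := h1.1 R; omega))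
  · intro η hη
    obtain ⟨C1, hC1⟩ := h1.2.1 (η / 2) (by linarith)
    obtain ⟨C2, hC2⟩ := h2.2.1 (η / 2) (by linarith)
    refine ⟨C2 * C1, fun R hR => ?_⟩
    have hR0 : 0 < R := by linarith
    push_cast
    calc (na2 R : ℝ) * na1 R ≤ (C2 * R ^ (η / 2)) * (C1 * R ^ (η / 2)) :=
          mul_le_mul (hC2 R hR) (hC1 R hR) (Nat.cast_nonneg _)
            ((Nat.cast_nonneg _).trans (hC2 R hR))
      _ = C2 * C1 * (R ^ (η / 2) * R ^ (η / 2)) := by ring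
      _ = C2 * C1 * R ^ η := by
          rw [← Real.rpow_add hR0]; congr 2; ring
  · intro κ η0 g R dl L j z f m y
    have a1 := h1.2.2.1 κ η0 g R dl L j z f m y
    have a2 := h2.2.2.1 κ η0 g R dl L j z f m y
    calc na2 R * 𝒜1 κ η0 g R dl L j z f m y + 𝒜2 κ η0 g R dl L j z f m y
        < na2 R * 𝒜1 κ η0 g R dl L j z f m y + na2 R := by omega
      _ = na2 R * (𝒜1 κ η0 g R dl L j z f m y + 1) := by ring
      _ ≤ na2 R * na1 R := Nat.mul_le_mul le_rfl (by omega)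
  · intro κ η0 C0 σ g R D hSs hKp A A' Cn dl ν K t L hdl0 hdl1 hTow hR z f m
    exact ((h1.2.2.2 κ η0 C0 σ g R D hSs hKp A A' Cn dl ν K t L hdl0 hdl1 hTow hR z f m).const_mul
      _).add (h2.2.2.2 κ η0 C0 σ g R D hSs hKp A A' Cn dl ν K t L hdl0 hdl1 hTow hR z f m)
  · intro κ η0 g R dl n L ac h
    have hp : 0 < na2 R := h2.1 R
    refine ⟨⟨fun t k => ac t k / na2 R, ?_⟩, ⟨fun t k => ac t k % na2 R, ?_⟩⟩
    · intro t ht z hz k hk i hi m y hy
      have e := h t ht z hz k hk i hi m y hy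
      have a2 := h2.2.2.1 κ η0 g R dl (trn L (t + 1)) (t + 1) z ((L (t + 1)).P z k i).f m y
      simp only at e ⊢
      rw [← e, Nat.mul_add_div hp, Nat.div_eq_of_lt a2, add_zero]
    · intro t ht z hz k hk i hi m y hy
      have e := h t ht z hz k hk i hi m y hy
      have a2 := h2.2.2.1 κ η0 g R dl (trn L (t + 1)) (t + 1) z ((L (t + 1)).P z k i).f m y
      simp only at e ⊢
      rw [← e, Nat.mul_add_mod, Nat.mod_eq_of_lt a2]

/-- the numbers of one application. -/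
theorem dnum {n Lw : ℕ} {d R ε ε1 Cw Aw θ : ℝ} (hd0 : 0 < d) (hd3 : d ≤ (1/4) ^ (n + 1))
    (hCw : 0 ≤ Cw) (hθ : θ = 4 * Lw / ((n : ℝ) + 1)) (hAw2 : 2 ≤ Aw) (hAw1 : Cw + n ≤ Aw)
    (hAw3 : 16 * θ ≤ Aw) (hAR : d ^ (-Aw) ≤ R) (hεd : R ^ ε ≤ d⁻¹)
    (hε1 : ((n : ℝ) + 1) * ε1 ≤ ε) :
    1 ≤ R ∧ d ≤ 1 ∧ ∃ dl : ℝ, 0 < dl ∧ dl ≤ 1/4 ∧ dl ^ (n + 1) = d ∧
      d ^ θ = dl ^ (4 * (Lw : ℝ)) ∧ dl ≤ R ^ (-ε1) ∧ R ^ (1/2 : ℝ) ≤ R * d ∧
      dl ^ (-Cw) ≤ R * dl ^ n ∧ R ^ (-(1/16) : ℝ) ≤ d ^ θ ∧ dl⁻¹ ^ (n + 1) ≤ R ∧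
      (∀ x : ℝ, dl⁻¹ ^ x = d ^ (-(x / ((n : ℝ) + 1)))) := by
  have hN : (0:ℝ) < (n : ℝ) + 1 := by positivity
  have hd1 : d ≤ 1 := hd3.trans (pow_le_one₀ (by norm_num) (by norm_num))
  have hmono : ∀ x : ℝ, x ≤ Aw → d ^ (-x) ≤ R := fun x hx =>
    (Real.rpow_le_rpow_of_exponent_ge hd0 hd1 (by linarith)).trans hAR
  have hR1 : 1 ≤ R := by
    have := hmono 0 (by linarith)
    rwa [neg_zero, Real.rpow_zero] at this
  have hR0 : 0 < R := by linarith
  refine ⟨hR1, hd1, d ^ (((n : ℝ) + 1)⁻¹), Real.rpow_pos_of_pos hd0 _, ?_, ?_, ?_, ?_, ?_, ?_, ?_,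
    ?_, ?_⟩
  · calc d ^ (((n : ℝ) + 1)⁻¹) ≤ ((1/4 : ℝ) ^ (n + 1)) ^ (((n : ℝ) + 1)⁻¹) :=
          Real.rpow_le_rpow hd0.le hd3 (by positivity)
      _ = 1/4 := by
          rw [← Real.rpow_natCast (1/4 : ℝ) (n + 1), ← Real.rpow_mul (by norm_num)]
          push_cast
          rw [mul_inv_cancel₀ hN.ne', Real.rpow_one]
  · rw [← Real.rpow_natCast, ← Real.rpow_mul hd0.le]
    push_cast
    rw [inv_mul_cancel₀ hN.ne', Real.rpow_one]
  · rw [← Real.rpow_mul hd0.le, hθ]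
    congr 1
    field_simp
  · have h1 : d ≤ R ^ (-ε) := by
      rw [Real.rpow_neg hR0.le]
      exact (le_inv_comm₀ (by positivity) hd0).1 hεd
    calc d ^ (((n : ℝ) + 1)⁻¹) ≤ (R ^ (-ε)) ^ (((n : ℝ) + 1)⁻¹) :=
          Real.rpow_le_rpow hd0.le h1 (by positivity)
      _ = R ^ (-(ε / ((n : ℝ) + 1))) := by
          rw [← Real.rpow_mul hR0.le]; congr 1; ring
      _ ≤ R ^ (-ε1) := by
          refine Real.rpow_le_rpow_of_exponent_le hR1 (neg_le_neg ?_)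
          rw [le_div_iff₀ hN]
          linarith
  · have h2 := hmono 2 hAw2
    rw [Real.rpow_neg hd0.le, Real.rpow_two] at h2
    have h3 : 1 ≤ R * d ^ 2 := by
      have := (inv_le_iff_one_le_mul₀ (by positivity : (0:ℝ) < d ^ 2)).1 h2
      linarith
    have h4 : R ≤ (R * d) ^ 2 := by nlinarith
    calc R ^ (1/2 : ℝ) ≤ ((R * d) ^ 2) ^ (1/2 : ℝ) := Real.rpow_le_rpow hR0.le h4 (by norm_num)
      _ = R * d := by
          rw [← Real.sqrt_eq_rpow, Real.sqrt_sq (by positivity)]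
  · have h1 : d ^ (-((Cw + n) / ((n : ℝ) + 1))) ≤ R := by
      refine hmono _ (le_trans ?_ hAw1)
      exact div_le_self (by positivity) (by
        have : (0:ℝ) ≤ n := Nat.cast_nonneg n
        linarith)
    rw [← Real.rpow_natCast, ← Real.rpow_mul hd0.le, ← Real.rpow_mul hd0.le]
    calc d ^ (((n : ℝ) + 1)⁻¹ * -Cw)
        = d ^ (-((Cw + n) / ((n : ℝ) + 1))) * d ^ (((n : ℝ) + 1)⁻¹ * (n : ℝ)) := by
          rw [← Real.rpow_add hd0]; congr 1; field_simp; ring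
      _ ≤ R * d ^ (((n : ℝ) + 1)⁻¹ * (n : ℝ)) := by gcongr
  · have h1 := hmono (16 * θ) hAw3
    have h2 : (d ^ θ)⁻¹ ≤ R ^ (1/16 : ℝ) := by
      calc (d ^ θ)⁻¹ = (d ^ (-(16 * θ))) ^ (1/16 : ℝ) := by
            rw [← Real.rpow_mul hd0.le, ← Real.rpow_neg hd0.le]; congr 1; ring
        _ ≤ R ^ (1/16 : ℝ) := Real.rpow_le_rpow (by positivity) h1 (by norm_num)
    rw [Real.rpow_neg hR0.le]
    exact inv_le_of_inv_le₀ (Real.rpow_pos_of_pos hd0 _) h2
  · have h1 := hmono 1 (by linarith)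
    have h2 : (d ^ (((n : ℝ) + 1)⁻¹)) ^ (n + 1) = d := by
      rw [← Real.rpow_natCast, ← Real.rpow_mul hd0.le]
      push_cast
      rw [inv_mul_cancel₀ hN.ne', Real.rpow_one]
    rwa [inv_pow, h2, ← Real.rpow_neg_one]
  · intro x
    rw [← Real.rpow_neg_one, ← Real.rpow_mul hd0.le, ← Real.rpow_mul hd0.le]
    congr 1
    field_simp

end Crest.Agent.R116.GlC210
end

-- ▼ part R116/ChC4_210
section

/-!
# R116 (S0155), wave side, CHAIN-C (helper210): the wiring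
`ROOT, GEN, FIN, SLAB, TUBE, TOWX ⟹ WChE`.
-/

set_option autoImplicit false

open MeasureTheory
open scoped ENNReal

namespace Crest.Agent.R116.GlC210

open Crest.Agent.R138.Defs (E2 ee)
open Crest.Agent.R116.AsmP597
open Crest.Agent.R116.CDef480 Crest.Agent.R116.WC188

/-- the total of the last level. -/
theorem tot_le {L : Lev} {g : E3 → ℂ} {B ν : ℝ} (hB : 0 ≤ B) (hν : (L.n : ℝ) ≤ ν)
    (h : ∀ k < L.n, L.S g k ≤ ENNReal.ofReal B) :
    ∑ k ∈ Finset.range L.n, L.S g k ≤ ENNReal.ofReal (ν * B) := by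
  have h1 : (0:ℝ) ≤ ν := (Nat.cast_nonneg _).trans hν
  calc ∑ k ∈ Finset.range L.n, L.S g k ≤ ∑ _k ∈ Finset.range L.n, ENNReal.ofReal B :=
        Finset.sum_le_sum fun k hk => h k (Finset.mem_range.1 hk)
    _ = (L.n : ℝ≥0∞) * ENNReal.ofReal B := by
        rw [Finset.sum_const, Finset.card_range, nsmul_eq_mul]
    _ = ENNReal.ofReal (L.n * B) := by
        rw [ENNReal.ofReal_mul (Nat.cast_nonneg _), ENNReal.ofReal_natCast]
    _ ≤ ENNReal.ofReal (ν * B) := ENNReal.ofReal_le_ofReal (mul_le_mul_of_nonneg_right hν hB)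

/-- final arithmetic. -/
theorem fin_arith {n : ℕ} {CE R ε3 X v Y : ℝ} (hCE : 1 ≤ CE) (hR : 1 ≤ R)
    (hn : ((n : ℝ) + 1) * ε3 ≤ 1) (hX : 0 ≤ X) (hXR : X ^ (n + 1) ≤ R) (hv : 0 ≤ v)
    (hY : 0 ≤ Y) :
    (4 * (CE * R ^ ε3)) ^ (6 * n) * Y *
        (v + (2 * (CE * R ^ ε3) * X ^ n) ^ (n + 1) * (CE * R ^ (1 - ((n : ℝ) + 2)) * v)) ≤
      (4 * CE) ^ (6 * n) * (1 + (2 * CE) ^ (n + 1) * CE) * R ^ ((6 * n : ℝ) * ε3) * Y * v := by
  have hR0 : 0 < R := by linarith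
  have e1 : (4 * (CE * R ^ ε3)) ^ (6 * n) = (4 * CE) ^ (6 * n) * R ^ ((6 * n : ℝ) * ε3) := by
    rw [← mul_assoc, mul_pow, ← Real.rpow_natCast (R ^ ε3) (6 * n), ← Real.rpow_mul hR0.le]
    congr 2
    push_cast; ring
  have e2 : (2 * (CE * R ^ ε3) * X ^ n) ^ (n + 1) ≤ (2 * CE) ^ (n + 1) * R ^ ((n : ℝ) + 1) := by
    have h1 : (X ^ n) ^ (n + 1) ≤ R ^ (n : ℝ) := by
      calc (X ^ n) ^ (n + 1) = (X ^ (n + 1)) ^ n := by rw [← pow_mul, ← pow_mul, mul_comm]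
        _ ≤ R ^ n := pow_le_pow_left₀ (by positivity) hXR n
        _ = R ^ (n : ℝ) := (Real.rpow_natCast R n).symm
    have h2 : (R ^ ε3) ^ (n + 1) ≤ R ^ (1 : ℝ) := by
      rw [← Real.rpow_natCast (R ^ ε3) (n + 1), ← Real.rpow_mul hR0.le]
      refine Real.rpow_le_rpow_of_exponent_le hR ?_
      push_cast
      linarith
    calc (2 * (CE * R ^ ε3) * X ^ n) ^ (n + 1)
        = (2 * CE) ^ (n + 1) * ((X ^ n) ^ (n + 1) * (R ^ ε3) ^ (n + 1)) := by
          rw [← mul_pow, ← mul_pow]; ring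
      _ ≤ (2 * CE) ^ (n + 1) * (R ^ (n : ℝ) * R ^ (1 : ℝ)) := by gcongr
      _ = _ := by rw [← Real.rpow_add hR0]
  have e3 : (2 * (CE * R ^ ε3) * X ^ n) ^ (n + 1) * (CE * R ^ (1 - ((n : ℝ) + 2)) * v) ≤
      (2 * CE) ^ (n + 1) * CE * v := by
    calc (2 * (CE * R ^ ε3) * X ^ n) ^ (n + 1) * (CE * R ^ (1 - ((n : ℝ) + 2)) * v)
        ≤ ((2 * CE) ^ (n + 1) * R ^ ((n : ℝ) + 1)) * (CE * R ^ (1 - ((n : ℝ) + 2)) * v) := by
          gcongr
      _ = (2 * CE) ^ (n + 1) * CE * (R ^ ((n : ℝ) + 1) * R ^ (1 - ((n : ℝ) + 2))) * v := by ring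
      _ = _ := by
          rw [← Real.rpow_add hR0]
          have : (n : ℝ) + 1 + (1 - ((n : ℝ) + 2)) = 0 := by ring
          rw [this, Real.rpow_zero, mul_one]
  rw [e1]
  calc (4 * CE) ^ (6 * n) * R ^ ((6 * n : ℝ) * ε3) * Y *
        (v + (2 * (CE * R ^ ε3) * X ^ n) ^ (n + 1) * (CE * R ^ (1 - ((n : ℝ) + 2)) * v))
      ≤ (4 * CE) ^ (6 * n) * R ^ ((6 * n : ℝ) * ε3) * Y * (v + (2 * CE) ^ (n + 1) * CE * v) := by
        gcongr
    _ = _ := by ring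

/-- exponents. -/
theorem exps (n kR kG kF : ℕ) {ε : ℝ} (hε : 0 < ε) : ∃ ε3 ε1 : ℝ, 0 < ε3 ∧ 0 < ε1 ∧
    ((n : ℝ) + 1) * ε3 ≤ 1 ∧ ε3 + ε3 + (6 * n : ℝ) * ε3 ≤ ε ∧ ε3 ≤ ε ∧ ε3 ≤ 1 ∧ 2 * ε1 ≤ ε3 ∧
    2 * ((kR : ℝ) * ε1) ≤ ε3 ∧ 2 * ((kG : ℝ) * ε1) ≤ ε3 ∧ 2 * ((kF : ℝ) * ε1) ≤ ε3 ∧
    ((n : ℝ) + 1) * ε1 ≤ ε ∧ ε1 ≤ 1/2 := by
  have hn0 : (0:ℝ) ≤ n := Nat.cast_nonneg n
  obtain ⟨ε3, hε3, h31, h32⟩ : ∃ ε3 : ℝ, 0 < ε3 ∧ (6 * (n : ℝ) + 4) * ε3 ≤ 1 ∧
      (6 * (n : ℝ) + 4) * ε3 ≤ ε := by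
    refine ⟨min ε 1 / (6 * n + 4), by positivity, ?_, ?_⟩
    · rw [mul_div_cancel₀ _ (by positivity)]; exact min_le_right _ _
    · rw [mul_div_cancel₀ _ (by positivity)]; exact min_le_left _ _
  obtain ⟨ε1, hε1, h11, h12⟩ : ∃ ε1 : ℝ, 0 < ε1 ∧ 2 * ε1 ≤ ε3 ∧
      2 * (((kR : ℝ) + kG + kF) * ε1) ≤ ε3 := by
    refine ⟨ε3 / (2 * ((kR : ℝ) + kG + kF + 1)), by positivity, ?_, ?_⟩
    · have hk : (1:ℝ) ≤ (kR : ℝ) + kG + kF + 1 := by
        have : (0:ℝ) ≤ (kR : ℝ) + kG + kF := by positivity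
        linarith
      calc 2 * (ε3 / (2 * ((kR : ℝ) + kG + kF + 1))) = ε3 / ((kR : ℝ) + kG + kF + 1) := by
            field_simp
        _ ≤ ε3 := div_le_self hε3.le hk
    · calc 2 * (((kR : ℝ) + kG + kF) * (ε3 / (2 * ((kR : ℝ) + kG + kF + 1))))
          = ε3 * (((kR : ℝ) + kG + kF) / ((kR : ℝ) + kG + kF + 1)) := by field_simp
        _ ≤ ε3 * 1 := by
            gcongr
            rw [div_le_one (by positivity)]
            linarith
        _ = ε3 := mul_one _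
  have p1 : 0 ≤ (n : ℝ) * ε3 := by positivity
  have p2 : 0 ≤ (n : ℝ) * ε1 := by positivity
  have p3 : (n : ℝ) * (2 * ε1) ≤ n * ε3 := by gcongr
  have q1 : 0 ≤ (kR : ℝ) * ε1 := by positivity
  have q2 : 0 ≤ (kG : ℝ) * ε1 := by positivity
  have q3 : 0 ≤ (kF : ℝ) * ε1 := by positivity
  exact ⟨ε3, ε1, hε3, hε1, by linarith, by linarith, by linarith, by linarith, h11, by linarith,
    by linarith, by linarith, by linarith, by linarith⟩

theorem exps2 (k0 : ℕ) {ε3 : ℝ} (hε3 : 0 < ε3) (h3 : ε3 ≤ 1) : ∃ ε2 : ℝ, 0 < ε2 ∧ ε2 ≤ 1/2 ∧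
    ∀ k : ℕ, k ≤ k0 + 1 → 2 * ((k : ℝ) * ε2) ≤ ε3 := by
  have hk0 : (0:ℝ) ≤ k0 := Nat.cast_nonneg _
  refine ⟨ε3 / (2 * ((k0 : ℝ) + 1)), by positivity, ?_, fun k hk => ?_⟩
  · rw [div_le_iff₀ (by positivity)]
    linarith
  · have hk' : (k : ℝ) ≤ (k0 : ℝ) + 1 := by exact_mod_cast hk
    calc 2 * ((k : ℝ) * (ε3 / (2 * ((k0 : ℝ) + 1))))
        = ε3 * ((k : ℝ) / ((k0 : ℝ) + 1)) := by field_simp
      _ ≤ ε3 * 1 := by
          gcongr
          rw [div_le_one (by positivity)]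
          exact hk'
      _ = ε3 := mul_one _

theorem consts {CR CG CF CS CT CX CpS CpT a : ℝ} (hCR : 1 ≤ CR) (hCG : 1 ≤ CG) (hCF : 1 ≤ CF)
    (hCS : 1 ≤ CS) (hCT : 1 ≤ CT) (hCX : 1 ≤ CX) (hCpS : 1 ≤ CpS) (hCpT : 1 ≤ CpT) (ha : 1 ≤ a)
    (kR kG kF kS kT : ℕ) : ∃ Cm CE : ℝ, 1 ≤ Cm ∧ CR ≤ Cm ∧ CG ≤ Cm ∧ CF ≤ Cm ∧ CS ≤ Cm ∧
      CT ≤ Cm ∧ CX ≤ Cm ∧ 32 * a ≤ Cm ∧ 1 ≤ CE ∧ CR * CX ^ kR ≤ CE ∧ CG * CX ^ kG ≤ CE ∧
      CF * CX ^ kF ≤ CE ∧ CS * CX ^ kS ≤ CE ∧ CT * CX ^ kT ≤ CE ∧ CpS ≤ CE ∧ CpT ≤ CE ∧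
      CX ≤ CE := by
  have hpw : ∀ (C : ℝ) (k : ℕ), 1 ≤ C → 1 ≤ C * CX ^ k := fun C k hC => by
    have := one_le_pow₀ hCX (n := k)
    nlinarith
  have b1 := hpw CR kR hCR
  have b2 := hpw CG kG hCG
  have b3 := hpw CF kF hCF
  have b4 := hpw CS kS hCS
  have b5 := hpw CT kT hCT
  exact ⟨CR + CG + CF + CS + CT + CX + 32 * a, CR * CX ^ kR + CG * CX ^ kG + CF * CX ^ kF +
    CS * CX ^ kS + CT * CX ^ kT + CpS + CpT + CX, by linarith, by linarith, by linarith,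
    by linarith, by linarith, by linarith, by linarith, by linarith, by linarith, by linarith,
    by linarith, by linarith, by linarith, by linarith, by linarith, by linarith, by linarith⟩

/-- the price is admissible. -/
theorem dexp {K c1 θ : ℝ} {n Lw : ℕ} (hθ : θ = 4 * Lw / ((n : ℝ) + 1)) (hc1 : 0 < c1)
    (hprice : 4 * K * Lw + 1 ≤ c1 / 2 * n) :
    -(c1 / 2) + K * θ + 1 / (2 * ((n : ℝ) + 1)) ≤ 0 := by
  have hN : (0:ℝ) < (n : ℝ) + 1 := by positivity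
  have h2 : K * (4 * Lw / ((n : ℝ) + 1)) + 1 / (2 * ((n : ℝ) + 1)) =
      (4 * K * Lw + 1 / 2) / ((n : ℝ) + 1) := by field_simp
  have h1 : K * (4 * Lw / ((n : ℝ) + 1)) + 1 / (2 * ((n : ℝ) + 1)) ≤ c1 / 2 := by
    rw [h2, div_le_iff₀ hN]
    linarith
  rw [hθ]
  linarith

/-- last arithmetic. -/
theorem last_arith {n kF : ℕ} {R CE CF ν ε ε1 ε3 X P Y W dp v : ℝ} (hR : 1 ≤ R)
    (h3 : ε3 + ε3 + (6 * n : ℝ) * ε3 ≤ ε) (h3' : ε3 ≤ ε) (hCE : 1 ≤ CE)
    (hν : 1 ≤ ν) (l1 : CF * ν ^ kF * R ^ (kF * ε1) ≤ CE * R ^ ε3) (l2 : ν ≤ CE * R ^ ε3)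
    (l3 : CF * ν ^ kF ≤ CE * R ^ ε3) (hX : 0 ≤ X) (hY : 0 ≤ Y) (hv : 0 ≤ v) (hW : 0 ≤ W)
    (hdp : X * Y = dp) (hdp1 : 1 ≤ dp) (hP : CE ^ 2 * W + CE ≤ P) :
    CF * ν ^ kF * R ^ (kF * ε1) * X * (ν * (W * R ^ ((6 * n : ℝ) * ε3) * Y * v)) +
      CF * ν ^ kF * v ≤ P * R ^ ε * dp * v := by
  have hR0 : 0 < R := by linarith
  have l4 : R ^ ε3 * R ^ ε3 * R ^ ((6 * n : ℝ) * ε3) ≤ R ^ ε := by
    rw [← Real.rpow_add hR0, ← Real.rpow_add hR0]
    exact Real.rpow_le_rpow_of_exponent_le hR h3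
  have l5 : R ^ ε3 ≤ R ^ ε := Real.rpow_le_rpow_of_exponent_le hR h3'
  have hdp0 : 0 ≤ dp := by linarith
  have hfirst : CF * ν ^ kF * R ^ (kF * ε1) * X * (ν * (W * R ^ ((6 * n : ℝ) * ε3) * Y * v)) ≤
      CE ^ 2 * W * R ^ ε * dp * v := by
    calc CF * ν ^ kF * R ^ (kF * ε1) * X * (ν * (W * R ^ ((6 * n : ℝ) * ε3) * Y * v))
        ≤ CE * R ^ ε3 * X * ((CE * R ^ ε3) * (W * R ^ ((6 * n : ℝ) * ε3) * Y * v)) := by gcongr
      _ = CE ^ 2 * W * (R ^ ε3 * R ^ ε3 * R ^ ((6 * n : ℝ) * ε3)) * (X * Y) * v := by ring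
      _ ≤ CE ^ 2 * W * R ^ ε * (X * Y) * v := by gcongr
      _ = _ := by rw [hdp]
  have hsecond : CF * ν ^ kF * v ≤ CE * R ^ ε * dp * v := by
    calc CF * ν ^ kF * v ≤ CE * R ^ ε3 * v := by gcongr
      _ ≤ CE * R ^ ε * v := by gcongr
      _ = CE * R ^ ε * 1 * v := by ring
      _ ≤ _ := by gcongr
  calc _ ≤ _ := add_le_add hfirst hsecond
    _ = (CE ^ 2 * W + CE) * R ^ ε * dp * v := by ring
    _ ≤ _ := by gcongr

theorem one_le_mul_rpow {CE R ε3 : ℝ} (hCE : 1 ≤ CE) (hR : 1 ≤ R) (h3 : 0 < ε3) :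
    1 ≤ CE * R ^ ε3 := by
  have : 1 ≤ R ^ ε3 := Real.one_le_rpow hR h3.le
  nlinarith

theorem pbd {C CE R ε3 y x : ℝ} (hC : C ≤ CE) (hC1 : 1 ≤ C) (hR : 1 ≤ R) (h3 : 0 < ε3)
    (hy : 0 ≤ y) (h : x ≤ C * y) : x ≤ CE * R ^ ε3 * y := by
  have h1 : 1 ≤ R ^ ε3 := Real.one_le_rpow hR h3.le
  refine h.trans (mul_le_mul_of_nonneg_right ?_ hy)
  nlinarith

theorem small_case {R Cm Ct P ε ε1 x v dp : ℝ} (hR : 1 ≤ R) (hε : 0 < ε) (hε1 : 0 < ε1)
    (hsmall : R ^ ε1 < Cm) (hCt : Ct = 256 * (Cm ^ ε1⁻¹) ^ |x|) (hP : Ct ≤ P) (hv : 0 ≤ v)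
    (hdp : 1 ≤ dp) : 256 * R ^ x * v ≤ P * R ^ ε * dp * v := by
  have hR0 : 0 < R := by linarith
  have hCm0 : 0 < Cm := lt_trans (by positivity) hsmall
  have hRC : R ≤ Cm ^ ε1⁻¹ := by
    calc R = (R ^ ε1) ^ ε1⁻¹ := by
          rw [← Real.rpow_mul hR0.le, mul_inv_cancel₀ hε1.ne', Real.rpow_one]
      _ ≤ Cm ^ ε1⁻¹ := Real.rpow_le_rpow (by positivity) hsmall.le (by positivity)
  have h1 : R ^ x ≤ (Cm ^ ε1⁻¹) ^ |x| :=
    (Real.rpow_le_rpow_of_exponent_le hR (le_abs_self _)).trans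
      (Real.rpow_le_rpow hR0.le hRC (abs_nonneg _))
  have hRε : 1 ≤ R ^ ε := Real.one_le_rpow hR hε.le
  have hCt0 : 0 ≤ Ct := by rw [hCt]; positivity
  have hP0 : 0 ≤ P := hCt0.trans hP
  calc 256 * R ^ x * v ≤ Ct * v := by rw [hCt]; gcongr
    _ = Ct * 1 * 1 * v := by ring
    _ ≤ P * R ^ ε * dp * v := by gcongr

/-- the large `R` part: choice of constants done. -/
theorem chain_large {M q c1 c K At δ Cw gg : ℝ} {n Lw : ℕ} (hn3 : 3 ≤ n)
    (hTP : TowerP c1 At (4 * K) gg n Lw) (hc1 : 0 < c1) (hcc : c1 ≤ c) (hq : 0 ≤ q)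
    (hqc : q ≤ c) (hδ0 : 0 ≤ δ) (hδ4 : δ ≤ 1/4) (hCw0 : 0 ≤ Cw) (hCδ : Cw * δ ≤ c1 / 4)
    (hg1 : gg ≤ δ * c1) (hg2 : gg ≤ c1 / 4)
    {ε3 CE R dl v : ℝ} (hε3 : 0 < ε3) (hCE1 : 1 ≤ CE) (hR1 : 1 ≤ R) (hdl0 : 0 < dl)
    (hdl1 : dl < 1) (hv : 0 ≤ v) (h3n : ((n : ℝ) + 1) * ε3 ≤ 1) (hXR : dl⁻¹ ^ (n + 1) ≤ R)
    {κ A A' a b Cn η0 σ ν : ℝ} {C0 : E2} {K0 : ℕ} {g : E3 → ℂ} {L : ℕ → Lev}
    {ac1 ac2 : ℕ → ℕ → ℕ} {pv : ℕ → ℝ} {p : ℕ → ℕ → ℕ → ℕ → ℝ} {tn : ℕ → Prop}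
    {CpS CpT : ℝ} (hCpS : 1 ≤ CpS) (hCpT : 1 ≤ CpT) (hCEpS : CpS ≤ CE) (hCEpT : CpT ≤ CE)
    (hTow : Tow M κ q A A' a b Cn K0 η0 C0 σ g R dl ν n L)
    (hRoot : ∀ k < (L 1).n, (L 1).S g k ≤
      ENNReal.ofReal (CE * R ^ ε3 * (max 1 (R / (((L 1).s k).1 * (L 1).r) ^ 2)) ^ (c / 2) * v))
    (hGen : ∀ t, 1 ≤ t → t < n → ∀ k < (L (t + 1)).n, (L (t + 1)).S g k ≤
      ENNReal.ofReal (CE * R ^ ε3 *
        (max 1 ((L t).r / (((L (t + 1)).s k).1 * (L (t + 1)).r) ^ 2)) ^ (c / 2)) *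
        (L t).S g ((L (t + 1)).par k) +
      ENNReal.ofReal (CE * R ^ (1 - ((n : ℝ) + 2)) * v))
    (hpv : ∀ x, 1 ≤ pv x ∧ pv x ≤ CpS * dl ^ (-(1/2) : ℝ))
    (hp : ∀ h i j x, h < i → i < j → 1 ≤ p h i j x ∧ p h i j x ≤ CpT * dl ^ (-((j : ℝ) - i)))
    (htiny : ∀ t < n, ∀ k < (L (t + 1)).n, tn (ac1 (t + 1) k) →
      (L (t + 1)).S g k ≤ ENNReal.ofReal (CE * R ^ (1 - ((n : ℝ) + 2)) * v))
    (hstep : ∀ t, t + 2 ≤ n → ∀ k < (L (t + 2)).n,
        ¬ tn (ac1 (t + 2) k) → ¬ tn (ac1 (t + 1) ((L (t + 2)).par k)) →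
        Thin dl δ (L (t + 2)).r ((L (t + 2)).s k).1 →
        Wide dl Cw (L (t + 2)).r ((L (t + 2)).s k).2 →
        Thin dl δ (L (t + 1)).r ((L (t + 1)).s ((L (t + 2)).par k)).1 →
        Wide dl Cw (L (t + 1)).r ((L (t + 1)).s ((L (t + 2)).par k)).2 →
        (L (t + 2)).S g k ≤ ENNReal.ofReal (CE * R ^ ε3 * dl ^ (-(Cw * δ)) *
            ((pv (ac1 (t + 1) ((L (t + 2)).par k)) / pv (ac1 (t + 2) k)) ^ (1/2 : ℝ) +
              dl ^ (1/2 : ℝ))) * (L (t + 1)).S g ((L (t + 2)).par k) +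
          ENNReal.ofReal (CE * R ^ (1 - ((n : ℝ) + 2)) * v))
    (htube : ∀ h i j l : ℕ, 1 ≤ h → h < i → i < j → j < l → l ≤ n → l ≤ h + 4 * Lw →
      ∀ k < (L j).n, ¬ Wide dl Cw (L j).r ((L j).s k).2 →
        (L j).S g k ≤ ENNReal.ofReal (CE * R ^ ε3 *
          dl ^ (-(At + At * (max 0 ((i : ℝ) + l - 2 * j) + max 0 ((h : ℝ) + j - 2 * i))
            + q / 4 * ((l : ℝ) - j))) *
          (p h i j (ac2 i (anc L j i k)) / p i j l (ac2 j k)) ^ (1 / 2 : ℝ)) *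
            (L i).S g (anc L j i k) + ENNReal.ofReal (CE * R ^ (1 - ((n : ℝ) + 2)) * v))
    -- the last step
    {CF ε ε1 dp Cmain : ℝ} {kF : ℕ} {F : ℝ≥0∞} (hCF : 0 ≤ CF) (hν : 1 ≤ ν)
    (h3 : ε3 + ε3 + (6 * n : ℝ) * ε3 ≤ ε) (h3' : ε3 ≤ ε)
    (l1 : CF * ν ^ kF * R ^ (kF * ε1) ≤ CE * R ^ ε3) (l2 : ν ≤ CE * R ^ ε3)
    (l3 : CF * ν ^ kF ≤ CE * R ^ ε3)
    (hdp : dl⁻¹ ^ (c / 2) * dl⁻¹ ^ (c / 2 * n - (4 * K * Lw + 1)) = dp) (hdp1 : 1 ≤ dp)
    (hP : CE ^ 2 * ((4 * CE) ^ (6 * n) * (1 + (2 * CE) ^ (n + 1) * CE)) + CE ≤ Cmain)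
    (hF : F ≤ ENNReal.ofReal (CF * ν ^ kF * R ^ (kF * ε1) * dl⁻¹ ^ (c / 2)) *
      ∑ k ∈ Finset.range (L n).n, (L n).S g k + ENNReal.ofReal (CF * ν ^ kF * v)) :
    F ≤ ENNReal.ofReal (Cmain * R ^ ε * dp * v) := by
  have hR0 : 0 < R := by linarith
  have hrle : ∀ t ≤ n, (L t).r = R * dl ^ t := hTow.rad
  have key := core hTP (by omega) hc1 hcc hq hqc hδ0 (by linarith)
    hCw0 hCδ hg1 hg2 hdl0 hdl1 hR0 (E := CE * R ^ ε3)
    (τ := CE * R ^ (1 - ((n : ℝ) + 2)) * v) (v := v) (one_le_mul_rpow hCE1 hR1 hε3)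
    (by positivity) hv (g := g) L ac1 ac2 pv p tn hrle
    (fun t ht k hk => (hTow.ok t ht).sd k hk)
    (fun t ht k hk => (hTow.next t ht).par_lt k hk)
    hRoot hGen
    (fun x => ⟨(hpv x).1, pbd hCEpS hCpS hR1 hε3 (by positivity) (hpv x).2⟩)
    (fun h i j x hhi hij => ⟨(hp h i j x hhi hij).1,
      pbd hCEpT hCpT hR1 hε3 (by positivity) (hp h i j x hhi hij).2⟩)
    htiny hstep htube
  obtain ⟨Y, hY⟩ : ∃ Y : ℝ, Y = dl⁻¹ ^ (c / 2 * n - (4 * K * Lw + 1)) := ⟨_, rfl⟩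
  have hY0 : 0 ≤ Y := by rw [hY]; positivity
  have hlast : ∀ k < (L n).n, (L n).S g k ≤ ENNReal.ofReal ((4 * CE) ^ (6 * n) *
      (1 + (2 * CE) ^ (n + 1) * CE) * R ^ ((6 * n : ℝ) * ε3) * Y * v) := by
    intro k hk
    refine (key k hk).trans (ENNReal.ofReal_le_ofReal ?_)
    rw [← hY]
    exact fin_arith hCE1 hR1 h3n (by positivity) hXR hv hY0
  have htot := tot_le (by positivity) (hTow.le n le_rfl).1 hlast
  rw [← hY] at hdp
  calc F ≤ _ := hF
    _ ≤ ENNReal.ofReal (CF * ν ^ kF * R ^ (kF * ε1) * dl⁻¹ ^ (c / 2)) *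
          ENNReal.ofReal (ν * ((4 * CE) ^ (6 * n) *
      (1 + (2 * CE) ^ (n + 1) * CE) * R ^ ((6 * n : ℝ) * ε3) * Y * v)) +
          ENNReal.ofReal (CF * ν ^ kF * v) := by gcongr
    _ = ENNReal.ofReal (CF * ν ^ kF * R ^ (kF * ε1) * dl⁻¹ ^ (c / 2) * (ν * ((4 * CE) ^ (6 * n) *
      (1 + (2 * CE) ^ (n + 1) * CE) * R ^ ((6 * n : ℝ) * ε3) * Y * v)) +
            CF * ν ^ kF * v) := by
        rw [← ENNReal.ofReal_mul (by positivity), ← ENNReal.ofReal_add (by positivity)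
          (by positivity)]
    _ ≤ _ := ENNReal.ofReal_le_ofReal (last_arith hR1 h3 h3' hCE1 hν l1 l2 l3
        (by positivity) hY0 hv (by positivity) hdp hdp1 hP)

end Crest.Agent.R116.GlC210
end

-- ▼ part R116/ChC5_210
section

/-!
# R116 (S0155), wave side, CHAIN-C (helper210): the wiring
`ROOT, GEN, FIN, SLAB, TUBE, TOWX ⟹ WChE`.
-/

set_option autoImplicit false

open MeasureTheory
open scoped ENNReal

namespace Crest.Agent.R116.GlC210

open Crest.Agent.R138.Defs (E2 ee)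
open Crest.Agent.R116.AsmP597
open Crest.Agent.R116.CDef480 Crest.Agent.R116.WC188

set_option maxHeartbeats 1600000 in
/-- **the wiring of the class chain.** -/
theorem chain {M q : ℝ} (hq : 0 ≤ q) (hROOT : ROOT M q) (hGEN : GEN M q) (hFIN : FIN M q)
    (hSLAB : SLAB M q) (hTUBE : TUBE M q) (hTOW : TOWX M q) : WChE M q := by
  intro K hK c1 hc1 hqc hLB
  obtain ⟨Cw, hCw, hS⟩ := hSLAB
  have hCw0 : 0 < Cw := by linarith
  obtain ⟨At, hAt, hT⟩ := hTUBE Cw hCw0.le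
  -- margins
  obtain ⟨δ, hδ0, hδ4, hCδ⟩ : ∃ δ : ℝ, 0 < δ ∧ δ ≤ 1/4 ∧ Cw * δ ≤ c1 / 4 := by
    refine ⟨min (c1 / (4 * Cw)) (1/4), by positivity, min_le_right _ _, ?_⟩
    calc Cw * min (c1 / (4 * Cw)) (1/4) ≤ Cw * (c1 / (4 * Cw)) := by
          gcongr; exact min_le_left _ _
      _ = c1 / 4 := by field_simp
  obtain ⟨gg, hgg0, hg1, hg2⟩ : ∃ gg : ℝ, 0 < gg ∧ gg ≤ δ * c1 ∧ gg ≤ c1 / 4 :=
    ⟨min (δ * c1) (c1 / 4), by positivity, min_le_left _ _, min_le_right _ _⟩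
  obtain ⟨n, Lw, hn3, hLw1, hTP⟩ := tower_price (a := 4 * K) hc1 hAt (by positivity) hgg0
    (by linarith : gg ≤ c1 / 2)
  have hprice := price_le hc1 hTP
  have hN : (0:ℝ) < (n : ℝ) + 1 := by positivity
  have hn0 : (0:ℝ) ≤ n := Nat.cast_nonneg n
  have hLwR : (1:ℝ) ≤ Lw := by exact_mod_cast hLw1
  obtain ⟨c, hcdef⟩ : ∃ c : ℝ, c = c1 + 1 / ((n : ℝ) + 1) := ⟨_, rfl⟩
  have hcc : c1 < c := by
    have : 0 < 1 / ((n : ℝ) + 1) := by positivity
    rw [hcdef]; linarith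
  have hc0 : 0 ≤ c := by linarith
  have hqc' : q ≤ c := by linarith
  have hLBc := hLB c hcc
  obtain ⟨kR, hR'⟩ := hROOT c hc0 hLBc
  obtain ⟨kG, hG'⟩ := hGEN c hc0 hLBc
  obtain ⟨kF, hF'⟩ := hFIN c hc0 hLBc
  obtain ⟨θ, hθ⟩ : ∃ θ : ℝ, θ = 4 * Lw / ((n : ℝ) + 1) := ⟨_, rfl⟩
  have hθ0 : 0 < θ := by rw [hθ]; positivity
  have hdex := dexp hθ hc1 hprice
  have w1 : 2 ≤ 2 + Cw + n + 16 * θ := by linarith
  have w2 : Cw + n ≤ 2 + Cw + n + 16 * θ := by linarith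
  have w3 : 16 * θ ≤ 2 + Cw + n + 16 * θ := by linarith
  refine ⟨θ, 1 / (2 * ((n : ℝ) + 1)), (1/4) ^ (n + 1), 2 + Cw + n + 16 * θ, hθ0, by positivity,
    by positivity, pow_le_one₀ (by norm_num) (by norm_num), by linarith, ?_⟩
  intro a b A0 ε M0 ha hb hb2 hA0 hε
  -- exponents
  obtain ⟨ε3, ε1, hε3, hε1, h3n, h3, h3', h31, h11, hkR, hkG, hkF, hε1n, hε12⟩ :=
    exps n kR kG kF hε
  -- the dilation of the tower
  obtain ⟨A1, K1F, hF1⟩ := hF' a b A0 ε1 M0 ⟨ha, hb, hb2, hA0, hε1⟩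
  obtain ⟨A, hA1, hAA⟩ : ∃ A : ℝ, 1 ≤ A ∧ A1 ≤ A := ⟨max 1 A1, le_max_left _ _, le_max_right _ _⟩
  have hRg : Rg a b A ε1 := ⟨ha, hb, hb2, hA1, hε1⟩
  obtain ⟨kS, naS, 𝒜S, pv, tn, CpS, hCpS, hokS, hpvS, K1S, hS2⟩ :=
    hS n a b A ε1 M0 ((n : ℝ) + 2) hRg
  obtain ⟨kT, naT, 𝒜T, p, CpT, hCpT, hokT, hpT, K1T, hT2⟩ :=
    hT n Lw a b A ε1 M0 ((n : ℝ) + 2) hRg
  obtain ⟨𝒜, na, hok, hdec⟩ := pair_aux hokS hokT
  obtain ⟨ε2, hε2, hε22, hk2⟩ := exps2 (kR + kG + kF + kS + kT) hε3 h31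
  obtain ⟨K1G, hG1⟩ := hG' a b A ε1 M0 ((n : ℝ) + 2) hRg
  obtain ⟨K0, hK0F, hK0S, hK0T, hK0G⟩ : ∃ K0 : ℕ, K1F ≤ K0 ∧ K1S ≤ K0 ∧ K1T ≤ K0 ∧ K1G ≤ K0 :=
    ⟨K1F + K1S + K1T + K1G, by omega, by omega, by omega, by omega⟩
  obtain ⟨A', Cn, CX, hA', hCn, hCX, hTOW'⟩ := hTOW 𝒜 na a b A ε2 M0 ⟨ha, hb, hb2, hA1, hε2⟩
    hok n K0
  obtain ⟨CR, hCR, hR2⟩ := hR' a b A ε1 M0 hRg K0 A' Cn hA' hCn
  obtain ⟨CG, hCG, hG2⟩ := hG1 K0 hK0G A' Cn hA' hCn
  obtain ⟨CF, hCF, hF2⟩ := hF1 A hAA K0 hK0F A' Cn hA' hCn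
  obtain ⟨CS, hCS, hS3⟩ := hS2 K0 hK0S A' Cn hA' hCn
  obtain ⟨CT, hCT, hT3⟩ := hT2 K0 hK0T A' Cn hA' hCn
  -- the constants
  obtain ⟨Cm, CE, hCm1, hCmR, hCmG, hCmF, hCmS, hCmT, hCmX, hCma, hCE1, hCER, hCEG, hCEF, hCES,
    hCET, hCEpS, hCEpT, hCEX⟩ := consts hCR hCG hCF hCS hCT hCX hCpS hCpT ha kR kG kF kS kT
  have zR : 0 ≤ CR := by linarith
  have zG : 0 ≤ CG := by linarith
  have zF : 0 ≤ CF := by linarith
  have zS : 0 ≤ CS := by linarith
  have zT : 0 ≤ CT := by linarith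
  have zE : 0 ≤ CE := by linarith
  obtain ⟨Cmain, hCmain⟩ : ∃ C : ℝ, C = CE ^ 2 * ((4 * CE) ^ (6 * n) *
      (1 + (2 * CE) ^ (n + 1) * CE)) + CE := ⟨_, rfl⟩
  have hCmain0 : 0 ≤ Cmain := by rw [hCmain]; positivity
  obtain ⟨Ct, hCt⟩ : ∃ C : ℝ, C = 256 * (Cm ^ ε1⁻¹) ^ |5 + M0 / 2 + q / 4| := ⟨_, rfl⟩
  have hCt0 : 0 ≤ Ct := by rw [hCt]; positivity
  refine ⟨Ct + Cmain, add_nonneg hCt0 hCmain0, ?_⟩
  intro η0 C0 σ g R D d hd0 hd3 hAR hεd h8 hSs s1 s2 hsd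
  obtain ⟨hR1, hd1, dl, hdl0, hdl4, hdlN, hκ, hdlR, hRd, hdlC, hκR, hXR, hXd⟩ :=
    dnum (Lw := Lw) (ε1 := ε1) (Cw := Cw) hd0 hd3 hCw0.le hθ w1 w2 w3 hAR hεd hε1n
  have hR0 : 0 < R := lt_of_lt_of_le one_pos hR1
  have hdl1 : dl < 1 := lt_of_le_of_lt hdl4 (by norm_num)
  have hSS0 : 0 ≤ SS g R D := by
    unfold SS
    have := Ba449.Enc_nonneg g
    positivity
  have hdpow : 1 ≤ d ^ (-(c1 / 2) + K * θ + 1 / (2 * ((n : ℝ) + 1))) :=
    Real.one_le_rpow_of_pos_of_le_one_of_nonpos hd0 hd1 hdex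
  have hr1 : 1 ≤ d * R := by
    rw [mul_comm]
    exact (Real.one_le_rpow hR1 (by norm_num)).trans hRd
  have hrR : d * R ≤ R := mul_le_of_le_one_left hR0.le hd1
  rcases lt_or_ge (R ^ ε1) Cm with hsmall | hlarge
  · -- bounded `R`
    refine (SIG_triv ha hb2.le hq hSs.toSt hr1 hrR hsd).trans (ENNReal.ofReal_le_ofReal ?_)
    exact small_case hR1 hε hε1 hsmall hCt (le_add_of_nonneg_right hCmain0) hSS0 hdpow
  · -- large `R`
    have hε1R : R ^ ε1 ≤ R := by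
      nth_rewrite 2 [← Real.rpow_one R]
      exact Real.rpow_le_rpow_of_exponent_le hR1 (hε12.trans (by norm_num))
    have hbig : ∀ C : ℝ, C ≤ Cm → C ≤ R := fun C h => h.trans (hlarge.trans hε1R)
    have hdlm : ∀ C : ℝ, C ≤ Cm → C * dl ≤ 1 := fun C h => by
      calc C * dl ≤ R ^ ε1 * dl := mul_le_mul_of_nonneg_right (h.trans hlarge) hdl0.le
        _ ≤ R ^ ε1 * R ^ (-ε1) := mul_le_mul_of_nonneg_left hdlR (by positivity)
        _ = 1 := by rw [← Real.rpow_add hR0, add_neg_cancel, Real.rpow_zero]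
    have hκ4 : d ^ θ ≤ dl ^ (4 : ℝ) := by
      rw [hκ]
      exact Real.rpow_le_rpow_of_exponent_ge hdl0 hdl1.le (by linarith only [hLwR])
    have hκdl : d ^ θ ≤ dl := by
      refine hκ4.trans ?_
      nth_rewrite 2 [← Real.rpow_one dl]
      exact Real.rpow_le_rpow_of_exponent_ge hdl0 hdl1.le (by norm_num)
    have hκ0 : 0 < d ^ θ := Real.rpow_pos_of_pos hd0 _
    have h32 : 32 * a * d ^ θ ≤ 1 :=
      (mul_le_mul_of_nonneg_left hκdl (by positivity)).trans (hdlm (32 * a) hCma)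
    have hKp : Kp a R (d ^ θ) := ⟨hκ0, hκdl.trans hdl4, h8, h32, hκR⟩
    have hrn : R ^ (1/2 : ℝ) ≤ R * dl ^ n := by
      refine hRd.trans (mul_le_mul_of_nonneg_left ?_ hR0.le)
      rw [← hdlN, pow_succ]
      exact mul_le_of_le_one_right (by positivity) hdl1.le
    obtain ⟨L, ac, ν, hν1, hνR, hTow, hAcl⟩ := hTOW' (d ^ θ) η0 C0 σ g R D hSs hKp
      (hbig CX hCmX) dl hdl0 hdl1.le hrn
    obtain ⟨⟨ac1, hac1⟩, ⟨ac2, hac2⟩⟩ := hdec _ _ _ _ _ _ _ _ hAcl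
    -- losses
    have hloss : ∀ (C : ℝ) (k : ℕ) (x : ℝ), 0 ≤ C → C * CX ^ k ≤ CE →
        k ≤ kR + kG + kF + kS + kT + 1 → 2 * x ≤ ε3 → C * ν ^ k * R ^ x ≤ CE * R ^ ε3 := by
      intro C k x hC hk hkk hx
      refine (loss_le hC hCX hν1 hνR hR1 (y := ε3) ?_).trans
        (mul_le_mul_of_nonneg_right hk (by positivity))
      have := hk2 k hkk
      linarith only [this, hx]
    have htail : ∀ (C : ℝ) (k : ℕ), 0 ≤ C → C * CX ^ k ≤ CE →
        k ≤ kR + kG + kF + kS + kT + 1 →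
        C * ν ^ k * R ^ (-((n : ℝ) + 2)) * SS g R D ≤
          CE * R ^ (1 - ((n : ℝ) + 2)) * SS g R D := by
      intro C k hC hk hkk
      refine mul_le_mul_of_nonneg_right ?_ hSS0
      refine (loss_le hC hCX hν1 hνR hR1 (y := 1 - ((n : ℝ) + 2)) ?_).trans
        (mul_le_mul_of_nonneg_right hk (by positivity))
      have := hk2 k hkk
      linarith only [this, h31]
    have hνRR : ν ≤ R := by
      refine hνR.trans ?_
      calc CX * R ^ ε2 ≤ R ^ ε1 * R ^ ε2 :=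
            mul_le_mul_of_nonneg_right (hCmX.trans hlarge) (by positivity)
        _ = R ^ (ε1 + ε2) := (Real.rpow_add hR0 _ _).symm
        _ ≤ R ^ (1:ℝ) :=
            Real.rpow_le_rpow_of_exponent_le hR1 (by linarith only [hε12, hε22])
        _ = R := Real.rpow_one R
    have hrle : ∀ t ≤ n, (L t).r = R * dl ^ t := hTow.rad
    have hrs : ∀ t < n, (L (t + 1)).r = dl * (L t).r := fun t ht => by
      rw [hrle t ht.le, hrle (t + 1) (by omega), pow_succ]; ring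
    have hr0 : ∀ t ≤ n, 0 < (L t).r := fun t ht => by rw [hrle t ht]; positivity
    obtain ⟨hTy, hSt⟩ := hS3 (d ^ θ) η0 C0 σ g R D hSs hKp (hbig CS hCmS)
      dl ν hdl0 (hdlm CS hCmS) hdlR hκ4 hν1 hνRR L ac1 hTow hac1 hdlC
    have hTu := hT3 (d ^ θ) η0 C0 σ g R D hSs hKp (hbig CT hCmT)
      dl ν hdl0 (hdlm CT hCmT) hdlR hκ.le hν1 hνRR L ac2 hTow hac2
    have lR := hloss CR kR (kR * ε1) zR hCER (by omega) hkR
    have lG := hloss CG kG (kG * ε1) zG hCEG (by omega) hkG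
    have lF := hloss CF kF (kF * ε1) zF hCEF (by omega) hkF
    have lS := hloss CS kS ε1 zS hCES (by omega) h11
    have lT := hloss CT kT ε1 zT hCET (by omega) h11
    have tG := htail CG kG zG hCEG (by omega)
    have tS := htail CS kS zS hCES (by omega)
    have tT := htail CT kT zT hCET (by omega)
    have lF0 : CF * ν ^ kF ≤ CE * R ^ ε3 := by
      have := hloss CF kF 0 zF hCEF (by omega) (by linarith only [hε3])
      rwa [Real.rpow_zero, mul_one] at this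
    have lν : ν ≤ CE * R ^ ε3 := by
      refine hνR.trans (mul_le_mul hCEX ?_ (by positivity) zE)
      have h2 := hk2 1 (by omega)
      rw [Nat.cast_one, one_mul] at h2
      exact Real.rpow_le_rpow_of_exponent_le hR1 (by linarith only [h2, hε2])
    have hquot : (L n).r / (d * R) = dl⁻¹ := by
      rw [hrle n le_rfl, ← hdlN, pow_succ]
      field_simp
    have hfin := hF2 (d ^ θ) η0 C0 σ g R D hSs hKp (hbig CF hCmF) (L n)
      (hTow.ok n le_rfl) ν hν1 hνRR (hTow.le n le_rfl) (d * R) s1 s2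
      (by rw [mul_comm d R]; exact hRd) (by
        rw [hrle n le_rfl, ← hdlN, pow_succ]
        calc CF * (dl ^ n * dl * R) = (CF * dl) * (R * dl ^ n) := by ring
          _ ≤ 1 * (R * dl ^ n) :=
            mul_le_mul_of_nonneg_right (hdlm CF hCmF) (by positivity)
          _ = R * dl ^ n := one_mul _) hsd
    rw [hquot] at hfin
    have hX0 : 0 < dl⁻¹ := by positivity
    have hfull : dl⁻¹ ^ (c / 2) * dl⁻¹ ^ (c / 2 * n - (4 * K * Lw + 1)) =
        d ^ (-(c1 / 2) + K * θ + 1 / (2 * ((n : ℝ) + 1))) := by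
      rw [← Real.rpow_add hX0, hXd]
      congr 1
      rw [hθ, hcdef]
      field_simp
      ring
    have main := chain_large hn3 hTP hc1 hcc.le hq hqc' hδ0.le hδ4 hCw0.le hCδ hg1 hg2
      hε3 hCE1 hR1 hdl0 hdl1 hSS0 h3n hXR (ac1 := ac1) (ac2 := ac2) (pv := pv R dl)
      (p := p R dl) (tn := tn R) hCpS hCpT hCEpS hCEpT hTow
      (fun k hk => (hR2 (d ^ θ) η0 C0 σ g R D hSs hKp (hbig CR hCmR) (L 1)
          (hTow.ok 1 (by omega)) ν hν1 (hTow.le 1 (by omega)) k hk).trans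
          (ENNReal.ofReal_le_ofReal (by gcongr)))
      (fun t ht1 htn k hk => by
        refine (hG2 (d ^ θ) η0 C0 σ g R D hSs hKp (hbig CG hCmG) (L t)
          (L (t + 1)) (hTow.ok t htn.le) (hTow.ok (t + 1) (by omega)) (hTow.next t htn) ?_ ν hν1
          hνRR (hTow.le t htn.le) (hTow.le (t + 1) (by omega)) k hk).trans ?_
        · rw [hrs t htn, ← mul_assoc]
          exact mul_le_of_le_one_left (hr0 t htn.le).le (hdlm CG hCmG)
        · gcongr)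
      (fun x => hpvS R dl x hdl0 hdl1.le)
      (fun h i j x hhi hij => hpT R dl h i j x hdl0 hdl1.le hhi hij)
      (fun t ht k hk htn => (hTy t ht k hk htn).trans (ENNReal.ofReal_le_ofReal tS))
      (fun t ht k hk h1 h2 h3 h4 h5 h6 => by
        refine (hSt t ht k hk h1 h2 δ hδ0.le hδ4 h3 h4 h5 h6).trans ?_
        have h9 := (hpvS R dl (ac1 (t + 1) ((L (t + 2)).par k)) hdl0 hdl1.le).1
        have h10 := (hpvS R dl (ac1 (t + 2) k) hdl0 hdl1.le).1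
        gcongr)
      (fun h i j l hh1 hhi hij hjl hln hlL k hk hwd => by
        refine (hTu h i j l hh1 hhi hij hjl hln hlL k hk hwd).trans ?_
        have h9 := (hpT R dl h i j (ac2 i (anc L j i k)) hdl0 hdl1.le hhi hij).1
        have h10 := (hpT R dl i j l (ac2 j k) hdl0 hdl1.le hij hjl).1
        gcongr)
      zF hν1 h3 h3' lF lν lF0 hfull hdpow hCmain.ge hfin
    refine main.trans (ENNReal.ofReal_le_ofReal ?_)
    gcongr
    exact le_add_of_nonneg_left hCt0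

end Crest.Agent.R116.GlC210
end

-- ▼ part R116/Gen1_126
section

/-!
# R116 (S0155), wave side: the local half of GEN / ROOT / FIN (helper126)

* `SS_le_sl` : `SS (G w k) r D ≤ Cn (r √D) enc (sl w k)` for a label of a level.
* `St.mono_b` : larger slopes.
* **`loc_A2k`** : `A2k` applied to the parent piece `L.G w k` of a level: every plate system of a finer
  level `r2` in the frame `w` is bounded by the normalised energy of the parent selection.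
-/

set_option autoImplicit false

open MeasureTheory FourierTransform
open scoped ENNReal

namespace Crest.Agent.R116.Gen126

open Crest.Agent.R138.Defs (E2 ee)
open Crest.Agent.R138.Wpk685 (cen caps)
open Crest.Agent.R116.CDef480 Crest.Agent.R116.WC188 Crest.Agent.R116.GlC210
open Crest.Agent.R116.LZg725 (Cf)

/-- enlarging the bound of the slopes. -/
theorem St_mono_b {M κ q a b b' M0 : ℝ} {C0 : E2} {σ : ℝ} {g : E3 → ℂ} {R D : ℝ}
    (h : St M κ q a b M0 C0 σ g R D) (hb : b ≤ b') : St M κ q a b' M0 C0 σ g R D :=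
  { meas := h.meas
    bdd := h.bdd
    supp := fun ζ hζ => ⟨(h.supp ζ hζ).1, (h.supp ζ hζ).2.1, (h.supp ζ hζ).2.2.1.trans hb,
      (h.supp ζ hζ).2.2.2⟩
    R1 := h.R1
    D0 := h.D0
    box := h.box
    nd := h.nd }

section lev

variable {M κ q A A' a b Cn : ℝ} {K : ℕ} {η0 : ℝ} {C0 : E2} {σ : ℝ} {g : E3 → ℂ} {R : ℝ} {L : Lev}

/-- the normalising quantity of a piece is bounded by the energy of its selection. -/
theorem SS_le_sl (h : LevOk M κ q A A' a b Cn K η0 C0 σ g R L) (hR : 1 ≤ R) {k : ℕ}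
    (hk : k < L.n) {w : E3 × ℝ} (hw : w ∈ L.Z) :
    ENNReal.ofReal (SS (L.G w k) L.r (L.D w k)) ≤ ENNReal.ofReal Cn *
      (ENNReal.ofReal (L.r * √(L.D w k)) * enc (L.r ^ (-(1/2) : ℝ)) (trc w g) (L.sl w k)) := by
  have hr := TuL890.lev_r1 h hR
  have hr0 : 0 < L.r := by linarith
  obtain ⟨cls, hd⟩ := h.dec w hw
  have hkΛ : k ∈ Finset.range L.n := Finset.mem_range.2 hk
  have he := hd.energy k hkΛ
  rw [← TuL890.enc_sl h hk hw] at he
  have e1 : SS (L.G w k) L.r (L.D w k) = (L.r * √(L.D w k)) * Enc (L.G w k) := by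
    unfold SS; ring
  rw [e1, ENNReal.ofReal_mul (by positivity)]
  calc _ ≤ ENNReal.ofReal (L.r * √(L.D w k)) * (ENNReal.ofReal Cn *
        enc (L.r ^ (-(1/2) : ℝ)) (trc w g) (L.sl w k)) := by gcongr
    _ = _ := by ring

end lev

/-- the plate value is at most `SIG`. -/
theorem val_le_SIG {M κ A r s1 s2 : ℝ} {g : E3 → ℂ} {R : ℝ} {I : Finset ℕ} {P : ℕ → Plate}
    (h : Plates M κ A r s1 s2 R I P) : val κ g r s1 s2 I P ≤ SIG M κ A r s1 s2 g R := by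
  unfold SIG
  exact le_iSup_of_le I (le_iSup_of_le P (le_iSup_of_le h le_rfl))

/-- **the local half of GEN**: `A2k` for the parent piece. -/
theorem loc_A2k {M q : ℝ} (hA2 : A2k M q) {c : ℝ} (hc : 0 ≤ c) (hLB : LB M q c) :
    ∃ K2 : ℝ, 0 ≤ K2 ∧ ∀ a b A ε : ℝ, Rg a b A ε → ∀ A' Cn : ℝ, 1 ≤ A' → 1 ≤ Cn →
    ∃ C : ℝ, 1 ≤ C ∧ ∀ (κ η0 : ℝ) (C0 : E2) (σ : ℝ) (g : E3 → ℂ) (R : ℝ), Kp a R κ → C ≤ R →
      ∀ (K : ℕ) (L : Lev), LevOk M κ q A A' a b Cn K η0 C0 σ g R L →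
      ∀ w ∈ L.Z, ∀ k < L.n, ∀ r2 s1 s2 : ℝ, R ^ (1/2 : ℝ) ≤ r2 → r2 ≤ L.r → Sd r2 s1 s2 →
      ∀ (I' : Finset ℕ) (P' : ℕ → Plate), Plates M κ A' r2 s1 s2 L.r I' P' →
      ENNReal.ofReal (s2 ^ (-q / 2)) * val κ (L.G w k) r2 s1 s2 I' P' ≤
        ENNReal.ofReal (C * L.r ^ (K2 * ε) * (max 1 (L.r / (s1 * r2) ^ 2)) ^ (c / 2)) *
        (ENNReal.ofReal (L.r * √(L.D w k)) *
          enc (L.r ^ (-(1/2) : ℝ)) (trc w g) (L.sl w k)) := by
  obtain ⟨K2, hK2, h2⟩ := hA2 c hc hLB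
  refine ⟨K2, hK2, ?_⟩
  intro a b A ε hRg A' Cn hA' hCn
  have ha := hRg.a1
  have hb := hRg.b0
  have hb2 := hRg.b2
  obtain ⟨C2, hC2, h3⟩ := h2 (2 * a) ((b + 2) / 2) A' ε 4 (by linarith) (by linarith)
    (by linarith) hA' hRg.e0
  refine ⟨C2 * Cn + (6 / (2 - b)) ^ 4 + 1, by
    have h1 : 0 ≤ C2 * Cn := by positivity
    have h4 : 0 ≤ (6 / (2 - b)) ^ 4 := by positivity
    linarith, ?_⟩
  intro κ η0 C0 σ g R hKp hCR K L hL w hw k hk r2 s1 s2 hr2 hr2L hSd I' P' hP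
  have hb4 : 0 ≤ (6 / (2 - b)) ^ 4 := by positivity
  have hCC : 0 ≤ C2 * Cn := by positivity
  have hR1 : 1 ≤ R := by linarith
  have hR0 : 0 < R := by linarith
  have hr := TuL890.lev_r1 hL hR1
  have hr0 : 0 < L.r := by linarith
  obtain ⟨cls, hd⟩ := hL.dec w hw
  have hkΛ : k ∈ Finset.range L.n := Finset.mem_range.2 hk
  have hρ1 : L.r ^ (-(1/2) : ℝ) ≤ R ^ (-(1/4) : ℝ) := by
    have e1 : R ^ (-(1/4) : ℝ) = (R ^ (1/2 : ℝ)) ^ (-(1/2) : ℝ) := by
      rw [← Real.rpow_mul hR0.le]; norm_num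
    rw [e1]
    exact Real.rpow_le_rpow_of_nonpos (Real.rpow_pos_of_pos hR0 _) hL.lo (by norm_num)
  have hρ2 : 3 * L.r ^ (-(1/2) : ℝ) ≤ (2 - b) / 2 := by
    have h5 : 6 / (2 - b) ≤ R ^ (1/4 : ℝ) := by
      have h6 : (6 / (2 - b)) ^ 4 ≤ R := by linarith
      have h7 : ((6 / (2 - b)) ^ 4) ^ (1/4 : ℝ) ≤ R ^ (1/4 : ℝ) :=
        Real.rpow_le_rpow hb4 h6 (by norm_num)
      rw [← Real.rpow_natCast, ← Real.rpow_mul (by
        have : 0 < 2 - b := by linarith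
        positivity)] at h7
      norm_num at h7
      exact h7
    have h8 : 0 < 6 / (2 - b) := by
      have : 0 < 2 - b := by linarith
      positivity
    have h9 : R ^ (-(1/4) : ℝ) ≤ (6 / (2 - b))⁻¹ := by
      rw [Real.rpow_neg hR0.le]
      exact inv_anti₀ h8 h5
    rw [inv_div] at h9
    linarith
  have hst : St M κ q (2 * a) ((b + 2) / 2) 4 C0 (σ + 3 * L.r ^ (-(1/2) : ℝ))
      (L.G w k) L.r (L.D w k) := St_mono_b (hd.st k hkΛ) (by linarith)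
  have hκr : L.r ^ (-(1/4) : ℝ) ≤ κ := by
    refine le_trans ?_ hKp.kR
    have e1 : (R ^ (1/2 : ℝ)) ^ (-(1/4) : ℝ) = R ^ (-(1/8) : ℝ) := by
      rw [← Real.rpow_mul hR0.le]; norm_num
    calc L.r ^ (-(1/4) : ℝ) ≤ (R ^ (1/2 : ℝ)) ^ (-(1/4) : ℝ) :=
          Real.rpow_le_rpow_of_nonpos (Real.rpow_pos_of_pos hR0 _) hL.lo (by norm_num)
      _ = R ^ (-(1/8) : ℝ) := e1
      _ ≤ R ^ (-(1/16) : ℝ) := Real.rpow_le_rpow_of_exponent_le hR1 (by norm_num)
  have hκa : 8 * (2 * a) * κ ≤ 1 := by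
    have := hKp.kb
    have h0 := hKp.k0
    nlinarith [mul_pos (by linarith : (0:ℝ) < a) h0]
  have hr2' : L.r ^ (1/2 : ℝ) ≤ r2 :=
    (Real.rpow_le_rpow hr0.le hL.hi (by norm_num)).trans hr2
  have h4 := h3 κ η0 C0 _ (L.G w k) L.r (L.D w k) hKp.k0 hκa hκr hst (hd.slc k hkΛ) r2 s1 s2
    hr2' hr2L hSd
  have hm0 : 0 ≤ (max 1 (L.r / (s1 * r2) ^ 2)) ^ (c / 2) := by positivity
  calc ENNReal.ofReal (s2 ^ (-q / 2)) * val κ (L.G w k) r2 s1 s2 I' P'
      ≤ ENNReal.ofReal (s2 ^ (-q / 2)) * SIG M κ A' r2 s1 s2 (L.G w k) L.r := by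
        gcongr
        exact val_le_SIG hP
    _ ≤ ENNReal.ofReal (C2 * L.r ^ (K2 * ε) * (max 1 (L.r / (s1 * r2) ^ 2)) ^ (c / 2) *
        SS (L.G w k) L.r (L.D w k)) := h4
    _ = ENNReal.ofReal (C2 * L.r ^ (K2 * ε) * (max 1 (L.r / (s1 * r2) ^ 2)) ^ (c / 2)) *
        ENNReal.ofReal (SS (L.G w k) L.r (L.D w k)) := by
        rw [ENNReal.ofReal_mul (by positivity)]
    _ ≤ ENNReal.ofReal (C2 * L.r ^ (K2 * ε) * (max 1 (L.r / (s1 * r2) ^ 2)) ^ (c / 2)) *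
        (ENNReal.ofReal Cn * (ENNReal.ofReal (L.r * √(L.D w k)) *
          enc (L.r ^ (-(1/2) : ℝ)) (trc w g) (L.sl w k))) := by
        gcongr
        exact SS_le_sl hL hR1 hk hw
    _ = ENNReal.ofReal (C2 * Cn * L.r ^ (K2 * ε) * (max 1 (L.r / (s1 * r2) ^ 2)) ^ (c / 2)) *
        (ENNReal.ofReal (L.r * √(L.D w k)) *
          enc (L.r ^ (-(1/2) : ℝ)) (trc w g) (L.sl w k)) := by
        rw [← mul_assoc, ← ENNReal.ofReal_mul (by positivity)]
        congr 2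
        ring
    _ ≤ _ := by
        gcongr
        linarith

end Crest.Agent.R116.Gen126
end

-- ▼ part R116/Gen2_126
section

/-!
# R116 (S0155), wave side: `GEN` of `GlC_210` from `A2k` (helper126)

`gen_of_A2k : 0 ≤ q → A2k M q → GEN M q`, from 367's `link` and `loc_A2k`.
-/

set_option autoImplicit false

open MeasureTheory FourierTransform
open scoped ENNReal

namespace Crest.Agent.R116.Gen126

open Crest.Agent.R138.Defs (E2 ee)
open Crest.Agent.R116.CDef480 Crest.Agent.R116.WC188 Crest.Agent.R116.GlC210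

/-- **GEN**. -/
theorem gen_of_A2k {M q : ℝ} (hq : 0 ≤ q) (hA2 : A2k M q) : GEN M q := by
  intro c hc hLB
  obtain ⟨K2, hK2, hloc⟩ := loc_A2k hA2 hc hLB
  refine ⟨4 + ⌈K2⌉₊, ?_⟩
  intro a b A ε M0 T hRg
  refine ⟨⌈15 + |M0| + |T| + q⌉₊, ?_⟩
  intro K hK A' Cn hA' hCn
  have ha := hRg.a1
  have hb2 := hRg.b2
  have hε := hRg.e0
  obtain ⟨C1, hC1, hl⟩ := hloc a b A ε hRg A' Cn hA' hCn
  obtain ⟨C2, hC2, hlk⟩ := Lk367.link q a b A' Cn M0 T ha hb2.le hq hA' (by linarith)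
  have hC12 : 1 ≤ C1 * C2 := by nlinarith
  refine ⟨C1 * C2 + C1 + C2 + A', by linarith, ?_⟩
  intro κ η0 C0 σ g R D hSs hKp hCR L L' hL hL' hN hr ν hν hνR hl1 hl2 k hk
  have hR := hSs.R1
  have hR0 : 0 < R := by linarith
  have hr1 := TuL890.lev_r1 hL hR
  have hr1' := TuL890.lev_r1 hL' hR
  have hKK : 15 + |M0| + |T| + q ≤ K := (Nat.le_ceil _).trans (by exact_mod_cast hK)
  have hAr : A' * L'.r ≤ L.r := le_trans (by nlinarith) hr
  have hrr : L'.r ≤ L.r := le_trans (by nlinarith) hAr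
  have hR1C : C1 ≤ R := by linarith
  have key := hlk M κ A K η0 C0 σ g R D hRg.A1 hSs.toSt hKK L L' hL hL' hN hAr ν hν hνR hl1 hl2 k
    hk (ENNReal.ofReal (C1 * L.r ^ (K2 * ε) *
      (max 1 (L.r / ((L'.s k).1 * L'.r) ^ 2)) ^ (c / 2))) 0 (by
      intro w hw I' P' hP _
      rw [add_zero]
      exact hl κ η0 C0 σ g R hKp hR1C K L hL w hw (L'.par k) (hN.par_lt k hk) L'.r (L'.s k).1
        (L'.s k).2 hL'.lo hrr (hL'.sd k hk) I' P' hP)
  refine key.trans ?_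
  rw [mul_zero, add_zero, ← mul_assoc, ← ENNReal.ofReal_mul (by positivity)]
  have hE : 0 ≤ SS g R D := by
    unfold SS
    have := Tr126.Enc_nonneg g
    positivity
  set X : ℝ := (max 1 (L.r / ((L'.s k).1 * L'.r) ^ 2)) ^ (c / 2) with hX
  have hX0 : 0 ≤ X := by positivity
  have h1 : L.r ^ (K2 * ε) ≤ R ^ (((4 + ⌈K2⌉₊ : ℕ) : ℝ) * ε) := by
    refine (Real.rpow_le_rpow (by linarith) hL.hi (by positivity)).trans ?_
    refine Real.rpow_le_rpow_of_exponent_le hR ?_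
    have h2 := Nat.le_ceil K2
    have h3 : K2 ≤ ((4 + ⌈K2⌉₊ : ℕ) : ℝ) := by push_cast; linarith
    exact mul_le_mul_of_nonneg_right h3 hε.le
  have h4 : ν ^ 4 ≤ ν ^ (4 + ⌈K2⌉₊) := pow_le_pow_right₀ hν (by omega)
  have hCpos : 0 ≤ C1 * C2 + C1 + C2 + A' := by linarith
  refine add_le_add ?_ ?_
  · refine mul_le_mul_left (ENNReal.ofReal_le_ofReal ?_) _
    calc C2 * ν ^ 4 * (C1 * L.r ^ (K2 * ε) * X)
        ≤ C2 * ν ^ (4 + ⌈K2⌉₊) * (C1 * R ^ (((4 + ⌈K2⌉₊ : ℕ) : ℝ) * ε) * X) := by gcongr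
      _ = (C1 * C2) * ν ^ (4 + ⌈K2⌉₊) * R ^ (((4 + ⌈K2⌉₊ : ℕ) : ℝ) * ε) * X := by ring
      _ ≤ (C1 * C2 + C1 + C2 + A') * ν ^ (4 + ⌈K2⌉₊) * R ^ (((4 + ⌈K2⌉₊ : ℕ) : ℝ) * ε) * X := by
          have : 0 ≤ R ^ (((4 + ⌈K2⌉₊ : ℕ) : ℝ) * ε) := by positivity
          gcongr
          linarith
  · apply ENNReal.ofReal_le_ofReal
    have : 0 ≤ R ^ (-T) := by positivity
    gcongr
    linarith

end Crest.Agent.R116.Gen126
end

-- ▼ part R116/Ex1_963
section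

/-!
# R116 (S0155), wave side: tools for `EXL` (helper963)

* `exists_net` : maximal net of frames with nearest-frame map.
* `exists_enum` : enumeration of a finite set of labels.
* `relabel` : `DecOut` with labels `range n`.
* `DecOut.mono` : monotonicity of `DecOut` in the constants `A'`, `Cn`.
-/

set_option autoImplicit false

open MeasureTheory FourierTransform
open scoped ENNReal

namespace Crest.Agent.R116.Ex963

open Crest.Agent.R138.Defs (E2 ee)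
open Crest.Agent.R138.Wpk685 (cen caps)
open Crest.Agent.R116.CDef480 Crest.Agent.R116.WC188 Crest.Agent.R116.GlC210
open Crest.Agent.R116.LZg725 (Cf)

/-! ### nets -/

theorem exists_net_aux {r R : ℝ} (hr : 1 ≤ r) (hR : r ≤ R) :
    ∃ (Z : Finset (E3 × ℝ)) (ζ : E3 × ℝ → E3 × ℝ), Net r R Z ∧
      ∀ p ∈ cylc R, ζ p ∈ Z ∧ p - ζ p ∈ cylc r := by
  classical
  have hr0 : 0 < r := by linarith
  -- the cardinalities of nets are bounded
  set S : Set ℕ := {n | ∃ Z : Finset (E3 × ℝ), Net r R Z ∧ Z.card = n} with hS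
  have hne : S.Nonempty := ⟨0, ∅, ⟨by simp, by simp⟩, rfl⟩
  have hbd : BddAbove S := by
    refine ⟨⌈(11 * R) ^ 4⌉₊, ?_⟩
    rintro n ⟨Z, hZ, rfl⟩
    have h1 := Crest.Agent.R116.A1k229.net_card hr hR hZ
    exact_mod_cast h1.trans (Nat.le_ceil _)
  obtain ⟨Z, hZ, hcard⟩ := Nat.sSup_mem hne hbd
  have hmax : ∀ Z' : Finset (E3 × ℝ), Net r R Z' → Z'.card ≤ Z.card := by
    intro Z' hZ'
    rw [hcard]
    exact le_csSup hbd ⟨Z', hZ', rfl⟩
  have hnear : ∀ p ∈ cylc R, ∃ z ∈ Z, p - z ∈ cylc r := by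
    intro p hp
    by_contra hc
    push Not at hc
    have hfar : ∀ z ∈ Z, r ≤ ‖p.1 - z.1‖ ∨ r ≤ |p.2 - z.2| := by
      intro z hz
      by_contra h
      push Not at h
      exact hc z hz ⟨h.1.le, h.2.le⟩
    have hpZ : p ∉ Z := by
      intro h
      rcases hfar p h with h1 | h1
      · simp at h1; linarith
      · simp at h1; linarith
    have hnet : Net r R (insert p Z) := by
      refine ⟨?_, ?_⟩
      · intro z hz
        rcases Finset.mem_insert.1 hz with rfl | h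
        · exact hp
        · exact hZ.mem z h
      · intro z hz z' hz'
        rcases Finset.mem_insert.1 hz with rfl | h
        · rcases Finset.mem_insert.1 hz' with rfl | h'
          · exact Or.inl rfl
          · exact Or.inr (hfar z' h')
        · rcases Finset.mem_insert.1 hz' with rfl | h'
          · right
            rcases hfar z h with h2 | h2
            · left; rwa [norm_sub_rev]
            · right; rwa [abs_sub_comm]
          · exact hZ.sep z h z' h'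
    have h3 := hmax _ hnet
    rw [Finset.card_insert_of_notMem hpZ] at h3
    omega
  choose! ζ hζ1 hζ2 using hnear
  exact ⟨Z, ζ, hZ, fun p hp => ⟨hζ1 p hp, hζ2 p hp⟩⟩

/-- maximal nets of frames. -/
theorem exists_net {r R : ℝ} (hr : 1 ≤ r) (hR : 0 ≤ R) :
    ∃ (Z : Finset (E3 × ℝ)) (ζ : E3 × ℝ → E3 × ℝ), Net r R Z ∧
      ∀ p ∈ cylc R, ζ p ∈ Z ∧ p - ζ p ∈ cylc r := by
  rcases le_total r R with h | h
  · exact exists_net_aux hr h
  · refine ⟨{0}, fun _ => 0, ⟨?_, ?_⟩, ?_⟩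
    · intro z hz
      rw [Finset.mem_singleton.1 hz]
      exact ⟨by simpa using hR, by simpa using hR⟩
    · intro z hz z' hz'
      exact Or.inl ((Finset.mem_singleton.1 hz).trans (Finset.mem_singleton.1 hz').symm)
    · intro p hp
      refine ⟨Finset.mem_singleton_self _, ?_⟩
      rw [sub_zero]
      exact ⟨hp.1.trans h, hp.2.trans h⟩

/-! ### enumeration of the labels -/

/-- enumeration of a finite set of labels. -/
structure Enum (Λ : Finset ℕ) (e : ℕ → ℕ) : Prop where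
  mem : ∀ i < Λ.card, e i ∈ Λ
  inj : ∀ i < Λ.card, ∀ j < Λ.card, e i = e j → i = j
  sur : ∀ k ∈ Λ, ∃ i < Λ.card, e i = k


/-! ### relabelling of a decomposition -/

theorem sum_enum {Λ : Finset ℕ} {n : ℕ} {e : ℕ → ℕ} (he : ∀ i < n, e i ∈ Λ)
    (hi : ∀ i < n, ∀ j < n, e i = e j → i = j) (hs : ∀ k ∈ Λ, ∃ i < n, e i = k)
    {β : Type*} [AddCommMonoid β] (f : ℕ → β) :
    ∑ k ∈ Λ, f k = ∑ i ∈ Finset.range n, f (e i) := by
  classical
  have h1 : Λ = (Finset.range n).image e := by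
    ext k
    rw [Finset.mem_image]
    constructor
    · intro hk
      obtain ⟨i, hi', h⟩ := hs k hk
      exact ⟨i, Finset.mem_range.2 hi', h⟩
    · rintro ⟨i, hi', rfl⟩
      exact he i (Finset.mem_range.1 hi')
  rw [h1, Finset.sum_image]
  intro i hi' j hj h
  exact hi i (Finset.mem_range.1 hi') j (Finset.mem_range.1 hj) h

theorem relabel {M κ q A A' a b Cn : ℝ} {nb K : ℕ} {η0 : ℝ} {C0 : E2} {σ : ℝ} {g : E3 → ℂ}
    {R r : ℝ} {z : E3 × ℝ} {cls : Cf E2 → ℤ × ℤ → E3 → ℕ} {Λ : Finset ℕ} {s : ℕ → ℝ × ℝ}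
    {cl : ℕ → ℕ} {G : ℕ → E3 → ℂ} {D' : ℕ → ℝ} {rest : E3 → ℂ} {I : ℕ → Finset ℕ}
    {P : ℕ → ℕ → Plate}
    (h : DecOut M κ q A A' a b Cn nb K η0 C0 σ g R r z cls Λ s cl G D' rest I P)
    {n : ℕ} {e : ℕ → ℕ} (he : ∀ i < n, e i ∈ Λ)
    (hi : ∀ i < n, ∀ j < n, e i = e j → i = j) (hs : ∀ k ∈ Λ, ∃ i < n, e i = k) :
    DecOut M κ q A A' a b Cn nb K η0 C0 σ g R r z cls (Finset.range n) (fun k => s (e k))
      (fun k => cl (e k)) (fun k => G (e k)) (fun k => D' (e k)) rest (fun k => I (e k))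
      (fun k => P (e k)) where
  sum := fun ζ => by rw [h.sum ζ, sum_enum he hi hs]
  eq := fun k hk => h.eq _ (he k (Finset.mem_range.1 hk))
  st := fun k hk => h.st _ (he k (Finset.mem_range.1 hk))
  slc := fun k hk => h.slc _ (he k (Finset.mem_range.1 hk))
  sub := fun k hk => h.sub _ (he k (Finset.mem_range.1 hk))
  dens := fun k hk => h.dens _ (he k (Finset.mem_range.1 hk))
  bd := fun k hk => h.bd _ (he k (Finset.mem_range.1 hk))
  cp := fun k hk => h.cp _ (he k (Finset.mem_range.1 hk))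
  disj := fun k hk k' hk' hne => h.disj _ (he k (Finset.mem_range.1 hk)) _
    (he k' (Finset.mem_range.1 hk'))
    (fun h' => hne (hi k (Finset.mem_range.1 hk) k' (Finset.mem_range.1 hk') h'))
  pl := fun k hk => h.pl _ (he k (Finset.mem_range.1 hk))
  cls := fun k hk => h.cls _ (he k (Finset.mem_range.1 hk))
  dense := fun k hk => h.dense _ (he k (Finset.mem_range.1 hk))
  energy := fun k hk => h.energy _ (he k (Finset.mem_range.1 hk))
  ss := fun k hk => h.ss _ (he k (Finset.mem_range.1 hk))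
  rmeas := h.rmeas
  rbdd := h.rbdd
  rsupp := h.rsupp
  ren := h.ren
  small := h.small

/-! ### monotonicity in the constants -/




/-- monotonicity in `Cn`. -/
theorem mono_Cn {M κ q A A' a b Cn Cn' : ℝ} {nb K : ℕ} {η0 : ℝ} {C0 : E2} {σ : ℝ}
    {g : E3 → ℂ} {R r : ℝ} {z : E3 × ℝ} {cls : Cf E2 → ℤ × ℤ → E3 → ℕ} {Λ : Finset ℕ}
    {s : ℕ → ℝ × ℝ} {cl : ℕ → ℕ} {G : ℕ → E3 → ℂ} {D' : ℕ → ℝ} {rest : E3 → ℂ}
    {I : ℕ → Finset ℕ} {P : ℕ → ℕ → Plate} (hC : Cn ≤ Cn') (hR : 0 ≤ R)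
    (h : DecOut M κ q A A' a b Cn nb K η0 C0 σ g R r z cls Λ s cl G D' rest I P) :
    DecOut M κ q A A' a b Cn' nb K η0 C0 σ g R r z cls Λ s cl G D' rest I P where
  sum := h.sum
  eq := h.eq
  st := h.st
  slc := h.slc
  sub := h.sub
  dens := h.dens
  bd := h.bd
  cp := h.cp
  disj := h.disj
  pl := h.pl
  cls := h.cls
  dense := fun k hk i hi => (h.dense k hk i hi).trans (by gcongr)
  energy := fun k hk => (h.energy k hk).trans (by gcongr)
  ss := fun k hk => (h.ss k hk).trans (by gcongr)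
  rmeas := h.rmeas
  rbdd := h.rbdd
  rsupp := h.rsupp
  ren := h.ren.trans (mul_le_mul_of_nonneg_right hC (integral_nonneg fun _ => by positivity))
  small := fun r' h1 h2 z' hz' m y hy => (h.small r' h1 h2 z' hz' m y hy).trans (by
    have : 0 ≤ R ^ (-(K : ℝ)) := Real.rpow_nonneg hR _
    gcongr)

end Crest.Agent.R116.Ex963
end

-- ▼ part R116/Ex2_299
section

/-!
# R116 (S0155), wave side, CHAIN-C (helper299): existence of levels, `EXL` from `DECc`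

* `pad`: an empty decomposition gets one empty label (`1 ≤ L.n`).
* `build`: a level from `DECc` at every frame of a net, relabelled by `range n`.
* `exl : DECc M q → EXL M q`.
-/

set_option autoImplicit false

open MeasureTheory FourierTransform
open scoped ENNReal

namespace Crest.Agent.R116.Ex299

open Crest.Agent.R138.Defs (E2 ee)
open Crest.Agent.R138.Wpk685 (cen caps)
open Crest.Agent.R116.CDef480 Crest.Agent.R116.WC188 Crest.Agent.R116.GlC210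
open Crest.Agent.R116.LZg725 (Cf)

/-! ### the zero function -/

theorem enc_zero (ρ : ℝ) (S : ℤ × ℤ → Set E3) : enc ρ (fun _ => 0) S = 0 := by
  unfold enc
  refine Finset.sum_eq_zero fun m _ => ?_
  have h : umc ρ (fun _ => 0) m = fun _ => 0 := by
    funext x
    unfold umc
    simp [Real.fourierInv_eq']
  simp [h]

theorem enc_empty (ρ : ℝ) (g : E3 → ℂ) {S : ℤ × ℤ → Set E3} (h : ∀ m, S m ⊆ ∅) :
    enc ρ g S = 0 := by
  unfold enc
  refine Finset.sum_eq_zero fun m _ => ?_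
  rw [Set.subset_empty_iff.1 (h m)]
  simp

theorem Enc_zero : Enc (fun _ : E3 => (0 : ℂ)) = 0 := by
  unfold Enc
  simp

theorem pbx_zero (M κ q r D : ℝ) : PBx M κ q r (fun _ => 0) D := by
  intro c X0 f s1 s2 _ _
  rw [enc_zero]
  exact zero_le

theorem uS_empty (P : ℕ → Plate) : uS ∅ P = fun _ => ∅ := by
  funext m
  simp [uS]

/-- an empty plate. -/
noncomputable def plt0 : Plate := ⟨0, 0, 0, ⟨0, 0, 0, 0, 0⟩, fun _ => ∅⟩

/-- padding of an empty decomposition by one empty label. -/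
theorem pad {M κ q A A' a b Cn : ℝ} {nb K : ℕ} {η0 : ℝ} {C0 : E2} {σ : ℝ} {g : E3 → ℂ} {R r : ℝ}
    (hr : 1 ≤ r) {z : E3 × ℝ} {cls : Cf E2 → ℤ × ℤ → E3 → ℕ} {s : ℕ → ℝ × ℝ} {cl : ℕ → ℕ}
    {G : ℕ → E3 → ℂ} {D' : ℕ → ℝ} {rest : E3 → ℂ} {I : ℕ → Finset ℕ} {P : ℕ → ℕ → Plate}
    (h : DecOut M κ q A A' a b Cn nb K η0 C0 σ g R r z cls ∅ s cl G D' rest I P)
    (s' : ℕ → ℝ × ℝ) (cl' : ℕ → ℕ) :
    DecOut M κ q A A' a b Cn nb K η0 C0 σ g R r z cls (Finset.range 1) s' cl'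
      (fun _ _ => 0) (fun _ => 0) rest (fun _ => ∅) (fun _ _ => plt0) where
  sum := fun ζ => by
    have := h.sum ζ
    simpa using this
  eq := fun k _ => by
    rw [uS_empty, Bas367.selc_empty]
  st := fun k _ =>
    { meas := measurable_const
      bdd := ⟨0, fun ζ => by simp⟩
      supp := fun ζ hζ => absurd rfl hζ
      R1 := hr
      D0 := le_rfl
      box := pbx_zero _ _ _ _ _
      nd := by rw [Enc_zero, mul_zero] }
  slc := fun k _ ζ hζ => absurd rfl hζ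
  sub := fun k _ S' _ hS' => by
    have h1 : S' = fun _ => ∅ := by
      funext m
      have := hS' m
      rw [uS_empty] at this
      exact Set.subset_empty_iff.1 this
    rw [h1, Bas367.selc_empty]
    exact pbx_zero _ _ _ _ _
  dens := fun k _ c X0 f s1 s2 _ _ => by
    rw [enc_empty]
    · exact zero_le
    · intro m
      rw [uS_empty]
      exact Set.inter_subset_left
  bd := fun k _ m => by
    rw [uS_empty]
    exact Set.empty_subset _
  cp := fun k _ m _ => by rw [uS_empty]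
  disj := fun k hk k' hk' hne => by
    rw [Finset.mem_range] at hk hk'
    omega
  pl := fun k _ => ⟨⟨by simp, by simp, by simp, by simp, by simp, by simp, by simp, by simp⟩,
    by simp⟩
  cls := fun k _ i hi => by simp at hi
  dense := fun k _ i hi => by simp at hi
  energy := fun k _ => by
    rw [Enc_zero, ENNReal.ofReal_zero]
    exact zero_le
  ss := fun k _ => by
    unfold SS
    rw [Enc_zero, mul_zero, zero_mul, ENNReal.ofReal_zero]
    exact zero_le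
  rmeas := h.rmeas
  rbdd := h.rbdd
  rsupp := h.rsupp
  ren := h.ren
  small := h.small

/-! ### one level -/

theorem build {M κ q A A' a b Cn : ℝ} {K : ℕ} {η0 : ℝ} {C0 : E2} {σ : ℝ} {g : E3 → ℂ} {R : ℝ}
    {r' : ℝ} {nb : ℕ} (hnb : 1 ≤ nb) (hR : 1 ≤ R) (hlo : R ^ (1/2 : ℝ) ≤ r') (hhi : r' ≤ R)
    {Λ : Finset ℕ} {s : ℕ → ℝ × ℝ} {cl : ℕ → ℕ} {B : ℝ} (hB : 1 ≤ B) (hcard : (Λ.card : ℝ) ≤ B)
    (hsd : ∀ k ∈ Λ, Sd r' (s k).1 (s k).2) (hcl : ∀ k ∈ Λ, cl k < nb)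
    {Z : Finset (E3 × ℝ)} {ζ : E3 × ℝ → E3 × ℝ} (hnet : Net r' R Z)
    (hnear : ∀ p ∈ cylc R, ζ p ∈ Z ∧ p - ζ p ∈ cylc r')
    (fpar : ℕ → ℕ) (cls : E3 × ℝ → Cf E2 → ℤ × ℤ → E3 → ℕ)
    (hdec : ∀ z ∈ Z, ∃ (G : ℕ → E3 → ℂ) (D' : ℕ → ℝ) (rest : E3 → ℂ) (I : ℕ → Finset ℕ)
      (P : ℕ → ℕ → Plate),
      DecOut M κ q A A' a b Cn nb K η0 C0 σ g R r' z (cls z) Λ s cl G D' rest I P) :
    ∃ L' : Lev, L'.r = r' ∧ LevOk M κ q A A' a b Cn K η0 C0 σ g R L' ∧ L'.nb = nb ∧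
      (L'.n : ℝ) ≤ B ∧ (∀ k < L'.n, L'.cl k < nb) ∧ (∀ k, L'.par k = fpar (L'.cl k)) ∧ L'.Z = Z ∧
      ∀ z ∈ Z, ∀ k < L'.n, ∀ i ∈ L'.I z k, ∀ m, ∀ y ∈ (L'.P z k i).S m,
        cls z (L'.P z k i).f m y = L'.cl k := by
  classical
  have hr1 : 1 ≤ r' := le_trans (Real.one_le_rpow hR (by norm_num)) hlo
  -- relabelled data
  obtain ⟨n, s', cl', hn1, hnB, hsd', hcl', hdec'⟩ : ∃ (n : ℕ) (s' : ℕ → ℝ × ℝ) (cl' : ℕ → ℕ),
      1 ≤ n ∧ (n : ℝ) ≤ B ∧ (∀ k < n, Sd r' (s' k).1 (s' k).2) ∧ (∀ k < n, cl' k < nb) ∧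
      ∀ z ∈ Z, ∃ (G : ℕ → E3 → ℂ) (D' : ℕ → ℝ) (rest : E3 → ℂ) (I : ℕ → Finset ℕ)
        (P : ℕ → ℕ → Plate), DecOut M κ q A A' a b Cn nb K η0 C0 σ g R r' z (cls z)
          (Finset.range n) s' cl' G D' rest I P := by
    by_cases hΛ : Λ = ∅
    · refine ⟨1, fun _ => (1, 1), fun _ => 0, le_rfl, by simpa using hB, fun k _ => ?_,
        fun k _ => hnb, fun z hz => ?_⟩
      · exact ⟨Real.rpow_le_one_of_one_le_of_nonpos hr1 (by norm_num), le_rfl, le_rfl⟩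
      · obtain ⟨G, D', rest, I, P, h⟩ := hdec z hz
        rw [hΛ] at h
        exact ⟨_, _, _, _, _, pad hr1 h _ _⟩
    · have hc : 1 ≤ Λ.card := Finset.card_pos.2 (Finset.nonempty_iff_ne_empty.2 hΛ)
      set e0 := Λ.equivFin.symm with he0
      obtain ⟨x0, hx0⟩ := Finset.nonempty_iff_ne_empty.2 hΛ
      set e : ℕ → ℕ := fun i => if hi : i < Λ.card then (e0 ⟨i, hi⟩ : ℕ) else x0 with he
      have hee : ∀ i (hi : i < Λ.card), e i = (e0 ⟨i, hi⟩ : ℕ) := fun i hi => by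
        simp only [he, dif_pos hi]
      have hmem : ∀ i < Λ.card, e i ∈ Λ := fun i hi => by
        rw [hee i hi]
        exact (e0 ⟨i, hi⟩).2
      have hinj : ∀ i < Λ.card, ∀ j < Λ.card, e i = e j → i = j := fun i hi j hj hij => by
        rw [hee i hi, hee j hj] at hij
        have := e0.injective (Subtype.ext hij)
        simpa using this
      have hsur : ∀ k ∈ Λ, ∃ i < Λ.card, e i = k := fun k hk => by
        refine ⟨(e0.symm ⟨k, hk⟩ : ℕ), (e0.symm ⟨k, hk⟩).2, ?_⟩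
        rw [hee _ (e0.symm ⟨k, hk⟩).2]
        simp
      refine ⟨Λ.card, fun i => s (e i), fun i => cl (e i), hc, hcard,
        fun k hk => hsd _ (hmem k hk), fun k hk => hcl _ (hmem k hk), fun z hz => ?_⟩
      obtain ⟨G, D', rest, I, P, h⟩ := hdec z hz
      exact ⟨_, _, _, _, _, Ex963.relabel h hmem hinj hsur⟩
  have : Inhabited Plate := ⟨plt0⟩
  choose! G D rest I P h using hdec'
  refine ⟨{ r := r', n := n, nb := nb, s := s', cl := cl', par := fun k => fpar (cl' k), Z := Z,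
            ζ := ζ, G := G, D := D, rest := rest, I := I, P := P }, rfl, ?_, rfl, hnB, hcl',
          fun k => rfl, rfl, ?_⟩
  · exact ⟨hlo, hhi, hn1, hnb, hnet, hnear, hsd', fun z hz => ⟨cls z, h z hz⟩⟩
  · intro z hz k hk i hi m y hy
    exact (h z hz).cls k (Finset.mem_range.2 hk) i hi m y hy

/-- **EXL from DECc**. -/
theorem exl {M q : ℝ} (hD : DECc M q) : EXL M q := by
  intro a b A ε M0 hg K
  obtain ⟨A', Cn, R0, hA', hCn, hR0, H⟩ := hD a b A ε M0 hg.a1 hg.b0 hg.b2 hg.A1 hg.e0 K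
  have ha0 : 0 < a := lt_of_lt_of_le one_pos hg.a1
  set Cm : ℝ := max (max Cn 1) R0 with hCm
  have h1m : 1 ≤ Cm := (le_max_right Cn 1).trans (le_max_left _ _)
  have hnm : Cn ≤ Cm := (le_max_left Cn 1).trans (le_max_left _ _)
  have h0m : R0 ≤ Cm := le_max_right _ _
  refine ⟨A', Cm, hA', h1m, ?_⟩
  intro κ η0 C0 σ g R D hS hκ hCR
  have hR1 : 1 ≤ R := hS.R1
  have hR0' : 0 < R := lt_of_lt_of_le one_pos hR1
  have hκ8 : R ^ (-(1/8) : ℝ) ≤ κ :=
    le_trans (Real.rpow_le_rpow_of_exponent_le hR1 (by norm_num)) hκ.kR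
  have hRe : 1 ≤ R ^ ε := Real.one_le_rpow hR1 hg.e0.le
  -- one level with given classes
  have step : ∀ r', R ^ (1/2 : ℝ) ≤ r' → r' ≤ R → ∀ nb : ℕ, 1 ≤ nb → ∀ (fpar : ℕ → ℕ)
      (cls : E3 × ℝ → Cf E2 → ℤ × ℤ → E3 → ℕ),
      (∀ z ∈ cylc R, (∀ f m, Measurable (cls z f m)) ∧ ∀ f m y, cls z f m y < nb) →
      ∃ L' : Lev, L'.r = r' ∧ LevOk M κ q A A' a b Cm K η0 C0 σ g R L' ∧ L'.nb = nb ∧
        (L'.n : ℝ) ≤ Cm * R ^ ε * nb ∧ (∀ k < L'.n, L'.cl k < nb) ∧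
        (∀ k, L'.par k = fpar (L'.cl k)) ∧
        ∀ z ∈ L'.Z, z ∈ cylc R ∧ ∀ k < L'.n, ∀ i ∈ L'.I z k, ∀ m, ∀ y ∈ (L'.P z k i).S m,
          cls z (L'.P z k i).f m y = L'.cl k := by
    intro r' hlo hhi nb hnb fpar cls hcls
    have hr1 : 1 ≤ r' := le_trans (Real.one_le_rpow hR1 (by norm_num)) hlo
    obtain ⟨Λ, s, cl, hcard, hsd, hcl, hdec⟩ :=
      H R r' κ (h0m.trans hCR) hlo hhi hκ.k0 hκ.ka hκ8 nb hnb
    obtain ⟨Z, ζ, hnet, hnear⟩ := Ex963.exists_net (R := R) hr1 hR0'.le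
    have hnb' : (1 : ℝ) ≤ nb := by exact_mod_cast hnb
    have hB : (1 : ℝ) ≤ Cm * R ^ ε * nb :=
      one_le_mul_of_one_le_of_one_le (one_le_mul_of_one_le_of_one_le h1m hRe) hnb'
    have hcard' : (Λ.card : ℝ) ≤ Cm * R ^ ε * nb := by
      refine hcard.trans ?_
      gcongr
    obtain ⟨L', e1, e2, e3, e4, e5, e6, e7, e8⟩ := build (A' := A') (Cn := Cm) (M := M) (κ := κ)
      (q := q) (A := A) (a := a) (b := b) (K := K) (η0 := η0) (C0 := C0) (σ := σ) (g := g)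
      hnb hR1 hlo hhi hB hcard' hsd hcl hnet hnear fpar cls (fun z hz => by
        obtain ⟨hm, hl⟩ := hcls z (hnet.mem z hz)
        obtain ⟨G, D', rest, I, P, h⟩ := hdec η0 C0 σ g D hS z (hnet.mem z hz) (cls z) hm hl
        exact ⟨G, D', rest, I, P, Ex963.mono_Cn hnm hR0'.le h⟩)
    refine ⟨L', e1, e2, e3, e4, e5, e6, fun z hz => ?_⟩
    rw [e7] at hz
    exact ⟨hnet.mem z hz, e8 z hz⟩
  constructor
  · intro r' hlo hhi
    obtain ⟨L', e1, e2, e3, e4, -, -, -⟩ := step r' hlo hhi 1 le_rfl id (fun _ _ _ _ => 0)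
      (fun z _ => ⟨fun _ _ => measurable_const, fun _ _ _ => one_pos⟩)
    refine ⟨L', e1, e2, e3, ?_⟩
    simpa using e4
  · intro L hL r' hlo hhi na aux hna haux hmeas
    have hhi' : r' ≤ R := hhi.trans hL.hi
    have hnb : 1 ≤ L.n * na := Nat.mul_pos hL.n1 hna
    have hlt : ∀ x y : ℕ, x < L.n → y < na → x * na + y < L.n * na := by
      intro x y hx hy
      calc x * na + y < x * na + na := by omega
        _ = (x + 1) * na := by ring
        _ ≤ L.n * na := Nat.mul_le_mul_right _ hx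
    obtain ⟨L', e1, e2, e3, e4, e5, e6, e7⟩ := step r' hlo hhi' (L.n * na) hnb (fun x => x / na)
      (fun z f m y => argc (r' ^ (-(1/2) : ℝ)) (L.pf z) L.n m y * na + aux z f m y)
      (fun z hz => ⟨fun f m => by
          have hI : ∀ k < L.n, Integrable (L.pf z k) := fun k hk => by
            have h1 := Lk367.lev_G_int hL ha0 (hL.near z hz).1 hk
            exact Bas367.trc_int h1 _
          have h2 : Measurable (argc (r' ^ (-(1/2) : ℝ)) (L.pf z) L.n m) :=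
            measurable_argc hL.n1 hI m
          exact (h2.mul_const na).add (hmeas z f m),
        fun f m y => hlt _ _ (argc_lt _ _ hL.n1 m y) (haux z f m y)⟩)
    have hdm : ∀ x y : ℕ, y < na → (x * na + y) / na = x ∧ (x * na + y) % na = y := by
      intro x y hy
      constructor
      · rw [add_comm, Nat.add_mul_div_right _ _ hna, Nat.div_eq_of_lt hy, zero_add]
      · rw [add_comm, Nat.add_mul_mod_self_right, Nat.mod_eq_of_lt hy]
    refine ⟨L', fun k => L'.cl k % na, e1, e2, ⟨fun k hk => ?_, ?_⟩, ?_,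
      fun k => Nat.mod_lt _ hna, e3, ?_⟩
    · rw [e6 k]
      exact Nat.div_lt_of_lt_mul (by rw [mul_comm]; exact e5 k hk)
    · intro z hz k hk i hi m y hy
      have h1 := (e7 z hz).2 k hk i hi m y hy
      rw [e6 k, ← h1, (hdm _ _ (haux z _ m y)).1, e1]
    · intro z hz k hk i hi m y hy
      have h1 := (e7 z hz).2 k hk i hi m y hy
      show _ = L'.cl k % na
      rw [← h1, (hdm _ _ (haux z _ m y)).2]
    · rw [e3]
      exact e4

end Crest.Agent.R116.Ex299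
end

-- ▼ part R116/TwC_210

/-!
# R116 (S0155), wave side, CHAIN-C (helper210): towers from `EXL`
-/

set_option autoImplicit false

open MeasureTheory
open scoped ENNReal

namespace Crest.Agent.R116.GlC210

open Crest.Agent.R116.CDef480 Crest.Agent.R116.WC188

theorem trn_congr {L L' : ℕ → Lev} {t : ℕ} (h : ∀ i ≤ t, L' i = L i) (j : ℕ) (hj : j ≤ t + 1) :
    trn L' j = trn L j := by
  funext i
  simp only [trn]
  split_ifs with hi
  · exact h i (by omega)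
  · exact h 0 (by omega)

theorem Tow.congr {M κ q A A' a b Cn : ℝ} {K : ℕ} {η0 : ℝ} {C0 : Crest.Agent.R138.Defs.E2}
    {σ : ℝ} {g : E3 → ℂ} {R dl ν : ℝ} {t : ℕ} {L L' : ℕ → Lev}
    (hT : Tow M κ q A A' a b Cn K η0 C0 σ g R dl ν t L) (h : ∀ i ≤ t, L' i = L i) :
    Tow M κ q A A' a b Cn K η0 C0 σ g R dl ν t L' where
  rad := fun i hi => by rw [h i hi]; exact hT.rad i hi
  ok := fun i hi => by rw [h i hi]; exact hT.ok i hi
  le := fun i hi => by rw [h i hi]; exact hT.le i hi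
  next := fun i hi => by rw [h i hi.le, h (i + 1) (by omega)]; exact hT.next i hi

/-- **towers exist.** -/
theorem towx {M q : ℝ} (hX : EXL M q) : TOWX M q := by
  intro 𝒜 na a b A ε M0 hRg hok n K
  obtain ⟨ε', hε', hεn⟩ : ∃ ε' : ℝ, 0 < ε' ∧ (2 * ((n : ℝ) + 1)) * ε' = ε := by
    have h1 : (0:ℝ) < 2 * ((n : ℝ) + 1) := by positivity
    exact ⟨ε / (2 * ((n : ℝ) + 1)), div_pos hRg.e0 h1, mul_div_cancel₀ _ h1.ne'⟩
  obtain ⟨Ca, hCa⟩ := hok.2.1 ε' hε'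
  obtain ⟨Cb, hCb1, hCb⟩ : ∃ Cb : ℝ, 1 ≤ Cb ∧ ∀ R, 1 ≤ R → (na R : ℝ) ≤ Cb * R ^ ε' := by
    refine ⟨max 1 Ca, le_max_left _ _, fun R hR => (hCa R hR).trans ?_⟩
    have : 0 ≤ R ^ ε' := Real.rpow_nonneg (by linarith) _
    gcongr
    exact le_max_right _ _
  obtain ⟨A', Cn, hA', hCn, hE⟩ := hX a b A ε' M0 ⟨hRg.a1, hRg.b0, hRg.b2, hRg.A1, hε'⟩ K
  have hB1 : 1 ≤ Cn * Cb := by nlinarith
  refine ⟨A', Cn, (Cn * Cb) ^ (n + 1) + Cn, hA', hCn, by
    have := one_le_pow₀ hB1 (n := n + 1)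
    linarith, ?_⟩
  intro κ η0 C0 σ g R D hSs hKp hCR dl hdl0 hdl1 hRn
  have hR1 : 1 ≤ R := hSs.R1
  have hR0 : 0 < R := by linarith
  have hBn : 0 ≤ (Cn * Cb) ^ (n + 1) := by positivity
  obtain ⟨hfirst, hnext⟩ := hE κ η0 C0 σ g R D hSs hKp (by linarith)
  set ν : ℝ := (Cn * Cb) ^ (n + 1) * R ^ ε with hν
  have hν1 : 1 ≤ ν := by
    have h1 := one_le_pow₀ hB1 (n := n + 1)
    have h2 : 1 ≤ R ^ ε := Real.one_le_rpow hR1 hRg.e0.le
    rw [hν]; nlinarith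
  -- growth
  have hgrow : ∀ t ≤ n, (Cn * Cb) ^ (t + 1) * R ^ (2 * ((t : ℝ) + 1) * ε') ≤ ν := by
    intro t ht
    have ht' : (t : ℝ) ≤ n := by exact_mod_cast ht
    rw [hν, ← hεn]
    refine mul_le_mul (pow_le_pow_right₀ hB1 (by omega))
      (Real.rpow_le_rpow_of_exponent_le hR1 ?_) (by positivity) (by positivity)
    gcongr
  have hrad : ∀ t ≤ n, R ^ (1/2 : ℝ) ≤ R * dl ^ t := fun t ht =>
    hRn.trans (mul_le_mul_of_nonneg_left (pow_le_pow_of_le_one hdl0.le hdl1 ht) hR0.le)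
  have hradR : ∀ t : ℕ, R * dl ^ t ≤ R := fun t =>
    mul_le_of_le_one_right hR0.le (pow_le_one₀ hdl0.le hdl1)
  have key : ∀ t ≤ n, ∃ (L : ℕ → Lev) (ac : ℕ → ℕ → ℕ),
      Tow M κ q A A' a b Cn K η0 C0 σ g R dl ν t L ∧ Acl 𝒜 κ η0 g R dl t L ac ∧
      ((L t).n : ℝ) ≤ (Cn * Cb) ^ (t + 1) * R ^ ((2 * (t : ℝ) + 1) * ε') := by
    intro t
    induction t with
    | zero =>
      intro _
      obtain ⟨L0, hr, hL0, hnb, hn⟩ := hfirst R (by
        have := hrad 0 (Nat.zero_le n)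
        rwa [pow_zero, mul_one] at this) le_rfl
      have hn' : (L0.n : ℝ) ≤ (Cn * Cb) ^ (0 + 1) * R ^ ((2 * ((0 : ℕ) : ℝ) + 1) * ε') := by
        refine hn.trans ?_
        rw [zero_add, pow_one, Nat.cast_zero, mul_zero, zero_add, one_mul]
        have : 0 ≤ R ^ ε' := by positivity
        gcongr
        nlinarith
      refine ⟨fun _ => L0, fun _ _ => 0, ⟨?_, ?_, ?_, ?_⟩, ?_, hn'⟩
      · intro s hs
        have : s = 0 := by omega
        subst this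
        rw [pow_zero, mul_one]; exact hr
      · intro s _; exact hL0
      · intro s _
        refine ⟨hn'.trans (le_trans ?_ (hgrow 0 (Nat.zero_le n))), ?_⟩
        · gcongr
          push_cast; linarith
        · rw [hnb, Nat.cast_one]; exact hν1
      · intro s hs; omega
      · intro s hs; omega
    | succ t ih =>
      intro ht
      obtain ⟨L, ac, hT, hA, hn⟩ := ih (by omega)
      have hTtr : Tow M κ q A A' a b Cn K η0 C0 σ g R dl ν t (trn L (t + 1)) :=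
        hT.congr fun i hi => by simp only [trn]; rw [if_pos (by omega)]
      have hlt : (L t).r = R * dl ^ t := hT.rad t le_rfl
      obtain ⟨L', acn, hr', hok', hnx, hcls, hac, hnb, hn'⟩ := hnext (L t) (hT.ok t le_rfl)
        (R * dl ^ (t + 1)) (hrad (t + 1) ht) (by
          rw [hlt, pow_succ, ← mul_assoc]
          exact mul_le_of_le_one_right (by positivity) hdl1) (na R)
        (𝒜 κ η0 g R dl (trn L (t + 1)) (t + 1)) (hok.1 R)
        (fun z f m y => hok.2.2.1 κ η0 g R dl _ _ z f m y)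
        (fun z f m => hok.2.2.2 κ η0 C0 σ g R D hSs hKp A A' Cn dl ν K t _ hdl0 hdl1 hTtr
          (hrad (t + 1) ht) z f m)
      obtain ⟨L2, hL, hL'⟩ : ∃ L2 : ℕ → Lev, (∀ i ≤ t, L2 i = L i) ∧ L2 (t + 1) = L' :=
        ⟨fun i => if i ≤ t then L i else L', fun i hi => by simp only [if_pos hi],
          by simp only [if_neg (show ¬ t + 1 ≤ t by omega)]⟩
      obtain ⟨ac2, hc2, hc2'⟩ : ∃ ac2 : ℕ → ℕ → ℕ, (∀ i ≤ t, ac2 i = ac i) ∧ ac2 (t + 1) = acn :=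
        ⟨fun i => if i ≤ t then ac i else acn, fun i hi => by simp only [if_pos hi],
          by simp only [if_neg (show ¬ t + 1 ≤ t by omega)]⟩
      have hT2 := hT.congr hL
      -- numbers of labels and classes
      have hna := hCb R hR1
      have hnaR : (0:ℝ) ≤ na R := Nat.cast_nonneg _
      have hLn0 : (0:ℝ) ≤ (L t).n := Nat.cast_nonneg _
      have hnbν : (L'.nb : ℝ) ≤ Cb * ((Cn * Cb) ^ (t + 1) * R ^ ((2 * (t : ℝ) + 2) * ε')) := by
        rw [hnb]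
        push_cast
        calc ((L t).n : ℝ) * na R ≤
              ((Cn * Cb) ^ (t + 1) * R ^ ((2 * (t : ℝ) + 1) * ε')) * (Cb * R ^ ε') :=
              mul_le_mul hn hna hnaR (by positivity)
          _ = Cb * ((Cn * Cb) ^ (t + 1) * (R ^ ((2 * (t : ℝ) + 1) * ε') * R ^ ε')) := by ring
          _ = _ := by
              rw [← Real.rpow_add hR0]
              congr 3
              ring
      have hn2 : (L'.n : ℝ) ≤
          (Cn * Cb) ^ (t + 1 + 1) * R ^ ((2 * ((t + 1 : ℕ) : ℝ) + 1) * ε') := by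
        calc (L'.n : ℝ) ≤ Cn * R ^ ε' * L'.nb := hn'
          _ ≤ Cn * R ^ ε' * (Cb * ((Cn * Cb) ^ (t + 1) * R ^ ((2 * (t : ℝ) + 2) * ε'))) := by
              gcongr
          _ = (Cn * Cb) ^ (t + 1 + 1) * (R ^ ε' * R ^ ((2 * (t : ℝ) + 2) * ε')) := by ring
          _ = _ := by
              rw [← Real.rpow_add hR0]
              congr 2
              push_cast
              ring
      refine ⟨L2, ac2, ⟨?_, ?_, ?_, ?_⟩, ?_, ?_⟩
      · intro s hs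
        rcases Nat.lt_or_ge s (t + 1) with h | h
        · exact hT2.rad s (by omega)
        · have : s = t + 1 := by omega
          subst this
          rw [hL']; exact hr'
      · intro s hs
        rcases Nat.lt_or_ge s (t + 1) with h | h
        · exact hT2.ok s (by omega)
        · have : s = t + 1 := by omega
          subst this
          rw [hL']; exact hok'
      · intro s hs
        rcases Nat.lt_or_ge s (t + 1) with h | h
        · exact hT2.le s (by omega)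
        · have : s = t + 1 := by omega
          subst this
          rw [hL']
          refine ⟨hn2.trans (le_trans ?_ (hgrow (t + 1) ht)), hnbν.trans
            (le_trans ?_ (hgrow (t + 1) ht))⟩
          · gcongr
            linarith
          · have e : Cb ≤ Cn * Cb := by nlinarith
            calc Cb * ((Cn * Cb) ^ (t + 1) * R ^ ((2 * (t : ℝ) + 2) * ε'))
                ≤ (Cn * Cb) * ((Cn * Cb) ^ (t + 1) * R ^ (2 * (((t + 1 : ℕ) : ℝ) + 1) * ε')) := by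
                  gcongr
                  push_cast; linarith
              _ = _ := by ring
      · intro s hs
        rcases Nat.lt_or_ge s t with h | h
        · exact hT2.next s h
        · have : s = t := by omega
          subst this
          rw [hL', hL s le_rfl]
          exact hnx
      · intro s hs
        rw [trn_congr hL (s + 1) (by omega)]
        rcases Nat.lt_or_ge s t with h | h
        · rw [hL (s + 1) (by omega), hc2 (s + 1) (by omega)]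
          exact hA s h
        · have : s = t := by omega
          subst this
          rw [hL', hc2']
          exact hcls
      · rw [hL']; exact hn2
  obtain ⟨L, ac, hT, hA, -⟩ := key n le_rfl
  refine ⟨L, ac, ν, hν1, ?_, hT, hA⟩
  rw [hν]
  have : 0 ≤ R ^ ε := by positivity
  gcongr
  linarith

end Crest.Agent.R116.GlC210
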