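import Crest.Agent.R116.Rst1_126_Mg
import Crest.Agent.R116.Cov2_369
import Crest.Agent.R116.Sub_387
import Crest.Agent.R116.En_387
import Crest.Agent.R116.WTop1_188
import Crest.Agent.R116.Stb3_850
import Crest.Agent.R116.Ba6_449
import Crest.Agent.R116.KMt4_448
import Crest.Agent.R116.TwC_210_Mg
import Crest.Agent.R116.Dch9_229_Mg
import Crest.Agent.R116.Sup4_858
import Crest.Agent.R116.Sup0_858
import Crest.Agent.R116.LZv2_725
import Crest.Agent.R116.Cnv5_894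
import Crest.Agent.R116.TuT_890
import Crest.Agent.R116.A1k3_229

-- ▼ part R116/Dcc_295
section

/-!
# R116 (S0155), wave side: `DECc M q` holds for `2 ≤ M`, `0 ≤ q` (helper295)
-/

set_option autoImplicit false

namespace Crest.Agent.R116.De295

open Crest.Agent.R116.WC188

/-- **DECc holds**. -/
theorem decc {M q : ℝ} (hM : 2 ≤ M) (hq : 0 ≤ q) : DECc M q :=
  decc_of hM hq (Cov369.stabc hq) (Sub387.subc_of (by linarith) (Cov369.stabc hq)) Rst126.rest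
    En387.en1c En387.en2c

end Crest.Agent.R116.De295
end

-- ▼ part R116/WTop2_188
section

/-!
# R116 (S0155): WAVE side, top wiring 2 (helper188)

`LKM` + the three leaves which are not yet theorems (`A2k`, `FIN`, `SLAB`) ⟹ `EBc M`, every `M ≥ 2`.
-/

set_option autoImplicit false

namespace Crest.Agent.R116.WTop188

open Crest.Agent.R116.WC188 Crest.Agent.R116.GlC210
open Crest.Agent.R116.Ckm538 (LKMg)
open Crest.Agent.R116.LKMDef299 (SSg)

/-- TUBE from the Kakeya--Nikodym input. -/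
theorem tube_of_km {M' M q : ℝ} (hM' : 1 ≤ M') (hM : 1 ≤ M) (hq : 0 ≤ q)
    (hKM : ∀ V : ℝ, LKMg (SSg M') V) : TUBE M q :=
  TuZ373.tube_of hq (Ckm538.kmr_of hM' hM hq hKM) (DcU894.usrc M q) (Dch229.esrc M q)

/-- WChE from the Kakeya--Nikodym input, `A2k`, `FIN` and `SLAB`. -/
theorem wche_of_open {M' M q : ℝ} (hM' : 1 ≤ M') (hM : 2 ≤ M) (hq : 0 ≤ q)
    (hKM : ∀ V : ℝ, LKMg (SSg M') V) (hA2 : A2k M q) (hFIN : FIN M q) (hSLAB : SLAB M q) :
    WChE M q :=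
  chain hq (root_of_A2k hA2) (Gen126.gen_of_A2k hq hA2) hFIN hSLAB
    (tube_of_km hM' (by linarith) hq hKM) (towx (Ex299.exl (De295.decc hM hq)))

/-- **wave side, open leaves ⟹ EBc** (second stage). -/
theorem EBc_of_open2 {M q0 : ℝ} (hM : 2 ≤ M) (hq0 : 0 < q0) (hLKM : LKMDef299.LKM)
    (hA2 : ∀ q : ℝ, 0 < q → q < q0 → A2k M q)
    (hFIN : ∀ q : ℝ, 0 < q → q < q0 → FIN M q)
    (hSLAB : ∀ q : ℝ, 0 < q → q < q0 → SLAB M q) : EBc M := by
  have hM1 : 1 ≤ M := by linarith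
  obtain ⟨M0, hM0, hK⟩ := Br430.bridge_LKM hLKM
  have hKM : ∀ V : ℝ, LKMg (SSg M0) V := hK M0 le_rfl
  refine EBc_of_open hM1 hq0 (fun q hq _ => Stb850.cov2 hM1 hq.le)
    (fun q hq _ => De295.decc hM hq.le) (fun q hq _ => Ba449.triv2_holds hM1 hq.le)
    (fun q hq _ => KMt448.kmt_of hM0 hM1 hq.le hKM)
    (fun q hq hqq => wche_of_open hM0 hM hq.le hKM (hA2 q hq hqq) (hFIN q hq hqq) (hSLAB q hq hqq))

end Crest.Agent.R116.WTop188
end

-- ▼ part R116/Sup5_858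
section

/-!
# R116 (S0155), wave side, **A2k** (SUP of the cone), part 5: nets of frames (helper858)
-/

set_option autoImplicit false

open MeasureTheory FourierTransform
open scoped ContDiff ENNReal

namespace Crest.Agent.R116.Sup858

open Crest.Agent.R138.Defs (E2 ee)
open Crest.Agent.R138.Wpk685 (cen caps)
open Crest.Agent.R116.CDef480 Crest.Agent.R116.WC188
open Crest.Agent.R116.Ba449 (card_net cylc_eq meas_cylc)

/-- maximal separated subset of a finite set of frames. -/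
theorem exists_net {R : ℝ} (r' : ℝ) (Z : Finset (E3 × ℝ)) (hZ : ∀ z ∈ Z, z ∈ cylc R) :
    ∃ Z' : Finset (E3 × ℝ), Net r' R Z' ∧ ∀ z ∈ Z, ∃ z' ∈ Z', z = z' ∨
      (‖z.1 - z'.1‖ < r' ∧ |z.2 - z'.2| < r') := by
  classical
  have hne : (Z.powerset.filter (fun W => Net r' R W)).Nonempty := by
    refine ⟨∅, Finset.mem_filter.2 ⟨Finset.empty_mem_powerset _, ⟨by simp, by simp⟩⟩⟩
  obtain ⟨Z', hZ', hmax⟩ := Finset.exists_max_image _ Finset.card hne
  rw [Finset.mem_filter, Finset.mem_powerset] at hZ'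
  refine ⟨Z', hZ'.2, fun z hz => ?_⟩
  by_contra hc
  push Not at hc
  have hzn : z ∉ Z' := fun h => (hc z h).1 rfl
  have hnet : Net r' R (insert z Z') := by
    refine ⟨fun y hy => ?_, fun y hy y' hy' => ?_⟩
    · rcases Finset.mem_insert.1 hy with rfl | h
      · exact hZ _ hz
      · exact hZ'.2.mem _ h
    · rcases Finset.mem_insert.1 hy with rfl | h <;> rcases Finset.mem_insert.1 hy' with rfl | h'
      · exact Or.inl rfl
      · rcases lt_or_ge ‖y.1 - y'.1‖ r' with h1 | h1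
        · exact Or.inr (Or.inr ((hc y' h').2 h1))
        · exact Or.inr (Or.inl h1)
      · rcases lt_or_ge ‖y'.1 - y.1‖ r' with h1 | h1
        · refine Or.inr (Or.inr ?_)
          rw [abs_sub_comm]
          exact (hc y h).2 h1
        · refine Or.inr (Or.inl ?_)
          rw [norm_sub_rev]
          exact h1
      · exact hZ'.2.sep _ h _ h'
  have h1 := hmax (insert z Z') (Finset.mem_filter.2 ⟨Finset.mem_powerset.2
    (Finset.insert_subset hz hZ'.1), hnet⟩)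
  rw [Finset.card_insert_of_notMem hzn] at h1
  omega

instance inst_rightInv : (volume : Measure (E3 × ℝ)).IsAddRightInvariant := by
  rw [Measure.volume_eq_prod]
  infer_instance

open Classical in
/-- number of frames of a net seen from one point. -/
theorem card_near {r Λ R : ℝ} (hr : 0 < r) (hrΛ : r ≤ Λ) {Z : Finset (E3 × ℝ)} (hZ : Net r R Z)
    (y : E3 × ℝ) : ((Z.filter (fun z => y - z ∈ cylc Λ)).card : ℝ≥0∞) ≤
      ENNReal.ofReal (256 * (Λ / r) ^ 4) := by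
  classical
  have hinj : Function.Injective (fun z : E3 × ℝ => y - z) := fun a b h => by simpa using h
  rw [← Finset.card_image_of_injective _ hinj]
  refine card_net hr hrΛ ⟨fun z hz => ?_, fun z hz z' hz' => ?_⟩
  · obtain ⟨w, hw, rfl⟩ := Finset.mem_image.1 hz
    exact (Finset.mem_filter.1 hw).2
  · obtain ⟨w, hw, rfl⟩ := Finset.mem_image.1 hz
    obtain ⟨w', hw', rfl⟩ := Finset.mem_image.1 hz'
    have := hZ.sep w (Finset.mem_filter.1 hw).1 w' (Finset.mem_filter.1 hw').1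
    simp only [Prod.fst_sub, Prod.snd_sub, sub_sub_sub_cancel_left]
    rcases this with h | h | h
    · exact Or.inl (by rw [h])
    · exact Or.inr (Or.inl (by rw [norm_sub_rev]; exact h))
    · exact Or.inr (Or.inr (by rw [abs_sub_comm]; exact h))

/-- **sum over the frames of a fine net against a coarse net.** -/
theorem frames {r r' Λ R : ℝ} (hr : 0 < r) (hrΛ : r ≤ Λ) (hr' : 0 ≤ r') {Z Z' : Finset (E3 × ℝ)}
    (hZ : Net r R Z) (hZZ : ∀ z ∈ Z, ∃ z' ∈ Z', z = z' ∨ (‖z.1 - z'.1‖ < r' ∧ |z.2 - z'.2| < r'))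
    {G H : E3 × ℝ → E3 × ℝ → ℝ≥0∞} (hH : ∀ z' ∈ Z', Measurable (H z'))
    (hGH : ∀ z ∈ Z, ∀ z' ∈ Z', ‖z.1 - z'.1‖ ≤ r' → |z.2 - z'.2| ≤ r' → ∀ p ∈ cylc Λ,
      G z p ≤ H z' (p + (z - z'))) :
    ∑ z ∈ Z, ∫⁻ p in cylc Λ, G z p ≤ ENNReal.ofReal (256 * (Λ / r) ^ 4) *
      ∑ z' ∈ Z', ∫⁻ p in cylc (Λ + r'), H z' p := by
  classical
  have hch : ∀ z : E3 × ℝ, ∃ z' : E3 × ℝ, z ∈ Z → z' ∈ Z' ∧ ‖z.1 - z'.1‖ ≤ r' ∧
      |z.2 - z'.2| ≤ r' := by
    intro z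
    by_cases hz : z ∈ Z
    · obtain ⟨z', hz', h⟩ := hZZ z hz
      refine ⟨z', fun _ => ⟨hz', ?_⟩⟩
      rcases h with rfl | h
      · simp [hr']
      · exact ⟨h.1.le, h.2.le⟩
    · exact ⟨0, fun h => absurd h hz⟩
  choose φ hφ using hch
  have hmc : ∀ L : ℝ, MeasurableSet (cylc L) := meas_cylc
  -- one frame
  have h1 : ∀ z ∈ Z, ∫⁻ p in cylc Λ, G z p ≤ ∫⁻ q, (cylc Λ).indicator (fun _ => (1 : ℝ≥0∞))
      (q - (z - φ z)) * (cylc (Λ + r')).indicator (H (φ z)) q := by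
    intro z hz
    obtain ⟨h1, h2, h3⟩ := hφ z hz
    calc _ ≤ ∫⁻ p in cylc Λ, H (φ z) (p + (z - φ z)) :=
          setLIntegral_mono' (hmc Λ) fun p hp => hGH z hz _ h1 h2 h3 p hp
      _ = ∫⁻ p, (cylc Λ).indicator (fun p => H (φ z) (p + (z - φ z))) p := by
          rw [lintegral_indicator (hmc Λ)]
      _ = ∫⁻ q, (cylc Λ).indicator (fun p => H (φ z) (p + (z - φ z))) (q - (z - φ z)) :=
          (lintegral_sub_right_eq_self _ (z - φ z)).symm
      _ ≤ _ := by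
          refine lintegral_mono fun q => ?_
          simp only
          by_cases hq : q - (z - φ z) ∈ cylc Λ
          · rw [Set.indicator_of_mem hq, Set.indicator_of_mem hq, one_mul, sub_add_cancel,
              Set.indicator_of_mem]
            have e1 : q.1 = (q - (z - φ z)).1 + (z.1 - (φ z).1) := by simp
            have e2 : q.2 = (q - (z - φ z)).2 + (z.2 - (φ z).2) := by simp
            refine ⟨?_, ?_⟩
            · rw [e1]
              exact (norm_add_le _ _).trans (add_le_add hq.1 h2)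
            · rw [e2]
              exact (abs_add_le _ _).trans (add_le_add hq.2 h3)
          · rw [Set.indicator_of_notMem hq]
            exact zero_le
  calc ∑ z ∈ Z, ∫⁻ p in cylc Λ, G z p ≤ ∑ z ∈ Z, ∫⁻ q, (cylc Λ).indicator
        (fun _ => (1 : ℝ≥0∞)) (q - (z - φ z)) * (cylc (Λ + r')).indicator (H (φ z)) q :=
        Finset.sum_le_sum h1
    _ = ∑ z' ∈ Z', ∑ z ∈ Z.filter (fun z => φ z = z'), ∫⁻ q, (cylc Λ).indicator
        (fun _ => (1 : ℝ≥0∞)) (q - (z - φ z)) * (cylc (Λ + r')).indicator (H (φ z)) q :=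
        (Finset.sum_fiberwise_of_maps_to (fun z hz => (hφ z hz).1) _).symm
    _ = ∑ z' ∈ Z', ∫⁻ q, (∑ z ∈ Z.filter (fun z => φ z = z'), (cylc Λ).indicator
        (fun _ => (1 : ℝ≥0∞)) (q - (z - z'))) * (cylc (Λ + r')).indicator (H z') q := by
        refine Finset.sum_congr rfl fun z' hz' => ?_
        rw [← lintegral_finsetSum']
        · refine lintegral_congr fun q => ?_
          rw [Finset.sum_mul]
          refine Finset.sum_congr rfl fun z hz => ?_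
          rw [(Finset.mem_filter.1 hz).2]
        · intro z hz
          rw [(Finset.mem_filter.1 hz).2]
          exact (((measurable_const.indicator (hmc Λ)).comp (measurable_id.sub_const _)).mul
            ((hH z' hz').indicator (hmc _))).aemeasurable
    _ ≤ ∑ z' ∈ Z', ∫⁻ q, ENNReal.ofReal (256 * (Λ / r) ^ 4) *
        (cylc (Λ + r')).indicator (H z') q := by
        refine Finset.sum_le_sum fun z' _ => lintegral_mono fun q => ?_
        refine mul_le_mul_left ?_ _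
        have e1 : ∀ z ∈ Z.filter (fun z => φ z = z'), (cylc Λ).indicator
            (fun _ => (1 : ℝ≥0∞)) (q - (z - z')) =
            if q + z' - z ∈ cylc Λ then 1 else 0 := by
          intro z _
          have : q - (z - z') = q + z' - z := by abel
          rw [this]
          by_cases h : q + z' - z ∈ cylc Λ
          · rw [Set.indicator_of_mem h, if_pos h]
          · rw [Set.indicator_of_notMem h, if_neg h]
        rw [Finset.sum_congr rfl e1, Finset.sum_ite, Finset.sum_const_zero, add_zero,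
          Finset.sum_const, nsmul_eq_mul, mul_one]
        refine le_trans ?_ (card_near hr hrΛ hZ (q + z'))
        norm_cast
        refine Finset.card_le_card ?_
        intro z hz
        rw [Finset.mem_filter, Finset.mem_filter] at hz
        exact Finset.mem_filter.2 ⟨hz.1.1, hz.2⟩
    _ = _ := by
        rw [Finset.mul_sum]
        refine Finset.sum_congr rfl fun z' hz' => ?_
        rw [lintegral_const_mul' _ _ ENNReal.ofReal_ne_top, lintegral_indicator (hmc _)]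

end Crest.Agent.R116.Sup858
end

-- ▼ part R116/Sup6_858
section

/-!
# R116 (S0155), wave side, **A2k** (SUP of the cone), part 6: one plate (helper858)
-/

set_option autoImplicit false

open MeasureTheory FourierTransform
open scoped ContDiff ENNReal

namespace Crest.Agent.R116.Sup858

open Crest.Agent.R138.Defs (E2 ee)
open Crest.Agent.R138.Wpk685 (cen caps)
open Crest.Agent.R116.CDef480 Crest.Agent.R116.WC188
open Crest.Agent.R116.LZg725 (Cf)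
open Crest.Agent.R116.CWp480 Crest.Agent.R116.CWc480
open Crest.Agent.R116.Ba449 (card_net cylc_eq meas_cylc)

/-! ### elementary geometry -/

theorem norm_le_frame (C : E2) (Z : E3) : ‖Z‖ ≤ (1 + ‖C‖) * ‖lat Z‖ + |nrm C Z 0| := by
  have h3 : Z = pt (lat Z) (nrm C Z 0 - inner ℝ C (lat Z)) := by
    have : nrm C Z 0 - inner ℝ C (lat Z) = Z 2 := by
      unfold nrm
      ring
    rw [this, pt_lat]
  have h4 : ‖Z‖ ≤ ‖lat Z‖ + |nrm C Z 0 - inner ℝ C (lat Z)| := by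
    conv_lhs => rw [h3]
    exact norm_pt_le _ _
  have h5 : |nrm C Z 0 - inner ℝ C (lat Z)| ≤ |nrm C Z 0| + ‖C‖ * ‖lat Z‖ :=
    (abs_sub _ _).trans (add_le_add le_rfl (abs_real_inner_le_norm _ _))
  nlinarith

theorem nrm_le (C : E2) (Z : E3) : |nrm C Z 0| ≤ (1 + ‖C‖) * ‖Z‖ := by
  have e : nrm C Z 0 = Z 2 + inner ℝ C (lat Z) := by unfold nrm; ring
  rw [e]
  refine (abs_add_le _ _).trans ?_
  have h1 := abs_two_le Z
  have h2 := (abs_real_inner_le_norm C (lat Z)).trans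
    (mul_le_mul_of_nonneg_left (norm_lat_le Z) (norm_nonneg C))
  linarith

theorem nrm_shift (C C' : E2) (Z : E3) : |nrm C' Z 0| ≤ |nrm C Z 0| + ‖C' - C‖ * ‖lat Z‖ := by
  have e : nrm C' Z 0 = nrm C Z 0 + inner ℝ (C' - C) (lat Z) := by
    unfold nrm
    rw [inner_sub_left]
    ring
  rw [e]
  exact (abs_add_le _ _).trans (add_le_add le_rfl (abs_real_inner_le_norm _ _))

theorem norm_vel (C : E2) : ‖vel C‖ ≤ ‖C‖ + ‖C‖ ^ 2 / 2 := by
  unfold vel
  refine (norm_pt_le _ _).trans (le_of_eq ?_)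
  rw [abs_div, abs_neg, abs_of_nonneg (sq_nonneg ‖C‖)]
  norm_num

theorem TT_pos {κ s2 r : ℝ} (hs2 : 0 < s2) : 0 < TT κ s2 r :=
  (pow_pos hs2 2).trans_le (le_max_left _ _)

theorem TT_le {κ s2 r : ℝ} (hs0 : 0 ≤ s2) (hs2 : s2 ≤ 1) (hκr : 1 ≤ κ * r) : TT κ s2 r ≤ 1 :=
  max_le (pow_le_one₀ hs0 hs2) (inv_le_one_of_one_le₀ hκr)

theorem mset_mono {sg T s1 A A' R : ℝ} (hsg : 0 ≤ sg) (hT : 0 ≤ T) (hs : 0 ≤ s1) (hR : 0 ≤ R)
    (hA : A ≤ A') (c : E2) (X0 : E3) (f : Cf E2) (C : E2) :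
    mset (A * sg) (A * T) R (A * s1) c X0 f C ⊆ mset (A' * sg) (A' * T) R (A' * s1) c X0 f C := by
  rintro X ⟨h1, h2, h3, h4, h5⟩
  refine ⟨h1.trans (by gcongr), h2.trans (by gcongr), h3.trans (by gcongr), h4.trans (by gcongr),
    h5.trans (by gcongr)⟩

/-! ### one plate -/

theorem Sd.pos1 {r s1 s2 : ℝ} (hr : 0 < r) (h : Sd r s1 s2) : 0 < s1 :=
  (Real.rpow_pos_of_pos hr _).trans_le h.lo

theorem Sd.pos2 {r s1 s2 : ℝ} (hr : 0 < r) (h : Sd r s1 s2) : 0 < s2 := (Sd.pos1 hr h).trans_le h.le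

theorem scost_pos {κ r s1 s2 : ℝ} (hr : 0 < r) (h : Sd r s1 s2) : 0 < scost κ s1 s2 r := by
  unfold scost
  have h1 := Sd.pos1 hr h
  have h2 := Sd.pos2 hr h
  have h3 : 0 < TT κ s2 r := TT_pos h2
  positivity

theorem norm_base {A r T s2 : ℝ} (hA : 1 ≤ A) (hr : 0 < r) (hT : T ≤ 1) (hs2 : s2 ≤ 1)
    {c : E2} {X0 Y : E3} (hc : ‖c‖ ≤ A) (hX0 : ‖X0‖ ≤ A * r)
    (y2 : ‖lat Y - lat X0‖ ≤ A * s2 * r) (y3 : |nrm c Y 0 - nrm c X0 0| ≤ A * T * r) :
    ‖Y‖ ≤ 7 * A ^ 2 * r := by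
  have hlat : ‖lat Y‖ ≤ 2 * A * r := by
    have : ‖lat Y‖ ≤ ‖lat Y - lat X0‖ + ‖lat X0‖ := by
      simpa using norm_add_le (lat Y - lat X0) (lat X0)
    have h5 := norm_lat_le X0
    have h6 : A * s2 * r ≤ A * 1 * r := by gcongr
    linarith
  have hnr : |nrm c Y 0| ≤ (A + (1 + A) * A) * r := by
    have : |nrm c Y 0| ≤ |nrm c Y 0 - nrm c X0 0| + |nrm c X0 0| := by
      simpa using abs_add_le (nrm c Y 0 - nrm c X0 0) (nrm c X0 0)
    have h5 := nrm_le c X0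
    have h6 : (1 + ‖c‖) * ‖X0‖ ≤ (1 + A) * (A * r) := by gcongr
    have h7 : A * T * r ≤ A * 1 * r := by gcongr
    linarith
  refine (norm_le_frame c Y).trans ?_
  calc (1 + ‖c‖) * ‖lat Y‖ + |nrm c Y 0| ≤ (1 + A) * (2 * A * r) + (A + (1 + A) * A) * r := by
        gcongr
    _ = (3 * A ^ 2 + 4 * A) * r := by ring
    _ ≤ 7 * A ^ 2 * r := by
        gcongr
        nlinarith

theorem norm_tr {A r s : ℝ} (hA : 1 ≤ A) (hr : 0 < r) (hs : |s| ≤ r) {C : E2} (hC : ‖C‖ ≤ 2 * A) :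
    ‖s • vel C‖ ≤ 4 * A ^ 2 * r := by
  rw [norm_smul, Real.norm_eq_abs]
  have h5 := norm_nonneg C
  have h6 : ‖vel C‖ ≤ 4 * A ^ 2 := by
    refine (norm_vel C).trans ?_
    have : ‖C‖ ^ 2 ≤ (2 * A) ^ 2 := by gcongr
    nlinarith
  calc |s| * ‖vel C‖ ≤ r * (4 * A ^ 2) := by gcongr
    _ = _ := by ring

theorem norm_box {A r s1 s2 : ℝ} (hA : 1 ≤ A) (hr : 0 < r) (hs1 : 0 < s1) (hs12 : s1 ≤ s2)
    (hs2 : s2 ≤ 1) {C : E2} (hC : ‖C‖ ≤ A + 1) {W : E3} (h1 : ‖lat W‖ ≤ s1 * r)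
    (h2 : |nrm C W 0| ≤ s2 * (s1 * r)) : ‖W‖ ≤ 4 * A ^ 2 * r := by
  refine (norm_le_frame C W).trans ?_
  have h5 : s1 * r ≤ 1 * r := by gcongr; linarith
  have h6 : s2 * (s1 * r) ≤ 1 * (1 * r) := by gcongr
  rw [one_mul] at h5
  rw [one_mul, one_mul] at h6
  calc (1 + ‖C‖) * ‖lat W‖ + |nrm C W 0| ≤ (1 + (A + 1)) * r + r := by
        gcongr
        · exact h1.trans h5
        · exact h2.trans h6
    _ = (A + 3) * r := by ring
    _ ≤ _ := by
        gcongr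
        nlinarith

/-- where the density of a plate lives. -/
theorem supp_plate {A κ r s1 s2 : ℝ} (hA : 1 ≤ A) (hr : 1 ≤ r) (hκr : 1 ≤ κ * r)
    (hSd : Sd r s1 s2) {c Ct : E2} {X0 : E3} {f : Cf E2} {S : ℤ × ℤ → Set E3} {g : E3 → ℂ}
    (hc : ‖c‖ ≤ A) (hX0 : ‖X0‖ ≤ A * r) (hct : ‖c - Ct‖ ≤ s2) (hSm : ∀ m, MeasurableSet (S m))
    (hS : ∀ m, S m ⊆ pbx κ A r s1 s2 c X0 f m) {p : E3 × ℝ} (hp : |p.2| ≤ r)
    (h : bden (r ^ (-(1/2) : ℝ)) (s1 * r)⁻¹ (s2 * (s1 * r))⁻¹ Ct g S p ≠ 0) :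
    p.1 ∈ nbh κ (A + 2) r s1 s2 c X0 f p.2 ∧ ‖p.1‖ ≤ 15 * A ^ 2 * r := by
  have hr0 : 0 < r := by linarith
  have hs1 := Sd.pos1 hr0 hSd
  have hs2 := Sd.pos2 hr0 hSd
  have hs21 := hSd.hi
  have hs12 := hSd.le
  have hT := TT_pos (κ := κ) (r := r) hs2
  have hT1 := TT_le hs2.le hs21 hκr
  have hw : 0 < s1 * r := by positivity
  have hw2 : 0 < s2 * (s1 * r) := by positivity
  obtain ⟨m, hm, Y, hY, hb⟩ := bden_ne hSm h
  have hYp := hS m hY
  obtain ⟨Cm, hCm⟩ : ∃ Cm : E2, Cm = cen (r ^ (-(1/2) : ℝ)) m := ⟨_, rfl⟩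
  obtain ⟨W, hW⟩ : ∃ W : E3, W = Y - p.2 • vel Cm - p.1 := ⟨_, rfl⟩
  rw [← hCm, ← hW] at hb
  have h1 : ‖lat W‖ ≤ s1 * r := by
    have := (bn_lat (k := (s2 * (s1 * r))⁻¹) (inv_pos.2 hw) Ct W).trans hb
    rwa [inv_mul_le_iff₀ hw, mul_one] at this
  have h2 : |nrm Ct W 0| ≤ s2 * (s1 * r) := by
    have := (bn_nrm (l := (s1 * r)⁻¹) (inv_pos.2 hw2) Ct W).trans hb
    rwa [inv_mul_le_iff₀ hw2, mul_one] at this
  unfold pbx at hYp
  rw [← hCm] at hYp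
  obtain ⟨y1, y2, y3, y4, y5⟩ := hYp
  have hCt : ‖Cm - Ct‖ ≤ (A + 1) * s2 := by
    have : ‖Cm - Ct‖ ≤ ‖Cm - c‖ + ‖c - Ct‖ := by
      have := norm_add_le (Cm - c) (c - Ct)
      rwa [sub_add_sub_cancel] at this
    linarith
  have h3 : |nrm Cm W 0| ≤ (A + 2) * (s2 * (s1 * r)) := by
    refine (nrm_shift Ct Cm W).trans ?_
    calc |nrm Ct W 0| + ‖Cm - Ct‖ * ‖lat W‖ ≤ s2 * (s1 * r) + (A + 1) * s2 * (s1 * r) := by gcongr
      _ = _ := by ring
  have h1' : ‖lat W‖ ≤ (A + 2) * (s1 * r) :=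
    h1.trans (by nlinarith)
  refine ⟨⟨Y, Cm, mset_mono hs2.le hT.le hs1.le hr0.le (by linarith) c X0 f Cm
    ⟨y1, y2, y3, y4, y5⟩, by rw [← hW]; exact h1', by rw [← hW]; exact h3⟩, ?_⟩
  have e : p.1 = Y - p.2 • vel Cm - W := by rw [hW]; abel
  have hY7 := norm_base hA hr0 hT1 hs21 hc hX0 y2 y3
  have hCm2 : ‖Cm‖ ≤ 2 * A := by
    have : ‖Cm‖ ≤ ‖Cm - c‖ + ‖c‖ := by simpa using norm_add_le (Cm - c) c
    have h5 : A * s2 ≤ A * 1 := by gcongr
    linarith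
  have hv := norm_tr hA hr0 hp hCm2
  have hCt2 : ‖Ct‖ ≤ A + 1 := by
    have : ‖Ct‖ ≤ ‖Ct - c‖ + ‖c‖ := by simpa using norm_add_le (Ct - c) c
    rw [norm_sub_rev] at this
    linarith
  have hWn := norm_box hA hr0 hs1 hs12 hs21 hCt2 h1 h2
  rw [e]
  calc ‖Y - p.2 • vel Cm - W‖ ≤ ‖Y‖ + ‖p.2 • vel Cm‖ + ‖W‖ :=
        (norm_sub_le _ _).trans (add_le_add (norm_sub_le _ _) le_rfl)
    _ ≤ 7 * A ^ 2 * r + 4 * A ^ 2 * r + 4 * A ^ 2 * r := by gcongr
    _ = _ := by ring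

/-- **one plate**: the summand of `val` against its density. -/
theorem plate_le {M : ℝ} (hV : VolC M) {A : ℝ} (hA : 1 ≤ A) : ∃ Cp : ℝ, 0 ≤ Cp ∧
    ∀ (κ r s1 s2 : ℝ) (g : E3 → ℂ) (c Ct : E2) (X0 : E3) (f : Cf E2) (S : ℤ × ℤ → Set E3),
    0 < κ → κ ≤ 1 → 1 ≤ r → 1 ≤ κ * r → Sd r s1 s2 → ‖c‖ ≤ A → ‖X0‖ ≤ A * r →
    Adm M κ s1 s2 (TT κ s2 r) r c X0 f → ‖c - Ct‖ ≤ s2 → (∀ m, MeasurableSet (S m)) →
    (∀ m, S m ⊆ pbx κ A r s1 s2 c X0 f m) → Integrable g →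
    ENNReal.ofReal ((r * scost κ s1 s2 r) ^ (-(1/2) : ℝ)) *
      (ENNReal.ofReal r * enc (r ^ (-(1/2) : ℝ)) g S) ^ (3 / 2 : ℝ) ≤
    ENNReal.ofReal Cp * ∫⁻ p in cylc (15 * A ^ 2 * r),
      (ENNReal.ofReal (vs (s1 * r)⁻¹ (s2 * (s1 * r))⁻¹ Ct) *
        bden (r ^ (-(1/2) : ℝ)) (s1 * r)⁻¹ (s2 * (s1 * r))⁻¹ Ct g S p) ^ (3/2 : ℝ) := by
  obtain ⟨Cv, hCv, hvol⟩ := hV (A + 2) (by linarith)
  have hvb := vb_pos (V := E3)
  refine ⟨1 / 2 * (vb E3 ^ (3/2 : ℝ))⁻¹ * Cv ^ (1/2 : ℝ), by positivity, ?_⟩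
  intro κ r s1 s2 g c Ct X0 f S hκ hκ1 hr hκr hSd hc hX0 hAdm hct hSm hS hg
  have hr0 : 0 < r := by linarith
  have hs1 := Sd.pos1 hr0 hSd
  have hs2 := Sd.pos2 hr0 hSd
  have hw : 0 < (s1 * r)⁻¹ := by positivity
  have hw2 : 0 < (s2 * (s1 * r))⁻¹ := by positivity
  have hsc := scost_pos (κ := κ) hr0 hSd
  set ρ : ℝ := r ^ (-(1/2) : ℝ) with hρ
  set l : ℝ := (s1 * r)⁻¹ with hl
  set k : ℝ := (s2 * (s1 * r))⁻¹ with hk
  set F : E3 × ℝ → ℝ≥0∞ := fun p => (ENNReal.ofReal (vs l k Ct) * bden ρ l k Ct g S p) ^ (3/2 : ℝ)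
    with hF
  have hFm : Measurable F := ((measurable_bden hg S).const_mul _).pow_const _
  -- time slices
  have hslice : ∀ s : ℝ, |s| ≤ r → (ENNReal.ofReal (vb E3) * enc ρ g S) ^ (3/2 : ℝ) ≤
      ENNReal.ofReal ((Cv * scost κ s1 s2 r) ^ (1/2 : ℝ)) *
        ∫⁻ X in Metric.closedBall (0:E3) (15 * A ^ 2 * r), F (X, s) := by
    intro s hs
    have h1 := enc32_le hw hw2 (C := Ct) hg (S := S) (s := s)
      (V := nbh κ (A + 2) r s1 s2 c X0 f s) (by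
        intro X hX
        exact (supp_plate hA hr hκr hSd hc hX0 hct hSm hS (p := (X, s)) hs hX).1)
    refine h1.trans (mul_le_mul' ?_ ?_)
    · rw [← ENNReal.ofReal_rpow_of_nonneg (by positivity) (by norm_num)]
      exact ENNReal.rpow_le_rpow (hvol κ r s1 s2 c X0 f hκ hκ1 hr hκr hSd (by linarith) hAdm s hs)
        (by norm_num)
    · rw [← lintegral_indicator Metric.isClosed_closedBall.measurableSet]
      refine lintegral_mono fun X => ?_
      by_cases hX : bden ρ l k Ct g S (X, s) = 0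
      · rw [hX, mul_zero, ENNReal.zero_rpow_of_pos (by norm_num)]
        exact zero_le
      · rw [Set.indicator_of_mem]
        have h2 := (supp_plate hA hr hκr hSd hc hX0 hct hSm hS (p := (X, s)) hs hX).2
        simpa using h2
  -- integration in time
  have hint : ENNReal.ofReal (2 * r) * (ENNReal.ofReal (vb E3) * enc ρ g S) ^ (3/2 : ℝ) ≤
      ENNReal.ofReal ((Cv * scost κ s1 s2 r) ^ (1/2 : ℝ)) *
        ∫⁻ p in cylc (15 * A ^ 2 * r), F p := by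
    rw [lint_cylc hFm]
    calc ENNReal.ofReal (2 * r) * (ENNReal.ofReal (vb E3) * enc ρ g S) ^ (3/2 : ℝ) =
          ∫⁻ _ in Set.Icc (-r) r, (ENNReal.ofReal (vb E3) * enc ρ g S) ^ (3/2 : ℝ) := by
          rw [setLIntegral_const, Real.volume_Icc, mul_comm]
          congr 2
          ring
      _ ≤ ∫⁻ s in Set.Icc (-r) r, ENNReal.ofReal ((Cv * scost κ s1 s2 r) ^ (1/2 : ℝ)) *
          ∫⁻ X in Metric.closedBall (0:E3) (15 * A ^ 2 * r), F (X, s) := by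
          refine setLIntegral_mono' measurableSet_Icc fun s hs => ?_
          exact hslice s (abs_le.2 ⟨hs.1, hs.2⟩)
      _ = ENNReal.ofReal ((Cv * scost κ s1 s2 r) ^ (1/2 : ℝ)) * ∫⁻ s in Set.Icc (-r) r,
          ∫⁻ X in Metric.closedBall (0:E3) (15 * A ^ 2 * r), F (X, s) := by
          rw [lintegral_const_mul' _ _ ENNReal.ofReal_ne_top]
      _ ≤ _ := by
          refine mul_le_mul_right (lintegral_mono_set ?_) _
          have h15 : (1:ℝ) ≤ 15 * A ^ 2 := by nlinarith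
          have : 1 * r ≤ 15 * A ^ 2 * r := by gcongr
          intro s hs
          exact ⟨by linarith [hs.1], by linarith [hs.2]⟩
  -- assembly
  set J : ℝ≥0∞ := ∫⁻ p in cylc (15 * A ^ 2 * r), F p with hJ
  set e : ℝ≥0∞ := enc ρ g S ^ (3/2 : ℝ) with he
  have h1 : ENNReal.ofReal (2 * r * vb E3 ^ (3/2 : ℝ)) * e ≤
      ENNReal.ofReal ((Cv * scost κ s1 s2 r) ^ (1/2 : ℝ)) * J := by
    refine le_trans (le_of_eq ?_) hint
    rw [ENNReal.mul_rpow_of_nonneg _ _ (by norm_num),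
      ENNReal.ofReal_rpow_of_nonneg hvb.le (by norm_num), ← mul_assoc,
      ← ENNReal.ofReal_mul (by positivity)]
  calc ENNReal.ofReal ((r * scost κ s1 s2 r) ^ (-(1/2) : ℝ)) *
      (ENNReal.ofReal r * enc ρ g S) ^ (3 / 2 : ℝ) =
      ENNReal.ofReal ((r * scost κ s1 s2 r) ^ (-(1/2) : ℝ) * r ^ (3/2 : ℝ)) * e := by
        rw [ENNReal.mul_rpow_of_nonneg _ _ (by norm_num),
          ENNReal.ofReal_rpow_of_nonneg hr0.le (by norm_num), ← mul_assoc,
          ← ENNReal.ofReal_mul (by positivity)]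
    _ = ENNReal.ofReal (1 / 2 * (vb E3 ^ (3/2 : ℝ))⁻¹ * scost κ s1 s2 r ^ (-(1/2) : ℝ)) *
        (ENNReal.ofReal (2 * r * vb E3 ^ (3/2 : ℝ)) * e) := by
        rw [← mul_assoc, ← ENNReal.ofReal_mul (by positivity)]
        congr 2
        rw [Real.mul_rpow hr0.le hsc.le]
        have e1 : r ^ (3/2 : ℝ) = r ^ (1/2 : ℝ) * r := by
          rw [← Real.rpow_add_one hr0.ne']; norm_num
        have e2 : r ^ (-(1/2) : ℝ) * r ^ (1/2 : ℝ) = 1 := by
          rw [← Real.rpow_add hr0]; norm_num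
        have e3 : vb E3 ^ (3/2 : ℝ) ≠ 0 := by positivity
        rw [e1]
        field_simp
        exact e2
    _ ≤ ENNReal.ofReal (1 / 2 * (vb E3 ^ (3/2 : ℝ))⁻¹ * scost κ s1 s2 r ^ (-(1/2) : ℝ)) *
        (ENNReal.ofReal ((Cv * scost κ s1 s2 r) ^ (1/2 : ℝ)) * J) := mul_le_mul_right h1 _
    _ = _ := by
        rw [← mul_assoc, ← ENNReal.ofReal_mul (by positivity)]
        congr 2
        rw [Real.mul_rpow hCv hsc.le]
        have e2 : scost κ s1 s2 r ^ (-(1/2) : ℝ) * scost κ s1 s2 r ^ (1/2 : ℝ) = 1 := by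
          rw [← Real.rpow_add hsc]; norm_num
        calc _ = 1 / 2 * (vb E3 ^ (3/2 : ℝ))⁻¹ * Cv ^ (1/2 : ℝ) *
              (scost κ s1 s2 r ^ (-(1/2) : ℝ) * scost κ s1 s2 r ^ (1/2 : ℝ)) := by ring
          _ = _ := by rw [e2, mul_one]

end Crest.Agent.R116.Sup858
end

-- ▼ part R116/Sup7_858
section

/-!
# R116 (S0155), wave side, **A2k** (SUP of the cone), part 7: one slope cap (helper858)
-/

set_option autoImplicit false

open MeasureTheory FourierTransform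
open scoped ContDiff ENNReal

namespace Crest.Agent.R116.Sup858

open Crest.Agent.R138.Defs (E2 ee)
open Crest.Agent.R138.Wpk685 (cen caps)
open Crest.Agent.R116.CDef480 Crest.Agent.R116.WC188
open Crest.Agent.R116.LZg725 (Cf)
open Crest.Agent.R116.CWp480 Crest.Agent.R116.CWc480
open Crest.Agent.R116.Ba449 (card_net cylc_eq meas_cylc Gd v3 v3_lt vol_cylc)

/-! ### slope cut-offs -/

theorem norm_chi (A : ℝ) (C : E2) (s : ℝ) (ζ : E3) : ‖chi A C s ζ‖ ≤ 1 := by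
  unfold chi
  rw [Complex.norm_real, Real.norm_eq_abs, abs_of_nonneg (ContDiffBump.nonneg _)]
  exact ContDiffBump.le_one _

theorem measurable_chi (A : ℝ) (C : E2) (s : ℝ) : Measurable (chi A C s) := by
  unfold chi
  have h1 : Measurable fun ζ : E3 => s⁻¹ • (slp ζ - C) :=
    (measurable_slp.sub_const C).const_smul s⁻¹
  exact Complex.measurable_ofReal.comp ((cb A).continuous.measurable.comp h1)

theorem chi_one {A : ℝ} (hA : 0 ≤ A) {C : E2} {s : ℝ} (hs : 0 < s) {ζ : E3}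
    (h : ‖slp ζ - C‖ ≤ (A + 3) * s) : chi A C s ζ = 1 := by
  unfold chi
  rw [ContDiffBump.one_of_mem_closedBall, Complex.ofReal_one]
  rw [mem_closedBall_zero_iff, norm_smul, Real.norm_eq_abs, abs_of_pos (inv_pos.2 hs),
    inv_mul_le_iff₀ hs]
  show _ ≤ s * (|A| + 3)
  rw [abs_of_nonneg hA]
  linarith

theorem chi_ne {A : ℝ} (hA : 0 ≤ A) {C : E2} {s : ℝ} (hs : 0 < s) {ζ : E3}
    (h : chi A C s ζ ≠ 0) : ‖slp ζ - C‖ ≤ (A + 4) * s := by
  by_contra hc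
  push Not at hc
  apply h
  unfold chi
  rw [ContDiffBump.zero_of_le_dist, Complex.ofReal_zero]
  rw [dist_zero_right, norm_smul, Real.norm_eq_abs, abs_of_pos (inv_pos.2 hs)]
  show |A| + 4 ≤ _
  rw [abs_of_nonneg hA, ← div_eq_inv_mul, le_div_iff₀ hs]
  exact hc.le

theorem trc_ne {z : E3 × ℝ} {g : E3 → ℂ} {ζ : E3} (h : trc z g ζ ≠ 0) : g ζ ≠ 0 := by
  intro h0
  apply h
  unfold trc
  rw [h0, zero_mul]

theorem far_zero {τ σ : ℝ} (hτ : 0 < τ) {C : E2} {g : E3 → ℂ}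
    (hs : ∀ ζ, g ζ ≠ 0 → ‖slp ζ - C‖ ≤ σ) (y : E3 × ℝ) {m : ℤ × ℤ}
    (hfm : σ + 2 * τ < ‖cen τ m - C‖) (ζ : E3) : capc τ m ζ * trc y g ζ = 0 := by
  by_contra hc
  have h1 := left_ne_zero_of_mul hc
  have h2 := trc_ne (right_ne_zero_of_mul hc)
  have h3 := hs ζ h2
  have h4 := capc_ne hτ h1
  have h5 : ‖cen τ m - C‖ ≤ ‖cen τ m - slp ζ‖ + ‖slp ζ - C‖ := by
    have := norm_add_le (cen τ m - slp ζ) (slp ζ - C)
    rwa [sub_add_sub_cancel] at this
  linarith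

/-- the cut-off does not change the packets of the near caps. -/
theorem umc_chi {A : ℝ} (hA : 0 ≤ A) {ρ s : ℝ} (hρ : 0 < ρ) (hρs : ρ ≤ s) {C : E2} {m : ℤ × ℤ}
    (hm : ‖cen ρ m - C‖ ≤ (A + 1) * s) (z : E3 × ℝ) (g : E3 → ℂ) :
    umc ρ (trc z (fun ζ => chi A C s ζ * g ζ)) m = umc ρ (trc z g) m := by
  unfold umc
  congr 1
  funext ζ
  by_cases h : capc ρ m ζ = 0
  · rw [h, zero_mul, zero_mul]
  · have h4 := capc_ne hρ h
    have h5 : ‖slp ζ - C‖ ≤ ‖cen ρ m - slp ζ‖ + ‖cen ρ m - C‖ := by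
      have := norm_add_le (slp ζ - cen ρ m) (cen ρ m - C)
      rw [sub_add_sub_cancel, norm_sub_rev (slp ζ) (cen ρ m)] at this
      exact this
    have h6 : chi A C s ζ = 1 := chi_one hA (hρ.trans_le hρs) (by nlinarith)
    simp only [trc]
    rw [h6, one_mul]

theorem gd_of {a b : ℝ} (ha : 1 ≤ a) (hb : b ≤ 2) {g : E3 → ℂ} (hm : Measurable g)
    (hbd : ∃ B : ℝ, ∀ ζ, ‖g ζ‖ ≤ B)
    (hs : ∀ ζ, g ζ ≠ 0 → a⁻¹ ≤ ζ 2 ∧ ζ 2 ≤ a ∧ ‖slp ζ‖ ≤ b) : Gd (3 * a) g := by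
  refine ⟨hm, hbd, fun ζ hz => ?_, fun ζ hz => (hs ζ hz).2.2.trans hb⟩
  obtain ⟨h1, h2, h3⟩ := hs ζ hz
  have ha0 : 0 < a := by linarith
  have hζ : 0 < ζ 2 := lt_of_lt_of_le (inv_pos.2 ha0) h1
  have h4 : ‖lat ζ‖ ≤ 2 * a := by
    rw [lat_slp hζ.ne', norm_smul, Real.norm_eq_abs, abs_of_pos hζ]
    calc ζ 2 * ‖slp ζ‖ ≤ a * 2 := mul_le_mul h2 (h3.trans hb) (norm_nonneg _) ha0.le
      _ = 2 * a := by ring
  have h5 := normsq3 ζ
  have h6 := norm_nonneg (lat ζ)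
  have h7 := norm_nonneg ζ
  nlinarith

theorem chi_gd {a b A : ℝ} (ha : 1 ≤ a) (hb : b ≤ 2) {g : E3 → ℂ} (hm : Measurable g)
    (hbd : ∃ B : ℝ, ∀ ζ, ‖g ζ‖ ≤ B)
    (hs : ∀ ζ, g ζ ≠ 0 → a⁻¹ ≤ ζ 2 ∧ ζ 2 ≤ a ∧ ‖slp ζ‖ ≤ b) (C : E2) (s : ℝ) :
    Gd (3 * a) (fun ζ => chi A C s ζ * g ζ) := by
  obtain ⟨B, hB⟩ := hbd
  refine gd_of ha hb ((measurable_chi A C s).mul hm) ⟨B, fun ζ => ?_⟩
    fun ζ hz => hs ζ (right_ne_zero_of_mul hz)
  rw [norm_mul]
  calc ‖chi A C s ζ‖ * ‖g ζ‖ ≤ 1 * ‖g ζ‖ := by gcongr; exact norm_chi _ _ _ _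
    _ ≤ B := by rw [one_mul]; exact hB ζ

/-! ### sub-systems -/

theorem plates_sub {M κ A r s1 s2 R : ℝ} {I J : Finset ℕ} {P : ℕ → Plate}
    (h : Plates M κ A r s1 s2 R I P) (hJ : J ⊆ I) : Plates M κ A r s1 s2 R J P :=
  ⟨fun i hi => h.mem i (hJ hi), fun i hi j hj => h.sep i (hJ hi) j (hJ hj),
    fun i hi => h.X0 i (hJ hi), fun i hi => h.c i (hJ hi), fun i hi => h.adm i (hJ hi),
    fun i hi => h.meas i (hJ hi), fun i hi => h.box i (hJ hi),
    fun i hi j hj => h.disj i (hJ hi) j (hJ hj)⟩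

/-- the densities of the plates of one frame. -/
theorem frame_dens {M κ A r s1 s2 R : ℝ} (hA : 1 ≤ A) (hr : 1 ≤ r) (hSd : Sd r s1 s2)
    {I : Finset ℕ} {P : ℕ → Plate} (hP : Plates M κ A r s1 s2 R I P) {g : E3 → ℂ} {Ct : E2}
    (hct : ∀ i ∈ I, ‖(P i).c - Ct‖ ≤ s2) (l k : ℝ) (n : ℕ) (z : E3 × ℝ) (p : E3 × ℝ) :
    ∑ i ∈ I with (P i).z = z, (ENNReal.ofReal (vs l k Ct) *
      bden (r ^ (-(1/2) : ℝ)) l k Ct (trc z g) (P i).S p) ^ (3/2 : ℝ) ≤
    (ENNReal.ofReal (vs l k Ct) * (ENNReal.ofReal (2 ^ n) *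
      wden (r ^ (-(1/2) : ℝ)) l k n Ct (trc z (fun ζ => chi A Ct s2 ζ * g ζ)) p)) ^ (3/2 : ℝ) := by
  have hr0 : 0 < r := by linarith
  have hρ : 0 < r ^ (-(1/2) : ℝ) := Real.rpow_pos_of_pos hr0 _
  have hρs : r ^ (-(1/2) : ℝ) ≤ s2 := hSd.lo.trans hSd.le
  refine (sum_pow32_le _ _).trans (ENNReal.rpow_le_rpow ?_ (by norm_num))
  rw [← Finset.mul_sum]
  refine mul_le_mul_right ?_ _
  have h1 : ∀ i ∈ I.filter (fun i => (P i).z = z),
      bden (r ^ (-(1/2) : ℝ)) l k Ct (trc z g) (P i).S p =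
      bden (r ^ (-(1/2) : ℝ)) l k Ct (trc z (fun ζ => chi A Ct s2 ζ * g ζ)) (P i).S p := by
    intro i hi
    have hiI := (Finset.mem_filter.1 hi).1
    unfold bden
    refine Finset.sum_congr rfl fun m _ => ?_
    rcases ((P i).S m).eq_empty_or_nonempty with h0 | ⟨Y, hY⟩
    · rw [h0]; simp
    · have h2 : ‖cen (r ^ (-(1/2) : ℝ)) m - (P i).c‖ ≤ A * s2 := (hP.box i hiI m hY).1
      have h3 : ‖cen (r ^ (-(1/2) : ℝ)) m - Ct‖ ≤ (A + 1) * s2 := by
        have h4 : ‖cen (r ^ (-(1/2) : ℝ)) m - Ct‖ ≤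
            ‖cen (r ^ (-(1/2) : ℝ)) m - (P i).c‖ + ‖(P i).c - Ct‖ := by
          have := norm_add_le (cen (r ^ (-(1/2) : ℝ)) m - (P i).c) ((P i).c - Ct)
          rwa [sub_add_sub_cancel] at this
        have := hct i hiI
        linarith
      rw [umc_chi (by linarith) hρ hρs h3]
  rw [Finset.sum_congr rfl h1]
  refine sum_bden_le _ _ (fun i hi m => hP.meas i (Finset.mem_filter.1 hi).1 m) ?_ n p
  intro i hi j hj hij m
  rw [Finset.mem_filter] at hi hj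
  exact hP.disj i hi.1 j hj.1 hij (hi.2.trans hj.2.symm) m

theorem net_image {M κ A r s1 s2 R : ℝ} {I : Finset ℕ} {P : ℕ → Plate}
    (hP : Plates M κ A r s1 s2 R I P) [DecidableEq (E3 × ℝ)] :
    Net r R (I.image fun i => (P i).z) := by
  refine ⟨fun z hz => ?_, fun z hz z' hz' => ?_⟩
  · obtain ⟨i, hi, rfl⟩ := Finset.mem_image.1 hz
    exact hP.mem i hi
  · obtain ⟨i, hi, rfl⟩ := Finset.mem_image.1 hz
    obtain ⟨j, hj, rfl⟩ := Finset.mem_image.1 hz'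
    exact hP.sep i hi j hj

end Crest.Agent.R116.Sup858
end

-- ▼ part R116/Sup8_858
section

/-!
# R116 (S0155), wave side, **A2k** (SUP of the cone), part 8: the plates of one slope cap (helper858)
-/

set_option autoImplicit false

open MeasureTheory FourierTransform
open scoped ContDiff ENNReal

namespace Crest.Agent.R116.Sup858

open Crest.Agent.R138.Defs (E2 ee)
open Crest.Agent.R138.Wpk685 (cen caps)
open Crest.Agent.R116.CDef480 Crest.Agent.R116.WC188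
open Crest.Agent.R116.LZg725 (Cf)
open Crest.Agent.R116.CWp480 Crest.Agent.R116.CWc480
open Crest.Agent.R116.Ba449 (card_net cylc_eq meas_cylc Gd v3 v3_lt vol_cylc)

set_option maxHeartbeats 4000000 in
/-- **the plates of one slope cap** against the plate functional of level `r'`. -/
theorem cap_le {M : ℝ} (hV : VolC M) {a b A : ℝ} (ha : 1 ≤ a) (hb : 0 < b) (hb2 : b < 2)
    (hA : 1 ≤ A) (N : ℕ) : ∃ c1 c2 : ℝ, 0 ≤ c1 ∧ 0 ≤ c2 ∧
    ∀ (κ r s1 s2 R : ℝ) (g : E3 → ℂ) (Ct : E2) (I : Finset ℕ) (P : ℕ → Plate),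
    0 < κ → κ ≤ 1 → 1 ≤ r → r ≤ R → 1 ≤ κ * r → Sd r s1 s2 → Measurable g →
    (∃ B : ℝ, ∀ ζ, ‖g ζ‖ ≤ B) → (∀ ζ, g ζ ≠ 0 → a⁻¹ ≤ ζ 2 ∧ ζ 2 ≤ a ∧ ‖slp ζ‖ ≤ b) →
    Plates M κ A r s1 s2 R I P → (∀ i ∈ I, ‖(P i).c - Ct‖ ≤ s2) →
    ∀ r' : ℝ, r ≤ r' → r' ≤ R → r' ^ (1/2 : ℝ) ≤ s1 * r →
    val κ g r s1 s2 I P ≤
      ENNReal.ofReal c1 * NP (2 * (15 * A ^ 2 + 1)) r' (fun ζ => chi A Ct s2 ζ * g ζ) R +
      ENNReal.ofReal (c2 * R ^ 4 * ((r' / (s1 * r)) ^ N)⁻¹) *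
        ENNReal.ofReal (Enc (fun ζ => chi A Ct s2 ζ * g ζ)) ^ (3/2 : ℝ) := by
  classical
  obtain ⟨Cp, hCp, hplate⟩ := plate_le hV hA
  set n : ℕ := dd E3 + N with hn
  obtain ⟨Cn, hCn, hlev⟩ := levCh a b (A + 6) (15 * A ^ 2 + 1) n ha hb hb2 (by linarith)
    (by positivity)
  have hv := vb_pos (V := E3)
  have hc3 := cd3_nonneg (V := E3)
  set Cj : ℝ := ((A + 6 + 3) ^ n / vb E3) ^ (3/2 : ℝ) * cd3 E3 ^ (1/2 : ℝ) with hCj
  have hCj0 : 0 ≤ Cj := by positivity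
  set A1 : ℝ := 15 * A ^ 2 with hA1
  have hA11 : 1 ≤ A1 := by nlinarith
  set cH : ℝ := (2 ^ n * Cn) ^ (3/2 : ℝ) * Cj with hcH
  have hcH0 : 0 ≤ cH := by positivity
  have hV3 : v3 = ENNReal.ofReal v3.toReal := (ENNReal.ofReal_toReal v3_lt.ne).symm
  have hv30 : 0 ≤ v3.toReal := ENNReal.toReal_nonneg
  refine ⟨Cp * (256 * A1 ^ 4) * (cH * cd3 E3),
    Cp * (256 * A1 ^ 4) * (256 * cH * cd3 E3 * (2 * (A1 + 1) ^ 4 * v3.toReal)), by positivity,
    by positivity, ?_⟩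
  intro κ r s1 s2 R g Ct I P hκ hκ1 hr hrR hκr hSd hgm hgb hgs hP hct r' hrr' hr'R hr's
  rcases I.eq_empty_or_nonempty with rfl | hIne
  · unfold val
    simp
  have hr0 : 0 < r := by linarith
  have hr'0 : 0 < r' := by linarith
  have hR0 : 0 < R := by linarith
  have hs1 := Sd.pos1 hr0 hSd
  have hs2 := Sd.pos2 hr0 hSd
  have hs21 := hSd.hi
  have hs12 := hSd.le
  set gt : E3 → ℂ := fun ζ => chi A Ct s2 ζ * g ζ with hgt
  have hgG : Gd (3 * a) g := gd_of ha hb2.le hgm hgb hgs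
  have hGd : Gd (3 * a) gt := chi_gd ha hb2.le hgm hgb hgs Ct s2
  have hA0 : (0:ℝ) ≤ A := by linarith
  have hgts : ∀ ζ, gt ζ ≠ 0 → a⁻¹ ≤ ζ 2 ∧ ζ 2 ≤ a ∧ ‖slp ζ‖ ≤ b ∧ ‖slp ζ - Ct‖ ≤ (A + 4) * s2 := by
    intro ζ hz
    have h1 := hgs ζ (right_ne_zero_of_mul hz)
    exact ⟨h1.1, h1.2.1, h1.2.2, chi_ne hA0 hs2 (left_ne_zero_of_mul hz)⟩
  -- scales
  set ρ : ℝ := r ^ (-(1/2) : ℝ) with hρ
  set ρ' : ℝ := r' ^ (-(1/2) : ℝ) with hρ'
  have hρ0 : 0 < ρ := Real.rpow_pos_of_pos hr0 _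
  have hρ'0 : 0 < ρ' := Real.rpow_pos_of_pos hr'0 _
  have hρ1 : ρ ≤ 1 := Real.rpow_le_one_of_one_le_of_nonpos hr (by norm_num)
  have hρ'ρ : ρ' ≤ ρ := Real.rpow_le_rpow_of_nonpos hr0 hrr' (by norm_num)
  have hρ2 : ρ ^ 2 = r⁻¹ := by
    rw [hρ, ← Real.rpow_natCast, ← Real.rpow_mul hr0.le]
    norm_num
    rw [Real.rpow_neg_one]
  have hρ'2 : ρ' ^ 2 = r'⁻¹ := by
    rw [hρ', ← Real.rpow_natCast, ← Real.rpow_mul hr'0.le]
    norm_num
    rw [Real.rpow_neg_one]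
  have hρs1 : ρ ≤ s1 := hSd.lo
  have hw : 0 < s1 * r := by positivity
  have hw2 : 0 < s2 * (s1 * r) := by positivity
  set l : ℝ := (s1 * r)⁻¹ with hl
  set k : ℝ := (s2 * (s1 * r))⁻¹ with hk
  have hl0 : 0 < l := inv_pos.2 hw
  have hk0 : 0 < k := inv_pos.2 hw2
  have hks : k * s2 = l := by rw [hk, hl]; field_simp
  have hρr : ρ ^ 2 * r = 1 := by rw [hρ2, inv_mul_cancel₀ hr0.ne']
  have hk1 : k ≤ 1 := by
    refine inv_le_one_of_one_le₀ ?_
    calc (1:ℝ) = ρ * (ρ * r) := by rw [← hρr]; ring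
      _ ≤ s2 * (s1 * r) := by
          have : ρ ≤ s2 := hρs1.trans hs12
          gcongr
  have hlρ' : l ≤ ρ' := by
    rw [hl, hρ', Real.rpow_neg hr'0.le]
    exact inv_anti₀ (Real.rpow_pos_of_pos hr'0 _) hr's
  have hlρ : l ≤ ρ := hlρ'.trans hρ'ρ
  have hσ : ∀ τ, τ ≤ ρ → k * ((A + 4) * s2 + 2 * τ) ≤ (A + 6) * l := by
    intro τ hτ
    calc k * ((A + 4) * s2 + 2 * τ) ≤ k * ((A + 4) * s2 + 2 * s2) := by
          have : τ ≤ s2 := hτ.trans (hρs1.trans hs12)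
          gcongr
      _ = (A + 6) * (k * s2) := by ring
      _ = _ := by rw [hks]
  have hlk : l ≤ k := by
    rw [← hks]
    nlinarith
  -- frames
  set Z : Finset (E3 × ℝ) := I.image fun i => (P i).z with hZdef
  have hZ : Net r R Z := net_image hP
  obtain ⟨Z', hZ', hZZ⟩ := exists_net (R := R) r' Z hZ.mem
  -- the functionals
  set G : E3 × ℝ → E3 × ℝ → ℝ≥0∞ := fun z p => (ENNReal.ofReal (vs l k Ct) *
    (ENNReal.ofReal (2 ^ n) * wden ρ l k n Ct (trc z gt) p)) ^ (3/2 : ℝ) with hG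
  set F : E3 × ℝ → E3 × ℝ → ℝ≥0∞ := fun z' q => apl r' (trc z' gt) q ^ (3/2 : ℝ) with hF
  set H : E3 × ℝ → E3 × ℝ → ℝ≥0∞ := fun z' q => ENNReal.ofReal cH *
    ∫⁻ X', Kb l k n Ct (X' - q.1) * F z' (X', q.2) with hH
  have hFm : ∀ z', Measurable (F z') := fun z' => (measurable_apl (hGd.trc z').int).pow_const _
  have hHm : ∀ z', Measurable (H z') := by
    intro z'
    refine Measurable.const_mul ?_ _
    refine Measurable.lintegral_prod_right' (ν := volume)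
      (f := fun q : (E3 × ℝ) × E3 => Kb l k n Ct (q.2 - q.1.1) * F z' (q.2, q.1.2)) ?_
    refine ((measurable_Kb l k _ Ct).comp (measurable_snd.sub
      (measurable_fst.comp measurable_fst))).mul ((hFm z').comp ?_)
    exact measurable_snd.prodMk (measurable_snd.comp measurable_fst)
  -- level change
  have hGH : ∀ z ∈ Z, ∀ z' ∈ Z', ‖z.1 - z'.1‖ ≤ r' → |z.2 - z'.2| ≤ r' → ∀ p ∈ cylc (A1 * r),
      G z p ≤ H z' (p + (z - z')) := by
    intro z _ z' _ h1 h2 p hp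
    have hz : z + p = z' + (p + (z - z')) := by abel
    have hp2 : |p.2| * ρ ^ 2 ≤ 15 * A ^ 2 + 1 := by
      rw [hρ2, ← div_eq_mul_inv, div_le_iff₀ hr0]
      have := hp.2
      nlinarith
    have hp2' : |(p + (z - z')).2| * ρ' ^ 2 ≤ 15 * A ^ 2 + 1 := by
      rw [hρ'2, ← div_eq_mul_inv, div_le_iff₀ hr'0]
      have h3 := hp.2
      have h4 : |(p + (z - z')).2| ≤ |p.2| + |z.2 - z'.2| := by
        simpa using abs_add_le p.2 (z.2 - z'.2)
      have h5 : A1 * r ≤ A1 * r' := by gcongr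
      linarith
    have h3 := hlev l k ((A + 4) * s2) ρ ρ' Ct gt hl0 hk0 hk1 hlρ hρ1 hlρ' (hρ'ρ.trans hρ1)
      (hσ ρ le_rfl) (hσ ρ' hρ'ρ) hGd.meas hGd.bdd hgts z z' p (p + (z - z')) hz hp2 hp2'
    have hnear : ∀ m ∈ caps (r' ^ (-(1/2) : ℝ)), k * ‖cen (r' ^ (-(1/2) : ℝ)) m - Ct‖ ≤
        (A + 6) * l ∨ ∀ ζ, capc (r' ^ (-(1/2) : ℝ)) m ζ * trc z' gt ζ = 0 := by
      intro m _
      rcases le_or_gt ‖cen ρ' m - Ct‖ ((A + 4) * s2 + 2 * ρ') with h4 | h4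
      · left
        refine le_trans ?_ (hσ ρ' hρ'ρ)
        gcongr
      · right
        exact far_zero hρ'0 (fun ζ hz => (hgts ζ hz).2.2.2) z' h4
    have h4 := wden32_le hl0 hk0 hk1 (C := Ct) (L := A + 6) (by linarith) (n := n) (by omega)
      (r := r') (by linarith) hlρ' (hGd.trc z').int hnear (p + (z - z')).1 (p + (z - z')).2
    calc G z p ≤ (ENNReal.ofReal (vs l k Ct) * (ENNReal.ofReal (2 ^ n) *
          (ENNReal.ofReal Cn * wden ρ' l k n Ct (trc z' gt) (p + (z - z'))))) ^ (3/2 : ℝ) := by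
          refine ENNReal.rpow_le_rpow ?_ (by norm_num)
          exact mul_le_mul_right (mul_le_mul_right h3 _) _
      _ = ENNReal.ofReal ((2 ^ n * Cn) ^ (3/2 : ℝ)) * (ENNReal.ofReal (vs l k Ct) *
          wden ρ' l k n Ct (trc z' gt) (p + (z - z'))) ^ (3/2 : ℝ) := by
          rw [← ENNReal.ofReal_rpow_of_nonneg (by positivity) (by norm_num),
            ← ENNReal.mul_rpow_of_nonneg _ _ (by norm_num)]
          congr 1
          rw [ENNReal.ofReal_mul (by positivity)]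
          ring
      _ ≤ ENNReal.ofReal ((2 ^ n * Cn) ^ (3/2 : ℝ)) * (ENNReal.ofReal Cj *
          ∫⁻ X', Kb l k n Ct (X' - (p + (z - z')).1) * apl r' (trc z' gt)
            (X', (p + (z - z')).2) ^ (3/2 : ℝ)) := mul_le_mul_right h4 _
      _ = _ := by
          rw [hH, ← mul_assoc, ← ENNReal.ofReal_mul (by positivity)]
  have hfr := frames (r := r) (r' := r') (Λ := A1 * r) hr0 (by nlinarith) hr'0.le hZ hZZ
    (fun z' _ => hHm z') hGH
  -- plates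
  have hval : val κ g r s1 s2 I P ≤ ENNReal.ofReal Cp * ∑ z ∈ Z, ∫⁻ p in cylc (A1 * r), G z p := by
    have h1 : ∀ i ∈ I, ENNReal.ofReal ((r * scost κ s1 s2 r) ^ (-(1/2) : ℝ)) *
        (ENNReal.ofReal r * enc (r ^ (-(1/2) : ℝ)) (trc (P i).z g) (P i).S) ^ (3 / 2 : ℝ) ≤
        ENNReal.ofReal Cp * ∫⁻ p in cylc (A1 * r), (ENNReal.ofReal (vs l k Ct) *
          bden ρ l k Ct (trc (P i).z g) (P i).S p) ^ (3/2 : ℝ) := by
      intro i hi
      refine hplate κ r s1 s2 (trc (P i).z g) (P i).c Ct (P i).X0 (P i).f (P i).S hκ hκ1 hr hκr hSd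
        (hP.c i hi) (hP.X0 i hi) (hP.adm i hi) (hct i hi) (hP.meas i hi) (hP.box i hi) ?_
      exact (hgG.trc _).int
    unfold val
    refine (Finset.sum_le_sum h1).trans ?_
    rw [← Finset.mul_sum]
    refine mul_le_mul_right ?_ _
    rw [← Finset.sum_fiberwise_of_maps_to (s := I) (t := Z) (g := fun i => (P i).z)
      (fun i hi => Finset.mem_image_of_mem _ hi)]
    refine Finset.sum_le_sum fun z _ => ?_
    have hbm : ∀ i, Measurable fun p => (ENNReal.ofReal (vs l k Ct) *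
        bden ρ l k Ct (trc (P i).z g) (P i).S p) ^ (3/2 : ℝ) := by
      intro i
      refine ((measurable_bden ?_ _).const_mul _).pow_const _
      exact (hgG.trc _).int
    rw [← lintegral_finsetSum' _ (fun i _ => (hbm i).aemeasurable)]
    refine lintegral_mono fun p => ?_
    refine le_trans (le_of_eq ?_) (frame_dens hA hr hSd hP hct l k n z p)
    refine Finset.sum_congr rfl fun i hi => ?_
    rw [(Finset.mem_filter.1 hi).2]
  -- one coarse frame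
  set Λ : ℝ := (A1 + 1) * r' with hΛ
  have hΛ0 : 0 < Λ := by positivity
  set E : ℝ≥0∞ := ENNReal.ofReal (Enc gt) ^ (3/2 : ℝ) with hE
  obtain ⟨i0, hi0⟩ := hIne
  have hCtn : ‖Ct‖ ≤ A + 1 := by
    have h1 := hP.c i0 hi0
    have h2 := hct i0 hi0
    have : ‖Ct‖ ≤ ‖Ct - (P i0).c‖ + ‖(P i0).c‖ := by
      simpa using norm_add_le (Ct - (P i0).c) (P i0).c
    rw [norm_sub_rev] at this
    linarith
  have hdec : ((l * Λ / (3 + ‖Ct‖)) ^ N)⁻¹ ≤ ((r' / (s1 * r)) ^ N)⁻¹ := by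
    have h0 := norm_nonneg Ct
    have h1 : r' / (s1 * r) ≤ l * Λ / (3 + ‖Ct‖) := by
      rw [le_div_iff₀ (by positivity)]
      calc r' / (s1 * r) * (3 + ‖Ct‖) = l * r' * (3 + ‖Ct‖) := by rw [hl]; ring
        _ ≤ l * r' * (A1 + 1) := by
            have h3 : 3 + ‖Ct‖ ≤ A1 + 1 := by nlinarith
            exact mul_le_mul_of_nonneg_left h3 (by positivity)
        _ = l * Λ := by rw [hΛ]; ring
    gcongr
  have hone : ∀ z' ∈ Z', ∫⁻ p in cylc (A1 * r + r'), H z' p ≤ ENNReal.ofReal cH *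
      (ENNReal.ofReal (cd3 E3) * (∫⁻ p in cylc (2 * (15 * A ^ 2 + 1) * r'), F z' p) +
        ENNReal.ofReal (((r' / (s1 * r)) ^ N)⁻¹ * cd3 E3 * (2 * Λ ^ 4 * v3.toReal)) * E) := by
    intro z' _
    have hmono : cylc (A1 * r + r') ⊆ cylc Λ := cylc_mono (by
      have : A1 * r ≤ A1 * r' := by gcongr
      rw [hΛ]
      linarith)
    have hFE : ∀ p, F z' p ≤ E := by
      intro p
      refine ENNReal.rpow_le_rpow ?_ (by norm_num)
      have h1 := Crest.Agent.R116.Ba449.apl_le (hGd.trc z') (r := r') (by linarith) p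
      rwa [Crest.Agent.R116.Ba449.Enc_trc] at h1
    have h1 := near_far hl0 hlk Ct N hΛ0 (hFm z') hFE
    have e1 : 2 * Λ = 2 * (15 * A ^ 2 + 1) * r' := by rw [hΛ, hA1]; ring
    rw [e1] at h1
    calc ∫⁻ p in cylc (A1 * r + r'), H z' p ≤ ∫⁻ p in cylc Λ, H z' p := lintegral_mono_set hmono
      _ = ENNReal.ofReal cH * ∫⁻ q in cylc Λ, ∫⁻ X', Kb l k n Ct (X' - q.1) * F z' (X', q.2) := by
          rw [hH, lintegral_const_mul' _ _ ENNReal.ofReal_ne_top]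
      _ ≤ _ := by
          refine mul_le_mul_right (h1.trans (add_le_add le_rfl (mul_le_mul_left ?_ _))) _
          rw [vol_cylc hΛ0.le, hV3, ← ENNReal.ofReal_mul (by positivity),
            ← ENNReal.ofReal_mul (by positivity), ← ENNReal.ofReal_mul (by positivity),
            ENNReal.toReal_ofReal hv30]
          refine ENNReal.ofReal_le_ofReal ?_
          gcongr
  -- sum over the coarse frames
  have hNP : ∑ z' ∈ Z', ∫⁻ p in cylc (2 * (15 * A ^ 2 + 1) * r'), F z' p ≤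
      NP (2 * (15 * A ^ 2 + 1)) r' gt R := by
    unfold NP
    exact le_iSup₂_of_le Z' hZ' le_rfl
  have hcard : (Z'.card : ℝ≥0∞) ≤ ENNReal.ofReal (256 * (R / r') ^ 4) := card_net hr'0 hr'R hZ'
  have hsum : ∑ z' ∈ Z', ∫⁻ p in cylc (A1 * r + r'), H z' p ≤ ENNReal.ofReal cH *
      (ENNReal.ofReal (cd3 E3) * NP (2 * (15 * A ^ 2 + 1)) r' gt R +
        ENNReal.ofReal (256 * (R / r') ^ 4) * (ENNReal.ofReal
          (((r' / (s1 * r)) ^ N)⁻¹ * cd3 E3 * (2 * Λ ^ 4 * v3.toReal)) * E)) := by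
    refine (Finset.sum_le_sum hone).trans ?_
    rw [← Finset.mul_sum, Finset.sum_add_distrib, ← Finset.mul_sum, Finset.sum_const, nsmul_eq_mul]
    exact mul_le_mul_right (add_le_add (mul_le_mul_right hNP _) (mul_le_mul_left hcard _)) _
  have hAr : A1 * r / r = A1 := by field_simp
  rw [hAr] at hfr
  calc val κ g r s1 s2 I P ≤ ENNReal.ofReal Cp * (ENNReal.ofReal (256 * A1 ^ 4) *
        (ENNReal.ofReal cH * (ENNReal.ofReal (cd3 E3) * NP (2 * (15 * A ^ 2 + 1)) r' gt R +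
        ENNReal.ofReal (256 * (R / r') ^ 4) * (ENNReal.ofReal
          (((r' / (s1 * r)) ^ N)⁻¹ * cd3 E3 * (2 * Λ ^ 4 * v3.toReal)) * E)))) :=
        hval.trans (mul_le_mul_right (hfr.trans (mul_le_mul_right hsum _)) _)
    _ = ENNReal.ofReal Cp * ENNReal.ofReal (256 * A1 ^ 4) * (ENNReal.ofReal cH *
        ENNReal.ofReal (cd3 E3)) * NP (2 * (15 * A ^ 2 + 1)) r' gt R +
        (ENNReal.ofReal Cp * ENNReal.ofReal (256 * A1 ^ 4) * ENNReal.ofReal cH *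
        ENNReal.ofReal (256 * (R / r') ^ 4) * ENNReal.ofReal
          (((r' / (s1 * r)) ^ N)⁻¹ * cd3 E3 * (2 * Λ ^ 4 * v3.toReal))) * E := by ring
    _ = _ := by
        have hq : 0 ≤ ((r' / (s1 * r)) ^ N)⁻¹ := by positivity
        rw [← ENNReal.ofReal_mul (by positivity), ← ENNReal.ofReal_mul (by positivity),
          ← ENNReal.ofReal_mul (by positivity), ← ENNReal.ofReal_mul (by positivity),
          ← ENNReal.ofReal_mul (by positivity), ← ENNReal.ofReal_mul (by positivity)]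
        congr 3
        rw [hΛ]
        field_simp

end Crest.Agent.R116.Sup858
end

-- ▼ part R116/Sup9_858
section

/-!
# R116 (S0155), wave side, **A2k** (SUP of the cone), part 9: sum over the slope caps (helper858)
-/

set_option autoImplicit false

open MeasureTheory FourierTransform
open scoped ContDiff ENNReal

namespace Crest.Agent.R116.Sup858

open Crest.Agent.R138.Defs (E2 ee)
open Crest.Agent.R138.Wpk685 (cen caps)
open Crest.Agent.R116.CDef480 Crest.Agent.R116.WC188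
open Crest.Agent.R116.LZg725 (Cf)
open Crest.Agent.R116.CWp480 Crest.Agent.R116.CWc480
open Crest.Agent.R116.Ba449 (card_net cylc_eq meas_cylc Gd v3 v3_lt vol_cylc)

/-- the nearest slope cap. -/
noncomputable def nrc (s : ℝ) (c : E2) : ℤ × ℤ := (round (c 0 / s), round (c 1 / s))

theorem nrc_le {s : ℝ} (hs : 0 < s) (c : E2) : ‖c - cen s (nrc s c)‖ ≤ s := by
  have h : ∀ x : ℝ, (x - s * (round (x / s) : ℝ)) ^ 2 ≤ (s / 2) ^ 2 := by
    intro x
    have h1 := abs_sub_round (x / s)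
    have h2 : |x - s * (round (x / s) : ℝ)| ≤ s / 2 := by
      have e : x - s * (round (x / s) : ℝ) = s * (x / s - round (x / s)) := by field_simp
      rw [e, abs_mul, abs_of_pos hs]
      nlinarith
    rw [← sq_abs]
    exact pow_le_pow_left₀ (abs_nonneg _) h2 2
  have h3 := normsq2 (c - cen s (nrc s c))
  have e0 : (c - cen s (nrc s c)) 0 = c 0 - s * (round (c 0 / s) : ℝ) := rfl
  have e1 : (c - cen s (nrc s c)) 1 = c 1 - s * (round (c 1 / s) : ℝ) := rfl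
  rw [e0, e1] at h3
  have h4 := h (c 0)
  have h5 := h (c 1)
  have h6 := norm_nonneg (c - cen s (nrc s c))
  nlinarith

/-- energies of the slope caps. -/
theorem sum_Enc_chi {L A s : ℝ} (hA : 0 ≤ A) (hs : 0 < s) {g : E3 → ℂ} (hg : Gd L g)
    (T : Finset (ℤ × ℤ)) :
    ∑ t ∈ T, Enc (fun ζ => chi A (cen s t) s ζ * g ζ) ≤ (2 * (A + 4) + 1) ^ 2 * Enc g := by
  classical
  have hi : Integrable fun ζ => ‖g ζ‖ ^ 2 := (hg.memLp 2).integrable_norm_pow (by norm_num)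
  have hit : ∀ t, Integrable fun ζ => ‖chi A (cen s t) s ζ * g ζ‖ ^ 2 := by
    intro t
    refine hi.mono' ?_ (Filter.Eventually.of_forall fun ζ => ?_)
    · exact (((measurable_chi A _ s).mul hg.meas).norm.pow_const 2).aestronglyMeasurable
    · rw [Real.norm_eq_abs, abs_of_nonneg (by positivity), norm_mul, mul_pow]
      have h1 := norm_chi A (cen s t) s ζ
      have h2 := norm_nonneg (chi A (cen s t) s ζ)
      have h3 : ‖chi A (cen s t) s ζ‖ ^ 2 ≤ 1 := pow_le_one₀ h2 h1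
      have h4 : 0 ≤ ‖g ζ‖ ^ 2 := by positivity
      nlinarith
  unfold Enc
  rw [← integral_finsetSum _ (fun t _ => hit t), ← integral_const_mul]
  refine integral_mono (integrable_finsetSum _ fun t _ => hit t) (hi.const_mul _) ?_
  intro ζ
  simp only
  have h1 : ∀ t ∈ T, ‖chi A (cen s t) s ζ * g ζ‖ ^ 2 ≤
      if ‖cen s t - slp ζ‖ ≤ (A + 4) * s then ‖g ζ‖ ^ 2 else 0 := by
    intro t _
    split_ifs with h
    · rw [norm_mul, mul_pow]
      have h1 := norm_chi A (cen s t) s ζ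
      have h2 := norm_nonneg (chi A (cen s t) s ζ)
      have h3 : ‖chi A (cen s t) s ζ‖ ^ 2 ≤ 1 := pow_le_one₀ h2 h1
      have h4 : 0 ≤ ‖g ζ‖ ^ 2 := by positivity
      nlinarith
    · have h2 : chi A (cen s t) s ζ = 0 := by
        by_contra hc
        apply h
        rw [norm_sub_rev]
        exact chi_ne hA hs hc
      rw [h2, zero_mul, norm_zero]
      norm_num
  refine (Finset.sum_le_sum h1).trans ?_
  rw [← Finset.sum_filter, Finset.sum_const, nsmul_eq_mul]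
  refine mul_le_mul_of_nonneg_right ?_ (by positivity)
  have h2 := Crest.Agent.R116.CWd480.card_cen hs (r := A + 4) (by linarith) T (slp ζ)
  refine le_trans (le_of_eq ?_) h2
  rw [← Set.ncard_coe_finset]
  congr 2
  ext t
  simp

theorem Enc_chi_le {L A s : ℝ} {g : E3 → ℂ} (hg : Gd L g) (C : E2) :
    Enc (fun ζ => chi A C s ζ * g ζ) ≤ Enc g := by
  have hi : Integrable fun ζ => ‖g ζ‖ ^ 2 := (hg.memLp 2).integrable_norm_pow (by norm_num)
  unfold Enc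
  refine integral_mono_of_nonneg (Filter.Eventually.of_forall fun ζ => by positivity) hi
    (Filter.Eventually.of_forall fun ζ => ?_)
  simp only
  rw [norm_mul, mul_pow]
  have h1 := norm_chi A C s ζ
  have h2 := norm_nonneg (chi A C s ζ)
  have h3 : ‖chi A C s ζ‖ ^ 2 ≤ 1 := pow_le_one₀ h2 h1
  have h4 : 0 ≤ ‖g ζ‖ ^ 2 := by positivity
  nlinarith

/-- numbers: the tail of one cap. -/
theorem tail_num {R r s1 s2 r' δ q M0 E D c2 : ℝ} {N : ℕ} (hR : 1 ≤ R) (hr : 1 ≤ r) (hrR : r ≤ R)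
    (hSd : Sd r s1 s2) (hq : 0 ≤ q) (hD : 0 ≤ D) (hE : 0 ≤ E) (hED : E ≤ R ^ M0 * D)
    (hc2 : 0 ≤ c2) (hgap : R ^ δ ≤ r' / (s1 * r)) (hN : 3 + |M0| / 2 + q / 4 ≤ N * δ) :
    c2 * R ^ 4 * ((r' / (s1 * r)) ^ N)⁻¹ * E ^ (3/2 : ℝ) ≤
      c2 * (s2 ^ (q / 2) * (R * E * Real.sqrt D)) := by
  have hR0 : 0 < R := by linarith
  have hr0 : 0 < r := by linarith
  have hs2 := Sd.pos2 hr0 hSd
  have hRδ : 0 < R ^ δ := Real.rpow_pos_of_pos hR0 _
  have h1 : ((r' / (s1 * r)) ^ N)⁻¹ ≤ R ^ (-(N * δ)) := by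
    rw [Real.rpow_neg hR0.le, mul_comm (N:ℝ) δ, Real.rpow_mul hR0.le, Real.rpow_natCast]
    exact inv_anti₀ (by positivity) (pow_le_pow_left₀ hRδ.le hgap N)
  have h2 : E ^ (3/2 : ℝ) ≤ E * (R ^ (M0 / 2) * Real.sqrt D) := by
    have e1 : E ^ (3/2 : ℝ) = E * Real.sqrt E := by
      rw [Real.sqrt_eq_rpow, ← Real.rpow_one_add' hE (by norm_num)]
      norm_num
    rw [e1]
    refine mul_le_mul_of_nonneg_left ?_ hE
    have e2 : Real.sqrt (R ^ M0 * D) = R ^ (M0 / 2) * Real.sqrt D := by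
      rw [Real.sqrt_mul (Real.rpow_nonneg hR0.le _), Real.sqrt_eq_rpow (R ^ M0),
        ← Real.rpow_mul hR0.le]
      congr 2
      ring
    rw [← e2]
    exact Real.sqrt_le_sqrt hED
  have h3 : R ^ (-(q / 4)) ≤ s2 ^ (q / 2) := by
    have h4 : R ^ (-(1/2) : ℝ) ≤ s2 := by
      refine le_trans ?_ (hSd.lo.trans hSd.le)
      exact Real.rpow_le_rpow_of_nonpos hr0 hrR (by norm_num)
    calc R ^ (-(q / 4)) = (R ^ (-(1/2) : ℝ)) ^ (q / 2) := by
          rw [← Real.rpow_mul hR0.le]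
          congr 1
          ring
      _ ≤ s2 ^ (q / 2) := Real.rpow_le_rpow (Real.rpow_nonneg hR0.le _) h4 (by linarith)
  have h5 : R ^ (4:ℕ) * R ^ (-(N * δ)) * R ^ (M0 / 2) ≤ R * R ^ (-(q / 4)) := by
    have e1 : R ^ (4:ℕ) = R ^ (4:ℝ) := by norm_cast
    have e2 : R * R ^ (-(q / 4)) = R ^ (1 + -(q / 4)) := by
      rw [Real.rpow_add hR0, Real.rpow_one]
    rw [e1, e2, ← Real.rpow_add hR0, ← Real.rpow_add hR0]
    refine Real.rpow_le_rpow_of_exponent_le hR ?_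
    have := le_abs_self M0
    linarith
  have hsD : 0 ≤ Real.sqrt D := Real.sqrt_nonneg _
  have hq1 : 0 ≤ R ^ (-(N * δ)) := Real.rpow_nonneg hR0.le _
  have hq2 : 0 ≤ R ^ (M0 / 2) := Real.rpow_nonneg hR0.le _
  have hq3 : 0 ≤ R ^ (-(q / 4)) := Real.rpow_nonneg hR0.le _
  calc c2 * R ^ 4 * ((r' / (s1 * r)) ^ N)⁻¹ * E ^ (3/2 : ℝ) ≤
        c2 * R ^ 4 * R ^ (-(N * δ)) * (E * (R ^ (M0 / 2) * Real.sqrt D)) := by
        gcongr
    _ = c2 * (R ^ 4 * R ^ (-(N * δ)) * R ^ (M0 / 2)) * (E * Real.sqrt D) := by ring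
    _ ≤ c2 * (R * R ^ (-(q / 4))) * (E * Real.sqrt D) := by gcongr
    _ ≤ c2 * (R * s2 ^ (q / 2)) * (E * Real.sqrt D) := by gcongr
    _ = _ := by ring

end Crest.Agent.R116.Sup858
end

-- ▼ part R116/SupT_858
section

/-!
# R116 (S0155), wave side, **A2k** (SUP of the cone), final assembly (helper858)
-/

set_option autoImplicit false

open MeasureTheory FourierTransform
open scoped ContDiff ENNReal

namespace Crest.Agent.R116.Sup858

open Crest.Agent.R138.Defs (E2 ee)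
open Crest.Agent.R138.Wpk685 (cen caps)
open Crest.Agent.R116.CDef480 Crest.Agent.R116.WC188
open Crest.Agent.R116.LZg725 (Cf)
open Crest.Agent.R116.CWp480 Crest.Agent.R116.CWc480
open Crest.Agent.R116.Ba449 (card_net cylc_eq meas_cylc Gd v3 v3_lt vol_cylc)

/-- gap between `r'` and `s1 r`. -/
theorem gap_le {R r s1 s2 ε δ : ℝ} (hR : 1 ≤ R) (hr : 1 ≤ r) (hRr : R ^ (1/2 : ℝ) ≤ r)
    (hSd : Sd r s1 s2) (hδ4 : δ ≤ 1/4) (hδε : δ ≤ ε) (hrε : r ≤ R ^ (1 - ε)) :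
    R ^ δ ≤ min ((s1 * r) ^ 2) R / (s1 * r) := by
  have hR0 : 0 < R := by linarith
  have hr0 : 0 < r := by linarith
  have hs1 := Sd.pos1 hr0 hSd
  have hw : 0 < s1 * r := by positivity
  have hwr : r ^ (1/2 : ℝ) ≤ s1 * r := by
    calc r ^ (1/2 : ℝ) = r ^ (-(1/2) : ℝ) * r := by
          rw [← Real.rpow_add_one hr0.ne']; norm_num
      _ ≤ s1 * r := by
          have := hSd.lo
          gcongr
  rw [le_div_iff₀ hw, le_min_iff]
  constructor
  · have h1 : R ^ δ ≤ s1 * r := by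
      calc R ^ δ ≤ R ^ (1/4 : ℝ) := Real.rpow_le_rpow_of_exponent_le hR hδ4
        _ = (R ^ (1/2 : ℝ)) ^ (1/2 : ℝ) := by rw [← Real.rpow_mul hR0.le]; norm_num
        _ ≤ r ^ (1/2 : ℝ) := Real.rpow_le_rpow (Real.rpow_nonneg hR0.le _) hRr (by norm_num)
        _ ≤ s1 * r := hwr
    nlinarith
  · have h2 : s1 * r ≤ r := by
      have : s1 ≤ 1 := hSd.le.trans hSd.hi
      nlinarith
    calc R ^ δ * (s1 * r) ≤ R ^ ε * R ^ (1 - ε) := by
          have h3 : R ^ δ ≤ R ^ ε := Real.rpow_le_rpow_of_exponent_le hR hδε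
          have h4 : s1 * r ≤ R ^ (1 - ε) := h2.trans hrε
          have h5 : 0 ≤ R ^ ε := Real.rpow_nonneg hR0.le _
          exact mul_le_mul h3 h4 hw.le h5
      _ = R := by
          rw [← Real.rpow_add hR0]
          norm_num

/-- **one slope cap, numbers.** -/
theorem cap_num {q A M0 ε c CL : ℝ} {c1 c2 Db : ℝ} {N : ℕ} {δ : ℝ}
    (hA : 1 ≤ A) (hq : 0 ≤ q) (hCL : 0 ≤ CL) (hc1 : 0 ≤ c1) (hc2 : 0 ≤ c2)
    (hDb : 1 ≤ Db) (hN : 3 + |M0| / 2 + q / 4 ≤ N * δ) {R r s1 s2 D : ℝ} {g : E3 → ℂ} {Ct : E2}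
    (hR : 1 ≤ R) (hr : 1 ≤ r) (hrR : r ≤ R) (hSd : Sd r s1 s2) (hD : 0 ≤ D)
    (hgap : R ^ δ ≤ min ((s1 * r) ^ 2) R / (s1 * r))
    (hEnc : Enc (fun ζ => chi A Ct s2 ζ * g ζ) ≤ R ^ M0 * D)
    (hLB : NP (2 * (15 * A ^ 2 + 1)) (min ((s1 * r) ^ 2) R) (fun ζ => chi A Ct s2 ζ * g ζ) R ≤
      ENNReal.ofReal (CL * R ^ ε * (R / min ((s1 * r) ^ 2) R) ^ (c / 2) *
        (min 1 ((A + 4) * s2)) ^ (q / 2) * SS (fun ζ => chi A Ct s2 ζ * g ζ) R (Db * D))) :
    ENNReal.ofReal c1 * NP (2 * (15 * A ^ 2 + 1)) (min ((s1 * r) ^ 2) R)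
        (fun ζ => chi A Ct s2 ζ * g ζ) R +
      ENNReal.ofReal (c2 * R ^ 4 * ((min ((s1 * r) ^ 2) R / (s1 * r)) ^ N)⁻¹) *
        ENNReal.ofReal (Enc (fun ζ => chi A Ct s2 ζ * g ζ)) ^ (3/2 : ℝ) ≤
    ENNReal.ofReal ((c1 * CL * (A + 4) ^ (q / 2) * Real.sqrt Db * (R ^ ε *
      (max 1 (R / (s1 * r) ^ 2)) ^ (c / 2)) + c2) *
      (s2 ^ (q / 2) * (R * Enc (fun ζ => chi A Ct s2 ζ * g ζ) * Real.sqrt D))) := by
  have hR0 : 0 < R := by linarith
  have hr0 : 0 < r := by linarith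
  have hs1 := Sd.pos1 hr0 hSd
  have hs2 := Sd.pos2 hr0 hSd
  have hw : 0 < s1 * r := by positivity
  set E : ℝ := Enc (fun ζ => chi A Ct s2 ζ * g ζ) with hE
  have hE0 : 0 ≤ E := Crest.Agent.R116.Ba449.Enc_nonneg _
  have hX : R / min ((s1 * r) ^ 2) R = max 1 (R / (s1 * r) ^ 2) := by
    rcases le_total ((s1 * r) ^ 2) R with h | h
    · rw [min_eq_left h, max_eq_right]
      rw [le_div_iff₀ (by positivity), one_mul]
      exact h
    · rw [min_eq_right h, div_self hR0.ne', max_eq_left]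
      rw [div_le_one (by positivity)]
      exact h
  rw [hX] at hLB
  set X : ℝ := max 1 (R / (s1 * r) ^ 2) with hXdef
  have hX1 : 1 ≤ X := le_max_left _ _
  have hσ : (min 1 ((A + 4) * s2)) ^ (q / 2) ≤ (A + 4) ^ (q / 2) * s2 ^ (q / 2) := by
    rw [← Real.mul_rpow (by linarith) hs2.le]
    exact Real.rpow_le_rpow (le_min zero_le_one (by positivity)) (min_le_right _ _) (by linarith)
  have hsD : Real.sqrt (Db * D) = Real.sqrt Db * Real.sqrt D := Real.sqrt_mul (by linarith) _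
  have h1 : ENNReal.ofReal c1 * NP (2 * (15 * A ^ 2 + 1)) (min ((s1 * r) ^ 2) R)
      (fun ζ => chi A Ct s2 ζ * g ζ) R ≤ ENNReal.ofReal (c1 * CL * (A + 4) ^ (q / 2) *
      Real.sqrt Db * (R ^ ε * X ^ (c / 2)) * (s2 ^ (q / 2) * (R * E * Real.sqrt D))) := by
    refine (mul_le_mul_right hLB _).trans ?_
    rw [← ENNReal.ofReal_mul hc1]
    refine ENNReal.ofReal_le_ofReal ?_
    unfold SS
    rw [← hE, hsD]
    have h2 : 0 ≤ R ^ ε := Real.rpow_nonneg hR0.le _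
    have h3 : 0 ≤ X ^ (c / 2) := Real.rpow_nonneg (by linarith) _
    have h4 := Real.sqrt_nonneg Db
    have h5 := Real.sqrt_nonneg D
    calc c1 * (CL * R ^ ε * X ^ (c / 2) * min 1 ((A + 4) * s2) ^ (q / 2) *
          (R * E * (Real.sqrt Db * Real.sqrt D))) ≤
          c1 * (CL * R ^ ε * X ^ (c / 2) * ((A + 4) ^ (q / 2) * s2 ^ (q / 2)) *
          (R * E * (Real.sqrt Db * Real.sqrt D))) := by gcongr
      _ = _ := by ring
  have h2 : ENNReal.ofReal (c2 * R ^ 4 * ((min ((s1 * r) ^ 2) R / (s1 * r)) ^ N)⁻¹) *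
      ENNReal.ofReal E ^ (3/2 : ℝ) ≤
      ENNReal.ofReal (c2 * (s2 ^ (q / 2) * (R * E * Real.sqrt D))) := by
    have h0 : 0 ≤ min ((s1 * r) ^ 2) R / (s1 * r) := by
      refine div_nonneg (le_min (by positivity) hR0.le) hw.le
    rw [ENNReal.ofReal_rpow_of_nonneg hE0 (by norm_num), ← ENNReal.ofReal_mul (by positivity)]
    refine ENNReal.ofReal_le_ofReal ?_
    exact tail_num hR hr hrR hSd hq hD hE0 hEnc hc2 hgap hN
  refine (add_le_add h1 h2).trans (le_of_eq ?_)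
  have h3 : 0 ≤ R ^ ε := Real.rpow_nonneg hR0.le _
  have h4 : 0 ≤ X ^ (c / 2) := Real.rpow_nonneg (by linarith) _
  rw [← ENNReal.ofReal_add (by positivity) (by positivity)]
  congr 1
  ring

set_option maxHeartbeats 4000000 in
/-- **A2k from its inputs.** -/
theorem a2k_of {M q : ℝ} (hq : 0 ≤ q) (hV : VolC M) (hB : MulBx M q) (hC : CNV M q)
    (hT : TRIV2s M q) : A2k M q := by
  classical
  intro c hc hLB
  obtain ⟨J, hJ, hT⟩ := hT
  refine ⟨1 + J, by linarith, ?_⟩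
  intro a b A ε M0 ha hb hb2 hA hε
  obtain ⟨CT, hCT, hT⟩ := hT a b A ε M0 ha hb hb2 hA hε
  obtain ⟨CC, R0, hCC, hR0, hCNV⟩ := hC a b M0 ha hb hb2
  obtain ⟨Cb, hCb, hMul⟩ := hB a b A ha hb hb2 hA
  have hA2 : (1:ℝ) ≤ 2 * (15 * A ^ 2 + 1) := by nlinarith [sq_nonneg A]
  obtain ⟨CL, hCL, hLB⟩ := hLB a b (2 * (15 * A ^ 2 + 1)) ε M0 ha hb hb2 hA2 hε
  set δ : ℝ := min (1/4) ε with hδ
  have hδ0 : 0 < δ := lt_min (by norm_num) hε
  obtain ⟨N, hN⟩ := exists_nat_ge ((3 + |M0| / 2 + q / 4) / δ)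
  rw [div_le_iff₀ hδ0] at hN
  obtain ⟨c1, c2, hc1, hc2, hcap⟩ := cap_le hV ha hb hb2 hA N
  have hA40 : (0:ℝ) ≤ (A + 4) ^ (q / 2) := Real.rpow_nonneg (by linarith) _
  have hsb : 0 ≤ Real.sqrt (Cb * CC) := Real.sqrt_nonneg _
  set Cm : ℝ := (c1 * CL * (A + 4) ^ (q / 2) * Real.sqrt (Cb * CC) + c2) *
    (2 * (A + 4) + 1) ^ 2 with hCm
  have hCm0 : 0 ≤ Cm := by positivity
  have hR0J : 0 ≤ R0 ^ J := Real.rpow_nonneg (by linarith) _
  refine ⟨CT * (1 + R0 ^ J) + Cm, by positivity, ?_⟩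
  intro κ η0 C0 σ g R D hκ hκa hκR hSt hSlc r s1 s2 hRr hrR hSd
  have hR : 1 ≤ R := hSt.R1
  have hR0' : 0 < R := by linarith
  have hr : 1 ≤ r := (Real.one_le_rpow hR (by norm_num)).trans hRr
  have hr0 : 0 < r := by linarith
  have hs1 := Sd.pos1 hr0 hSd
  have hs2 := Sd.pos2 hr0 hSd
  have hD := hSt.D0
  have hSS : 0 ≤ SS g R D := by
    unfold SS
    have := Crest.Agent.R116.Ba449.Enc_nonneg g
    have := Real.sqrt_nonneg D
    positivity
  set X : ℝ := max 1 (R / (s1 * r) ^ 2) with hXdef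
  have hX1 : 1 ≤ X := le_max_left _ _
  have hXc : 1 ≤ X ^ (c / 2) := Real.one_le_rpow hX1 (by linarith)
  have hRK : R ^ ε ≤ R ^ ((1 + J) * ε) := Real.rpow_le_rpow_of_exponent_le hR
    (le_mul_of_one_le_left hε.le (by linarith))
  have hCTJ : 0 ≤ CT * R0 ^ J := mul_nonneg hCT hR0J
  have hCe : CT * (1 + R0 ^ J) + Cm = CT + CT * R0 ^ J + Cm := by ring
  have hC1 : CT ≤ CT * (1 + R0 ^ J) + Cm := by rw [hCe]; linarith
  have hC2 : CT * R0 ^ J ≤ CT * (1 + R0 ^ J) + Cm := by rw [hCe]; linarith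
  have hC3 : Cm ≤ CT * (1 + R0 ^ J) + Cm := by rw [hCe]; linarith
  have hC0 : 0 ≤ CT * (1 + R0 ^ J) + Cm := hCm0.trans hC3
  have hRε0 : 0 ≤ R ^ ε := Real.rpow_nonneg hR0'.le _
  have hRK0 : 0 ≤ R ^ ((1 + J) * ε) := Real.rpow_nonneg hR0'.le _
  have hRK1 : 1 ≤ R ^ ((1 + J) * ε) := Real.one_le_rpow hR (by positivity)
  have hT1 := hT κ η0 C0 σ g R D hκ hκa hκR hSt hSlc r s1 s2 hRr hrR hSd
  -- the trivial range
  rcases le_or_gt (R ^ (1 - ε)) r with hbig | hsmall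
  · refine hT1.trans (ENNReal.ofReal_le_ofReal ?_)
    have h1 : R / r ≤ R ^ ε := by
      rw [div_le_iff₀ hr0]
      calc R = R ^ ε * R ^ (1 - ε) := by
            rw [← Real.rpow_add hR0']
            norm_num
        _ ≤ R ^ ε * r := by gcongr
    have h2 : (R / r) ^ J ≤ R ^ (J * ε) := by
      calc (R / r) ^ J ≤ (R ^ ε) ^ J := Real.rpow_le_rpow (by positivity) h1 hJ
        _ = _ := by rw [← Real.rpow_mul hR0'.le, mul_comm]
    calc CT * R ^ ε * (R / r) ^ J * SS g R D ≤ CT * R ^ ε * R ^ (J * ε) * SS g R D := by gcongr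
      _ = CT * R ^ ((1 + J) * ε) * 1 * SS g R D := by
          have : R ^ ε * R ^ (J * ε) = R ^ ((1 + J) * ε) := by
            rw [← Real.rpow_add hR0']
            congr 1
            ring
          rw [mul_assoc CT, this, mul_one]
      _ ≤ (CT * (1 + R0 ^ J) + Cm) * R ^ ((1 + J) * ε) * X ^ (c / 2) * SS g R D :=
          mul_le_mul_of_nonneg_right (mul_le_mul (mul_le_mul_of_nonneg_right hC1 hRK0) hXc
            zero_le_one (mul_nonneg hC0 hRK0)) hSS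
  rcases lt_or_ge R R0 with hRR0 | hRR0
  · refine hT1.trans (ENNReal.ofReal_le_ofReal ?_)
    have h1 : R / r ≤ R0 := (div_le_self hR0'.le hr).trans hRR0.le
    have h2 : (R / r) ^ J ≤ R0 ^ J := Real.rpow_le_rpow (by positivity) h1 hJ
    calc CT * R ^ ε * (R / r) ^ J * SS g R D ≤ CT * R ^ ((1 + J) * ε) * R0 ^ J * SS g R D := by
          gcongr
      _ = (CT * R0 ^ J) * R ^ ((1 + J) * ε) * 1 * SS g R D := by ring
      _ ≤ (CT * (1 + R0 ^ J) + Cm) * R ^ ((1 + J) * ε) * X ^ (c / 2) * SS g R D :=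
          mul_le_mul_of_nonneg_right (mul_le_mul (mul_le_mul_of_nonneg_right hC2 hRK0) hXc
            zero_le_one (mul_nonneg hC0 hRK0)) hSS
  -- the main range
  have ha0 : 0 < a := by linarith
  have hκ1 : κ ≤ 1 := by
    refine le_trans ?_ hκa
    exact le_mul_of_one_le_left hκ.le (by linarith)
  have hκr : 1 ≤ κ * r := by
    calc (1:ℝ) ≤ R ^ (1/4 : ℝ) := Real.one_le_rpow hR (by norm_num)
      _ = R ^ (-(1/4) : ℝ) * R ^ (1/2 : ℝ) := by
          rw [← Real.rpow_add hR0']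
          norm_num
      _ ≤ κ * r := by
          have : 0 ≤ R ^ (1/2 : ℝ) := Real.rpow_nonneg hR0'.le _
          gcongr
  have hgap := gap_le hR hr hRr hSd (min_le_left _ _ : δ ≤ 1/4) (min_le_right _ _ : δ ≤ ε)
    hsmall.le
  have hgs : ∀ ζ, g ζ ≠ 0 → a⁻¹ ≤ ζ 2 ∧ ζ 2 ≤ a ∧ ‖slp ζ‖ ≤ b := fun ζ hz =>
    ⟨(hSt.supp ζ hz).1, (hSt.supp ζ hz).2.1, (hSt.supp ζ hz).2.2.1⟩
  have hgG : Gd (3 * a) g := gd_of ha hb2.le hSt.meas hSt.bdd hgs
  have hSt1 := hCNV κ η0 C0 σ g R D hκ hκa hRR0 hκR hSt hSlc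
  set w2 : ℝ := min ((s1 * r) ^ 2) R with hw2
  have hw : 0 < s1 * r := by positivity
  have hwr : 1 ≤ s1 ^ 2 * r := by
    have h1 := hSd.lo
    have h2 : (r ^ (-(1/2) : ℝ)) ^ 2 * r = 1 := by
      rw [← Real.rpow_natCast, ← Real.rpow_mul hr0.le, ← Real.rpow_add_one hr0.ne']
      norm_num
    rw [← h2]
    have h3 : 0 < r ^ (-(1/2) : ℝ) := Real.rpow_pos_of_pos hr0 _
    exact mul_le_mul_of_nonneg_right (pow_le_pow_left₀ h3.le h1 2) hr0.le
  have hrw : r ≤ w2 := by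
    refine le_min ?_ hrR
    calc r = 1 * r := (one_mul r).symm
      _ ≤ (s1 ^ 2 * r) * r := mul_le_mul_of_nonneg_right hwr hr0.le
      _ = (s1 * r) ^ 2 := by ring
  have hw2R : w2 ≤ R := min_le_right _ _
  have hw2s : w2 ^ (1/2 : ℝ) ≤ s1 * r := by
    have h1 : w2 ≤ (s1 * r) ^ 2 := min_le_left _ _
    calc w2 ^ (1/2 : ℝ) ≤ ((s1 * r) ^ 2) ^ (1/2 : ℝ) :=
          Real.rpow_le_rpow (by linarith) h1 (by norm_num)
      _ = s1 * r := by
          rw [← Real.sqrt_eq_rpow, Real.sqrt_sq hw.le]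
  have hρs : R ^ (-(1/2) : ℝ) ≤ s2 :=
    (Real.rpow_le_rpow_of_nonpos hr0 hrR (by norm_num)).trans (hSd.lo.trans hSd.le)
  -- one cap
  have hone : ∀ Ct : E2, ∀ I : Finset ℕ, ∀ P : ℕ → Plate, Plates M κ A r s1 s2 R I P →
      (∀ i ∈ I, ‖(P i).c - Ct‖ ≤ s2) → val κ g r s1 s2 I P ≤
      ENNReal.ofReal ((c1 * CL * (A + 4) ^ (q / 2) * Real.sqrt (Cb * CC) * (R ^ ε *
        X ^ (c / 2)) + c2) * (s2 ^ (q / 2) * (R * Enc (fun ζ => chi A Ct s2 ζ * g ζ) *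
          Real.sqrt D))) := by
    intro Ct I P hP hct
    refine (hcap κ r s1 s2 R g Ct I P hκ hκ1 hr hrR hκr hSd hSt.meas hSt.bdd hgs hP hct w2 hrw
      hw2R hw2s).trans ?_
    have hEle : Enc (fun ζ => chi A Ct s2 ζ * g ζ) ≤ R ^ M0 * D :=
      (Enc_chi_le hgG Ct).trans hSt.nd
    have hDD : D ≤ Cb * CC * D :=
      le_mul_of_one_le_left hD (one_le_mul_of_one_le_of_one_le hCb hCC)
    have hStt : St M 1 q a b M0 Ct ((A + 4) * s2) (fun ζ => chi A Ct s2 ζ * g ζ) R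
        (Cb * CC * D) := by
      obtain ⟨B, hBd⟩ := hSt.bdd
      refine ⟨(measurable_chi A Ct s2).mul hSt.meas, ⟨B, fun ζ => ?_⟩, fun ζ hz => ?_, hR,
        by positivity, ?_, ?_⟩
      · rw [norm_mul]
        calc ‖chi A Ct s2 ζ‖ * ‖g ζ‖ ≤ 1 * ‖g ζ‖ := by gcongr; exact norm_chi _ _ _ _
          _ ≤ B := by rw [one_mul]; exact hBd ζ
      · obtain ⟨h1, h2, h3⟩ := hgs ζ (right_ne_zero_of_mul hz)
        exact ⟨h1, h2, h3, chi_ne (by linarith) hs2 (left_ne_zero_of_mul hz)⟩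
      · have h1 := hMul g R (CC * D) s2 Ct hR (by positivity) hρs hSd.hi hSt.meas hSt.bdd hgs
          hSt1.box
        rwa [← mul_assoc] at h1
      · refine hEle.trans ?_
        have : 0 ≤ R ^ M0 := Real.rpow_nonneg hR0'.le _
        gcongr
    have hσ : w2 ^ (-(1/2) : ℝ) ≤ (A + 4) * s2 := by
      calc w2 ^ (-(1/2) : ℝ) ≤ r ^ (-(1/2) : ℝ) :=
            Real.rpow_le_rpow_of_nonpos hr0 hrw (by norm_num)
        _ ≤ s2 := hSd.lo.trans hSd.le
        _ ≤ _ := le_mul_of_one_le_left hs2.le (by linarith)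
    have hLB1 := hLB Ct ((A + 4) * s2) (fun ζ => chi A Ct s2 ζ * g ζ) R (Cb * CC * D) hStt w2
      (hr.trans hrw) hw2R hσ
    exact cap_num hA hq hCL hc1 hc2 (one_le_mul_of_one_le_of_one_le hCb hCC) hN hR hr hrR hSd hD
      hgap hEle hLB1
  -- the supremum
  have hmain : SIG M κ A r s1 s2 g R ≤ ENNReal.ofReal (s2 ^ (q / 2) * (Cm *
      R ^ ((1 + J) * ε) * X ^ (c / 2) * SS g R D)) := by
    unfold SIG
    refine iSup_le fun I => iSup_le fun P => iSup_le fun hP => ?_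
    set T : Finset (ℤ × ℤ) := I.image fun i => nrc s2 (P i).c with hTdef
    have h1 : val κ g r s1 s2 I P = ∑ t ∈ T, val κ g r s1 s2
        (I.filter fun i => nrc s2 (P i).c = t) P := by
      unfold val
      rw [Finset.sum_fiberwise_of_maps_to (s := I) (t := T) (g := fun i => nrc s2 (P i).c)
        (fun i hi => Finset.mem_image_of_mem _ hi)]
    rw [h1]
    have h2 : ∀ t ∈ T, val κ g r s1 s2 (I.filter fun i => nrc s2 (P i).c = t) P ≤
        ENNReal.ofReal ((c1 * CL * (A + 4) ^ (q / 2) * Real.sqrt (Cb * CC) * (R ^ ε *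
        X ^ (c / 2)) + c2) * (s2 ^ (q / 2) * (R * Enc (fun ζ => chi A (cen s2 t) s2 ζ * g ζ) *
          Real.sqrt D))) := by
      intro t _
      refine hone (cen s2 t) _ P (plates_sub hP (Finset.filter_subset _ _)) ?_
      intro i hi
      rw [← (Finset.mem_filter.1 hi).2]
      exact nrc_le hs2 _
    refine (Finset.sum_le_sum h2).trans ?_
    have hX0 : 0 ≤ X ^ (c / 2) := by linarith
    have hs2q : 0 ≤ s2 ^ (q / 2) := Real.rpow_nonneg hs2.le _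
    have hsD := Real.sqrt_nonneg D
    rw [← ENNReal.ofReal_sum_of_nonneg]
    swap
    · intro t _
      have := Crest.Agent.R116.Ba449.Enc_nonneg (fun ζ => chi A (cen s2 t) s2 ζ * g ζ)
      positivity
    refine ENNReal.ofReal_le_ofReal ?_
    have h3 := sum_Enc_chi (A := A) (s := s2) (by linarith) hs2 hgG T
    have h4 : ∑ t ∈ T, (c1 * CL * (A + 4) ^ (q / 2) * Real.sqrt (Cb * CC) * (R ^ ε *
        X ^ (c / 2)) + c2) * (s2 ^ (q / 2) * (R * Enc (fun ζ => chi A (cen s2 t) s2 ζ * g ζ) *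
          Real.sqrt D)) = (c1 * CL * (A + 4) ^ (q / 2) * Real.sqrt (Cb * CC) * (R ^ ε *
        X ^ (c / 2)) + c2) * (s2 ^ (q / 2) * R * Real.sqrt D) *
        ∑ t ∈ T, Enc (fun ζ => chi A (cen s2 t) s2 ζ * g ζ) := by
      rw [Finset.mul_sum]
      refine Finset.sum_congr rfl fun t _ => ?_
      ring
    rw [h4]
    have h5 : c1 * CL * (A + 4) ^ (q / 2) * Real.sqrt (Cb * CC) * (R ^ ε * X ^ (c / 2)) + c2 ≤
        (c1 * CL * (A + 4) ^ (q / 2) * Real.sqrt (Cb * CC) + c2) *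
          (R ^ ((1 + J) * ε) * X ^ (c / 2)) := by
      rw [add_mul]
      have hk1 : 0 ≤ c1 * CL * (A + 4) ^ (q / 2) * Real.sqrt (Cb * CC) :=
        mul_nonneg (mul_nonneg (mul_nonneg hc1 hCL) hA40) hsb
      refine add_le_add ?_ ?_
      · exact mul_le_mul_of_nonneg_left (mul_le_mul_of_nonneg_right hRK hX0) hk1
      · exact le_mul_of_one_le_right hc2 (one_le_mul_of_one_le_of_one_le hRK1 hXc)
    have hk2 : 0 ≤ s2 ^ (q / 2) * R * Real.sqrt D := mul_nonneg (mul_nonneg hs2q hR0'.le) hsD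
    have hk3 : 0 ≤ ∑ t ∈ T, Enc (fun ζ => chi A (cen s2 t) s2 ζ * g ζ) :=
      Finset.sum_nonneg fun t _ => Crest.Agent.R116.Ba449.Enc_nonneg _
    have hk4 : 0 ≤ (c1 * CL * (A + 4) ^ (q / 2) * Real.sqrt (Cb * CC) + c2) *
          (R ^ ((1 + J) * ε) * X ^ (c / 2)) := mul_nonneg (add_nonneg (mul_nonneg (mul_nonneg
            (mul_nonneg hc1 hCL) hA40) hsb) hc2) (mul_nonneg hRK0 hX0)
    calc _ ≤ ((c1 * CL * (A + 4) ^ (q / 2) * Real.sqrt (Cb * CC) + c2) *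
          (R ^ ((1 + J) * ε) * X ^ (c / 2))) * (s2 ^ (q / 2) * R * Real.sqrt D) *
          ((2 * (A + 4) + 1) ^ 2 * Enc g) :=
          mul_le_mul (mul_le_mul_of_nonneg_right h5 hk2) h3 hk3 (mul_nonneg hk4 hk2)
      _ = _ := by
          rw [hCm]
          unfold SS
          ring
  have hs2q : s2 ^ (-q / 2) * s2 ^ (q / 2) = 1 := by
    rw [← Real.rpow_add hs2]
    have : -q / 2 + q / 2 = 0 := by ring
    rw [this, Real.rpow_zero]
  calc ENNReal.ofReal (s2 ^ (-q / 2)) * SIG M κ A r s1 s2 g R ≤ ENNReal.ofReal (s2 ^ (-q / 2)) *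
        ENNReal.ofReal (s2 ^ (q / 2) * (Cm * R ^ ((1 + J) * ε) * X ^ (c / 2) * SS g R D)) :=
        mul_le_mul_right hmain _
    _ = ENNReal.ofReal (Cm * R ^ ((1 + J) * ε) * X ^ (c / 2) * SS g R D) := by
        rw [← ENNReal.ofReal_mul (Real.rpow_nonneg hs2.le _), ← mul_assoc, hs2q, one_mul]
    _ ≤ _ := by
        refine ENNReal.ofReal_le_ofReal ?_
        have hX0 : 0 ≤ X ^ (c / 2) := by linarith
        exact mul_le_mul_of_nonneg_right (mul_le_mul_of_nonneg_right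
          (mul_le_mul_of_nonneg_right hC3 hRK0) hX0) hSS

end Crest.Agent.R116.Sup858
end

-- ▼ part R116/SupV_192
section

/-!
# R116 (S0155), wave side, A2k: volume of the time slices of the dilated members (helper192)

`volC M : Sup858.VolC M`: the points of time `s` which are within `A (s1 r, s1 r, s2 s1 r)` of a ray
of the `A`-dilated member have volume `≤ C(A, M) scost`.  If `s1 ≤ s2 / C` this is 725's
`vol_sec_ray`, otherwise the light box alone.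
-/

set_option autoImplicit false

open MeasureTheory
open scoped ENNReal

namespace Crest.Agent.R116.SupV192

open Crest.Agent.R138.Defs (E2)
open Crest.Agent.R116.CDef480 Crest.Agent.R116.WC188 Crest.Agent.R116.Sup858
open Crest.Agent.R116.LZg725 (Cf vol_slab_gr vol_frame vol_sec_ray d_le_of_ny ny_sg_le)

/-- volume of a cylinder. -/
theorem vol_cyl {a t : ℝ} (ha : 0 ≤ a) (ht : 0 ≤ t) :
    volume {Y : E3 | ‖lat Y‖ ≤ a ∧ |Y 2| ≤ t} ≤ ENNReal.ofReal (64 * a * a * t) := by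
  set e : E2 := EuclideanSpace.single 0 1 with he'
  have he : ‖e‖ = 1 := by simp [he']
  have h := vol_slab_gr (al := 0) (g := 0) (d := 0) (be := e) (A := a) (t := t) (lam := a)
    (kap := 1) one_pos ha ha ht
  rw [div_one] at h
  refine (measure_mono ?_).trans h
  rintro Y ⟨h1, h2⟩
  refine ⟨h1, h2, ?_, ?_⟩
  · rw [zero_add, zero_mul, zero_mul, add_zero, add_zero]
    exact (abs_real_inner_le_norm _ _).trans (by rw [he, one_mul]; exact h1)
  · rw [mul_zero, zero_smul, add_zero, he]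

/-- volume of a light box at a fixed time. -/
theorem vol_lbox (c x0 : E2) (y0 s0 s : ℝ) {a t : ℝ} (ha : 0 ≤ a) (ht : 0 ≤ t) :
    volume {X : E3 | ‖(lat X - x0) + (s - s0) • c‖ ≤ a ∧
      |LZg725.nrm c (lat X) (X 2) s - LZg725.nrm c x0 y0 s0| ≤ t} ≤
      ENNReal.ofReal (64 * a * a * t) := by
  have h := vol_frame c x0 y0 s0 s {Y : E3 | ‖lat Y‖ ≤ a ∧ |Y 2| ≤ t}
  refine le_trans (le_of_eq ?_) (h.trans_le (vol_cyl ha ht))
  congr 1
  ext X
  simp only [Set.mem_ofPred_eq, lat_pt, pt_two]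

theorem nrm_eq (C : E2) (X : E3) (s : ℝ) : nrm C X s = LZg725.nrm C (lat X) (X 2) s := rfl

set_option maxHeartbeats 1000000 in
/-- geometry of a point near a ray of the dilated member. -/
theorem near_ray {M A r s1 s2 T s : ℝ} {c C : E2} {X0 X Y : E3} {f : Cf E2} (hM : 0 ≤ M)
    (hA : 1 ≤ A) (hr : 0 < r) (hs1 : 0 < s1) (h12 : s1 ≤ s2) (hT : s2 ^ 2 ≤ T)
    (hdisc : f.disc = 1) (hny : |f.ny 0| * T ≤ M * s2) (hd : 2 * |f.d| * (T * r) ≤ M * s2)
    (hs : |s| ≤ r) (hC : ‖C - c‖ ≤ A * s2) (hY1 : ‖lat Y - lat X0‖ ≤ A * s2 * r)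
    (hY2 : |nrm c Y 0 - nrm c X0 0| ≤ A * T * r)
    (hev : |f.ev (lat Y) (Y 2) 0| ≤ A * s1 * r) (hld : |f.ld C (lat Y) (Y 2) 0| ≤ A * s1)
    (hZ1 : ‖lat (Y - s • vel C - X)‖ ≤ A * (s1 * r))
    (hZ2 : |nrm C (Y - s • vel C - X) 0| ≤ A * (s2 * (s1 * r))) :
    ‖(lat X - lat X0) + (s - 0) • c‖ ≤ 4 * A ^ 2 * s2 * r ∧
    |LZg725.nrm c (lat X) (X 2) s - LZg725.nrm c (lat X0) (X0 2) 0| ≤ 4 * A ^ 2 * T * r ∧
    |f.ev (lat X) (X 2) s| ≤ (3 * A + 7 * A ^ 2 * M) * (s1 * r) ∧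
    |f.ld C (lat X) (X 2) s| ≤ (3 * A + 7 * A ^ 2 * M) * s1 := by
  have hA0 : 0 < A := by linarith
  have hs20 : 0 < s2 := hs1.trans_le h12
  have hT0 : 0 < T := lt_of_lt_of_le (pow_pos hs20 2) hT
  set z : E2 := lat (Y - s • vel C - X) with hz
  set nz : ℝ := nrm C (Y - s • vel C - X) 0 with hnz
  have ez : z = lat Y - s • C - lat X := by
    rw [hz, lat_sub, lat_sub, lat_smul]; unfold vel; rw [lat_pt]
  have enz : nz = (Y 2 + s * ‖C‖ ^ 2 / 2 - X 2) + inner ℝ C z := by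
    rw [hnz, hz]
    unfold nrm
    have : (Y - s • vel C - X) 2 = Y 2 + s * ‖C‖ ^ 2 / 2 - X 2 := by
      unfold vel
      simp only [PiLp.sub_apply, PiLp.smul_apply, smul_eq_mul, pt_two]
      ring
    rw [this]; ring
  have elX : lat X = lat Y - s • C - z := by rw [ez]; abel
  have eX2 : X 2 = Y 2 + s * ‖C‖ ^ 2 / 2 + inner ℝ C z - nz := by rw [enz]; ring
  have eN : LZg725.nrm C (lat X) (X 2) s - LZg725.nrm C (lat Y) (Y 2) 0 = -nz := by
    unfold LZg725.nrm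
    rw [elX, eX2, inner_sub_right, inner_sub_right, real_inner_smul_right,
      real_inner_self_eq_norm_sq]
    ring
  have eNc : LZg725.nrm c (lat X) (X 2) s - LZg725.nrm c (lat Y) (Y 2) 0 =
      -nz + inner ℝ (C - c) z + s * ‖C - c‖ ^ 2 / 2 := by
    have h1 := LZg725.nrm_sub C c (lat X) (X 2) s
    have h2 := LZg725.nrm_sub C c (lat Y) (Y 2) 0
    have e3 : inner ℝ (c - C) (lat X + s • C) = inner ℝ (c - C) (lat Y) - inner ℝ (c - C) z := by
      rw [elX, ← inner_sub_right]; congr 1; abel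
    have e4 : inner ℝ (C - c) z = - inner ℝ (c - C) z := by
      rw [← inner_neg_left, neg_sub]
    rw [zero_smul, add_zero] at h2
    rw [norm_sub_rev C c, e4]
    rw [e3] at h1
    linarith [eN]
  have hd2 : 2 * |f.d| * r * s2 ≤ M := ny_sg_le hs20 hT (by positivity) hM (by linarith)
  have hn2 : |f.ny 0| * s2 ≤ M := ny_sg_le hs20 hT (abs_nonneg _) hM hny
  have hzn := norm_nonneg z
  have hrs : 0 < s1 * r := mul_pos hs1 hr
  have hnz' : |nz| ≤ A * (s2 * (s1 * r)) := hZ2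
  have hzz : ‖z‖ ≤ A * (s1 * r) := hZ1
  have hAA : A ≤ A ^ 2 := by rw [sq]; exact le_mul_of_one_le_left hA0.le hA
  have hMA : A * M ≤ A ^ 2 * M := mul_le_mul_of_nonneg_right hAA hM
  have hM2 : 0 ≤ A ^ 2 * M := by positivity
  -- lateral gradient
  have hgr : ‖f.gr C (lat Y) 0‖ ≤ 1 + 4 * A * M := by
    have h1 := f.norm_gr_sq C (lat Y) (Y 2) 0
    rw [hdisc] at h1
    have h2 : |f.ny 0 * f.ld C (lat Y) (Y 2) 0| ≤ A * M := by
      rw [abs_mul]
      calc |f.ny 0| * |f.ld C (lat Y) (Y 2) 0| ≤ |f.ny 0| * (A * s2) := by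
            gcongr; exact hld.trans (by gcongr)
        _ = A * (|f.ny 0| * s2) := by ring
        _ ≤ A * M := by gcongr
    have h3 : |f.d * f.ev (lat Y) (Y 2) 0| ≤ A * M / 2 := by
      rw [abs_mul]
      calc |f.d| * |f.ev (lat Y) (Y 2) 0| ≤ |f.d| * (A * s2 * r) := by
            gcongr; exact hev.trans (by gcongr)
        _ = A * (2 * |f.d| * r * s2) / 2 := by ring
        _ ≤ A * M / 2 := by gcongr
    have h4 := (abs_le.1 h2).2
    have h5 := (abs_le.1 h3).2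
    have h6 : ‖f.gr C (lat Y) 0‖ ^ 2 ≤ 1 + 4 * A * M := by rw [h1]; linarith
    have h7 : 0 ≤ A * M := by positivity
    have h8 : 1 ≤ 1 + 4 * A * M := by linarith
    refine (sq_le_sq₀ (norm_nonneg _) (by linarith)).1 (h6.trans ?_)
    exact le_self_pow₀ h8 (by norm_num)
  refine ⟨?_, ?_, ?_, ?_⟩
  · have e : (lat X - lat X0) + (s - 0) • c = (lat Y - lat X0) - s • (C - c) - z := by
      rw [elX, sub_zero]; module
    rw [e]
    calc ‖(lat Y - lat X0) - s • (C - c) - z‖ ≤ ‖lat Y - lat X0‖ + ‖s • (C - c)‖ + ‖z‖ :=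
          (norm_sub_le _ _).trans (by gcongr; exact norm_sub_le _ _)
      _ ≤ A * s2 * r + r * (A * s2) + A * (s1 * r) := by
          rw [norm_smul, Real.norm_eq_abs]
          gcongr
      _ ≤ A * s2 * r + r * (A * s2) + A * (s2 * r) := by gcongr
      _ = 3 * A * (s2 * r) := by ring
      _ ≤ 4 * A ^ 2 * (s2 * r) := by
          gcongr ?_ * (s2 * r)
          linarith
      _ = _ := by ring
  · have e : LZg725.nrm c (lat X) (X 2) s - LZg725.nrm c (lat X0) (X0 2) 0 =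
        (nrm c Y 0 - nrm c X0 0) + (-nz + inner ℝ (C - c) z + s * ‖C - c‖ ^ 2 / 2) := by
      rw [← eNc, nrm_eq, nrm_eq]; ring
    rw [e]
    have i1 : |inner ℝ (C - c) z| ≤ A * s2 * (A * (s1 * r)) :=
      (abs_real_inner_le_norm _ _).trans (by gcongr)
    have i2 : |s * ‖C - c‖ ^ 2 / 2| ≤ r * (A * s2) ^ 2 / 2 := by
      rw [abs_div, abs_mul, abs_of_nonneg (by positivity : (0:ℝ) ≤ ‖C - c‖ ^ 2),
        abs_of_pos (by norm_num : (0:ℝ) < 2)]
      gcongr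
    have i3 : s2 * (s1 * r) ≤ T * r := by
      calc s2 * (s1 * r) ≤ s2 * (s2 * r) := by gcongr
        _ = s2 ^ 2 * r := by ring
        _ ≤ T * r := by gcongr
    have i4 : s2 ^ 2 * r ≤ T * r := by gcongr
    have i5 : A ≤ A ^ 2 := hAA
    have hTr : 0 < T * r := by positivity
    calc |(nrm c Y 0 - nrm c X0 0) + (-nz + inner ℝ (C - c) z + s * ‖C - c‖ ^ 2 / 2)|
        ≤ |nrm c Y 0 - nrm c X0 0| + (|nz| + |inner ℝ (C - c) z| + |s * ‖C - c‖ ^ 2 / 2|) := by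
          refine (abs_add_le _ _).trans ?_
          gcongr
          refine (abs_add_le _ _).trans ?_
          gcongr
          refine (abs_add_le _ _).trans ?_
          rw [abs_neg]
      _ ≤ A * T * r + (A * (s2 * (s1 * r)) + A * s2 * (A * (s1 * r)) + r * (A * s2) ^ 2 / 2) := by
          gcongr
      _ = A * (T * r) + A * (s2 * (s1 * r)) + A ^ 2 * (s2 * (s1 * r)) + A ^ 2 * (s2 ^ 2 * r) / 2 := by
          ring
      _ ≤ A * (T * r) + A * (T * r) + A ^ 2 * (T * r) + A ^ 2 * (T * r) / 2 := by gcongr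
      _ ≤ A ^ 2 * (T * r) + A ^ 2 * (T * r) + A ^ 2 * (T * r) + A ^ 2 * (T * r) / 2 := by gcongr
      _ ≤ 4 * A ^ 2 * (T * r) := by
          have : 0 ≤ A ^ 2 * (T * r) := by positivity
          linarith
      _ = _ := by ring
  · have e := f.ev_expand C (lat Y) (Y 2) 0 (lat X) (X 2) s
    have e2 : (lat X - lat Y) + (s - 0) • C = -z := by rw [elX, sub_zero]; module
    rw [e2, eN, norm_neg, inner_neg_right, sub_zero] at e
    rw [e]
    have i1 : |f.ld C (lat Y) (Y 2) 0 * s| ≤ A * s1 * r := by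
      rw [abs_mul]; gcongr
    have i2 : |inner ℝ (f.gr C (lat Y) 0) z| ≤ (1 + 4 * A * M) * (A * (s1 * r)) :=
      (abs_real_inner_le_norm _ _).trans (by gcongr)
    have i3 : |f.ny 0 * -nz| ≤ M * (A * (s1 * r)) := by
      rw [abs_mul, abs_neg]
      calc |f.ny 0| * |nz| ≤ |f.ny 0| * (A * (s2 * (s1 * r))) := by gcongr
        _ = (|f.ny 0| * s2) * (A * (s1 * r)) := by ring
        _ ≤ _ := by gcongr
    have i4 : |f.d * (‖z‖ ^ 2 - 2 * s * -nz)| ≤ (M / 2) * (A ^ 2 + 2 * A) * (s1 * r) := by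
      rw [abs_mul]
      have j1 : |‖z‖ ^ 2 - 2 * s * -nz| ≤ (A * (s1 * r)) ^ 2 + 2 * r * (A * (s2 * (s1 * r))) := by
        refine (abs_sub _ _).trans ?_
        rw [abs_of_nonneg (by positivity : (0:ℝ) ≤ ‖z‖ ^ 2), abs_mul, abs_mul, abs_neg,
          abs_of_pos (by norm_num : (0:ℝ) < 2)]
        gcongr
      calc |f.d| * |‖z‖ ^ 2 - 2 * s * -nz|
          ≤ |f.d| * ((A * (s1 * r)) ^ 2 + 2 * r * (A * (s2 * (s1 * r)))) := by gcongr
        _ = |f.d| * r * (A ^ 2 * s1 + 2 * A * s2) * (s1 * r) := by ring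
        _ ≤ |f.d| * r * (A ^ 2 * s2 + 2 * A * s2) * (s1 * r) := by gcongr
        _ = (2 * |f.d| * r * s2) * ((A ^ 2 + 2 * A) / 2) * (s1 * r) := by ring
        _ ≤ M * ((A ^ 2 + 2 * A) / 2) * (s1 * r) := by gcongr
        _ = _ := by ring
    calc |f.ev (lat Y) (Y 2) 0 + f.ld C (lat Y) (Y 2) 0 * s + -inner ℝ (f.gr C (lat Y) 0) z +
          f.ny 0 * -nz + f.d * (‖z‖ ^ 2 - 2 * s * -nz)|
        ≤ |f.ev (lat Y) (Y 2) 0| + |f.ld C (lat Y) (Y 2) 0 * s| + |inner ℝ (f.gr C (lat Y) 0) z| +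
          |f.ny 0 * -nz| + |f.d * (‖z‖ ^ 2 - 2 * s * -nz)| := by
          refine (abs_add_le _ _).trans ?_
          gcongr
          refine (abs_add_le _ _).trans ?_
          gcongr
          refine (abs_add_le _ _).trans ?_
          rw [abs_neg]
          gcongr
          exact abs_add_le _ _
      _ ≤ A * s1 * r + A * s1 * r + (1 + 4 * A * M) * (A * (s1 * r)) + M * (A * (s1 * r)) +
          (M / 2) * (A ^ 2 + 2 * A) * (s1 * r) := by gcongr
      _ = (3 * A + (4 + 1 / 2) * (A ^ 2 * M) + 2 * (A * M)) * (s1 * r) := by ring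
      _ ≤ (3 * A + (4 + 1 / 2) * (A ^ 2 * M) + 2 * (A ^ 2 * M)) * (s1 * r) := by gcongr
      _ ≤ _ := by
          refine mul_le_mul_of_nonneg_right ?_ hrs.le
          linarith
  · have e := f.ld_move C (lat Y) (lat X) (Y 2) (X 2) 0 s
    rw [eN] at e
    rw [e]
    have i1 : |2 * f.d * -nz| ≤ M * (A * s1) := by
      rw [abs_mul, abs_mul, abs_neg, abs_of_pos (by norm_num : (0:ℝ) < 2)]
      calc 2 * |f.d| * |nz| ≤ 2 * |f.d| * (A * (s2 * (s1 * r))) := by gcongr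
        _ = (2 * |f.d| * r * s2) * (A * s1) := by ring
        _ ≤ _ := by gcongr
    calc |f.ld C (lat Y) (Y 2) 0 - 2 * f.d * -nz| ≤ A * s1 + M * (A * s1) :=
          (abs_sub _ _).trans (by gcongr)
      _ = (A + A * M) * s1 := by ring
      _ ≤ _ := by
          refine mul_le_mul_of_nonneg_right ?_ hs1.le
          linarith

/-- **VolC**. -/
theorem volC (M : ℝ) : VolC M := by
  intro A hA
  set K1 : ℝ := 3 * A + 7 * A ^ 2 * |M| with hK1
  have hK10 : 0 < K1 := by positivity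
  refine ⟨256 * (4 * A ^ 2) ^ 3 * K1 + 64 * (4 * A ^ 2) ^ 3 * (8 * |M| * K1), by positivity, ?_⟩
  intro κ r s1 s2 c X0 f hκ hκ1 hr hκr hSd hcA hadm s hs
  have hr0 : 0 < r := by linarith
  have hs1 : 0 < s1 := lt_of_lt_of_le (Real.rpow_pos_of_pos hr0 _) hSd.lo
  have hs20 : 0 < s2 := hs1.trans_le hSd.le
  have hM : 0 ≤ M := by
    have h1 := (abs_nonneg _).trans (hadm.cmp 0 (by rw [abs_zero]; exact hr0.le))
    by_contra h
    push Not at h
    have : M * (κ * s1 * r) < 0 := mul_neg_of_neg_of_pos h (by positivity)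
    linarith
  rw [abs_of_nonneg hM] at hK1 ⊢
  set T : ℝ := TT κ s2 r with hT
  have hT2 : s2 ^ 2 ≤ T := le_max_left _ _
  have hT0 : 0 < T := lt_of_lt_of_le (pow_pos hs20 2) hT2
  have hnyT : ∀ u : ℝ, |u - 0| ≤ r → |f.ny u| * T ≤ M * s2 := by
    intro u hu
    rw [sub_zero] at hu
    have := hadm.ny u hu
    rwa [le_div_iff₀ hT0] at this
  have hd := d_le_of_ny hr0.le hT0.le hnyT
  have hgeo : ∀ X ∈ nbh κ A r s1 s2 c X0 f s,
      ‖(lat X - lat X0) + (s - 0) • c‖ ≤ 4 * A ^ 2 * s2 * r ∧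
      |LZg725.nrm c (lat X) (X 2) s - LZg725.nrm c (lat X0) (X0 2) 0| ≤ 4 * A ^ 2 * T * r ∧
      |f.ev (lat X) (X 2) s| ≤ K1 * (s1 * r) ∧
      ∃ C : E2, ‖C - c‖ ≤ 4 * A ^ 2 * s2 ∧ |f.ld C (lat X) (X 2) s| ≤ K1 * s1 := by
    rintro X ⟨Y, C, ⟨b1, b2, b3, b4, b5⟩, b6, b7⟩
    have h := near_ray hM hA hr0 hs1 hSd.le hT2 hadm.disc
      (hnyT 0 (by rw [sub_zero, abs_zero]; exact hr0.le)) hd hs b1 b2 b3 b4 b5 b6 b7
    refine ⟨h.1, h.2.1, by rw [hK1]; exact h.2.2.1, C, b1.trans ?_, by rw [hK1]; exact h.2.2.2⟩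
    refine mul_le_mul_of_nonneg_right ?_ hs20.le
    nlinarith
  have hK : 1 ≤ 4 * A ^ 2 := by nlinarith
  rcases le_or_gt (8 * M * K1 * s1) s2 with hcase | hcase
  · refine (measure_mono fun X hX => ?_).trans ((vol_sec_ray (M := M) (c := c) (x0 := lat X0)
      (y0 := X0 2) (s0 := 0) (s := s) (sg := s2) (T := T) (R := r) (p := f) (K := 4 * A ^ 2)
      (lam := K1 * (s1 * r)) (h := K1 * s1) hr0 hs20 hT2 hK hM (by positivity) hadm.disc
      (hnyT s (by rwa [sub_zero])) hd ?_ ?_).trans (ENNReal.ofReal_le_ofReal ?_))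
    · exact hgeo X hX
    · calc 8 * M * (K1 * (s1 * r)) = 8 * M * K1 * s1 * r := by ring
        _ ≤ s2 * r := by gcongr
    · linarith
    · unfold scost
      rw [← hT]
      have : 0 ≤ 64 * (4 * A ^ 2) ^ 3 * (8 * M * K1) * (s1 * s2 * T * r ^ 3) := by positivity
      calc 256 * (4 * A ^ 2) ^ 3 * (K1 * (s1 * r) * (s2 * r) * (T * r))
          = 256 * (4 * A ^ 2) ^ 3 * K1 * (s1 * s2 * T * r ^ 3) := by ring
        _ ≤ 256 * (4 * A ^ 2) ^ 3 * K1 * (s1 * s2 * T * r ^ 3) +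
            64 * (4 * A ^ 2) ^ 3 * (8 * M * K1) * (s1 * s2 * T * r ^ 3) := by linarith
        _ = _ := by ring
  · refine (measure_mono fun X hX => ?_).trans ((vol_lbox c (lat X0) (X0 2) 0 s
      (a := 4 * A ^ 2 * s2 * r) (t := 4 * A ^ 2 * T * r) (by positivity) (by positivity)).trans
      (ENNReal.ofReal_le_ofReal ?_))
    · exact ⟨(hgeo X hX).1, (hgeo X hX).2.1⟩
    · unfold scost
      rw [← hT]
      have h0 : 0 ≤ 256 * (4 * A ^ 2) ^ 3 * K1 * (s1 * s2 * T * r ^ 3) := by positivity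
      calc 64 * (4 * A ^ 2 * s2 * r) * (4 * A ^ 2 * s2 * r) * (4 * A ^ 2 * T * r)
          = 64 * (4 * A ^ 2) ^ 3 * s2 * (s2 * T * r ^ 3) := by ring
        _ ≤ 64 * (4 * A ^ 2) ^ 3 * (8 * M * K1 * s1) * (s2 * T * r ^ 3) := by gcongr
        _ ≤ 64 * (4 * A ^ 2) ^ 3 * (8 * M * K1 * s1) * (s2 * T * r ^ 3) +
            256 * (4 * A ^ 2) ^ 3 * K1 * (s1 * s2 * T * r ^ 3) := by linarith
        _ = _ := by ring

end Crest.Agent.R116.SupV192
end

-- ▼ part R116/Sub2_387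
section

/-!
# R116 (S0155), wave side: kernel bound => box bound (helper387)

`box_of_ker`: if the packets of `G` (level `r`) are bounded by the plate kernels applied to the
packets of `g` in the selection `S` and `S` has density `D`, then `G` satisfies the box bound `C K² D`.
-/

set_option autoImplicit false

open MeasureTheory FourierTransform
open scoped ContDiff ENNReal

namespace Crest.Agent.R116.Sub387

open Crest.Agent.R138.Defs (E2 ee)
open Crest.Agent.R138.Wpk685 (win fat cen caps)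
open Crest.Agent.R138.Wf448 (adet)
open Crest.Agent.R116.CWp480 Crest.Agent.R116.CWc480
open Crest.Agent.R116.CDef480 Crest.Agent.R116.WC188
open Crest.Agent.R116.Bas367 (Bsc)
open Crest.Agent.R138.Loc878 (Near nearL mem_nearL sum_near_le)
open Crest.Agent.R116.De295 Crest.Agent.R116.F1c124
open Crest.Agent.R116.LZg725 (Cf)

/-- **kernel bound implies box bound**. -/
theorem box_of_ker {M q : ℝ} (hM : 1 ≤ M) (hq : 0 ≤ q) : ∃ (j : ℕ) (Ck : ℝ), 0 ≤ Ck ∧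
    ∀ κ r : ℝ, 0 < κ → κ ≤ 1 → 1 ≤ r → r ^ (-(1/4) : ℝ) ≤ κ →
    ∀ (g G : E3 → ℂ) (S : ℤ × ℤ → Set E3), Integrable g →
      (∀ m ∈ caps (r ^ (-(1/2) : ℝ)), MeasurableSet (S m)) → ∀ K : ℝ, 0 ≤ K →
      (∀ m' ∈ caps (r ^ (-(1/2) : ℝ)), ∀ X, ‖umc (r ^ (-(1/2) : ℝ)) G m' X‖ₑ ≤ ENNReal.ofReal K *
        ∑ m ∈ nearL (r ^ (-(1/2) : ℝ)) (r ^ (-(1/2) : ℝ)) m', ∫⁻ y in S m,
          ENNReal.ofReal (kc (dd E3 + j) (r ^ (-(1/2) : ℝ)) κ (cen (r ^ (-(1/2) : ℝ)) m) (X - y)) *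
            ‖umc (r ^ (-(1/2) : ℝ)) g m y‖ₑ) →
      ∀ D : ℝ, 0 ≤ D → Dsc M κ q r g S D → PBx M κ q r G (Ck * K ^ 2 * D) := by
  classical
  obtain ⟨Cs, p, hCs, hst⟩ := Cov369.stabc hq M hM
  have hc3 := cd3_nonneg (V := E3)
  refine ⟨2 * p + 1, 36 * (cd3 E3 * cd3 E3) * 36 * (2 ^ (2 * p + 2) * (128 * M) ^ p * Cs),
    by positivity, ?_⟩
  intro κ r hκ hκ1 hr hrκ g G S hgi hSm K hK hker D hD hDs
  have hr0 : 0 < r := by linarith
  set ρ := r ^ (-(1/2) : ℝ) with hρd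
  have hρ : 0 < ρ := Real.rpow_pos_of_pos hr0 _
  intro c X0 f s1 s2 hsd hadm
  -- the selection restricted to the caps
  set S' : ℤ × ℤ → Set E3 := fun m => if m ∈ caps ρ then S m else ∅ with hS'
  have hS'm : ∀ m, MeasurableSet (S' m) := by
    intro m
    simp only [hS']
    split_ifs with h
    · exact hSm m h
    · exact MeasurableSet.empty
  have hS'e : ∀ m ∈ caps ρ, S' m = S m := fun m hm => by simp only [hS', if_pos hm]
  have hD1 : Dsc 1 κ q r g S' D := by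
    intro c X0 f s1 s2 hsd hadm
    refine le_trans (le_of_eq ?_) (hDs c X0 f s1 s2 hsd (adm_mono hM hr hκ hsd hadm))
    exact Bas367.enc_congr g fun m hm => by rw [hS'e m hm]
  have hdens := fun k : ℕ => hst (128 * M * 4 ^ k) κ r (by
    have : (1:ℝ) ≤ 4 ^ k := one_le_pow₀ (by norm_num)
    nlinarith) hr hκ hκ1 hrκ g S' D hS'm hD hD1 c X0 f s1 s2 hsd hadm
  -- dyadic boxes
  set Q : ℤ × ℤ → ℕ → Set E3 := fun m k => pbx κ (128 * M * 4 ^ k) r s1 s2 c X0 f m with hQ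
  have hQm : ∀ m k, MeasurableSet (Q m k) := fun m k => meas_pbx _ _ _ _ _ _ _ _ _
  set u : ℤ × ℤ → E3 → ℝ≥0∞ := fun m y => ‖umc ρ g m y‖ₑ ^ 2 with hu
  have hum : ∀ m, Measurable (u m) := fun m =>
    ((Bas367.umc_cont hgi ρ m).measurable.enorm).pow_const 2
  set j := 2 * p + 1 with hj
  have hpt : ∀ m' ∈ caps ρ, ∀ X, ‖umc ρ G m' X‖ₑ ^ 2 ≤ ENNReal.ofReal (K ^ 2 * 36 * cd3 E3) *
      ∑ m ∈ nearL ρ ρ m', ∫⁻ y in S m,
        u m y * ENNReal.ofReal (kc (dd E3 + j) ρ κ (cen ρ m) (X - y)) := by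
    intro m' hm' X
    have h1 := hker m' hm' X
    have hkm : ∀ m, AEMeasurable (fun y => ENNReal.ofReal (kc (dd E3 + j) ρ κ (cen ρ m) (X - y)))
        (volume.restrict (S m)) := fun m =>
      (((kc_cont _ hρ hκ _).measurable.comp
        (measurable_const.sub measurable_id)).ennreal_ofReal).aemeasurable
    calc ‖umc ρ G m' X‖ₑ ^ 2 ≤ (ENNReal.ofReal K * ∑ m ∈ nearL ρ ρ m', ∫⁻ y in S m,
          ENNReal.ofReal (kc (dd E3 + j) ρ κ (cen ρ m) (X - y)) * ‖umc ρ g m y‖ₑ) ^ 2 := by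
          gcongr
      _ = ENNReal.ofReal (K ^ 2) * (∑ m ∈ nearL ρ ρ m', ∫⁻ y in S m,
          ‖umc ρ g m y‖ₑ * ENNReal.ofReal (kc (dd E3 + j) ρ κ (cen ρ m) (X - y))) ^ 2 := by
          rw [mul_pow, ENNReal.ofReal_pow hK]
          congr 2
          refine Finset.sum_congr rfl fun m _ => lintegral_congr fun y => mul_comm _ _
      _ ≤ ENNReal.ofReal (K ^ 2) * ((nearL ρ ρ m').card * ∑ m ∈ nearL ρ ρ m', (∫⁻ y in S m,
          ‖umc ρ g m y‖ₑ * ENNReal.ofReal (kc (dd E3 + j) ρ κ (cen ρ m) (X - y))) ^ 2) := by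
          gcongr
          exact sum_sq_le _ _
      _ ≤ ENNReal.ofReal (K ^ 2) * (36 * ∑ m ∈ nearL ρ ρ m', (ENNReal.ofReal (cd3 E3) *
          ∫⁻ y in S m, u m y * ENNReal.ofReal (kc (dd E3 + j) ρ κ (cen ρ m) (X - y)))) := by
          gcongr with m hm
          · exact_mod_cast card_nearL' hρ m'
          · refine (lint_sq_mu (Bas367.umc_cont hgi ρ m).measurable.enorm.aemeasurable
              (hkm m)).trans ?_
            refine mul_le_mul_left ?_ _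
            refine (setLIntegral_le_lintegral _ _).trans ?_
            rw [← kc_mass' hρ hκ (cen ρ m) X]
            exact lintegral_mono fun y => ENNReal.ofReal_le_ofReal (kc_anti _ _ hκ.le _ _)
      _ = _ := by
          rw [← Finset.mul_sum, ← mul_assoc, ← mul_assoc]
          congr 1
          rw [ENNReal.ofReal_mul (by positivity), ENNReal.ofReal_mul (by positivity)]
          norm_num
  have hpair : ∀ m' ∈ caps ρ, ∀ m ∈ nearL ρ ρ m',
      ∫⁻ X in pbx κ 1 r s1 s2 c X0 f m', ∫⁻ y in S m,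
        u m y * ENNReal.ofReal (kc (dd E3 + j) ρ κ (cen ρ m) (X - y)) ≤
      ENNReal.ofReal (cd3 E3) * ∫⁻ y in S m, u m y * W j (Q m) y := by
    intro m' hm' m hm
    refine pair_le j hρ hκ (cen ρ m) (meas_pbx _ _ _ _ _ _ _ _ _) (hQm m) ?_ (hum m)
    intro X hX y k hk
    have h1 : (1:ℝ) ≤ 2 ^ k := one_le_pow₀ (by norm_num)
    have h2 := pbx_move hM hr hκ hκ1 hsd hadm (C := cen ρ m') (C' := cen ρ m)
      (mem_nearL.1 hm).2.le hX h1 hk
    have e4 : ((2:ℝ) ^ k) ^ 2 = 4 ^ k := by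
      rw [← pow_mul, mul_comm, pow_mul]; norm_num
    rw [e4] at h2
    exact h2
  calc enc ρ G (fun m => pbx κ 1 r s1 s2 c X0 f m) ≤
        ∑ m' ∈ caps ρ, ENNReal.ofReal (K ^ 2 * 36 * cd3 E3) * ∑ m ∈ nearL ρ ρ m',
          (ENNReal.ofReal (cd3 E3) * ∫⁻ y in S m, u m y * W j (Q m) y) := by
        unfold enc
        refine Finset.sum_le_sum fun m' hm' => ?_
        calc ∫⁻ X in pbx κ 1 r s1 s2 c X0 f m', ‖umc ρ G m' X‖ₑ ^ 2 ≤
              ∫⁻ X in pbx κ 1 r s1 s2 c X0 f m', ENNReal.ofReal (K ^ 2 * 36 * cd3 E3) *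
              ∑ m ∈ nearL ρ ρ m', ∫⁻ y in S m,
                u m y * ENNReal.ofReal (kc (dd E3 + j) ρ κ (cen ρ m) (X - y)) :=
              lintegral_mono fun X => hpt m' hm' X
          _ = ENNReal.ofReal (K ^ 2 * 36 * cd3 E3) * ∑ m ∈ nearL ρ ρ m',
              ∫⁻ X in pbx κ 1 r s1 s2 c X0 f m', ∫⁻ y in S m,
                u m y * ENNReal.ofReal (kc (dd E3 + j) ρ κ (cen ρ m) (X - y)) := by
              rw [lintegral_const_mul' _ _ ENNReal.ofReal_ne_top, lintegral_finsetSum']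
              intro m _
              refine (Measurable.lintegral_prod_right' (ν := volume.restrict (S m)) (f :=
                fun p : E3 × E3 => u m p.2 *
                  ENNReal.ofReal (kc (dd E3 + j) ρ κ (cen ρ m) (p.1 - p.2))) ?_).aemeasurable
              exact ((hum m).comp measurable_snd).mul (((kc_cont _ hρ hκ _).measurable.comp
                (measurable_fst.sub measurable_snd)).ennreal_ofReal)
          _ ≤ _ := by
              gcongr with m hm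
              exact hpair m' hm' m hm
    _ = ENNReal.ofReal (K ^ 2 * 36 * cd3 E3) * ENNReal.ofReal (cd3 E3) *
        ∑ m' ∈ caps ρ, ∑ m ∈ nearL ρ ρ m', ∫⁻ y in S m, u m y * W j (Q m) y := by
        simp only [← Finset.mul_sum]
        ring
    _ ≤ ENNReal.ofReal (K ^ 2 * 36 * cd3 E3) * ENNReal.ofReal (cd3 E3) *
        (36 * ∑ m ∈ caps ρ, ∫⁻ y in S m, u m y * W j (Q m) y) := by
        gcongr
        exact sum_near_le hρ _
    _ = ENNReal.ofReal (K ^ 2 * 36 * cd3 E3) * ENNReal.ofReal (cd3 E3) *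
        (36 * ∑' k, ENNReal.ofReal (th j k) * enc ρ g (fun m => S' m ∩ Q m k)) := by
        congr 2
        unfold enc
        simp only [Finset.mul_sum]
        rw [Summable.tsum_finsetSum fun _ _ => ENNReal.summable]
        refine Finset.sum_congr rfl fun m hm => ?_
        rw [lint_W j (hSm m hm) (hQm m) (hum m)]
        refine tsum_congr fun k => ?_
        rw [hS'e m hm]
    _ ≤ ENNReal.ofReal (K ^ 2 * 36 * cd3 E3) * ENNReal.ofReal (cd3 E3) *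
        (36 * ∑' k, ENNReal.ofReal (th j k * (128 * M * 4 ^ k) ^ p) *
          ENNReal.ofReal (Cs * (D * s2 ^ q * scost κ s1 s2 r))) := by
        refine mul_le_mul_right (mul_le_mul_right (ENNReal.tsum_le_tsum fun k => ?_) _) _
        refine (mul_le_mul_right (hdens k) _).trans (le_of_eq ?_)
        have h1 : (0:ℝ) ≤ (128 * M * 4 ^ k) ^ p := by positivity
        rw [ENNReal.ofReal_mul (th_nonneg j k), mul_assoc (ENNReal.ofReal (th j k)),
          ← ENNReal.ofReal_mul h1]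
        congr 2
        ring
    _ = _ := by
        rw [ENNReal.tsum_mul_right, hj, tsum_th p (128 * M) (by positivity)]
        have e36 : (36 : ℝ≥0∞) = ENNReal.ofReal 36 := by norm_num
        rw [e36, ← ENNReal.ofReal_mul (by positivity), ← ENNReal.ofReal_mul (by positivity),
          ← ENNReal.ofReal_mul (by positivity), ← ENNReal.ofReal_mul (by positivity)]
        congr 1
        ring

end Crest.Agent.R116.Sub387
end

-- ▼ part R116/MulB_387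
section

/-!
# R116 (S0155), wave side: `MulBx` (helper387)

The box bound is stable under smooth slope cut-offs at a scale `s ≥ r^(-1/2)`.
-/

set_option autoImplicit false

open MeasureTheory FourierTransform
open scoped ContDiff ENNReal

namespace Crest.Agent.R116.MulB387

open Crest.Agent.R138.Wf448 (adet)
open Crest.Agent.R138.Defs (E2 ee)
open Crest.Agent.R138.Wpk685 (win fat cen caps)
open Crest.Agent.R138.Loc878 (Near nearL mem_nearL)
open Crest.Agent.R116.CWp480 Crest.Agent.R116.CWc480 Crest.Agent.R116.CWd480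
open Crest.Agent.R116.CDef480 Crest.Agent.R116.WC188 Crest.Agent.R116.De295
open Crest.Agent.R116.F1c124 (kc kc_nonneg kc_eq adet_Pl capfat_one capfat_supp capc_mul_int)
open Crest.Agent.R116.Sup858 (cb chi MulBx)

/-! ### the composite window -/

/-- parameters `(μ, (t, (η0, κ)))`. -/
abbrev PQ : Type := E2 × (ℝ × (ℝ × ℝ))

/-- the composite window: slope cut-off times fat window. -/
noncomputable def cwB (J : ℝ → ℝ) (l : ℝ) (E : ℝ → ℂ) (A : ℝ) (p : PQ) (z : E3) : ℂ :=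
  ((cb A (p.1 + p.2.1 • (J (p.2.2.1 + p.2.2.2 * (l * z 2)) • (l • lat z))) : ℝ) : ℂ) *
    wnE J l E fat p.2.2 z

theorem cwB1_smooth {J : ℝ → ℝ} (hJ : ContDiff ℝ ∞ J) (l : ℝ) : ContDiff ℝ ∞ (fun x : PQ × E3 =>
    x.1.1 + x.1.2.1 • (J (x.1.2.2.1 + x.1.2.2.2 * (l * x.2 2)) • (l • lat x.2))) := by
  have hz : ContDiff ℝ ∞ (fun x : PQ × E3 => x.2) := contDiff_snd
  have hp0 : ContDiff ℝ ∞ (fun x : PQ × E3 => x.1) := contDiff_fst
  have hμ : ContDiff ℝ ∞ (fun x : PQ × E3 => x.1.1) := contDiff_fst.comp hp0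
  have hp1 : ContDiff ℝ ∞ (fun x : PQ × E3 => x.1.2) := contDiff_snd.comp hp0
  have ht : ContDiff ℝ ∞ (fun x : PQ × E3 => x.1.2.1) := contDiff_fst.comp hp1
  have hp : ContDiff ℝ ∞ (fun x : PQ × E3 => x.1.2.2) := contDiff_snd.comp hp1
  have hpa : ContDiff ℝ ∞ (fun x : PQ × E3 => x.1.2.2.1) := contDiff_fst.comp hp
  have hpb : ContDiff ℝ ∞ (fun x : PQ × E3 => x.1.2.2.2) := contDiff_snd.comp hp
  have h2 : ContDiff ℝ ∞ (fun x : PQ × E3 => l * x.2 2) :=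
    contDiff_const.mul ((coord_smooth 2).comp hz)
  have h1 : ContDiff ℝ ∞ (fun x : PQ × E3 => x.1.2.2.1 + x.1.2.2.2 * (l * x.2 2)) :=
    hpa.add (hpb.mul h2)
  have h3 : ContDiff ℝ ∞ (fun x : PQ × E3 => l • lat x.2) :=
    ContDiff.const_smul l (lat_smooth.comp hz)
  exact hμ.add (ht.smul ((hJ.comp h1).smul h3))

theorem cwB2_smooth {J : ℝ → ℝ} (hJ : ContDiff ℝ ∞ J) (l : ℝ) {E : ℝ → ℂ} (hE : ContDiff ℝ ∞ E) :
    ContDiff ℝ ∞ (fun x : PQ × E3 => wnE J l E fat x.1.2.2 x.2) := by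
  unfold wnE
  have hz : ContDiff ℝ ∞ (fun x : PQ × E3 => x.2) := contDiff_snd
  have hp0 : ContDiff ℝ ∞ (fun x : PQ × E3 => x.1) := contDiff_fst
  have hp1 : ContDiff ℝ ∞ (fun x : PQ × E3 => x.1.2) := contDiff_snd.comp hp0
  have hp : ContDiff ℝ ∞ (fun x : PQ × E3 => x.1.2.2) := contDiff_snd.comp hp1
  have hpa : ContDiff ℝ ∞ (fun x : PQ × E3 => x.1.2.2.1) := contDiff_fst.comp hp
  have hpb : ContDiff ℝ ∞ (fun x : PQ × E3 => x.1.2.2.2) := contDiff_snd.comp hp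
  have h2 : ContDiff ℝ ∞ (fun x : PQ × E3 => l * x.2 2) :=
    contDiff_const.mul ((coord_smooth 2).comp hz)
  have h1 : ContDiff ℝ ∞ (fun x : PQ × E3 => x.1.2.2.1 + x.1.2.2.2 * (l * x.2 2)) :=
    hpa.add (hpb.mul h2)
  have h3 : ContDiff ℝ ∞ (fun x : PQ × E3 => l • lat x.2) :=
    ContDiff.const_smul l (lat_smooth.comp hz)
  exact (Crest.Agent.R138.Wpk685.fat_contDiff.comp ((hJ.comp h1).smul h3)).mul (hE.comp h2)

theorem cbC_smooth (A : ℝ) : ContDiff ℝ ∞ (fun v : E2 => ((cb A v : ℝ) : ℂ)) :=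
  Complex.ofRealCLM.contDiff.comp (cb A).contDiff

theorem cwB_smooth {J : ℝ → ℝ} (hJ : ContDiff ℝ ∞ J) (l : ℝ) {E : ℝ → ℂ} (hE : ContDiff ℝ ∞ E)
    (A : ℝ) : ContDiff ℝ ∞ (fun x : PQ × E3 => cwB J l E A x.1 x.2) := by
  unfold cwB
  exact ((cbC_smooth A).comp (cwB1_smooth hJ l)).mul (cwB2_smooth hJ l hE)

theorem cwB_unif {a M : ℝ} {E : ℝ → ℂ} {P : Set (ℝ × ℝ)} (h : EW a M E P) {J : ℝ → ℝ}
    (hJs : ContDiff ℝ ∞ J) (hJ : ∀ t, a⁻¹ ≤ t → t ≤ a → J t = t⁻¹) (N : ℕ) (A L : ℝ) :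
    ∃ Q : ℝ, 0 ≤ Q ∧ ∀ μ : E2, ‖μ‖ ≤ L → ∀ t : ℝ, 0 ≤ t → t ≤ 1 →
      ∀ p ∈ P, Win N Q (cwB J (lam a M) E A (μ, (t, p))) := by
  obtain ⟨Q, hQ, hw⟩ := unif_win
    (F := fun x : PQ × E3 => cwB J (lam a M) E A x.1 x.2) (cwB_smooth hJs _ h.sm A)
    (K := Metric.closedBall (0 : E2) L ×ˢ (Set.Icc (0:ℝ) 1 ×ˢ P))
    ((isCompact_closedBall _ _).prod (isCompact_Icc.prod h.cp)) (by
      intro p hp z hz
      show cwB J (lam a M) E A p z = 0
      unfold cwB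
      rw [wnE_zero h hJ fat_supp hp.2.2 hz, mul_zero]) N
  exact ⟨Q, hQ, fun μ hμ t ht0 ht1 p hp => hw (μ, (t, p)) ⟨by simpa using hμ, ⟨⟨ht0, ht1⟩, hp⟩⟩⟩

theorem cwB_id {a M : ℝ} {E : ℝ → ℂ} {P : Set (ℝ × ℝ)} (h : EW a M E P) {J : ℝ → ℝ}
    (hJ : ∀ t, a⁻¹ ≤ t → t ≤ a → J t = t⁻¹) {p : ℝ × ℝ} (hp : p ∈ P) (hκ : 0 < p.2)
    {ρ s : ℝ} (hρ : 0 < ρ) (hs : 0 < s) (A : ℝ) (C C' : E2) (ζ : E3) :
    CWp480.cap (cwB J (lam a M) E A (s⁻¹ • (C - C'), (ρ / s, p))) (ctr p.1 C)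
        (Fr (lam a M) ρ p.2 (lam_pos h.one h.M0) hρ hκ C) ζ =
      chi A C' s ζ * (Crest.Agent.R138.Wpk685.cap fat C ρ (slp ζ) * E ((ζ 2 - p.1) / p.2)) := by
  have hl := lam_pos h.one h.M0
  have hid := cap_wnE h hJ fat hp hl hρ hκ C ζ
  by_cases hne : Crest.Agent.R138.Wpk685.cap fat C ρ (slp ζ) * E ((ζ 2 - p.1) / p.2) = 0
  · unfold CWp480.cap at hid ⊢
    unfold cwB
    simp only
    rw [hid, hne, mul_zero, mul_zero]
  · have hS := mem_Sd h fat_supp hp hρ hκ hne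
    have h7 : ζ 2 ≠ 0 := (lt_of_lt_of_le (inv_pos.2 (by linarith [h.one])) hS.1).ne'
    have e1 : p.1 + p.2 * ((ζ 2 - p.1) / p.2) = ζ 2 := by field_simp; ring
    have e0 : lam a M * ((ζ 2 - p.1) / (lam a M * p.2)) = (ζ 2 - p.1) / p.2 := by field_simp
    have e2 : lam a M • ((lam a M * ρ)⁻¹ • (lat ζ - ζ 2 • C)) = ρ⁻¹ • (lat ζ - ζ 2 • C) := by
      rw [smul_smul]
      congr 1
      field_simp
    rw [← hid]
    unfold CWp480.cap cwB chi
    simp only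
    congr 1
    rw [symm_Fr, pt_two, lat_pt, e0, e2, e1, hJ _ hS.1 hS.2.1]
    congr 2
    rw [lat_sub_eq h7, smul_smul, smul_smul, smul_smul]
    have e4 : ρ / s * (ζ 2)⁻¹ * ρ⁻¹ * ζ 2 = s⁻¹ := by field_simp
    rw [e4, ← smul_add]
    congr 1
    abel

/-! ### kernel bound -/



theorem chi_ne {A : ℝ} {C : E2} {s : ℝ} {ζ : E3} (h : chi A C s ζ ≠ 0) :
    ‖s⁻¹ • (slp ζ - C)‖ < |A| + 4 := by
  by_contra hc
  push Not at hc
  apply h
  unfold chi
  rw [ContDiffBump.zero_of_le_dist]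
  · simp
  · rw [dist_zero_right]; exact hc

theorem ker_chi {a : ℝ} (ha : 1 ≤ a) (N : ℕ) (A : ℝ) : ∃ K : ℝ, 0 ≤ K ∧
    ∀ (ρ s : ℝ), 0 < ρ → ρ ≤ s → ∀ (C' : E2) (g : E3 → ℂ), Integrable g →
      (∀ ζ, g ζ ≠ 0 → a⁻¹ ≤ ζ 2 ∧ ζ 2 ≤ a) → ∀ (m : ℤ × ℤ) (X : E3),
      ‖umc ρ (fun ζ => chi A C' s ζ * g ζ) m X‖ₑ ≤ ENNReal.ofReal K *
        ∫⁻ y, ENNReal.ofReal (kc N ρ 1 (cen ρ m) (X - y)) * ‖umc ρ g m y‖ₑ := by
  have hEW := ew_unsliced ha
  obtain ⟨J, hJs, hJ⟩ := exists_inv hEW.one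
  obtain ⟨Q, hQ, hw⟩ := cwB_unif hEW hJs hJ N A (|A| + 6)
  obtain ⟨c, hc, hk⟩ := Kf_bound E3 N
  set lm := lam (2 * a) (2 * a) with hlm
  have hl : 0 < lm := lam_pos hEW.one hEW.M0
  refine ⟨c * Q * lm ^ 3, by positivity, ?_⟩
  intro ρ s hρ hρs C' g hg hgs m X
  have hs : 0 < s := lt_of_lt_of_le hρ hρs
  set C := cen ρ m with hC
  by_cases hμ : ‖s⁻¹ • (C - C')‖ ≤ |A| + 6
  · have hp : ((0:ℝ), (1:ℝ)) ∈ ({((0:ℝ), (1:ℝ))} : Set (ℝ × ℝ)) := Set.mem_singleton _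
    have hwin := hw _ hμ (ρ / s) (by positivity) (by rw [div_le_one hs]; exact hρs) _ hp
    have hid := fun ζ => cwB_id hEW hJ hp one_pos hρ hs A C C' ζ
    set b := cwB J lm (fun x => ((bu a ha x : ℝ) : ℂ)) A (s⁻¹ • (C - C'), (ρ / s, ((0:ℝ), (1:ℝ))))
      with hb
    set B := Fr lm ρ 1 hl hρ one_pos C with hB
    have heq : (fun ζ => capc ρ m ζ * (chi A C' s ζ * g ζ)) =
        fun ζ => CWp480.cap b (ctr 0 C) B ζ * (capc ρ m ζ * g ζ) := by
      funext ζ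
      have h1 := hid ζ
      simp only at h1
      rw [h1]
      by_cases hz : capc ρ m ζ * g ζ = 0
      · have : capc ρ m ζ * (chi A C' s ζ * g ζ) = chi A C' s ζ * (capc ρ m ζ * g ζ) := by ring
        rw [this, hz, mul_zero, mul_zero]
      · have h3 : capc ρ m ζ ≠ 0 := left_ne_zero_of_mul hz
        have h4 := hgs ζ (right_ne_zero_of_mul hz)
        have h5 : Crest.Agent.R138.Wpk685.cap fat C ρ (slp ζ) = 1 :=
          capfat_one hρ _ _ (Crest.Agent.R138.Wpk685.capwin_supp hρ m _ h3)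
        rw [h5, sub_zero, div_one, bu_one ha h4.1 h4.2]
        push_cast
        ring
    have hrep := rep_mul (contDiff_cap hwin.smooth (ctr 0 C) B).continuous
      (cap_int hwin (ctr 0 C) B) (Kf_int hwin (ctr 0 C) B) (Kf_int' hwin (ctr 0 C) B)
      (capc_mul_int hg ρ m) X
    have e1 : umc ρ (fun ζ => chi A C' s ζ * g ζ) m X =
        ∫ y, umc ρ g m y * 𝓕⁻ (CWp480.cap b (ctr 0 C) B) (X - y) := by
      unfold umc
      rw [heq, hrep]
    rw [e1]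
    refine (F1c124.enorm_conv_le (b := kc N ρ 1 C) ?_ (by positivity) X)
    intro x
    refine (hk Q b hwin _ _ _).trans ?_
    have h1 : adet (B : E3 →L[ℝ] E3) = lm ^ 3 * (ρ ^ 2 * 1) := by
      rw [hB]
      unfold Fr
      rw [adet_Pl]
      ring
    have h2 : 1 ≤ lm := by rw [hlm]; unfold lam; linarith
    have h3 : ‖Pl ρ 1 hρ one_pos C x‖ ≤ ‖B x‖ := by
      rw [hB, norm_Fr]
      exact le_mul_of_one_le_left (norm_nonneg _) h2
    rw [h1, kc_eq N hρ one_pos, adet_Pl]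
    calc c * Q * (lm ^ 3 * (ρ ^ 2 * 1)) * ((1 + ‖B x‖) ^ N)⁻¹
        ≤ c * Q * (lm ^ 3 * (ρ ^ 2 * 1)) * ((1 + ‖Pl ρ 1 hρ one_pos C x‖) ^ N)⁻¹ := by gcongr
      _ = _ := by ring
  · push Not at hμ
    have hz : (fun ζ => capc ρ m ζ * (chi A C' s ζ * g ζ)) = fun _ => 0 := by
      funext ζ
      by_contra hne
      have h3 : capc ρ m ζ ≠ 0 := left_ne_zero_of_mul hne
      have h4 : chi A C' s ζ ≠ 0 := left_ne_zero_of_mul (right_ne_zero_of_mul hne)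
      have h5 := chi_ne h4
      have h6 := Crest.Agent.R138.Wpk685.capwin_supp hρ m _ h3
      have h7 : ‖s⁻¹ • (slp ζ - cen ρ m)‖ ≤ 71 / 50 := by
        rw [norm_smul, Real.norm_eq_abs, abs_of_pos (inv_pos.2 hs), inv_mul_le_iff₀ hs]
        linarith
      have h8 : s⁻¹ • (C - C') = s⁻¹ • (slp ζ - C') - s⁻¹ • (slp ζ - cen ρ m) := by
        rw [← smul_sub, hC]
        congr 1
        abel
      have h9 := norm_sub_le (s⁻¹ • (slp ζ - C')) (s⁻¹ • (slp ζ - cen ρ m))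
      rw [← h8] at h9
      linarith
    have e1 : umc ρ (fun ζ => chi A C' s ζ * g ζ) m X = 0 := by
      unfold umc
      rw [hz]
      simp [fourierInv_eq_int]
    rw [e1]
    simp

/-- **MulBx**. -/
theorem mulBx {M q : ℝ} (hM : 1 ≤ M) (hq : 0 ≤ q) : MulBx M q := by
  intro a b A ha hb hb2 hA
  obtain ⟨j, Ck, hCk, hbox⟩ := Sub387.box_of_ker hM hq
  obtain ⟨K, hK, hker⟩ := ker_chi ha (dd E3 + j) A
  refine ⟨max 1 (Ck * K ^ 2), le_max_left _ _, ?_⟩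
  intro g R D s C hR hD hs hs1 hgm hgb hgs hbx
  have hR0 : 0 < R := by linarith
  have hρ : 0 < R ^ (-(1/2) : ℝ) := Real.rpow_pos_of_pos hR0 _
  have ha0 : 0 < a := by linarith
  have hgd : Bas367.Gd g := Bas367.gd_of_supp hgm hgb
    (a := a) (b := b) (fun ζ hζ => ⟨lt_of_lt_of_le (inv_pos.2 ha0) (hgs ζ hζ).1,
      (hgs ζ hζ).2.1, (hgs ζ hζ).2.2⟩)
  have h1 := hbox 1 R one_pos le_rfl hR (Real.rpow_le_one_of_one_le_of_nonpos hR (by norm_num))
    g (fun ζ => chi A C s ζ * g ζ) (fun _ => Set.univ) hgd.int (fun _ _ => MeasurableSet.univ)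
    K hK ?_ D hD ?_
  · intro c X0 f s1 s2 hsd hadm
    refine (h1 c X0 f s1 s2 hsd hadm).trans (ENNReal.ofReal_le_ofReal ?_)
    have hS := Sub387.sf_of hR one_pos hsd
    have h2 := hS.s10
    have h3 := hS.s20
    have h4 := hS.T0
    have h5 : 0 ≤ scost 1 s1 s2 R := by unfold scost; positivity
    have h6 : Ck * K ^ 2 ≤ max 1 (Ck * K ^ 2) := le_max_right _ _
    gcongr
  · intro m' hm' X
    refine (hker _ s hρ hs C g hgd.int (fun ζ hζ => ⟨(hgs ζ hζ).1, (hgs ζ hζ).2.1⟩) m' X).trans ?_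
    refine mul_le_mul_right ?_ _
    have hm : m' ∈ nearL (R ^ (-(1/2) : ℝ)) (R ^ (-(1/2) : ℝ)) m' := by
      rw [mem_nearL]
      refine ⟨hm', ?_⟩
      unfold Near
      rw [sub_self, norm_zero]
      linarith
    refine le_trans (le_of_eq ?_) (Finset.single_le_sum (f := fun m => ∫⁻ y in Set.univ,
      ENNReal.ofReal (kc (dd E3 + j) (R ^ (-(1/2) : ℝ)) 1 (cen (R ^ (-(1/2) : ℝ)) m) (X - y)) *
        ‖umc (R ^ (-(1/2) : ℝ)) g m y‖ₑ) (fun _ _ => zero_le) hm)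
    rw [Measure.restrict_univ]
  · intro c X0 f s1 s2 hsd hadm
    refine le_trans (le_of_eq ?_) (hbx c X0 f s1 s2 hsd hadm)
    congr 1
    funext m
    rw [Set.univ_inter]

end Crest.Agent.R116.MulB387
end

-- ▼ part R116/SupZ_858
section

/-!
# R116 (S0155), wave side: **A2k** (SUP of the cone), final theorem (helper858)
-/

set_option autoImplicit false

namespace Crest.Agent.R116.Sup858

open Crest.Agent.R116.WC188

/-- **A2k**. -/
theorem a2k {M q : ℝ} (hM : 1 ≤ M) (hq : 0 ≤ q) : A2k M q :=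
  a2k_of hq (Crest.Agent.R116.SupV192.volC M) (Crest.Agent.R116.MulB387.mulBx hM hq)
    (Crest.Agent.R116.Cnv894.cnv_of hM (Crest.Agent.R116.Stb850.cov2 hM hq))
    (Crest.Agent.R116.Ba449.triv2s_holds hM hq)

end Crest.Agent.R116.Sup858
end

-- ▼ part R116/Fin1_850
section

/-!
# R116 (S0155), wave side, Step 4 (FIN), part 1 (helper850)

Decomposition of the value of a plate system of radius `r` into the values of the plate systems of
the functions of a level, plus the rest.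
-/

set_option autoImplicit false

open MeasureTheory FourierTransform
open scoped ENNReal

namespace Crest.Agent.R116.Fin850

open Crest.Agent.R138.Defs (E2 ee)
open Crest.Agent.R138.Wpk685 (cen caps)
open Crest.Agent.R116.CDef480 Crest.Agent.R116.WC188 Crest.Agent.R116.GlC210
open Crest.Agent.R116.LZg725 (Cf)
open Crest.Agent.R116.A1k229 (rpow_sum net_card nice_of_St Nice)

/-! ### size of the phase boxes -/

theorem pbx_norm {κ A r s1 s2 : ℝ} {c : E2} {X0 : E3} {f : Cf E2} {m : ℤ × ℤ} (hA : 1 ≤ A)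
    (hr : 0 < r) (hs : s2 ≤ 1) (hT : TT κ s2 r ≤ 1) (hc : ‖c‖ ≤ A)
    (hX0 : ‖X0‖ ≤ A * r) {y : E3} (hy : y ∈ pbx κ A r s1 s2 c X0 f m) :
    ‖y‖ ≤ 6 * A ^ 2 * r := by
  obtain ⟨-, h2, h3, -, -⟩ := hy
  have hA0 : 0 < A := by linarith
  have e2 : ‖lat y - lat X0‖ ≤ A * r := h2.trans (by
    have : A * s2 ≤ A := by nlinarith
    nlinarith)
  have e3 : |nrm c y 0 - nrm c X0 0| ≤ A * r := h3.trans (by
    have : A * TT κ s2 r ≤ A := by nlinarith
    nlinarith)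
  have hX2 : |X0 2| ≤ ‖X0‖ := by
    have := PiLp.norm_apply_le X0 2
    rwa [Real.norm_eq_abs] at this
  have hXl : ‖lat X0‖ ≤ ‖X0‖ := by
    have h1 := normsq3 X0
    have h4 : ‖lat X0‖ ^ 2 ≤ ‖X0‖ ^ 2 := by nlinarith [sq_nonneg (X0 2)]
    exact le_of_sq_le_sq h4 (norm_nonneg _)
  have hl : ‖lat y‖ ≤ 2 * (A * r) := by
    have := norm_sub_norm_le (lat y) (lat X0)
    linarith
  have e4 : nrm c y 0 - nrm c X0 0 = (y 2 - X0 2) + inner ℝ c (lat y - lat X0) := by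
    unfold nrm
    rw [inner_sub_right]
    ring
  have e5 : |inner ℝ c (lat y - lat X0)| ≤ A * (A * r) := by
    refine (abs_real_inner_le_norm _ _).trans ?_
    exact mul_le_mul hc e2 (norm_nonneg _) hA0.le
  have e6 : |y 2| ≤ A * r + A * (A * r) + A * r := by
    rw [e4] at e3
    obtain ⟨a1, a2⟩ := abs_le.1 e3
    obtain ⟨b1, b2⟩ := abs_le.1 e5
    obtain ⟨c1, c2⟩ := abs_le.1 (hX2.trans hX0)
    rw [abs_le]
    constructor <;> linarith
  have h7 : ‖y‖ ≤ ‖lat y‖ + |y 2| := by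
    have h1 := normsq3 y
    have h4 : ‖y‖ ^ 2 ≤ (‖lat y‖ + |y 2|) ^ 2 := by
      rw [h1, ← sq_abs (y 2)]
      nlinarith [norm_nonneg (lat y), abs_nonneg (y 2),
        mul_nonneg (norm_nonneg (lat y)) (abs_nonneg (y 2))]
    exact le_of_sq_le_sq h4 (by positivity)
  have h8 : A * r ≤ A * (A * r) := by nlinarith [mul_pos hA0 hr]
  calc ‖y‖ ≤ ‖lat y‖ + |y 2| := h7
    _ ≤ 6 * A ^ 2 * r := by nlinarith
where
  le_of_sq_le_sq {x y : ℝ} (h : x ^ 2 ≤ y ^ 2) (hy : 0 ≤ y) : x ≤ y := by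
    by_contra hc
    push Not at hc
    nlinarith

/-! ### powers -/

theorem sum_rpow_le {ι : Type*} (s : Finset ι) (f : ι → ℝ≥0∞) :
    ∑ i ∈ s, f i ^ (3 / 2 : ℝ) ≤ (∑ i ∈ s, f i) ^ (3 / 2 : ℝ) := by
  classical
  induction s using Finset.induction_on with
  | empty => simp
  | insert i s hi ih =>
    rw [Finset.sum_insert hi, Finset.sum_insert hi]
    exact (add_le_add le_rfl ih).trans (ENNReal.add_rpow_le_rpow_add _ _ (by norm_num))

/-- one term. -/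
theorem term_dec {ρ r : ℝ} {n : ℕ} {g : E3 → ℂ} {z w : E3 × ℝ} {G : ℕ → E3 → ℂ}
    {rest : E3 → ℂ} (hG : ∀ k ∈ Finset.range n, Integrable (trc w (G k)))
    (he : Integrable (trc w rest))
    (hsum : ∀ ζ, trc z g ζ = ∑ k ∈ Finset.range n, G k ζ + rest ζ) (S : ℤ × ℤ → Set E3) :
    (ENNReal.ofReal r * enc ρ (trc (z + w) g) S) ^ (3 / 2 : ℝ) ≤ ((n + 1 : ℕ) : ℝ≥0∞) ^ 3 *
      (∑ k ∈ Finset.range n, (ENNReal.ofReal r * enc ρ (trc w (G k)) S) ^ (3 / 2 : ℝ) +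
        (ENNReal.ofReal r * enc ρ (trc w rest) S) ^ (3 / 2 : ℝ)) := by
  classical
  have e1 : trc (z + w) g = fun ξ => ∑ k ∈ Finset.range n, trc w (G k) ξ + trc w rest ξ := by
    rw [← GlC210.trc_trc, ← trc_sum]
    congr 1
    funext ζ
    exact hsum ζ
  have e2 := enc_sum (ρ := ρ) (Finset.range n) hG he S
  rw [← e1, Finset.card_range] at e2
  set X : Option ℕ → ℝ≥0∞ := fun o => o.elim (ENNReal.ofReal r * enc ρ (trc w rest) S)
    (fun k => ENNReal.ofReal r * enc ρ (trc w (G k)) S) with hX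
  have hc : (Finset.insertNone (Finset.range n)).card = n + 1 := by
    rw [Finset.card_insertNone, Finset.card_range]
  have e3 : ENNReal.ofReal r * enc ρ (trc (z + w) g) S ≤
      ((n + 1 : ℕ) : ℝ≥0∞) * ∑ o ∈ Finset.insertNone (Finset.range n), X o := by
    rw [Finset.sum_insertNone]
    simp only [hX, Option.elim]
    rw [← Finset.mul_sum, ← mul_add, mul_left_comm]
    refine mul_le_mul' le_rfl (e2.trans (le_of_eq ?_))
    rw [add_comm (∑ k ∈ Finset.range n, _)]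
    push_cast
    rfl
  calc (ENNReal.ofReal r * enc ρ (trc (z + w) g) S) ^ (3 / 2 : ℝ)
      ≤ (((n + 1 : ℕ) : ℝ≥0∞) * ∑ o ∈ Finset.insertNone (Finset.range n), X o) ^ (3 / 2 : ℝ) :=
        ENNReal.rpow_le_rpow e3 (by norm_num)
    _ = ((n + 1 : ℕ) : ℝ≥0∞) ^ (3 / 2 : ℝ) *
        (∑ o ∈ Finset.insertNone (Finset.range n), X o) ^ (3 / 2 : ℝ) :=
        ENNReal.mul_rpow_of_nonneg _ _ (by norm_num)
    _ ≤ ((n + 1 : ℕ) : ℝ≥0∞) ^ (3 / 2 : ℝ) * (((n + 1 : ℕ) : ℝ≥0∞) ^ (3 / 2 : ℝ) *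
        ∑ o ∈ Finset.insertNone (Finset.range n), X o ^ (3 / 2 : ℝ)) := by
        gcongr
        have := rpow_sum (Finset.insertNone (Finset.range n)) X
        rwa [hc] at this
    _ = _ := by
        rw [← mul_assoc, ← ENNReal.rpow_add_of_nonneg _ _ (by norm_num) (by norm_num),
          Finset.sum_insertNone]
        have e3 : (3 / 2 + 3 / 2 : ℝ) = ((3 : ℕ) : ℝ) := by norm_num
        rw [e3, ENNReal.rpow_natCast, add_comm (∑ k ∈ Finset.range n, _)]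
        rfl

/-! ### the plates near a frame -/

/-- the plates of a system, seen from the frame `z`. -/
def nrP (z : E3 × ℝ) (P : ℕ → Plate) (i : ℕ) : Plate := { P i with z := (P i).z - z }

theorem nr_plates {M κ A r s1 s2 R R' : ℝ} {I J : Finset ℕ} {P : ℕ → Plate} {z : E3 × ℝ}
    (hJ : J ⊆ I) (hn : ∀ i ∈ J, (P i).z - z ∈ cylc R') (h : Plates M κ A r s1 s2 R I P) :
    Plates M κ A r s1 s2 R' J (nrP z P) := by
  constructor
  · intro i hi
    exact hn i hi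
  · intro i hi j hj
    rcases h.sep i (hJ hi) j (hJ hj) with h1 | h1 | h1
    · left
      show (P i).z - z = (P j).z - z
      rw [h1]
    · right; left
      show r ≤ ‖((P i).z - z).1 - ((P j).z - z).1‖
      have : ((P i).z - z).1 - ((P j).z - z).1 = (P i).z.1 - (P j).z.1 := by
        rw [Prod.fst_sub, Prod.fst_sub]; abel
      rwa [this]
    · right; right
      show r ≤ |((P i).z - z).2 - ((P j).z - z).2|
      have : ((P i).z - z).2 - ((P j).z - z).2 = (P i).z.2 - (P j).z.2 := by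
        rw [Prod.snd_sub, Prod.snd_sub]; abel
      rwa [this]
  · exact fun i hi => h.X0 i (hJ hi)
  · exact fun i hi => h.c i (hJ hi)
  · exact fun i hi => h.adm i (hJ hi)
  · exact fun i hi => h.meas i (hJ hi)
  · exact fun i hi => h.box i (hJ hi)
  · intro i hi j hj hne hz m
    refine h.disj i (hJ hi) j (hJ hj) hne ?_ m
    exact sub_left_injective (b := z) hz

/-! ### the rest -/

/-- contribution of tiny functions. -/
theorem rest_sum {M κ A B r s1 s2 R t : ℝ} (hr : 1 ≤ r) (hrR : r ≤ R)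
    (hs : Sd r s1 s2) {I : Finset ℕ} {P : ℕ → Plate} (hP : Plates M κ A r s1 s2 R I P)
    (hB : ∀ i ∈ I, ∀ m, (P i).S m ⊆ Metric.closedBall 0 B)
    (H : E3 × ℝ → E3 → ℂ)
    (ht : ∀ i ∈ I, enc (r ^ (-(1/2) : ℝ)) (H (P i).z) (fun _ => Metric.closedBall 0 B) ≤
      ENNReal.ofReal t) :
    ∑ i ∈ I, ENNReal.ofReal ((r * scost κ s1 s2 r) ^ (-(1/2) : ℝ)) *
      (ENNReal.ofReal r * enc (r ^ (-(1/2) : ℝ)) (H (P i).z) (P i).S) ^ (3 / 2 : ℝ) ≤
      ENNReal.ofReal ((11 * R) ^ 4) * ENNReal.ofReal (r * t) ^ (3 / 2 : ℝ) := by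
  classical
  have hr0 : 0 < r := by linarith
  have hc1 : ENNReal.ofReal ((r * scost κ s1 s2 r) ^ (-(1/2) : ℝ)) ≤ 1 := by
    rw [← ENNReal.ofReal_one]
    exact ENNReal.ofReal_le_ofReal
      (Real.rpow_le_one_of_one_le_of_nonpos (TuT890.one_le_cost hr hs.lo hs.le) (by norm_num))
  have hnet : Net r R (I.image fun i => (P i).z) := by
    constructor
    · intro z hz
      obtain ⟨i, hi, rfl⟩ := Finset.mem_image.1 hz
      exact hP.mem i hi
    · intro z hz z' hz'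
      obtain ⟨i, hi, rfl⟩ := Finset.mem_image.1 hz
      obtain ⟨j, hj, rfl⟩ := Finset.mem_image.1 hz'
      exact hP.sep i hi j hj
  have hcard := net_card hr hrR hnet
  calc ∑ i ∈ I, ENNReal.ofReal ((r * scost κ s1 s2 r) ^ (-(1/2) : ℝ)) *
      (ENNReal.ofReal r * enc (r ^ (-(1/2) : ℝ)) (H (P i).z) (P i).S) ^ (3 / 2 : ℝ)
      ≤ ∑ i ∈ I, (ENNReal.ofReal r * enc (r ^ (-(1/2) : ℝ)) (H (P i).z) (P i).S) ^ (3 / 2 : ℝ) :=
        Finset.sum_le_sum fun i _ => by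
          calc _ ≤ 1 * (ENNReal.ofReal r * enc (r ^ (-(1/2) : ℝ)) (H (P i).z) (P i).S) ^
                (3 / 2 : ℝ) := mul_le_mul' hc1 le_rfl
            _ = _ := one_mul _
    _ = ∑ z ∈ I.image fun i => (P i).z, ∑ i ∈ I with (P i).z = z,
        (ENNReal.ofReal r * enc (r ^ (-(1/2) : ℝ)) (H (P i).z) (P i).S) ^ (3 / 2 : ℝ) :=
        (Finset.sum_fiberwise_of_maps_to (fun i hi => Finset.mem_image_of_mem _ hi) _).symm
    _ ≤ ∑ z ∈ I.image fun i => (P i).z, ENNReal.ofReal (r * t) ^ (3 / 2 : ℝ) := by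
        refine Finset.sum_le_sum fun z hz => ?_
        refine (sum_rpow_le _ _).trans (ENNReal.rpow_le_rpow ?_ (by norm_num))
        obtain ⟨i0, hi0, hz0⟩ := Finset.mem_image.1 hz
        rw [← Finset.mul_sum, ENNReal.ofReal_mul hr0.le]
        refine mul_le_mul' le_rfl ?_
        have h1 : ∑ i ∈ I with (P i).z = z, enc (r ^ (-(1/2) : ℝ)) (H (P i).z) (P i).S =
            ∑ i ∈ I with (P i).z = z, enc (r ^ (-(1/2) : ℝ)) (H z) (P i).S :=
          Finset.sum_congr rfl fun i hi => by rw [(Finset.mem_filter.1 hi).2]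
        rw [h1]
        refine (enc_union (ρ := r ^ (-(1/2) : ℝ)) (g := H z) (I.filter fun i => (P i).z = z)
          (fun i => (P i).S)
          (fun _ => Metric.closedBall 0 B) (fun i hi m => hP.meas i (Finset.mem_filter.1 hi).1 m)
          ?_ (fun i hi m => hB i (Finset.mem_filter.1 hi).1 m)).trans ?_
        · intro i hi j hj hne m
          obtain ⟨hi1, hi2⟩ := Finset.mem_filter.1 hi
          obtain ⟨hj1, hj2⟩ := Finset.mem_filter.1 hj
          exact hP.disj i hi1 j hj1 hne (hi2.trans hj2.symm) m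
        · have := ht i0 hi0
          rwa [hz0] at this
    _ ≤ ENNReal.ofReal ((11 * R) ^ 4) * ENNReal.ofReal (r * t) ^ (3 / 2 : ℝ) := by
        rw [Finset.sum_const, nsmul_eq_mul]
        refine mul_le_mul' ?_ le_rfl
        rw [← ENNReal.ofReal_natCast]
        exact ENNReal.ofReal_le_ofReal hcard

end Crest.Agent.R116.Fin850
end

-- ▼ part R116/Fin2_850

/-!
# R116 (S0155), wave side, Step 4 (FIN), part 2 (helper850)

`FIN M q` (GlC_210 v2) from `A2k M q`.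
-/

set_option autoImplicit false

open MeasureTheory FourierTransform
open scoped ENNReal

namespace Crest.Agent.R116.Fin850

open Crest.Agent.R138.Defs (E2 ee)
open Crest.Agent.R138.Wpk685 (cen caps)
open Crest.Agent.R116.CDef480 Crest.Agent.R116.WC188 Crest.Agent.R116.GlC210
open Crest.Agent.R116.LZg725 (Cf)
open Crest.Agent.R116.A1k229 (rpow_sum net_card nice_of_St Nice St_mono)
open Crest.Agent.R116.TuT890 (v3 v3_nonneg enc_tiny Enc_nn)

/-- decomposition of the value of a plate system. -/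
theorem val_dec {M κ q A A' a b Cn : ℝ} {K : ℕ} {η0 : ℝ} {C0 : E2} {σ : ℝ} {g : E3 → ℂ} {R : ℝ}
    {L : Lev} (ha : 1 ≤ a) (hL : LevOk M κ q A A' a b Cn K η0 C0 σ g R L)
    {A0 r s1 s2 t : ℝ} (hA0 : 1 ≤ A0) (hr : 1 ≤ r) (hrR : r ≤ R) (hTT : TT κ s2 r ≤ 1)
    (hs : Sd r s1 s2) {I : Finset ℕ} {P : ℕ → Plate} (hP : Plates M κ A0 r s1 s2 R I P)
    (ht : ∀ p ∈ cylc R, enc (r ^ (-(1/2) : ℝ)) (trc (p - L.ζ p) (L.rest (L.ζ p)))
      (fun _ => Metric.closedBall 0 (6 * A0 ^ 2 * r)) ≤ ENNReal.ofReal t) :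
    val κ g r s1 s2 I P ≤ ((L.n + 1 : ℕ) : ℝ≥0∞) ^ 3 *
      (∑ k ∈ Finset.range L.n, ∑ z ∈ L.Z, SIG M κ A0 r s1 s2 (L.G z k) L.r +
        ENNReal.ofReal ((11 * R) ^ 4) * ENNReal.ofReal (r * t) ^ (3 / 2 : ℝ)) := by
  classical
  have ha0 : 0 < 2 * a := by linarith
  set c0 : ℝ≥0∞ := ENNReal.ofReal ((r * scost κ s1 s2 r) ^ (-(1/2) : ℝ)) with hc0
  set N3 : ℝ≥0∞ := ((L.n + 1 : ℕ) : ℝ≥0∞) ^ 3 with hN3
  set X : ℕ → ℕ → ℝ≥0∞ := fun k i => (ENNReal.ofReal r * enc (r ^ (-(1/2) : ℝ))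
    (trc ((P i).z - L.ζ (P i).z) (L.G (L.ζ (P i).z) k)) (P i).S) ^ (3 / 2 : ℝ) with hX
  set Y : ℕ → ℝ≥0∞ := fun i => (ENNReal.ofReal r * enc (r ^ (-(1/2) : ℝ))
    (trc ((P i).z - L.ζ (P i).z) (L.rest (L.ζ (P i).z))) (P i).S) ^ (3 / 2 : ℝ) with hY
  have h1 : ∀ i ∈ I, (ENNReal.ofReal r * enc (r ^ (-(1/2) : ℝ)) (trc (P i).z g) (P i).S) ^
      (3 / 2 : ℝ) ≤ N3 * (∑ k ∈ Finset.range L.n, X k i + Y i) := by
    intro i hi
    obtain ⟨hz, hw⟩ := hL.near _ (hP.mem i hi)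
    obtain ⟨cls, hD⟩ := hL.dec _ hz
    have e : (P i).z = L.ζ (P i).z + ((P i).z - L.ζ (P i).z) := by abel
    have := term_dec (ρ := r ^ (-(1/2) : ℝ)) (r := r) (n := L.n) (g := g) (z := L.ζ (P i).z)
      (w := (P i).z - L.ζ (P i).z) (G := L.G (L.ζ (P i).z)) (rest := L.rest (L.ζ (P i).z))
      (fun k hk => ((nice_of_St (hD.st k hk)).trc _).int ha0)
      (((⟨hD.rmeas, hD.rbdd, hD.rsupp⟩ : Nice (2 * a) 2 _).trc _).int ha0) hD.sum (P i).S
    rw [← e] at this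
    exact this
  calc val κ g r s1 s2 I P ≤ ∑ i ∈ I, c0 * (N3 * (∑ k ∈ Finset.range L.n, X k i + Y i)) :=
        Finset.sum_le_sum fun i hi => mul_le_mul' le_rfl (h1 i hi)
    _ = N3 * (∑ k ∈ Finset.range L.n, ∑ i ∈ I, c0 * X k i + ∑ i ∈ I, c0 * Y i) := by
        rw [Finset.sum_comm, ← Finset.sum_add_distrib, Finset.mul_sum]
        refine Finset.sum_congr rfl fun i _ => ?_
        rw [← Finset.mul_sum, ← mul_add, mul_left_comm]
    _ ≤ _ := by
        refine mul_le_mul' le_rfl (add_le_add ?_ ?_)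
        · refine Finset.sum_le_sum fun k _ => ?_
          rw [← Finset.sum_fiberwise_of_maps_to (s := I) (t := L.Z) (g := fun i => L.ζ (P i).z)
            (fun i hi => (hL.near _ (hP.mem i hi)).1)]
          refine Finset.sum_le_sum fun z _ => ?_
          have hpl : Plates M κ A0 r s1 s2 L.r (I.filter fun i => L.ζ (P i).z = z) (nrP z P) := by
            refine nr_plates (Finset.filter_subset _ _) (fun i hi => ?_) hP
            obtain ⟨hi1, hi2⟩ := Finset.mem_filter.1 hi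
            have := (hL.near _ (hP.mem i hi1)).2
            rwa [hi2] at this
          refine le_trans (le_of_eq ?_) (le_iSup₂_of_le (I.filter fun i => L.ζ (P i).z = z)
            (nrP z P) (le_iSup_of_le hpl le_rfl))
          unfold val
          refine Finset.sum_congr rfl fun i hi => ?_
          have hi2 := (Finset.mem_filter.1 hi).2
          simp only [hX, hi2]
          rfl
        · exact rest_sum hr hrR hs hP (fun i hi m => by
            refine (hP.box i hi m).trans fun y hy => ?_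
            rw [mem_closedBall_zero_iff]
            exact pbx_norm hA0 (by linarith) hs.hi hTT (hP.c i hi) (hP.X0 i hi) hy)
            (fun p => trc (p - L.ζ p) (L.rest (L.ζ p))) (fun i hi => ht _ (hP.mem i hi))

/-- bookkeeping of the rest. -/
theorem tiny_num2 {B v Cn nb ν R r E D Q M0 : ℝ} {K : ℕ} (hB : 0 ≤ B) (hv : 0 ≤ v)
    (_hCn : 0 ≤ Cn) (hnb : 0 ≤ nb) (hν : nb ≤ ν) (hR : 1 ≤ R) (hr : 0 ≤ r) (hrR : r ≤ R)
    (hE0 : 0 ≤ E) (hE : E ≤ R ^ M0 * D) (hK : 11 + Q + M0 / 2 ≤ K) :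
    R ^ Q * (8 * ν ^ 3) * (11 * R) ^ 4 *
      (r * (81 * B ^ 3 * v * R ^ 4 * (Cn * nb * R ^ (-(K : ℝ)) * Real.sqrt E) ^ 2)) ^ (3 / 2 : ℝ) ≤
      (8 * 11 ^ 4 * (81 * B ^ 3 * v * Cn ^ 2) ^ (3 / 2 : ℝ)) * ν ^ 6 * (R * E * Real.sqrt D) := by
  have hR0 : 0 < R := by linarith
  have hν0 : 0 ≤ ν := hnb.trans hν
  have h1 : r * (81 * B ^ 3 * v * R ^ 4 * (Cn * nb * R ^ (-(K : ℝ)) * Real.sqrt E) ^ 2) ≤
      (81 * B ^ 3 * v * Cn ^ 2) * ν ^ 2 * (R ^ (5 - 2 * (K : ℝ)) * E) := by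
    have e2 : R ^ (5 - 2 * (K : ℝ)) = R ^ 5 * (R ^ (-(K : ℝ))) ^ 2 := by
      rw [← Real.rpow_natCast (R ^ (-(K : ℝ))) 2, ← Real.rpow_mul hR0.le, ← Real.rpow_natCast R 5,
        ← Real.rpow_add hR0]
      congr 1
      push_cast
      ring
    rw [e2, mul_pow, mul_pow, mul_pow, Real.sq_sqrt hE0]
    calc r * (81 * B ^ 3 * v * R ^ 4 * (Cn ^ 2 * nb ^ 2 * (R ^ (-(K : ℝ))) ^ 2 * E))
        ≤ R * (81 * B ^ 3 * v * R ^ 4 * (Cn ^ 2 * ν ^ 2 * (R ^ (-(K : ℝ))) ^ 2 * E)) := by gcongr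
      _ = _ := by ring
  have e3 : E ^ (3 / 2 : ℝ) = E * Real.sqrt E := by
    rw [Real.sqrt_eq_rpow]
    rcases hE0.eq_or_lt with h0 | h0
    · rw [← h0, Real.zero_rpow (by norm_num)]; ring
    · nth_rewrite 2 [← Real.rpow_one E]
      rw [← Real.rpow_add h0]
      norm_num
  have e4 : (ν ^ 2) ^ (3 / 2 : ℝ) = ν ^ 3 := by
    rw [← Real.rpow_natCast ν 2, ← Real.rpow_mul hν0, ← Real.rpow_natCast ν 3]
    congr 1
    push_cast
    ring
  have h2 : (r * (81 * B ^ 3 * v * R ^ 4 * (Cn * nb * R ^ (-(K : ℝ)) * Real.sqrt E) ^ 2)) ^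
      (3 / 2 : ℝ) ≤ (81 * B ^ 3 * v * Cn ^ 2) ^ (3 / 2 : ℝ) * ν ^ 3 *
        (R ^ ((5 - 2 * (K : ℝ)) * (3 / 2)) * (E * (R ^ (M0 / 2) * Real.sqrt D))) := by
    refine (Real.rpow_le_rpow (by positivity) h1 (by norm_num)).trans ?_
    rw [Real.mul_rpow (by positivity) (by positivity), Real.mul_rpow (by positivity) (by positivity),
      Real.mul_rpow (by positivity) hE0, ← Real.rpow_mul hR0.le, e4, e3]
    gcongr
    calc Real.sqrt E ≤ Real.sqrt (R ^ M0 * D) := Real.sqrt_le_sqrt hE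
      _ = Real.sqrt (R ^ M0) * Real.sqrt D := Real.sqrt_mul (by positivity) _
      _ = R ^ (M0 / 2) * Real.sqrt D := by
          congr 1
          rw [Real.sqrt_eq_rpow, ← Real.rpow_mul hR0.le]
          congr 1
          ring
  calc R ^ Q * (8 * ν ^ 3) * (11 * R) ^ 4 *
      (r * (81 * B ^ 3 * v * R ^ 4 * (Cn * nb * R ^ (-(K : ℝ)) * Real.sqrt E) ^ 2)) ^ (3 / 2 : ℝ)
      ≤ R ^ Q * (8 * ν ^ 3) * (11 * R) ^ 4 * ((81 * B ^ 3 * v * Cn ^ 2) ^ (3 / 2 : ℝ) * ν ^ 3 *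
        (R ^ ((5 - 2 * (K : ℝ)) * (3 / 2)) * (E * (R ^ (M0 / 2) * Real.sqrt D)))) := by gcongr
    _ = (8 * 11 ^ 4 * (81 * B ^ 3 * v * Cn ^ 2) ^ (3 / 2 : ℝ)) * ν ^ 6 *
        ((R ^ Q * R ^ 4 * R ^ ((5 - 2 * (K : ℝ)) * (3 / 2)) * R ^ (M0 / 2)) *
          (E * Real.sqrt D)) := by ring
    _ ≤ (8 * 11 ^ 4 * (81 * B ^ 3 * v * Cn ^ 2) ^ (3 / 2 : ℝ)) * ν ^ 6 *
        (R * (E * Real.sqrt D)) := by
        refine mul_le_mul_of_nonneg_left (mul_le_mul_of_nonneg_right ?_ (by positivity))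
          (by positivity)
        rw [← Real.rpow_natCast R 4, ← Real.rpow_add hR0, ← Real.rpow_add hR0,
          ← Real.rpow_add hR0]
        nth_rewrite 2 [← Real.rpow_one R]
        refine Real.rpow_le_rpow_of_exponent_le hR ?_
        have hK0 : (0 : ℝ) ≤ K := Nat.cast_nonneg K
        push_cast
        linarith
    _ = _ := by ring

/-- slopes of the functions of a level. -/
theorem slope_le {b r R : ℝ} (hb2 : b < 2) (hR : (36 / (2 - b) ^ 2) ^ 2 ≤ R)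
    (hR1 : 1 ≤ R) (hr : R ^ (1/2 : ℝ) ≤ r) : b + 3 * r ^ (-(1/2) : ℝ) ≤ (b + 2) / 2 := by
  have hr0 : 0 < r := lt_of_lt_of_le (Real.rpow_pos_of_pos (by linarith) _) hr
  have h2b : 0 < 2 - b := by linarith
  have h1 : 6 / (2 - b) ≤ r ^ (1/2 : ℝ) := by
    have h3 : 36 / (2 - b) ^ 2 ≤ R ^ (1/2 : ℝ) := by
      rw [← Real.sqrt_eq_rpow]
      exact Real.le_sqrt_of_sq_le hR
    rw [← Real.sqrt_eq_rpow]
    refine Real.le_sqrt_of_sq_le (le_trans (le_of_eq ?_) (h3.trans hr))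
    rw [div_pow]
    norm_num
  have h4 : r ^ (-(1/2) : ℝ) = (r ^ (1/2 : ℝ))⁻¹ := Real.rpow_neg hr0.le _
  have h5 : (r ^ (1/2 : ℝ))⁻¹ ≤ (6 / (2 - b))⁻¹ := inv_anti₀ (by positivity) h1
  have h6 : (6 / (2 - b))⁻¹ = (2 - b) / 6 := by rw [inv_div]
  rw [h4]
  rw [h6] at h5
  linarith

set_option maxHeartbeats 800000 in
/-- **FIN**. -/
theorem fin_of_A2k {M q : ℝ} (hA2k : A2k M q) : FIN M q := by
  intro c hc hLB
  obtain ⟨Ka, hKa, hA2⟩ := hA2k c hc hLB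
  refine ⟨⌈Ka⌉₊ + 6, ?_⟩
  intro a b A0 ε M0 hrg
  have ha := hrg.a1
  have hA0 := hrg.A1
  have hε := hrg.e0
  obtain ⟨C2, hC2, hA2⟩ := hA2 (2 * a) ((b + 2) / 2) A0 ε 4 (by linarith) (by linarith [hrg.b0])
    (by linarith [hrg.b2]) hA0 hε
  refine ⟨6 * A0 ^ 2, ⌈11 + |q| / 4 + M0 / 2⌉₊, ?_⟩
  intro A hA K hK A' Cn hA' hCn
  have hv := v3_nonneg
  have h2b : 0 < 2 - b := by linarith [hrg.b2]
  set Ct : ℝ := 8 * 11 ^ 4 * (81 * (6 * A0 ^ 2) ^ 3 * v3 * Cn ^ 2) ^ (3 / 2 : ℝ) with hCt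
  have hCt0 : 0 ≤ Ct := by positivity
  set CC : ℝ := 1 + 8 * C2 * Cn + Ct + (36 / (2 - b) ^ 2) ^ 2 with hCC
  have hCCa : 8 * C2 * Cn ≤ CC := by
    have : 0 ≤ (36 / (2 - b) ^ 2) ^ 2 := by positivity
    linarith
  have hCCb : Ct ≤ CC := by
    have : 0 ≤ (36 / (2 - b) ^ 2) ^ 2 := by positivity
    have : 0 ≤ 8 * C2 * Cn := by positivity
    linarith
  have hCCc : (36 / (2 - b) ^ 2) ^ 2 ≤ CC := by
    have : 0 ≤ 8 * C2 * Cn := by positivity
    linarith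
  have hCC1 : 1 ≤ CC := by
    have : 0 ≤ (36 / (2 - b) ^ 2) ^ 2 := by positivity
    have : 0 ≤ 8 * C2 * Cn := by positivity
    linarith
  refine ⟨CC, hCC1, ?_⟩
  intro κ η0 C0 σ g R D hSs hKp hCR L hL ν hν1 hνR hLe r s1 s2 hr hrL hs
  have hR1 : 1 ≤ R := hSs.R1
  have hR0 : 0 < R := by linarith
  have hk0 := hKp.k0
  have hr12 : 1 ≤ R ^ (1/2 : ℝ) := Real.one_le_rpow hR1 (by norm_num)
  have hr1 : 1 ≤ r := hr12.trans hr
  have hr0 : 0 < r := by linarith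
  have hrLr : r ≤ L.r := by
    refine le_trans ?_ hrL
    nlinarith
  have hrR : r ≤ R := hrLr.trans hL.hi
  have hLr1 : 1 ≤ L.r := hr1.trans hrLr
  have hLr0 : 0 < L.r := by linarith
  have hE0 : 0 ≤ Enc g := Enc_nn g
  have hsp : 0 < s1 := lt_of_lt_of_le (Real.rpow_pos_of_pos hr0 _) hs.lo
  have hsp2 : 0 < s2 := lt_of_lt_of_le hsp hs.le
  -- the thin side
  have hκr : 1 ≤ κ * r := by
    have h1 : R ^ (-(1/16) : ℝ) * R ^ (1/2 : ℝ) ≤ κ * r :=
      mul_le_mul hKp.kR hr (by positivity) hk0.le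
    rw [← Real.rpow_add hR0] at h1
    exact (Real.one_le_rpow hR1 (by norm_num)).trans h1
  have hTT : TT κ s2 r ≤ 1 := by
    unfold TT
    refine max_le ?_ (inv_le_one_of_one_le₀ hκr)
    nlinarith [hs.hi]
  have hBA : 6 * A0 ^ 2 * r ≤ A * L.r := mul_le_mul hA hrLr hr0.le (by nlinarith)
  have hA1 : 1 ≤ A := by nlinarith
  -- the rest
  set x : ℝ := (Cn * ν * R ^ (-(K : ℝ)) * Real.sqrt (Enc g)) ^ 2 with hx
  have hrest : ∀ p ∈ cylc R, enc (r ^ (-(1/2) : ℝ)) (trc (p - L.ζ p) (L.rest (L.ζ p)))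
      (fun _ => Metric.closedBall 0 (6 * A0 ^ 2 * r)) ≤
      ENNReal.ofReal (81 * (6 * A0 ^ 2) ^ 3 * v3 * R ^ 4 * x) := by
    intro p hp
    obtain ⟨hz, hw⟩ := hL.near p hp
    obtain ⟨cls, hD⟩ := hL.dec _ hz
    refine enc_tiny hr1 hrR (by positivity) (by positivity) (fun _ => le_rfl)
      (fun _ => Metric.isClosed_closedBall.measurableSet) ?_
    intro m _ y hy
    rw [mem_closedBall_zero_iff] at hy
    have h1 := hD.small r hr1 hrLr (p - L.ζ p) ⟨hw.1.trans (by nlinarith),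
      hw.2.trans (by nlinarith)⟩ m y (hy.trans hBA)
    rw [← ofReal_norm, ← ENNReal.ofReal_pow (norm_nonneg _)]
    refine ENNReal.ofReal_le_ofReal ?_
    rw [hx]
    refine pow_le_pow_left₀ (norm_nonneg _) (h1.trans ?_) 2
    have := hLe.2
    gcongr
  -- the main term
  set Q : ℝ := C2 * R ^ (Ka * ε) * (L.r / r) ^ (c / 2) with hQ
  have hQ0 : 0 ≤ Q := by positivity
  have hterm : ∀ k ∈ Finset.range L.n, ∀ z ∈ L.Z,
      ENNReal.ofReal (s2 ^ (-q / 2)) * SIG M κ A0 r s1 s2 (L.G z k) L.r ≤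
      ENNReal.ofReal (Q * Cn) * (ENNReal.ofReal (L.r * Real.sqrt (L.D z k)) *
        ∑ i ∈ L.I z k, enc (L.r ^ (-(1/2) : ℝ)) (trc z g) (L.P z k i).S) := by
    intro k hk z hz
    obtain ⟨cls, hD⟩ := hL.dec z hz
    have hst := St_mono (slope_le hrg.b2 (hCCc.trans hCR) hR1 hL.lo) (hD.st k hk)
    have h1 := hA2 κ η0 C0 _ (L.G z k) L.r (L.D z k) hk0 ?_ ?_ hst (hD.slc k hk) r s1 s2 ?_ hrLr hs
    · refine h1.trans ?_
      have h2 : ENNReal.ofReal (SS (L.G z k) L.r (L.D z k)) ≤ ENNReal.ofReal Cn *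
          (ENNReal.ofReal (L.r * Real.sqrt (L.D z k)) *
            ∑ i ∈ L.I z k, enc (L.r ^ (-(1/2) : ℝ)) (trc z g) (L.P z k i).S) := by
        have e1 : SS (L.G z k) L.r (L.D z k) = L.r * Real.sqrt (L.D z k) * Enc (L.G z k) := by
          unfold SS; ring
        rw [e1, ENNReal.ofReal_mul (by positivity), mul_left_comm (ENNReal.ofReal Cn)]
        exact mul_le_mul' le_rfl (hD.energy k hk)
      have h3 : C2 * L.r ^ (Ka * ε) * (max 1 (L.r / (s1 * r) ^ 2)) ^ (c / 2) ≤ Q := by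
        have h4 : max 1 (L.r / (s1 * r) ^ 2) ≤ L.r / r := by
          refine max_le ((one_le_div hr0).2 hrLr) ?_
          have h5 : r ≤ (s1 * r) ^ 2 := by
            have h6 : r ^ (-(1/2) : ℝ) * r ≤ s1 * r := by
              have := hs.lo
              gcongr
            have h7 : r ^ (-(1/2) : ℝ) * r = r ^ (1/2 : ℝ) := by
              nth_rewrite 2 [← Real.rpow_one r]
              rw [← Real.rpow_add hr0]
              norm_num
            rw [h7] at h6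
            calc r = (r ^ (1/2 : ℝ)) ^ 2 := by
                  rw [← Real.rpow_natCast, ← Real.rpow_mul hr0.le]
                  norm_num
              _ ≤ _ := pow_le_pow_left₀ (by positivity) h6 2
          gcongr
        have h8 : 1 ≤ max 1 (L.r / (s1 * r) ^ 2) := le_max_left _ _
        have h9 : L.r ≤ R := hL.hi
        rw [hQ]
        gcongr
      rw [ENNReal.ofReal_mul (by positivity), ENNReal.ofReal_mul hQ0,
        mul_assoc (ENNReal.ofReal Q)]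
      exact mul_le_mul' (ENNReal.ofReal_le_ofReal h3) h2
    · have := hKp.kb
      nlinarith
    · refine le_trans ?_ hKp.kR
      have h2 : L.r ^ (-(1/4) : ℝ) ≤ (R ^ (1/2 : ℝ)) ^ (-(1/4) : ℝ) :=
        Real.rpow_le_rpow_of_nonpos (by positivity) hL.lo (by norm_num)
      refine h2.trans ?_
      rw [← Real.rpow_mul hR0.le]
      exact Real.rpow_le_rpow_of_exponent_le hR1 (by norm_num)
    · refine le_trans ?_ hr
      exact Real.rpow_le_rpow hLr0.le hL.hi (by norm_num)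
  -- the value of one system
  have hn3 : ((L.n + 1 : ℕ) : ℝ≥0∞) ^ 3 ≤ ENNReal.ofReal (8 * ν ^ 3) := by
    rw [← ENNReal.ofReal_natCast, ← ENNReal.ofReal_pow (Nat.cast_nonneg _)]
    refine ENNReal.ofReal_le_ofReal ?_
    have h1 : ((L.n + 1 : ℕ) : ℝ) ≤ 2 * ν := by
      push_cast
      linarith [hLe.1]
    calc ((L.n + 1 : ℕ) : ℝ) ^ 3 ≤ (2 * ν) ^ 3 := pow_le_pow_left₀ (Nat.cast_nonneg _) h1 3
      _ = 8 * ν ^ 3 := by ring
  have hν0 : 0 ≤ ν := by linarith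
  have hpow : ∀ j : ℕ, j ≤ 6 → ν ^ j ≤ ν ^ (⌈Ka⌉₊ + 6) := fun j hj =>
    pow_le_pow_right₀ hν1 (by omega)
  have hmain : ENNReal.ofReal (8 * ν ^ 3) * ENNReal.ofReal (Q * Cn) ≤
      ENNReal.ofReal (CC * ν ^ (⌈Ka⌉₊ + 6) * R ^ (((⌈Ka⌉₊ + 6 : ℕ) : ℝ) * ε) *
        (L.r / r) ^ (c / 2)) := by
    rw [← ENNReal.ofReal_mul (by positivity)]
    refine ENNReal.ofReal_le_ofReal ?_
    have h1 : R ^ (Ka * ε) ≤ R ^ (((⌈Ka⌉₊ + 6 : ℕ) : ℝ) * ε) := by
      refine Real.rpow_le_rpow_of_exponent_le hR1 ?_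
      have := Nat.le_ceil Ka
      push_cast
      nlinarith
    calc 8 * ν ^ 3 * (Q * Cn) = (8 * C2 * Cn) * ν ^ 3 * R ^ (Ka * ε) * (L.r / r) ^ (c / 2) := by
          rw [hQ]; ring
      _ ≤ _ := by
          have := hpow 3 (by norm_num)
          gcongr
  have hs2q : s2 ^ (-q / 2) ≤ R ^ (|q| / 4) := by
    have h0 : 0 < r ^ (-(1/2) : ℝ) := Real.rpow_pos_of_pos hr0 _
    rcases le_total 0 q with h1 | h1
    · rw [abs_of_nonneg h1]
      exact TuT890.s2_pow h1 hr1 hrR (hs.lo.trans hs.le)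
    · calc s2 ^ (-q / 2) ≤ 1 := Real.rpow_le_one hsp2.le hs.hi (by linarith)
        _ ≤ _ := Real.one_le_rpow hR1 (by positivity)
  have hrestn : ENNReal.ofReal (s2 ^ (-q / 2)) * (ENNReal.ofReal (8 * ν ^ 3) *
      (ENNReal.ofReal ((11 * R) ^ 4) *
        ENNReal.ofReal (r * (81 * (6 * A0 ^ 2) ^ 3 * v3 * R ^ 4 * x)) ^ (3 / 2 : ℝ))) ≤
      ENNReal.ofReal (CC * ν ^ (⌈Ka⌉₊ + 6) * SS g R D) := by
    rw [ENNReal.ofReal_rpow_of_nonneg (by positivity) (by norm_num),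
      ← ENNReal.ofReal_mul (by positivity), ← ENNReal.ofReal_mul (by positivity),
      ← ENNReal.ofReal_mul (by positivity)]
    refine ENNReal.ofReal_le_ofReal ?_
    have h1 := tiny_num2 (B := 6 * A0 ^ 2) (v := v3) (Cn := Cn) (nb := ν) (ν := ν) (R := R) (r := r)
      (E := Enc g) (D := D) (Q := |q| / 4) (M0 := M0) (K := K) (by positivity) hv (by linarith) hν0
      le_rfl hR1 hr0.le hrR hE0 hSs.nd (by
        have h2 := Nat.le_ceil (11 + |q| / 4 + M0 / 2)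
        have h3 : ((⌈11 + |q| / 4 + M0 / 2⌉₊ : ℕ) : ℝ) ≤ K := by exact_mod_cast hK
        linarith)
    calc s2 ^ (-q / 2) * (8 * ν ^ 3 * ((11 * R) ^ 4 *
          (r * (81 * (6 * A0 ^ 2) ^ 3 * v3 * R ^ 4 * x)) ^ (3 / 2 : ℝ)))
        ≤ R ^ (|q| / 4) * (8 * ν ^ 3 * ((11 * R) ^ 4 *
          (r * (81 * (6 * A0 ^ 2) ^ 3 * v3 * R ^ 4 * x)) ^ (3 / 2 : ℝ))) := by gcongr
      _ = R ^ (|q| / 4) * (8 * ν ^ 3) * (11 * R) ^ 4 *
          (r * (81 * (6 * A0 ^ 2) ^ 3 * v3 * R ^ 4 * x)) ^ (3 / 2 : ℝ) := by ring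
      _ ≤ Ct * ν ^ 6 * SS g R D := h1
      _ ≤ _ := by
          have h2 : 0 ≤ SS g R D := by unfold SS; positivity
          have := hpow 6 le_rfl
          gcongr
  have key : ∀ (I : Finset ℕ) (P : ℕ → Plate), Plates M κ A0 r s1 s2 R I P →
      ENNReal.ofReal (s2 ^ (-q / 2)) * val κ g r s1 s2 I P ≤
      ENNReal.ofReal (CC * ν ^ (⌈Ka⌉₊ + 6) * R ^ (((⌈Ka⌉₊ + 6 : ℕ) : ℝ) * ε) *
        (L.r / r) ^ (c / 2)) * ∑ k ∈ Finset.range L.n, L.S g k +
      ENNReal.ofReal (CC * ν ^ (⌈Ka⌉₊ + 6) * SS g R D) := by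
    intro I P hP
    have h1 := val_dec ha hL hA0 hr1 hrR hTT hs hP hrest
    calc ENNReal.ofReal (s2 ^ (-q / 2)) * val κ g r s1 s2 I P
        ≤ ENNReal.ofReal (s2 ^ (-q / 2)) * (ENNReal.ofReal (8 * ν ^ 3) *
          (∑ k ∈ Finset.range L.n, ∑ z ∈ L.Z, SIG M κ A0 r s1 s2 (L.G z k) L.r +
            ENNReal.ofReal ((11 * R) ^ 4) * ENNReal.ofReal (r *
              (81 * (6 * A0 ^ 2) ^ 3 * v3 * R ^ 4 * x)) ^ (3 / 2 : ℝ))) :=
          mul_le_mul' le_rfl (h1.trans (mul_le_mul' hn3 le_rfl))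
      _ = ENNReal.ofReal (8 * ν ^ 3) * (∑ k ∈ Finset.range L.n, ∑ z ∈ L.Z,
            ENNReal.ofReal (s2 ^ (-q / 2)) * SIG M κ A0 r s1 s2 (L.G z k) L.r) +
          ENNReal.ofReal (s2 ^ (-q / 2)) * (ENNReal.ofReal (8 * ν ^ 3) *
            (ENNReal.ofReal ((11 * R) ^ 4) * ENNReal.ofReal (r *
              (81 * (6 * A0 ^ 2) ^ 3 * v3 * R ^ 4 * x)) ^ (3 / 2 : ℝ))) := by
          simp_rw [← Finset.mul_sum]
          ring
      _ ≤ ENNReal.ofReal (8 * ν ^ 3) * (∑ k ∈ Finset.range L.n, ∑ z ∈ L.Z,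
            ENNReal.ofReal (Q * Cn) * (ENNReal.ofReal (L.r * Real.sqrt (L.D z k)) *
              ∑ i ∈ L.I z k, enc (L.r ^ (-(1/2) : ℝ)) (trc z g) (L.P z k i).S)) +
          ENNReal.ofReal (CC * ν ^ (⌈Ka⌉₊ + 6) * SS g R D) :=
          add_le_add (mul_le_mul' le_rfl (Finset.sum_le_sum fun k hk =>
            Finset.sum_le_sum fun z hz => hterm k hk z hz)) hrestn
      _ = ENNReal.ofReal (8 * ν ^ 3) * ENNReal.ofReal (Q * Cn) *
            ∑ k ∈ Finset.range L.n, L.S g k +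
          ENNReal.ofReal (CC * ν ^ (⌈Ka⌉₊ + 6) * SS g R D) := by
          simp_rw [← Finset.mul_sum]
          rw [← mul_assoc (ENNReal.ofReal (8 * ν ^ 3)) (ENNReal.ofReal (Q * Cn))]
          rfl
      _ ≤ _ := add_le_add (mul_le_mul' hmain le_rfl) le_rfl
  unfold SIG
  simp_rw [ENNReal.mul_iSup]
  refine iSup_le fun I => iSup_le fun P => iSup_le fun hP => ?_
  exact key I P hP

end Crest.Agent.R116.Fin850
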