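import Crest.Agent.R116.SgL2_337
import Crest.Agent.R116.Fz2_708
import Crest.Agent.R116.RbM2_219
import Crest.Agent.R116.CtxB_468

-- ▼ part R116/Rcx1_363
section

/-!
# R116 (K side, TIES), the producer, part 1 (helper363)

* `Prf L s a b Vis β g` : what is inherited by every tangent of the profile `ν` : antitone with the
  sum bound, supermodular, own increments (boxes not finer than the own exponents in the visible
  slots), cost of a refinement.
* `prf_of`   : a tangent of `ν` at a record point (visible slots allowed);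
* `Prf.tan`  : kept by tangents at moving bases (a slot with slack below its own exponent becomes
  invisible).
* `dmax_tan`, `rec_tan` : D-max and the record identity for second tangents.
-/

set_option autoImplicit false
set_option linter.unusedVariables false

open Finset Filter Topology

namespace Crest.Agent.R116.Rcx363

open Crest.Agent.R138.Ex926 (Base U IsTan QProf cls mem_cls)
open Crest.Agent.R136
open Crest.Agent.R136.Net191
open Crest.Agent.R136.Lq196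
open Crest.Agent.R116.ChL222
open Crest.Agent.R116.PL504 (nb rL DN eL βL)
open Crest.Agent.R116.Xd954 (cs xs FlagX Mrg)
open Crest.Agent.R116.Sg337 (coneL DL)
open Dg262 (SupOn)

/-- an own/fine profile of a quasi-nested family is antitone -/
theorem own_anti {B : Base} {ι κ : ℕ → Type*} [∀ n, DecidableEq (ι n)] [∀ n, DecidableEq (κ n)]
    {V : Type*} [LE V] {I : ∀ n, Finset (ι n)} {f : ∀ n, V → ι n → κ n} {P : Set V} {ν : V → ℝ}
    (h : QProf B I f P ν) (hne : ∀ᶠ n in (U : Filter ℕ), (I n).Nonempty) {p q : V} (hp : p ∈ P)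
    (hq : q ∈ P) (hqp : q ≤ p) : ν p ≤ ν q := by
  by_contra hcon
  rw [not_le] at hcon
  have hε : 0 < (ν p - ν q) / 2 := by linarith
  obtain ⟨n, h1, h2⟩ := ((h.num _ hε).and hne).exists
  obtain ⟨i, hi⟩ := h2
  have h3 := h1 q hq p hp hqp i hi
  have h4 : (1 : ℝ) ≤ (((cls (I n) (f n q) i).image (f n p)).card : ℝ) := by
    have : ((cls (I n) (f n q) i).image (f n p)).Nonempty :=
      ⟨_, mem_image_of_mem _ (mem_cls.2 ⟨hi, rfl⟩)⟩
    exact_mod_cast this.card_pos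
  have h5 : B.d n ^ (-(ν q - ν p + (ν p - ν q) / 2)) < 1 :=
    Real.rpow_lt_one (B.pos n).le (B.lt n) (by linarith)
  linarith

/-- what is inherited by tangents -/
structure Prf (L : Set (Fin 12 → ℝ)) (s : ℝ) (a b : Fin 2) (Vis : Fin 12 → Prop)
    (β : Fin 12 → ℝ) (g : (Fin 12 → ℝ) → ℝ) : Prop where
  ab : a ≠ b
  anti : ∀ p ∈ L, ∀ q ∈ L, p ≤ q → 0 ≤ g p - g q ∧ g p - g q ≤ ∑ k, (q k - p k)
  sm : SupOn g L
  own : ∀ p ∈ L, ∀ q ∈ L, p ≤ q → ∀ u : ℝ, p 0 ≤ u → (∀ k, Vis k → p k ≤ u * β k) →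
    (1 - s) * (q 0 - u) ≤ g p - g q
  cost : ∀ p ∈ L, ∀ q ∈ L, p ≤ q → (q (cs b) ≤ p (cs b) ∨ q (cs b) ≤ q (cs a)) →
    (q (xs b) ≤ p (xs b) ∨ q (xs b) ≤ q (xs a)) →
    g p - g q ≤ ∑ k ∈ ({cs b, xs b} : Finset (Fin 12))ᶜ, (q k - p k)

theorem Prf.mono {L L' : Set (Fin 12 → ℝ)} {s : ℝ} {a b : Fin 2} {Vis : Fin 12 → Prop}
    {β : Fin 12 → ℝ} {g : (Fin 12 → ℝ) → ℝ} (H : Prf L s a b Vis β g) (hL : L' ⊆ L) :
    Prf L' s a b Vis β g where
  ab := H.ab
  anti := fun p hp q hq => H.anti p (hL hp) q (hL hq)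
  sm := fun p hp q hq h1 h2 => H.sm p (hL hp) q (hL hq) (hL h1) (hL h2)
  own := fun p hp q hq => H.own p (hL hp) q (hL hq)
  cost := fun p hp q hq => H.cost p (hL hp) q (hL hq)

theorem coneL_raise {p : Fin 12 → ℝ} (hp : p ∈ coneL) {u : ℝ} (hu : p 0 ≤ u) :
    Function.update p 0 u ∈ coneL := by
  intro k e he
  have hk : k ≠ 0 := by
    rintro rfl
    change e ∈ mfL 0 at he
    simp [mfL] at he
  rw [Function.update_of_ne hk]
  refine (hp k e he).trans (Finset.sum_le_sum fun s _ => ?_)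
  refine mul_le_mul_of_nonneg_left ?_ (Nat.cast_nonneg _)
  by_cases hs : s = 0
  · subst hs; rw [Function.update_self]; exact hu
  · rw [Function.update_of_ne hs]

theorem rL_add (θa θb w0 sa sb v t : ℝ) :
    rL θa θb w0 sa sb (v + t) = rL θa θb w0 sa sb v + t • βL θa θb := by
  rw [PL504.rL_nb, PL504.rL_nb]
  unfold βL
  rw [← PL504.eL_smul, ← PL504.nb_add]
  congr 1 <;> ring

section ext

variable {B : Base} {I0 I : ℕ → Finset (ℕ × ℝ)} {lev : ℕ → ℚ → ℕ} {inc : ℕ → ℕ × ℝ → LInc}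
    {σ : Fin 2 → ℕ → ℝ} {k0 ϑ w0 sa sb g q0 q1 θa θb : ℝ} {a b : Fin 2}
    {C R s c₀ : ℝ} {PD : Set (Fin 12 → ℝ)} {D : (Fin 12 → ℝ) → ℝ}
    {o : ℝ → Fin 12 → ℝ} {E : ℝ → ℝ} {T : Fin 12 → Prop} {ν own : (Fin 12 → ℝ) → ℝ}

/-- **a tangent of `ν` at a record point, visible slots allowed** -/
theorem prf_of
    (h : ExtQ B I0 I (Gd222.coN B lev inc σ w0 sa sb) monL C R 0 w0 s PD D
      (rL θa θb w0 sa sb) o E T ν own c₀)
    (hF : FlagX B I lev inc σ k0 ϑ a b) {Vis : Fin 12 → Prop}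
    (hoz : ∀ v : ℝ, 0 ≤ v → v ≤ 1 → o v 0 = w0 + v)
    (hon : ∀ v : ℝ, 0 ≤ v → v ≤ 1 → ∀ k, k ≠ 0 → ¬ Vis k → R ≤ o v k)
    (hov : ∀ v : ℝ, 0 ≤ v → v ≤ 1 → ∀ k, Vis k → rL θa θb w0 sa sb v k ≤ o v k)
    {v0 : ℝ} (hv0 : 0 < v0) (hv1 : v0 < 1) (h0t : 0 < θa * (1 - v0))
    (htk : θa * (1 - v0) < θb * (1 - v0) + k0) (hvt : ϑ < v0 + θa * (1 - v0))
    {hh : ℕ → ℝ} (hpos : ∀ l, 0 < hh l) (hh0 : Tendsto hh atTop (𝓝 0))
    {lam : (Fin 12 → ℝ) → ℝ}
    (ht : IsTan (Leg monL R) coneL ν (fun _ => rL θa θb w0 sa sb v0) hh lam) :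
    Prf coneL s a b Vis (βL θa θb) lam where
  ab := hF.ab
  anti := fun p hp q hq hpq => SgO219.tan_mono hpos ht h.lip p hp q hq hpq
  sm := SgO219.tan_smod (P := Leg monL R) (L := coneL) hpos ht
      (fun p hp q hq hi _ => by
        have := h.submod p hp q hq hi
        linarith)
  own := fun p hp q hq hpq u hu hV => by
    have h1 := SgO219.tan_lim hpos ht hp hq
    refine ge_of_tendsto h1 ?_
    have e0 : ∀ c : ℝ, Tendsto (fun l => v0 + hh l * c) atTop (𝓝 v0) := fun c => by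
      have := (hh0.mul_const c).const_add v0
      simpa using this
    filter_upwards [SgO219.tan_ev ht hp, SgO219.tan_ev ht hq,
      SgO219.tan_ev ht (coneL_raise hp hu),
      (e0 u).eventually (Ioo_mem_nhds hv0 hv1), (e0 (q 0)).eventually (Ioo_mem_nhds hv0 hv1)]
      with l m1 m2 m3 n1 n2
    have hl := hpos l
    have hle : rL θa θb w0 sa sb v0 + hh l • p ≤
        rL θa θb w0 sa sb v0 + hh l • Function.update p 0 u := by
      intro k
      simp only [Pi.add_apply, Pi.smul_apply, smul_eq_mul]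
      by_cases hk : k = 0
      · subst hk; rw [Function.update_self]
        have := mul_le_mul_of_nonneg_left hu hl.le
        linarith
      · rw [Function.update_of_ne hk]
    have h2 := PL504.own_inc' h m1 m2 m3 (fun k => by
        simp only [Pi.add_apply, Pi.smul_apply, smul_eq_mul]
        have := mul_le_mul_of_nonneg_left (hpq k) hl.le
        linarith) hle (u := v0 + hh l * u) (v' := v0 + hh l * q 0) n1.1.le n1.2.le n2.1.le n2.2.le
      (by simp only [Pi.add_apply, Pi.smul_apply, smul_eq_mul, PL504.rL_zero_slot,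
            Function.update_self]; ring)
      (by simp only [Pi.add_apply, Pi.smul_apply, smul_eq_mul, PL504.rL_zero_slot]; ring)
      (fun k => by
        by_cases hk : k = 0
        · rw [hk, hoz _ n1.1.le n1.2.le]
          simp only [Pi.add_apply, Pi.smul_apply, smul_eq_mul, PL504.rL_zero_slot,
            Function.update_self]
          linarith
        · by_cases hkv : Vis k
          · refine le_trans ?_ (hov _ n1.1.le n1.2.le k hkv)
            rw [rL_add]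
            simp only [Pi.add_apply, Pi.smul_apply, smul_eq_mul]
            rw [Function.update_of_ne hk]
            have := mul_le_mul_of_nonneg_left (hV k hkv) hl.le
            nlinarith
          · exact (m3.2 k).trans (hon _ n1.1.le n1.2.le k hk hkv))
      (own_anti h.oprof h.ne m3 m1 hle)
    rw [le_div_iff₀ hl]
    nlinarith
  cost := fun p hp q hq hpq h1 h2 => by
    refine Xd954.lam_lip h hF h0t htk hvt (P := Leg monL R) (Dm := coneL) le_rfl ht ?_ hpos hh0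
      (fun l => ?_) (fun l => ?_) hp hq hpq h1 h2
    · rw [PL504.rL_nb]; exact tendsto_const_nhds
    · rw [PL504.rL_nb, Xd954.nb_cs, Xd954.nb_cs]
    · rw [PL504.rL_nb, Xd954.nb_xs, Xd954.nb_xs]

end ext

/-! ### tangents of tangents -/

section tan

variable {L L' : Set (Fin 12 → ℝ)} {s : ℝ} {a b : Fin 2} {Vis Vis' : Fin 12 → Prop}
    {β : Fin 12 → ℝ} {g lam : (Fin 12 → ℝ) → ℝ} {Y : ℕ → Fin 12 → ℝ} {k : ℕ → ℝ}

/-- **kept by tangents at moving bases** -/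
theorem Prf.tan (H : Prf L s a b Vis β g) (hpos : ∀ m, 0 < k m) (hk0 : Tendsto k atTop (𝓝 0))
    (ht : IsTan L L' g Y k lam) (hC : ∀ m, Y m (cs b) = Y m (cs a))
    (hX : ∀ m, Y m (xs b) = Y m (xs a))
    (hV : ∀ i, Vis i → (Vis' i ∧ ∀ m, Y m i ≤ Y m 0 * β i) ∨
      ∃ c : ℝ, 0 < c ∧ ∀ᶠ m in atTop, Y m i + c ≤ Y m 0 * β i) :
    Prf L' s a b Vis' β lam where
  ab := H.ab
  anti := SgO219.tan_mono hpos ht H.anti
  sm := SgO219.tan_smod hpos ht H.sm
  own := fun p hp q hq hpq u hu hVp => by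
    have h1 := SgO219.tan_lim hpos ht hp hq
    refine ge_of_tendsto h1 ?_
    have hev : ∀ i, Vis i → ∀ᶠ m in atTop, Y m i + k m * p i ≤ (Y m 0 + k m * u) * β i := by
      intro i hi
      rcases hV i hi with ⟨h2, h3⟩ | ⟨c, hc, h3⟩
      · refine Eventually.of_forall fun m => ?_
        have := mul_le_mul_of_nonneg_left (hVp i h2) (hpos m).le
        have := h3 m
        nlinarith
      · have h4 : Tendsto (fun m => k m * (p i - u * β i)) atTop (𝓝 0) := by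
          have := hk0.mul_const (p i - u * β i)
          simpa using this
        filter_upwards [h3, h4.eventually_lt_const hc] with m m1 m2
        nlinarith
    have hev' : ∀ᶠ m in atTop, ∀ i, Vis i → Y m i + k m * p i ≤ (Y m 0 + k m * u) * β i :=
      eventually_all.2 fun i => by
        by_cases hi : Vis i
        · exact (hev i hi).mono fun m h _ => h
        · exact Eventually.of_forall fun m h => absurd h hi
    filter_upwards [SgO219.tan_ev ht hp, SgO219.tan_ev ht hq, hev'] with m m1 m2 m3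
    have hl := hpos m
    have h2 := H.own _ m1 _ m2 (fun i => by
        simp only [Pi.add_apply, Pi.smul_apply, smul_eq_mul]
        have := mul_le_mul_of_nonneg_left (hpq i) hl.le
        linarith) (Y m 0 + k m * u) (by
        simp only [Pi.add_apply, Pi.smul_apply, smul_eq_mul]
        have := mul_le_mul_of_nonneg_left hu hl.le
        linarith) (fun i hi => by
        simp only [Pi.add_apply, Pi.smul_apply, smul_eq_mul]
        exact m3 i hi)
    simp only [Pi.add_apply, Pi.smul_apply, smul_eq_mul] at h2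
    rw [le_div_iff₀ hl]
    nlinarith
  cost := fun p hp q hq hpq h1 h2 => by
    have h3 := SgO219.tan_lim hpos ht hp hq
    refine le_of_tendsto h3 ?_
    filter_upwards [SgO219.tan_ev ht hp, SgO219.tan_ev ht hq] with m m1 m2
    have hl := hpos m
    have h4 := H.cost _ m1 _ m2 (fun i => by
        simp only [Pi.add_apply, Pi.smul_apply, smul_eq_mul]
        have := mul_le_mul_of_nonneg_left (hpq i) hl.le
        linarith) (by
        simp only [Pi.add_apply, Pi.smul_apply, smul_eq_mul]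
        have h5 := hC m
        rcases h1 with h1 | h1
        · left
          have := mul_le_mul_of_nonneg_left h1 hl.le
          linarith
        · right
          have := mul_le_mul_of_nonneg_left h1 hl.le
          linarith) (by
        simp only [Pi.add_apply, Pi.smul_apply, smul_eq_mul]
        have h5 := hX m
        rcases h2 with h2 | h2
        · left
          have := mul_le_mul_of_nonneg_left h2 hl.le
          linarith
        · right
          have := mul_le_mul_of_nonneg_left h2 hl.le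
          linarith)
    rw [div_le_iff₀ hl]
    refine h4.trans (le_of_eq ?_)
    rw [Finset.sum_mul]
    exact Finset.sum_congr rfl fun i _ => by
      simp only [Pi.add_apply, Pi.smul_apply, smul_eq_mul]; ring

end tan

end Crest.Agent.R116.Rcx363
end

-- ▼ part R116/Rcx2_363
section

/-!
# R116 (K side, TIES), the producer, part 2 (helper363)

`CtxT` ⊢ first tangents at the record point `v0` ⊢ (219's `ae_rates8` / `ae_rates9`) second
tangents at record points with the rates of countably many half planes.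

* `DDead ν ..` : `D` is dead along the record in every tangent at `v0` (708's `Frz`).
* `Rx L nt ..` : `Prf` (antitone, supermodular, own, cost) + D-max + record identity.
* `Out8`, `Out9` : the complete output;  **`recx8`** (`D` frozen), **`recx9`** (`D` live).
* `strict_ctx` : a context with room above.
-/

set_option autoImplicit false
set_option linter.unusedVariables false

open Set Filter Topology MeasureTheory

namespace Crest.Agent.R116.Rcx363

open Crest.Agent.R138.Ex926 (Base U IsTan)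
open Crest.Agent.R136
open Crest.Agent.R136.MkA627
open Crest.Agent.R136.TD627
open Crest.Agent.R136.Net191
open Crest.Agent.R136.Lq196
open Crest.Agent.R116.ChL222
open Crest.Agent.R116.PL504 (nb rL DN eL βL oL Shift)
open Crest.Agent.R116.Xd954 (cs xs FlagX Mrg)
open Crest.Agent.R116.Sg337 (coneL DL natB eL_bx9)
open Crest.Agent.R116.Gd222 (TSet sN PDL DT)
open Crest.Agent.R116.KI439
open Crest.Agent.R116.KF439 (PL)
open Crest.Agent.R116.Tw468 (OutT)
open Crest.Agent.R116.CtxB468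
open Crest.Agent.R116.RbM219
open Crest.Agent.R116.RbK219 (SOk RS)
open Crest.Agent.R116.SgO219 (PP tan_lim tan_ev)
open Crest.Agent.R116.Fz708 (Frz FrzAt)
open Dg262 (SupOn)
open Dg219 (mw)

theorem coneL_PP : coneL = PP (mw monL) := by
  ext c
  exact mem_PP.symm

theorem zero_coneL : (0 : Fin 12 → ℝ) ∈ coneL := by
  intro k e _
  simp

theorem isClosed_coneL : IsClosed coneL := by
  have : coneL = ⋂ k, ⋂ e ∈ monL.mon k, {p : Fin 12 → ℝ | p k ≤ ∑ s, (e s : ℝ) * p s} := by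
    ext p
    simp only [coneL, Set.mem_ofPred_eq, Set.mem_iInter]
  rw [this]
  refine isClosed_iInter fun k => isClosed_biInter fun e _ => ?_
  exact isClosed_le (continuous_apply k)
    (continuous_finsetSum _ fun s _ => continuous_const.mul (continuous_apply s))

theorem lip_of_mono {m : ℕ} {P : Set (Fin m → ℝ)} (hsup : ∀ p ∈ P, ∀ q ∈ P, p ⊔ q ∈ P)
    {f : (Fin m → ℝ) → ℝ}
    (hm : ∀ p ∈ P, ∀ q ∈ P, p ≤ q → 0 ≤ f p - f q ∧ f p - f q ≤ ∑ k, (q k - p k)) :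
    ∀ p ∈ P, ∀ q ∈ P, |f p - f q| ≤ m * dist p q := by
  have key : ∀ p ∈ P, ∀ q ∈ P, f p - f q ≤ m * dist p q := by
    intro p hp q hq
    have h1 := hm p hp _ (hsup p hp q hq) le_sup_left
    have h2 := hm q hq _ (hsup p hp q hq) le_sup_right
    have h3 : ∑ k, ((p ⊔ q) k - p k) ≤ ∑ _k : Fin m, dist p q := by
      refine Finset.sum_le_sum fun k _ => ?_
      rw [Pi.sup_apply]
      have h4 := dist_le_pi_dist p q k
      rw [Real.dist_eq] at h4
      have h5 := abs_le.1 h4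
      rcases le_total (p k) (q k) with h | h
      · rw [sup_eq_right.2 h]; linarith [h5.1]
      · rw [sup_eq_left.2 h, sub_self]; exact dist_nonneg
    rw [Finset.sum_const, Finset.card_univ, Fintype.card_fin, nsmul_eq_mul] at h3
    linarith [h1.2, h2.1]
  intro p hp q hq
  rw [abs_le]
  constructor
  · have := key q hq p hp
    rw [dist_comm] at this
    linarith
  · exact key p hp q hq

theorem leg_near {θa θb w0 sa sb δ R : ℝ} (sh : Shift θa θb w0 sa sb δ R)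
    (hR0 : w0 + (θb + sb) < R) (hR1 : w0 + 1 + sb < R) {v0 : ℝ} (hv0 : 0 ≤ v0) (hv1 : v0 ≤ 1) :
    ∃ r : ℝ, 0 < r ∧ ∀ c ∈ coneL, (∀ k, |c k| ≤ r) → rL θa θb w0 sa sb v0 + c ∈ Leg monL R := by
  set R' : ℝ := max (w0 + (θb + sb)) (w0 + 1 + sb) with hR'
  have hRR : R' < R := max_lt hR0 hR1
  have sh' : Shift θa θb w0 sa sb δ R' :=
    ⟨sh.d0, sh.z, sh.c0, sh.c1, sh.D0, sh.D1, le_max_left _ _, le_max_right _ _⟩
  have h1 := sh'.rL_leg hv0 hv1
  refine ⟨min δ (R - R'), lt_min sh.d0 (by linarith), fun c hc hr => ?_⟩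
  have hb : ∀ k, -δ ≤ c k ∧ c k ≤ R - R' := fun k => by
    have h2 := abs_le.1 (hr k)
    exact ⟨by linarith [min_le_left δ (R - R'), h2.1], by linarith [min_le_right δ (R - R'), h2.2]⟩
  refine ⟨⟨fun k => ?_, fun k e he => ?_⟩, fun k => ?_⟩
  · rw [Pi.add_apply]
    linarith [sh.rL_pos hv0 hv1 k, (hb k).1]
  · rw [Pi.add_apply]
    have h2 := h1.1.wall k e he
    have h3 := hc k e he
    have h4 : ∑ s, (e s : ℝ) * (rL θa θb w0 sa sb v0 + c) s =
        ∑ s, (e s : ℝ) * rL θa θb w0 sa sb v0 s + ∑ s, (e s : ℝ) * c s := by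
      rw [← Finset.sum_add_distrib]
      exact Finset.sum_congr rfl fun s _ => by rw [Pi.add_apply]; ring
    rw [h4]
    linarith
  · rw [Pi.add_apply]
    linarith [h1.2 k, (hb k).2]

/-- `D` is dead along the record, in every tangent at `v0` -/
def DDead (R : ℝ) (ν : (Fin 12 → ℝ) → ℝ) (θa θb w0 sa sb v0 : ℝ) : Prop :=
  ∀ (hh : ℕ → ℝ) (g : (Fin 12 → ℝ) → ℝ), (∀ l, 0 < hh l) → Tendsto hh atTop (𝓝 0) →
    IsTan (Leg monL R) coneL ν (fun _ => rL θa θb w0 sa sb v0) hh g →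
    ∀ t y : ℝ, 0 ≤ y → g (t • βL θa θb + y • (Pi.single 1 1 : Fin 12 → ℝ)) = g (t • βL θa θb)

theorem smul_βL (t θa θb : ℝ) : t • βL θa θb = natB t (-(θa * t)) (-(θb * t)) := by
  rw [← eL_bx9]
  unfold βL
  rw [← PL504.eL_smul]
  congr 1 <;> ring

theorem natB_mem (v c p : ℝ) : natB v c p ∈ coneL := Sg337.natB_cone v c p

theorem single_mem {p : Fin 12 → ℝ} (hp : p ∈ coneL) {y : ℝ} (hy : 0 ≤ y) :
    p + y • (Pi.single 1 1 : Fin 12 → ℝ) ∈ coneL := by
  intro k e he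
  have hk : k ≠ 1 := by
    rintro rfl
    change e ∈ mfL 1 at he
    simp [mfL] at he
  have h1 := hp k e he
  have h2 : (p + y • (Pi.single 1 1 : Fin 12 → ℝ)) k = p k := by
    simp [Pi.single_apply, hk]
  rw [h2]
  refine h1.trans (Finset.sum_le_sum fun s _ => mul_le_mul_of_nonneg_left ?_ (Nat.cast_nonneg _))
  by_cases hs : s = 1
  · subst hs; simp [hy]
  · simp [Pi.single_apply, hs]

/-- from 708's `FrzAt` (`ν' = ν` on the legal set) -/
theorem DDead.of_frzAt {R : ℝ} {ν ν' : (Fin 12 → ℝ) → ℝ} {θa θb w0 sa sb v0 : ℝ}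
    (hF : FrzAt ν' (rL θa θb w0 sa sb 0) (βL θa θb) (Pi.single 1 1) v0)
    (he : ∀ p ∈ Leg monL R, ν' p = ν p) : DDead R ν θa θb w0 sa sb v0 := by
  intro hh g hpos h0 ht t y hy
  have e0 : rL θa θb w0 sa sb v0 = rL θa θb w0 sa sb 0 + v0 • βL θa θb := by
    rw [← rL_add, zero_add]
  rw [e0] at ht
  refine Fz708.frz_tan hF he hpos h0 ht hy ?_ ?_
  · rw [smul_βL]; exact natB_mem _ _ _
  · rw [smul_βL]; exact single_mem (natB_mem _ _ _) hy

/-- `Prf`, D-max and the record identity -/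
structure Rx (L : Set (Fin 12 → ℝ)) (nt : ℝ → ℝ → ℝ → Fin 12 → ℝ) (s : ℝ) (a b : Fin 2)
    (Vis : Fin 12 → Prop) (θa θb g qa qb : ℝ) (lam : (Fin 12 → ℝ) → ℝ) : Prop where
  prf : Prf L s a b Vis (βL θa θb) lam
  dmax : ∀ v c p : ℝ, lam (nt v c p) ≤ DL g s qa qb v c p
  rcd : ∀ t : ℝ, lam (nt t (-(θa * t)) (-(θb * t))) = DL g s qa qb t (-(θa * t)) (-(θb * t))

theorem DL_add (g s qa qb v c p v' c' p' : ℝ) :
    DL g s qa qb (v + v') (c + c') (p + p') = DL g s qa qb v c p + DL g s qa qb v' c' p' := by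
  unfold DL; ring

theorem DL_smul (g s qa qb k v c p : ℝ) :
    DL g s qa qb (k * v) (k * c) (k * p) = k * DL g s qa qb v c p := by
  unfold DL; ring

/-! ### the second tangent, `D` frozen -/

/-- the box with the slot `D` at the level `y` -/
def ntD (y v c p : ℝ) : Fin 12 → ℝ := Function.update (eL v c p) 1 y

theorem ntD_split (y v c p : ℝ) :
    ntD y v c p = natB v c p + (y - (p - 2 * c - v)) • (Pi.single 1 1 : Fin 12 → ℝ) := by
  rw [← eL_bx9]
  funext k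
  unfold ntD
  by_cases hk : k = 1
  · subst hk
    simp [eL]
  · rw [Function.update_of_ne hk]
    simp [Pi.single_apply, hk]

theorem base_ntD {θa θb t ym k y v c p : ℝ} :
    y8 t + ym • r8 θa θb + k • ntD y v c p =
      ntD (t + k * y) (ym + k * v) (-(θa * ym) + k * c) (-(θb * ym) + k * p) := by
  have h1 : ym • eL 1 (-θa) (-θb) = eL ym (-(θa * ym)) (-(θb * ym)) := by
    rw [← PL504.eL_smul]
    congr 1 <;> ring
  funext i
  unfold ntD
  by_cases hi : i = 1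
  · subst hi
    simp [y8, r8]
  · rw [Function.update_of_ne hi]
    simp only [Pi.add_apply, Pi.smul_apply, smul_eq_mul]
    rw [y8_at hi]
    unfold r8
    rw [Function.update_of_ne hi, Function.update_of_ne hi]
    have h2 := congrFun (PL504.eL_add ym (-(θa * ym)) (-(θb * ym)) (k * v) (k * c) (k * p)) i
    rw [h2, Pi.add_apply, ← h1, PL504.eL_smul]
    simp only [Pi.smul_apply, smul_eq_mul]
    ring

theorem base_ntD0 {θa θb t ym : ℝ} :
    y8 t + ym • r8 θa θb = ntD t ym (-(θa * ym)) (-(θb * ym)) := by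
  have h := base_ntD (θa := θa) (θb := θb) (t := t) (ym := ym) (k := 0) (y := 0) (v := 0) (c := 0)
    (p := 0)
  simpa using h

/-- all walls without `D` are equalities on `ntD` -/
theorem ntD_mem {θa θb t : ℝ} (ht : t ≠ 0) (y v c p : ℝ) : ntD y v c p ∈ L8 θa θb t := by
  intro w hw
  obtain ⟨k, e, he⟩ := w
  have hk : k ≠ 1 := kp_hd ⟨k, e, he⟩
  -- the wall is active along the line, so it does not contain `D`
  have h1 : e 1 = 0 := by
    have hx : y8 t k = ∑ s, (e s : ℝ) * y8 t s + 0 := hw.1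
    have h2 : ∑ s, (e s : ℝ) * y8 t s = (e 1 : ℝ) * t := by
      rw [Finset.sum_eq_single (1 : Fin 12)]
      · unfold y8; rw [Function.update_self]
      · intro s _ hs; rw [y8_at hs, mul_zero]
      · intro h; exact absurd (Finset.mem_univ _) h
    rw [y8_at hk, h2, add_zero] at hx
    rcases mul_eq_zero.1 hx.symm with h | h
    · exact_mod_cast h
    · exact absurd h ht
  change ntD y v c p k ≤ ∑ s, (e s : ℝ) * ntD y v c p s
  unfold ntD
  rw [Function.update_of_ne hk, ← PL504.eL_wall v c p k he]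
  refine Finset.sum_le_sum fun s _ => ?_
  by_cases hs : s = 1
  · subst hs; rw [h1]; simp
  · rw [Function.update_of_ne hs]

section second

variable {s : ℝ} {a b : Fin 2} {Vis : Fin 12 → Prop} {θa θb g qa qb t ξ : ℝ}
    {G lam : (Fin 12 → ℝ) → ℝ} {y k : ℕ → ℝ}

/-- values of the first tangent on boxes with `D` finer than natural -/
theorem G_ntD_le (hG : Prf coneL s a b Vis (βL θa θb) G)
    (hD : ∀ v c p : ℝ, G (natB v c p) ≤ DL g s qa qb v c p) {y v c p : ℝ}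
    (hy : p - 2 * c - v ≤ y) : G (ntD y v c p) ≤ DL g s qa qb v c p := by
  refine le_trans ?_ (hD v c p)
  have h1 : ntD y v c p ∈ coneL := by
    rw [ntD_split]; exact single_mem (natB_mem _ _ _) (by linarith)
  have h2 := (hG.anti _ (natB_mem v c p) _ h1 (by
    rw [ntD_split]
    intro i
    simp only [Pi.add_apply, Pi.smul_apply, smul_eq_mul]
    have : 0 ≤ (y - (p - 2 * c - v)) * (Pi.single 1 1 : Fin 12 → ℝ) i := by
      refine mul_nonneg (by linarith) ?_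
      by_cases hi : i = 1
      · subst hi; simp
      · simp [Pi.single_apply, hi]
    linarith)).1
  linarith

theorem G_ntD_rec (hR : ∀ t : ℝ, G (natB t (-(θa * t)) (-(θb * t))) =
      DL g s qa qb t (-(θa * t)) (-(θb * t)))
    (hfz : ∀ t y : ℝ, 0 ≤ y → G (t • βL θa θb + y • (Pi.single 1 1 : Fin 12 → ℝ)) =
      G (t • βL θa θb)) {y τ : ℝ} (hy : τ * (2 * θa - θb - 1) ≤ y) :
    G (ntD y τ (-(θa * τ)) (-(θb * τ))) = DL g s qa qb τ (-(θa * τ)) (-(θb * τ)) := by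
  rw [ntD_split, ← smul_βL, hfz _ _ (by nlinarith), smul_βL]
  exact hR τ

/-- **the second tangent, `D` frozen** -/
theorem rx8 (hG : Prf coneL s a b Vis (βL θa θb) G)
    (hD : ∀ v c p : ℝ, G (natB v c p) ≤ DL g s qa qb v c p)
    (hR : ∀ t : ℝ, G (natB t (-(θa * t)) (-(θb * t))) = DL g s qa qb t (-(θa * t)) (-(θb * t)))
    (hfz : ∀ t y : ℝ, 0 ≤ y → G (t • βL θa θb + y • (Pi.single 1 1 : Fin 12 → ℝ)) =
      G (t • βL θa θb)) (hV1 : ¬ Vis 1) (ht0 : 0 < t) (hξ : ξ * (2 * θa - θb - 1) < t)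
    (hy : Tendsto y atTop (𝓝 ξ)) (hpos : ∀ m, 0 < k m) (hk0 : Tendsto k atTop (𝓝 0))
    (ht : IsTan (PP (mw monL)) (L8 θa θb t) G (fun m => y8 t + y m • r8 θa θb) k lam) :
    Rx (L8 θa θb t) (ntD 0) s a b Vis θa θb g qa qb lam ∧
      (∀ z v c p : ℝ, lam (ntD z v c p) ≤ DL g s qa qb v c p) ∧
      ∀ z τ : ℝ, lam (ntD z τ (-(θa * τ)) (-(θb * τ))) =
        DL g s qa qb τ (-(θa * τ)) (-(θb * τ)) := by
  have ht' : IsTan coneL (L8 θa θb t) G (fun m => y8 t + y m • r8 θa θb) k lam := by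
    rw [coneL_PP]; exact ht
  have hev : ∀ᶠ m in atTop, y m * (2 * θa - θb - 1) < t :=
    (hy.mul_const _).eventually_lt_const hξ
  have h0L : (0 : Fin 12 → ℝ) ∈ L8 θa θb t := by
    have h := ntD_mem (θa := θa) (θb := θb) ht0.ne' 0 0 0 0
    have e : ntD 0 0 0 0 = 0 := by
      funext i
      unfold ntD
      by_cases hi : i = 1
      · subst hi; simp
      · rw [Function.update_of_ne hi]
        fin_cases i <;> simp [eL]
    rwa [e] at h
  have hz := Sg337.tan_zero hpos ht' h0L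
  have hβ1 : βL θa θb 1 = 2 * θa - θb - 1 := by
    show -θb - 2 * -θa - 1 = _
    ring
  have hlim : ∀ z v c p : ℝ, Tendsto (fun m => (G (ntD (t + k m * z) (y m + k m * v)
      (-(θa * y m) + k m * c) (-(θb * y m) + k m * p)) -
      G (ntD t (y m) (-(θa * y m)) (-(θb * y m)))) / k m) atTop (𝓝 (lam (ntD z v c p))) := by
    intro z v c p
    have h1 := tan_lim hpos ht' (ntD_mem ht0.ne' z v c p) h0L
    rw [hz, sub_zero] at h1
    refine h1.congr fun m => ?_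
    rw [smul_zero, add_zero, base_ntD, base_ntD0]
  have hnat : ∀ z v c p : ℝ, ∀ᶠ m in atTop, (-(θb * y m) + k m * p) - 2 * (-(θa * y m) + k m * c) -
      (y m + k m * v) ≤ t + k m * z := by
    intro z v c p
    have h1 : Tendsto (fun m => (-(θb * y m) + k m * p) - 2 * (-(θa * y m) + k m * c) -
        (y m + k m * v) - k m * z) atTop (𝓝 (ξ * (2 * θa - θb - 1))) := by
      have e1 := ((((hy.const_mul θb).neg.add (hk0.mul_const p)).sub
        (((hy.const_mul θa).neg.add (hk0.mul_const c)).const_mul 2)).sub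
        (hy.add (hk0.mul_const v))).sub (hk0.mul_const z)
      refine (e1.congr fun m => by ring).trans (le_of_eq ?_)
      congr 1; ring
    filter_upwards [h1.eventually_lt_const hξ] with m hm
    linarith
  have hbase : ∀ᶠ m in atTop, G (ntD t (y m) (-(θa * y m)) (-(θb * y m))) =
      DL g s qa qb (y m) (-(θa * y m)) (-(θb * y m)) :=
    hev.mono fun m hm => G_ntD_rec hR hfz hm.le
  have hdm : ∀ z v c p : ℝ, lam (ntD z v c p) ≤ DL g s qa qb v c p := by
    intro z v c p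
    refine le_of_tendsto (hlim z v c p) ?_
    filter_upwards [hnat z v c p, hbase] with m h1 h2
    have h3 := G_ntD_le hG hD h1
    rw [h2, div_le_iff₀ (hpos m)]
    rw [DL_add, DL_smul] at h3
    linarith
  have hrc : ∀ z τ : ℝ, lam (ntD z τ (-(θa * τ)) (-(θb * τ))) =
      DL g s qa qb τ (-(θa * τ)) (-(θb * τ)) := by
    intro z τ
    refine tendsto_nhds_unique (hlim z τ (-(θa * τ)) (-(θb * τ))) ?_
    refine tendsto_const_nhds.congr' ?_
    filter_upwards [hnat z τ (-(θa * τ)) (-(θb * τ)), hbase] with m h1 h2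
    have e1 : -(θa * y m) + k m * (-(θa * τ)) = -(θa * (y m + k m * τ)) := by ring
    have e2 : -(θb * y m) + k m * (-(θb * τ)) = -(θb * (y m + k m * τ)) := by ring
    rw [h2, e1, e2, G_ntD_rec hR hfz (by rw [e1, e2] at h1; linarith), eq_div_iff (hpos m).ne',
      ← e1, ← e2, DL_add, DL_smul]
    ring
  refine ⟨⟨?_, fun v c p => hdm 0 v c p, fun τ => hrc 0 τ⟩, hdm, hrc⟩
  have hbr : ∀ i : Fin 12, i ≠ 1 → ∀ m, (y8 t + y m • r8 θa θb) i = y m * βL θa θb i := by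
    intro i hi m
    simp only [Pi.add_apply, Pi.smul_apply, smul_eq_mul]
    rw [y8_at hi]
    unfold r8
    rw [Function.update_of_ne hi, zero_add]
    rfl
  have hcs : ∀ c : Fin 2, cs c ≠ 1 := by intro c; fin_cases c <;> decide
  have hxs : ∀ c : Fin 2, xs c ≠ 1 := by intro c; fin_cases c <;> decide
  refine hG.tan (Vis' := Vis) hpos hk0 ht' (fun m => ?_) (fun m => ?_) (fun i hi => Or.inl
    ⟨hi, fun m => ?_⟩)
  · rw [hbr _ (hcs b), hbr _ (hcs a)]
    congr 1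
    fin_cases a <;> fin_cases b <;> rfl
  · rw [hbr _ (hxs b), hbr _ (hxs a)]
    congr 1
    fin_cases a <;> fin_cases b <;> rfl
  · have hi1 : i ≠ 1 := by rintro rfl; exact hV1 hi
    rw [hbr i hi1, hbr 0 (by decide)]
    have e0 : βL θa θb 0 = 1 := rfl
    rw [e0, mul_one]

/-- **the second tangent, `D` live** -/
theorem rx9 (hG : Prf coneL s a b Vis (βL θa θb) G)
    (hD : ∀ v c p : ℝ, G (natB v c p) ≤ DL g s qa qb v c p)
    (hR : ∀ t : ℝ, G (natB t (-(θa * t)) (-(θb * t))) = DL g s qa qb t (-(θa * t)) (-(θb * t)))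
    (hpos : ∀ m, 0 < k m) (hk0 : Tendsto k atTop (𝓝 0))
    (ht : IsTan (PP (mw monL)) (PP (mw monL)) G (fun m => y m • r9 θa θb) k lam) :
    Rx coneL eL s a b Vis θa θb g qa qb lam := by
  have ht' : IsTan coneL coneL G (fun m => y m • r9 θa θb) k lam := by
    rw [coneL_PP]; exact ht
  have hz := Sg337.tan_zero hpos ht' zero_coneL
  have hb : ∀ m, y m • r9 θa θb = natB (y m) (-(θa * y m)) (-(θb * y m)) := fun m =>
    smul_βL _ _ _
  have hadd : ∀ m (v c p : ℝ), y m • r9 θa θb + k m • eL v c p =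
      natB (y m + k m * v) (-(θa * y m) + k m * c) (-(θb * y m) + k m * p) := by
    intro m v c p
    rw [hb, ← eL_bx9, ← eL_bx9, PL504.eL_add, PL504.eL_smul]
  have hmem : ∀ v c p : ℝ, eL v c p ∈ coneL := fun v c p => by
    rw [eL_bx9]; exact natB_mem _ _ _
  have hlim : ∀ v c p : ℝ, Tendsto (fun m => (G (natB (y m + k m * v)
      (-(θa * y m) + k m * c) (-(θb * y m) + k m * p)) -
      G (natB (y m) (-(θa * y m)) (-(θb * y m)))) / k m) atTop (𝓝 (lam (eL v c p))) := by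
    intro v c p
    have h1 := tan_lim hpos ht' (hmem v c p) zero_coneL
    rw [hz, sub_zero] at h1
    refine h1.congr fun m => ?_
    rw [smul_zero, add_zero, hadd, hb]
  refine ⟨?_, fun v c p => ?_, fun τ => ?_⟩
  · have hbr : ∀ (i : Fin 12) m, (y m • r9 θa θb) i = y m * βL θa θb i := fun i m => rfl
    refine hG.tan (Vis' := Vis) hpos hk0 ht' (fun m => ?_) (fun m => ?_) (fun i hi => Or.inl
      ⟨hi, fun m => ?_⟩)
    · rw [hbr, hbr]
      congr 1
      fin_cases a <;> fin_cases b <;> rfl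
    · rw [hbr, hbr]
      congr 1
      fin_cases a <;> fin_cases b <;> rfl
    · rw [hbr, hbr]
      have e0 : βL θa θb 0 = 1 := rfl
      rw [e0, mul_one]
  · refine le_of_tendsto (hlim v c p) (Eventually.of_forall fun m => ?_)
    have h3 := hD (y m + k m * v) (-(θa * y m) + k m * c) (-(θb * y m) + k m * p)
    rw [hR, div_le_iff₀ (hpos m)]
    rw [DL_add, DL_smul] at h3
    linarith
  · refine tendsto_nhds_unique (hlim τ (-(θa * τ)) (-(θb * τ))) ?_
    refine tendsto_const_nhds.congr' (Eventually.of_forall fun m => ?_)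
    have e1 : -(θa * y m) + k m * (-(θa * τ)) = -(θa * (y m + k m * τ)) := by ring
    have e2 : -(θb * y m) + k m * (-(θb * τ)) = -(θb * (y m + k m * τ)) := by ring
    beta_reduce
    rw [hR, e1, e2, hR, eq_div_iff (hpos m).ne', ← e1, ← e2, DL_add, DL_smul]
    ring

end second

end Crest.Agent.R116.Rcx363
end

-- ▼ part R116/Rcx3_363

/-!
# R116 (K side, TIES), the producer, part 3 (helper363)

* `first_tan`  : tangents of `ν`, `own` at the record point `v0`, on the cone of all walls;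
* `Out8`, `Out9` : the complete output;  **`recx8`** (`D` frozen), **`recx9`** (`D` live);
* `strict_ctx` : a context with room above.
-/

set_option autoImplicit false
set_option linter.unusedVariables false

open Set Filter Topology MeasureTheory

namespace Crest.Agent.R116.Rcx363

open Crest.Agent.R138.Ex926 (Base U IsTan)
open Crest.Agent.R136
open Crest.Agent.R136.MkA627
open Crest.Agent.R136.TD627
open Crest.Agent.R136.Net191
open Crest.Agent.R136.Lq196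
open Crest.Agent.R116.ChL222
open Crest.Agent.R116.PL504 (nb rL DN eL βL oL Shift)
open Crest.Agent.R116.Xd954 (cs xs FlagX Mrg)
open Crest.Agent.R116.Sg337 (coneL DL natB eL_bx9)
open Crest.Agent.R116.Gd222 (TSet sN PDL DT)
open Crest.Agent.R116.KI439
open Crest.Agent.R116.KF439 (PL)
open Crest.Agent.R116.Tw468 (OutT)
open Crest.Agent.R116.CtxB468
open Crest.Agent.R116.RbM219
open Crest.Agent.R116.RbK219 (SOk RS)
open Crest.Agent.R116.SgO219 (PP tan_lim tan_ev)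
open Dg262 (SupOn)
open Dg219 (mw)
open Sl741 (slice xt rs)

/-- the pair `(ν, own)` -/
def fo (ν own : (Fin 12 → ℝ) → ℝ) : Fin 2 → (Fin 12 → ℝ) → ℝ := ![ν, own]

section ctx

variable {G : Geo TSet (Fin 2)} {L : ℕ → ℕ → LRay} {r : ℕ → ℝ} {g s : ℝ} {θ q : Fin 2 → ℝ}
    {Rg : ℝ} {B : Base} {I : ℕ → Finset (ℕ × ℝ)} {lev : ℕ → ℚ → ℕ} {A : ℕ → ℝ}
    {f : ℕ → ℚ → ℕ → ℤ → ℕ} {b : ℕ → ℚ → ℕ → TSet} {vm : ℕ → ℚ → ℝ} {w : Fin 2 → ℕ → ℚ → ℝ}
    {fr : ℕ → ℚ → ℕ × ℝ → LInc} {fl : ℕ → ℕ × ℝ → LInc} {sc : Fin 12 → ℕ → ℝ}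
    {w0 sa sb δ R : ℝ} {I0 I' : ℕ → Finset (ℕ × ℝ)} {ν own : (Fin 12 → ℝ) → ℝ} {c₀ : ℝ}

/-- **a context with room above** -/
theorem strict_ctx
    (h : CtxT G L r g s θ q Rg B I lev A f b vm w fr fl sc w0 sa sb δ R I0 I' ν own c₀) :
    ∃ (w0 sa sb δ R : ℝ) (I0 I' : ℕ → Finset (ℕ × ℝ)) (ν own : (Fin 12 → ℝ) → ℝ) (c₀ : ℝ),
      CtxT G L r g s θ q Rg B I lev A f b vm w fr fl sc w0 sa sb δ R I0 I' ν own c₀ ∧
        w0 + (θ 1 + sb) < R ∧ w0 + 1 + sb < R := by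
  have sh := h.sh
  have sh' : Shift (θ 0) (θ 1) w0 sa sb δ (R + 1) :=
    ⟨sh.d0, sh.z, sh.c0, sh.c1, sh.D0, sh.D1, by linarith [sh.R0], by linarith [sh.R1]⟩
  obtain ⟨I0, I', ν, own, c₀, C⟩ := h.out.ctx h.Rg0 sh'
  exact ⟨w0, sa, sb, δ, R + 1, I0, I', ν, own, c₀, C, by linarith [sh.R0], by linarith [sh.R1]⟩

theorem own_mono
    (h : CtxT G L r g s θ q Rg B I lev A f b vm w fr fl sc w0 sa sb δ R I0 I' ν own c₀) :
    ∀ p ∈ Leg monL R, ∀ q ∈ Leg monL R, p ≤ q →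
      0 ≤ own p - own q ∧ own p - own q ≤ ∑ k, (q k - p k) := by
  intro p hp q hq hpq
  refine ⟨?_, (h.ext.own_le p hp q hq hpq).trans (h.ext.lip p hp q hq hpq).2⟩
  have := own_anti h.ext.oprof h.ext.ne hq hp hpq
  linarith

theorem fo_lip
    (h : CtxT G L r g s θ q Rg B I lev A f b vm w fr fl sc w0 sa sb δ R I0 I' ν own c₀) (j : Fin 2) :
    ∀ p ∈ Leg monL R, ∀ q ∈ Leg monL R, |fo ν own j p - fo ν own j q| ≤ (12:ℝ) * dist p q := by
  have hs : ∀ p ∈ Leg monL R, ∀ q ∈ Leg monL R, p ⊔ q ∈ Leg monL R := fun p hp q hq => Leg.sup hp hq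
  fin_cases j
  · exact lip_of_mono (m := 12) hs h.ext.lip
  · exact lip_of_mono (m := 12) hs (own_mono h)

/-- **tangents at the record point** -/
theorem first_tan
    (h : CtxT G L r g s θ q Rg B I lev A f b vm w fr fl sc w0 sa sb δ R I0 I' ν own c₀)
    (hR0 : w0 + (θ 1 + sb) < R) (hR1 : w0 + 1 + sb < R) {v0 : ℝ} (hv0 : 0 ≤ v0) (hv1 : v0 ≤ 1)
    {hh : ℕ → ℝ} (hpos : ∀ l, 0 < hh l) (hh0 : Tendsto hh atTop (𝓝 0)) :
    ∃ φ : ℕ → ℕ, StrictMono φ ∧ ∃ g1 : Fin 2 → (Fin 12 → ℝ) → ℝ, ∀ j,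
      IsTan (Leg monL R) coneL (fo ν own j) (fun _ => rL (θ 0) (θ 1) w0 sa sb v0)
        (fun l => hh (φ l)) (g1 j) := by
  obtain ⟨ρ, hρ, hleg⟩ := leg_near h.sh hR0 hR1 hv0 hv1
  have h1 := Rc683.exists_tan (J := Fin 2) (P := fun _ => Leg monL R) (D := fun _ => coneL)
    (fun _ => isClosed_coneL) (ν := fo ν own) (K := 12) (by norm_num)
    (fun j p hp q hq => by rw [← dist_eq_norm]; exact fo_lip h j p hp q hq)
    (x := fun _ => rL (θ 0) (θ 1) w0 sa sb v0) hpos (fun j C => by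
      have h2 : Tendsto (fun l => hh l * |C|) atTop (𝓝 0) := by
        have := hh0.mul_const |C|
        simpa using this
      filter_upwards [h2.eventually_lt_const hρ] with l hl c hc hcC
      refine hleg _ ?_ fun k => ?_
      · rw [coneL_PP] at hc ⊢
        intro w
        have h3 := hc w
        have h4 := mul_le_mul_of_nonneg_left h3 (hpos l).le
        simp only [Pi.smul_apply, smul_eq_mul]
        refine h4.trans (le_of_eq ?_)
        have e0 : (mw monL).cst w = 0 := rfl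
        rw [e0, add_zero, add_zero]
        show hh l * ∑ s, _ = ∑ s, _
        rw [Finset.mul_sum]
        exact Finset.sum_congr rfl fun s _ => by
          simp only [Pi.smul_apply, smul_eq_mul]; ring
      · rw [Pi.smul_apply, smul_eq_mul, abs_mul, abs_of_pos (hpos l)]
        have h5 := norm_le_pi_norm c k
        rw [Real.norm_eq_abs] at h5
        have h6 : |c k| ≤ |C| := h5.trans (hcC.trans (le_abs_self C))
        exact (mul_le_mul_of_nonneg_left h6 (hpos l).le).trans hl.le)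
    (fun _ => zero_coneL)
  exact h1

/-- the first tangent of `ν` : `Prf`, D-max, record -/
theorem first_prf
    (h : CtxT G L r g s θ q Rg B I lev A f b vm w fr fl sc w0 sa sb δ R I0 I' ν own c₀)
    (hR0 : w0 + (θ 1 + sb) < R) (hR1 : w0 + 1 + sb < R) (hθ : 0 < θ 0)
    (hRg : θ 0 + |θ 1| < Rg) {a b' : Fin 2}
    (hX : ∀ κ0 : ℝ, FlagX B I' lev fl (sN lev w) κ0 0 a b')
    {v0 : ℝ} (hv0 : 0 < v0) (hv1 : v0 < 1) {hh : ℕ → ℝ} (hpos : ∀ l, 0 < hh l)
    (hh0 : Tendsto hh atTop (𝓝 0)) {g1 : (Fin 12 → ℝ) → ℝ}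
    (ht : IsTan (Leg monL R) coneL ν (fun _ => rL (θ 0) (θ 1) w0 sa sb v0) hh g1) :
    Prf coneL s a b' (VisT B I fl sc) (βL (θ 0) (θ 1)) g1 ∧
      (∀ v x y : ℝ, g1 (natB v x y) ≤ DL g s (q 0) (q 1) v x y) ∧
      ∀ t : ℝ, g1 (natB t (-(θ 0 * t)) (-(θ 1 * t))) =
        DL g s (q 0) (q 1) t (-(θ 0 * t)) (-(θ 1 * t)) := by
  have h1v : 0 < 1 - v0 := by linarith
  have hθt : 0 < θ 0 * (1 - v0) := mul_pos hθ h1v
  set κ0 : ℝ := θ 0 + |θ 1| + 1 with hκ0
  have h1 : |θ 1 * (1 - v0)| ≤ |θ 1| := by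
    rw [abs_mul, abs_of_pos h1v]
    nlinarith [abs_nonneg (θ 1)]
  have h1' := abs_le.1 h1
  have h2 : θ 0 * (1 - v0) ≤ θ 0 := by nlinarith
  refine ⟨?_, ?_⟩
  · refine prf_of (h.extK κ0) (hX κ0) (fun v _ _ => oz _ v) (fun v _ _ k hk hv => ?_)
      (fun v _ _ k hv => ?_) hv0 hv1 hθt (by linarith [h1'.1]) (by linarith) hpos hh0 ht
    · exact (oR hk hv v).ge
    · rw [oV hv v]
  · obtain ⟨ρ, hρ, hleg⟩ := leg_near h.sh hR0 hR1 hv0.le hv1.le
    set κ : ℝ := min (min (ρ / 4) (min v0 (1 - v0))) (min (θ 0 * (1 - v0) / 2)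
      (min ((Rg - θ 0 - |θ 1|) / 2) (1 / 4))) with hκ
    have hRg' : 0 < Rg - θ 0 - |θ 1| := by linarith
    have hκp : 0 < κ := by
      refine lt_min (lt_min (by linarith) (lt_min hv0 h1v)) (lt_min (by linarith)
        (lt_min (by linarith) (by norm_num)))
    have b1 : κ ≤ ρ / 4 := (min_le_left _ _).trans (min_le_left _ _)
    have b2 : κ ≤ v0 := (min_le_left _ _).trans ((min_le_right _ _).trans (min_le_left _ _))
    have b3 : κ ≤ 1 - v0 := (min_le_left _ _).trans ((min_le_right _ _).trans (min_le_right _ _))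
    have b4 : κ ≤ θ 0 * (1 - v0) / 2 := (min_le_right _ _).trans (min_le_left _ _)
    have b5 : κ ≤ (Rg - θ 0 - |θ 1|) / 2 :=
      (min_le_right _ _).trans ((min_le_right _ _).trans (min_le_left _ _))
    have b6 : κ ≤ 1 / 4 := (min_le_right _ _).trans ((min_le_right _ _).trans (min_le_right _ _))
    have hE : ExtQ B I0 I' (Gd222.coN B lev fl (sN lev w) w0 sa sb) monL 2 R 0 w0 s
        (PDL w0 sa sb Rg 0 κ0 R) (DT g s q θ w0 sa sb) (rL (θ 0) (θ 1) w0 sa sb)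
        (oL (θ 0) (θ 1) w0 sa sb R (VisT B I fl sc)) (Tw468.EL θ g s q) (TdT θ B I lev fl sc)
        ν own c₀ := h.extK κ0
    refine Sg337.dmaxL_of hE (DT_nb) (fun v _ _ => EL_DN v) hv0 hv1 hκp
      (fun v a b n1 n2 n3 => ?_) hpos hh0 ht
    have m1 := abs_le.1 n1
    have m2 := abs_le.1 n2
    have m3 := abs_le.1 n3
    refine nb_PD ?_ (by linarith [m1.1]) (by linarith [m1.2]) (by linarith [m2.1]) ?_ ?_ ?_
    · have e : nb w0 sa sb v a b = rL (θ 0) (θ 1) w0 sa sb v0 +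
          eL (v - v0) (a - θ 0 * (1 - v0)) (b - θ 1 * (1 - v0)) := by
        rw [PL504.rL_nb, ← PL504.nb_add]
        congr 1 <;> ring
      rw [e]
      refine hleg _ (by rw [eL_bx9]; exact natB_mem _ _ _) fun k => ?_
      rw [abs_le]
      fin_cases k <;> simp [eL] <;> constructor <;> linarith [m1.1, m1.2, m2.1, m2.2, m3.1, m3.2]
    · linarith [m2.2]
    · rw [abs_lt]
      constructor <;> linarith [m3.1, m3.2, h1'.1, h1'.2, abs_nonneg (θ 1)]
    · linarith [m2.2, m3.1, h1'.1, h1'.2]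

/-- **output, `D` frozen** -/
structure Out8 (R s : ℝ) (a b : Fin 2) (Vis : Fin 12 → Prop) (θa θb g qa qb t : ℝ) {T : Type*}
    (B : T → Fin 8 → ℝ) (sg : T → ℝ) (x0 : Fin 12 → ℝ) (f : Fin 2 → (Fin 12 → ℝ) → ℝ)
    (x : ℕ → Fin 12 → ℝ) (hh : ℕ → ℝ) (lam : Fin 2 → (Fin 12 → ℝ) → ℝ) : Prop where
  pos : ∀ m, 0 < hh m
  lim : Tendsto hh atTop (𝓝 0)
  base : ∃ (H y : ℕ → ℝ) (ξ : ℝ), (∀ m, 0 < H m) ∧ Tendsto H atTop (𝓝 0) ∧
    Tendsto y atTop (𝓝 ξ) ∧ ξ * (2 * θa - θb - 1) < t ∧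
    ∀ m, x m = x0 + H m • (y8 t + y m • r8 θa θb)
  xlim : Tendsto x atTop (𝓝 x0)
  tan : ∀ j, IsTan (Leg monL R) (L8 θa θb t) (f j) x hh (lam j)
  lip : ∀ j, ∀ p ∈ L8 θa θb t, ∀ q ∈ L8 θa θb t, |lam j p - lam j q| ≤ (12:ℝ) * dist p q
  zero : ∀ j, lam j 0 = 0
  surf : ∀ i, ∃ c0 : ℝ, 0 < c0 ∧ (srf8 θa θb t (B i) (sg i)).LW (Q8 t) c0 ⊆
      (Q8 t).L (rs kp (y8 t)) (rs kp (r8 θa θb)) 0 ∧
    Rec8 θa θb t (B i) (sg i) c0 (lam 0) ∧ ∃ ρ, Rates8 θa θb t (B i) (sg i) c0 (lam 0) ρ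
  rx : Rx (L8 θa θb t) (ntD 0) s a b Vis θa θb g qa qb (lam 0)
  dmaxD : ∀ z v c p : ℝ, lam 0 (ntD z v c p) ≤ DL g s qa qb v c p
  recD : ∀ z τ : ℝ, lam 0 (ntD z τ (-(θa * τ)) (-(θb * τ))) =
    DL g s qa qb τ (-(θa * τ)) (-(θb * τ))

/-- **output, `D` live** -/
structure Out9 (R s : ℝ) (a b : Fin 2) (Vis : Fin 12 → Prop) (θa θb g qa qb : ℝ) {T : Type*}
    (B : T → Fin 9 → ℝ) (sg : T → ℝ) (x0 : Fin 12 → ℝ) (f : Fin 2 → (Fin 12 → ℝ) → ℝ)
    (x : ℕ → Fin 12 → ℝ) (hh : ℕ → ℝ) (lam : Fin 2 → (Fin 12 → ℝ) → ℝ) : Prop where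
  pos : ∀ m, 0 < hh m
  lim : Tendsto hh atTop (𝓝 0)
  base : ∃ (H y : ℕ → ℝ) (ξ : ℝ), (∀ m, 0 < H m) ∧ Tendsto H atTop (𝓝 0) ∧
    Tendsto y atTop (𝓝 ξ) ∧ ∀ m, x m = x0 + H m • (y m • r9 θa θb)
  xlim : Tendsto x atTop (𝓝 x0)
  tan : ∀ j, IsTan (Leg monL R) coneL (f j) x hh (lam j)
  lip : ∀ j, ∀ p ∈ coneL, ∀ q ∈ coneL, |lam j p - lam j q| ≤ (12:ℝ) * dist p q
  zero : ∀ j, lam j 0 = 0
  surf : ∀ i, ∃ c0 : ℝ, 0 < c0 ∧ (srf9 θa θb (B i) (sg i)).LW (mw monL) c0 ⊆ PP (mw monL) ∧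
    Rec9 θa θb (B i) (sg i) c0 (lam 0) ∧ ∃ ρ, Rates9 θa θb (B i) (sg i) c0 (lam 0) ρ
  rx : Rx coneL eL s a b Vis θa θb g qa qb (lam 0)

theorem base_lim {x0 u v : Fin 12 → ℝ} {H y : ℕ → ℝ} {ξ : ℝ} (hH : Tendsto H atTop (𝓝 0))
    (hy : Tendsto y atTop (𝓝 ξ)) : Tendsto (fun m => x0 + H m • (u + y m • v)) atTop (𝓝 x0) := by
  have h1 : Tendsto (fun m => x0 + H m • (u + y m • v)) atTop (𝓝 (x0 + (0:ℝ) • (u + ξ • v))) :=
    (hH.smul ((hy.smul_const v).const_add u)).const_add x0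
  rwa [zero_smul, add_zero] at h1

/-- **THE PRODUCER, `D` frozen at the level `t`** -/
theorem recx8
    (h : CtxT G L r g s θ q Rg B I lev A f b vm w fr fl sc w0 sa sb δ R I0 I' ν own c₀)
    (hR0 : w0 + (θ 1 + sb) < R) (hR1 : w0 + 1 + sb < R) (hθ : 0 < θ 0)
    (hRg : θ 0 + |θ 1| < Rg) {a b' : Fin 2}
    (hX : ∀ κ0 : ℝ, FlagX B I' lev fl (sN lev w) κ0 0 a b')
    {v0 : ℝ} (hv0 : 0 < v0) (hv1 : v0 < 1) (hD : DDead R ν (θ 0) (θ 1) w0 sa sb v0)
    (hV1 : InvT PL B I 1 fl (sc 1)) {t : ℝ} (ht0 : 0 < t) {T : Type*} [Countable T]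
    {Bs : T → Fin 8 → ℝ} {sg : T → ℝ}
    (hS : ∀ i, SOk (nat8 1 (-(θ 0)) (-(θ 1))) (Bs i) (sg i)) (hB : ∀ i, Leg8 (Bs i)) :
    ∃ x hh lam, Out8 R s a b' (VisT B I fl sc) (θ 0) (θ 1) g (q 0) (q 1) t Bs sg
      (rL (θ 0) (θ 1) w0 sa sb v0) (fo ν own) x hh lam := by
  set hh : ℕ → ℝ := fun l => 1 / ((l : ℝ) + 1) with hhh
  have hpos : ∀ l, 0 < hh l := fun l => by rw [hhh]; positivity
  have hh0 : Tendsto hh atTop (𝓝 0) := tendsto_one_div_add_atTop_nhds_zero_nat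
  obtain ⟨φ, hφ, g1, hg1⟩ := first_tan h hR0 hR1 hv0.le hv1.le hpos hh0
  have hpos' : ∀ l, 0 < hh (φ l) := fun l => hpos _
  have hh0' : Tendsto (fun l => hh (φ l)) atTop (𝓝 0) := hh0.comp hφ.tendsto_atTop
  obtain ⟨hP, hDm, hRc⟩ := first_prf h hR0 hR1 hθ hRg hX hv0 hv1 hpos' hh0' (g1 := g1 0) (hg1 0)
  have hfz := hD _ _ hpos' hh0' (hg1 0)
  have hg1' : ∀ j, IsTan (Leg monL R) (PP (mw monL)) (fo ν own j)
      (fun _ => rL (θ 0) (θ 1) w0 sa sb v0) (fun l => hh (φ l)) (g1 j) := fun j => by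
    rw [← coneL_PP]; exact hg1 j
  have hlip1 : ∀ j, ∀ p ∈ PP (mw monL), ∀ q ∈ PP (mw monL), |g1 j p - g1 j q| ≤ (12:ℝ) * dist p q :=
    fun j => SgO219.tan_lip hpos' (hg1' j) (fo_lip h j)
  have hae := ae_rates8 hpos' hg1' (j0 := (0 : Fin 2)) (K := 12) (by norm_num) hlip1
    (by rw [← coneL_PP]; exact hP.anti) (by rw [← coneL_PP]; exact hP.sm) ht0 hS hB
  -- a point
  have hex : ∃ ξ : ℝ, ξ * (2 * θ 0 - θ 1 - 1) < t ∧ (ξ * (2 * θ 0 - θ 1 - 1) < t →
      ∃ c0 : T → ℝ, (∀ s, 0 < c0 s) ∧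
      (∀ s, (srf8 (θ 0) (θ 1) t (Bs s) (sg s)).LW (Q8 t) (c0 s) ⊆
        (Q8 t).L (rs kp (y8 t)) (rs kp (r8 (θ 0) (θ 1))) 0) ∧
      ∀ k : ℕ → ℝ, (∀ l, 0 < k l) → Tendsto k atTop (𝓝 0) →
      ∃ (y k' : ℕ → ℝ) (ψ : ℕ → ℕ) (lam : Fin 2 → (Fin 12 → ℝ) → ℝ), Tendsto y atTop (𝓝 ξ) ∧
        (∀ m, 0 < k' m) ∧ Tendsto k' atTop (𝓝 0) ∧ StrictMono ψ ∧
        (∀ j, IsTan (PP (mw monL)) (L8 (θ 0) (θ 1) t) (g1 j)
          (fun m => y8 t + y m • r8 (θ 0) (θ 1)) k' (lam j)) ∧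
        (∀ j, IsTan (Leg monL R) (L8 (θ 0) (θ 1) t) (fo ν own j)
          (fun m => rL (θ 0) (θ 1) w0 sa sb v0 + hh (φ (ψ m)) • (y8 t + y m • r8 (θ 0) (θ 1)))
          (fun m => hh (φ (ψ m)) * k' m) (lam j)) ∧
        ∀ s, Rec8 (θ 0) (θ 1) t (Bs s) (sg s) (c0 s) (lam 0) ∧
          ∃ ρ, Rates8 (θ 0) (θ 1) t (Bs s) (sg s) (c0 s) (lam 0) ρ) := by
    have hop : IsOpen {ξ : ℝ | ξ * (2 * θ 0 - θ 1 - 1) < t} :=
      isOpen_lt (continuous_id.mul continuous_const) continuous_const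
    have hne : (0:ℝ) ∈ {ξ : ℝ | ξ * (2 * θ 0 - θ 1 - 1) < t} := by simpa using ht0
    have hpm : 0 < volume {ξ : ℝ | ξ * (2 * θ 0 - θ 1 - 1) < t} :=
      hop.measure_pos volume ⟨0, hne⟩
    by_contra hcon
    have h0 : volume {ξ : ℝ | ξ * (2 * θ 0 - θ 1 - 1) < t} ≤ 0 := by
      rw [ae_iff] at hae
      refine (measure_mono fun ξ hξ => ?_).trans hae.le
      intro h2
      exact hcon ⟨ξ, hξ, h2⟩
    exact absurd h0 (not_le.2 hpm)
  obtain ⟨ξ, hξ, H⟩ := hex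
  obtain ⟨c0, hc0, hsub, H⟩ := H hξ
  obtain ⟨y, k', ψ, lam, hy, hk', hk0, hψ, hT, hTP, hR⟩ := H hh hpos hh0
  obtain ⟨hrx, hdD, hrD⟩ := rx8 hP hDm hRc hfz (fun hv => hv hV1) ht0 hξ hy hk' hk0 (hT 0)
  have hHt : Tendsto (fun m => hh (φ (ψ m))) atTop (𝓝 0) := hh0'.comp hψ.tendsto_atTop
  refine ⟨_, _, lam, ⟨fun m => mul_pos (hpos' _) (hk' m), ?_, ⟨_, y, ξ, fun m => hpos' (ψ m), hHt, hy,
    hξ, fun m => rfl⟩, base_lim hHt hy, hTP, ?_, ?_, fun i => ⟨c0 i, hc0 i, hsub i, hR i⟩, hrx, hdD,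
    hrD⟩⟩
  · have := hHt.mul hk0
    simpa using this
  · exact fun j => SgO219.tan_lip hk' (hT j) (hlip1 j)
  · intro j
    have h0L : (0 : Fin 12 → ℝ) ∈ L8 (θ 0) (θ 1) t := by
      have h := ntD_mem (θa := θ 0) (θb := θ 1) ht0.ne' 0 0 0 0
      have e : ntD 0 0 0 0 = 0 := by
        funext i
        unfold ntD
        by_cases hi : i = 1
        · subst hi; simp
        · rw [Function.update_of_ne hi]
          fin_cases i <;> simp [eL]
      rwa [e] at h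
    exact Sg337.tan_zero hk' (hT j) h0L

/-- **THE PRODUCER, `D` live** -/
theorem recx9
    (h : CtxT G L r g s θ q Rg B I lev A f b vm w fr fl sc w0 sa sb δ R I0 I' ν own c₀)
    (hR0 : w0 + (θ 1 + sb) < R) (hR1 : w0 + 1 + sb < R) (hθ : 0 < θ 0)
    (hRg : θ 0 + |θ 1| < Rg) {a b' : Fin 2}
    (hX : ∀ κ0 : ℝ, FlagX B I' lev fl (sN lev w) κ0 0 a b')
    {v0 : ℝ} (hv0 : 0 < v0) (hv1 : v0 < 1) {T : Type*} [Countable T]
    {Bs : T → Fin 9 → ℝ} {sg : T → ℝ}
    (hS : ∀ i, SOk (nat9 1 (-(θ 0)) (-(θ 1))) (Bs i) (sg i)) (hB : ∀ i, Leg9 (Bs i)) :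
    ∃ x hh lam, Out9 R s a b' (VisT B I fl sc) (θ 0) (θ 1) g (q 0) (q 1) Bs sg
      (rL (θ 0) (θ 1) w0 sa sb v0) (fo ν own) x hh lam := by
  set hh : ℕ → ℝ := fun l => 1 / ((l : ℝ) + 1) with hhh
  have hpos : ∀ l, 0 < hh l := fun l => by rw [hhh]; positivity
  have hh0 : Tendsto hh atTop (𝓝 0) := tendsto_one_div_add_atTop_nhds_zero_nat
  obtain ⟨φ, hφ, g1, hg1⟩ := first_tan h hR0 hR1 hv0.le hv1.le hpos hh0
  have hpos' : ∀ l, 0 < hh (φ l) := fun l => hpos _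
  have hh0' : Tendsto (fun l => hh (φ l)) atTop (𝓝 0) := hh0.comp hφ.tendsto_atTop
  obtain ⟨hP, hDm, hRc⟩ := first_prf h hR0 hR1 hθ hRg hX hv0 hv1 hpos' hh0' (g1 := g1 0) (hg1 0)
  have hg1' : ∀ j, IsTan (Leg monL R) (PP (mw monL)) (fo ν own j)
      (fun _ => rL (θ 0) (θ 1) w0 sa sb v0) (fun l => hh (φ l)) (g1 j) := fun j => by
    rw [← coneL_PP]; exact hg1 j
  have hlip1 : ∀ j, ∀ p ∈ PP (mw monL), ∀ q ∈ PP (mw monL), |g1 j p - g1 j q| ≤ (12:ℝ) * dist p q :=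
    fun j => SgO219.tan_lip hpos' (hg1' j) (fo_lip h j)
  have hae := ae_rates9 hpos' hg1' (j0 := (0 : Fin 2)) (K := 12) (by norm_num) hlip1
    (by rw [← coneL_PP]; exact hP.anti) (by rw [← coneL_PP]; exact hP.sm) hS hB
  obtain ⟨ξ, c0, hc0, hsub, H⟩ := hae.exists
  obtain ⟨y, k', ψ, lam, hy, hk', hk0, hψ, hT, hTP, hR⟩ := H hh hpos hh0
  have hrx := rx9 hP hDm hRc hk' hk0 (hT 0)
  have hHt : Tendsto (fun m => hh (φ (ψ m))) atTop (𝓝 0) := hh0'.comp hψ.tendsto_atTop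
  refine ⟨fun m => rL (θ 0) (θ 1) w0 sa sb v0 + hh (φ (ψ m)) • (y m • r9 (θ 0) (θ 1)),
    fun m => hh (φ (ψ m)) * k' m, lam, ⟨fun m => mul_pos (hpos' _) (hk' m), ?_,
    ⟨_, y, ξ, fun m => hpos' (ψ m), hHt, hy, fun m => rfl⟩, ?_, ?_, ?_, ?_,
    fun i => ⟨c0 i, hc0 i, hsub i, hR i⟩, hrx⟩⟩
  · have := hHt.mul hk0
    simpa using this
  · have := base_lim (x0 := rL (θ 0) (θ 1) w0 sa sb v0) (u := 0) (v := r9 (θ 0) (θ 1)) hHt hy
    simpa using this
  · intro j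
    rw [coneL_PP]; exact hTP j
  · intro j
    rw [coneL_PP]; exact SgO219.tan_lip hk' (hT j) (hlip1 j)
  · intro j
    refine Sg337.tan_zero hk' (hT j) ?_
    rw [← coneL_PP]; exact zero_coneL

end ctx

end Crest.Agent.R116.Rcx363
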