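import Crest.Agent.R136.Rg6_501

/-!
# R116, K side: [K3H] (helper593)

`k' = 1` (the level slope of `D` is zero): in the fibre `C_a, X_a, B` fine, `H, P` coarse, the
normal coordinate moves by `(z k - z k₀) ΔP - (f k - f k₀) ΔH` with `f` = the rotating flag slot of
the base line.  If the heights have no heavy strips, with a linear modulus, then the normal
coordinate loses at least `σ` (`n ≤ s`): [RIG-0] of helper501 read backwards.
-/

set_option autoImplicit false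
set_option linter.unusedVariables false
set_option linter.unusedSectionVars false

open Filter Topology Finset

namespace Crest.Agent.R116.K3h593

open Crest.Agent.R138.Ex926 (Base U)
open Crest.Agent.R138.TwA501 (dpow_pos dpow_anti dpow_add dpow_le_one)
open Crest.Agent.R136.Gf356
open Crest.Agent.R136.Rg6_501

/-- no heavy strips, linear modulus `γ` down to `d ^ x`: every strip of width `d ^ t` (any slope,
through a point of `Z`) carries at most a `d ^ (γ t - o(1))`-part of `Z`. -/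
def Strips (B : Base) (Z : ℕ → Finset ℕ) (z f : ℕ → ℕ → ℝ) (x γ : ℝ) : Prop :=
  ∀ t : ℝ, 0 < t → t ≤ x → ∀ ε : ℝ, 0 < ε → ∀ᶠ n in (U : Filter ℕ), ∀ k₁ ∈ Z n, ∀ μ : ℝ,
    ∀ T ⊆ Z n, (∀ k ∈ T, |f n k - f n k₁ - μ * (z n k - z n k₁)| ≤ B.d n ^ t) →
    (T.card : ℝ) ≤ B.d n ^ (γ * t - ε) * ((Z n).card : ℝ)

/-- `Strips` contradicts a heavy strip of some width in `[d ^ x, d ^ (θ x)]`. -/
theorem Strips.no_heavy {B : Base} {Z : ℕ → Finset ℕ} {z f : ℕ → ℕ → ℝ} {x γ : ℝ}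
    (H : Strips B Z z f x γ) (hx : 0 < x) (hγ : 0 < γ) {θ : ℝ} (hθ : 0 < θ) (hθ1 : θ ≤ 1)
    (hne : ∀ᶠ n in (U : Filter ℕ), (Z n).Nonempty) :
    ∀ᶠ n in (U : Filter ℕ), ∀ w μ : ℝ, B.d n ^ x ≤ w → w ≤ B.d n ^ (θ * x) → ∀ k₁ ∈ Z n,
      ∀ T ⊆ Z n, (∀ k ∈ T, |f n k - f n k₁ - μ * (z n k - z n k₁)| ≤ w) →
      ¬ (w ^ (γ / 4) * ((Z n).card : ℝ) ≤ (T.card : ℝ)) := by
  have hθx : 0 < θ * x := by positivity
  obtain ⟨J, hJ⟩ : ∃ J : ℕ, 1 / θ < J := exists_nat_gt _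
  have hJ0 : (0 : ℝ) < J := lt_of_le_of_lt (by positivity) hJ
  have hJ1 : x / J ≤ θ * x := by
    rw [div_le_iff₀ hJ0]
    rw [div_lt_iff₀ hθ] at hJ
    nlinarith
  -- the mesh `t j = θ x + (x - θ x) j / J`
  set t : ℕ → ℝ := fun j => θ * x + (x - θ * x) * (j / J) with ht
  have hxθ : 0 ≤ x - θ * x := by nlinarith
  have ht0 : ∀ j, θ * x ≤ t j := fun j => by
    have : 0 ≤ (x - θ * x) * ((j : ℝ) / J) := by positivity
    simp only [ht]; linarith
  have ht1 : ∀ j ≤ J, t j ≤ x := fun j hj => by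
    have h1 : (j : ℝ) / J ≤ 1 := by rw [div_le_one hJ0]; exact_mod_cast hj
    simp only [ht]; nlinarith
  have hts : ∀ j, t (j + 1) ≤ t j + θ * x := fun j => by
    have h1 : (((j + 1 : ℕ) : ℝ)) / J = (j : ℝ) / J + 1 / J := by push_cast; ring
    have h2 : (x - θ * x) * (1 / J) ≤ x * (1 / J) := by
      apply mul_le_mul_of_nonneg_right _ (by positivity); linarith
    have h3 : x * (1 / J) = x / J := by ring
    simp only [ht, h1, mul_add]; linarith
  set ε : ℝ := γ * (θ * x) / 4 with hε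
  have hε0 : 0 < ε := by positivity
  have ev : ∀ᶠ n in (U : Filter ℕ), ∀ j ∈ range (J + 1), ∀ k₁ ∈ Z n, ∀ μ : ℝ,
      ∀ T ⊆ Z n, (∀ k ∈ T, |f n k - f n k₁ - μ * (z n k - z n k₁)| ≤ B.d n ^ t j) →
      (T.card : ℝ) ≤ B.d n ^ (γ * t j - ε) * ((Z n).card : ℝ) := by
    rw [Filter.eventually_all_finset]
    intro j hj
    have hj' : j ≤ J := by simpa [Nat.lt_succ_iff] using hj
    exact H (t j) (lt_of_lt_of_le hθx (ht0 j)) (ht1 j hj') ε hε0
  filter_upwards [ev, hne] with n hn hnen w μ hw1 hw2 k₁ hk₁ T hT hTs hheavy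
  have hZc : (0 : ℝ) < (Z n).card := by exact_mod_cast hnen.card_pos
  have hw0 : 0 < w := (dpow_pos B n x).trans_le hw1
  have hex : ∃ j ≤ J, w ≤ B.d n ^ t j ∧ B.d n ^ t (j + 1) ≤ w := by
    by_contra hcon
    push Not at hcon
    have hall : ∀ j ≤ J, w ≤ B.d n ^ t j := by
      intro j
      induction j with
      | zero => intro _; simpa [ht] using hw2
      | succ j ih =>
        intro hj
        exact (hcon j (by omega) (ih (by omega))).le
    have h1 := hcon J le_rfl (hall J le_rfl)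
    have h2 : x ≤ t (J + 1) := by
      have h3 : (1 : ℝ) ≤ ((J + 1 : ℕ) : ℝ) / J := by
        rw [le_div_iff₀ hJ0]; push_cast; linarith
      simp only [ht]; nlinarith
    have h4 : B.d n ^ t (J + 1) ≤ B.d n ^ x := dpow_anti B n h2
    linarith
  obtain ⟨j, hj, hj1, hj2⟩ := hex
  have h1 := hn j (by simp; omega) k₁ hk₁ μ T hT (fun k hk => (hTs k hk).trans hj1)
  have h2 : B.d n ^ (γ / 4 * t (j + 1)) ≤ w ^ (γ / 4) := by
    have := Real.rpow_le_rpow (dpow_pos B n _).le hj2 (by positivity : 0 ≤ γ / 4)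
    rw [← Real.rpow_mul (B.pos n).le] at this
    rwa [mul_comm (γ / 4)]
  have h3 : B.d n ^ (γ * t j - ε) < B.d n ^ (γ / 4 * t (j + 1)) := by
    refine Real.rpow_lt_rpow_of_exponent_gt (B.pos n) (B.lt n) ?_
    have e1 := hts j
    have e2 := ht0 j
    rw [hε]
    nlinarith
  have h4 := mul_lt_mul_of_pos_right (h3.trans_le h2) hZc
  linarith

/-- **[K3H]**: no heavy strips (linear modulus) ⟹ the normal coordinate loses at least `σ` -/
theorem k3h {σ a γ : ℝ} (ha : 0 ≤ a) (hσ1 : σ ≤ 1) (hγ : 0 < γ) {κ : Type} {B : Base}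
    {G : ℕ → RCfg κ} {Leg : Set (κ → ℝ)} {ν : (κ → ℝ) → ℝ} {D : ℝ} (H : RUnif B G Leg ν D)
    (i0 : ℕ → ℕ) (Z P0 : ℕ → Finset ℕ) (z f : ℕ → ℕ → ℝ) (DP DX : ℕ → ℕ → ℕ → ℕ → ℝ)
    (pS pT r : κ → ℝ) (Q : ℝ → κ → ℝ) (x C1 C4 : ℝ)
    (A : RDataL B G Leg ν i0 Z P0 z f DP DX pS pT r Q σ x σ a C1 C4)
    (hst : Strips B Z z f x γ) : σ ≤ a := by
  classical
  by_contra hcon
  push Not at hcon
  obtain ⟨s, has, hsσ⟩ := exists_between hcon
  obtain ⟨θ, hθ, hθ1, HR⟩ := rig0_RL (η := γ / 4) ha has hsσ hσ1 (by positivity)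
  have A' : RDataL B G Leg ν i0 Z P0 z f DP DX pS pT r Q σ x s a C1 C4 :=
    { A with
      lossQ := fun t h0 hx =>
        (mul_le_mul_of_nonneg_right hsσ.le h0).trans (A.lossQ t h0 hx) }
  have h1 := HR H i0 Z P0 z f DP DX pS pT r Q x C1 C4 A'
  have h2 := hst.no_heavy A.x_pos hγ hθ hθ1 (A.bd.mono fun n h => h.1)
  obtain ⟨n, ⟨w, μ, hw1, hw2, -, k₁, hk₁, h3⟩, h4⟩ := (h1.and h2).exists
  exact h4 w μ hw1 hw2 k₁ hk₁ _ (filter_subset _ _) (fun k hk => (mem_filter.1 hk).2) h3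


end Crest.Agent.R116.K3h593
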