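import Crest.Agent.R116.Kst2_593
import Crest.Agent.R116.K3h_593

/-!
# R116, K side: own strips in a window (helper593), part 3: interface

`exO W rl ex` = extra partitions for the pruning: real line, (real line, fat line), (fat line,
height), then the partitions `ex` of the user.  For `E'` pruned inside the whole class:

* `strip_fat` : a strip (slope 0) on a fat line has share `<= d'^(γ τ - o(1))` of its heights;
* `strip_zero`, `strip_all` : strips in the set of all heights (slope 0 / any slope);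
* `alive_part` : form of the hypothesis `hal` of `KW2_420`;
* `Strips` of `K3h_593`.
-/

set_option autoImplicit false
set_option linter.unusedSectionVars false
set_option linter.unusedVariables false

open Filter Topology

namespace Crest.Agent.R116.Kst593

open Finset Crest.Agent.R138.Ex926 Crest.Agent.R136.Net191 Crest.Agent.R136.Gf356
open Crest.Agent.R136.Qg926

variable {m : ℕ} {ι : ℕ → Type*} [∀ n, DecidableEq (ι n)]

/-- extra partitions for the pruning -/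
noncomputable def exO (W : Wnd m ι) (rl : ∀ n, ι n → ℕ) (ex : ℕ → ∀ n, ι n → ℕ) :
    ℕ → ∀ n, ι n → ℕ
  | 0 => rl
  | 1 => fun n i => Nat.pair (rl n i) (W.lc n i)
  | 2 => fun n i => Nat.pair (W.lc n i) (W.zc n i)
  | (j + 3) => ex j

section

variable {W : Wnd m ι} {κ : Type*} [DecidableEq κ] {rl : ∀ n, ι n → ℕ} {cw : ∀ n, ι n → κ}
  {t : Fin m} {Sl : Set ℝ} {N : ℕ → ℝ} {x γ : ℝ} {E' : ∀ n, Finset (ι n)} {g : ℕ → ℝ}
  {ex : ℕ → ∀ n, ι n → ℕ}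

/-- **strips (slope 0) on a fat line**; `φ` follows the slot `t` of the real lines inside the fat
line `l` -/
theorem strip_fat (h : W.Ok) (R : RLines W rl N) (H : WStrip W rl cw t Sl N x γ)
    (h0 : (0 : ℝ) ∈ Sl) (hP : Wnd.Pruned W W.Cl E' g (exO W rl ex))
    {τ : ℝ} (hτ : 0 < τ) (hτx : τ ≤ x) (K : ℝ) {ε : ℝ} (hε : 0 < ε) :
    ∀ᶠ n in (U : Filter ℕ), ∀ l, ∀ φ : ℕ → ℝ,
      (∀ i ∈ E' n, ∀ j ∈ E' n, W.lc n i = l → W.lc n j = l → rl n j = rl n i →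
        |φ (W.zc n j) - φ (W.zc n i) - W.crd n i j t| ≤ K * W.B'.d n ^ τ) →
      ∀ a : ℝ, ∀ T ⊆ (W.cfg E' n).hts l, (∀ k ∈ T, |φ k - a| ≤ K * W.B'.d n ^ τ) →
      (T.card : ℝ) ≤ W.B'.d n ^ (γ * τ - ε) * (((W.cfg E' n).hts l).card : ℝ) := by
  have H0 : WStrip W rl cw t {0} N x γ :=
    H.mono le_rfl le_rfl (Set.singleton_subset_iff.2 h0)
  filter_upwards [H0.fat (j₁ := 1) (j₂ := 2) h hP (Eventually.of_forall fun n i _ j _ hij =>
      (Nat.pair_eq_pair.1 hij)) (fun n i => rfl) (fun n => div_pos (h.cls.T0 n) (R.N0 n))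
      R.fat hτ hτx K hε, Wnd.ev_cfg h h.eok_class hP] with n h1 h2
  rw [h2.2.2.2]
  exact h1


/-- **strips of any slope in the set of all heights** -/
theorem strip_all (h : W.Ok) (R : RLines W rl N) (H : WStrip W rl cw t Set.univ N x γ)
    (hP : Wnd.Pruned W W.Cl E' g (exO W rl ex)) (hγ : 0 ≤ γ)
    {σ Rr : ℝ} {Leg : Set (Fin m → ℝ)} {ν : (Fin m → ℝ) → ℝ} {Dc : ℝ}
    (hmod : RModel W.B' (W.cfg E') σ Rr Leg ν Dc)
    (hxR : x ≤ Rr) (hx2 : 2 * x ≤ W.top W.kz)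
    {f : ℕ → ℕ → ℝ} (hf : HCmp W rl t Set.univ f x)
    (hfb : ∀ ε : ℝ, 0 < ε → ∀ᶠ n in (U : Filter ℕ), ∀ k ∈ (W.cfg E' n).Z,
      ∀ k' ∈ (W.cfg E' n).Z, |f n k - f n k'| ≤ W.B'.d n ^ (-ε))
    {τ : ℝ} (hτ : 0 < τ) (hτx : τ ≤ x) {ε : ℝ} (hε : 0 < ε) :
    ∀ᶠ n in (U : Filter ℕ), ∀ a μ : ℝ, ∀ T ⊆ (W.cfg E' n).Z,
      (∀ k ∈ T, |f n k - a - μ * (W.cfg E' n).z k| ≤ W.B'.d n ^ τ) →
      (T.card : ℝ) ≤ W.B'.d n ^ (min γ σ * τ - ε) * ((W.cfg E' n).Z.card : ℝ) :=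
  H.all (j₀ := 0) h hP (Eventually.of_forall fun n i _ j _ hij => hij)
    (fun n => div_pos (h.cls.T0 n) (R.N0 n)) R.lines hγ hmod
    ((Wnd.ev_cfg h h.eok_class hP).mono fun n hn => hn.2.2.2) hxR hx2 hf hfb hτ hτx hε

/-- **`Strips` of `K3h_593`** for a part `Zs n` of the heights with full share -/
theorem strips (h : W.Ok) (R : RLines W rl N) (H : WStrip W rl cw t Set.univ N x γ)
    (hP : Wnd.Pruned W W.Cl E' g (exO W rl ex)) (hγ : 0 ≤ γ)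
    {σ Rr : ℝ} {Leg : Set (Fin m → ℝ)} {ν : (Fin m → ℝ) → ℝ} {Dc : ℝ}
    (hmod : RModel W.B' (W.cfg E') σ Rr Leg ν Dc)
    (hxR : x ≤ Rr) (hx2 : 2 * x ≤ W.top W.kz)
    {f : ℕ → ℕ → ℝ} (hf : HCmp W rl t Set.univ f x)
    (hfb : ∀ ε : ℝ, 0 < ε → ∀ᶠ n in (U : Filter ℕ), ∀ k ∈ (W.cfg E' n).Z,
      ∀ k' ∈ (W.cfg E' n).Z, |f n k - f n k'| ≤ W.B'.d n ^ (-ε))
    (Zs : ℕ → Finset ℕ) (hZs : ∀ᶠ n in (U : Filter ℕ), Zs n ⊆ (W.cfg E' n).Z)
    (hbig : ∀ ε : ℝ, 0 < ε → ∀ᶠ n in (U : Filter ℕ),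
      W.B'.d n ^ ε * ((W.cfg E' n).Z.card : ℝ) ≤ ((Zs n).card : ℝ)) :
    K3h593.Strips W.B' Zs (fun n => (W.cfg E' n).z) f x (min γ σ) := by
  intro τ hτ hτx ε hε
  filter_upwards [strip_all h R H hP hγ hmod hxR hx2 hf hfb hτ hτx (ε := ε / 2) (by positivity),
    hZs, hbig (ε / 2) (by positivity)] with n h1 h2 h3 k₁ hk₁ μ T hT hst
  have h4 := h1 (f n k₁ - μ * (W.cfg E' n).z k₁) μ T (hT.trans h2) (fun k hk => by
    have := hst k hk
    have e1 : f n k - (f n k₁ - μ * (W.cfg E' n).z k₁) - μ * (W.cfg E' n).z k =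
        f n k - f n k₁ - μ * ((W.cfg E' n).z k - (W.cfg E' n).z k₁) := by ring
    rwa [e1])
  have hp := fun s => rp_pos W.B' n s
  have h5 : ((W.cfg E' n).Z.card : ℝ) ≤ W.B'.d n ^ (-(ε / 2)) * ((Zs n).card : ℝ) := by
    have := mul_le_mul_of_nonneg_left h3 (hp (-(ε / 2))).le
    rw [← mul_assoc, ← rp_add] at this
    simpa using this
  calc (T.card : ℝ) ≤ W.B'.d n ^ (min γ σ * τ - ε / 2) * ((W.cfg E' n).Z.card : ℝ) := h4
    _ ≤ W.B'.d n ^ (min γ σ * τ - ε / 2) * (W.B'.d n ^ (-(ε / 2)) * ((Zs n).card : ℝ)) :=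
        mul_le_mul_of_nonneg_left h5 (hp _).le
    _ = W.B'.d n ^ (min γ σ * τ - ε) * ((Zs n).card : ℝ) := by
        rw [← mul_assoc, ← rp_add]; congr 2; ring


end

end Crest.Agent.R116.Kst593
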