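import Crest.Agent.R116.Rz2_460
import Crest.Agent.R116.PosA_348
import Crest.Agent.R116.Pd2_363

/-!
# R116 (K side, TIES), `k' = 1` exactly: numbers at the record (helper460)

`D` at the record level (`RL8` at `t = 0`); `O : Out8z ..`.
* `Out8z.kap_nat`, `sz8`  : slope on a natural offset
* `ant_kUz` : rate of `C_a` on `kU` ≤ rate on `kD`
* `posAz`, `posA_kDz` : `q_a ≤` rate of `C_a` below;  `pos8z`, `posB_kUz`, `posB_eUz` : above
* `tanz`, `verz` : the tangential identity and the direction inequality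
* `leg80_kD`, `leg80_kU`, `leg80_oP`, `leg80_oS`, `leg80_eU`
-/

set_option autoImplicit false
set_option linter.unusedVariables false
set_option linter.unusedSectionVars false

open Set Filter Topology MeasureTheory

namespace Crest.Agent.R116.Rz460

open Crest.Agent.R138.Ex926 (Base U IsTan)
open Crest.Agent.R136
open Crest.Agent.R136.MkA627
open Crest.Agent.R136.TD627
open Crest.Agent.R136.Net191
open Crest.Agent.R136.Lq196
open Crest.Agent.R116.ChL222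
open Crest.Agent.R116.PL504 (nb rL DN eL βL oL Shift)
open Crest.Agent.R116.Xd954 (cs xs FlagX Mrg)
open Crest.Agent.R116.Sg337 (coneL DL natB eL_bx9)
open Crest.Agent.R116.RbM219
open Crest.Agent.R116.RbK219 (SOk RS Aln Par)
open Crest.Agent.R116.SgO219 (PP)
open Crest.Agent.R116.Kz647
open Crest.Agent.R116.Rcx363
open Crest.Agent.R116.Pos126 (B10 sok8 aln8 up8 up8_leg e8_add e8_add2 B10_eq xt0 pos10 xt8_apply
  xt8_le cost_sum8)
open Crest.Agent.R116.Tp139 (all8 eU kU kD oS oP sok_kU sok_kD sok_oS sok_oP sok_eU aln_kU aln_kD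
  aln_oP A1_ne pos_k pos_e ant_d)
open Crest.Agent.R116.PosA348 (slice8 supOn8 posA)
open Dg262 (SupOn)
open Dg219 (mw)
open Sl741 (slice xt rs)

/-! ### legal offsets -/

theorem leg80_kD : Leg80 kD := leg80_nat (by norm_num)
theorem leg80_kU : Leg80 kU := leg80_nat (by norm_num)


theorem leg80_oS : Leg80 oS := by
  refine ⟨Tp139.leg_oS, ?_, ?_, ?_⟩ <;> simp [oS]

theorem leg80_oP : Leg80 oP := by
  refine ⟨Tp139.leg_oP, ?_, ?_, ?_⟩ <;> simp [oP]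

theorem leg80_B10 : Leg80 B10 := leg80_oP

theorem leg80_up8 {l e e' : ℝ} (hl : 0 ≤ l) (he : 0 ≤ e) (he' : 0 ≤ e') (hee : e' ≤ e) :
    Leg80 (up8 l e e') := by
  refine ⟨up8_leg hl he he' hee, ?_, ?_, ?_⟩ <;> simp [up8] <;> linarith

theorem leg80_zero : Leg80 (0 : Fin 8 → ℝ) := by
  refine ⟨?_, ?_, ?_, ?_⟩ <;> first | (constructor <;> simp) | simp


/-! ### class letters -/

section cls

variable {s g qa qb : ℝ} {a b : Fin 2} {Vis : Fin 12 → Prop} {θa θb c0 : ℝ}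
  {lam : (Fin 12 → ℝ) → ℝ} {B : Fin 8 → ℝ} {sg : ℝ} {ρ : Fin 8 → ℝ}

theorem b8_cost0 {β : Fin 12 → ℝ} (P : Prf coneL s a b Vis β lam) {w w' : Fin 8 → ℝ}
    (h : Leg80 w) (h' : Leg80 w') (hw : w ≤ w') :
    lam (b8 w) - lam (b8 w') ≤ ∑ t, (if t = 6 then 2 else 1) * (w' t - w t) := by
  have hCx : ∀ w : Fin 8 → ℝ, xt kp 0 (RL8.vec w) (cs b) = xt kp 0 (RL8.vec w) (cs a) ∧
      xt kp 0 (RL8.vec w) (xs b) = xt kp 0 (RL8.vec w) (xs a) := by
    intro w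
    rw [xt8_apply, xt8_apply, xt8_apply, xt8_apply]
    fin_cases a <;> fin_cases b <;> exact ⟨rfl, rfl⟩
  rw [← cost_sum8 P.ab w w']
  exact P.cost _ (b8_mem0 h) _ (b8_mem0 h') (xt8_le hw) (Or.inr (hCx w').1.le)
    (Or.inr (hCx w').2.le)

theorem b8_anti0' {β : Fin 12 → ℝ} (P : Prf coneL s a b Vis β lam) {w w' : Fin 8 → ℝ}
    (h : Leg80 w) (h' : Leg80 w') (hw : w ≤ w') : lam (b8 w') ≤ lam (b8 w) := by
  have := (P.anti _ (b8_mem0 h) _ (b8_mem0 h') (b8_le hw)).1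
  linarith

/-- the slice cone at the record -/
theorem mem0 {d : Fin 8 → ℝ} (hd : Leg80 d) :
    RL8.vec d ∈ (srf8 θa θb 0 B sg).L (Q8 0) := by
  intro w hw
  refine RL8_mem0 (a := (srf8 θa θb 0 B sg).a) hd w ⟨hw.1, hw.2.1, ?_⟩
  have : (Q8 0).rhs w 0 = 0 := by unfold Dg219.Walls.rhs; simp
  rw [this]; rfl

/-- **`q_a ≤` rate of `C_a` below the record** -/
theorem posAz {β : Fin 12 → ℝ} (hβ : 2 * θa - θb - 1 = 0) (hc0 : 0 < c0) (hθ : 0 < θa)
    (hS : SOk (nat8 1 (-θa) (-θb)) B sg) (hA : Aln (nat8 1 (-θa) (-θb)) B 1)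
    (hR : Rates8 θa θb 0 B sg c0 lam ρ) (P : Prf coneL s a b Vis β lam) (zero : lam 0 = 0)
    (dmax : ∀ v c p, lam (eL v c p) ≤ DL g s qa qb v c p)
    (hM : (srf8 θa θb 0 B sg).LW (Q8 0) c0 ⊆ (Q8 0).L (rs kp (y8 0)) (rs kp (r8 θa θb)) 0)
    {l α : ℝ} (hl : 0 < l) (hle : ∀ i, l * B i + α * nat8 1 (-θa) (-θb) i ≤ 0)
    (heq : l * B 1 + α * nat8 1 (-θa) (-θb) 1 = 0) : qa ≤ ρ 1 := by
  have hr := hR.alone 1 hA (A1_ne hθ)
  have he : ∀ y : ℝ, y • RL8.e 1 = RL8.vec (up8 0 y 0) := fun y => by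
    have := e8_add 0 y
    rw [zero_smul, Kw647.vec_zero, zero_add] at this
    exact this
  have h1 : RL8.e 1 = RL8.vec (up8 0 1 0) := by rw [← he, one_smul]
  have hz : lam (xt kp 0 (0 : K8 → ℝ)) = 0 := by
    have := xt0
    rw [Kw647.vec_zero] at this
    rw [this, zero]
  have hs8 : SupOn lam (L8 θa θb 0) := by rw [L8_cone hβ]; exact P.sm
  have hmem : ∀ {d : Fin 8 → ℝ}, Leg80 d → xt kp 0 (RL8.vec d) ∈ L8 θa θb 0 := fun hd => by
    rw [L8_cone hβ]; exact b8_mem0 hd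
  refine posA RL8 (lam := fun c : K8 → ℝ => lam (xt kp 0 c)) hS hc0 hr ?_ (supOn8 hs8) hM hl hle
    heq (slice8.2 ?_) (fun y hy => slice8.2 ?_) (fun y hy => ?_)
  · rw [h1]
    exact mem0 (leg80_up8 le_rfl zero_le_one le_rfl zero_le_one)
  · have := hmem leg80_zero
    rw [Kw647.vec_zero] at this
    exact this
  · rw [he]
    exact hmem (leg80_up8 le_rfl hy.le le_rfl hy.le)
  · show qa * y ≤ lam (xt kp 0 0) - lam (xt kp 0 (y • RL8.e 1))
    rw [he, hz]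
    have k1 := b8_cost0 P (w := up8 0 y 0) (w' := y • B10)
      (leg80_up8 le_rfl hy.le le_rfl hy.le) (leg80_smul leg80_B10 hy.le) (by
      intro i
      fin_cases i <;> simp [up8, B10] <;> linarith)
    have k2 : lam (b8 (y • B10)) ≤ lam (eL 0 y 0) := by
      have h2 : eL 0 y 0 ≤ b8 (y • B10) := by
        refine eL_le_b8 (by linarith) ?_
        intro i
        fin_cases i <;> simp [nat8, B10] <;> linarith
      have hm : eL 0 y 0 ∈ coneL := by rw [eL_bx9]; exact natB_mem _ _ _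
      have := (P.anti _ hm _ (b8_mem0 (leg80_smul leg80_B10 hy.le)) h2).1
      linarith
    have k3 := dmax 0 y 0
    have k4 : ∑ t : Fin 8, (if t = 6 then (2:ℝ) else 1) * ((y • B10) t - up8 0 y 0 t) = 3 * y := by
      simp [Fin.sum_univ_succ, up8, B10]
      ring
    rw [k4] at k1
    unfold DL at k3
    unfold b8 at k1 k2
    linarith

/-- **`q_a ≤` rate of `C_a` on the frozen plane `(1, 0)`** -/
theorem pos8z {β : Fin 12 → ℝ} (hc0 : 0 < c0) (ha : 0 < θa) (hb : θb < 0)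
    (hR : Rates8 θa θb 0 B10 1 c0 lam ρ) (P : Prf coneL s a b Vis β lam) (zero : lam 0 = 0)
    (dmax : ∀ v c p, lam (eL v c p) ≤ DL g s qa qb v c p) : qa ≤ ρ 1 := by
  have hA : nat8 1 (-θa) (-θb) 1 ≠ 0 := by simp [nat8]; exact ha.ne'
  have hr := hR.alone 1 (aln8 ha hb) hA
  have hz : (fun c : K8 → ℝ => lam (xt kp 0 c)) 0 = 0 := by
    have := xt0
    rw [Kw647.vec_zero] at this
    show lam (xt kp 0 0) = 0
    rw [this, zero]
  have lB : ∀ {l : ℝ}, 0 ≤ l → Leg80 (l • B10) := fun hl => leg80_smul leg80_B10 hl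
  have hlip : ∀ l l' : ℝ, 0 < l → l ≤ l' →
      |lam (xt kp 0 (RL8.vec (l • B10))) - lam (xt kp 0 (RL8.vec (l' • B10)))| ≤ 4 * (l' - l) := by
    intro l l' hl hll
    have hle : l • B10 ≤ l' • B10 := by
      intro i
      fin_cases i <;> simp [B10] <;> linarith
    have h1 := b8_cost0 P (lB hl.le) (lB (hl.le.trans hll)) hle
    have h2 := b8_anti0' P (lB hl.le) (lB (hl.le.trans hll)) hle
    have h3 : ∑ t : Fin 8, (if t = 6 then (2:ℝ) else 1) * ((l' • B10) t - (l • B10) t) =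
        4 * (l' - l) := by
      simp [Fin.sum_univ_succ, B10]
      ring
    rw [h3] at h1
    unfold b8 at h1 h2
    rw [abs_of_nonneg (by linarith)]
    exact h1
  refine pos10 RL8 (lam := fun c : K8 → ℝ => lam (xt kp 0 c)) (sok8 ha hb) hc0 hr B10_eq ?_ ?_ ?_
    (K := 4) ?_ ?_ ?_
  · have h1 : RL8.e 1 = RL8.vec (up8 0 1 0) := by
      have := e8_add 0 1
      rw [zero_smul, one_smul, Kw647.vec_zero, zero_add] at this
      exact this
    rw [h1]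
    exact mem0 (leg80_up8 le_rfl zero_le_one le_rfl zero_le_one)
  · intro l ε hl hε
    show lam (xt kp 0 _) - lam (xt kp 0 _) ≤ ε
    rw [e8_add, e8_add2]
    have h1 := b8_cost0 P (w := up8 l ε 0) (w' := up8 l ε ε)
      (leg80_up8 hl.le hε.le le_rfl hε.le)
      (leg80_up8 hl.le hε.le hε.le le_rfl) (by
        intro i
        fin_cases i <;> simp [up8] <;> linarith)
    refine h1.trans (le_of_eq ?_)
    simp [Fin.sum_univ_succ, up8]
  · intro l ε hl hε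
    show lam (xt kp 0 _) - lam (xt kp 0 _) ≤ 2 * ε
    rw [e8_add, e8_add2]
    have h1 := b8_cost0 P (w := up8 l ε ε) (w' := (l + ε) • B10)
      (leg80_up8 hl.le hε.le hε.le le_rfl)
      (lB (by linarith)) (by
        intro i
        fin_cases i <;> simp [up8, B10] <;> linarith)
    refine h1.trans (le_of_eq ?_)
    simp [Fin.sum_univ_succ, up8, B10]
    ring
  · intro l hl
    have hle : (0 : Fin 8 → ℝ) ≤ l • B10 := by
      intro i
      fin_cases i <;> simp [B10] <;> linarith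
    have h1 := b8_cost0 P leg80_zero (lB hl.le) hle
    show lam (xt kp 0 0) - lam (xt kp 0 _) ≤ 4 * l
    unfold b8 at h1
    rw [Kw647.vec_zero] at h1
    refine h1.trans (le_of_eq ?_)
    simp [Fin.sum_univ_succ, B10]
    ring
  · intro l hl
    refine ContinuousAt.continuousWithinAt ?_
    rw [Metric.continuousAt_iff]
    intro ε hε
    have hl' : (0:ℝ) < l := hl
    refine ⟨min (ε / 5) (l / 2), by positivity, fun {x} hx => ?_⟩
    rw [Real.dist_eq] at hx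
    have h5 : |x - l| < ε / 5 := hx.trans_le (min_le_left _ _)
    have h6 : |x - l| < l / 2 := hx.trans_le (min_le_right _ _)
    rw [abs_lt] at h5 h6
    have hx0 : 0 < x := by linarith [h6.1]
    rw [Real.dist_eq]
    rcases le_total x l with h | h
    · have := hlip x l hx0 h
      refine lt_of_le_of_lt this ?_
      linarith [h5.1]
    · have := hlip l x hl' h
      rw [abs_sub_comm] at this
      refine lt_of_le_of_lt this ?_
      linarith [h5.2]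
  · intro l hl
    have h1 : lam (b8 (l • B10)) ≤ lam (eL 0 l 0) := by
      have h2 : eL 0 l 0 ≤ b8 (l • B10) := by
        refine eL_le_b8 (by linarith) ?_
        intro i
        fin_cases i <;> simp [nat8, B10] <;> linarith
      have hm : eL 0 l 0 ∈ coneL := by rw [eL_bx9]; exact natB_mem _ _ _
      have := (P.anti _ hm _ (b8_mem0 (lB hl.le)) h2).1
      linarith
    have h2 := dmax 0 l 0
    have hz' : lam (xt kp 0 (0 : K8 → ℝ)) = 0 := hz
    show lam (xt kp 0 _) ≤ lam (xt kp 0 0) - (3 + qa) * l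
    rw [hz']
    unfold DL at h2
    unfold b8 at h1
    linarith

end cls

/-! ### the comparison and the numbers over `Out8z` -/

section out

variable {R s : ℝ} {a b : Fin 2} {Vis Vis' : Fin 12 → Prop} {θa θb g qa qb : ℝ} {T : Type*}
    {Bs : T → Fin 8 → ℝ} {sgs : T → ℝ} {x0 : Fin 12 → ℝ} {f : Fin 2 → (Fin 12 → ℝ) → ℝ}
    {x : ℕ → Fin 12 → ℝ} {hh : ℕ → ℝ} {lam : Fin 2 → (Fin 12 → ℝ) → ℝ} {B : Fin 8 → ℝ} {sg : ℝ}
    {c0 c₁ c₂ c₃ : ℝ} {ρ ρ₁ ρ₂ ρ₃ : Fin 8 → ℝ}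

theorem Out8z.sup8 (O : Out8z R s a b Vis θa θb g qa qb Bs sgs x0 f x hh lam)
    (hβ : 2 * θa - θb - 1 = 0) :
    SupOn (fun c => lam 0 (xt kp 0 c)) ((Q8 0).L (rs kp (y8 0)) (rs kp (r8 θa θb)) 0) := by
  refine supOn8 ?_
  rw [L8_cone hβ]; exact O.rx.prf.sm

/-- **`κ`-tie : rate of `C_a` on `T⁺` ≤ rate on `T⁻`** -/
theorem Out8z.ant_kU (O : Out8z R s a b Vis θa θb g qa qb Bs sgs x0 f x hh lam)
    (hβ : 2 * θa - θb - 1 = 0) (hθ : 0 < θa) (hc₁ : 0 < c₁) (hc₂ : 0 < c₂)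
    (hM₁ : (srf8 θa θb 0 kD (-1)).LW (Q8 0) c₁ ⊆ (Q8 0).L (rs kp (y8 0)) (rs kp (r8 θa θb)) 0)
    (hM₂ : (srf8 θa θb 0 kU 1).LW (Q8 0) c₂ ⊆ (Q8 0).L (rs kp (y8 0)) (rs kp (r8 θa θb)) 0)
    (r₁ : Rates8 θa θb 0 kD (-1) c₁ (lam 0) ρ₁) (r₂ : Rates8 θa θb 0 kU 1 c₂ (lam 0) ρ₂) :
    ρ₂ 1 ≤ ρ₁ 1 := by
  have hb : θb = 2 * θa - 1 := by linarith
  refine Tp139.cl8 (O.sup8 hβ) hθ (sok_kD hθ one_pos hb) (sok_kU hθ one_pos hb)
    (aln_kD hθ one_pos hb) (aln_kU hθ one_pos hb) hc₁ hc₂ hM₁ hM₂ r₁ r₂ (-2) 0 θa θa hθ hθ ?_ ?_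
  · subst hb
    refine all8 ?_ ?_ ?_ ?_ ?_ ?_ ?_ ?_ <;> ev8 <;> nlinarith
  · ev8; ring


/-- **`q_a ≤` rate of `C_a` on `kD`** -/
theorem Out8z.posA_kD (O : Out8z R s a b Vis θa θb g qa qb Bs sgs x0 f x hh lam)
    (hβ : 2 * θa - θb - 1 = 0) (hθ : 0 < θa) (hc0 : 0 < c0)
    (hM : (srf8 θa θb 0 kD (-1)).LW (Q8 0) c0 ⊆ (Q8 0).L (rs kp (y8 0)) (rs kp (r8 θa θb)) 0)
    (hR : Rates8 θa θb 0 kD (-1) c0 (lam 0) ρ) : qa ≤ ρ 1 := by
  have hb : θb = 2 * θa - 1 := by linarith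
  refine posAz hβ hc0 hθ (sok_kD hθ one_pos hb) (aln_kD hθ one_pos hb) hR O.rx.prf (O.zero 0)
    O.rx.dmax hM (l := θa) (α := -1) hθ ?_ ?_
  · subst hb
    refine all8 ?_ ?_ ?_ ?_ ?_ ?_ ?_ ?_ <;> ev8 <;> linarith
  · ev8; ring

/-- **`θb < 0` : `q_a ≤` rate of `C_a` on `kU`** (rates at `kU` and at `oP`) -/
theorem Out8z.posB_kU (O : Out8z R s a b Vis θa θb g qa qb Bs sgs x0 f x hh lam)
    (hβ : 2 * θa - θb - 1 = 0) (hθ : 0 < θa) (hb0 : θb < 0) (hc₂ : 0 < c₂) (hc₃ : 0 < c₃)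
    (hM₂ : (srf8 θa θb 0 kU 1).LW (Q8 0) c₂ ⊆ (Q8 0).L (rs kp (y8 0)) (rs kp (r8 θa θb)) 0)
    (hM₃ : (srf8 θa θb 0 oP 1).LW (Q8 0) c₃ ⊆ (Q8 0).L (rs kp (y8 0)) (rs kp (r8 θa θb)) 0)
    (r₂ : Rates8 θa θb 0 kU 1 c₂ (lam 0) ρ₂) (r₃ : Rates8 θa θb 0 oP 1 c₃ (lam 0) ρ₃) :
    qa ≤ ρ₂ 1 := by
  have hb : θb = 2 * θa - 1 := by linarith
  have h1 : qa ≤ ρ₃ 1 := pos8z hc₃ hθ hb0 r₃ O.rx.prf (O.zero 0) O.rx.dmax
  exact h1.trans (pos_k (O.sup8 hβ) hθ one_pos hc₂ hc₃ hb hb0 hM₂ hM₃ r₂ r₃)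









/-! ### the plane `eU` : `D` coarser than the record, all walls of `D` are slack -/







end out

end Crest.Agent.R116.Rz460
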