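import Crest.Agent.R116.Kw1_647
import Crest.Agent.R116.RbM2_219
import Crest.Agent.R116.SgL1_337

-- ▼ part R116/Pos1_126
section

/-!
# R116, K-TEXT II-c (ties), `posB`, first half (helper126)

On the plane through the record with offset `(1, 0)` and frozen flags (`C` raised by `1`, `X` by `1`,
`H` by `2`) the rate of `C_a` is at least `q_a`.  `C` is raised first (rate `m`), then `X` (cost at
most the thin cost), then `H`; no condition on the slopes of the record.

* `pos10` : abstract version over any system of ray slots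
-/

set_option autoImplicit false
set_option linter.unusedSectionVars false
set_option linter.unusedVariables false

open Set Filter Topology Metric MeasureTheory

namespace Crest.Agent.R116.Pos126

open Crest.Agent.R136
open Dg219 (Tn lf Cone Walls)
open Crest.Agent.R116.RbK219
open Crest.Agent.R116.Kw647 (creep vec_zero)

variable {ι W τ : Type*} [Fintype ι] [DecidableEq ι] [Fintype W] [Fintype τ] [DecidableEq τ]

/-- **`q ≤ m` on the ray `l • B`, `B = e_C + e_X + 2 e_H`** -/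
theorem pos10 (R : RS ι τ) {lam : (ι → ℝ) → ℝ} {y0 : ι → ℝ} {A B : τ → ℝ} {sg : ℝ}
    (h : SOk A B sg) {Q : Walls ι W} {c0 : ℝ} (hc0 : 0 < c0) {tC tX tH : τ} {m : ℝ}
    (hr : R.RateAt lam ((R.srf y0 A B sg).LW Q c0) tC m)
    (hB : R.vec B = R.e tC + R.e tX + (2:ℝ) • R.e tH)
    (hL : R.e tC ∈ (R.srf y0 A B sg).L Q)
    (hX : ∀ l ε : ℝ, 0 < l → 0 < ε →
      lam (R.vec (l • B) + ε • R.e tC) - lam (R.vec (l • B) + ε • R.e tC + ε • R.e tX) ≤ ε)
    (hH : ∀ l ε : ℝ, 0 < l → 0 < ε →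
      lam (R.vec (l • B) + ε • R.e tC + ε • R.e tX) - lam (R.vec ((l + ε) • B)) ≤ 2 * ε)
    {K : ℝ} (hK : ∀ l : ℝ, 0 < l → lam 0 - lam (R.vec (l • B)) ≤ K * l)
    (hcont : ContinuousOn (fun l : ℝ => lam (R.vec (l • B))) (Ioi 0)) {q : ℝ}
    (hD : ∀ l : ℝ, 0 < l → lam (R.vec (l • B)) ≤ lam 0 - (3 + q) * l) : q ≤ m := by
  -- local right increments
  have hloc : ∀ l : ℝ, 0 < l → ∃ ε0 : ℝ, 0 < ε0 ∧ ∀ ε, 0 < ε → ε ≤ ε0 →
      lam (R.vec (l • B)) - lam (R.vec ((l + ε) • B)) ≤ (m + 3) * ε := by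
    intro l hl
    have hN : 0 < 1 + ‖R.e tC‖ := by positivity
    refine ⟨c0 * l / (1 + ‖R.e tC‖), by positivity, fun ε hε0 hε => ?_⟩
    rw [le_div_iff₀ hN] at hε
    have hc1 : ‖ε • R.e tC‖ ≤ c0 * l := by
      rw [norm_smul, Real.norm_of_nonneg hε0.le]
      nlinarith [norm_nonneg (R.e tC)]
    have p1 := h.memLW (R := R) (y0 := y0) (Q := Q) (c0 := c0) (α := 0) hl.le
      ((Walls.cone (Q := Q)).zero) (by rw [norm_zero]; positivity)
    have p2 := h.memLW (R := R) (y0 := y0) (Q := Q) (c0 := c0) (α := 0) hl.le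
      ((Walls.cone (Q := Q)).smul _ hL _ hε0.le) hc1
    rw [zero_smul, add_zero] at p1 p2
    rw [add_zero] at p1
    have h1 := hr (R.vec (l • B)) (l * B tC) ε (fun i hi => by
      simp only [RS.vec, Pi.smul_apply, smul_eq_mul, hi]) p1 p2
    have h2 := hX l ε hl hε0
    have h3 := hH l ε hl hε0
    linarith
  have main : ∀ η : ℝ, 0 < η → ∀ y : ℝ, 0 < y → (3 + q) * (η + y) ≤ K * η + (m + 3) * y := by
    intro η hη y hy
    have h1 := creep (g := fun σ : ℝ => lam (R.vec ((η + σ) • B))) (m := m + 3) hy.le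
      (by
        refine hcont.comp (by fun_prop) ?_
        intro σ hσ
        simp only [mem_Ioi]
        linarith [hσ.1])
      (by
        intro σ hσ0 hσy
        obtain ⟨ε0, h0, h1⟩ := hloc (η + σ) (by linarith)
        refine ⟨ε0, h0, fun ε hε hε' _ => ?_⟩
        have := h1 ε hε hε'
        simpa [add_assoc] using this)
    simp only [add_zero] at h1
    have h2 := hD (η + y) (by linarith)
    have h3 := hK η hη
    linarith
  by_contra hcon
  push Not at hcon
  -- `η → 0`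
  have h1 : ∀ η : ℝ, 0 < η → (3 + q) * (η + 1) ≤ K * η + (m + 3) * 1 := fun η hη => main η hη 1 one_pos
  set d := q - m with hd
  have hd0 : 0 < d := by linarith
  set S : ℝ := |K| + |3 + q| + 1 with hS
  have hS0 : 0 < S := by positivity
  have h2 := h1 (d / (2 * S)) (by positivity)
  have h3 : K * (d / (2 * S)) ≤ |K| * (d / (2 * S)) :=
    mul_le_mul_of_nonneg_right (le_abs_self _) (by positivity)
  have h4 : -(3 + q) * (d / (2 * S)) ≤ |3 + q| * (d / (2 * S)) :=
    mul_le_mul_of_nonneg_right (neg_le_abs _) (by positivity)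
  have h5 : (|K| + |3 + q|) * (d / (2 * S)) ≤ S * (d / (2 * S)) :=
    mul_le_mul_of_nonneg_right (by linarith) (by positivity)
  have h6 : S * (d / (2 * S)) = d / 2 := by field_simp
  nlinarith

end Crest.Agent.R116.Pos126
end

-- ▼ part R116/Pos2_126
section

/-!
# R116, K-TEXT II-c (ties), `posB`, second half (helper126)

* `B10`, `B10'`    : offset `(1, 0)`, flags frozen at the record, over `RL8`, `RL9`
* `sok8`, `sok9`, `leg8`, `leg9`, `aln8`, `aln9`
* **`pos8`, `pos9`** : `q_a ≤` rate of `C_a` on that plane (`θb < 0`), hypotheses: class cost,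
  monotonicity, D-max at the natural boxes `(0; l, 0)`.
-/

set_option autoImplicit false
set_option linter.unusedSectionVars false
set_option linter.unusedVariables false

open Set Filter Topology Metric MeasureTheory

namespace Crest.Agent.R116.Pos126

open Crest.Agent.R136
open Dg219 (Tn lf Cone Walls mw)
open SgO219 (PP)
open Sl741 (slice xt rs)
open Crest.Agent.R116.RbK219
open Crest.Agent.R116.RbM219
open ChL222 (monL)

/-! ### `D` frozen -/

/-- offset `(1, 0)`, flags frozen at the record -/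
def B10 : Fin 8 → ℝ := ![0, 1, 0, 1, 0, 2, 0, 0]

theorem sok8 {θa θb : ℝ} (ha : 0 < θa) (hb : θb < 0) : SOk (nat8 1 (-θa) (-θb)) B10 1 := by
  refine ⟨Or.inl rfl, fun t => ?_, fun t ht => ?_⟩
  · fin_cases t <;> simp [B10]
  · fin_cases t <;> simp [B10] at ht <;> simp [nat8] <;> linarith

theorem leg8 : Leg8 B10 := by
  constructor <;> simp [B10] <;> norm_num

theorem leg8_smul {l : ℝ} (hl : 0 ≤ l) : Leg8 (l • B10) := by
  constructor <;> simp [B10] <;> linarith

theorem aln8 {θa θb : ℝ} (ha : 0 < θa) (hb : θb < 0) : Aln (nat8 1 (-θa) (-θb)) B10 1 := by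
  intro t ht h
  fin_cases t
  all_goals simp [nat8, B10] at h ht
  all_goals linarith

/-- `C` raised by `e`, `X` by `e'` -/
def up8 (l e e' : ℝ) : Fin 8 → ℝ := ![0, l + e, 0, l + e', 0, 2 * l, 0, 0]

theorem up8_leg {l e e' : ℝ} (hl : 0 ≤ l) (he : 0 ≤ e) (he' : 0 ≤ e') (hee : e' ≤ e) :
    Leg8 (up8 l e e') := by
  constructor <;> simp [up8] <;> linarith

theorem e8_add (l e : ℝ) : RL8.vec (l • B10) + e • RL8.e 1 = RL8.vec (up8 l e 0) := by
  funext i
  simp only [RS.vec, RS.e, Pi.add_apply, Pi.smul_apply, smul_eq_mul]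
  have : ∀ t : Fin 8, RL8.mu i * (l * B10 t) + e * (if t = 1 then RL8.mu i else 0) =
      RL8.mu i * up8 l e 0 t := by
    intro t
    have h : up8 l e 0 t = l * B10 t + e * (if t = 1 then 1 else 0) := by
      fin_cases t <;> simp [B10, up8]
      ring
    rw [h]
    split_ifs <;> ring
  exact this (RL8.cls i)

theorem e8_add2 (l e e' : ℝ) : RL8.vec (up8 l e 0) + e' • RL8.e 3 = RL8.vec (up8 l e e') := by
  funext i
  simp only [RS.vec, RS.e, Pi.add_apply, Pi.smul_apply, smul_eq_mul]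
  have : ∀ t : Fin 8, RL8.mu i * up8 l e 0 t + e' * (if t = 3 then RL8.mu i else 0) =
      RL8.mu i * up8 l e e' t := by
    intro t
    fin_cases t <;> simp [up8] <;> ring
  exact this (RL8.cls i)

theorem B10_eq : RL8.vec B10 = RL8.e 1 + RL8.e 3 + (2:ℝ) • RL8.e 5 := by
  funext i
  simp only [RS.vec, RS.e, Pi.add_apply, Pi.smul_apply, smul_eq_mul]
  have : ∀ t : Fin 8, RL8.mu i * B10 t = (if t = 1 then RL8.mu i else 0) +
      (if t = 3 then RL8.mu i else 0) + 2 * (if t = 5 then RL8.mu i else 0) := by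
    intro t
    fin_cases t <;> simp [B10] <;> ring
  exact this (RL8.cls i)

/-- legality on any surface through the record -/
theorem mem8 {θa θb t : ℝ} (ht : t ≠ 0) {B : Fin 8 → ℝ} {sg : ℝ} {d : Fin 8 → ℝ} (hd : Leg8 d) :
    RL8.vec d ∈ (srf8 θa θb t B sg).L (Q8 t) := by
  intro w hw
  refine RL8_mem (a := (srf8 θa θb t B sg).a) ht hd w ⟨hw.1, hw.2.1, ?_⟩
  have : (Q8 t).rhs w 0 = 0 := by unfold Walls.rhs; simp
  rw [this]; rfl

theorem xt0 : xt kp 0 (RL8.vec (0 : Fin 8 → ℝ)) = 0 := by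
  rw [Kw647.vec_zero]
  funext i
  unfold xt
  split_ifs <;> rfl

/-- **`q_a ≤` rate of `C_a` on the frozen plane `(1, 0)`**, `D` frozen -/
theorem pos8 {θa θb t c0 qa : ℝ} {lam : (Fin 12 → ℝ) → ℝ} {ρ : Fin 8 → ℝ} (ht : 0 < t)
    (hc0 : 0 < c0) (ha : 0 < θa) (hb : θb < 0) (hR : Rates8 θa θb t B10 1 c0 lam ρ)
    (hcost : ∀ w w' : Fin 8 → ℝ, Leg8 w → Leg8 w' → w ≤ w' →
      lam (xt kp 0 (RL8.vec w)) - lam (xt kp 0 (RL8.vec w')) ≤
        ∑ t, (if t = 6 then 2 else 1) * (w' t - w t))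
    (hanti : ∀ w w' : Fin 8 → ℝ, Leg8 w → Leg8 w' → w ≤ w' →
      lam (xt kp 0 (RL8.vec w')) ≤ lam (xt kp 0 (RL8.vec w)))
    (h0 : lam 0 = 0) (hD : ∀ l : ℝ, 0 < l → lam (xt kp 0 (RL8.vec (nat8 0 l 0))) ≤ -(3 + qa) * l) :
    qa ≤ ρ 1 := by
  have hA : nat8 1 (-θa) (-θb) 1 ≠ 0 := by simp [nat8]; exact ha.ne'
  have hr := hR.alone 1 (aln8 ha hb) hA
  have hz : (fun c : K8 → ℝ => lam (xt kp 0 c)) 0 = 0 := by
    have := xt0
    rw [Kw647.vec_zero] at this
    show lam (xt kp 0 0) = 0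
    rw [this, h0]
  have hlip : ∀ l l' : ℝ, 0 < l → l ≤ l' →
      |lam (xt kp 0 (RL8.vec (l • B10))) - lam (xt kp 0 (RL8.vec (l' • B10)))| ≤ 4 * (l' - l) := by
    intro l l' hl hll
    have hle : l • B10 ≤ l' • B10 := by
      intro i
      fin_cases i <;> simp [B10] <;> linarith
    have h1 := hcost _ _ (leg8_smul hl.le) (leg8_smul (hl.le.trans hll)) hle
    have h2 := hanti _ _ (leg8_smul hl.le) (leg8_smul (hl.le.trans hll)) hle
    have h3 : ∑ t : Fin 8, (if t = 6 then (2:ℝ) else 1) * ((l' • B10) t - (l • B10) t) =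
        4 * (l' - l) := by
      simp [Fin.sum_univ_succ, B10]
      ring
    rw [h3] at h1
    rw [abs_of_nonneg (by linarith)]
    exact h1
  refine pos10 RL8 (lam := fun c : K8 → ℝ => lam (xt kp 0 c)) (sok8 ha hb) hc0 hr B10_eq ?_ ?_ ?_
    (K := 4) ?_ ?_ ?_
  · have h1 : RL8.e 1 = RL8.vec (up8 0 1 0) := by
      have := e8_add 0 1
      rw [zero_smul, one_smul, Kw647.vec_zero, zero_add] at this
      exact this
    rw [h1]
    exact mem8 ht.ne' (up8_leg le_rfl zero_le_one le_rfl zero_le_one)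
  · intro l ε hl hε
    show lam (xt kp 0 _) - lam (xt kp 0 _) ≤ ε
    rw [e8_add, e8_add2]
    have h1 := hcost (up8 l ε 0) (up8 l ε ε) (up8_leg hl.le hε.le le_rfl hε.le)
      (up8_leg hl.le hε.le hε.le le_rfl) (by
        intro i
        fin_cases i <;> simp [up8] <;> linarith)
    refine h1.trans (le_of_eq ?_)
    simp [Fin.sum_univ_succ, up8]
  · intro l ε hl hε
    show lam (xt kp 0 _) - lam (xt kp 0 _) ≤ 2 * ε
    rw [e8_add, e8_add2]
    have h1 := hcost (up8 l ε ε) ((l + ε) • B10) (up8_leg hl.le hε.le hε.le le_rfl)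
      (leg8_smul (by linarith)) (by
        intro i
        fin_cases i <;> simp [up8, B10] <;> linarith)
    refine h1.trans (le_of_eq ?_)
    simp [Fin.sum_univ_succ, up8, B10]
    ring
  · intro l hl
    have hle : (0 : Fin 8 → ℝ) ≤ l • B10 := by
      intro i
      fin_cases i <;> simp [B10] <;> linarith
    have h1 := hcost 0 (l • B10) (by constructor <;> simp) (leg8_smul hl.le) hle
    show lam (xt kp 0 0) - lam (xt kp 0 _) ≤ 4 * l
    rw [Kw647.vec_zero] at h1
    refine h1.trans (le_of_eq ?_)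
    simp [Fin.sum_univ_succ, B10]
    ring
  · intro l hl
    refine ContinuousAt.continuousWithinAt ?_
    rw [Metric.continuousAt_iff]
    intro ε hε
    have hl' : (0:ℝ) < l := hl
    refine ⟨min (ε / 5) (l / 2), by positivity, fun {x} hx => ?_⟩
    rw [Real.dist_eq] at hx
    have h5 : |x - l| < ε / 5 := hx.trans_le (min_le_left _ _)
    have h6 : |x - l| < l / 2 := hx.trans_le (min_le_right _ _)
    rw [abs_lt] at h5 h6
    have hx0 : 0 < x := by linarith [h6.1]
    rw [Real.dist_eq]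
    rcases le_total x l with h | h
    · have := hlip x l hx0 h
      refine lt_of_le_of_lt this ?_
      linarith [h5.1]
    · have := hlip l x hl' h
      rw [abs_sub_comm] at this
      refine lt_of_le_of_lt this ?_
      linarith [h5.2]
  · intro l hl
    have h1 := hanti (nat8 0 l 0) (l • B10) (leg8_nat _ _ _) (leg8_smul hl.le) (by
      intro i
      fin_cases i <;> simp [nat8, B10] <;> linarith)
    have h2 := hD l hl
    have hz' : lam (xt kp 0 (0 : K8 → ℝ)) = 0 := hz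
    show lam (xt kp 0 _) ≤ lam (xt kp 0 0) - (3 + qa) * l
    rw [hz']
    linarith

/-! ### `D` live -/

/-- offset `(1, 0)`, flags frozen at the record -/
def B10' : Fin 9 → ℝ := ![0, 1, 0, 1, 0, 2, 0, 0, 0]

theorem sok9 {θa θb : ℝ} (ha : 0 < θa) (hb : θb < 0) (hD : 0 < 2 * θa - θb - 1) :
    SOk (nat9 1 (-θa) (-θb)) B10' 1 := by
  refine ⟨Or.inl rfl, fun t => ?_, fun t ht => ?_⟩
  · fin_cases t <;> simp [B10']
  · fin_cases t <;> simp [B10'] at ht <;> simp [nat9] <;> linarith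


theorem leg9_smul {l : ℝ} (hl : 0 ≤ l) : Leg9 (l • B10') := by
  constructor <;> simp [B10'] <;> linarith

theorem aln9 {θa θb : ℝ} (ha : 0 < θa) (hb : θb < 0) (hD : 0 < 2 * θa - θb - 1) :
    Aln (nat9 1 (-θa) (-θb)) B10' 1 := by
  intro t ht h
  fin_cases t
  all_goals simp [nat9, B10'] at h ht
  all_goals linarith

/-- `C` raised by `e`, `X` by `e'` -/
def up9 (l e e' : ℝ) : Fin 9 → ℝ := ![0, l + e, 0, l + e', 0, 2 * l, 0, 0, 0]

theorem up9_leg {l e e' : ℝ} (hl : 0 ≤ l) (he : 0 ≤ e) (he' : 0 ≤ e') (hee : e' ≤ e) :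
    Leg9 (up9 l e e') := by
  constructor <;> simp [up9] <;> linarith

theorem e9_add (l e : ℝ) : RL9.vec (l • B10') + e • RL9.e 1 = RL9.vec (up9 l e 0) := by
  funext i
  simp only [RS.vec, RS.e, Pi.add_apply, Pi.smul_apply, smul_eq_mul]
  have : ∀ t : Fin 9, RL9.mu i * (l * B10' t) + e * (if t = 1 then RL9.mu i else 0) =
      RL9.mu i * up9 l e 0 t := by
    intro t
    have h : up9 l e 0 t = l * B10' t + e * (if t = 1 then 1 else 0) := by
      fin_cases t <;> simp [B10', up9]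
      ring
    rw [h]
    split_ifs <;> ring
  exact this (RL9.cls i)

theorem e9_add2 (l e e' : ℝ) : RL9.vec (up9 l e 0) + e' • RL9.e 3 = RL9.vec (up9 l e e') := by
  funext i
  simp only [RS.vec, RS.e, Pi.add_apply, Pi.smul_apply, smul_eq_mul]
  have : ∀ t : Fin 9, RL9.mu i * up9 l e 0 t + e' * (if t = 3 then RL9.mu i else 0) =
      RL9.mu i * up9 l e e' t := by
    intro t
    fin_cases t <;> simp [up9] <;> ring
  exact this (RL9.cls i)

theorem B10'_eq : RL9.vec B10' = RL9.e 1 + RL9.e 3 + (2:ℝ) • RL9.e 5 := by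
  funext i
  simp only [RS.vec, RS.e, Pi.add_apply, Pi.smul_apply, smul_eq_mul]
  have : ∀ t : Fin 9, RL9.mu i * B10' t = (if t = 1 then RL9.mu i else 0) +
      (if t = 3 then RL9.mu i else 0) + 2 * (if t = 5 then RL9.mu i else 0) := by
    intro t
    fin_cases t <;> simp [B10'] <;> ring
  exact this (RL9.cls i)

theorem mem9 {x0 a b : Fin 12 → ℝ} {d : Fin 9 → ℝ} (hd : Leg9 d) :
    RL9.vec d ∈ (mw monL).L x0 a b := by
  intro w _
  have h1 := RL9_mem hd w
  have h2 : (mw monL).cst w = 0 := rfl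
  rw [h2, add_zero] at h1
  exact h1

/-- **`q_a ≤` rate of `C_a` on the frozen plane `(1, 0)`**, `D` live -/
theorem pos9 {θa θb c0 qa : ℝ} {lam : (Fin 12 → ℝ) → ℝ} {ρ : Fin 9 → ℝ}
    (hc0 : 0 < c0) (ha : 0 < θa) (hb : θb < 0) (hDb : 0 < 2 * θa - θb - 1)
    (hR : Rates9 θa θb B10' 1 c0 lam ρ)
    (hcost : ∀ w w' : Fin 9 → ℝ, Leg9 w → Leg9 w' → w ≤ w' →
      lam (RL9.vec w) - lam (RL9.vec w') ≤ ∑ t, (if t = 6 then 2 else 1) * (w' t - w t))
    (hanti : ∀ w w' : Fin 9 → ℝ, Leg9 w → Leg9 w' → w ≤ w' →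
      lam (RL9.vec w') ≤ lam (RL9.vec w))
    (h0 : lam 0 = 0) (hD : ∀ l : ℝ, 0 < l → lam (RL9.vec (nat9 0 l 0)) ≤ -(3 + qa) * l) :
    qa ≤ ρ 1 := by
  have hA : nat9 1 (-θa) (-θb) 1 ≠ 0 := by simp [nat9]; exact ha.ne'
  have hr := hR.alone 1 (aln9 ha hb hDb) hA
  have hlip : ∀ l l' : ℝ, 0 < l → l ≤ l' →
      |lam (RL9.vec (l • B10')) - lam (RL9.vec (l' • B10'))| ≤ 4 * (l' - l) := by
    intro l l' hl hll
    have hle : l • B10' ≤ l' • B10' := by
      intro i
      fin_cases i <;> simp [B10'] <;> linarith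
    have h1 := hcost _ _ (leg9_smul hl.le) (leg9_smul (hl.le.trans hll)) hle
    have h2 := hanti _ _ (leg9_smul hl.le) (leg9_smul (hl.le.trans hll)) hle
    have h3 : ∑ t : Fin 9, (if t = 6 then (2:ℝ) else 1) * ((l' • B10') t - (l • B10') t) =
        4 * (l' - l) := by
      simp [Fin.sum_univ_succ, B10']
      ring
    rw [h3] at h1
    rw [abs_of_nonneg (by linarith)]
    exact h1
  refine pos10 RL9 (lam := lam) (sok9 ha hb hDb) hc0 hr B10'_eq ?_ ?_ ?_ (K := 4) ?_ ?_ ?_
  · have h1 : RL9.e 1 = RL9.vec (up9 0 1 0) := by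
      have := e9_add 0 1
      rw [zero_smul, one_smul, Kw647.vec_zero, zero_add] at this
      exact this
    rw [h1]
    exact mem9 (up9_leg le_rfl zero_le_one le_rfl zero_le_one)
  · intro l ε hl hε
    rw [e9_add, e9_add2]
    have h1 := hcost (up9 l ε 0) (up9 l ε ε) (up9_leg hl.le hε.le le_rfl hε.le)
      (up9_leg hl.le hε.le hε.le le_rfl) (by
        intro i
        fin_cases i <;> simp [up9] <;> linarith)
    refine h1.trans (le_of_eq ?_)
    simp [Fin.sum_univ_succ, up9]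
  · intro l ε hl hε
    rw [e9_add, e9_add2]
    have h1 := hcost (up9 l ε ε) ((l + ε) • B10') (up9_leg hl.le hε.le hε.le le_rfl)
      (leg9_smul (by linarith)) (by
        intro i
        fin_cases i <;> simp [up9, B10'] <;> linarith)
    refine h1.trans (le_of_eq ?_)
    simp [Fin.sum_univ_succ, up9, B10']
    ring
  · intro l hl
    have hle : (0 : Fin 9 → ℝ) ≤ l • B10' := by
      intro i
      fin_cases i <;> simp [B10'] <;> linarith
    have h1 := hcost 0 (l • B10') (by constructor <;> simp) (leg9_smul hl.le) hle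
    rw [Kw647.vec_zero] at h1
    refine h1.trans (le_of_eq ?_)
    simp [Fin.sum_univ_succ, B10']
    ring
  · intro l hl
    refine ContinuousAt.continuousWithinAt ?_
    rw [Metric.continuousAt_iff]
    intro ε hε
    have hl' : (0:ℝ) < l := hl
    refine ⟨min (ε / 5) (l / 2), by positivity, fun {x} hx => ?_⟩
    rw [Real.dist_eq] at hx
    have h5 : |x - l| < ε / 5 := hx.trans_le (min_le_left _ _)
    have h6 : |x - l| < l / 2 := hx.trans_le (min_le_right _ _)
    rw [abs_lt] at h5 h6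
    have hx0 : 0 < x := by linarith [h6.1]
    rw [Real.dist_eq]
    rcases le_total x l with h | h
    · have := hlip x l hx0 h
      refine lt_of_le_of_lt this ?_
      linarith [h5.1]
    · have := hlip l x hl' h
      rw [abs_sub_comm] at this
      refine lt_of_le_of_lt this ?_
      linarith [h5.2]
  · intro l hl
    have h1 := hanti (nat9 0 l 0) (l • B10') (leg9_nat _ _ _) (leg9_smul hl.le) (by
      intro i
      fin_cases i <;> simp [nat9, B10'] <;> linarith)
    have h2 := hD l hl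
    rw [h0]
    linarith

end Crest.Agent.R116.Pos126
end

-- ▼ part R116/Pos3_126

/-!
# R116, K-TEXT II-c (ties), `posB`, plug (helper126)

* `memL8`, `memC9`  : class vectors are in the cones
* **`posB8`, `posB9`** : `q_a ≤ ρ 1` on the plane `(1, 0)` (`θb < 0`) from `anti`, `cost`, D-max of
  the record tangent (letters of `Prf`, `Rx` of 363)
-/

set_option autoImplicit false
set_option linter.unusedSectionVars false
set_option linter.unusedVariables false

open Set Filter Topology Metric MeasureTheory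

namespace Crest.Agent.R116.Pos126

open Crest.Agent.R136
open Dg219 (Tn lf Cone Walls mw)
open SgO219 (PP)
open Sl741 (slice xt rs)
open Crest.Agent.R116.RbK219
open Crest.Agent.R116.RbM219
open ChL222 (monL)
open Crest.Agent.R116.PL504 (eL)
open Crest.Agent.R116.Xd954 (cs xs)
open Crest.Agent.R116.Sg337 (coneL DL)

section

variable {θa θb t c0 s g qa qb : ℝ} {a b : Fin 2} {lam : (Fin 12 → ℝ) → ℝ}

theorem memL8 (ht : t ≠ 0) {d : Fin 8 → ℝ} (hd : Leg8 d) : xt kp 0 (RL8.vec d) ∈ L8 θa θb t := by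
  have hρ : ∀ i, ¬ kp i → r8 θa θb i = 0 := fun i hi => by
    have hi' : i = 1 := not_not.1 hi
    subst hi'
    unfold r8; rw [Function.update_self]
  have h := Sl741.mem_slice_L (Q := mw monL) (p := kp) (v := y8 t) (hp := kp_hd) (x0 := y8 t)
    (a := r8 θa θb) (b := 0) (fun _ _ => rfl) hρ (fun _ _ => rfl) (c := RL8.vec d)
  exact h.1 (RL8_mem (a := rs kp (r8 θa θb)) ht hd)

/-- the box of a class vector, `D` frozen -/
theorem xt8_apply (d : Fin 8 → ℝ) (i : Fin 12) :
    xt kp 0 (RL8.vec d) i = if i = 1 then 0 else d (cl8 i) := by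
  by_cases hi : i = 1
  · subst hi
    rw [if_pos rfl, Sl741.xt_off (p := kp) _ _ (by simp [kp])]; rfl
  · rw [if_neg hi, Sl741.xt_in (p := kp) _ _ hi]
    simp [RS.vec, RL8]

theorem xt8_le {w w' : Fin 8 → ℝ} (h : w ≤ w') :
    xt kp 0 (RL8.vec w) ≤ xt kp 0 (RL8.vec w') := by
  intro i
  rw [xt8_apply, xt8_apply]
  split_ifs
  · exact le_rfl
  · exact h _

/-- cost of a class vector -/
theorem cost_sum8 (ab : a ≠ b) (w w' : Fin 8 → ℝ) :
    ∑ k ∈ ({cs b, xs b} : Finset (Fin 12))ᶜ,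
      (xt kp 0 (RL8.vec w') k - xt kp 0 (RL8.vec w) k) =
      ∑ t, (if t = 6 then 2 else 1) * (w' t - w t) := by
  have h0 : ∀ k, xt kp 0 (RL8.vec w') k - xt kp 0 (RL8.vec w) k =
      if k = 1 then 0 else w' (cl8 k) - w (cl8 k) := by
    intro k
    rw [xt8_apply, xt8_apply]
    split_ifs
    · exact sub_self _
    · rfl
  have hb : b = 0 ∨ b = 1 := by fin_cases b <;> simp
  rcases hb with rfl | rfl
  · have e : (({cs 0, xs 0} : Finset (Fin 12))ᶜ) = {0, 1, 2, 4, 6, 7, 8, 9, 10, 11} := by decide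
    rw [e]
    simp only [h0]
    rw [Finset.sum_insert (by decide), Finset.sum_insert (by decide), Finset.sum_insert (by decide),
      Finset.sum_insert (by decide), Finset.sum_insert (by decide), Finset.sum_insert (by decide),
      Finset.sum_insert (by decide), Finset.sum_insert (by decide), Finset.sum_insert (by decide),
      Finset.sum_singleton]
    simp [cl8, Fin.sum_univ_eight]
    ring
  · have e : (({cs 1, xs 1} : Finset (Fin 12))ᶜ) = {0, 1, 2, 3, 5, 7, 8, 9, 10, 11} := by decide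
    rw [e]
    simp only [h0]
    rw [Finset.sum_insert (by decide), Finset.sum_insert (by decide), Finset.sum_insert (by decide),
      Finset.sum_insert (by decide), Finset.sum_insert (by decide), Finset.sum_insert (by decide),
      Finset.sum_insert (by decide), Finset.sum_insert (by decide), Finset.sum_insert (by decide),
      Finset.sum_singleton]
    simp [cl8, Fin.sum_univ_eight]
    ring

/-- **`q_a ≤` rate of `C_a` on the plane `(1, 0)`**, `D` frozen, letters of `Prf` / `Rx` -/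
theorem posB8 (ab : a ≠ b)
    (anti : ∀ p ∈ L8 θa θb t, ∀ q ∈ L8 θa θb t, p ≤ q →
      0 ≤ lam p - lam q ∧ lam p - lam q ≤ ∑ k, (q k - p k))
    (cost : ∀ p ∈ L8 θa θb t, ∀ q ∈ L8 θa θb t, p ≤ q →
      (q (cs b) ≤ p (cs b) ∨ q (cs b) ≤ q (cs a)) → (q (xs b) ≤ p (xs b) ∨ q (xs b) ≤ q (xs a)) →
      lam p - lam q ≤ ∑ k ∈ ({cs b, xs b} : Finset (Fin 12))ᶜ, (q k - p k))
    (zero : lam 0 = 0)
    (dmax : ∀ v c p, lam (Function.update (eL v c p) 1 0) ≤ DL g s qa qb v c p)
    {ρ : Fin 8 → ℝ} (ht : 0 < t) (hc0 : 0 < c0) (ha : 0 < θa) (hb : θb < 0)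
    (hR : Rates8 θa θb t B10 1 c0 lam ρ) : qa ≤ ρ 1 := by
  have hCx : ∀ w : Fin 8 → ℝ, xt kp 0 (RL8.vec w) (cs b) = xt kp 0 (RL8.vec w) (cs a) ∧
      xt kp 0 (RL8.vec w) (xs b) = xt kp 0 (RL8.vec w) (xs a) := by
    intro w
    rw [xt8_apply, xt8_apply, xt8_apply, xt8_apply]
    fin_cases a <;> fin_cases b <;> exact ⟨rfl, rfl⟩
  refine pos8 ht hc0 ha hb hR (fun w w' h h' hw => ?_) (fun w w' h h' hw => ?_) zero
    (fun l hl => ?_)
  · rw [← cost_sum8 ab w w']
    exact cost _ (memL8 ht.ne' h) _ (memL8 ht.ne' h') (xt8_le hw) (Or.inr (hCx w').1.le)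
      (Or.inr (hCx w').2.le)
  · have := (anti _ (memL8 ht.ne' h) _ (memL8 ht.ne' h') (xt8_le hw)).1
    linarith
  · rw [RL8_nat]
    refine (dmax 0 l 0).trans (le_of_eq ?_)
    unfold DL
    ring

theorem memC9 {d : Fin 9 → ℝ} (hd : Leg9 d) : RL9.vec d ∈ coneL := by
  have h := RL9_mem hd
  rw [RbM219.mem_PP] at h
  exact h

theorem vec9_apply (d : Fin 9 → ℝ) (i : Fin 12) : RL9.vec d i = d (cl9 i) := by
  simp [RS.vec, RL9]

theorem vec9_le {w w' : Fin 9 → ℝ} (h : w ≤ w') : RL9.vec w ≤ RL9.vec w' := by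
  intro i
  rw [vec9_apply, vec9_apply]
  exact h _

/-- cost of a class vector -/
theorem cost_sum9 (ab : a ≠ b) (w w' : Fin 9 → ℝ) :
    ∑ k ∈ ({cs b, xs b} : Finset (Fin 12))ᶜ, (RL9.vec w' k - RL9.vec w k) =
      ∑ t, (if t = 6 then 2 else 1) * (w' t - w t) := by
  have h9 : ∀ f : Fin 9 → ℝ, ∑ t, f t =
      f 0 + f 1 + f 2 + f 3 + f 4 + f 5 + f 6 + f 7 + f 8 := by
    intro f
    rw [Fin.sum_univ_castSucc, Fin.sum_univ_eight]
    rfl
  have hb : b = 0 ∨ b = 1 := by fin_cases b <;> simp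
  rw [h9]
  rcases hb with rfl | rfl
  · have e : (({cs 0, xs 0} : Finset (Fin 12))ᶜ) = {0, 1, 2, 4, 6, 7, 8, 9, 10, 11} := by decide
    rw [e]
    simp only [vec9_apply]
    rw [Finset.sum_insert (by decide), Finset.sum_insert (by decide), Finset.sum_insert (by decide),
      Finset.sum_insert (by decide), Finset.sum_insert (by decide), Finset.sum_insert (by decide),
      Finset.sum_insert (by decide), Finset.sum_insert (by decide), Finset.sum_insert (by decide),
      Finset.sum_singleton]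
    simp [cl9]
    ring
  · have e : (({cs 1, xs 1} : Finset (Fin 12))ᶜ) = {0, 1, 2, 3, 5, 7, 8, 9, 10, 11} := by decide
    rw [e]
    simp only [vec9_apply]
    rw [Finset.sum_insert (by decide), Finset.sum_insert (by decide), Finset.sum_insert (by decide),
      Finset.sum_insert (by decide), Finset.sum_insert (by decide), Finset.sum_insert (by decide),
      Finset.sum_insert (by decide), Finset.sum_insert (by decide), Finset.sum_insert (by decide),
      Finset.sum_singleton]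
    simp [cl9]
    ring

/-- **`q_a ≤` rate of `C_a` on the plane `(1, 0)`**, `D` live, letters of `Prf` / `Rx` -/
theorem posB9 (ab : a ≠ b)
    (anti : ∀ p ∈ coneL, ∀ q ∈ coneL, p ≤ q →
      0 ≤ lam p - lam q ∧ lam p - lam q ≤ ∑ k, (q k - p k))
    (cost : ∀ p ∈ coneL, ∀ q ∈ coneL, p ≤ q →
      (q (cs b) ≤ p (cs b) ∨ q (cs b) ≤ q (cs a)) → (q (xs b) ≤ p (xs b) ∨ q (xs b) ≤ q (xs a)) →
      lam p - lam q ≤ ∑ k ∈ ({cs b, xs b} : Finset (Fin 12))ᶜ, (q k - p k))
    (zero : lam 0 = 0) (dmax : ∀ v c p, lam (eL v c p) ≤ DL g s qa qb v c p)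
    {ρ : Fin 9 → ℝ} (hc0 : 0 < c0) (ha : 0 < θa) (hb : θb < 0) (hDb : 0 < 2 * θa - θb - 1)
    (hR : Rates9 θa θb B10' 1 c0 lam ρ) : qa ≤ ρ 1 := by
  have hCx : ∀ w : Fin 9 → ℝ, RL9.vec w (cs b) = RL9.vec w (cs a) ∧
      RL9.vec w (xs b) = RL9.vec w (xs a) := by
    intro w
    rw [vec9_apply, vec9_apply, vec9_apply, vec9_apply]
    fin_cases a <;> fin_cases b <;> exact ⟨rfl, rfl⟩
  refine pos9 hc0 ha hb hDb hR (fun w w' h h' hw => ?_) (fun w w' h h' hw => ?_) zero
    (fun l hl => ?_)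
  · rw [← cost_sum9 ab w w']
    exact cost _ (memC9 h) _ (memC9 h') (vec9_le hw) (Or.inr (hCx w').1.le)
      (Or.inr (hCx w').2.le)
  · have := (anti _ (memC9 h) _ (memC9 h') (vec9_le hw)).1
    linarith
  · rw [RL9_nat]
    refine (dmax 0 l 0).trans (le_of_eq ?_)
    unfold DL
    ring

end

end Crest.Agent.R116.Pos126
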