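import Crest.Agent.R116.Tk0_741
import Crest.Agent.R116.Tq4_126
import Crest.Agent.R116.Pos3_126
import Crest.Agent.R116.Pd1_363
import Crest.Agent.R116.Tp2_139
import Crest.Agent.R116.Tk3_299

-- ▼ part R116/Tq5_126
section

/-!
# R116 (K side, ties), the plane above the record of a `κ`-tie (helper126)

* `TVk.ver'`, **`kUp_of`** : `KF'`, `TVk`, `ant`, `pos` give `KUp'`
* `T9`, `V9`, `T8`, `V8` : record identity and D-max row of a plane in the letters of `nat9`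
* `plk9_U`, `plk9_D`, `plk8_U`, `plk8_D`, `plk1_U`, `plk1_D` : the class data of the `κ`-planes
* **`kU9up`** : `KUp'` for `k > 1` from `Out9`
-/

set_option autoImplicit false
set_option linter.unusedVariables false
set_option linter.unusedSectionVars false

open Set Filter Topology MeasureTheory

namespace Crest.Agent.R116.Ku126

open Crest.Agent.R136
open Crest.Agent.R136.Net191
open Crest.Agent.R138.Ex926 (IsTan)
open Crest.Agent.R116.ChL222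
open Crest.Agent.R116.PL504 (eL βL rL)
open Crest.Agent.R116.Sg337 (coneL DL)
open Crest.Agent.R116.RbM219
open Crest.Agent.R116.RbK219 (SOk RS Par dl)
open Crest.Agent.R116.SgO219 (PP)
open Crest.Agent.R116.Kz647
open Crest.Agent.R116.Rcx363
open Crest.Agent.R116.Pd363
open Crest.Agent.R116.Tq741
open Crest.Agent.R116.Tq126
open Crest.Agent.R116.Tp139
open Dg219 (mw)
open Sl741 (slice xt rs)
open Tie460 (Pl KF' KUp')

/-! ### class level -/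

section alg

variable {k θ s g qa qb v a : ℝ} {A B : Pl}

/-- the vertical exit on the side above -/
theorem TVk.ver' (h : TVk k θ s g qa qb v a A) (hva : 0 < a + θ * v) :
    A.Fa qa + 2 * A.Fb qb ≤ 0 := by
  have h1 := h.tan
  have h2 := h.V
  have key : 0 ≤ -(a + θ * v) * (A.Fa qa + 2 * A.Fb qb) := by
    unfold Pl.Tan at h1
    unfold Pl.Fa Pl.Fb at *
    have h3 := congrArg (fun x => v * x) h1
    linarith
  by_contra hcon
  push Not at hcon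
  nlinarith

/-- **`KUp'`** -/
theorem kUp_of (F : KF' s k B) (tv : TVk k θ s g qa qb v a B) (hva : 0 < a + θ * v)
    (ant : k = 1 → B.m ≤ A.m) (pos : qa ≤ B.m) : KUp' k θ s g qa qb A B where
  F := F
  tan := tv.tan
  ver := TVk.ver' tv hva
  ant := ant
  pos := pos

end alg

/-! ### tables -/

section tables

variable {θ θb k : ℝ}






theorem dU8 (hb : θb = 2 * θ - k) :
    dl (nat8 1 (-θ) (-θb)) kU 1 0 = 1 ∧ dl (nat8 1 (-θ) (-θb)) kU 1 7 = k ∧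
    dl (nat8 1 (-θ) (-θb)) kU 1 5 = 2 ∧ dl (nat8 1 (-θ) (-θb)) kU 1 6 = 1 ∧
    dl (nat8 1 (-θ) (-θb)) kU 1 2 = 2 ∧ dl (nat8 1 (-θ) (-θb)) kU 1 3 = 1 ∧
    dl (nat8 1 (-θ) (-θb)) kU 1 4 = 2 := by
  refine ⟨?_, ?_, ?_, ?_, ?_, ?_, ?_⟩ <;> unfold dl
  · rw [if_pos (by ev8)]; ev8
  · rw [if_pos (by ev8; norm_num)]; ev8; linarith
  · rw [if_neg (by ev8; norm_num)]; ev8; norm_num
  · rw [if_neg (by ev8; norm_num)]; ev8; norm_num
  · rw [if_neg (by ev8; norm_num)]; ev8; norm_num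
  · rw [if_neg (by ev8; norm_num)]; ev8; norm_num
  · rw [if_neg (by ev8; norm_num)]; ev8; norm_num

theorem dD8 (hb : θb = 2 * θ - k) :
    dl (nat8 1 (-θ) (-θb)) kD (-1) 0 = 1 ∧ dl (nat8 1 (-θ) (-θb)) kD (-1) 7 = k ∧
    dl (nat8 1 (-θ) (-θb)) kD (-1) 5 = 2 ∧ dl (nat8 1 (-θ) (-θb)) kD (-1) 6 = 1 ∧
    dl (nat8 1 (-θ) (-θb)) kD (-1) 2 = 2 ∧ dl (nat8 1 (-θ) (-θb)) kD (-1) 3 = 1 ∧
    dl (nat8 1 (-θ) (-θb)) kD (-1) 4 = 2 := by
  refine ⟨?_, ?_, ?_, ?_, ?_, ?_, ?_⟩ <;> unfold dl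
  · rw [if_pos (by ev8)]; ev8
  · rw [if_pos (by ev8; norm_num)]; ev8; linarith
  · rw [if_neg (by ev8; norm_num)]; ev8; norm_num
  · rw [if_neg (by ev8; norm_num)]; ev8; norm_num
  · rw [if_neg (by ev8; norm_num)]; ev8; norm_num
  · rw [if_neg (by ev8; norm_num)]; ev8; norm_num
  · rw [if_neg (by ev8; norm_num)]; ev8; norm_num

theorem sn8_at (f : Fin 8 → ℝ) (x : ℝ) :
    sn8 f x 0 = f 0 ∧ sn8 f x 1 = f 1 ∧ sn8 f x 2 = f 2 ∧ sn8 f x 3 = f 3 ∧ sn8 f x 4 = f 4 ∧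
      sn8 f x 5 = f 5 ∧ sn8 f x 6 = f 6 ∧ sn8 f x 7 = f 7 ∧ sn8 f x 8 = x :=
  ⟨rfl, rfl, rfl, rfl, rfl, rfl, rfl, rfl, rfl⟩





end tables

end Crest.Agent.R116.Ku126
end

-- ▼ part R116/Tk7_126
section

/-!
# R116 (K side, ties), the `κ`-plane: tables for `Tk299.PlK`, record identity, D-max row (helper126)

* `tk9_U`, `tk9_D`, `tk8_U`, `tk8_D` : `Tk299.PlK`
* `T9`, `V9`, `T8`, `V8` : `T` and `V` of a plane from `Pd9`, `Pd8`
* `tvK` : `TVk` for `Tk299.AK` from `natK`, `T`, `V`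
-/

set_option autoImplicit false
set_option linter.unusedVariables false
set_option linter.unusedSectionVars false
set_option linter.unusedSimpArgs false

open Set Filter Topology MeasureTheory

namespace Crest.Agent.R116.Ku126

open Crest.Agent.R136
open Crest.Agent.R136.Net191
open Crest.Agent.R138.Ex926 (IsTan)
open Crest.Agent.R116.ChL222
open Crest.Agent.R116.PL504 (eL βL rL)
open Crest.Agent.R116.Sg337 (coneL DL)
open Crest.Agent.R116.RbM219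
open Crest.Agent.R116.RbK219 (SOk RS Par dl)
open Crest.Agent.R116.SgO219 (PP)
open Crest.Agent.R116.Kz647
open Crest.Agent.R116.Rcx363
open Crest.Agent.R116.Pd363
open Crest.Agent.R116.Tq741
open Crest.Agent.R116.Tq126
open Crest.Agent.R116.Tp139
open Dg219 (mw)
open Sl741 (slice xt rs)
open Tie460 (Pl KF' KUp')

section tables

variable {θ θb k : ℝ}

theorem parT (hk : 1 < k) (t t' : Fin 9) : cK9 k t = cK9 k t' ↔ Tk299.PK True k t t' := by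
  have h1 : ¬ k = 1 := hk.ne'
  have h3 : ¬ k = 1 / 2 := fun h => by rw [h] at hk; norm_num at hk
  by_cases h2 : k = 2
  · have e : cK9 k = ![0, 1, 2, 2, 4, 5, 6, 0, 0] := by
      unfold cK9; simp only [if_pos h2, if_neg h1, if_neg h3]
    rw [e]
    simp only [Tk299.PK, Tk299.ZK, h1, h3, eq_true h2, true_and, false_and, or_false, false_or]
    revert t t'
    decide
  · have e : cK9 k = ![0, 1, 2, 3, 4, 5, 6, 0, 0] := by
      unfold cK9; simp only [if_neg h2, if_neg h1, if_neg h3]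
    rw [e]
    simp only [Tk299.PK, Tk299.ZK, h1, h3, h2, true_and, false_and, or_false]
    revert t t'
    decide

theorem parF (t t' : Fin 9) : cK k t = cK k t' ↔ Tk299.PK False k t t' := by
  by_cases h1 : k = 1
  · have h2 : ¬ k = 2 := fun h => by rw [h] at h1; norm_num at h1
    have h3 : ¬ k = 1 / 2 := fun h => by rw [h] at h1; norm_num at h1
    have e : cK k = ![0, 1, 2, 3, 3, 2, 3, 0, 8] := by
      unfold cK; simp only [if_pos h1, if_neg h2]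
    rw [e]
    simp only [Tk299.PK, Tk299.ZK, h2, h3, eq_true h1, true_and, false_and, or_false, false_or]
    revert t t'
    decide
  by_cases h2 : k = 2
  · have h3 : ¬ k = 1 / 2 := fun h => by rw [h] at h2; norm_num at h2
    have e : cK k = ![0, 1, 2, 2, 4, 5, 6, 0, 8] := by
      unfold cK; simp only [if_pos h2, if_neg h1, if_neg h3]
    rw [e]
    simp only [Tk299.PK, Tk299.ZK, h1, h3, eq_true h2, true_and, false_and, or_false, false_or]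
    revert t t'
    decide
  by_cases h3 : k = 1 / 2
  · have e : cK k = ![0, 1, 2, 3, 4, 5, 5, 0, 8] := by
      unfold cK; simp only [if_neg h2, if_neg h1, if_pos h3]
    rw [e]
    simp only [Tk299.PK, Tk299.ZK, h1, h2, eq_true h3, true_and, false_and, or_false, false_or]
    revert t t'
    decide
  · have e : cK k = ![0, 1, 2, 3, 4, 5, 6, 0, 8] := by
      unfold cK; simp only [if_neg h2, if_neg h1, if_neg h3]
    rw [e]
    simp only [Tk299.PK, Tk299.ZK, h1, h2, h3, true_and, false_and, or_false, false_or]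
    revert t t'
    decide

/-- entries of `dl` on `kU9` -/
theorem dU9 (hb : θb = 2 * θ - k) :
    dl (nat9 1 (-θ) (-θb)) kU9 1 0 = 1 ∧ dl (nat9 1 (-θ) (-θb)) kU9 1 7 = k ∧
    dl (nat9 1 (-θ) (-θb)) kU9 1 8 = k - 1 ∧
    dl (nat9 1 (-θ) (-θb)) kU9 1 5 = 2 ∧ dl (nat9 1 (-θ) (-θb)) kU9 1 6 = 1 ∧
    dl (nat9 1 (-θ) (-θb)) kU9 1 2 = 2 ∧ dl (nat9 1 (-θ) (-θb)) kU9 1 3 = 1 ∧
    dl (nat9 1 (-θ) (-θb)) kU9 1 4 = 2 := by
  refine ⟨?_, ?_, ?_, ?_, ?_, ?_, ?_, ?_⟩ <;> unfold dl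
  · rw [if_pos (by ev9)]; ev9
  · rw [if_pos (by ev9; norm_num)]; ev9; linarith
  · rw [if_pos (by ev9; norm_num)]; ev9; linarith
  · rw [if_neg (by ev9; norm_num)]; ev9; norm_num
  · rw [if_neg (by ev9; norm_num)]; ev9; norm_num
  · rw [if_neg (by ev9; norm_num)]; ev9; norm_num
  · rw [if_neg (by ev9; norm_num)]; ev9; norm_num
  · rw [if_neg (by ev9; norm_num)]; ev9; norm_num

/-- entries of `dl` on `kD9` -/
theorem dD9 (hb : θb = 2 * θ - k) :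
    dl (nat9 1 (-θ) (-θb)) kD9 (-1) 0 = 1 ∧ dl (nat9 1 (-θ) (-θb)) kD9 (-1) 7 = k ∧
    dl (nat9 1 (-θ) (-θb)) kD9 (-1) 8 = k - 1 ∧
    dl (nat9 1 (-θ) (-θb)) kD9 (-1) 5 = 2 ∧ dl (nat9 1 (-θ) (-θb)) kD9 (-1) 6 = 1 ∧
    dl (nat9 1 (-θ) (-θb)) kD9 (-1) 2 = 2 ∧ dl (nat9 1 (-θ) (-θb)) kD9 (-1) 3 = 1 ∧
    dl (nat9 1 (-θ) (-θb)) kD9 (-1) 4 = 2 := by
  refine ⟨?_, ?_, ?_, ?_, ?_, ?_, ?_, ?_⟩ <;> unfold dl
  · rw [if_pos (by ev9)]; ev9
  · rw [if_pos (by ev9; norm_num)]; ev9; linarith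
  · rw [if_pos (by ev9; norm_num)]; ev9; linarith
  · rw [if_neg (by ev9; norm_num)]; ev9; norm_num
  · rw [if_neg (by ev9; norm_num)]; ev9; norm_num
  · rw [if_neg (by ev9; norm_num)]; ev9; norm_num
  · rw [if_neg (by ev9; norm_num)]; ev9; norm_num
  · rw [if_neg (by ev9; norm_num)]; ev9; norm_num

theorem tk9_U (hk : 1 < k) (hb : θb = 2 * θ - k) :
    Tk299.PlK True k (cK9 k) (dl (nat9 1 (-θ) (-θb)) kU9 1) := by
  obtain ⟨d0, d7, d8, d5, d6, d2, d3, d4⟩ := dU9 hb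
  have h1 : ¬ k = 1 := hk.ne'
  refine ⟨parT hk, ?_, fun _ => ?_, fun h => absurd h h1, fun h => absurd h h1,
    fun h => absurd h h1, fun _ => ?_, fun _ => ?_⟩
  · rw [d7, d0, mul_one]
  · rw [d8, d0, mul_one]
  · rw [d2, d3, mul_one]
  · rw [d5, d6, mul_one]

theorem tk9_D (hk : 1 < k) (hb : θb = 2 * θ - k) :
    Tk299.PlK True k (cK9 k) (dl (nat9 1 (-θ) (-θb)) kD9 (-1)) := by
  obtain ⟨d0, d7, d8, d5, d6, d2, d3, d4⟩ := dD9 hb
  have h1 : ¬ k = 1 := hk.ne'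
  refine ⟨parT hk, ?_, fun _ => ?_, fun h => absurd h h1, fun h => absurd h h1,
    fun h => absurd h h1, fun _ => ?_, fun _ => ?_⟩
  · rw [d7, d0, mul_one]
  · rw [d8, d0, mul_one]
  · rw [d2, d3, mul_one]
  · rw [d5, d6, mul_one]

theorem tk8_U (hb : θb = 2 * θ - k) :
    Tk299.PlK False k (cK k) (sn8 (dl (nat8 1 (-θ) (-θb)) kU 1) 1) := by
  obtain ⟨e0, -, e2, e3, e4, e5, e6, e7, -⟩ := sn8_at (dl (nat8 1 (-θ) (-θb)) kU 1) 1
  obtain ⟨d0, d7, d5, d6, d2, d3, d4⟩ := dU8 hb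
  refine ⟨parF, ?_, fun h => h.elim, fun _ => ?_, fun _ => ?_, fun _ => ?_, fun _ => ?_,
    fun _ => ?_⟩
  · rw [e7, e0, d7, d0, mul_one]
  · rw [e5, e2, d5, d2]
  · rw [e4, e3, d4, d3, mul_one]
  · rw [e6, e3, d6, d3]
  · rw [e2, e3, d2, d3, mul_one]
  · rw [e5, e6, d5, d6, mul_one]

theorem tk8_D (hb : θb = 2 * θ - k) :
    Tk299.PlK False k (cK k) (sn8 (dl (nat8 1 (-θ) (-θb)) kD (-1)) 1) := by
  obtain ⟨e0, -, e2, e3, e4, e5, e6, e7, -⟩ := sn8_at (dl (nat8 1 (-θ) (-θb)) kD (-1)) 1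
  obtain ⟨d0, d7, d5, d6, d2, d3, d4⟩ := dD8 hb
  refine ⟨parF, ?_, fun h => h.elim, fun _ => ?_, fun _ => ?_, fun _ => ?_, fun _ => ?_,
    fun _ => ?_⟩
  · rw [e7, e0, d7, d0, mul_one]
  · rw [e5, e2, d5, d2]
  · rw [e4, e3, d4, d3, mul_one]
  · rw [e6, e3, d6, d3]
  · rw [e2, e3, d2, d3, mul_one]
  · rw [e5, e6, d5, d6, mul_one]

end tables

/-! ### `T` and `V` -/

section rec8

variable {R s : ℝ} {a b : Fin 2} {Vis : Fin 12 → Prop} {θa θb g qa qb t l α v c p : ℝ}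
    {T : Type*} {Bs : T → Fin 8 → ℝ} {sgs : T → ℝ} {f : Fin 2 → (Fin 12 → ℝ) → ℝ}
    {x0 : Fin 12 → ℝ} {x : ℕ → Fin 12 → ℝ} {hh h' : ℕ → ℝ} {lam lam2 : Fin 2 → (Fin 12 → ℝ) → ℝ}
    {B : Fin 8 → ℝ} {sg κ : ℝ} {ρ ρ2 : Fin 8 → ℝ}




end rec8

section rec9

variable {R s : ℝ} {a b : Fin 2} {Vis : Fin 12 → Prop} {θa θb g qa qb l α v c p : ℝ}
    {T : Type*} {Bs : T → Fin 9 → ℝ} {sgs : T → ℝ} {f : Fin 2 → (Fin 12 → ℝ) → ℝ}
    {x0 : Fin 12 → ℝ} {x : ℕ → Fin 12 → ℝ} {hh h' : ℕ → ℝ} {lam lam2 : Fin 2 → (Fin 12 → ℝ) → ℝ}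
    {B : Fin 9 → ℝ} {sg κ : ℝ} {ρ ρ2 : Fin 9 → ℝ}

/-- record identity, `D` live -/
theorem T9 (O : Out9 R s a b Vis θa θb g qa qb Bs sgs x0 f x hh lam)
    (P : Half9 θa θb B sg lam 0 ρ κ l α h' lam2 ρ2) :
    lam2 0 (RL9.vec (nat9 1 (-θa) (-θb))) = DL g s qa qb 1 (-θa) (-θb) := by
  have h1 := P.rcd 1
  rw [one_smul] at h1
  have h2 := O.rx.rcd 1
  rw [mul_one, mul_one] at h2
  rw [h1, O.zero 0, sub_zero, ← h2]
  exact congrArg (lam 0) (RL9_nat 1 (-θa) (-θb))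

/-- D-max row, `D` live -/
theorem V9r (P : Half9 θa θb (nat9 v c p) sg lam 0 ρ (DL g s qa qb v c p) l α h' lam2 ρ2) :
    lam2 0 (RL9.vec (nat9 v c p)) ≤ DL g s qa qb v c p := P.row

end rec9

/-! ### `TVk` for 299's letters -/

section tv

variable {c : Fin 9 → Fin 9} {dl : V9} {s : ℝ} {Λ : V9 → ℝ} {φ : Fin 9 → V9 → ℝ} {ρ : V9}
  {L : Prop} {k θ g qa qb v a : ℝ}

theorem tvK (H : Cl9 c dl s Λ φ ρ) (P : Tk299.PlK L k c dl) (hL : ¬ L → ρ 8 = 0)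
    (T : Λ (nat9 1 (-θ) (-(2 * θ - k))) = DL g s qa qb 1 (-θ) (-(2 * θ - k)))
    (V : Λ (nat9 v a (2 * a + k * v)) ≤ DL g s qa qb v a (2 * a + k * v)) :
    TVk k θ s g qa qb v a (Tk299.AK c s φ ρ) where
  T := by
    have h1 := Tk299.natK H P 1 (-θ) hL
    have e : 2 * (-θ) + k * 1 = -(2 * θ - k) := by ring
    rw [e, T] at h1
    unfold Tk299.AK
    simp only
    unfold DL at h1
    linarith
  V := by
    have h1 := Tk299.natK H P v a hL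
    rw [h1] at V
    unfold Tk299.AK
    simp only
    unfold DL at V
    linarith

end tv

end Crest.Agent.R116.Ku126
end

-- ▼ part R116/Tk8_126

/-!
# R116 (K side, ties), `KUp'` from the record blow-up, `k > 1` (helper126)

* `qa_kU9` : `q_a ≤` rate of `C_a` on `kU9`
* **`kU9up`** : `KUp'` from `Out9` on `kU9`, `oP9`
-/

set_option autoImplicit false
set_option linter.unusedVariables false
set_option linter.unusedSectionVars false

open Set Filter Topology MeasureTheory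

namespace Crest.Agent.R116.Ku126

open Crest.Agent.R136
open Crest.Agent.R136.Net191
open Crest.Agent.R138.Ex926 (IsTan)
open Crest.Agent.R116.ChL222
open Crest.Agent.R116.PL504 (eL βL rL)
open Crest.Agent.R116.Sg337 (coneL DL)
open Crest.Agent.R116.RbM219
open Crest.Agent.R116.RbK219 (SOk RS Par dl)
open Crest.Agent.R116.SgO219 (PP)
open Crest.Agent.R116.Kz647
open Crest.Agent.R116.Rcx363
open Crest.Agent.R116.Pd363
open Crest.Agent.R116.Tq741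
open Crest.Agent.R116.Tq126
open Crest.Agent.R116.Tp139
open Crest.Agent.R116.Pos126 (posB8 posB9)
open Dg219 (mw)
open Dg262 (SupOn)
open Sl741 (slice xt rs)
open Tie460 (Pl KF' KUp')

section nine

variable {R s : ℝ} {a b : Fin 2} {Vis : Fin 12 → Prop} {θ k g qa qb w0 sa sb v0 : ℝ}
    {T : Type*} {Bs : T → Fin 9 → ℝ} {sgs : T → ℝ} {f : Fin 2 → (Fin 12 → ℝ) → ℝ}
    {x0 : Fin 12 → ℝ} {x : ℕ → Fin 12 → ℝ} {hh : ℕ → ℝ} {lam : Fin 2 → (Fin 12 → ℝ) → ℝ}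

/-- `q_a ≤` rate of `C_a` above the record, `D` live -/
theorem qa_kU9 (O : Out9 R s a b Vis θ (2 * θ - k) g qa qb Bs sgs x0 f x hh lam)
    (hθ : 0 < θ) (hk : 1 < k) (hk2 : 2 * θ < k) {iP : T} (hP : Bs iP = oP9) (hP1 : sgs iP = 1)
    {cU : ℝ} {ρU : Fin 9 → ℝ} (hcU : 0 < cU)
    (hLU : (srf9 θ (2 * θ - k) kU9 1).LW (mw monL) cU ⊆ PP (mw monL))
    (hRU : Rates9 θ (2 * θ - k) kU9 1 cU (lam 0) ρU) : qa ≤ ρU 1 := by
  obtain ⟨cP, hcP, hLP, -, ρP, hRP⟩ := O.surf iP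
  rw [hP, hP1] at hLP hRP
  have hs : SupOn (lam 0) (PP (mw monL)) := by rw [← coneL_PP]; exact O.rx.prf.sm
  have h1 := pos_k9 hs hθ hcU hcP hk rfl (by linarith) hLU hLP hRU hRP
  have h2 := posB9 (s := s) (g := g) (qa := qa) (qb := qb) (lam := lam 0) O.rx.prf.ab
    O.rx.prf.anti O.rx.prf.cost (O.zero 0) O.rx.dmax hcP hθ (by linarith) (by linarith) hRP
  exact h2.trans h1

/-- **`KUp'`, `k > 1`** -/
theorem kU9up
    (O : Out9 R s a b Vis θ (2 * θ - k) g qa qb Bs sgs (rL θ (2 * θ - k) w0 sa sb v0) f x hh lam)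
    (hθ : 0 < θ) (hk : 1 < k) (hk2 : 2 * θ < k) {iU iP : T} (hU : Bs iU = kU9)
    (hU1 : sgs iU = 1) (hP : Bs iP = oP9) (hP1 : sgs iP = 1)
    (hVis : ∀ j, Vis j → j = 0 ∨ j = 1 ∨ j = 2)
    (hK : ∀ {l α : ℝ} {h' : ℕ → ℝ} {X : ℕ → Fin 12 → ℝ} {H : ℕ → ℝ}
      {lam2 : Fin 2 → (Fin 12 → ℝ) → ℝ} {ρ ρ2 : Fin 9 → ℝ} {φ : Fin 9 → V9 → ℝ},
      Pd9 R s a b Vis θ (2 * θ - k) w0 sa sb v0 (DL g s qa qb 0 1 2) kU9 1 f lam ρ l α h' X H
        lam2 ρ2 →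
      Cl9 (cK9 k) (dl (nat9 1 (-θ) (-(2 * θ - k))) kU9 1) s (fun w => lam2 0 (RL9.vec w)) φ ρ2 →
      KF' s k (Tk299.AK (cK9 k) s φ ρ2)) (A : Pl) : ∃ B, KUp' k θ s g qa qb A B := by
  obtain ⟨cU, hcU, hLU, -, ρU, hRU⟩ := O.surf iU
  rw [hU, hU1] at hLU hRU
  have hV : ∀ j, Vis j → (Vis j ∧ kU9 (cl9 j) ≤ kU9 0 * βL θ (2 * θ - k) j) ∨
      kU9 (cl9 j) < kU9 0 * βL θ (2 * θ - k) j := by
    intro j hj
    refine Or.inl ⟨hj, ?_⟩
    have e0 : kU9 0 = 0 := rfl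
    rw [e0, zero_mul]
    rcases hVis j hj with rfl | rfl | rfl
    · exact le_of_eq rfl
    · have : kU9 (cl9 1) = kU9 8 := rfl
      rw [this]; ev9; norm_num
    · have : kU9 (cl9 2) = kU9 7 := rfl
      rw [this]; ev9; norm_num
  obtain ⟨l, α, h', X, H, lam2, ρ2, hl, -, -, P⟩ := plane9 (Vis' := Vis) O (sok_kU9 hk rfl)
    leg_kU9 hcU hRU (v := 0) (c := 1) (p := 2) le_rfl hV (N := univ) (by simp) one_pos
  obtain ⟨φ, C⟩ := P.cls (sok_kU9 hk rfl)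
    (fun j hj => by rcases hVis j hj with h | h | h <;> simp [h]) (hc_kU9 hθ hk rfl)
    (hz_kU9 hθ hk rfl) (hG_kU9 hθ hk rfl)
  have tv : TVk k θ s g qa qb 0 1 (Tk299.AK (cK9 k) s φ ρ2) :=
    tvK C (tk9_U hk rfl) (fun h => absurd trivial h) (T9 O P.half) (by
      have h1 := V9r P.half
      have e : (2:ℝ) * 1 + k * 0 = 2 := by ring
      rw [e]
      exact h1)
  refine ⟨_, kUp_of (hK P C) tv (by norm_num) (fun h => absurd h hk.ne') ?_⟩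
  show qa ≤ ρ2 1
  rw [P.half.eq 1 (A1_ne9 hθ)]
  exact qa_kU9 O hθ hk hk2 hP hP1 hcU hLU hRU

/-- `kU9up` with `θb` -/
theorem kU9up' {θb : ℝ} (hb : θb = 2 * θ - k)
    (O : Out9 R s a b Vis θ θb g qa qb Bs sgs (rL θ θb w0 sa sb v0) f x hh lam)
    (hθ : 0 < θ) (hk : 1 < k) (hk2 : 2 * θ < k) {iU iP : T} (hU : Bs iU = kU9)
    (hU1 : sgs iU = 1) (hP : Bs iP = oP9) (hP1 : sgs iP = 1)
    (hVis : ∀ j, Vis j → j = 0 ∨ j = 1 ∨ j = 2)
    (hK : ∀ {l α : ℝ} {h' : ℕ → ℝ} {X : ℕ → Fin 12 → ℝ} {H : ℕ → ℝ}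
      {lam2 : Fin 2 → (Fin 12 → ℝ) → ℝ} {ρ ρ2 : Fin 9 → ℝ} {φ : Fin 9 → V9 → ℝ},
      Pd9 R s a b Vis θ θb w0 sa sb v0 (DL g s qa qb 0 1 2) kU9 1 f lam ρ l α h' X H lam2 ρ2 →
      Cl9 (cK9 k) (dl (nat9 1 (-θ) (-θb)) kU9 1) s (fun w => lam2 0 (RL9.vec w)) φ ρ2 →
      KF' s k (Tk299.AK (cK9 k) s φ ρ2)) (A : Pl) : ∃ B, KUp' k θ s g qa qb A B := by
  subst hb
  exact kU9up O hθ hk hk2 hU hU1 hP hP1 hVis hK A

end nine

end Crest.Agent.R116.Ku126
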