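import Crest.Agent.R116.Xd2_954

/-!
# R116, K-TEXT II-c, Lemma SIG (helper194, doc 2383): from the record to the plane `Σ` (helper337)

Part 1: boxes with equal pairs of components (`bx9`), natural boxes with the slot `D` frozen (`bxD`),
legality; the three inequalities at the record and their transfer to coarser heights, for an
abstract profile (`Prof9`).
-/

set_option autoImplicit false

open Finset

namespace Crest.Agent.R116.Sg337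

open Crest.Agent.R136.Net191
open Crest.Agent.R116.ChL222
open Crest.Agent.R116.PL504 (nb)
open Crest.Agent.R116.Xd954 (cs xs)

/-- box with equal pairs of components -/
def bx9 (z D E C X B N P F : ℝ) : Fin 12 → ℝ := ![z, D, E, C, C, X, X, B, B, N, P, F]

theorem leg9 {R z D E C X B N P F : ℝ}
    (h0 : 0 ≤ z ∧ 0 ≤ D ∧ 0 ≤ E ∧ 0 ≤ C ∧ 0 ≤ X ∧ 0 ≤ B ∧ 0 ≤ N ∧ 0 ≤ P ∧ 0 ≤ F)
    (h1 : E ≤ z + D ∧ X ≤ z + C ∧ B ≤ E + C ∧ B ≤ D + X ∧ N ≤ C + X ∧ P ≤ C + B ∧ P ≤ D + N ∧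
      F ≤ z + P ∧ F ≤ X + B ∧ F ≤ E + N)
    (h2 : z ≤ R ∧ D ≤ R ∧ E ≤ R ∧ C ≤ R ∧ X ≤ R ∧ B ≤ R ∧ N ≤ R ∧ P ≤ R ∧ F ≤ R) :
    bx9 z D E C X B N P F ∈ Leg monL R := by
  obtain ⟨a1, a2, a3, a4, a5, a6, a7, a8, a9⟩ := h0
  obtain ⟨b1, b2, b3, b4, b5, b6, b7, b8, b9, b10⟩ := h1
  obtain ⟨c1, c2, c3, c4, c5, c6, c7, c8, c9⟩ := h2
  refine ⟨legalL_iff.2 ⟨fun k => ?_, b1, b2, b2, b3, b4, b3, b4, b5, b5, b6, b6, b7, b8, b9, b9,
    b10⟩, fun k => ?_⟩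
  · fin_cases k <;> assumption
  · fin_cases k <;> assumption

theorem bx9_le {z D E C X B N P F z' D' E' C' X' B' N' P' F' : ℝ} (h0 : z ≤ z') (h1 : D ≤ D')
    (h2 : E ≤ E') (h3 : C ≤ C') (h4 : X ≤ X') (h5 : B ≤ B') (h6 : N ≤ N') (h7 : P ≤ P')
    (h8 : F ≤ F') : bx9 z D E C X B N P F ≤ bx9 z' D' E' C' X' B' N' P' F' := by
  intro k
  fin_cases k <;> assumption

theorem bx9_near {c z D E C X B N P F z' D' E' C' X' B' N' P' F' : ℝ} (h0 : |z - z'| ≤ c)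
    (h1 : |D - D'| ≤ c) (h2 : |E - E'| ≤ c) (h3 : |C - C'| ≤ c) (h4 : |X - X'| ≤ c)
    (h5 : |B - B'| ≤ c) (h6 : |N - N'| ≤ c) (h7 : |P - P'| ≤ c) (h8 : |F - F'| ≤ c) :
    ∀ k, |bx9 z D E C X B N P F k - bx9 z' D' E' C' X' B' N' P' F' k| ≤ c := by
  intro k
  fin_cases k <;> assumption

theorem bx9_inf (z D E C X B N P F z' D' E' C' X' B' N' P' F' : ℝ) :
    bx9 z D E C X B N P F ⊓ bx9 z' D' E' C' X' B' N' P' F' =
      bx9 (min z z') (min D D') (min E E') (min C C') (min X X') (min B B') (min N N') (min P P')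
        (min F F') := by
  funext k
  fin_cases k <;> rfl

theorem bx9_sup (z D E C X B N P F z' D' E' C' X' B' N' P' F' : ℝ) :
    bx9 z D E C X B N P F ⊔ bx9 z' D' E' C' X' B' N' P' F' =
      bx9 (max z z') (max D D') (max E E') (max C C') (max X X') (max B B') (max N N') (max P P')
        (max F F') := by
  funext k
  fin_cases k <;> rfl

/-- sum over the ten slots -/
theorem bx9_sum {a b : Fin 2} (hab : a ≠ b) (z D E C X B N P F z' D' E' C' X' B' N' P' F' : ℝ) :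
    ∑ k ∈ ({cs b, xs b} : Finset (Fin 12))ᶜ,
      (bx9 z' D' E' C' X' B' N' P' F' k - bx9 z D E C X B N P F k) =
      (z' - z) + (D' - D) + (E' - E) + (C' - C) + (X' - X) + 2 * (B' - B) + (N' - N) +
        (P' - P) + (F' - F) := by
  have h1 : ∑ k ∈ ({cs b, xs b} : Finset (Fin 12)),
      (bx9 z' D' E' C' X' B' N' P' F' k - bx9 z D E C X B N P F k) = (C' - C) + (X' - X) := by
    rw [Finset.sum_pair (Crest.Agent.R116.Xd954.cs_ne_xs b b)]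
    fin_cases b <;> rfl
  have h2 := Finset.sum_add_sum_compl ({cs b, xs b} : Finset (Fin 12))
    (fun k => bx9 z' D' E' C' X' B' N' P' F' k - bx9 z D E C X B N P F k)
  have h3 : ∑ k, (bx9 z' D' E' C' X' B' N' P' F' k - bx9 z D E C X B N P F k) =
      (z' - z) + (D' - D) + (E' - E) + 2 * (C' - C) + 2 * (X' - X) + 2 * (B' - B) + (N' - N) +
        (P' - P) + (F' - F) := by
    simp [Fin.sum_univ_succ, bx9]
    ring
  linarith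

/-- the natural box is a `bx9` -/
theorem nb_bx9 (w0 sa sb v a b : ℝ) : nb w0 sa sb v a b =
    bx9 (w0 + v) ((sb + b) - 2 * (sa + a) - (w0 + v)) ((sb + b) - 2 * (sa + a)) (sa + a)
      ((w0 + v) + (sa + a)) ((sb + b) - (sa + a)) ((w0 + v) + 2 * (sa + a)) (sb + b)
      ((w0 + v) + (sb + b)) := by
  funext k
  fin_cases k <;> rfl

/-- natural box in absolute exponents -/
def natB (z C P : ℝ) : Fin 12 → ℝ :=
  bx9 z (P - 2 * C - z) (P - 2 * C) C (z + C) (P - C) (z + 2 * C) P (z + P)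

theorem nb_natB (w0 sa sb v a b : ℝ) : nb w0 sa sb v a b = natB (w0 + v) (sa + a) (sb + b) :=
  nb_bx9 w0 sa sb v a b

/-- natural box with the slot `D` frozen at the level `lam` -/
def frz (lam z C P : ℝ) : Fin 12 → ℝ :=
  bx9 z lam (P - 2 * C) C (z + C) (P - C) (z + 2 * C) P (z + P)

/-- `frz` refined by `y` in the slots `C` -/
def fC (lam z C P y : ℝ) : Fin 12 → ℝ :=
  bx9 z lam (P - 2 * C) (C + y) (z + C) (P - C) (z + 2 * C) P (z + P)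

/-- `frz` refined by `y` in the slots `E, B, P` -/
def fP (lam z C P y : ℝ) : Fin 12 → ℝ :=
  bx9 z lam (P - 2 * C + y) C (z + C) (P - C + y) (z + 2 * C) (P + y) (z + P)

/-- `frz` refined by `y` in the slots `C, P` -/
def fCP (lam z C P y : ℝ) : Fin 12 → ℝ :=
  bx9 z lam (P - 2 * C) (C + y) (z + C) (P - C) (z + 2 * C) (P + y) (z + P)

/-- what is used of the profile near the box `c` -/
structure Prof9 (R w0 s δ : ℝ) (a b : Fin 2) (c : Fin 12 → ℝ) (ν : (Fin 12 → ℝ) → ℝ) : Prop where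
  ab : a ≠ b
  anti : ∀ p ∈ Leg monL R, ∀ q ∈ Leg monL R, p ≤ q → ν q ≤ ν p
  sm : ∀ p ∈ Leg monL R, ∀ q ∈ Leg monL R, p ⊓ q ∈ Leg monL R → ν p + ν q ≤ ν (p ⊔ q) + ν (p ⊓ q)
  own : ∀ p ∈ Leg monL R, ∀ q ∈ Leg monL R, p ≤ q → w0 ≤ p 0 → q 0 ≤ w0 + 1 →
    (1 - s) * (q 0 - p 0) ≤ ν p - ν q
  cost : ∀ p ∈ Leg monL R, ∀ q ∈ Leg monL R, p ≤ q → (∀ k, |p k - c k| ≤ δ) →
    (∀ k, |q k - c k| ≤ δ) → (q (cs b) ≤ p (cs b) ∨ q (cs b) ≤ q (cs a)) →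
    (q (xs b) ≤ p (xs b) ∨ q (xs b) ≤ q (xs a)) →
    ν p - ν q ≤ ∑ k ∈ ({cs b, xs b} : Finset (Fin 12))ᶜ, (q k - p k)

/-- the centre `(z0, C0, P0)` has the margin `30 m` -/
structure Ctr (R w0 δ m z0 C0 P0 : ℝ) : Prop where
  m0 : 0 < m
  dm : 30 * m ≤ δ
  mz : 30 * m ≤ z0
  mw : w0 + 30 * m ≤ z0
  mw1 : z0 + 30 * m ≤ w0 + 1
  mC : 30 * m ≤ C0
  mD : 30 * m ≤ P0 - 2 * C0 - z0
  mR : z0 + P0 + 30 * m ≤ R

/-- points near the centre -/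
structure Nr (m z0 C0 P0 z C P : ℝ) : Prop where
  z1 : z0 - 3 * m ≤ z
  z2 : z ≤ z0 + 3 * m
  C1 : C0 - 3 * m ≤ C
  C2 : C ≤ C0 + 3 * m
  P1 : P0 - 3 * m ≤ P
  P2 : P ≤ P0 + 3 * m

section core

variable {R w0 s δ m z0 C0 P0 lam z C P y : ℝ} {a b : Fin 2} {ν : (Fin 12 → ℝ) → ℝ}

theorem natB_leg (h : Ctr R w0 δ m z0 C0 P0) (n : Nr m z0 C0 P0 z C P) :
    natB z C P ∈ Leg monL R := by
  obtain ⟨h1, h2, h3, h4, h5, h6, h7, h8⟩ := h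
  obtain ⟨n1, n2, n3, n4, n5, n6⟩ := n
  refine leg9 ⟨?_, ?_, ?_, ?_, ?_, ?_, ?_, ?_, ?_⟩ ⟨?_, ?_, ?_, ?_, ?_, ?_, ?_, ?_, ?_, ?_⟩
    ⟨?_, ?_, ?_, ?_, ?_, ?_, ?_, ?_, ?_⟩ <;> linarith

/-- perturbed natural box with frozen `D` -/
def pB (lam z C P y1 y2 y3 y4 y5 y6 y7 y8 : ℝ) : Fin 12 → ℝ :=
  bx9 (z + y1) lam (P - 2 * C + y2) (C + y3) (z + C + y4) (P - C + y5) (z + 2 * C + y6) (P + y7)
    (z + P + y8)

/-- conditions on the perturbation -/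
structure Pt (m y1 y2 y3 y4 y5 y6 y7 y8 : ℝ) : Prop where
  l : -m ≤ y1 ∧ 0 ≤ y2 ∧ 0 ≤ y3 ∧ 0 ≤ y4 ∧ 0 ≤ y5 ∧ 0 ≤ y6 ∧ 0 ≤ y7 ∧ 0 ≤ y8
  u : y1 ≤ m ∧ y2 ≤ m ∧ y3 ≤ m ∧ y4 ≤ m ∧ y5 ≤ m ∧ y6 ≤ 2 * m ∧ y7 ≤ m ∧ y8 ≤ m
  X : y4 ≤ y1 + y3
  B : y5 ≤ y2 + y3
  N : y6 ≤ y3 + y4
  P : y7 ≤ y3 + y5
  F : y8 ≤ y1 + y7 ∧ y8 ≤ y4 + y5 ∧ y8 ≤ y2 + y6




theorem natB_le_pB (hl : P - 2 * C - z ≤ lam) {z' C' P' y1 y2 y3 y4 y5 y6 y7 y8 : ℝ}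
    (hl' : P' - 2 * C' - z' ≤ lam) (h1 : z' ≤ z + y1) (h2 : P' - 2 * C' ≤ P - 2 * C + y2)
    (h3 : C' ≤ C + y3) (h4 : z' + C' ≤ z + C + y4) (h5 : P' - C' ≤ P - C + y5)
    (h6 : z' + 2 * C' ≤ z + 2 * C + y6) (h7 : P' ≤ P + y7) (h8 : z' + P' ≤ z + P + y8) :
    natB z' C' P' ≤ pB lam z C P y1 y2 y3 y4 y5 y6 y7 y8 :=
  bx9_le h1 hl' h2 h3 h4 h5 h6 h7 h8

theorem frz_eq : frz lam z C P = pB lam z C P 0 0 0 0 0 0 0 0 := by
  unfold frz pB; simp only [add_zero]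

theorem fC_eq : fC lam z C P y = pB lam z C P 0 0 y 0 0 0 0 0 := by
  unfold fC pB; simp only [add_zero]

theorem fP_eq : fP lam z C P y = pB lam z C P 0 y 0 0 y 0 y 0 := by
  unfold fP pB; simp only [add_zero]

theorem fCP_eq : fCP lam z C P y = pB lam z C P 0 0 y 0 0 0 y 0 := by
  unfold fCP pB; simp only [add_zero]





/-- the exponent of the D-max count in absolute exponents -/
def Dm (g s q0 q1 z C P : ℝ) : ℝ := (g - (1 - s)) * z - (3 * z + (3 + q0) * C + (1 + q1) * P)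

variable {g q0 q1 K : ℝ}




/-! ### transfer to coarser heights -/


end core

end Crest.Agent.R116.Sg337
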