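import Crest.Agent.R116.Tk3_299
import Crest.Agent.R116.K3h_593
import Crest.Agent.R116.Kr9_710
import Crest.Agent.R136.CD2_366
import Crest.Agent.R116.Kst3_593
import Crest.Agent.R116.EvL6_504
import Crest.Agent.R116.Kst4_593
import Crest.Agent.R116.WinG_954
import Crest.Agent.R136.Lq1_196
import Crest.Agent.R116.CtxB_468
import Crest.Agent.R116.SgF_665
import Crest.Agent.R116.Pe0_794
import Crest.Agent.R116.Rz3_460
import Crest.Agent.R116.Kt3_387
import Crest.Agent.R116.Tk5_299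
import Crest.Agent.R116.Tk8_126
import Crest.Agent.R116.K1p2_736
import Crest.Agent.R116.Fk1_647

-- ▼ part R116/Tk7_647
section

/-!
# R116 (K side, ties): `κ`-tie with `k = 1`, the rate of `N` (helper647)

* `Cl9.tans` : tangents of all classes along one sequence of scales
* `K3K s Λ`  : (K3) at a `κ`-tie with `k = 1`; classes `{z, G}`, `{C_b, H}` (on its diagonal),
  `{X, N, B}`
* `PlK.n1`   : `nK ≤ s`
-/

set_option autoImplicit false
set_option linter.unusedSectionVars false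
set_option linter.unusedVariables false

open Set Filter Topology Metric MeasureTheory
open scoped NNReal

namespace Crest.Agent.R116.Tk299

open Crest.Agent.R136
open Crest.Agent.R138
open Tie460 (Pl)
open RbM219 (nat9)
open Tq741

variable {c : Fin 9 → Fin 9} {dl : V9} {s : ℝ} {Λ : V9 → ℝ} {φ : Fin 9 → V9 → ℝ} {ρ : V9}
variable {L : Prop} {k : ℝ} {Sk : V9 → Prop}

/-- tangents of all the classes -/
theorem cl9_tans (H : Cl9 c dl s Λ φ ρ) {w : V9} (hw : LegM 0 w) :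
    ∃ (h : ℕ → ℝ) (lm : Fin 9 → V9 → ℝ), (∀ m, 0 < h m) ∧ Tendsto h atTop (𝓝[>] 0) ∧
      (∀ k d, LegM 0 d → Tendsto (fun m => (φ k (w + h m • d) - φ k w) / h m) atTop
        (𝓝 (lm k d))) ∧
      ∀ k d d', (∀ t, c t = k → d t = d' t) → LegM 0 d → LegM 0 d' → lm k d = lm k d' := by
  obtain ⟨K, hK⟩ := H.lip
  have hs : Tendsto (fun m : ℕ => ((m : ℝ) + 1)⁻¹) atTop (𝓝[>] 0) := by
    refine tendsto_nhdsWithin_iff.2 ⟨?_, Eventually.of_forall fun m => ?_⟩
    · have := tendsto_one_div_add_atTop_nhds_zero_nat (𝕜 := ℝ)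
      simpa [one_div] using this
    · show (0:ℝ) < _
      positivity
  obtain ⟨θ, hθ, lam, hlam⟩ := Rc683.exists_tan (J := Fin 9) (P := fun _ => {w : V9 | LegM 0 w})
    (D := fun _ => {w : V9 | LegM 0 w}) (fun _ => isClosed_leg) (ν := φ) (K := K)
    K.2 (fun k p hp q hq => by
      have := (hK k).dist_le_mul p hp q hq
      rwa [Real.dist_eq, dist_eq_norm] at this)
    (x := fun _ => w) (h := fun m : ℕ => ((m : ℝ) + 1)⁻¹) (fun m => by positivity)
    (fun _ C => Eventually.of_forall fun m d hd _ => hw.add_smul hd (by positivity))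
    (fun _ => leg_zero)
  set h' : ℕ → ℝ := fun m => ((θ m : ℝ) + 1)⁻¹ with hh'
  have hpos : ∀ m, 0 < h' m := fun m => by simp only [hh']; positivity
  have hs' : Tendsto h' atTop (𝓝[>] 0) := hs.comp hθ.tendsto_atTop
  have hl : ∀ k d, LegM 0 d → Tendsto (fun m => (φ k (w + h' m • d) - φ k w) / h' m) atTop
      (𝓝 (lam k d)) := by
    intro k d hd
    rw [Metric.tendsto_nhds]
    intro ε hε
    filter_upwards [hlam k ‖d‖ (ε / 2) (by positivity)] with m hm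
    have h3 := (hm d hd le_rfl).2
    have hh := hpos m
    rw [Real.dist_eq]
    have e : (φ k (w + h' m • d) - φ k w) / h' m - lam k d =
        (φ k (w + h' m • d) - φ k w - h' m * lam k d) / h' m := by field_simp
    rw [e, abs_div, abs_of_pos hh]
    calc _ ≤ (ε / 2 * h' m) / h' m := div_le_div_of_nonneg_right h3 hh.le
      _ = ε / 2 := by field_simp
      _ < ε := by linarith
  refine ⟨h', lam, hpos, hs', hl, fun k d d' hdd hd hd' => ?_⟩
  have h1 := hl k d hd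
  have h2 := hl k d' hd'
  exact tendsto_nhds_unique h1 (h2.congr fun m => by
    rw [H.loc k (w + h' m • d') (w + h' m • d) fun t ht => by
      simp only [Pi.add_apply, Pi.smul_apply, hdd t ht]])

/-- **(K3) at a `κ`-tie with `k = 1`**; `Q` = the class `{C_b, H}` on its diagonal, `q` = its rate -/
def K3K (s : ℝ) (Λ : V9 → ℝ) : Prop :=
  ∀ (w R : V9) (Ψ Q : V9 → ℝ) (q : ℝ) (h : ℕ → ℝ),
    gap w 7 = 0 → gap w 9 = 0 → (∀ i, i ≠ 7 → i ≠ 9 → 0 < gap w i) → w 7 = w 0 →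
    (∀ m, 0 < h m) → Tendsto h atTop (𝓝 0) →
    (∀ d d', d 0 = d' 0 → d 7 = d' 7 → d 8 = d' 8 → LegM 0 d → LegM 0 d' → Ψ d = Ψ d') →
    (∀ d, LegM 0 d → d 2 = d 5 → Q d = q * d 2) →
    (∀ d, LegM 0 d → Tendsto (fun m => (Λ (w + h m • d) - Λ w) / h m) atTop
      (𝓝 (-(Ψ d + Q d + (R 1 * d 1 + R 3 * d 3 + R 4 * d 4 + R 6 * d 6))))) →
    1 - s ≤ q → 1 - s ≤ R 4

/-- the base of the path of `N` -/
def wN1 : V9 := ![0, 50, 10, 1, 0, 10, 1, 0, 100]

theorem leg_wN1 : LegM 1 wN1 := by constructor <;> simp only [wN1, Matrix.cons_val] <;> norm_num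

theorem leg_wN1' {y m : ℝ} (hy : y + m ≤ 2) (hm : m ≤ 1) : LegM m (wN1 + y • e9 4) := by
  constructor <;> simp only [wN1] <;> vv <;> linarith

/-- **`n ≤ s` at `k = 1`** -/
theorem PlK.n1 (P : PlK L 1 c dl) (H : Cl9 c dl s Λ φ ρ) (K : K3K s Λ) (h2 : 1 - s ≤ ρ 2) :
    nK c φ ≤ s := by
  have hloc : ∀ w w' : V9, w 3 = w' 3 → w 4 = w' 4 → w 6 = w' 6 → φ (c 4) w = φ (c 4) w' := by
    intro w w' a b d
    refine H.loc _ _ _ fun t ht => ?_
    rw [P.c4] at ht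
    rcases P.k346.1 ht with rfl | rfl | rfl
    · exact a
    · exact b
    · exact d
  have e1 : nK c φ = 1 - (φ (c 4) wN1 - φ (c 4) (wN1 + (2:ℝ) • e9 4)) / 2 := by
    unfold nK
    rw [hloc (e9 3 + e9 6) wN1 (by simp [wN1, e9]) (by simp [wN1, e9]) (by simp [wN1, e9]),
      hloc (e9 3 + e9 6 + (2:ℝ) • e9 4) (wN1 + (2:ℝ) • e9 4) (by simp [wN1, e9])
        (by simp [wN1, e9]) (by simp [wN1, e9])]
  have hI : ∀ y y' : ℝ, y ≤ y' → y' ≤ 2 →
      0 ≤ φ (c 4) (wN1 + y • e9 4) - φ (c 4) (wN1 + y' • e9 4) := by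
    intro y y' h1 h3
    refine H.incr_nonneg (leg_wN1' (by linarith) (by norm_num)) (leg_wN1' (by linarith)
      (by norm_num)) (c 4) (fun i hi => ?_) ?_
    · have : i ≠ 4 := fun h => hi (by rw [h])
      rw [add_e9_ne this, add_e9_ne this]
    · intro i
      by_cases hi : i = 4
      · subst hi; rw [add_e9_same, add_e9_same]; linarith
      · rw [add_e9_ne hi, add_e9_ne hi]
  have key : ∀ δ : ℝ, 0 < δ → δ < 1 →
      (1 - s) * (2 - δ) ≤ φ (c 4) wN1 - φ (c 4) (wN1 + (2 - δ) • e9 4) := by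
    intro δ hδ hδ1
    refine H.mv_ge (t := 4) (w0 := wN1) (y := 2 - δ) (q := 1 - s) (η := δ / 100) (by linarith)
      (by positivity) (leg_wN1.mono (by linarith)) (leg_wN1' (by linarith) (by linarith))
      (N := univ) (by simp) ?_
    intro x hx w _ hw _ R hR
    have b3 := nbd hw 3
    have b4 := nbd hw 4
    have b6 := nbd hw 6
    simp only [wN1, Matrix.cons_val, Pi.add_apply, Pi.smul_apply, smul_eq_mul, e9, Pi.single_apply,
      Fin.reduceEq, reduceIte, mul_one, mul_zero, add_zero, zero_add] at b3 b4 b6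
    set w' : V9 := ![0, 50, w 4, w 3, w 4, w 4, w 6, 0, 100] with hw'
    have hgap : ∀ i : Fin 10, i ≠ 7 → i ≠ 9 → 0 < gap w' i := by
      intro i h7 h9
      fin_cases i
      · simp [gap, hw']
      · simp [gap, hw']; linarith [b3.2]
      · simp [gap, hw']; linarith [b6.2]
      · simp [gap, hw']; linarith [b6.2, b3.1]
      · simp [gap, hw']; linarith [b4.2, b3.1, hx.2]
      · simp [gap, hw']; linarith [b4.2, b6.1, hx.2]
      · simp [gap, hw']
      · exact absurd rfl h7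
      · simp [gap, hw']; linarith [b4.2, b3.1, b6.1, hx.2]
      · exact absurd rfl h9
    have g7 : gap w' 7 = 0 := by simp [gap, hw']
    have g9 : gap w' 9 = 0 := by simp [gap, hw']
    have hl : LegM 0 w' := LegM.of_gap fun i => by
      by_cases h7 : i = 7
      · rw [h7, g7]
      by_cases h9 : i = 9
      · rw [h9, g9]
      exact (hgap i h7 h9).le
    obtain ⟨h, lm, hp, h0, hlm, hll⟩ := cl9_tans H hl
    -- the linear class
    have hR' : RtAt (φ (c 3)) w' R := by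
      rw [← P.c4]
      refine hR.loc H fun t ht => ?_
      rw [P.c4] at ht
      rcases P.k346.1 ht with rfl | rfl | rfl <;> simp [hw']
    have l3 : ∀ d, LegM 0 d → lm (c 3) d = -(R 3 * d 3 + R 4 * d 4 + R 6 * d 6) := by
      intro d hd
      have h3 := tendsto_nhds_unique (hlm (c 3) d hd) ((hR' d).comp h0)
      rw [h3]
      have hoff : ∀ t, t ≠ 3 → t ≠ 4 → t ≠ 6 → R t = 0 := fun t a b e => hR'.off H fun h' => by
        rcases P.k346.1 h' with rfl | rfl | rfl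
        · exact a rfl
        · exact b rfl
        · exact e rfl
      simp only [Fin.sum_univ_succ, Finset.univ_eq_empty, Finset.sum_empty]
      have f0 := hoff 0 (by decide) (by decide) (by decide)
      have f1 := hoff 1 (by decide) (by decide) (by decide)
      have f2 := hoff 2 (by decide) (by decide) (by decide)
      have f5 := hoff 5 (by decide) (by decide) (by decide)
      have f7 := hoff 7 (by decide) (by decide) (by decide)
      have f8 := hoff 8 (by decide) (by decide) (by decide)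
      simp only [Fin.reduceSucc, f0, f1, f2, f5, f7, f8]
      ring
    have l1 : ∀ d, LegM 0 d → lm (c 1) d = -(ρ 1 * d 1) := by
      intro d hd
      refine tendsto_nhds_unique (hlm (c 1) d hd) (tendsto_const_nhds.congr fun m => ?_)
      rw [al_val H P.al1, al_val H P.al1, Pi.add_apply, Pi.smul_apply, smul_eq_mul]
      have := (hp m).ne'
      field_simp
      ring
    have l8 : ¬ L → ∀ d, LegM 0 d → lm (c 8) d = -(ρ 8 * d 8) := by
      intro hL d hd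
      refine tendsto_nhds_unique (hlm (c 8) d hd) (tendsto_const_nhds.congr fun m => ?_)
      rw [al_val H (P.al8 hL), al_val H (P.al8 hL), Pi.add_apply, Pi.smul_apply, smul_eq_mul]
      have := (hp m).ne'
      field_simp
      ring
    have l2 : ∀ d, LegM 0 d → d 2 = d 5 → lm (c 2) d = -(ρ 2 * d 2) := by
      intro d hd hdd
      refine tendsto_nhds_unique (hlm (c 2) d hd) (tendsto_const_nhds.congr fun m => ?_)
      have r : ∀ v : V9, v 2 = v 5 → φ (c 2) v = -(ρ 2 * v 2) := fun v hv =>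
        H.rate 2 v fun t' ht' => by
          rcases P.k25.1 ht' with rfl | rfl
          · rfl
          · rw [P.d5 rfl, hv]
      rw [r _ (by simp [hw', hdd]), r w' (by simp [hw'])]
      have := (hp m).ne'
      simp only [Pi.add_apply, Pi.smul_apply, smul_eq_mul]
      field_simp
      ring
    -- the sum over the classes
    have hsum : ∃ Ψ : V9 → ℝ, (∀ d d', d 0 = d' 0 → d 7 = d' 7 → d 8 = d' 8 → LegM 0 d →
        LegM 0 d' → Ψ d = Ψ d') ∧ ∀ d, LegM 0 d →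
        Tendsto (fun m => (Λ (w' + h m • d) - Λ w') / h m) atTop
          (𝓝 (-(Ψ d + -lm (c 2) d + (ρ 1 * d 1 + R 3 * d 3 + R 4 * d 4 + R 6 * d 6)))) := by
      have inj : ∀ t ∈ ({0, 1, 2, 3} : Finset (Fin 9)), ∀ t' ∈ ({0, 1, 2, 3} : Finset (Fin 9)),
          c t = c t' → t = t' := by
        intro t ht t' ht' he
        have h1 := (P.par t t').1 he
        unfold PK ZK at h1
        simp only [Finset.mem_insert, Finset.mem_singleton] at ht ht'
        rcases ht with rfl | rfl | rfl | rfl <;> rcases ht' with rfl | rfl | rfl | rfl <;>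
          first | rfl | (exfalso; revert h1; simp)
      have cov : ∀ t : Fin 9, t ≠ 8 → ∃ t' ∈ ({0, 1, 2, 3} : Finset (Fin 9)), c t' = c t := by
        intro t ht
        fin_cases t
        · exact ⟨0, by simp, rfl⟩
        · exact ⟨1, by simp, rfl⟩
        · exact ⟨2, by simp, rfl⟩
        · exact ⟨3, by simp, rfl⟩
        · exact ⟨3, by simp, P.c4.symm⟩
        · exact ⟨2, by simp, P.c5.symm⟩
        · exact ⟨3, by simp, P.c6.symm⟩
        · exact ⟨0, by simp, (P.z.2 (Or.inr (Or.inl rfl))).symm⟩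
        · exact absurd rfl ht
      by_cases hL : L
      · refine ⟨fun d => -lm (c 0) d, fun d d' a b e hd hd' => ?_, fun d hd => ?_⟩
        · show -lm (c 0) d = -lm (c 0) d'
          rw [hll (c 0) d d' (fun t ht => ?_) hd hd']
          rcases P.z.1 ht with rfl | rfl | ⟨-, rfl⟩
          · exact a
          · exact b
          · exact e
        · have cov' : ∀ t : Fin 9, ∃ t' ∈ ({0, 1, 2, 3} : Finset (Fin 9)), c t' = c t := fun t => by
            by_cases ht : t = 8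
            · exact ⟨0, by simp, by rw [ht]; exact (P.z.2 (Or.inr (Or.inr ⟨hL, rfl⟩))).symm⟩
            · exact cov t ht
          have h5 : Tendsto (fun m => ∑ t ∈ ({0, 1, 2, 3} : Finset (Fin 9)),
              (φ (c t) (w' + h m • d) - φ (c t) w') / h m) atTop
              (𝓝 (∑ t ∈ ({0, 1, 2, 3} : Finset (Fin 9)), lm (c t) d)) :=
            tendsto_finsetSum _ fun t _ => hlm (c t) d hd
          have e5 : ∑ t ∈ ({0, 1, 2, 3} : Finset (Fin 9)), lm (c t) d =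
              lm (c 0) d + lm (c 1) d + lm (c 2) d + lm (c 3) d := by
            simp [Finset.sum_insert]; ring
          rw [e5, l1 d hd, l3 d hd] at h5
          have e6 : lm (c 0) d + -(ρ 1 * d 1) + lm (c 2) d +
              -(R 3 * d 3 + R 4 * d 4 + R 6 * d 6) =
              -(-lm (c 0) d + -lm (c 2) d + (ρ 1 * d 1 + R 3 * d 3 + R 4 * d 4 + R 6 * d 6)) := by
            ring
          rw [e6] at h5
          refine h5.congr fun m => ?_
          rw [H.sum_rep inj cov' (hl.add_smul hd (hp m).le), H.sum_rep inj cov' hl,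
            ← Finset.sum_sub_distrib, Finset.sum_div]
      · refine ⟨fun d => -lm (c 0) d + ρ 8 * d 8, fun d d' a b e hd hd' => ?_, fun d hd => ?_⟩
        · show -lm (c 0) d + ρ 8 * d 8 = -lm (c 0) d' + ρ 8 * d' 8
          rw [hll (c 0) d d' (fun t ht => ?_) hd hd', e]
          rcases P.z.1 ht with rfl | rfl | ⟨-, rfl⟩
          · exact a
          · exact b
          · exact e
        · have cov' : ∀ t : Fin 9, ∃ t' ∈ insert (8 : Fin 9) ({0, 1, 2, 3} : Finset (Fin 9)),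
              c t' = c t := fun t => by
            by_cases ht : t = 8
            · exact ⟨8, by simp, by rw [ht]⟩
            · obtain ⟨t', h3, h4⟩ := cov t ht
              exact ⟨t', Finset.mem_insert_of_mem h3, h4⟩
          have inj' : ∀ t ∈ insert (8 : Fin 9) ({0, 1, 2, 3} : Finset (Fin 9)),
              ∀ t' ∈ insert (8 : Fin 9) ({0, 1, 2, 3} : Finset (Fin 9)), c t = c t' → t = t' := by
            intro t ht t' ht' he
            by_cases a8 : t = 8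
            · subst a8; exact (P.al8 hL t' he.symm).symm
            by_cases b8 : t' = 8
            · subst b8; exact P.al8 hL t he
            exact inj t ((Finset.mem_insert.1 ht).resolve_left a8) t'
              ((Finset.mem_insert.1 ht').resolve_left b8) he
          have h5 : Tendsto (fun m => ∑ t ∈ insert (8 : Fin 9) ({0, 1, 2, 3} : Finset (Fin 9)),
              (φ (c t) (w' + h m • d) - φ (c t) w') / h m) atTop
              (𝓝 (∑ t ∈ insert (8 : Fin 9) ({0, 1, 2, 3} : Finset (Fin 9)), lm (c t) d)) :=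
            tendsto_finsetSum _ fun t _ => hlm (c t) d hd
          have e5 : ∑ t ∈ insert (8 : Fin 9) ({0, 1, 2, 3} : Finset (Fin 9)), lm (c t) d =
              lm (c 8) d + (lm (c 0) d + lm (c 1) d + lm (c 2) d + lm (c 3) d) := by
            simp [Finset.sum_insert]; ring
          rw [e5, l1 d hd, l3 d hd, l8 hL d hd] at h5
          have e6 : -(ρ 8 * d 8) + (lm (c 0) d + -(ρ 1 * d 1) + lm (c 2) d +
              -(R 3 * d 3 + R 4 * d 4 + R 6 * d 6)) =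
              -((-lm (c 0) d + ρ 8 * d 8) + -lm (c 2) d +
                (ρ 1 * d 1 + R 3 * d 3 + R 4 * d 4 + R 6 * d 6)) := by
            ring
          rw [e6] at h5
          refine h5.congr fun m => ?_
          rw [H.sum_rep inj' cov' (hl.add_smul hd (hp m).le), H.sum_rep inj' cov' hl,
            ← Finset.sum_sub_distrib, Finset.sum_div]
    obtain ⟨Ψ, hΨ, hT⟩ := hsum
    have h6 := K w' ![0, ρ 1, 0, R 3, R 4, 0, R 6, 0, 0] Ψ (fun d => -lm (c 2) d) (ρ 2) h g7 g9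
      hgap (by simp [hw']) hp (h0.mono_right nhdsWithin_le_nhds) hΨ
      (fun d hd hdd => by simp only [l2 d hd hdd, neg_neg]) (fun d hd => by
        have := hT d hd
        simpa using this) h2
    simpa using h6
  rcases le_or_gt 1 s with hs | hs
  · have := hI 0 2 (by norm_num) le_rfl
    rw [zero_smul, add_zero] at this
    rw [e1]; linarith
  by_contra hcon
  push Not at hcon
  rw [e1] at hcon
  set I := φ (c 4) wN1 - φ (c 4) (wN1 + (2:ℝ) • e9 4) with hI'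
  have hlt : I < (1 - s) * 2 := by linarith
  have hk : ∀ δ : ℝ, 0 < δ → δ < 1 → (1 - s) * (2 - δ) ≤ I := by
    intro δ hδ hδ1
    have h3 := key δ hδ hδ1
    have h4 := hI (2 - δ) 2 (by linarith) le_rfl
    rw [hI']; linarith
  obtain ⟨δ, hδ, hδ1, hδ2⟩ : ∃ δ : ℝ, 0 < δ ∧ δ < 1 ∧ (1 - s) * δ < (1 - s) * 2 - I := by
    refine ⟨min (1 / 2) (((1 - s) * 2 - I) / (2 * (1 - s))), lt_min (by norm_num)
      (div_pos (by linarith) (by linarith)), (min_le_left _ _).trans_lt (by norm_num), ?_⟩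
    have h3 := min_le_right (1 / 2 : ℝ) (((1 - s) * 2 - I) / (2 * (1 - s)))
    have h4 : 0 < 1 - s := by linarith
    calc (1 - s) * min (1 / 2 : ℝ) (((1 - s) * 2 - I) / (2 * (1 - s)))
        ≤ (1 - s) * (((1 - s) * 2 - I) / (2 * (1 - s))) := mul_le_mul_of_nonneg_left h3 h4.le
      _ = ((1 - s) * 2 - I) / 2 := by field_simp
      _ < (1 - s) * 2 - I := by linarith
  have := hk δ hδ hδ1
  nlinarith

end Crest.Agent.R116.Tk299
end

-- ▼ part R116/K3W1_593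
section

/-!
# R116, ties: **[K3H]** over 710's `LLaw` (helper593)

`κ`-tie, `k' = 1` : level slots `{0, 2}`.  Fibre of a pin: `C, X` (slots `3 4 5 6`) and the normal slot
`11` fine, `H` (9) and `P` (10) coarse.  If the height graph of the flag `2` has no heavy strips
(linear modulus, `Strips` of `K3h_593`) and `H, P` have joint growth `≥ σ`, then the normal slot
has growth `≥ σ`.
-/

set_option autoImplicit false
set_option linter.unusedVariables false
set_option linter.unusedSectionVars false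

open Filter Topology Finset

namespace Crest.Agent.R116.K3h593

open Crest.Agent.R138.Ex926 (Base U)
open Crest.Agent.R138.TwA501 (dpow_pos dpow_anti dpow_add dpow_le_one)
open Crest.Agent.R136.Gf356
open Crest.Agent.R136.Rg6_501
open Crest.Agent.R116.ChL222 Crest.Agent.R116.PL504 Crest.Agent.R116.EvL504
open Crest.Agent.R116.Kr710

section alg

variable {S : Finset (Fin 12)}


end alg


/-- exponents of the fibre of [K3H] -/
structure KD (x : ℝ) (pS : Fin 12 → ℝ) : Prop where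
  x0 : 0 < x
  le : ∀ s, pS s ≤ x
  f3 : pS 3 = x
  f4 : pS 4 = x
  f5 : pS 5 = x
  f6 : pS 6 = x
  f11 : pS 11 = x
  z9 : pS 9 = 0
  z10 : pS 10 = 0


end Crest.Agent.R116.K3h593
end

-- ▼ part R116/K3W3_593
section

/-!
# R116, ties: [K3H] in a window (helper593)

`κ`-tie, `k' = 1` : the level slots are `0, 2` (and possibly `1`, frozen).

* `cpl`, `crd2`, `crd1` : exact laws of the slots `2`, `1`;
* `fb W b n k` = slot `2` of the height `k` seen from the incidence `b n`; `hcmp2` : `HCmp` for it;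
* `own_two` : own motion of the slot `2` against `fb`;
* **`k3h_nat`** (slot `D` natural), **`k3h_fro`** (slot `D` frozen).
-/

set_option autoImplicit false
set_option linter.unusedVariables false
set_option linter.unusedSectionVars false

open Filter Topology Finset

namespace Crest.Agent.R116.K3h593

open Crest.Agent.R138.Ex926 (Base U)
open Crest.Agent.R138.TwA501 (dpow_pos dpow_anti dpow_add dpow_le_one)
open Crest.Agent.R136.Gf356 Crest.Agent.R136.Net191 Crest.Agent.R136.Qg926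
open Crest.Agent.R116.ChL222 Crest.Agent.R116.PL504 Crest.Agent.R116.EvL504
open Crest.Agent.R116.Kr710 Crest.Agent.R116.Kst593

variable {ι : ℕ → Type*} [∀ n, DecidableEq (ι n)] {W : Wnd 12 ι} {K tp : ℝ}

/-- coupling of the slots `0, 1` in the slot `2` -/
noncomputable def cpl (W : Wnd 12 ι) (n : ℕ) : ℝ := side W n 0 * side W n 1 / side W n 2

theorem cpl_nonneg (h : WL W K tp) (n : ℕ) : 0 ≤ cpl W n :=
  div_nonneg (mul_nonneg (h.side_pos' n 0).le (h.side_pos' n 1).le) (h.side_pos' n 2).le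

theorem cpl_le (h : WL W K tp) {n : ℕ} (g : W.Good n) : cpl W n ≤ 1 := by
  unfold cpl
  rw [div_le_one (h.side_pos' n 2)]
  exact (h.sides g).w2

theorem crd2 (h : WL W K tp) (n : ℕ) (i j l : ι n) :
    W.crd n i l 2 = W.crd n i j 2 + W.crd n j l 2 -
      2 * (cpl W n * (W.crd n i j 1 * W.crd n j l 0)) := by
  rw [h.crd_add i j l 2]
  unfold compW cpl
  have h2 := (h.side_pos' n 2).ne'
  show (side W n 2 * W.crd n i j 2 + side W n 2 * W.crd n j l 2 -
    2 * ((side W n 1 * W.crd n i j 1) * (side W n 0 * W.crd n j l 0))) / side W n 2 = _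
  field_simp

theorem crd1 (h : WL W K tp) (n : ℕ) (i j l : ι n) :
    W.crd n i l 1 = W.crd n i j 1 + W.crd n j l 1 := by
  rw [h.crd_add i j l 1]
  exact FrX.compW_D h _ _

/-- slot `2` of the height `k` seen from `b n` -/
noncomputable def fb (W : Wnd 12 ι) (b : ∀ n, ι n) (n k : ℕ) : ℝ :=
  W.crd n (b n) (W.zrep n k) 2

theorem fb_near (h : WL W K tp) (h2 : (2 : Fin 12) ∈ W.S) {n : ℕ} (g : W.Good n) {b : ∀ n, ι n}
    (hb : b n ∈ W.Cl n) {j : ι n} (hj : j ∈ W.Cl n) :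
    |fb W b n (W.zc n j) - W.crd n (b n) j 2| ≤ 3 * W.B'.d n ^ tp := by
  obtain ⟨r1, r2⟩ := W.zrep_spec hj
  have e := crd2 h n (b n) j (W.zrep n (W.zc n j))
  have a2 := h.crd_z g hj r1 r2.symm h2
  have a0 := h.crd_z g hj r1 r2.symm h.z0
  have b1 := h.crd_le g hb hj 1
  have c0 := cpl_nonneg h n
  have c1 := cpl_le h g
  have r0 := h.r0 n
  have q : |cpl W n * (W.crd n (b n) j 1 * W.crd n j (W.zrep n (W.zc n j)) 0)| ≤
      W.B'.d n ^ tp := by
    rw [abs_mul, abs_mul, abs_of_nonneg c0]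
    calc cpl W n * (|W.crd n (b n) j 1| * |W.crd n j (W.zrep n (W.zc n j)) 0|)
        ≤ 1 * (1 * W.B'.d n ^ tp) := by gcongr
      _ = _ := by ring
  unfold fb
  rw [e]
  rw [abs_le] at a2 q ⊢
  constructor <;> linarith [a2.1, a2.2, q.1, q.2]

theorem fb_le (h : WL W K tp) {n : ℕ} (g : W.Good n) {b : ∀ n, ι n} (hb : b n ∈ W.Cl n) {k : ℕ}
    (hk : W.zrep n k ∈ W.Cl n) : |fb W b n k| ≤ 1 := h.crd_le g hb hk 2

/-- **`HCmp` for the slot `2`** -/
theorem hcmp2 (h : WL W K tp) (h2 : (2 : Fin 12) ∈ W.S) {b : ∀ n, ι n}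
    (hb : ∀ᶠ n in (U : Filter ℕ), b n ∈ W.Cl n) (rl : ∀ n, ι n → ℕ) {x : ℝ} (hx : x ≤ tp) :
    HCmp W rl 2 Set.univ (fb W b) x := by
  intro ε hε
  filter_upwards [hb, h.ok.ev_good, ev_up W 6 tp hε] with n hb g hu i hi
  refine ⟨-(2 * (cpl W n * W.crd n (b n) i 1)), Set.mem_univ _, fun j hj _ => ?_⟩
  have f1 := fb_near h h2 g hb hi
  have f2 := fb_near h h2 g hb hj
  have e := crd2 h n (b n) i j
  rw [h.kz]
  have e2 : (fb W b n (W.zc n j) - fb W b n (W.zc n i)) - W.crd n i j 2 -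
      -(2 * (cpl W n * W.crd n (b n) i 1)) * W.crd n i j 0 =
      (fb W b n (W.zc n j) - W.crd n (b n) j 2) - (fb W b n (W.zc n i) - W.crd n (b n) i 2) := by
    rw [e]; ring
  rw [e2]
  have hxx : W.B'.d n ^ (tp - ε) ≤ W.B'.d n ^ (x - ε) := dpow_anti W.B' n (by linarith)
  rw [abs_le] at f1 f2 ⊢
  constructor <;> linarith [f1.1, f1.2, f2.1, f2.2]

/-- **own motion of the slot `2`** -/
theorem own_two (h : WL W K tp) (h2 : (2 : Fin 12) ∈ W.S) {E : ∀ n, Finset (ι n)} {n : ℕ}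
    (r : Reg W E n) {b : ∀ n, ι n} (hb : b n ∈ W.Cl n) {i k₀ k : ℕ}
    (hi₀ : (i, k₀) ∈ (W.cfg E n).I) (hi : (i, k) ∈ (W.cfg E n).I) {δ : ℝ}
    (hδ : cpl W n * |W.crd n (b n) (W.rep n i k) 1| ≤ δ) :
    |own W n i k k₀ 2 - (fb W b n k₀ - fb W b n k)| ≤ 6 * W.B'.d n ^ tp + 2 * δ := by
  obtain ⟨u1, u2, u3⟩ := r.spec hi
  obtain ⟨v1, v2, v3⟩ := r.spec hi₀
  have f1 := fb_near h h2 r.good hb u1
  rw [u3] at f1
  have f2 := fb_near h h2 r.good hb v1
  rw [v3] at f2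
  have e := crd2 h n (b n) (W.rep n i k) (W.rep n i k₀)
  have hz := h.crd_le r.good u1 v1 0
  have c0 := cpl_nonneg h n
  have q : |cpl W n * (W.crd n (b n) (W.rep n i k) 1 *
      W.crd n (W.rep n i k) (W.rep n i k₀) 0)| ≤ δ := by
    rw [abs_mul, abs_mul, abs_of_nonneg c0, ← mul_assoc]
    calc cpl W n * |W.crd n (b n) (W.rep n i k) 1| * |W.crd n (W.rep n i k) (W.rep n i k₀) 0|
        ≤ cpl W n * |W.crd n (b n) (W.rep n i k) 1| * 1 := by gcongr
      _ ≤ δ := by rw [mul_one]; exact hδ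
  have e2 : own W n i k k₀ 2 - (fb W b n k₀ - fb W b n k) =
      -(fb W b n k₀ - W.crd n (b n) (W.rep n i k₀) 2) +
        (fb W b n k - W.crd n (b n) (W.rep n i k) 2) +
        2 * (cpl W n * (W.crd n (b n) (W.rep n i k) 1 *
          W.crd n (W.rep n i k) (W.rep n i k₀) 0)) := by
    show W.crd n (W.rep n i k) (W.rep n i k₀) 2 - _ = _
    rw [e]; ring
  rw [e2]
  rw [abs_le] at f1 f2 q ⊢
  constructor <;> linarith [f1.1, f1.2, f2.1, f2.2, q.1, q.2]



section main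

variable {κ : Type*} [DecidableEq κ] {rl : ∀ n, ι n → ℕ} {cw : ∀ n, ι n → κ}
  {N : ℕ → ℝ} {x γ : ℝ} {E' : ∀ n, Finset (ι n)} {g : ℕ → ℝ} {ex : ℕ → ∀ n, ι n → ℕ}
  {σ Rr Dc : ℝ} {Leg : Set (Fin 12 → ℝ)} {ν : (Fin 12 → ℝ) → ℝ}

theorem zrep_mem {n : ℕ} (r : Reg W E' n) {k : ℕ} (hk : k ∈ (W.cfg E' n).Z) :
    W.zrep n k ∈ W.Cl n := by
  rw [r.cfg_eq] at hk
  obtain ⟨y, hy, rfl⟩ := mem_image.1 hk
  exact (W.zrep_spec (r.sub hy)).1




end main

end Crest.Agent.R116.K3h593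
end

-- ▼ part R116/K3W5_593
section

/-!
# R116, ties: [K3H] in a window at any legal base point (helper593)

The walls `F ≤ z + P` and `F ≤ E + N` are tight, the wall `E ≤ z + D` is slack, the other walls
are arbitrary; the slot `D` may be unresolved.

* `ev11` : the movement of the slot `11` along the fibre `C, X` fine;
* **`k3h_u`**.
-/

set_option autoImplicit false
set_option linter.unusedVariables false
set_option linter.unusedSectionVars false

open Filter Topology Finset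

namespace Crest.Agent.R116.K3h593

open Crest.Agent.R138.Ex926 (Base U)
open Crest.Agent.R138.TwA501 (dpow_pos dpow_anti dpow_add dpow_le_one)
open Crest.Agent.R136.Gf356 Crest.Agent.R136.Net191 Crest.Agent.R136.Qg926
open Crest.Agent.R136.Rg6_501
open Crest.Agent.R116.ChL222 Crest.Agent.R116.PL504 Crest.Agent.R116.EvL504
open Crest.Agent.R116.Kr710 Crest.Agent.R116.Kst593

variable {ι : ℕ → Type*} [∀ n, DecidableEq (ι n)] {W : Wnd 12 ι} {K tp : ℝ}

theorem prA {p q P Q T : ℝ} (hp : |p| ≤ P) (hq : |q| ≤ Q) (h : P * Q ≤ T) : |p * q| ≤ T :=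
  (bd2D hp hq).trans h

theorem prB {S1 S2 T u v : ℝ} (h1 : 0 < S1) (h2 : 0 < S2) (hT : S1 * S2 ≤ T) (hu : |u| ≤ 1) :
    |S1 * u * (S2 * v)| ≤ |v| * T := by
  have e : S1 * u * (S2 * v) = (S1 * S2) * (u * v) := by ring
  have hp := mul_pos h1 h2
  rw [e, abs_mul (S1 * S2), abs_of_pos hp, abs_mul u v]
  calc S1 * S2 * (|u| * |v|) ≤ T * (1 * |v|) :=
        mul_le_mul hT (mul_le_mul_of_nonneg_right hu (abs_nonneg _))
          (mul_nonneg (abs_nonneg _) (abs_nonneg _)) (hp.le.trans hT)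
    _ = _ := by ring

/-- algebra of the slot `11` -/
theorem alg11 {D a b : Fin 12 → ℝ} (hD : Sides D) {q κ : ℝ} (q0 : 0 ≤ q) (q1 : q ≤ 1)
    (ha : ∀ k, |a k| ≤ D k) (hb : ∀ k, |b k| ≤ D k) (h3 : |b 3| ≤ q * D 3) (h4 : |b 4| ≤ q * D 4)
    (h5 : |b 5| ≤ q * D 5) (h6 : |b 6| ≤ q * D 6) (hκ : D 0 * D 1 ≤ κ * D 2) (a11 : a 11 = 0)
    (hκ0 : 0 ≤ κ) :
    |comp a b 11 - (b 11 - a 0 * b 10 - a 2 * b 9)| ≤ (11 * q + 2 * κ) * D 11 := by
  have p := fun s => (hD.pos s).le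
  have hq := fun s => mul_nonneg q0 (p s)
  -- `a0 b3`, `a0 b4`, `a1 b5`, `a1 b6`
  have u3 : |a 0 * b 3| ≤ q * D 5 := prA (ha 0) h3 (by nlinarith [hD.w5])
  have u4 : |a 0 * b 4| ≤ q * D 6 := prA (ha 0) h4 (by nlinarith [hD.w6])
  have v5 : |a 1 * b 5| ≤ q * D 7 := prA (ha 1) h5 (by nlinarith [hD.w7'])
  have v6 : |a 1 * b 6| ≤ q * D 8 := prA (ha 1) h6 (by nlinarith [hD.w8'])
  have qq : q * q ≤ q := by nlinarith
  have n11 := p 11
  have q11 : q * q * D 11 ≤ q * D 11 := mul_le_mul_of_nonneg_right qq n11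
  have t1 : |a 7 * b 5| ≤ q * D 11 := prA (ha 7) h5 (by
    have := mul_le_mul_of_nonneg_left hD.w11a q0; linarith [mul_comm (D 5) (D 7),
      mul_left_comm (D 7) q (D 5)])
  have t2 : |a 8 * b 6| ≤ q * D 11 := prA (ha 8) h6 (by
    have := mul_le_mul_of_nonneg_left hD.w11b q0; linarith [mul_comm (D 6) (D 8),
      mul_left_comm (D 8) q (D 6)])
  have t3 : |a 7 * (a 0 * b 3)| ≤ q * D 11 := prA (ha 7) u3 (by
    have := mul_le_mul_of_nonneg_left hD.w11a q0; linarith [mul_comm (D 5) (D 7),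
      mul_left_comm (D 7) q (D 5)])
  have t4 : |a 8 * (a 0 * b 4)| ≤ q * D 11 := prA (ha 8) u4 (by
    have := mul_le_mul_of_nonneg_left hD.w11b q0; linarith [mul_comm (D 6) (D 8),
      mul_left_comm (D 8) q (D 6)])
  have s3 : |a 0 * b 3 * b 3| ≤ q * q * D 9 := prA u3 h3 (by
    have := mul_le_mul_of_nonneg_left hD.w9 (mul_nonneg q0 q0)
    have e : q * D 5 * (q * D 3) = q * q * (D 3 * D 5) := by ring
    rw [e]; exact this)
  have s4 : |a 0 * b 4 * b 4| ≤ q * q * D 9 := prA u4 h4 (by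
    have := mul_le_mul_of_nonneg_left hD.w9' (mul_nonneg q0 q0)
    have e : q * D 6 * (q * D 4) = q * q * (D 4 * D 6) := by ring
    rw [e]; exact this)
  have w29 : D 2 * (q * q * D 9) ≤ q * D 11 := by
    have := mul_le_mul_of_nonneg_left hD.w11c (mul_nonneg q0 q0)
    have e : D 2 * (q * q * D 9) = q * q * (D 2 * D 9) := by ring
    rw [e]; linarith
  have t5 : |a 2 * (a 0 * b 3 * b 3)| ≤ q * D 11 := prA (ha 2) s3 w29
  have t6 : |a 2 * (a 0 * b 4 * b 4)| ≤ q * D 11 := prA (ha 2) s4 w29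
  have w75 : q * D 7 * (q * D 5) ≤ q * D 11 := by
    have := mul_le_mul_of_nonneg_left hD.w11a (mul_nonneg q0 q0)
    have e : q * D 7 * (q * D 5) = q * q * (D 5 * D 7) := by ring
    rw [e]; linarith
  have w86 : q * D 8 * (q * D 6) ≤ q * D 11 := by
    have := mul_le_mul_of_nonneg_left hD.w11b (mul_nonneg q0 q0)
    have e : q * D 8 * (q * D 6) = q * q * (D 6 * D 8) := by ring
    rw [e]; linarith
  have t7 : |a 1 * b 5 * b 5| ≤ q * D 11 := prA v5 h5 w75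
  have t8 : |a 1 * b 6 * b 6| ≤ q * D 11 := prA v6 h6 w86
  have t9 : |a 1 * b 5 * (a 0 * b 3)| ≤ q * D 11 := prA v5 u3 w75
  have t10 : |a 1 * b 6 * (a 0 * b 4)| ≤ q * D 11 := prA v6 u4 w86
  have s9 : |a 0 * a 1| ≤ κ * D 2 := prA (ha 0) (ha 1) hκ
  have t11 : |a 0 * a 1 * b 9| ≤ κ * D 11 := prA s9 (hb 9) (by
    have := mul_le_mul_of_nonneg_left hD.w11c hκ0
    have e : κ * D 2 * D 9 = κ * (D 2 * D 9) := by ring
    rw [e]; exact this)
  have e : comp a b 11 - (b 11 - a 0 * b 10 - a 2 * b 9) =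
      -(a 7 * b 5) - a 8 * b 6 + a 7 * (a 0 * b 3) + a 8 * (a 0 * b 4) +
      (a 2 * (a 0 * b 3 * b 3)) / 2 + (a 2 * (a 0 * b 4 * b 4)) / 2 - a 1 * b 5 * b 5 -
      a 1 * b 6 * b 6 + 2 * (a 1 * b 5 * (a 0 * b 3)) + 2 * (a 1 * b 6 * (a 0 * b 4)) -
      2 * (a 0 * a 1 * b 9) := by
    have : comp a b 11 = a 11 + b 11 - a 0 * b 10 - a 7 * (b 5 - a 0 * b 3) -
      a 8 * (b 6 - a 0 * b 4) - a 2 * (b 9 - a 0 * ((b 3 ^ 2 + b 4 ^ 2) / 2)) -
      a 1 * (b 5 ^ 2 + b 6 ^ 2 - 2 * (a 0 * (b 5 * b 3 + b 6 * b 4 - b 9))) := rfl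
    rw [this, a11]; ring
  rw [e]
  have g1 := abs_le.1 t1
  have g2 := abs_le.1 t2
  have g3 := abs_le.1 t3
  have g4 := abs_le.1 t4
  have g5 := abs_le.1 t5
  have g6 := abs_le.1 t6
  have g7 := abs_le.1 t7
  have g8 := abs_le.1 t8
  have g9 := abs_le.1 t9
  have g10 := abs_le.1 t10
  have g11 := abs_le.1 t11
  rw [abs_le]
  constructor <;> linarith [g1.1, g1.2, g2.1, g2.2, g3.1, g3.2, g4.1, g4.2, g5.1, g5.2, g6.1,
    g6.2, g7.1, g7.2, g8.1, g8.2, g9.1, g9.2, g10.1, g10.2, g11.1, g11.2]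

variable {E : ∀ n, Finset (ι n)}

/-- **the movement of the slot `11`** -/
theorem ev11 (h : WL W K tp) {n : ℕ} (r : Reg W E n) (T1 : side W n 0 * side W n 10 = side W n 11)
    (T2 : side W n 2 * side W n 9 = side W n 11) {k k' i l : ℕ} (hi : (i, k) ∈ (W.cfg E n).I)
    (hl : (l, k) ∈ (W.cfg E n).I) (hi' : (i, k') ∈ (W.cfg E n).I) (hl' : (l, k') ∈ (W.cfg E n).I)
    {q : ℝ} (q0 : 0 ≤ q) (q1 : q ≤ 1) (h3 : |(W.cfg E n).rel k i l 3| ≤ q)
    (h4 : |(W.cfg E n).rel k i l 4| ≤ q) (h5 : |(W.cfg E n).rel k i l 5| ≤ q)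
    (h6 : |(W.cfg E n).rel k i l 6| ≤ q) :
    |(W.cfg E n).rel k' i l 11 - ((W.cfg E n).rel k i l 11 -
      own W n i k' k 0 * (W.cfg E n).rel k i l 10 - own W n i k' k 2 * (W.cfg E n).rel k i l 9)| ≤
      11 * q + 2 * cpl W n + 96 * W.B'.d n ^ tp := by
  have key := r.evoSL h hi hl hi' hl' (s := 11) (by decide)
  have hs := h.side_pos' n
  have hD := h.sides r.good
  set o := own W n i k' k with ho
  set c := (W.cfg E n).rel k i l with hc
  set a : Fin 12 → ℝ := fun j => side W n j * LvS SL o j with ha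
  set b : Fin 12 → ℝ := fun j => side W n j * LnS SL c j with hb
  have o1 : ∀ s, |LvS SL o s| ≤ 1 := fun s => by
    unfold LvS
    split_ifs
    · exact r.own_le h hi hi' s
    · rw [abs_zero]; exact zero_le_one
  have c1 : ∀ s, |LnS SL c s| ≤ 1 := fun s => by
    unfold LnS
    split_ifs
    · rw [abs_zero]; exact zero_le_one
    · exact r.rel_le h hi hl s
  have ab : ∀ (s : Fin 12) (u Q : ℝ), |u| ≤ Q → |side W n s * u| ≤ Q * side W n s := by
    intro s u Q hu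
    rw [abs_mul, abs_of_pos (hs s), mul_comm]
    exact mul_le_mul_of_nonneg_right hu (hs s).le
  have a1 : ∀ s, |a s| ≤ side W n s := fun s => by
    have := ab s _ _ (o1 s); rwa [one_mul] at this
  have b1 : ∀ s, |b s| ≤ side W n s := fun s => by
    have := ab s _ _ (c1 s); rwa [one_mul] at this
  have l3 : LnS SL c 3 = c 3 := if_neg (by decide)
  have l4 : LnS SL c 4 = c 4 := if_neg (by decide)
  have l5 : LnS SL c 5 = c 5 := if_neg (by decide)
  have l6 : LnS SL c 6 = c 6 := if_neg (by decide)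
  have l9 : LnS SL c 9 = c 9 := if_neg (by decide)
  have l10 : LnS SL c 10 = c 10 := if_neg (by decide)
  have l11 : LnS SL c 11 = c 11 := if_neg (by decide)
  have o0 : LvS SL o 0 = o 0 := if_pos (by decide)
  have o2 : LvS SL o 2 = o 2 := if_pos (by decide)
  have o11 : LvS SL o 11 = 0 := if_neg (by decide)
  have hκ : side W n 0 * side W n 1 ≤ cpl W n * side W n 2 := by
    unfold cpl
    rw [div_mul_cancel₀ _ (hs 2).ne']
  have A := alg11 hD q0 q1 a1 b1 (by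
      have := ab 3 _ _ (show |LnS SL c 3| ≤ q by rw [l3]; exact h3); exact this) (by
      have := ab 4 _ _ (show |LnS SL c 4| ≤ q by rw [l4]; exact h4); exact this) (by
      have := ab 5 _ _ (show |LnS SL c 5| ≤ q by rw [l5]; exact h5); exact this) (by
      have := ab 6 _ _ (show |LnS SL c 6| ≤ q by rw [l6]; exact h6); exact this) hκ
    (by show side W n 11 * LvS SL o 11 = 0; rw [o11, mul_zero]) (cpl_nonneg h n)
  have e1 : b 11 - a 0 * b 10 - a 2 * b 9 = side W n 11 * (c 11 - o 0 * c 10 - o 2 * c 9) := by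
    show side W n 11 * LnS SL c 11 - (side W n 0 * LvS SL o 0) * (side W n 10 * LnS SL c 10) -
      (side W n 2 * LvS SL o 2) * (side W n 9 * LnS SL c 9) = _
    rw [l11, o0, l10, o2, l9]
    have f1 : side W n 0 * o 0 * (side W n 10 * c 10) =
        (side W n 0 * side W n 10) * (o 0 * c 10) := by ring
    have f2 : side W n 2 * o 2 * (side W n 9 * c 9) =
        (side W n 2 * side W n 9) * (o 2 * c 9) := by ring
    rw [f1, f2, T1, T2]; ring
  rw [e1] at A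
  have B : |compW W n (LvS SL o) (LnS SL c) 11 - (c 11 - o 0 * c 10 - o 2 * c 9)| ≤
      11 * q + 2 * cpl W n := by
    have e2 : compW W n (LvS SL o) (LnS SL c) 11 - (c 11 - o 0 * c 10 - o 2 * c 9) =
        (comp a b 11 - side W n 11 * (c 11 - o 0 * c 10 - o 2 * c 9)) / side W n 11 := by
      unfold compW
      rw [sub_div, mul_div_cancel_left₀ _ (hs 11).ne']
    rw [e2, abs_div, abs_of_pos (hs 11), div_le_iff₀ (hs 11)]
    exact A
  have e3 := abs_sub_le ((W.cfg E n).rel k' i l 11) (compW W n (LvS SL o) (LnS SL c) 11)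
    (c 11 - o 0 * c 10 - o 2 * c 9)
  linarith

/-- slots `3`, `4` -/
theorem ev3 (h : WL W K tp) {n : ℕ} (r : Reg W E n) {k k' i l : ℕ} (hi : (i, k) ∈ (W.cfg E n).I)
    (hl : (l, k) ∈ (W.cfg E n).I) (hi' : (i, k') ∈ (W.cfg E n).I) (hl' : (l, k') ∈ (W.cfg E n).I)
    {s : Fin 12} (hs34 : s = 3 ∨ s = 4) :
    |(W.cfg E n).rel k' i l s| ≤ |(W.cfg E n).rel k i l s| + 96 * W.B'.d n ^ tp := by
  have hss : s ∉ SL := by rcases hs34 with rfl | rfl <;> decide
  have key := r.evoSL h hi hl hi' hl' hss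
  have e : compW W n (LvS SL (own W n i k' k)) (LnS SL ((W.cfg E n).rel k i l)) s =
      (W.cfg E n).rel k i l s := by
    unfold compW
    have h1 : LvS SL (own W n i k' k) s = 0 := if_neg hss
    have h2 : LnS SL ((W.cfg E n).rel k i l) s = (W.cfg E n).rel k i l s := if_neg hss
    rw [div_eq_iff (h.side_pos' n s).ne']
    rcases hs34 with rfl | rfl
    · show side W n 3 * LvS SL (own W n i k' k) 3 +
        side W n 3 * LnS SL ((W.cfg E n).rel k i l) 3 = _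
      rw [h1, h2]; ring
    · show side W n 4 * LvS SL (own W n i k' k) 4 +
        side W n 4 * LnS SL ((W.cfg E n).rel k i l) 4 = _
      rw [h1, h2]; ring
  rw [e] at key
  have := abs_sub_abs_le_abs_sub ((W.cfg E n).rel k' i l s) ((W.cfg E n).rel k i l s)
  linarith

/-- slots `5`, `6` -/
theorem ev5 (h : WL W K tp) {n : ℕ} (r : Reg W E n) {k k' i l : ℕ} (hi : (i, k) ∈ (W.cfg E n).I)
    (hl : (l, k) ∈ (W.cfg E n).I) (hi' : (i, k') ∈ (W.cfg E n).I) (hl' : (l, k') ∈ (W.cfg E n).I)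
    {s s' : Fin 12} (hs56 : (s = 5 ∧ s' = 3) ∨ (s = 6 ∧ s' = 4)) :
    |(W.cfg E n).rel k' i l s| ≤ |(W.cfg E n).rel k i l s| + |(W.cfg E n).rel k i l s'| +
      96 * W.B'.d n ^ tp := by
  have hss : s ∉ SL := by rcases hs56 with ⟨rfl, -⟩ | ⟨rfl, -⟩ <;> decide
  have hss' : s' ∉ SL := by rcases hs56 with ⟨-, rfl⟩ | ⟨-, rfl⟩ <;> decide
  have key := r.evoSL h hi hl hi' hl' hss
  have hsd := h.side_pos' n
  have hD := h.sides r.good
  have h1 : LvS SL (own W n i k' k) s = 0 := if_neg hss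
  have h2 : LnS SL ((W.cfg E n).rel k i l) s = (W.cfg E n).rel k i l s := if_neg hss
  have h3 : LnS SL ((W.cfg E n).rel k i l) s' = (W.cfg E n).rel k i l s' := if_neg hss'
  have o0 : LvS SL (own W n i k' k) 0 = own W n i k' k 0 := if_pos (by decide)
  have ho := r.own_le h hi hi' 0
  have hw : side W n 0 * side W n s' ≤ side W n s := by
    rcases hs56 with ⟨rfl, rfl⟩ | ⟨rfl, rfl⟩
    · exact hD.w5
    · exact hD.w6
  have e : |compW W n (LvS SL (own W n i k' k)) (LnS SL ((W.cfg E n).rel k i l)) s| ≤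
      |(W.cfg E n).rel k i l s| + |(W.cfg E n).rel k i l s'| := by
    have e1 : compW W n (LvS SL (own W n i k' k)) (LnS SL ((W.cfg E n).rel k i l)) s =
        (side W n s * (W.cfg E n).rel k i l s - side W n 0 * own W n i k' k 0 *
          (side W n s' * (W.cfg E n).rel k i l s')) / side W n s := by
      unfold compW
      congr 1
      rcases hs56 with ⟨rfl, rfl⟩ | ⟨rfl, rfl⟩
      · show side W n 5 * LvS SL (own W n i k' k) 5 +
          side W n 5 * LnS SL ((W.cfg E n).rel k i l) 5 - side W n 0 * LvS SL (own W n i k' k) 0 *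
          (side W n 3 * LnS SL ((W.cfg E n).rel k i l) 3) = _
        rw [h1, h2, h3, o0]; ring
      · show side W n 6 * LvS SL (own W n i k' k) 6 +
          side W n 6 * LnS SL ((W.cfg E n).rel k i l) 6 - side W n 0 * LvS SL (own W n i k' k) 0 *
          (side W n 4 * LnS SL ((W.cfg E n).rel k i l) 4) = _
        rw [h1, h2, h3, o0]; ring
    rw [e1, abs_div, abs_of_pos (hsd s), div_le_iff₀ (hsd s)]
    refine (abs_sub _ _).trans ?_
    have t1 : |side W n s * (W.cfg E n).rel k i l s| = |(W.cfg E n).rel k i l s| * side W n s := by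
      rw [abs_mul, abs_of_pos (hsd s), mul_comm]
    have t2 : |side W n 0 * own W n i k' k 0 * (side W n s' * (W.cfg E n).rel k i l s')| ≤
        |(W.cfg E n).rel k i l s'| * side W n s := prB (hsd 0) (hsd s') hw ho
    rw [t1, add_mul]
    linarith
  have := abs_sub_abs_le_abs_sub ((W.cfg E n).rel k' i l s)
    (compW W n (LvS SL (own W n i k' k)) (LnS SL ((W.cfg E n).rel k i l)) s)
  linarith

/-- slot `7` or `8`, resolved -/
theorem ev7 (h : WL W K tp) {n : ℕ} (r : Reg W E n) {k k' i l : ℕ} (hi : (i, k) ∈ (W.cfg E n).I)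
    (hl : (l, k) ∈ (W.cfg E n).I) (hi' : (i, k') ∈ (W.cfg E n).I) (hl' : (l, k') ∈ (W.cfg E n).I)
    {s s3 s5 : Fin 12} (hs78 : (s = 7 ∧ s3 = 3 ∧ s5 = 5) ∨ (s = 8 ∧ s3 = 4 ∧ s5 = 6))
    (hS : s ∉ W.S) (ht : tp ≤ W.top s) :
    |(W.cfg E n).rel k' i l s| ≤ |(W.cfg E n).rel k i l s| + |(W.cfg E n).rel k i l s3| +
      2 * |(W.cfg E n).rel k i l s5| + 5 * W.B'.d n ^ tp := by
  have hsd := h.side_pos' n
  have hD := h.sides r.good
  have n3 : s3 ∉ SL := by rcases hs78 with ⟨-, rfl, -⟩ | ⟨-, rfl, -⟩ <;> decide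
  have n5 : s5 ∉ SL := by rcases hs78 with ⟨-, -, rfl⟩ | ⟨-, -, rfl⟩ <;> decide
  have w3 : side W n 2 * side W n s3 ≤ side W n s := by
    rcases hs78 with ⟨rfl, rfl, rfl⟩ | ⟨rfl, rfl, rfl⟩
    · exact hD.w7
    · exact hD.w8
  have w5 : side W n 1 * side W n s5 ≤ side W n s := by
    rcases hs78 with ⟨rfl, rfl, rfl⟩ | ⟨rfl, rfl, rfl⟩
    · exact hD.w7'
    · exact hD.w8'
  -- the law
  have law : ∀ a c : Fin 12 → ℝ, |a 2| ≤ 1 → |a 1| ≤ 1 → |compW W n a c s| ≤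
      |a s| + |c s| + |c s3| + 2 * |c s5| := by
    intro a c h2 h1
    have e : compW W n a c s = (side W n s * a s + side W n s * c s + side W n 2 * a 2 *
        (side W n s3 * c s3) + 2 * (side W n 1 * a 1 * (side W n s5 * c s5))) / side W n s := by
      unfold compW
      congr 1
      rcases hs78 with ⟨rfl, rfl, rfl⟩ | ⟨rfl, rfl, rfl⟩ <;> rfl
    rw [e, abs_div, abs_of_pos (hsd s), div_le_iff₀ (hsd s)]
    have t1 : |side W n s * a s| = |a s| * side W n s := by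
      rw [abs_mul, abs_of_pos (hsd s), mul_comm]
    have t2 : |side W n s * c s| = |c s| * side W n s := by
      rw [abs_mul, abs_of_pos (hsd s), mul_comm]
    have t3 : |side W n 2 * a 2 * (side W n s3 * c s3)| ≤ |c s3| * side W n s :=
      prB (hsd 2) (hsd s3) w3 h2
    have t4 : |side W n 1 * a 1 * (side W n s5 * c s5)| ≤ |c s5| * side W n s :=
      prB (hsd 1) (hsd s5) w5 h1
    refine (abs_add_le _ _).trans ?_
    have q1 := abs_add_le (side W n s * a s + side W n s * c s) (side W n 2 * a 2 * (side W n s3 * c s3))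
    have q2 := abs_add_le (side W n s * a s) (side W n s * c s)
    have q3 : |2 * (side W n 1 * a 1 * (side W n s5 * c s5))| =
        2 * |side W n 1 * a 1 * (side W n s5 * c s5)| := by rw [abs_mul, abs_two]
    rw [q3]
    nlinarith
  obtain ⟨a1, a2, a3⟩ := r.spec hi
  obtain ⟨b1, b2, b3⟩ := r.spec hl
  obtain ⟨c1, c2, c3⟩ := r.spec hi'
  obtain ⟨d1, d2, d3⟩ := r.spec hl'
  rw [r.rel_of hS, r.rel_of hS, r.rel_of (h.notS n3), r.rel_of (h.notS n5)]
  have g := r.good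
  have m1 := law (W.crd n (W.rep n i k') (W.rep n i k)) (W.crd n (W.rep n i k) (W.rep n l k))
    (h.crd_le g c1 a1 2) (h.crd_le g c1 a1 1)
  rw [← h.crd_add] at m1
  have m2 := law (W.crd n (W.rep n i k') (W.rep n l k)) (W.crd n (W.rep n l k) (W.rep n l k'))
    (h.crd_le g c1 b1 2) (h.crd_le g c1 b1 1)
  rw [← h.crd_add] at m2
  have o7 := h.crd_l g c1 a1 (c2.trans a2.symm) hS ht
  have p7 := h.crd_l g b1 d1 (b2.trans d2.symm) hS ht
  have p3 := h.crd_l g b1 d1 (b2.trans d2.symm) (h.notS n3) (h.topL _ n3)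
  have p5 := h.crd_l g b1 d1 (b2.trans d2.symm) (h.notS n5) (h.topL _ n5)
  linarith

/-- slot `1`, resolved -/
theorem ev1 (h : WL W K tp) {n : ℕ} (r : Reg W E n) {k k' i l : ℕ} (hi : (i, k) ∈ (W.cfg E n).I)
    (hl : (l, k) ∈ (W.cfg E n).I) (hi' : (i, k') ∈ (W.cfg E n).I) (hl' : (l, k') ∈ (W.cfg E n).I)
    (hS : (1 : Fin 12) ∉ W.S) (ht : tp ≤ W.top 1) :
    |(W.cfg E n).rel k' i l 1| ≤ |(W.cfg E n).rel k i l 1| + 2 * W.B'.d n ^ tp := by
  obtain ⟨a1, a2, a3⟩ := r.spec hi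
  obtain ⟨b1, b2, b3⟩ := r.spec hl
  obtain ⟨c1, c2, c3⟩ := r.spec hi'
  obtain ⟨d1, d2, d3⟩ := r.spec hl'
  rw [r.rel_of hS, r.rel_of hS]
  have g := r.good
  have e1 := crd1 h n (W.rep n i k') (W.rep n i k) (W.rep n l k')
  have e2 := crd1 h n (W.rep n i k) (W.rep n l k) (W.rep n l k')
  have o7 := h.crd_l g c1 a1 (c2.trans a2.symm) hS ht
  have p7 := h.crd_l g b1 d1 (b2.trans d2.symm) hS ht
  rw [e1, e2]
  have q1 := abs_add_le (W.crd n (W.rep n i k') (W.rep n i k) 1)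
    (W.crd n (W.rep n i k) (W.rep n l k) 1 + W.crd n (W.rep n l k) (W.rep n l k') 1)
  have q2 := abs_add_le (W.crd n (W.rep n i k) (W.rep n l k) 1)
    (W.crd n (W.rep n l k) (W.rep n l k') 1)
  linarith

/-- exponents of the fibre: `C`, `X`, `F` fine, `N`, `P` coarse, the flags `1, 7, 8` coarse or
resolved -/
structure KU (W : Wnd 12 ι) (tp x : ℝ) (pS : Fin 12 → ℝ) : Prop where
  x0 : 0 < x
  le : ∀ s, pS s ≤ x
  f3 : pS 3 = x
  f4 : pS 4 = x
  f5 : pS 5 = x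
  f6 : pS 6 = x
  f11 : pS 11 = x
  z9 : pS 9 = 0
  z10 : pS 10 = 0
  m2 : (2 : Fin 12) ∈ W.S
  c1 : (1 : Fin 12) ∈ W.S ∨ pS 1 ≤ 0 ∨ tp ≤ W.top 1
  c7 : (7 : Fin 12) ∈ W.S ∨ pS 7 ≤ 0 ∨ tp ≤ W.top 7
  c8 : (8 : Fin 12) ∈ W.S ∨ pS 8 ≤ 0 ∨ tp ≤ W.top 8

section main

variable {κ : Type*} [DecidableEq κ] {rl : ∀ n, ι n → ℕ} {cw : ∀ n, ι n → κ}
  {N : ℕ → ℝ} {x γ : ℝ} {E' : ∀ n, Finset (ι n)} {g : ℕ → ℝ} {ex : ℕ → ∀ n, ι n → ℕ}
  {σ Rr Dc : ℝ} {Leg : Set (Fin 12 → ℝ)} {ν : (Fin 12 → ℝ) → ℝ}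

open Classical in
/-- **[K3H] in a window at a legal base point** -/
theorem k3h_u (h : WL W K tp) (R : RLines W rl N) (H : WStrip W rl cw 2 Set.univ N x γ)
    (hP : Wnd.Pruned W W.Cl E' g (exO W rl ex)) (hγ : 0 < γ)
    (hmod : RModel W.B' (W.cfg E') σ Rr Leg ν Dc) (hxR : x ≤ Rr) (hx2 : 2 * x ≤ tp)
    (hT1 : ∀ᶠ n in (U : Filter ℕ), side W n 0 * side W n 10 = side W n 11)
    (hT2 : ∀ᶠ n in (U : Filter ℕ), side W n 2 * side W n 9 = side W n 11)
    (hcpl : ∀ᶠ n in (U : Filter ℕ), cpl W n ≤ W.B'.d n ^ x)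
    {pS : Fin 12 → ℝ} (ku : KU W tp x pS) (lS : pS ∈ Leg) (lT : Function.update pS 11 0 ∈ Leg)
    (lQ : ∀ t : ℝ, 0 ≤ t → t ≤ x → Function.update (Function.update pS 9 t) 10 t ∈ Leg)
    {a : ℝ} (ha : 0 ≤ a)
    (lossQ : ∀ t : ℝ, 0 ≤ t → t ≤ x →
      σ * t ≤ ν pS - ν (Function.update (Function.update pS 9 t) 10 t))
    (lossF : ν (Function.update pS 11 0) - ν pS ≤ a * x) : σ ≤ a := by
  rcases le_or_gt σ 0 with hσ | hσ
  · linarith
  have hx := ku.x0
  have h2 := ku.m2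
  -- the base incidence
  choose ik hik using fun n => hmod.nonempty n
  set i₀ : ℕ → ℕ := fun n => (ik n).1 with hi₀
  set kb : ℕ → ℕ := fun n => (ik n).2 with hkb
  have hik' : ∀ n, (i₀ n, kb n) ∈ (W.cfg E' n).I := hik
  set b : ∀ n, ι n := fun n => W.rep n (i₀ n) (kb n) with hb
  have hreg : ∀ᶠ n in (U : Filter ℕ), Reg W E' n := by
    filter_upwards [Wnd.ev_cfg h.ok h.ok.eok_class hP] with n hn
    exact ⟨hn.1, hP.sub n, hn.2.2.1⟩
  have hbC : ∀ᶠ n in (U : Filter ℕ), b n ∈ W.Cl n := by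
    filter_upwards [hreg] with n r
    exact (r.spec (hik' n)).1
  have htop : 2 * x ≤ W.top W.kz := hx2.trans (h.topS _ (by rw [h.kz]; exact h.z0))
  have hst : Strips W.B' (fun n => (W.cfg E' n).Z) (fun n => (W.cfg E' n).z) (fb W b) x
      (min γ σ) := by
    refine strips h.ok R H hP hγ.le hmod hxR htop (hcmp2 h h2 hbC rl (by linarith)) ?_
      (fun n => (W.cfg E' n).Z) (Eventually.of_forall fun n => Subset.refl _) ?_
    · intro ε hε
      filter_upwards [hreg, hbC, Crest.Agent.R136.Gf356.ev_const_le W.B' hε 2] with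
        n r hb h2 k hk k' hk'
      have q1 := fb_le h r.good hb (zrep_mem r hk)
      have q2 := fb_le h r.good hb (zrep_mem r hk')
      refine le_trans ?_ h2
      rw [abs_le] at q1 q2 ⊢
      constructor <;> linarith [q1.1, q1.2, q2.1, q2.2]
    · intro ε hε
      refine Eventually.of_forall fun n => ?_
      have : W.B'.d n ^ ε ≤ 1 := Real.rpow_le_one (W.B'.pos n).le (W.B'.lt n).le hε.le
      calc W.B'.d n ^ ε * ((W.cfg E' n).Z.card : ℝ) ≤ 1 * ((W.cfg E' n).Z.card : ℝ) :=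
            mul_le_mul_of_nonneg_right this (Nat.cast_nonneg _)
        _ = _ := one_mul _
  -- constants
  have hD := hmod.D1
  have hD2 : 1 ≤ Dc ^ 2 := one_le_pow₀ hD
  set C1 : ℝ := 2 * Dc ^ 2 + 8 with hC1
  have hC11 : 1 ≤ C1 := by rw [hC1]; linarith
  have hd := fun n t => dpow_pos W.B' n t
  have htx : ∀ n, W.B'.d n ^ tp ≤ W.B'.d n ^ x := fun n => dpow_anti W.B' n (by linarith)
  refine k3h ha hmod.σ_le (lt_min hγ hσ) hmod.toRUnif i₀ (fun n => (W.cfg E' n).Z)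
    (fun n => (W.cfg E' n).hts (i₀ n)) (fun n => (W.cfg E' n).z) (fb W b)
    (fun n k₀ i i' => (W.cfg E' n).rel k₀ i i' 10)
    (fun n k₀ i i' => -(W.cfg E' n).rel k₀ i i' 9) pS (Function.update pS 11 0) pS
    (fun t => Function.update (Function.update pS 9 t) 10 t) x C1 C1 ?_ hst
  -- the box of a pin
  have boxq : ∀ ε : ℝ, 0 < ε → ∀ᶠ n in (U : Filter ℕ), ∀ k₀ ∈ (W.cfg E' n).hts (i₀ n),
      ∀ i ∈ (W.cfg E' n).box pS ε (i₀ n) k₀, ∀ i' ∈ (W.cfg E' n).box pS ε (i₀ n) k₀,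
      (i, k₀) ∈ (W.cfg E' n).I ∧ (i', k₀) ∈ (W.cfg E' n).I ∧
      ∀ s, |(W.cfg E' n).rel k₀ i i' s| ≤ W.B'.d n ^ (pS s - Dc ^ 2 * ε) := by
    intro ε hε
    filter_upwards [Crest.Agent.R136.CD366.box_pair hmod.toRUnif pS lS hε] with
      n b1 k₀ hk₀ i hi i' hi'
    refine ⟨hmod.memSlice.1 (RCfg.box_subset_slice hi),
      hmod.memSlice.1 (RCfg.box_subset_slice hi'), fun s => ?_⟩
    have := b1 k₀ (i₀ n) i i' (RCfg.mem_hts.1 hk₀).2 hi hi' s
    rwa [hmod.base n] at this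
  refine
    { x_pos := hx
      C1_nonneg := by linarith
      C4_pos := by linarith
      bd := ?_
      frost := ?_
      pins := ?_
      pinI := ?_
      legS := lS
      legT := lT
      legr := lS
      Tr := ?_
      legQ := lQ
      one := ?_
      alive := ?_
      mv := ?_
      inT := ?_
      inQ := ?_
      lossQ := lossQ
      lossF := lossF }
  · filter_upwards [hreg, hbC] with n r hb
    refine ⟨⟨kb n, (mem_product.1 (hmod.sub n (hik' n))).2⟩, fun k hk => ?_⟩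
    refine ⟨?_, fb_le h r.good hb (zrep_mem r hk)⟩
    rw [r.z_eq]
    exact h.crd_le r.good r.good.s0 (zrep_mem r hk) _
  · intro y hy0 hyx ε hε
    filter_upwards [hmod.frost y hy0 (hyx.trans hxR) ε hε] with n hn k hk T hT hTk
    refine le_trans (Nat.cast_le.2 (card_le_card fun k' hk' => ?_)) (hn k hk)
    unfold RCfg.hbox
    rw [mem_filter, hmod.base n]
    exact ⟨hT hk', hTk k' hk'⟩
  · intro ε hε
    filter_upwards [hmod.line ε hε] with n hn
    have hi : i₀ n ∈ (W.cfg E' n).L := (mem_product.1 (hmod.sub n (hik' n))).1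
    refine ⟨filter_subset _ _, le_trans ?_ (hn _ hi)⟩
    exact mul_le_mul_of_nonneg_right (dpow_anti W.B' n (by nlinarith)) (Nat.cast_nonneg _)
  · exact Eventually.of_forall fun n k₀ hk₀ => (RCfg.mem_hts.1 hk₀).2
  · intro j
    by_cases hj : j = 11
    · subst hj; rw [Function.update_self, ku.f11]; exact hx.le
    · rw [Function.update_of_ne hj]
  · intro ε hε
    filter_upwards [hreg] with n r k₀ hk₀ i hi i' hi'
    have a1 := hmod.memSlice.1 (RCfg.box_subset_slice hi)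
    have a2 := hmod.memSlice.1 (RCfg.box_subset_slice hi')
    have h3 : (1 : ℝ) ≤ W.B'.d n ^ (-(C1 * ε)) :=
      Real.one_le_rpow_of_pos_of_le_one_of_nonpos (W.B'.pos n) (W.B'.lt n).le (by nlinarith)
    refine ⟨(r.rel_le h a1 a2 10).trans h3, ?_⟩
    rw [abs_neg]
    exact (r.rel_le h a1 a2 9).trans h3
  · intro ε hε
    filter_upwards [hmod.line ε hε] with n hn k₀ hk₀ i hi T hT hTi
    have a1 := hmod.memSlice.1 (RCfg.box_subset_slice hi)
    have a2 : i ∈ (W.cfg E' n).L := (mem_product.1 (hmod.sub n a1)).1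
    refine le_trans (mul_le_mul_of_nonneg_right (dpow_anti W.B' n (by nlinarith))
      (Nat.cast_nonneg _)) ((hn i a2).trans ?_)
    refine Nat.cast_le.2 (card_le_card fun k hk => ?_)
    obtain ⟨b1, b2⟩ := RCfg.mem_hts.1 hk
    exact hTi k b1 b2
  · -- the movement of the normal slot
    intro ε hε
    -- the case of a large `ε`
    rcases le_or_gt x (Dc ^ 2 * ε) with hεx | hεx
    · filter_upwards [hreg, hbC, Crest.Agent.R136.Gf356.ev_const_le W.B' hε 4] with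
        n r hbn h4 k₀ hk₀ k hk i hi i' hi' hik hi'k hl
      have a1 := hmod.memSlice.1 (RCfg.box_subset_slice hi)
      have a2 := hmod.memSlice.1 (RCfg.box_subset_slice hi')
      have q9 := r.rel_le h a1 a2 9
      have q10 := r.rel_le h a1 a2 10
      have hzb : ∀ k ∈ (W.cfg E' n).Z, |(W.cfg E' n).z k| ≤ 1 := fun k hk => by
        rw [r.z_eq]; exact h.crd_le r.good r.good.s0 (zrep_mem r hk) _
      have hk₀Z : k₀ ∈ (W.cfg E' n).Z := (RCfg.mem_hts.1 hk₀).1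
      have z1 := hzb k hk
      have z2 := hzb k₀ hk₀Z
      have f1 := fb_le h r.good hbn (zrep_mem r hk)
      have f2 := fb_le h r.good hbn (zrep_mem r hk₀Z)
      have m1 : |((W.cfg E' n).z k - (W.cfg E' n).z k₀) * (W.cfg E' n).rel k₀ i i' 10| ≤ 2 := by
        rw [abs_mul]
        have w1 : |(W.cfg E' n).z k - (W.cfg E' n).z k₀| ≤ 2 :=
          (abs_sub _ _).trans (by linarith)
        have w2 := mul_le_mul w1 q10 (abs_nonneg _) zero_le_two
        linarith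
      have m2 : |(fb W b n k - fb W b n k₀) * -(W.cfg E' n).rel k₀ i i' 9| ≤ 2 := by
        rw [abs_mul, abs_neg]
        have w1 : |fb W b n k - fb W b n k₀| ≤ 2 := (abs_sub _ _).trans (by linarith)
        have w2 := mul_le_mul w1 q9 (abs_nonneg _) zero_le_two
        linarith
      refine (abs_sub _ _).trans ?_
      calc _ ≤ (4 : ℝ) := by linarith
        _ ≤ W.B'.d n ^ (-ε) := h4
        _ ≤ _ := dpow_anti W.B' n (by rw [hC1]; nlinarith)
    filter_upwards [boxq ε hε, hreg, hbC, hT1, hT2, hcpl,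
      Crest.Agent.R136.Gf356.ev_const_le W.B' hε 200] with
      n b1 r hbn T1 T2 hc b7 k₀ hk₀ k hk i hi i' hi' hik hi'k hl
    obtain ⟨a1, a2, hp⟩ := b1 k₀ hk₀ i hi i' hi'
    set q : ℝ := W.B'.d n ^ (x - Dc ^ 2 * ε) with hq
    have q0 : 0 ≤ q := (hd n _).le
    have q1 : q ≤ 1 := Real.rpow_le_one (W.B'.pos n).le (W.B'.lt n).le (by linarith)
    have hev := ev11 h r T1 T2 a1 a2 hik hi'k q0 q1 (by have := hp 3; rwa [ku.f3] at this)
      (by have := hp 4; rwa [ku.f4] at this) (by have := hp 5; rwa [ku.f5] at this)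
      (by have := hp 6; rwa [ku.f6] at this)
    set c := (W.cfg E' n).rel k₀ i i' with hc'
    set o := own W n i k k₀ with ho
    have c11 : |c 11| ≤ q := by have := hp 11; rwa [ku.f11] at this
    have hR : |(W.cfg E' n).rel k i i' 11| ≤ W.B'.d n ^ (x - ε) := by
      have := hl 11; rwa [hmod.base n, ku.f11] at this
    have e0 := r.own_z h a1 hik
    have e2 := own_two h h2 r (b := b) hbn a1 hik (δ := W.B'.d n ^ x) (by
      calc cpl W n * |W.crd n (b n) (W.rep n i k) 1| ≤ W.B'.d n ^ x * 1 :=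
            mul_le_mul hc (h.crd_le r.good hbn (r.spec hik).1 1) (abs_nonneg _) (hd n _).le
        _ = _ := mul_one _)
    rw [← ho] at e0 e2
    have c9 := r.rel_le h a1 a2 9
    have c10 := r.rel_le h a1 a2 10
    rw [← hc'] at c9 c10
    set Q : ℝ := W.B'.d n ^ (x - (Dc ^ 2 + 1) * ε) with hQ
    have y1 : q ≤ Q := dpow_anti W.B' n (by nlinarith)
    have y2 : W.B'.d n ^ (x - ε) ≤ Q := dpow_anti W.B' n (by nlinarith)
    have y3 : W.B'.d n ^ x ≤ Q := dpow_anti W.B' n (by nlinarith)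
    have y4 := (htx n).trans y3
    have t4 : |(o 0 + ((W.cfg E' n).z k - (W.cfg E' n).z k₀)) * c 10| ≤ 2 * Q := by
      rw [abs_mul]
      have e : o 0 + ((W.cfg E' n).z k - (W.cfg E' n).z k₀) =
          o 0 - ((W.cfg E' n).z k₀ - (W.cfg E' n).z k) := by ring
      rw [e]
      calc |o 0 - ((W.cfg E' n).z k₀ - (W.cfg E' n).z k)| * |c 10| ≤ (2 * W.B'.d n ^ tp) * 1 :=
            mul_le_mul e0 c10 (abs_nonneg _) (by have := hd n tp; linarith)
        _ ≤ _ := by linarith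
    have t5 : |(o 2 - (fb W b n k₀ - fb W b n k)) * c 9| ≤ 8 * Q := by
      rw [abs_mul]
      calc |o 2 - (fb W b n k₀ - fb W b n k)| * |c 9|
          ≤ (6 * W.B'.d n ^ tp + 2 * W.B'.d n ^ x) * 1 :=
            mul_le_mul e2 c9 (abs_nonneg _) (by
              have := hd n tp
              have := hd n x
              linarith)
        _ ≤ _ := by linarith
    have t6 : |(W.cfg E' n).rel k i i' 11 - (c 11 - o 0 * c 10 - o 2 * c 9)| ≤ 109 * Q :=
      hev.trans (by linarith)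
    have key : ((W.cfg E' n).z k - (W.cfg E' n).z k₀) * c 10 -
        (fb W b n k - fb W b n k₀) * (-c 9) =
        (W.cfg E' n).rel k i i' 11 - c 11 -
          ((W.cfg E' n).rel k i i' 11 - (c 11 - o 0 * c 10 - o 2 * c 9)) +
          (o 0 + ((W.cfg E' n).z k - (W.cfg E' n).z k₀)) * c 10 +
          (o 2 - (fb W b n k₀ - fb W b n k)) * c 9 := by ring
    show |((W.cfg E' n).z k - (W.cfg E' n).z k₀) * c 10 -
      (fb W b n k - fb W b n k₀) * (-c 9)| ≤ _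
    rw [key]
    have g1 := abs_le.1 c11
    have g2 := abs_le.1 hR
    have g4 := abs_le.1 t4
    have g5 := abs_le.1 t5
    have g6 := abs_le.1 t6
    have h6 : 200 * Q ≤ W.B'.d n ^ (x - C1 * ε) := by
      calc 200 * Q ≤ W.B'.d n ^ (-ε) * Q := mul_le_mul_of_nonneg_right b7 (hd n _).le
        _ = W.B'.d n ^ (x - (Dc ^ 2 + 2) * ε) := by rw [hQ, ← dpow_add]; congr 1; ring
        _ ≤ _ := dpow_anti W.B' n (by rw [hC1]; nlinarith)
    refine le_trans ?_ h6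
    have hQ0 := hd n (x - (Dc ^ 2 + 1) * ε)
    rw [abs_le]
    constructor <;> linarith [g1.1, g1.2, g2.1, g2.2, g4.1, g4.2, g5.1, g5.2, g6.1, g6.2]
  · -- the fibre at the other heights
    intro ε hε
    filter_upwards [boxq ε hε, hreg, Crest.Agent.R136.Gf356.ev_const_le W.B' hε 200] with
      n b1 r b7 k₀ hk₀ k hk i hi i' hi' hik hi'k
    obtain ⟨a1, a2, hp⟩ := b1 k₀ hk₀ i hi i' hi'
    set c := (W.cfg E' n).rel k₀ i i' with hc'
    -- a sum of at most `200` fine terms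
    have fin : ∀ (s : Fin 12) (y M : ℝ), y ≤ x → 0 ≤ M → M ≤ 200 →
        |(W.cfg E' n).rel k i i' s| ≤ M * W.B'.d n ^ (y - Dc ^ 2 * ε) →
        |(W.cfg E' n).rel k i i' s| ≤ W.B'.d n ^ (y - C1 * ε) := by
      intro s y M hy hM0 hM hs
      refine hs.trans ?_
      calc M * W.B'.d n ^ (y - Dc ^ 2 * ε) ≤ W.B'.d n ^ (-ε) * W.B'.d n ^ (y - Dc ^ 2 * ε) :=
            mul_le_mul_of_nonneg_right (hM.trans b7) (hd n _).le
        _ = W.B'.d n ^ (y - (Dc ^ 2 + 1) * ε) := by rw [← dpow_add]; congr 1; ring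
        _ ≤ _ := dpow_anti W.B' n (by rw [hC1]; nlinarith)
    have tpy : ∀ y : ℝ, y ≤ x → W.B'.d n ^ tp ≤ W.B'.d n ^ (y - Dc ^ 2 * ε) := fun y hy =>
      dpow_anti W.B' n (by nlinarith)
    have xy : ∀ y : ℝ, y ≤ x → W.B'.d n ^ (x - Dc ^ 2 * ε) ≤ W.B'.d n ^ (y - Dc ^ 2 * ε) :=
      fun y hy => dpow_anti W.B' n (by linarith)
    have coarse : ∀ s : Fin 12, Function.update pS 11 0 s ≤ 0 →
        |(W.cfg E' n).rel k i i' s| ≤ W.B'.d n ^ (Function.update pS 11 0 s - C1 * ε) := by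
      intro s hs
      refine (r.rel_le h hik hi'k s).trans
        (Real.one_le_rpow_of_pos_of_le_one_of_nonpos (W.B'.pos n) (W.B'.lt n).le (by nlinarith))
    have hp3 : |c 3| ≤ W.B'.d n ^ (x - Dc ^ 2 * ε) := by have := hp 3; rwa [ku.f3] at this
    have hp4 : |c 4| ≤ W.B'.d n ^ (x - Dc ^ 2 * ε) := by have := hp 4; rwa [ku.f4] at this
    have hp5 : |c 5| ≤ W.B'.d n ^ (x - Dc ^ 2 * ε) := by have := hp 5; rwa [ku.f5] at this
    have hp6 : |c 6| ≤ W.B'.d n ^ (x - Dc ^ 2 * ε) := by have := hp 6; rwa [ku.f6] at this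
    intro s
    rw [hmod.base n]
    by_cases hs : s ∈ W.S
    · rw [r.rel_S hs, abs_zero]; exact (hd n _).le
    · fin_cases s
      · exact absurd h.z0 hs
      · show |(W.cfg E' n).rel k i i' 1| ≤ W.B'.d n ^ (pS 1 - C1 * ε)
        rcases ku.c1 with h1 | h1 | h1
        · exact absurd h1 hs
        · exact coarse 1 (by rw [Function.update_of_ne (by decide)]; exact h1)
        · refine fin 1 _ 3 (ku.le 1) (by norm_num) (by norm_num) ?_
          have := ev1 h r a1 a2 hik hi'k hs h1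
          have := hp 1
          have := tpy _ (ku.le 1)
          linarith
      · exact absurd h2 hs
      · show |(W.cfg E' n).rel k i i' 3| ≤ W.B'.d n ^ (pS 3 - C1 * ε)
        rw [ku.f3]
        refine fin 3 _ 97 le_rfl (by norm_num) (by norm_num) ?_
        have := ev3 h r a1 a2 hik hi'k (Or.inl rfl)
        have := tpy _ le_rfl
        linarith
      · show |(W.cfg E' n).rel k i i' 4| ≤ W.B'.d n ^ (pS 4 - C1 * ε)
        rw [ku.f4]
        refine fin 4 _ 97 le_rfl (by norm_num) (by norm_num) ?_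
        have := ev3 h r a1 a2 hik hi'k (Or.inr rfl)
        have := tpy _ le_rfl
        linarith
      · show |(W.cfg E' n).rel k i i' 5| ≤ W.B'.d n ^ (pS 5 - C1 * ε)
        rw [ku.f5]
        refine fin 5 _ 98 le_rfl (by norm_num) (by norm_num) ?_
        have := ev5 h r a1 a2 hik hi'k (Or.inl ⟨rfl, rfl⟩)
        have := tpy _ le_rfl
        linarith
      · show |(W.cfg E' n).rel k i i' 6| ≤ W.B'.d n ^ (pS 6 - C1 * ε)
        rw [ku.f6]
        refine fin 6 _ 98 le_rfl (by norm_num) (by norm_num) ?_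
        have := ev5 h r a1 a2 hik hi'k (Or.inr ⟨rfl, rfl⟩)
        have := tpy _ le_rfl
        linarith
      · show |(W.cfg E' n).rel k i i' 7| ≤ W.B'.d n ^ (pS 7 - C1 * ε)
        rcases ku.c7 with h1 | h1 | h1
        · exact absurd h1 hs
        · exact coarse 7 (by rw [Function.update_of_ne (by decide)]; exact h1)
        · refine fin 7 _ 9 (ku.le 7) (by norm_num) (by norm_num) ?_
          have := ev7 h r a1 a2 hik hi'k (Or.inl ⟨rfl, rfl, rfl⟩) hs h1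
          have := hp 7
          have := tpy _ (ku.le 7)
          have := xy _ (ku.le 7)
          linarith
      · show |(W.cfg E' n).rel k i i' 8| ≤ W.B'.d n ^ (pS 8 - C1 * ε)
        rcases ku.c8 with h1 | h1 | h1
        · exact absurd h1 hs
        · exact coarse 8 (by rw [Function.update_of_ne (by decide)]; exact h1)
        · refine fin 8 _ 9 (ku.le 8) (by norm_num) (by norm_num) ?_
          have := ev7 h r a1 a2 hik hi'k (Or.inr ⟨rfl, rfl, rfl⟩) hs h1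
          have := hp 8
          have := tpy _ (ku.le 8)
          have := xy _ (ku.le 8)
          linarith
      · exact coarse 9 (by rw [Function.update_of_ne (by decide), ku.z9])
      · exact coarse 10 (by rw [Function.update_of_ne (by decide), ku.z10])
      · exact coarse 11 (by rw [Function.update_self])
  · -- the boxes `Q t`
    intro t ht0 htx' ε hε
    filter_upwards [boxq ε hε] with n b1 k₀ hk₀ i hi i' hi' hP hX
    obtain ⟨a1, a2, hp⟩ := b1 k₀ hk₀ i hi i' hi'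
    intro s
    rw [hmod.base n]
    by_cases h10 : s = 10
    · subst h10
      rw [Function.update_self]
      exact hP.trans (dpow_anti W.B' n (by nlinarith))
    · rw [Function.update_of_ne h10]
      by_cases h9 : s = 9
      · subst h9
        rw [Function.update_self]
        rw [abs_neg] at hX
        exact hX.trans (dpow_anti W.B' n (by nlinarith))
      · rw [Function.update_of_ne h9]
        exact (hp s).trans (dpow_anti W.B' n (by rw [hC1]; nlinarith))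

end main

end Crest.Agent.R116.K3h593
end

-- ▼ part R116/K3W6_593
section

/-!
# R116, ties: [K3H] from the profile (helper593)

Level slots `0, 2`; slot `D` unresolved (walls with `D` slack).

* `stT` : static data of the window; `k3h_ext` : [K3H] for a tangent of the profile at any legal
  base point with `F = z + P`, `F = E + N` tight, `E ≤ z + D` slack, `z`, `E` at the levels of the
  record line.
-/

set_option autoImplicit false
set_option linter.unusedVariables false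
set_option linter.unusedSectionVars false

open Filter Topology Finset

namespace Crest.Agent.R116.K3h593

open Crest.Agent.R138.Ex926 (Base U IsTan)
open Crest.Agent.R138.TwA501 (dpow_pos dpow_anti dpow_add dpow_le_one)
open Crest.Agent.R136.Gf356 Crest.Agent.R136.Net191 Crest.Agent.R136.Qg926
open Crest.Agent.R136.Lq196
open Crest.Agent.R116.ChL222 Crest.Agent.R116.PL504 Crest.Agent.R116.EvL504
open Crest.Agent.R116.Kr710 Crest.Agent.R116.Kst593
open Crest.Agent.R116.WinU954 Crest.Agent.R116.WinG954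
open Crest.Agent.R116.Sg337 (bx9)

/-- level slots `0, 2`, slot `D` unresolved -/
noncomputable def stT (K t : ℝ) : WSt 12 where
  S := {0, 2}
  kz := 0
  top := topD t
  kap := fun s => K ^ wtL s
  Mw := monD
  R' := t

theorem cut02 (t : ℝ) (z D E C X B N P F : ℝ) :
    cut {0, 2} (bx9 z D E C X B N P F) (topD t) = bx9 t D t C X B N P F := by
  funext s
  by_cases hs : s ∈ ({0, 2} : Finset (Fin 12))
  · rw [cut_of_mem hs]
    rcases mem_insert.1 hs with rfl | hs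
    · rw [topD_ne t (by decide)]; rfl
    · rw [mem_singleton.1 hs, topD_ne t (by decide)]; rfl
  · rw [cut_of_notMem hs]
    fin_cases s <;> first | rfl | exact absurd (by decide) hs

theorem cut02_lin (t : ℝ) : cut {0, 2} (topD t) 0 = bx9 0 0 0 t t t t t t := by
  funext s
  by_cases hs : s ∈ ({0, 2} : Finset (Fin 12))
  · rw [cut_of_mem hs]
    rcases mem_insert.1 hs with rfl | hs
    · rfl
    · rw [mem_singleton.1 hs]; rfl
  · rw [cut_of_notMem hs]
    fin_cases s <;> first | rfl | exact absurd (by decide) hs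

theorem cut02_lev (t : ℝ) : cut {0, 2} 0 (topD t) = bx9 t 0 t 0 0 0 0 0 0 := by
  funext s
  by_cases hs : s ∈ ({0, 2} : Finset (Fin 12))
  · rw [cut_of_mem hs]
    rcases mem_insert.1 hs with rfl | hs
    · rw [topD_ne t (by decide)]; rfl
    · rw [mem_singleton.1 hs, topD_ne t (by decide)]; rfl
  · rw [cut_of_notMem hs]
    fin_cases s <;> first | rfl | exact absurd (by decide) hs

theorem lin_mem02 {t : ℝ} (ht : 0 ≤ t) : bx9 0 0 0 t t t t t t ∈ Leg monD t :=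
  bx9_legD.2 ⟨⟨le_rfl, le_rfl, le_rfl, ht, ht, ht, ht, ht, ht⟩,
    ⟨by linarith, by linarith, by linarith, by linarith, by linarith, by linarith, by linarith⟩,
    ⟨ht, ht, ht, le_rfl, le_rfl, le_rfl, le_rfl, le_rfl, le_rfl⟩⟩

theorem lev_mem02 {t : ℝ} (ht : 0 ≤ t) : bx9 t 0 t 0 0 0 0 0 0 ∈ Leg monD t :=
  bx9_legD.2 ⟨⟨ht, le_rfl, ht, le_rfl, le_rfl, le_rfl, le_rfl, le_rfl, le_rfl⟩,
    ⟨by linarith, by linarith, by linarith, by linarith, by linarith, by linarith, by linarith⟩,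
    ⟨le_rfl, ht, le_rfl, ht, ht, ht, ht, ht, ht⟩⟩

theorem stT_ok {K t : ℝ} (hK : 0 < K) (ht : 0 ≤ t) {D : Set (Fin 12 → ℝ)} (hD : Leg monD t ⊆ D) :
    (stT K t).Ok monL D where
  R0 := ht
  leg := hD
  top_leg := (stG_fro ht).top_leg ht
  lin_leg := by
    show cut {0, 2} (topD t) 0 ∈ Leg monD t
    rw [cut02_lin]; exact lin_mem02 ht
  lev_leg := by
    show cut {0, 2} 0 (topD t) ∈ Leg monD t
    rw [cut02_lev]; exact lev_mem02 ht
  kzS := by simp [stT]
  kz0 := WinU954.mon0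
  kzw := (stG_fro ht).mon0
  kap := fun s => pow_pos hK _

theorem upd11 (z D E C X B N P F F' : ℝ) :
    Function.update (bx9 z D E C X B N P F) 11 F' = bx9 z D E C X B N P F' := by
  funext s
  fin_cases s <;> rfl

theorem upd910 (z D E C X B N P F N' P' : ℝ) :
    Function.update (Function.update (bx9 z D E C X B N P F) 9 N') 10 P' =
      bx9 z D E C X B N' P' F := by
  funext s
  fin_cases s <;> rfl

theorem bx9_le {z D E C X B N P F z' D' E' C' X' B' N' P' F' : ℝ} (h0 : z ≤ z') (h1 : D ≤ D')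
    (h2 : E ≤ E') (h3 : C ≤ C') (h4 : X ≤ X') (h5 : B ≤ B') (h6 : N ≤ N') (h7 : P ≤ P')
    (h8 : F ≤ F') : bx9 z D E C X B N P F ≤ bx9 z' D' E' C' X' B' N' P' F' := by
  intro s
  fin_cases s
  exacts [h0, h1, h2, h3, h3, h4, h4, h5, h5, h6, h7, h8]

theorem bx9_ub {z D E C X B N P F c : ℝ} (h0 : z ≤ c) (h1 : D ≤ c)
    (h2 : E ≤ c) (h3 : C ≤ c) (h4 : X ≤ c) (h5 : B ≤ c) (h6 : N ≤ c) (h7 : P ≤ c)
    (h8 : F ≤ c) (s : Fin 12) : bx9 z D E C X B N P F s ≤ c := by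
  fin_cases s
  exacts [h0, h1, h2, h3, h3, h4, h4, h5, h5, h6, h7, h8]

section ext

variable {B : Base} {I0 I' : ℕ → Finset (ℕ × ℝ)} {co : ∀ n : ℕ, ℕ × ℝ → ℕ × ℝ → Fin 12 → ℝ}
  {C R w0 s c₀ : ℝ} {PD : Set (Fin 12 → ℝ)} {Dm : (Fin 12 → ℝ) → ℝ} {r o : ℝ → Fin 12 → ℝ}
  {Em : ℝ → ℝ} {T : Fin 12 → Prop} {ν own : (Fin 12 → ℝ) → ℝ}
  {κ : Type*} [DecidableEq κ] {cell : ∀ n : ℕ, ℚ → ℕ × ℝ → κ} {γ o0 β : Fin 12 → ℝ}
  {Sl : Fin 12 → Set ℝ}

/-- tangents are antitone -/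
theorem tan_anti (hext : ExtQ B I0 I' co monL C R 0 w0 s PD Dm r o Em T ν own c₀)
    {X : ℕ → Fin 12 → ℝ} {hh : ℕ → ℝ} (hpos : ∀ l, 0 < hh l) {D : Set (Fin 12 → ℝ)}
    {lam : (Fin 12 → ℝ) → ℝ} (htan : IsTan (Leg monL R) D ν X hh lam) {c c' : Fin 12 → ℝ}
    (hc : c ∈ D) (hc' : c' ∈ D) (hcc : c ≤ c') : lam c' ≤ lam c := by
  refine le_of_forall_pos_le_add fun ε hε => ?_
  obtain ⟨l, hl⟩ := (htan (max ‖c‖ ‖c'‖) (ε / 2) (by positivity)).exists
  obtain ⟨a1, a2⟩ := hl c hc (le_max_left _ _)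
  obtain ⟨b1, b2⟩ := hl c' hc' (le_max_right _ _)
  have hle : X l + hh l • c ≤ X l + hh l • c' := by
    intro k
    show X l k + hh l * c k ≤ X l k + hh l * c' k
    have := mul_le_mul_of_nonneg_left (hcc k) (hpos l).le
    linarith
  have h1 := (hext.lip _ a1 _ b1 hle).1
  have a3 := abs_le.1 a2
  have b3 := abs_le.1 b2
  have h2 : hh l * lam c' ≤ hh l * (lam c + ε) := by nlinarith [a3.1, a3.2, b3.1, b3.2, hpos l]
  exact le_of_mul_le_mul_left h2 (hpos l)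

/-- tail of a tangent -/
theorem tan_tail {P D : Set (Fin 12 → ℝ)} {f lam : (Fin 12 → ℝ) → ℝ} {X : ℕ → Fin 12 → ℝ}
    {hh : ℕ → ℝ} (h : IsTan P D f X hh lam) (l₀ : ℕ) :
    IsTan P D f (fun l => X (l + l₀)) (fun l => hh (l + l₀)) lam := by
  intro K ε hε
  exact (tendsto_add_atTop_nat l₀).eventually (h K ε hε)



end ext

end Crest.Agent.R116.K3h593
end

-- ▼ part R116/K3V_460
section

/-!
# R116, ties: [K3H] with `B` visible, strictly coarser than its own level (helper460)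

Copy of 593's `k3h_ext0`, `k3h_ext`, `k3h_ctx`, `k3h_lin` with visible flags coarser than their
own level (double tie, `k' = 1`, plane below the record).

* **`k3h_ctxV`**, **`k3h_linV`**
-/

set_option autoImplicit false
set_option linter.unusedVariables false
set_option linter.unusedSectionVars false

open Filter Topology Finset

namespace Crest.Agent.R116.K3V460

open Crest.Agent.R138.Ex926 (Base U IsTan)
open Crest.Agent.R138.TwA501 (dpow_pos dpow_anti dpow_add dpow_le_one)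
open Crest.Agent.R136.Gf356 Crest.Agent.R136.Net191 Crest.Agent.R136.Qg926
open Crest.Agent.R136.Lq196
open Crest.Agent.R116.ChL222 Crest.Agent.R116.PL504 Crest.Agent.R116.EvL504
open Crest.Agent.R116.Kr710 Crest.Agent.R116.Kst593
open Crest.Agent.R116.WinU954 Crest.Agent.R116.WinG954
open Crest.Agent.R116.Sg337 (bx9)
open Crest.Agent.R116.K3h593

section ext

variable {B : Base} {I0 I' : ℕ → Finset (ℕ × ℝ)} {co : ∀ n : ℕ, ℕ × ℝ → ℕ × ℝ → Fin 12 → ℝ}
  {C R w0 s c₀ : ℝ} {PD : Set (Fin 12 → ℝ)} {Dm : (Fin 12 → ℝ) → ℝ} {r o : ℝ → Fin 12 → ℝ}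
  {Em : ℝ → ℝ} {T : Fin 12 → Prop} {ν own : (Fin 12 → ℝ) → ℝ}
  {κ : Type*} [DecidableEq κ] {cell : ∀ n : ℕ, ℚ → ℕ × ℝ → κ} {γ o0 β : Fin 12 → ℝ}
  {Sl : Fin 12 → Set ℝ}

theorem k3h_extV0 (hR : 0 ≤ R) (hC : 0 < cK0 monL C)
    (hext : ExtQ B I0 I' co monL C R 0 w0 s PD Dm r o Em T ν own c₀)
    (hcoc : ∀ n, Coc (co n))
    (H : OStrips B I0 co (fun _ x => x.1) cell 0 {2} w0 s γ o0 β Sl) (hγ : 0 < γ 2)
    (hβ : 0 < β 2) (hSl : Sl 2 = Set.univ)
    (ho0 : ∀ v, o v 0 = w0 + v) (ho2 : ∀ v, o v 2 = o0 2 + β 2 * v)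
    {X : ℕ → Fin 12 → ℝ} {hh : ℕ → ℝ} (hpos : ∀ l, 0 < hh l) (hh0 : Tendsto hh atTop (𝓝 0))
    {D : Set (Fin 12 → ℝ)} {lam : (Fin 12 → ℝ) → ℝ} (htan : IsTan (Leg monL R) D ν X hh lam)
    {t : ℝ} (ht : 0 < t) (hD : Leg monD t ⊆ D) {v : ℕ → ℝ} (hX0 : ∀ l, X l 0 = w0 + v l)
    (hoR : ∀ k, k ≠ 0 → k ≠ 2 → (∀ v, o v k = R) ∨
      ∀ l u, 0 ≤ u → u ≤ t → X l k + hh l * t ≤ o (v l + hh l * u) k)
    (hX2 : ∀ l, X l 2 = o0 2 + β 2 * v l) (hv0 : ∀ l, 0 < v l)
    (hv1 : ∀ l, v l + hh l * (t / β 2) ≤ 1) (hv2 : ∀ l, v l + hh l * t ≤ 1)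
    (hleg : ∀ l, X l ∈ Leg monL R)
    (hT1 : ∀ l, X l 11 = X l 0 + X l 10) (hT2 : ∀ l, X l 11 = X l 2 + X l 9)
    (hsl : ∀ K : ℝ, ∀ᶠ l in atTop, X l 2 + K * hh l ≤ X l 0 + X l 1)
    (dens : lam (topD t) ≤ lam (bx9 0 0 0 t t t t t t) + lam (bx9 t 0 t 0 0 0 0 0 0))
    {x y : ℝ} (hx0 : 0 < x) (hx : 2 * x ≤ t) (hy0 : 0 ≤ y) (hyx : y ≤ x)
    (hQ : ∀ t' : ℝ, 0 ≤ t' → t' ≤ x →
      (1 - s) * t' ≤ lam (bx9 t 0 t x x y 0 0 x) - lam (bx9 t 0 t x x y t' t' x)) :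
    (1 - s) * x ≤ lam (bx9 t 0 t x x y 0 0 0) - lam (bx9 t 0 t x x y 0 0 x) := by
  have hs0 := hext.s0
  have hs1 := hext.s1
  set σ : ℝ := 1 - s with hσ
  have hσ0 : 0 ≤ σ := by rw [hσ]; linarith
  have hσ1 : σ ≤ 1 := by rw [hσ]; linarith
  have hN := nprof_of_ext hR hext
  have hzero : (0 : Fin 12 → ℝ) ∈ Leg monD t := (stG_fro ht.le).zero_mem ht.le
  have h0 : (0 : Fin 12 → ℝ) ∈ D := hD hzero
  have hst := stT_ok (K := cK0 monL C) hC ht.le hD
  -- own profile at the base points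
  have hval : ∀ l, 0 ≤ v l ∧ v l ≤ 1 := fun l => by
    refine ⟨(hv0 l).le, ?_⟩
    have h1 := hv1 l
    have h2 : 0 ≤ hh l * (t / β 2) := mul_nonneg (hpos l).le (div_nonneg ht.le hβ.le)
    linarith
  have hle : ∀ l, ∀ p ∈ Leg monL R, p 0 = w0 + v l → p 2 = o0 2 + β 2 * v l →
      (∀ k, p k ≤ X l k + hh l * t) → own p = (1 - s) * (1 - v l) := by
    intro l p hp h0 h2 hpk
    refine hext.own_rot p hp (v l) (hval l).1 (hval l).2 h0 fun k => ?_
    by_cases hk0 : k = 0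
    · rw [hk0, ho0, h0]
    · by_cases hk2 : k = 2
      · rw [hk2, ho2, h2]
      · rcases hoR k hk0 hk2 with h3 | h3
        · rw [h3]; exact hp.2 k
        · have h4 := h3 l 0 le_rfl ht.le
          rw [mul_zero, add_zero] at h4
          exact (hpk k).trans h4
  have hov : ∀ l, own (X l) = (1 - s) * (1 - v l) := fun l =>
    hle l _ (hleg l) (hX0 l) (hX2 l) fun k => by
      have := mul_nonneg (hpos l).le ht.le
      linarith
  -- the height
  have frost : ∀ y, 0 ≤ y → y ≤ t → lam (Pi.single 0 y) ≤ -(σ * y) := by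
    intro y h1 h2
    have hcD : (Pi.single 0 y : Fin 12 → ℝ) ∈ D := hD ((stG_fro ht.le).single_leg h1 h2)
    refine le_of_forall_pos_le_add fun ε hε => ?_
    obtain ⟨l, hl⟩ := (htan ‖(Pi.single 0 y : Fin 12 → ℝ)‖ ε hε).exists
    obtain ⟨a1, a2⟩ := hl _ hcD le_rfl
    have hy : 0 ≤ hh l * y := mul_nonneg (hpos l).le h1
    have hxk : ∀ k, k ≠ 0 → (X l + hh l • (Pi.single 0 y : Fin 12 → ℝ)) k = X l k := by
      intro k hk
      show X l k + hh l * (Pi.single 0 y : Fin 12 → ℝ) k = _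
      rw [Pi.single_eq_of_ne hk, mul_zero, add_zero]
    have hx0' : (X l + hh l • (Pi.single 0 y : Fin 12 → ℝ)) 0 = w0 + (v l + hh l * y) := by
      show X l 0 + hh l * (Pi.single 0 y : Fin 12 → ℝ) 0 = _
      rw [Pi.single_eq_same, hX0]; ring
    have hle2 : X l ≤ X l + hh l • (Pi.single 0 y : Fin 12 → ℝ) := by
      intro k
      by_cases hk : k = 0
      · rw [hk, hx0', hX0]; linarith
      · rw [hxk k hk]
    have h3 := hext.own_le _ (hleg l) _ a1 hle2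
    have h4 : own (X l + hh l • (Pi.single 0 y : Fin 12 → ℝ)) =
        (1 - s) * (1 - (v l + hh l * y)) := by
      refine hext.own_rot _ a1 _ (by linarith [(hval l).1]) ?_ hx0' fun k => ?_
      · have := hv2 l
        have := mul_le_mul_of_nonneg_left h2 (hpos l).le
        linarith
      · by_cases hk0 : k = 0
        · rw [hk0, ho0, hx0']
        · rw [hxk k hk0]
          by_cases hk2 : k = 2
          · rw [hk2, ho2, hX2]
            have := mul_nonneg hβ.le hy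
            linarith
          · rcases hoR k hk0 hk2 with h3 | h3
            · rw [h3]; exact (hleg l).2 k
            · have h4 := h3 l y h1 h2
              have h5 := mul_nonneg (hpos l).le ht.le
              linarith
    rw [hov l, h4] at h3
    have a3 := abs_le.1 a2
    have h5 : hh l * lam (Pi.single 0 y) ≤ hh l * (-(σ * y) + ε) := by
      have e : (1 - s) * (1 - v l) - (1 - s) * (1 - (v l + hh l * y)) = hh l * (σ * y) := by
        rw [hσ]; ring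
      rw [e] at h3
      linarith [a3.1, a3.2]
    exact le_of_mul_le_mul_left h5 (hpos l)
  have hown : ∀ᶠ l in (atTop : Filter ℕ),
      own (X l + hh l • cut (stT (cK0 monL C) t).S (stT (cK0 monL C) t).top 0) = own (X l) := by
    have e : cut (stT (cK0 monL C) t).S (stT (cK0 monL C) t).top 0 = bx9 0 0 0 t t t t t t :=
      cut02_lin t
    rw [e]
    filter_upwards [htan ‖bx9 0 0 0 t t t t t t‖ 1 one_pos] with l hl
    have h1 := (hl _ (hD (lin_mem02 ht.le)) le_rfl).1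
    rw [hov l]
    refine hle l _ h1 ?_ ?_ fun k => ?_
    · show X l 0 + hh l * (0 : ℝ) = _
      rw [mul_zero, add_zero]; exact hX0 l
    · show X l 2 + hh l * (0 : ℝ) = _
      rw [mul_zero, add_zero]; exact hX2 l
    · show X l k + hh l * bx9 0 0 0 t t t t t t k ≤ _
      have h6 : bx9 0 0 0 t t t t t t k ≤ t :=
        bx9_ub ht.le ht.le ht.le le_rfl le_rfl le_rfl le_rfl le_rfl le_rfl k
      have := mul_le_mul_of_nonneg_left h6 (hpos l).le
      linarith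
  obtain ⟨uq, k, hk, hk2⟩ := exists_swin (st := stT (cK0 monL C) t) hN hpos h0 htan hst
    (rl := fun _ x => x.1) (own := own) hext.oprof hown (cell := cell) (Ts := {2}) H
    (fun j hj => by rw [mem_singleton.1 hj]; exact hγ.le)
    (fun j hj => by rw [mem_singleton.1 hj]; exact hβ) hs0 hs1 (v := v) hX0 hv0
    (fun l => (hval l).2) ht (fun j hj l => by rw [mem_singleton.1 hj]; exact hv1 l)
    (fun j hj l => by rw [mem_singleton.1 hj]; exact hX2 l) hov (fun _ _ => 1)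
    (fun _ => Base.Sub.const one_pos) (fun _ => (0, 0)) (Gd := I') (E := I')
    (Eventually.of_forall fun n => Subset.refl _) (Eventually.of_forall fun n => Subset.refl _)
    (Sd := fun _ => 1) (Base.Sub.const one_pos) (Eventually.of_forall fun n => by rw [one_mul])
  obtain ⟨B', s₀, W, hW, b1, b2, b3, b4, ok, RL, WS⟩ :=
    hk2 k hk (Eventually.of_forall fun n => le_rfl)
  have hWS := WS 2 (mem_singleton_self 2)
  rw [hSl] at hWS
  have hden : (stT (cK0 monL C) t).Dens lam σ t :=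
    { dens := by
        show lam (topD t) ≤ lam (cut {0, 2} (topD t) 0) + lam (cut {0, 2} 0 (topD t))
        rw [cut02_lin, cut02_lev]
        exact dens
      σ0 := hσ0
      σ1 := hσ1
      hR := by
        show t ≤ topD t 0
        rw [topD_ne t (by decide)]
      frost := frost }
  have eB : W.B = B := by rw [hW]; rfl
  have eB' : W.B' = B' := by rw [hW]; rfl
  have eS : W.S = {0, 2} := by rw [hW]; rfl
  have etop : W.top = topD t := by rw [hW]; rfl
  have ekap : W.kap = fun s => cK0 monL C ^ wtL s := by rw [hW]; rfl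
  have eX : W.X = fun n => X (k n) := by rw [hW]; rfl
  have enu : ∀ p, W.nu p = lam (cut {0, 2} p (topD t)) - lam (topD t) := fun p => by
    rw [hW]; rfl
  have eleg : ∀ p, p ∈ W.legW ↔ cut {0, 2} p (topD t) ∈ Leg monD t ∧
      ∀ s, s ∉ ({0, 2} : Finset (Fin 12)) → p s ≤ topD t s := fun p => by rw [hW]; rfl
  have hmodel : ∃ (E' : ∀ n, Finset (ℕ × ℝ)) (g : ℕ → ℝ),
      Wnd.Pruned W W.Cl E' g (exO W (fun _ x => x.1) (fun _ _ _ => 0)) ∧
      RModel W.B' (W.cfg E') σ t W.legW W.nu W.Dc := by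
    subst hW
    obtain ⟨E', g, p1, p2, p3⟩ := hden.model ok ok.eok_class
      (exO _ (fun _ x => x.1) (fun _ _ _ => 0)) (g₀ := fun n => (n : ℝ))
      (tendsto_natCast_atTop_atTop.mono_left Crest.Agent.R138.Ex926.U_le_atTop)
    exact ⟨E', g, p1, p3⟩
  obtain ⟨E', g, hP, hmod⟩ := hmodel
  have wl : WL W (cK0 monL C) t :=
    { ok := ok
      hM := by rw [hW]; rfl
      coc := by rw [hW]; exact hcoc
      hK := by rw [hW]; exact le_rfl
      kap := fun s => by rw [ekap]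
      hS := by rw [eS]; decide
      kz := by rw [hW]; rfl
      topS := fun s hs => by
        rw [eS] at hs
        rw [etop, topD_ne t (by rintro rfl; exact absurd hs (by decide))]
      topL := fun s hs => by
        rw [etop, topD_ne t (by rintro rfl; exact hs (by decide))] }
  have hside : ∀ n s, side W n s = cK0 monL C ^ wtL s * B.d n ^ X (k n) s := fun n s => by
    unfold side; rw [ekap, eB, eX]
  have hxt : x ≤ t := by linarith
  -- the fact
  set Δ : ℝ := lam (bx9 t 0 t x x y 0 0 0) - lam (bx9 t 0 t x x y 0 0 x) with hΔ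
  have m1 : bx9 t 0 t x x y 0 0 0 ∈ Leg monD t :=
    bx9_legD.2 ⟨⟨ht.le, le_rfl, ht.le, hx0.le, hx0.le, hy0, le_rfl, le_rfl, le_rfl⟩,
      ⟨by linarith, by linarith, by linarith, by linarith, by linarith, by linarith, by linarith⟩,
      ⟨le_rfl, ht.le, le_rfl, hxt, hxt, hyx.trans hxt, ht.le, ht.le, ht.le⟩⟩
  have m2 : bx9 t 0 t x x y 0 0 x ∈ Leg monD t :=
    bx9_legD.2 ⟨⟨ht.le, le_rfl, ht.le, hx0.le, hx0.le, hy0, le_rfl, le_rfl, hx0.le⟩,
      ⟨by linarith, by linarith, by linarith, by linarith, by linarith, by linarith, by linarith⟩,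
      ⟨le_rfl, ht.le, le_rfl, hxt, hxt, hyx.trans hxt, ht.le, ht.le, hxt⟩⟩
  have m3 : ∀ t', 0 ≤ t' → t' ≤ x → bx9 t 0 t x x y t' t' x ∈ Leg monD t := fun t' h1 h2 =>
    bx9_legD.2 ⟨⟨ht.le, le_rfl, ht.le, hx0.le, hx0.le, hy0, h1, h1, hx0.le⟩,
      ⟨by linarith, by linarith, by linarith, by linarith, by linarith, by linarith, by linarith⟩,
      ⟨le_rfl, ht.le, le_rfl, hxt, hxt, hyx.trans hxt, h2.trans hxt, h2.trans hxt, hxt⟩⟩
  have hΔ0 : 0 ≤ Δ := by
    have := tan_anti hext hpos htan (hD m1) (hD m2)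
      (bx9_le le_rfl le_rfl le_rfl le_rfl le_rfl le_rfl le_rfl le_rfl hx0.le)
    rw [hΔ]; linarith
  have off : ∀ (p : Fin 12 → ℝ), p 1 ≤ 0 → (∀ s, p s ≤ t) →
      ∀ s, s ∉ ({0, 2} : Finset (Fin 12)) → p s ≤ topD t s := fun p h1 h2 s _ => by
    by_cases hs : s = 1
    · rw [hs, topD_one]; exact h1
    · rw [topD_ne t hs]; exact h2 s
  have ku : KU W t x (bx9 0 0 0 x x y 0 0 x) :=
    { x0 := hx0
      le := bx9_ub hx0.le hx0.le hx0.le le_rfl le_rfl hyx hx0.le hx0.le le_rfl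
      f3 := rfl
      f4 := rfl
      f5 := rfl
      f6 := rfl
      f11 := rfl
      z9 := rfl
      z10 := rfl
      m2 := by rw [eS]; decide
      c1 := Or.inr (Or.inl le_rfl)
      c7 := Or.inr (Or.inr (by rw [etop, topD_ne t (by decide)]))
      c8 := Or.inr (Or.inr (by rw [etop, topD_ne t (by decide)])) }
  have key := k3h_u (a := Δ / x) wl RL (hWS.mono hxt le_rfl (Set.Subset.refl _)) hP
    (div_pos hγ hβ) hmod hxt hx
    (Eventually.of_forall fun n => by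
      rw [hside, hside, hside, hT1]
      have e1 : wtL 0 + wtL 10 = wtL 11 := rfl
      rw [← e1, pow_add, Real.rpow_add (B.pos n)]; ring)
    (Eventually.of_forall fun n => by
      rw [hside, hside, hside, hT2]
      have e1 : wtL 2 + wtL 9 = wtL 11 := rfl
      rw [← e1, pow_add, Real.rpow_add (B.pos n)]; ring)
    (by
      filter_upwards [hk.eventually (hsl x)] with n hn
      rw [eB', b1]
      unfold cpl
      rw [hside, hside, hside, div_le_iff₀ (mul_pos (pow_pos hC _) (dpow_pos B n _))]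
      have e1 : wtL 0 + wtL 1 = wtL 2 := rfl
      rw [← Real.rpow_mul (B.pos n).le]
      have e2 : B.d n ^ (hh (k n) * x) * (cK0 monL C ^ wtL 2 * B.d n ^ X (k n) 2) =
          cK0 monL C ^ wtL 2 * B.d n ^ (hh (k n) * x + X (k n) 2) := by
        rw [Real.rpow_add (B.pos n)]; ring
      have e3 : cK0 monL C ^ wtL 0 * B.d n ^ X (k n) 0 * (cK0 monL C ^ wtL 1 * B.d n ^ X (k n) 1) =
          cK0 monL C ^ wtL 2 * B.d n ^ (X (k n) 0 + X (k n) 1) := by
        rw [← e1, pow_add, Real.rpow_add (B.pos n)]; ring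
      rw [e2, e3]
      exact mul_le_mul_of_nonneg_left (dpow_anti B n (by linarith)) (pow_pos hC _).le) ku
    ((eleg _).2 ⟨by rw [cut02]; exact m2, off _ le_rfl (fun s => (ku.le s).trans hxt)⟩)
    (by
      rw [upd11]
      exact (eleg _).2 ⟨by rw [cut02]; exact m1, off _ le_rfl
        (bx9_ub ht.le ht.le ht.le hxt hxt (hyx.trans hxt) ht.le ht.le ht.le)⟩)
    (fun t' h1 h2 => by
      rw [upd910]
      exact (eleg _).2 ⟨by rw [cut02]; exact m3 t' h1 h2, off _ le_rfl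
        (bx9_ub ht.le ht.le ht.le hxt hxt (hyx.trans hxt) (h2.trans hxt) (h2.trans hxt) hxt)⟩)
    (div_nonneg hΔ0 hx0.le)
    (fun t' h1 h2 => by
      rw [upd910, enu, enu, cut02, cut02]
      have := hQ t' h1 h2
      linarith)
    (by
      rw [upd11, enu, enu, cut02, cut02, div_mul_cancel₀ _ hx0.ne', hΔ]
      linarith)
  rwa [le_div_iff₀ hx0] at key

/-- **[K3H] for a tangent of the profile, visible flags coarser** -/
theorem k3h_extV (hR : 0 ≤ R) (hC : 0 < cK0 monL C)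
    (hext : ExtQ B I0 I' co monL C R 0 w0 s PD Dm r o Em T ν own c₀)
    (hcoc : ∀ n, Coc (co n))
    (H : OStrips B I0 co (fun _ x => x.1) cell 0 {2} w0 s γ o0 β Sl) (hγ : 0 < γ 2)
    (hβ : 0 < β 2) (hSl : Sl 2 = Set.univ)
    (ho0 : ∀ v, o v 0 = w0 + v) (ho2 : ∀ v, o v 2 = o0 2 + β 2 * v)
    {X : ℕ → Fin 12 → ℝ} {hh : ℕ → ℝ} (hpos : ∀ l, 0 < hh l) (hh0 : Tendsto hh atTop (𝓝 0))
    {D : Set (Fin 12 → ℝ)} {lam : (Fin 12 → ℝ) → ℝ} (htan : IsTan (Leg monL R) D ν X hh lam)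
    {t : ℝ} (ht : 0 < t) (hD : Leg monD t ⊆ D) {v : ℕ → ℝ} (hX0 : ∀ l, X l 0 = w0 + v l)
    (hoR : ∀ k, k ≠ 0 → k ≠ 2 → (∀ v, o v k = R) ∨
      ∀ᶠ l in atTop, ∀ u, 0 ≤ u → u ≤ t → X l k + hh l * t ≤ o (v l + hh l * u) k)
    (hX2 : ∀ l, X l 2 = o0 2 + β 2 * v l) (hv0 : ∀ l, 0 < v l)
    {v1 : ℝ} (hv1 : v1 < 1) (hvv : ∀ᶠ l in atTop, v l ≤ v1)
    (hT1 : ∀ l, X l 11 = X l 0 + X l 10) (hT2 : ∀ l, X l 11 = X l 2 + X l 9)
    (hsl : ∀ K : ℝ, ∀ᶠ l in atTop, X l 2 + K * hh l ≤ X l 0 + X l 1)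
    (dens : lam (topD t) ≤ lam (bx9 0 0 0 t t t t t t) + lam (bx9 t 0 t 0 0 0 0 0 0))
    {x y : ℝ} (hx0 : 0 < x) (hx : 2 * x ≤ t) (hy0 : 0 ≤ y) (hyx : y ≤ x)
    (hQ : ∀ t' : ℝ, 0 ≤ t' → t' ≤ x →
      (1 - s) * t' ≤ lam (bx9 t 0 t x x y 0 0 x) - lam (bx9 t 0 t x x y t' t' x)) :
    (1 - s) * x ≤ lam (bx9 t 0 t x x y 0 0 0) - lam (bx9 t 0 t x x y 0 0 x) := by
  have hzero : (0 : Fin 12 → ℝ) ∈ D := hD ((stG_fro ht.le).zero_mem ht.le)
  have e1 : ∀ᶠ l in atTop, hh l * (t / β 2) < 1 - v1 := by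
    have h1 : Tendsto (fun l => hh l * (t / β 2)) atTop (𝓝 (0 * (t / β 2))) :=
      hh0.mul_const _
    rw [zero_mul] at h1
    exact h1.eventually_lt_const (by linarith)
  have e2 : ∀ᶠ l in atTop, hh l * t < 1 - v1 := by
    have h1 : Tendsto (fun l => hh l * t) atTop (𝓝 (0 * t)) := hh0.mul_const _
    rw [zero_mul] at h1
    exact h1.eventually_lt_const (by linarith)
  have e3 : ∀ᶠ l in atTop, ∀ k, k ≠ 0 → k ≠ 2 → (∀ v, o v k = R) ∨
      ∀ u, 0 ≤ u → u ≤ t → X l k + hh l * t ≤ o (v l + hh l * u) k := by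
    refine eventually_all.2 fun k => ?_
    by_cases hk0 : k = 0
    · exact Eventually.of_forall fun l h => absurd hk0 h
    by_cases hk2 : k = 2
    · exact Eventually.of_forall fun l _ h => absurd hk2 h
    rcases hoR k hk0 hk2 with h1 | h1
    · exact Eventually.of_forall fun l _ _ => Or.inl h1
    · filter_upwards [h1] with l hl _ _
      exact Or.inr hl
  obtain ⟨l₀, hl₀'⟩ := eventually_atTop.1 ((((e1.and e2).and hvv).and (htan 0 1 one_pos)).and e3)
  have hl₀ := fun l hl => (hl₀' l hl).1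
  have hsh := tendsto_add_atTop_nat l₀
  refine k3h_extV0 hR hC hext hcoc H hγ hβ hSl ho0 ho2 (X := fun l => X (l + l₀))
    (hh := fun l => hh (l + l₀)) (fun l => hpos _) (hh0.comp hsh) (tan_tail htan l₀) ht hD
    (v := fun l => v (l + l₀)) (fun l => hX0 _) (fun k hk0 hk2 => ?_) (fun l => hX2 _) (fun l => hv0 _) (fun l => ?_)
    (fun l => ?_) (fun l => ?_) (fun l => hT1 _) (fun l => hT2 _)
    (fun K => hsh.eventually (hsl K)) dens hx0 hx hy0 hyx hQ
  · by_cases hR' : ∀ v, o v k = R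
    · exact Or.inl hR'
    · refine Or.inr fun l u hu0 hu1 => ?_
      rcases (hl₀' (l + l₀) (Nat.le_add_left _ _)).2 k hk0 hk2 with h1 | h1
      · exact absurd h1 hR'
      · exact h1 u hu0 hu1
  · obtain ⟨⟨⟨h1, h3⟩, h2⟩, -⟩ := hl₀ (l + l₀) (Nat.le_add_left _ _)
    show v (l + l₀) + hh (l + l₀) * (t / β 2) ≤ 1
    linarith
  · obtain ⟨⟨⟨h1, h3⟩, h2⟩, -⟩ := hl₀ (l + l₀) (Nat.le_add_left _ _)
    show v (l + l₀) + hh (l + l₀) * t ≤ 1
    linarith
  · obtain ⟨-, h3⟩ := hl₀ (l + l₀) (Nat.le_add_left _ _)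
    have := (h3 0 hzero (by rw [norm_zero])).1
    rwa [smul_zero, add_zero] at this

end ext

section ctx

open Crest.Agent.R136.MkA627 Crest.Agent.R136.TD627
open Crest.Agent.R116.LZg725
open Crest.Agent.R116.Gd222 (TSet sN PDL DT vb)
open Crest.Agent.R116.KI439
open Crest.Agent.R116.KF439 (PL Thin frF flF scN)
open Crest.Agent.R116.Tw468 Crest.Agent.R116.CtxB468
open Crest.Agent.R116.SgF665

variable {G : Geo TSet (Fin 2)} {L : ℕ → ℕ → LRay} {r : ℕ → ℝ} {g s : ℝ} {θ q : Fin 2 → ℝ}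
    {Rg : ℝ} {B : Base}
    {I : ℕ → Finset (ℕ × ℝ)} {lev : ℕ → ℚ → ℕ} {A : ℕ → ℝ}
    {f : ℕ → ℚ → ℕ → ℤ → ℕ} {b : ℕ → ℚ → ℕ → TSet} {vm : ℕ → ℚ → ℝ} {w : Fin 2 → ℕ → ℚ → ℝ}
    {fr : ℕ → ℚ → ℕ × ℝ → LInc} {fl : ℕ → ℕ × ℝ → LInc} {sc : Fin 12 → ℕ → ℝ}
    {w0 sa sb δ R : ℝ} {I0 I' : ℕ → Finset (ℕ × ℝ)} {ν own : (Fin 12 → ℝ) → ℝ} {c₀ : ℝ}

/-- **[K3H] from the context, visible flags coarser** -/
theorem k3h_ctxV (h : CtxT G L r g s θ q Rg B I lev A f b vm w fr fl sc w0 sa sb δ R I0 I' ν own c₀)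
    (hk : βL (θ 0) (θ 1) 1 = 0) (hE : ¬ InvT PL B I 2 fl (sc 2))
    {X : ℕ → Fin 12 → ℝ} {hh : ℕ → ℝ} (hpos : ∀ l, 0 < hh l) (hh0 : Tendsto hh atTop (𝓝 0))
    {D : Set (Fin 12 → ℝ)} {lam : (Fin 12 → ℝ) → ℝ} (htan : IsTan (Leg monL R) D ν X hh lam)
    {t : ℝ} (ht : 0 < t) (hD : Leg monD t ⊆ D) {v : ℕ → ℝ} (hX0 : ∀ l, X l 0 = w0 + v l)
    (hB : ∀ k, k = 7 ∨ k = 8 → InvT PL B I k fl (sc k) ∨
      ∀ K : ℝ, ∀ᶠ l in atTop, X l k + K * hh l ≤ rL (θ 0) (θ 1) w0 sa sb (v l) k)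
    (hX2 : ∀ l, X l 2 = rL (θ 0) (θ 1) w0 sa sb (v l) 2) (hv0 : ∀ l, 0 < v l)
    {v1 : ℝ} (hv1 : v1 < 1) (hvv : ∀ᶠ l in atTop, v l ≤ v1)
    (hT1 : ∀ l, X l 11 = X l 0 + X l 10) (hT2 : ∀ l, X l 11 = X l 2 + X l 9)
    (hsl : ∀ K : ℝ, ∀ᶠ l in atTop, X l 2 + K * hh l ≤ X l 0 + X l 1)
    (dens : lam (topD t) ≤ lam (bx9 0 0 0 t t t t t t) + lam (bx9 t 0 t 0 0 0 0 0 0))
    {x y : ℝ} (hx0 : 0 < x) (hx : 2 * x ≤ t) (hy0 : 0 ≤ y) (hyx : y ≤ x)
    (hQ : ∀ t' : ℝ, 0 ≤ t' → t' ≤ x →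
      (1 - s) * t' ≤ lam (bx9 t 0 t x x y 0 0 x) - lam (bx9 t 0 t x x y t' t' x)) :
    (1 - s) * x ≤ lam (bx9 t 0 t x x y 0 0 0) - lam (bx9 t 0 t x x y 0 0 x) := by
  have hR : 0 ≤ R := by
    obtain ⟨l, hl⟩ := (htan 0 1 one_pos).exists
    have h0 : (0 : Fin 12 → ℝ) ∈ D := hD ((stG_fro ht.le).zero_mem ht.le)
    have := (hl 0 h0 (by rw [norm_zero])).1
    rw [smul_zero, add_zero] at this
    exact (this.1.nonneg 0).trans (this.2 0)
  have hC : 0 < cK0 monL (2 : ℝ) := by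
    have := cK0_one (M := monL) ((h.ext.chart 0).C0)
    linarith
  have hβ : βL (θ 0) (θ 1) 2 = 1 := by
    have e1 : βL (θ 0) (θ 1) 1 = -(θ 1) - 2 * -(θ 0) - 1 := rfl
    have e2 : βL (θ 0) (θ 1) 2 = -(θ 1) - 2 * -(θ 0) := rfl
    rw [e1] at hk
    rw [e2]; linarith
  have h1 : InvT PL B I 1 fl (sc 1) := by
    rcases h.out.clsD with h1 | h1
    · exact h1
    · exact absurd h1.2.1 (by rw [hk]; exact lt_irrefl _)
  have hST : Rm899.STwL2 B I lev fl (sc 2) := by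
    rcases h.out.kone hk with h2 | h2
    · exact absurd h2 hE
    · exact h2
  obtain ⟨γ, hγ, H⟩ := ostrips_of h.out.win.sys (fun k n v => rfl) h.out.win.hz w0 sa sb {2}
    (fun j hj => by rw [mem_singleton.1 hj, hβ]; exact one_pos) (fun _ => Set.univ)
    (fun j hj => Or.inr rfl) (fun j hj => by
      rw [mem_singleton.1 hj, hβ]
      exact stC_of_STwL2 hST)
  have H' := H.sub (Eventually.of_forall h.sub0)
  have hV : ∀ k, k ≠ 0 → k ≠ 2 → k ≠ 7 → k ≠ 8 → ¬ VisT B I fl sc k := by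
    intro k k0 k2 k7 k8 hv
    refine hv ?_
    fin_cases k
    · exact absurd rfl k0
    · exact h1
    · exact absurd rfl k2
    · exact h.out.inv_ray (by decide)
    · exact h.out.inv_ray (by decide)
    · exact h.out.inv_ray (by decide)
    · exact h.out.inv_ray (by decide)
    · exact absurd rfl k7
    · exact absurd rfl k8
    · exact h.out.inv_ray (by decide)
    · exact h.out.inv_ray (by decide)
    · exact h.out.inv_ray (by decide)
  have hoR : ∀ k, k ≠ 0 → k ≠ 2 →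
      (∀ v, oL (θ 0) (θ 1) w0 sa sb R (VisT B I fl sc) v k = R) ∨
      ∀ᶠ l in atTop, ∀ u, 0 ≤ u → u ≤ t → X l k + hh l * t ≤
        oL (θ 0) (θ 1) w0 sa sb R (VisT B I fl sc) (v l + hh l * u) k := by
    intro k k0 k2
    by_cases hv : VisT B I fl sc k
    · have k78 : k = 7 ∨ k = 8 := by
        by_contra hc
        push Not at hc
        exact hV k k0 k2 hc.1 hc.2 hv
      rcases hB k k78 with h2 | h2
      · exact absurd h2 hv
      · refine Or.inr ?_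
        filter_upwards [h2 (t + t * |βL (θ 0) (θ 1) k|)] with l hl u hu0 hu1
        rw [oV hv]
        have e : rL (θ 0) (θ 1) w0 sa sb (v l + hh l * u) k =
            rL (θ 0) (θ 1) w0 sa sb (v l) k + hh l * u * βL (θ 0) (θ 1) k := by
          rw [PL504.rL_lin (θ 0) (θ 1) w0 sa sb (v l + hh l * u) k,
            PL504.rL_lin (θ 0) (θ 1) w0 sa sb (v l) k]
          ring
        rw [e]
        have h3 : -(t * |βL (θ 0) (θ 1) k|) ≤ u * βL (θ 0) (θ 1) k := by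
          have h4 := neg_abs_le (βL (θ 0) (θ 1) k)
          have h5 := abs_nonneg (βL (θ 0) (θ 1) k)
          nlinarith
        have h6 := mul_le_mul_of_nonneg_left h3 (hpos l).le
        linarith
    · exact Or.inl fun v => oR k0 hv v
  exact k3h_extV hR hC h.ext (Sd369.coc_N B lev w w0 sa sb fl) H' (hγ 2) (by rw [hβ]; exact one_pos)
    rfl (fun v => oz _ v) (fun v => by rw [oV hE, PL504.rL_lin])
    hpos hh0 htan ht hD hX0 hoR (fun l => by rw [hX2, PL504.rL_lin]) hv0 hv1 hvv hT1 hT2 hsl dens hx0 hx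
    hy0 hyx hQ


end ctx

end Crest.Agent.R116.K3V460
end

-- ▼ part R116/K3K_460
section

/-!
# R116 (K side, TIES), `k' = 1` exactly: [K3] on plane data (helper460)

* **`k3K_ctx`** : `CtxT` + plane data of a natural offset, `D` raised ⊢ `K3K s Λ`
* **`k3K_pd8`** : the same from 363's `Pd8` (`t ≠ 0`; 736's raised planes: `t = 1`).  `B` (slots
  `7, 8`) invisible, or visible and strictly coarser than its own level
-/

set_option autoImplicit false
set_option linter.unusedSectionVars false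
set_option linter.unusedVariables false

open Set Filter Topology

namespace Crest.Agent.R116.K3V460

open Crest.Agent.R138
open Crest.Agent.R138.Ex926 (Base U IsTan)
open Crest.Agent.R136
open Crest.Agent.R136.MkA627
open Crest.Agent.R136.TD627
open Crest.Agent.R136.Net191
open Crest.Agent.R136.Lq196
open Crest.Agent.R136.Qg926 Crest.Agent.R136.Gf356 Crest.Agent.R116.EvL504
open Crest.Agent.R116.ChL222
open Crest.Agent.R116.PL504 (nb rL DN eL βL oL Shift eL_wall)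
open Crest.Agent.R116.Sg337 (bx9)
open Crest.Agent.R116.Gd222 (TSet sN PDL DT)
open Crest.Agent.R116.KI439
open Crest.Agent.R116.KF439 (PL)
open Crest.Agent.R116.CtxB468
open Crest.Agent.R116.Tw468
open Crest.Agent.R116.Rcx363 (fo fo_lip Prf)
open Crest.Agent.R116.RbM219
open Crest.Agent.R116.RbK219 (RS)
open Crest.Agent.R116.Kz647
open Crest.Agent.R116.Pd363
open Crest.Agent.R116.SgF665 (wl wl_add wl_smul LM0 mem_LM0 bx9_mem)
open Crest.Agent.R116.WinG954 (LM monD topD topD_eq bx9_legD leg_LMd stG_fro)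
open Crest.Agent.R116.Tq741
open Crest.Agent.R116.Tq794
open Crest.Agent.R116.Tk299 (K3K)

open Dg219 (mw Walls)
open Sl741 (slice xt rs)

section core

variable {J : Type*} [Finite J] {P M : Set (Fin 12 → ℝ)} {f lam2 : J → (Fin 12 → ℝ) → ℝ}
  {j0 : J} {X : ℕ → Fin 12 → ℝ} {H : ℕ → ℝ} {E : V9 → Fin 12 → ℝ} {w : V9}

/-- 794's `tan_core` for an arbitrary limit -/
theorem tan_coreQ (hMc : IsClosed M) (hM0 : (0 : Fin 12 → ℝ) ∈ M)
    (hMa : ∀ p ∈ M, ∀ q ∈ M, p + q ∈ M) (hMs : ∀ t : ℝ, 0 ≤ t → ∀ p ∈ M, t • p ∈ M)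
    (hpos : ∀ l, 0 < H l) (ht : ∀ j, IsTan P M (f j) X H (lam2 j))
    (hlip : ∃ K : ℝ, 0 ≤ K ∧ ∀ j, ∀ p ∈ M, ∀ q ∈ M, |lam2 j p - lam2 j q| ≤ K * ‖p - q‖)
    (hE : ∀ (w d : V9) (t : ℝ), E (w + t • d) = E w + t • E d) (hE0 : E 0 = 0) (hw : E w ∈ M)
    {h : ℕ → ℝ} (hp : ∀ m, 0 < h m) (h0 : Tendsto h atTop (𝓝 0)) {g : V9 → ℝ}
    (hd : ∀ d, LegM 0 d → Tendsto (fun m => (lam2 j0 (E (w + h m • d)) - lam2 j0 (E w)) / h m)
      atTop (𝓝 (g d)))
    {Pr : ℕ → ℕ → Prop} (hPr : ∀ m, ∀ᶠ l in atTop, Pr m l) :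
    ∃ (ψ : ℕ → ℕ) (h' : ℕ → ℝ) (lam3 : J → (Fin 12 → ℝ) → ℝ), StrictMono ψ ∧
      (∀ m, Pr m (ψ m)) ∧ (∀ m, 0 < h' m) ∧ Tendsto h' atTop (𝓝 0) ∧
      (∀ j, IsTan P M (f j) (fun m => X (ψ m) + H (ψ m) • E w) (fun m => H (ψ m) * h' m)
        (lam3 j)) ∧
      ∀ d, LegM 0 d → E d ∈ M → lam3 j0 (E d) = g d := by
  obtain ⟨K, hK, hlip⟩ := hlip
  obtain ⟨φ, hφ, lam3, hT⟩ := Rc683.exists_tan (J := J) (P := fun _ => M) (D := fun _ => M)
    (fun _ => hMc) (ν := lam2) hK hlip (x := fun _ => E w) (h := h) hp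
    (fun _ C => Eventually.of_forall fun l c hc _ => hMa _ hw _ (hMs _ (hp l).le _ hc))
    (fun _ => hM0)
  have hp' : ∀ m, 0 < h (φ m) := fun m => hp _
  obtain ⟨ψ, hψ, hPψ, hTT⟩ := Kz647.diag_at hpos ht hw hp' hT hPr
  refine ⟨ψ, fun m => h (φ m), lam3, hψ, hPψ, hp', h0.comp hφ.tendsto_atTop, hTT,
    fun d hdl hdM => ?_⟩
  have h1 := SgO219.tan_lim hp' (hT j0) hdM hM0
  rw [tan_zero hp' (hT j0) hM0, sub_zero] at h1
  refine tendsto_nhds_unique h1 (((hd d hdl).comp hφ.tendsto_atTop).congr fun m => ?_)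
  simp only [Function.comp]
  rw [hE, smul_zero, add_zero]

end core

section ctx

variable {G : Geo TSet (Fin 2)} {L : ℕ → ℕ → LRay} {r : ℕ → ℝ} {g s : ℝ} {θ q : Fin 2 → ℝ}
    {Rg : ℝ} {B : Base} {I : ℕ → Finset (ℕ × ℝ)} {lev : ℕ → ℚ → ℕ} {A : ℕ → ℝ}
    {f : ℕ → ℚ → ℕ → ℤ → ℕ} {b : ℕ → ℚ → ℕ → TSet} {vm : ℕ → ℚ → ℝ} {w : Fin 2 → ℕ → ℚ → ℝ}
    {fr : ℕ → ℚ → ℕ × ℝ → LInc} {fl : ℕ → ℕ × ℝ → LInc} {sc : Fin 12 → ℕ → ℝ}
    {w0 sa sb δ R : ℝ} {I0 I' : ℕ → Finset (ℕ × ℝ)} {ν own : (Fin 12 → ℝ) → ℝ} {c₀ : ℝ}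
    {v0 t κ sg l α v c p : ℝ} {a b' : Fin 2} {Vis' : Fin 12 → Prop} {X : ℕ → Fin 12 → ℝ}
    {h' H : ℕ → ℝ} {lam lam2 : Fin 2 → (Fin 12 → ℝ) → ℝ} {zz cc pp dd : ℕ → ℝ}

/-- **[K3] on plane data, `D` raised** -/
theorem k3K_ctx
    (C : CtxT G L r g s θ q Rg B I lev A f b vm w fr fl sc w0 sa sb δ R I0 I' ν own c₀)
    (hβ : 2 * θ 0 - θ 1 - 1 = 0) (hE : ¬ InvT PL B I 2 fl (sc 2)) (hv0 : 0 < v0) (hv1 : v0 < 1)
    (hpos : ∀ l, 0 < H l) (h0 : Tendsto H atTop (𝓝 0))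
    (hX : Tendsto X atTop (𝓝 (rL (θ 0) (θ 1) w0 sa sb v0)))
    (ht : ∀ j, IsTan (Leg monL R) LM0 (fo ν own j) X H (lam2 j))
    (hXn : ∀ l, X l = eL (zz l) (cc l) (pp l) + dd l • (Pi.single 1 1 : Fin 12 → ℝ))
    (hdd : ∀ K : ℝ, ∀ᶠ l in atTop, K * H l ≤ dd l)
    (hX2 : ∀ l, X l 2 = rL (θ 0) (θ 1) w0 sa sb (X l 0 - w0) 2)
    (hB : ∀ k, k = 7 ∨ k = 8 → InvT PL B I k fl (sc k) ∨
      ∀ K : ℝ, ∀ᶠ l in atTop, X l k + K * H l ≤ rL (θ 0) (θ 1) w0 sa sb (X l 0 - w0) k) :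
    K3K s (fun w => lam2 0 (E8 w)) := by
  intro w R' Ψ Q qq h hg7 hg9 hgi hw70 hp hh0 hΨ hQ hlim hq
  have eg7 : gap w 7 = w 0 + w 2 - w 4 := rfl
  have eg9 : gap w 9 = w 7 + w 5 - w 4 := rfl
  rw [eg7] at hg7
  rw [eg9] at hg9
  have hwl : LegM 0 w := by
    have g0 : 0 < w 0 + w 8 - w 7 := hgi 0 (by decide) (by decide)
    have g1 : 0 < w 0 + w 1 - w 3 := hgi 1 (by decide) (by decide)
    have g2 : 0 < w 7 + w 1 - w 6 := hgi 2 (by decide) (by decide)
    have g3 : 0 < w 8 + w 3 - w 6 := hgi 3 (by decide) (by decide)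
    have g4 : 0 < w 1 + w 3 - w 5 := hgi 4 (by decide) (by decide)
    have g5 : 0 < w 1 + w 6 - w 2 := hgi 5 (by decide) (by decide)
    have g6 : 0 < w 8 + w 5 - w 2 := hgi 6 (by decide) (by decide)
    have g8 : 0 < w 3 + w 6 - w 4 := hgi 8 (by decide) (by decide)
    constructor <;> linarith
  have hk : βL (θ 0) (θ 1) 1 = 0 := by
    show -(θ 1) - 2 * -(θ 0) - 1 = 0
    linarith
  have hβ2 : βL (θ 0) (θ 1) 2 = 1 := by
    show -(θ 1) - 2 * -(θ 0) = 1
    linarith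
  have hM0 : (0 : Fin 12 → ℝ) ∈ LM0 := by rw [← E8_zero]; exact E8_mem leg_zero
  have hlip : ∃ K : ℝ, 0 ≤ K ∧ ∀ j, ∀ p ∈ LM0, ∀ q ∈ LM0,
      |lam2 j p - lam2 j q| ≤ K * ‖p - q‖ := by
    refine ⟨12, by norm_num, fun j p hp' q hq' => ?_⟩
    have := SgO219.tan_lip hpos (ht j) (K := 12) (fo_lip C j) p hp' q hq'
    rwa [dist_eq_norm] at this
  -- the heights of the bases
  set v2 : ℕ → ℝ := fun l => (X l + H l • E8 w) 0 - w0 with hv2
  have hv2t : Tendsto v2 atTop (𝓝 v0) := by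
    have h1 : Tendsto (fun l => X l + H l • E8 w) atTop
        (𝓝 (rL (θ 0) (θ 1) w0 sa sb v0 + (0:ℝ) • E8 w)) := hX.add (h0.smul_const _)
    rw [zero_smul, add_zero] at h1
    have h2 := ((tendsto_pi_nhds.1 h1) 0).sub_const w0
    have e : rL (θ 0) (θ 1) w0 sa sb v0 0 - w0 = v0 := by
      show w0 + v0 - w0 = v0
      ring
    rw [e] at h2
    exact h2
  obtain ⟨ψ, h1, lam3, hψ, hPψ, hp1, h01, hT, hv⟩ := tan_coreQ (E := E8) (j0 := (0 : Fin 2))
    LM0_closed hM0 (fun p hp q hq => LM0_add hp hq) (fun t ht p hp => LM0_smul ht hp) hpos ht hlip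
    E8_add E8_zero (E8_mem hwl) hp hh0 hlim (Pr := fun _ l => 0 < v2 l ∧ v2 l < (1 + v0) / 2)
    (fun _ => (hv2t.eventually_const_lt hv0).and (hv2t.eventually_lt_const (by linarith)))
  -- values
  have val : ∀ d : V9, LegM 0 d → d 2 = d 5 → lam3 0 (E8 d) =
      -(Ψ d + qq * d 2 + (R' 1 * d 1 + R' 3 * d 3 + R' 4 * d 4 + R' 6 * d 6)) := fun d hd h25 => by
    rw [hv d hd (E8_mem hd), hQ d hd h25]
  have hz8 : LegM 0 ![0, 0, 0, 0, 0, 0, 0, 0, 100] := by
    constructor <;> simp only [Matrix.cons_val] <;> norm_num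
  have hΨz : ∀ d : V9, LegM 0 d → d 0 = 0 → d 7 = 0 → d 8 = 100 → Ψ d = 0 := by
    intro d hd a0 a7 a8
    rw [hΨ d ![0, 0, 0, 0, 0, 0, 0, 0, 100] (by rw [a0]; rfl) (by rw [a7]; rfl) (by rw [a8]; rfl)
      hd hz8]
    have h3 := val ![0, 0, 0, 0, 0, 0, 0, 0, 100] hz8 rfl
    have e : E8 ![0, 0, 0, 0, 0, 0, 0, 0, 100] = 0 := by
      funext i; fin_cases i <;> rfl
    rw [e, tan_zero (fun m => mul_pos (hpos _) (hp1 m)) (hT 0) hM0] at h3
    simp only [Matrix.cons_val] at h3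
    linarith
  have hD : Leg monD 1 ⊆ LM0 := fun p hp k e he h1 => leg_LMd 1 hp k e he h1
  have htan : IsTan (Leg monL R) LM0 ν (fun m => X (ψ m) + H (ψ m) • E8 w)
      (fun m => H (ψ m) * h1 m) (lam3 0) := hT 0
  have hhp : ∀ m, 0 < H (ψ m) * h1 m := fun m => mul_pos (hpos _) (hp1 m)
  have hh1 : Tendsto (fun m => H (ψ m) * h1 m) atTop (𝓝 0) := tend_mul h0 hψ h01
  have s2 : (Pi.single 1 1 : Fin 12 → ℝ) 2 = 0 := Pi.single_eq_of_ne (by decide) _
  have s1 : (Pi.single 1 1 : Fin 12 → ℝ) 1 = 1 := Pi.single_eq_same _ _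
  have s0 : (Pi.single 1 1 : Fin 12 → ℝ) 0 = 0 := Pi.single_eq_of_ne (by decide) _
  have s9 : (Pi.single 1 1 : Fin 12 → ℝ) 9 = 0 := Pi.single_eq_of_ne (by decide) _
  have s10 : (Pi.single 1 1 : Fin 12 → ℝ) 10 = 0 := Pi.single_eq_of_ne (by decide) _
  have s11 : (Pi.single 1 1 : Fin 12 → ℝ) 11 = 0 := Pi.single_eq_of_ne (by decide) _
  have xv : ∀ (l : ℕ) (k : Fin 12), (X l + H l • E8 w) k =
      eL (zz l) (cc l) (pp l) k + dd l * (Pi.single 1 1 : Fin 12 → ℝ) k + H l * E8 w k := by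
    intro l k
    rw [hXn l]; rfl
  have lev : ∀ (l : ℕ) (k : Fin 12), rL (θ 0) (θ 1) w0 sa sb (v2 l) k =
      rL (θ 0) (θ 1) w0 sa sb (X l 0 - w0) k + H l * w 0 * βL (θ 0) (θ 1) k := by
    intro l k
    have e : v2 l = (X l 0 - w0) + H l * w 0 := by
      show X l 0 + H l * w 0 - w0 = _
      ring
    rw [e, PL504.rL_lin (θ 0) (θ 1) w0 sa sb (X l 0 - w0 + H l * w 0) k,
      PL504.rL_lin (θ 0) (θ 1) w0 sa sb (X l 0 - w0) k]
    ring
  have hsl : ∀ K : ℝ, ∀ᶠ m in atTop, (X (ψ m) + H (ψ m) • E8 w) 2 + K * (H (ψ m) * h1 m) ≤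
      (X (ψ m) + H (ψ m) • E8 w) 0 + (X (ψ m) + H (ψ m) • E8 w) 1 := by
    intro K
    have h3 := hψ.tendsto_atTop.eventually (hdd 1)
    have h4 : ∀ᶠ m in atTop, K * h1 m < 1 := by
      have : Tendsto (fun m => K * h1 m) atTop (𝓝 0) := by simpa using h01.const_mul K
      exact this.eventually_lt_const (by norm_num)
    filter_upwards [h3, h4] with m m3 m4
    rw [xv, xv, xv, s0, s1, s2]
    have e2 : eL (zz (ψ m)) (cc (ψ m)) (pp (ψ m)) 2 = pp (ψ m) - 2 * cc (ψ m) := rfl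
    have e1 : eL (zz (ψ m)) (cc (ψ m)) (pp (ψ m)) 1 = pp (ψ m) - 2 * cc (ψ m) - zz (ψ m) := rfl
    have e0 : eL (zz (ψ m)) (cc (ψ m)) (pp (ψ m)) 0 = zz (ψ m) := rfl
    have f2 : E8 w 2 = w 7 := rfl
    have f1 : E8 w 1 = 0 := rfl
    have f0 : E8 w 0 = w 0 := rfl
    rw [e2, e1, e0, f2, f1, f0, hw70]
    have h5 := mul_le_mul_of_nonneg_left m4.le (hpos (ψ m)).le
    nlinarith
  have hT1 : ∀ m, (X (ψ m) + H (ψ m) • E8 w) 11 =
      (X (ψ m) + H (ψ m) • E8 w) 0 + (X (ψ m) + H (ψ m) • E8 w) 10 := by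
    intro m
    rw [xv, xv, xv, s0, s10, s11]
    have e11 : eL (zz (ψ m)) (cc (ψ m)) (pp (ψ m)) 11 = zz (ψ m) + pp (ψ m) := rfl
    have e10 : eL (zz (ψ m)) (cc (ψ m)) (pp (ψ m)) 10 = pp (ψ m) := rfl
    have e0 : eL (zz (ψ m)) (cc (ψ m)) (pp (ψ m)) 0 = zz (ψ m) := rfl
    have f11 : E8 w 11 = w 4 := rfl
    have f10 : E8 w 10 = w 2 := rfl
    have f0 : E8 w 0 = w 0 := rfl
    rw [e11, e10, e0, f11, f10, f0]
    have h5 : w 4 = w 0 + w 2 := by linarith
    rw [h5]; ring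
  have hT2 : ∀ m, (X (ψ m) + H (ψ m) • E8 w) 11 =
      (X (ψ m) + H (ψ m) • E8 w) 2 + (X (ψ m) + H (ψ m) • E8 w) 9 := by
    intro m
    rw [xv, xv, xv, s2, s9, s11]
    have e11 : eL (zz (ψ m)) (cc (ψ m)) (pp (ψ m)) 11 = zz (ψ m) + pp (ψ m) := rfl
    have e2 : eL (zz (ψ m)) (cc (ψ m)) (pp (ψ m)) 2 = pp (ψ m) - 2 * cc (ψ m) := rfl
    have e9 : eL (zz (ψ m)) (cc (ψ m)) (pp (ψ m)) 9 = zz (ψ m) + 2 * cc (ψ m) := rfl
    have f11 : E8 w 11 = w 4 := rfl
    have f2 : E8 w 2 = w 7 := rfl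
    have f9 : E8 w 9 = w 5 := rfl
    rw [e11, e2, e9, f11, f2, f9]
    have h5 : w 4 = w 7 + w 5 := by linarith
    rw [h5]; ring
  have hB' : ∀ k, k = 7 ∨ k = 8 → InvT PL B I k fl (sc k) ∨
      ∀ K : ℝ, ∀ᶠ m in atTop, (X (ψ m) + H (ψ m) • E8 w) k + K * (H (ψ m) * h1 m) ≤
        rL (θ 0) (θ 1) w0 sa sb (v2 (ψ m)) k := by
    intro k hk78
    rcases hB k hk78 with h3 | h3
    · exact Or.inl h3
    · refine Or.inr fun K => ?_
      have h4 := hψ.tendsto_atTop.eventually (h3 (|E8 w k| + |w 0 * βL (θ 0) (θ 1) k| + 1))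
      have h5 : ∀ᶠ m in atTop, K * h1 m < 1 := by
        have : Tendsto (fun m => K * h1 m) atTop (𝓝 0) := by simpa using h01.const_mul K
        exact this.eventually_lt_const (by norm_num)
      filter_upwards [h4, h5] with m m4 m5
      rw [lev]
      show X (ψ m) k + H (ψ m) * E8 w k + K * (H (ψ m) * h1 m) ≤ _
      have j1 := mul_le_mul_of_nonneg_left m5.le (hpos (ψ m)).le
      have j2 := mul_le_mul_of_nonneg_left (le_abs_self (E8 w k)) (hpos (ψ m)).le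
      have j3 := mul_le_mul_of_nonneg_left (neg_abs_le (w 0 * βL (θ 0) (θ 1) k)) (hpos (ψ m)).le
      nlinarith
  -- the class vectors
  have m1 : LegM 0 ![1, 1, 1, 1, 1, 1, 1, 1, 100] := by
    constructor <;> simp only [Matrix.cons_val] <;> norm_num
  have m2 : LegM 0 ![0, 1, 1, 1, 1, 1, 1, 0, 100] := by
    constructor <;> simp only [Matrix.cons_val] <;> norm_num
  have m3 : LegM 0 ![1, 0, 0, 0, 0, 0, 0, 1, 100] := by
    constructor <;> simp only [Matrix.cons_val] <;> norm_num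
  have m4 : ∀ (t' : ℝ) (F : ℝ), 0 ≤ t' → t' ≤ 1 / 2 → F ≤ 1 / 2 →
      LegM 0 ![1, 1 / 2, t', 1 / 2, F, t', 0, 1, 100] := by
    intro t' F a1 a2 a3
    constructor <;> simp only [Matrix.cons_val] <;> linarith
  have q1 : lam3 0 (topD 1) = -(Ψ ![1, 1, 1, 1, 1, 1, 1, 1, 100] + qq * 1 +
      (R' 1 * 1 + R' 3 * 1 + R' 4 * 1 + R' 6 * 1)) := by
    have e : topD 1 = E8 ![1, 1, 1, 1, 1, 1, 1, 1, 100] := by
      rw [topD_eq]; rfl
    rw [e, val _ m1 rfl]
    simp only [Matrix.cons_val]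
  have q2 : lam3 0 (bx9 0 0 0 1 1 1 1 1 1) = -(0 + qq * 1 +
      (R' 1 * 1 + R' 3 * 1 + R' 4 * 1 + R' 6 * 1)) := by
    have e : bx9 0 0 0 1 1 1 1 1 1 = E8 ![0, 1, 1, 1, 1, 1, 1, 0, 100] := rfl
    rw [e, val _ m2 rfl, hΨz _ m2 rfl rfl rfl]
    simp only [Matrix.cons_val]
  have q3 : lam3 0 (bx9 1 0 1 0 0 0 0 0 0) = -(Ψ ![1, 1, 1, 1, 1, 1, 1, 1, 100] + qq * 0 +
      (R' 1 * 0 + R' 3 * 0 + R' 4 * 0 + R' 6 * 0)) := by
    have e : bx9 1 0 1 0 0 0 0 0 0 = E8 ![1, 0, 0, 0, 0, 0, 0, 1, 100] := rfl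
    rw [e, val _ m3 rfl, hΨ ![1, 0, 0, 0, 0, 0, 0, 1, 100] ![1, 1, 1, 1, 1, 1, 1, 1, 100]
      rfl rfl rfl m3 m1]
    simp only [Matrix.cons_val]
  have q4 : ∀ (t' F : ℝ), 0 ≤ t' → t' ≤ 1 / 2 → F ≤ 1 / 2 →
      lam3 0 (bx9 1 0 1 (1 / 2) (1 / 2) 0 t' t' F) =
        -(Ψ ![1, 1, 1, 1, 1, 1, 1, 1, 100] + qq * t' +
          (R' 1 * (1 / 2) + R' 3 * (1 / 2) + R' 4 * F + R' 6 * 0)) := by
    intro t' F a1 a2 a3
    have e : bx9 1 0 1 (1 / 2) (1 / 2) 0 t' t' F =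
        E8 ![1, 1 / 2, t', 1 / 2, F, t', 0, 1, 100] := rfl
    rw [e, val _ (m4 t' F a1 a2 a3) rfl, hΨ ![1, 1 / 2, t', 1 / 2, F, t', 0, 1, 100]
      ![1, 1, 1, 1, 1, 1, 1, 1, 100] rfl rfl rfl (m4 t' F a1 a2 a3) m1]
    simp only [Matrix.cons_val]
  have l1 := q4 0 0 le_rfl (by norm_num) (by norm_num)
  have l2 := q4 0 (1 / 2) le_rfl (by norm_num) le_rfl
  have key := k3h_ctxV C hk hE hhp hh1 htan (t := 1) one_pos hD
    (v := fun m => v2 (ψ m)) (fun m => by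
      show _ = w0 + ((X (ψ m) + H (ψ m) • E8 w) 0 - w0)
      ring) hB'
    (fun m => by
      rw [lev, ← hX2, hβ2]
      show X (ψ m) 2 + H (ψ m) * E8 w 2 = _
      have f2 : E8 w 2 = w 7 := rfl
      rw [f2, hw70]; ring)
    (fun m => (hPψ m).1) (v1 := (1 + v0) / 2) (by linarith)
    (Eventually.of_forall fun m => (hPψ m).2.le) hT1 hT2 hsl
    (by rw [q1, q2, q3]; linarith) (x := 1 / 2) (y := 0) (by norm_num) (by norm_num) le_rfl
    (by norm_num)
    (fun t' h2 h3 => by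
      rw [q4 t' (1 / 2) h2 h3 le_rfl, l2]
      nlinarith)
  rw [l1, l2] at key
  linarith

/-- **[K3] on 363's plane data of a natural offset in the tie plane** -/
theorem k3K_pd8 {ρ ρ2 : Fin 8 → ℝ}
    (P : Pd8 R s a b' Vis' (θ 0) (θ 1) w0 sa sb v0 t κ (nat8 v c p) sg (fo ν own) lam ρ l α h' X H
      lam2 ρ2)
    (C : CtxT G L r g s θ q Rg B I lev A f b vm w fr fl sc w0 sa sb δ R I0 I' ν own c₀)
    (ht : t ≠ 0) (hβ : 2 * θ 0 - θ 1 - 1 = 0) (hD : p = 2 * c + v)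
    (hE : ¬ InvT PL B I 2 fl (sc 2)) (hv0 : 0 < v0) (hv1 : v0 < 1)
    (hB : ∀ k, k = 7 ∨ k = 8 → InvT PL B I k fl (sc k) ∨
      ∀ K : ℝ, ∀ᶠ l in atTop, X l k + K * H l ≤ rL (θ 0) (θ 1) w0 sa sb (X l 0 - w0) k) :
    K3K s (fun w => lam2 0 (xt kp 0 (RL8.vec (fun i : Fin 8 => w i.castSucc)))) := by
  obtain ⟨zz, cc, pp, dd, hXn⟩ := pd8_natural P
  have ht' : ∀ j, IsTan (Leg monL R) LM0 (fo ν own j) X H (lam2 j) := fun j =>
    Rc683.tan_mono (P.tan j) Subset.rfl (LM0_L8B ht)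
  have hX2 : ∀ m, X m 2 = rL (θ 0) (θ 1) w0 sa sb (X m 0 - w0) 2 := by
    obtain ⟨V, E, -, -, -, hb⟩ := P.base
    intro m
    rw [hb m 2 (by decide), hb m 0 (by decide)]
    have e0 : nat8 v c p (cl8 0) = v := rfl
    have e2 : nat8 v c p (cl8 2) = p - 2 * c := rfl
    rw [e0, e2]
    have e3 : rL (θ 0) (θ 1) w0 sa sb (v0 + V m) 0 = w0 + (v0 + V m) := rfl
    have e4 : βL (θ 0) (θ 1) 2 = 1 := by
      show -(θ 1) - 2 * -(θ 0) = 1
      linarith
    rw [e3, PL504.rL_lin (θ 0) (θ 1) w0 sa sb (v0 + V m) 2,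
      PL504.rL_lin (θ 0) (θ 1) w0 sa sb (w0 + (v0 + V m) + E m * v - w0) 2, e4, hD]
    ring
  have h1 := k3K_ctx C hβ hE hv0 hv1 P.pos P.lim P.xlim ht' hXn (slack_of_tan P.pos (ht' 0) hXn)
    hX2 hB
  simpa only [E8_eq] using h1

end ctx

end Crest.Agent.R116.K3V460
end

-- ▼ part R116/FlK2_30

/-!
# R116 (K side, TIES), the cell K2: `κ`-tie, `k' = 2 θ 0 - θ 1 = 1` exactly, every `s` (helper30)

* `k1_down`, `k1_up` : the planes `kD`, `kU` at the record with `D` raised in the second level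
* **`k1_false`** : context `⊢ False`;  **`fillK2`**
-/

set_option autoImplicit false
set_option linter.unusedSectionVars false
set_option linter.unusedVariables false

open Set Filter Topology MeasureTheory

namespace Crest.Agent.R116.K1d30

open Crest.Agent.R138
open Crest.Agent.R138.Ex926 (Base U IsTan)
open Crest.Agent.R136
open Crest.Agent.R136.MkA627
open Crest.Agent.R136.TD627
open Crest.Agent.R136.Net191
open Crest.Agent.R136.Lq196
open Crest.Agent.R136.Qg926 Crest.Agent.R136.Gf356 Crest.Agent.R116.EvL504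
open Crest.Agent.R116.ChL222
open Crest.Agent.R116.PL504 (nb rL DN eL βL oL Shift eL_wall)
open Crest.Agent.R116.Sg337 (bx9 DL)
open Crest.Agent.R116.Gd222 (TSet sN PDL DT)
open Crest.Agent.R116.KI439 hiding kD
open Crest.Agent.R116.KF439 (PL)
open Crest.Agent.R116.CtxB468
open Crest.Agent.R116.Rcx363
open Crest.Agent.R116.RbM219
open Crest.Agent.R116.RbK219 (RS SOk Par dl)
open Crest.Agent.R116.Kz647
open Crest.Agent.R116.Rz460
open Crest.Agent.R116.Pd363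
open Crest.Agent.R116.Tq741
open Crest.Agent.R116.Tq126
open Crest.Agent.R116.Tp139 hiding cl8
open Crest.Agent.R116.Ku126 (tk8_D tk8_U kUp_of)
open Crest.Agent.R116.K1p736 (plane8z)
open Crest.Agent.R116.Tk299 (K3K AK kf1)
open Crest.Agent.R116.KTop387
open Crest.Agent.R116.KTie794
open Tie460 (Pl KF' KUp' kTie_false')
open Dg219 (mw Walls)
open Sl741 (slice xt rs)

/-- `KF'` at `k = 1` from (K3) -/
theorem kf1K' {c : Fin 9 → Fin 9} {dl : V9} {s : ℝ} {Λ : V9 → ℝ} {φ : Fin 9 → V9 → ℝ} {ρ : V9}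
    {L : Prop} (P : Tk299.PlK L 1 c dl) (H : Cl9 c dl s Λ φ ρ) (hs0 : 0 ≤ s) (hs : s ≤ 1)
    {Sk : V9 → Prop} (F : Fct9 Sk s Λ) (hSk : ∀ w, w 7 < w 0 → w 8 < 0 → Sk w) (K : K3K s Λ) :
    KF' s 1 (AK c s φ ρ) :=
  kf1 P H hs0 hs F hSk fun hm => Tk299.PlK.n1 P H K (by
    have h1 : Tk299.hK c φ ≤ s := (Tk299.PlK.fanA P H one_pos hs0 hs F
      (fun w h7 h8 => hSk w (by linarith) (by linarith))).kh hm
    have h2 := Tk299.sum1 H P
    have h3 : 0 ≤ Tk299.rK c φ := (Tk299.PlK.pos P H).r0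
    linarith)

theorem natcut (v c p : ℝ) : (fun i : Fin 8 => nat9 v c p i.castSucc) = nat8 v c p := by
  funext i; fin_cases i <;> rfl

section ctx

variable {G : Geo TSet (Fin 2)} {L : ℕ → ℕ → LRay} {r : ℕ → ℝ} {g s : ℝ} {θ q : Fin 2 → ℝ}
    {Rg : ℝ} {B : Base} {I : ℕ → Finset (ℕ × ℝ)} {lev : ℕ → ℚ → ℕ} {A : ℕ → ℝ}
    {f : ℕ → ℚ → ℕ → ℤ → ℕ} {b : ℕ → ℚ → ℕ → TSet} {vm : ℕ → ℚ → ℝ} {w : Fin 2 → ℕ → ℚ → ℝ}
    {fr : ℕ → ℚ → ℕ × ℝ → LInc} {fl : ℕ → ℕ × ℝ → LInc} {sc : Fin 12 → ℕ → ℝ}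
    {w0 sa sb δ R : ℝ} {I0 I' : ℕ → Finset (ℕ × ℝ)} {ν own : (Fin 12 → ℝ) → ℝ} {c₀ : ℝ}

/-- **(K3) at the raised plane**, the binder (460's `K3K_460`) -/
def K3P (R s : ℝ) (θ : Fin 2 → ℝ) (w0 sa sb : ℝ) (f : Fin 2 → (Fin 12 → ℝ) → ℝ) : Prop :=
  ∀ {v0 κ sg l α cc : ℝ} {a b' : Fin 2} {X : ℕ → Fin 12 → ℝ} {h' H : ℕ → ℝ}
    {lam lam2 : Fin 2 → (Fin 12 → ℝ) → ℝ} {ρ ρ2 : Fin 8 → ℝ}, 0 < v0 → v0 < 1 →
    Pd8 R s a b' (fun k => k = 0 ∨ k = 2) (θ 0) (θ 1) w0 sa sb v0 1 κ (nat8 0 cc (2 * cc)) sg f lam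
      ρ l α h' X H lam2 ρ2 →
    K3K s (fun w : V9 => lam2 0 (xt kp 0 (RL8.vec (fun i : Fin 8 => w i.castSucc))))

/-- the half plane data of a natural offset `(0; c, 2 c)` at `k' = 1` -/
theorem k1_plane {T : Type*} {Bs : T → Fin 8 → ℝ} {sgs : T → ℝ} {v0 : ℝ} {a b' : Fin 2}
    {x : ℕ → Fin 12 → ℝ} {hh : ℕ → ℝ} {lam : Fin 2 → (Fin 12 → ℝ) → ℝ}
    (C : CtxT G L r g s θ q Rg B I lev A f b vm w fr fl sc w0 sa sb δ R I0 I' ν own c₀)
    (hs0 : 0 ≤ s) (hs1 : s ≤ 1) (hθ : 0 < θ 0) (hβ : 2 * θ 0 - θ 1 - 1 = 0)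
    (hv0 : 0 < v0) (hv1 : v0 < 1) (hVis : ∀ k, VisT B I fl sc k → k = 0 ∨ k = 2)
    (hK3 : K3P R s θ w0 sa sb (fo ν own))
    (O : Out8z R s a b' (VisT B I fl sc) (θ 0) (θ 1) g (q 0) (q 1) Bs sgs
      (rL (θ 0) (θ 1) w0 sa sb v0) (fo ν own) x hh lam)
    {cc sg : ℝ} (hS : SOk (nat8 1 (-(θ 0)) (-(θ 1))) (nat8 0 cc (2 * cc)) sg)
    {dl' : Fin 8 → ℝ} (hdl : dl (nat8 1 (-(θ 0)) (-(θ 1))) (nat8 0 cc (2 * cc)) sg = dl')
    (hT : Tk299.PlK False 1 (cK 1) (sn8 dl' 1))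
    (hc : ∀ i j : Fin 8, cK 1 i.castSucc = cK 1 j.castSucc ↔
      Par (nat8 1 (-(θ 0)) (-(θ 1))) (nat8 0 cc (2 * cc)) i j)
    (hz : ∀ i : Fin 8, Par (nat8 1 (-(θ 0)) (-(θ 1))) (nat8 0 cc (2 * cc)) 0 i →
      i = 0 ∨ i = 6 ∨ i = 7)
    {c0 : ℝ} (hc0 : 0 < c0) {ρ : Fin 8 → ℝ}
    (hR : Rates8 (θ 0) (θ 1) 0 (nat8 0 cc (2 * cc)) sg c0 (lam 0) ρ) :
    ∃ A : Pl, KF' s 1 A ∧ TVk 1 (θ 0) s g (q 0) (q 1) 0 cc A ∧ A.m = ρ 1 := by
  have hb : θ 1 = 2 * θ 0 - 1 := by linarith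
  have hV1 : ¬ VisT B I fl sc 1 := fun h => by
    rcases hVis 1 h with h | h <;> exact absurd h (by decide)
  have e2 : βL (θ 0) (θ 1) 2 = 1 := by
    change -(θ 1) - 2 * -(θ 0) = 1
    linarith
  obtain ⟨l, α, h', X, H, lam3, lam4, ρ3, ρ4, hl, -, -, P, hρ, hrec⟩ :=
    plane8z (Vis' := fun k => k = 0 ∨ k = 2) O hβ hS (leg80_nat (by ring)) hc0 hR
      (v := 0) (c := cc) (p := 2 * cc) le_rfl (by linarith) hV1 (fun k hk => by
        left
        refine ⟨hVis k hk, ?_⟩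
        rcases hVis k hk with rfl | rfl
        · change (0:ℝ) ≤ 0 * 1
          norm_num
        · rw [e2]
          change 2 * cc - 2 * cc ≤ 0 * 1
          linarith) (N := univ) (by simp) one_pos
  obtain ⟨φ, Hc⟩ := P.cls one_pos hS (fun k hk => by rcases hk with rfl | rfl <;> simp) hc h8_cK hz
  rw [hdl] at Hc
  have F : Fct9 (fun w => w 7 ≤ w 0) s
      (fun w : V9 => lam4 0 (xt kp 0 (RL8.vec (fun i : Fin 8 => w i.castSucc)))) := by
    refine Kt387.pd8_fct' P C hs0 hs1 one_ne_zero hθ hv0 hv1 ?_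
    intro w' _ hSk k hk
    rcases hk with rfl | rfl
    · change w' 0 ≤ w' 0 * 1
      rw [mul_one]
    · rw [e2, mul_one]
      exact hSk
  have hKF := kf1K' hT Hc hs0 hs1 F (fun w h7 h8 => h7.le) (hK3 hv0 hv1 P)
  have T1 : (fun w : V9 => lam4 0 (xt kp 0 (RL8.vec (fun i : Fin 8 => w i.castSucc))))
      (nat9 1 (-(θ 0)) (-(2 * (θ 0) - 1))) =
        DL g s (q 0) (q 1) 1 (-(θ 0)) (-(2 * (θ 0) - 1)) := by
    show lam4 0 (xt kp 0 (RL8.vec
      (fun i : Fin 8 => nat9 1 (-(θ 0)) (-(2 * (θ 0) - 1)) i.castSucc))) = _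
    rw [natcut, ← hb]
    have h1 := hrec 1
    rw [one_smul, mul_one, mul_one] at h1
    exact h1
  have V1 : (fun w : V9 => lam4 0 (xt kp 0 (RL8.vec (fun i : Fin 8 => w i.castSucc))))
      (nat9 0 cc (2 * cc + 1 * 0)) ≤ DL g s (q 0) (q 1) 0 cc (2 * cc + 1 * 0) := by
    show lam4 0 (xt kp 0 (RL8.vec (fun i : Fin 8 => nat9 0 cc (2 * cc + 1 * 0) i.castSucc))) ≤ _
    have e : 2 * cc + 1 * 0 = 2 * cc := by ring
    rw [natcut, e]
    exact P.half.row
  refine ⟨_, hKF, Tk299.PlK.tv hT Hc (fun _ => rfl) T1 V1, ?_⟩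
  show sn8 ρ4 0 1 = ρ 1
  exact hρ 1 (A1_ne hθ)

/-- **the cell K2**: context `⊢ False` -/
theorem k1_false {η : ℝ} (hη : η < 1)
    (C : CtxT G L r (g + 2 * s) s θ q Rg B I lev A f b vm w fr fl sc w0 sa sb δ R I0 I' ν own c₀)
    (hN : NumL η g s θ q) (hβ : 2 * θ 0 - θ 1 - 1 = 0)
    (hR0 : w0 + (θ 1 + sb) < R) (hR1 : w0 + 1 + sb < R) (hRg : θ 0 + |θ 1| < Rg)
    (hVis : ∀ k, VisT B I fl sc k → k = 0 ∨ k = 2)
    (hK3 : K3P R s θ w0 sa sb (fo ν own)) : False := by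
  have hθ : 0 < θ 0 := hN.θa
  have hb : θ 1 = 2 * θ 0 - 1 := by linarith
  have hs0 : 0 ≤ s := hN.s0
  have hs1 : s ≤ 1 := hN.s1.le
  have Nm := num_of hη hN
  have hTan : ∀ {cc : ℝ} {A : Pl}, TVk 1 (θ 0) s (g + 2 * s) (q 0) (q 1) 0 cc A →
      A.Tan (g + 2 * s) (θ 0) (2 * θ 0 - 1) (q 0) (q 1) := fun h => h.tan
  have kD_eq : kD = nat8 0 (-1) (2 * (-1)) := by unfold kD; norm_num
  have kU_eq : kU = nat8 0 1 (2 * 1) := by unfold kU; norm_num
  by_cases h2 : 2 * θ 0 < 1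
  · -- both sides
    have hb0 : θ 1 < 0 := by linarith
    set Bs : Fin 3 → Fin 8 → ℝ := ![kD, kU, oP] with hBs
    set sgs : Fin 3 → ℝ := ![-1, 1, 1] with hsgs
    obtain ⟨v0, -, hv0, hv1, a, b', x, hh, lam, hX, O⟩ := exists_out8z (T := Fin 3) C hR0 hR1 hθ
      hRg hβ (Bs := Bs) (sg := sgs) (fun i => by
        fin_cases i
        · exact sok_kD hθ one_pos hb
        · exact sok_kU hθ one_pos hb
        · exact sok_oP (by linarith) (by linarith) hb0) (fun i => by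
        fin_cases i
        · exact leg80_kD
        · exact leg80_kU
        · exact leg80_oP) (N := univ) (by simp)
    obtain ⟨cD, hcD, hLD, -, ρD, hRD⟩ := O.surf 0
    obtain ⟨cU, hcU, hLU, -, ρU, hRU⟩ := O.surf 1
    obtain ⟨cP, hcP, hLP, -, ρP, hRP⟩ := O.surf 2
    change (srf8 (θ 0) (θ 1) 0 kD (-1)).LW (Q8 0) cD ⊆ _ at hLD
    change Rates8 (θ 0) (θ 1) 0 kD (-1) cD (lam 0) ρD at hRD
    change (srf8 (θ 0) (θ 1) 0 kU 1).LW (Q8 0) cU ⊆ _ at hLU
    change Rates8 (θ 0) (θ 1) 0 kU 1 cU (lam 0) ρU at hRU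
    change (srf8 (θ 0) (θ 1) 0 oP 1).LW (Q8 0) cP ⊆ _ at hLP
    change Rates8 (θ 0) (θ 1) 0 oP 1 cP (lam 0) ρP at hRP
    have hp := O.posA_kD hβ hθ hcD hLD hRD
    have hpU := O.posB_kU hβ hθ hb0 hcU hcP hLU hLP hRU hRP
    have hant := O.ant_kU hβ hθ hcD hcU hLD hLU hRD hRU
    obtain ⟨A1, hA, tvA, hAm⟩ := k1_plane C hs0 hs1 hθ hβ hv0 hv1 hVis hK3 O (cc := -1) (sg := -1)
      (by rw [← kD_eq]; exact sok_kD hθ one_pos hb) rfl
      (by rw [← kD_eq]; exact tk8_D hb)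
      (by rw [← kD_eq]; exact hc_kD hθ one_pos hb) (by rw [← kD_eq]; exact hz_kD hθ one_pos hb)
      hcD (by rw [← kD_eq]; exact hRD)
    obtain ⟨B1, hB, tvB, hBm⟩ := k1_plane C hs0 hs1 hθ hβ hv0 hv1 hVis hK3 O (cc := 1) (sg := 1)
      (by rw [← kU_eq]; exact sok_kU hθ one_pos hb) rfl
      (by rw [← kU_eq]; exact tk8_U hb)
      (by rw [← kU_eq]; exact hc_kU hθ one_pos hb) (by rw [← kU_eq]; exact hz_kU hθ one_pos hb)
      hcU (by rw [← kU_eq]; exact hRU)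
    exact kTie_false' Nm one_pos hA (fun h => absurd h (lt_irrefl _)) (hTan tvA)
      (tvA.ver (by norm_num)) (by rw [hAm]; exact hp) (fun _ h => absurd h (lt_irrefl _))
      (fun _ h => absurd h (lt_irrefl _)) fun _ _ =>
        ⟨B1, kUp_of hB tvB (by norm_num) (fun _ => by rw [hAm, hBm]; exact hant)
          (by rw [hBm]; exact hpU)⟩
  · obtain ⟨v0, -, hv0, hv1, a, b', x, hh, lam, hX, O⟩ := exists_out8z (T := Unit) C hR0 hR1 hθ
      hRg hβ (Bs := fun _ => kD) (sg := fun _ => -1) (fun _ => sok_kD hθ one_pos hb)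
      (fun _ => leg80_kD) (N := univ) (by simp)
    obtain ⟨cD, hcD, hLD, -, ρD, hRD⟩ := O.surf ()
    have hp := O.posA_kD hβ hθ hcD hLD hRD
    obtain ⟨A1, hA, tvA, hAm⟩ := k1_plane C hs0 hs1 hθ hβ hv0 hv1 hVis hK3 O (cc := -1) (sg := -1)
      (by rw [← kD_eq]; exact sok_kD hθ one_pos hb) rfl
      (by rw [← kD_eq]; exact tk8_D hb)
      (by rw [← kD_eq]; exact hc_kD hθ one_pos hb) (by rw [← kD_eq]; exact hz_kD hθ one_pos hb)
      hcD (by rw [← kD_eq]; exact hRD)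
    exact kTie_false' Nm one_pos hA (fun h => absurd h (lt_irrefl _)) (hTan tvA)
      (tvA.ver (by norm_num)) (by rw [hAm]; exact hp) (fun _ h => absurd h (lt_irrefl _))
      (fun _ h => absurd h (lt_irrefl _)) fun h _ => absurd h h2

end ctx

/-- **FalseK at `k' = 1`** -/
theorem fillK2 {η : ℝ} (hη : η < 1) :
    Fill η (fun θ B I lev fl sc => InvB B I fl sc ∧ VisE θ B I lev fl sc)
      fun g s θ q => 2 * θ 0 - θ 1 = 1 → False := by
  intro g s θ q hN
  refine ⟨θ 0 + |θ 1| + 1, fun Rg hRg => ?_⟩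
  intro G L r B I lev A f b vm w fr fl sc w0 sa sb δ R I0 I' ν own c₀ C hV hk
  obtain ⟨⟨h7, h8⟩, hE⟩ := hV
  obtain ⟨w0', sa', sb', δ', R', J0, J', ν', own', c', C', hR0, hR1⟩ := strict_ctx C
  have hβ : 2 * θ 0 - θ 1 - 1 = 0 := by linarith
  have h1 : InvT PL B I 1 fl (sc 1) := not_not.1 (Fk647.vis_noD C'.out hk.le)
  have h2 : ¬ InvT PL B I 2 fl (sc 2) := by
    rcases hE with h | h
    · exact h.1
    · exact absurd h1 h.1
  refine k1_false hη C' hN hβ hR0 hR1 (by linarith) (Fk647.vis_kap C'.out ⟨h7, h8⟩ hk.le)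
    fun hv0 hv1 P => ?_
  refine K3V460.k3K_pd8 P C' one_ne_zero hβ (by ring) h2 hv0 hv1 fun k hk => Or.inl ?_
  rcases hk with rfl | rfl
  · exact h7
  · exact h8

end Crest.Agent.R116.K1d30
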