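import Crest.Agent.R116.Tm2_741
import Crest.Agent.R116.Pu3_171
import Crest.Agent.R116.Tp4_139
import Crest.Agent.R116.Tk4_538
import Crest.Agent.R116.Tk2_538
import Crest.Agent.R116.Tq4_126
import Crest.Agent.R116.Th4_171
import Crest.Agent.R116.FlH_850

-- ▼ part R116/Th1_171
section

/-!
# R116, ties, `1/2 ≤ s`: the half plane above the record, `e`-plane, `D` live (helper171)

Class level, class of `z` = `{0, 6, 7}`, slots `1, 3, 4` alone, every resonance of `C_b`, `H`, `D`.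
* `pos_dir`   : a generic position near a slanted path
* `pos_th`    : one position with P1, P2, W3 and the joint increment of `C_b`, `H`, `D`
* `eHalfD`    : the numbers;   **`eUp_false`** : `False` for `1/2 ≤ s`, `θ ≤ (1+k)/2`
-/

set_option autoImplicit false
set_option linter.unusedSectionVars false
set_option linter.unusedVariables false

open Set Filter Topology Metric MeasureTheory
open scoped NNReal

namespace Crest.Agent.R116.Th171

open Crest.Agent.R136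
open Crest.Agent.R138
open Crest.Agent.R116.Tq741
open Crest.Agent.R116.Pu171 (FctP)
open Crest.Agent.R116.Tp139 (TVe)
open Crest.Agent.R116.SgO219 (dir_of_fderiv)
open Crest.Agent.R116.Sg388 (exists_rate_on)

variable {c : Fin 9 → Fin 9} {dl : V9} {s : ℝ} {Λ : V9 → ℝ} {φ : Fin 9 → V9 → ℝ} {ρ : V9}

theorem lip_sum (H : Cl9 c dl s Λ φ ρ) : ∃ K : ℝ≥0, LipschitzOnWith K Λ {w | LegM 0 w} := by
  obtain ⟨K, hK⟩ := H.lip
  refine ⟨9 * K, LipschitzOnWith.of_dist_le_mul fun w hw w' hw' => ?_⟩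
  rw [Real.dist_eq, H.sum w hw, H.sum w' hw', ← Finset.sum_sub_distrib]
  calc |∑ k, (φ k w - φ k w')| ≤ ∑ k, |φ k w - φ k w'| := Finset.abs_sum_le_sum_abs _ _
    _ ≤ ∑ _k : Fin 9, (K : ℝ) * dist w w' := Finset.sum_le_sum fun k _ => by
        have := (hK k).dist_le_mul w hw w' hw'
        rwa [Real.dist_eq] at this
    _ = ((9 * K : ℝ≥0) : ℝ) * dist w w' := by
        rw [Finset.sum_const, Finset.card_univ, Fintype.card_fin, nsmul_eq_mul]
        push_cast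
        ring

theorem leg_ball {m η : ℝ} {w w' : V9} (h : LegM m w) (hw : ‖w' - w‖ ≤ η) :
    LegM (m - 3 * η) w' := by
  have hb : ∀ i, w i - η ≤ w' i ∧ w' i ≤ w i + η := fun i => by
    have h1 := norm_le_pi_norm (w' - w) i
    rw [Real.norm_eq_abs, Pi.sub_apply] at h1
    have h2 := abs_le.1 (h1.trans hw)
    constructor <;> linarith [h2.1, h2.2]
  obtain ⟨a, b, c, d, e, f, g, i, j, k⟩ := h
  have b0 := hb 0
  have b1 := hb 1
  have b2 := hb 2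
  have b3 := hb 3
  have b4 := hb 4
  have b5 := hb 5
  have b6 := hb 6
  have b7 := hb 7
  have b8 := hb 8
  constructor <;> linarith [b0.1, b0.2, b1.1, b1.2, b2.1, b2.2, b3.1, b3.2, b4.1, b4.2, b5.1, b5.2,
    b6.1, b6.2, b7.1, b7.2, b8.1, b8.2]

/-- **a generic position near a slanted path** -/
theorem pos_dir (H : Cl9 c dl s Λ φ ρ) {u w0 : V9} {q η : ℝ} (hη : 0 < η)
    (h0 : LegM (6 * η) w0) (h1 : LegM (6 * η) (w0 + u)) (hq : q < Λ w0 - Λ (w0 + u)) :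
    ∃ x ∈ Ioo (0:ℝ) 1, ∃ w, ‖w - (w0 + x • u)‖ < η ∧ LegM (3 * η) w ∧ ∃ R : V9,
      (∀ k, RtAt (φ k) w (fun t => if c t = k then R t else 0)) ∧ q < ∑ t, R t * u t := by
  obtain ⟨K, hK⟩ := lip_sum H
  have hΦ : LipschitzOnWith K (fun w => -Λ w) {w | LegM 0 w} := by
    intro a ha b hb
    have := hK ha hb
    simpa [edist_neg_neg] using this
  set I : ℝ := Λ w0 - Λ (w0 + u) with hI
  have h1' : LegM (6 * η) (w0 + (1:ℝ) • u) := by rwa [one_smul]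
  obtain ⟨w, hwN, hwD, ⟨x, hx, hwx⟩, hd, hle⟩ := exists_rate_on (μ := volume) hΦ (p := w0)
    (v := u) (y := 1) (a := I) (δ := (I - q) / 2) one_pos hη (fun x hx w hw => by
      have h2 := h0.seg h1' hx.1 hx.2
      rw [Metric.mem_ball, dist_eq_norm] at hw
      exact h2.ball (by linarith) hw.le) (by
      rw [one_smul, mul_one, hI]; linarith) (by linarith) H.nG
  have hL : LegM (3 * η) w := by
    have h2 := leg_ball (h0.seg h1' hx.1.le hx.2.le) hwx.le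
    exact h2.mono (by linarith)
  have hg : Gen φ w := hwN ⟨3 * η, by positivity, hL⟩
  choose Rk hRk using hg
  have hRts := Rts.of H (Zc := fun _ => False) (w := w) (Rk := Rk) fun k _ => hRk k
  set R : V9 := fun t => Rk (c t) t with hR
  have hRt : ∀ k, RtAt (φ k) w (fun t => if c t = k then R t else 0) := fun k => hRts k not_false
  refine ⟨x, hx, w, hwx, hL, R, hRt, ?_⟩
  have hd' : DifferentiableAt ℝ Λ w := by
    have := hd.neg
    simpa using this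
  have l1 := dir_of_fderiv hd' u
  have l2 : Tendsto (fun x : ℝ => (Λ (w + x • u) - Λ w) / x) (𝓝[>] 0)
      (𝓝 (∑ k, -∑ t, (if c t = k then R t else 0) * u t)) := by
    have l3 : Tendsto (fun x : ℝ => ∑ k, (φ k (w + x • u) - φ k w) / x) (𝓝[>] 0)
        (𝓝 (∑ k, -∑ t, (if c t = k then R t else 0) * u t)) :=
      tendsto_finsetSum _ fun k _ => hRt k u
    refine l3.congr' ?_
    have hx0 : ∀ᶠ x : ℝ in 𝓝[>] 0, x * ‖u‖ < η := by
      have : Tendsto (fun x : ℝ => x * ‖u‖) (𝓝[>] 0) (𝓝 (0 * ‖u‖)) :=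
        (tendsto_id.mul_const _).mono_left nhdsWithin_le_nhds
      rw [zero_mul] at this
      exact this.eventually (gt_mem_nhds hη)
    filter_upwards [hx0, self_mem_nhdsWithin] with x hxu hx0
    have hx0' : (0:ℝ) < x := hx0
    have hl : LegM 0 (w + x • u) := hL.ball le_rfl (by
      rw [add_sub_cancel_left, norm_smul, Real.norm_eq_abs, abs_of_pos hx0']
      exact hxu.le)
    rw [H.sum _ hl, H.sum w hwD, ← Finset.sum_sub_distrib, Finset.sum_div]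
  have e1 := tendsto_nhds_unique l1 l2
  have e2 : fderiv ℝ (fun w => -Λ w) w = -fderiv ℝ Λ w := fderiv_neg
  rw [e2] at hle
  simp only [_root_.neg_apply] at hle
  rw [e1] at hle
  have e3 : (∑ k, -∑ t, (if c t = k then R t else 0) * u t) = -∑ t, R t * u t := by
    rw [Finset.sum_neg_distrib, Finset.sum_comm]
    congr 1
    refine Finset.sum_congr rfl fun t _ => ?_
    rw [Finset.sum_eq_single (c t) (fun k _ hk => by rw [if_neg (Ne.symm hk), zero_mul])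
      (fun h => absurd (Finset.mem_univ _) h), if_pos rfl]
  rw [e3] at hle
  linarith

/-- bounds of a rate -/
theorem rt_bd (H : Cl9 c dl s Λ φ ρ) {w R : V9} {m : ℝ} (hm : 0 < m) (hw : LegM m w) {t : Fin 9}
    (hR : RtAt (φ (c t)) w R) : 0 ≤ R t ∧ R t ≤ cst t := by
  have h1 := hR (e9 t)
  have e : ∑ i, R i * e9 t i = R t := by
    rw [Finset.sum_eq_single t (fun i _ hi => by rw [e9_ne hi, mul_zero])
      (fun h => absurd (Finset.mem_univ _) h), e9_same, mul_one]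
  rw [e] at h1
  have ev : ∀ᶠ x : ℝ in 𝓝[>] 0, (φ (c t) (w + x • e9 t) - φ (c t) w) / x ≤ 0 ∧
      -cst t ≤ (φ (c t) (w + x • e9 t) - φ (c t) w) / x := by
    have hx1 : ∀ᶠ x : ℝ in 𝓝[>] 0, x < m / 3 :=
      mem_nhdsWithin_of_mem_nhds (gt_mem_nhds (by positivity))
    filter_upwards [hx1, self_mem_nhdsWithin] with x hx1 hx0
    have hx0' : (0:ℝ) < x := hx0
    have hl : LegM 0 (w + x • e9 t) := hw.ball (η := m / 3) (by linarith) (by
      rw [add_sub_cancel_left]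
      exact (norm_e9_smul t hx0'.le).trans hx1.le)
    have a1 := H.incr_nonneg (hw.mono hm.le) hl (c t)
      (fun i hi => add_e9_ne fun h => hi (by rw [h])) (le_add_e9 hx0'.le)
    have a2 := H.incr_cost (t := t) hx0'.le (hw.mono hm.le) hl
    constructor
    · exact div_nonpos_of_nonpos_of_nonneg (by linarith) hx0'.le
    · rw [le_div_iff₀ hx0']
      linarith
  have b1 := le_of_tendsto h1 (ev.mono fun _ h => h.1)
  have b2 := ge_of_tendsto h1 (ev.mono fun _ h => h.2)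
  constructor <;> linarith

/-- a linear point for a larger set of left-out slots -/
theorem linS_mono {Z Z' : Finset (Fin 9)} (hZ : Z ⊆ Z') {w R : V9} (h : LinS Z Λ w R) :
    LinS Z' Λ w R := by
  obtain ⟨h', Ψ, hp, h0, hΨ, hl⟩ := h
  refine ⟨h', fun d => Ψ d + ∑ t ∈ Z' \ Z, R t * d t, hp, h0, fun d d' hd hL hL' => ?_,
    fun d hd => ?_⟩
  · show Ψ d + ∑ t ∈ Z' \ Z, R t * d t = Ψ d' + ∑ t ∈ Z' \ Z, R t * d' t
    rw [hΨ d d' (fun t ht => hd t (hZ ht)) hL hL',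
      Finset.sum_congr rfl fun t ht => by rw [hd t (Finset.mem_sdiff.1 ht).1]]
  · have e : ∑ t ∈ Zᶜ, R t * d t = ∑ t ∈ Z' \ Z, R t * d t + ∑ t ∈ Z'ᶜ, R t * d t := by
      rw [← Finset.sum_sdiff (Finset.compl_subset_compl.2 hZ)]
      congr 1
      refine Finset.sum_congr ?_ fun _ _ => rfl
      ext t
      simp only [Finset.mem_sdiff, Finset.mem_compl, not_not]
      tauto
    have := hl d hd
    rw [e, ← add_assoc] at this
    exact this

/-- the direction of `C_b`, `H`, `D` -/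
def uD (e : ℝ) : V9 := ![0, 0, 1, 0, 0, 2, 0, 0, e]

theorem sum_uD (e : ℝ) (R : V9) : ∑ t, R t * uD e t = R 2 + 2 * R 5 + e * R 8 := by
  simp only [Fin.sum_univ_succ, Fin.sum_univ_zero]
  show R 0 * 0 + (R 1 * 0 + (R 2 * 1 + (R 3 * 0 + (R 4 * 0 + (R 5 * 2 + (R 6 * 0 + (R 7 * 0 +
    (R 8 * e + 0)))))))) = _
  ring

/-- **one position with P1, P2, W3 and the joint increment** -/
theorem pos_th (H : Cl9 c dl s Λ φ ρ) (al1 : Al c 1) (al3 : Al c 3) (al4 : Al c 4)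
    (hz : ∀ t, c t = c 0 ↔ t = 0 ∨ t = 6 ∨ t = 7) {k k' e J : ℝ} (hk : 0 < k) (hk' : 0 < k')
    (he : 0 < e)
    (hW3 : ∀ w R, One 5 w → w 0 = 0 → w 6 = 0 → w 7 < 0 → LinS {0, 6, 7, 8} Λ w R → R 1 ≤ R 2)
    {Sk : V9 → Prop} (hSk : ∀ w, LegM 0 w → w 6 < k * w 0 → w 7 < k' * w 0 → Sk w)
    (F : FctP Sk Λ)
    (hJ : ∀ v, LegM 0 v → v 2 = 0 → v 5 = 0 → v 8 = 0 → LegM 0 (v + uD e) →
      J ≤ Λ v - Λ (v + uD e)) {δ : ℝ} (hδ : 0 < δ) :
    ∃ R : V9, ρ 1 ≤ ρ 3 ∧ ρ 1 ≤ R 2 ∧ R 2 ≤ ρ 4 ∧ 0 ≤ R 8 ∧ R 8 ≤ 1 ∧ R 5 ≤ 1 ∧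
      J - δ < R 2 + 2 * R 5 + e * R 8 ∧ (Al c 2 → R 2 = ρ 2) ∧ (Al c 8 → R 8 = ρ 8) := by
  obtain ⟨a, ha, ha1, haδ⟩ : ∃ a : ℝ, 0 < a ∧ a ≤ 1 ∧ 4 * a < δ := by
    refine ⟨min (δ / 8) 1, lt_min (by positivity) one_pos, min_le_right _ _, ?_⟩
    have := min_le_left (δ / 8) 1
    linarith
  obtain ⟨η, hη, hη1, hη2, hη3⟩ : ∃ η : ℝ, 0 < η ∧ η ≤ a / 100 ∧ k * η ≤ a / 100 ∧
      k' * η ≤ a / 100 := by
    refine ⟨a / (100 * (1 + k + k')), by positivity, ?_, ?_, ?_⟩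
    · exact div_le_div_of_nonneg_left ha.le (by norm_num) (by nlinarith)
    · rw [mul_div_assoc', div_le_div_iff₀ (by positivity) (by norm_num)]
      nlinarith
    · rw [mul_div_assoc', div_le_div_iff₀ (by positivity) (by norm_num)]
      nlinarith
  set w0 : V9 := ![0, 50, a, 40, -200, 3 / 2 * a, -a / 8, -a / 8, a] with hw0
  set v : V9 := ![0, 50, 0, 40, -200, 0, -a / 8, -a / 8, 0] with hv
  have lv : LegM 0 v := by
    constructor <;> simp only [hv, Matrix.cons_val] <;> linarith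
  have lvu : LegM 0 (v + uD e) := by
    constructor <;> simp only [hv, uD, Pi.add_apply, Matrix.cons_val] <;> linarith
  have l0 : LegM (6 * η) w0 := by
    constructor <;> simp only [hw0, Matrix.cons_val] <;> linarith
  have l1 : LegM (6 * η) (w0 + uD e) := by
    constructor <;> simp only [hw0, uD, Pi.add_apply, Matrix.cons_val] <;> linarith
  have hvw : v ≤ w0 := by
    intro i
    fin_cases i <;> simp only [hw0, hv] <;> simp <;> linarith
  have hvw' : v + uD e ≤ w0 + uD e := fun i => by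
    simp only [Pi.add_apply]
    linarith [hvw i]
  have hI : J - δ < Λ w0 - Λ (w0 + uD e) := by
    have c1 := H.cost v w0 lv (l0.mono (by positivity)) hvw
    have c2 := H.anti _ _ lvu (l1.mono (by positivity)) hvw'
    have c3 := hJ v lv (by simp [hv]) (by simp [hv]) (by simp [hv]) lvu
    have e1 : ∑ t, cst t * (w0 t - v t) = 7 / 2 * a := by
      simp only [Fin.sum_univ_succ, Fin.sum_univ_zero]
      show (1:ℝ) * (0 - 0) + (1 * (50 - 50) + (1 * (a - 0) + (1 * (40 - 40) + (1 * (-200 - -200) +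
        (1 * (3 / 2 * a - 0) + (2 * (-a / 8 - -a / 8) + (1 * (-a / 8 - -a / 8) +
          (1 * (a - 0) + 0)))))))) = _
      ring
    rw [e1] at c1
    linarith
  obtain ⟨x, hx, w, hw, hwL, R, hR, hq⟩ := pos_dir H hη l0 l1 hI
  rw [sum_uD] at hq
  have b0 := nbd hw 0
  have b2 := nbd hw 2
  have b5 := nbd hw 5
  have b6 := nbd hw 6
  have b7 := nbd hw 7
  have b8 := nbd hw 8
  simp only [hw0, uD, Pi.add_apply, Pi.smul_apply, smul_eq_mul, Matrix.cons_val, mul_zero,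
    add_zero, mul_one] at b0 b2 b5 b6 b7 b8
  have xe : 0 < x * e := mul_pos hx.1 he
  have sk6 : w 6 < k * w 0 := by
    have := mul_le_mul_of_nonneg_left b0.1.le hk.le
    nlinarith [b6.2]
  have sk7 : w 7 < k' * w 0 := by
    have := mul_le_mul_of_nonneg_left b0.1.le hk'.le
    nlinarith [b7.2]
  have hA : ∀ t : Fin 9, t = 1 ∨ t = 3 ∨ t = 4 ∨ (t ≠ 1 ∧ t ≠ 3 ∧ t ≠ 4) := by decide
  -- generic points with the same classes
  have gen : ∀ w' : V9, (∀ t, t ≠ 1 → t ≠ 3 → t ≠ 4 → w' t = w t) →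
      GenZ φ (fun _ => False) w' := by
    intro w' h
    refine H.genZ fun t _ => ?_
    rcases hA t with rfl | rfl | rfl | ⟨n1, n3, n4⟩
    · exact Or.inl al1
    · exact Or.inl al3
    · exact Or.inl al4
    · refine Or.inr ⟨w, _, hR (c t), fun t' ht' => h t' ?_ ?_ ?_⟩
      · rintro rfl; exact n1 (al1 t ht'.symm)
      · rintro rfl; exact n3 (al3 t ht'.symm)
      · rintro rfl; exact n4 (al4 t ht'.symm)
  have val : ∀ t : Fin 9, (fun i => if c i = c t then R i else 0) t = R t := fun t => if_pos rfl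
  have same : ∀ w' : V9, (∀ t, t ≠ 1 → t ≠ 3 → t ≠ 4 → w' t = w t) → ∀ t : Fin 9, t ≠ 1 → t ≠ 3 →
      t ≠ 4 → RtAt (φ (c t)) w' (fun i => if c i = c t then R i else 0) := by
    intro w' h t n1 n3 n4
    refine (hR (c t)).loc H fun t' ht' => h t' ?_ ?_ ?_
    · rintro rfl; exact n1 (al1 t ht'.symm)
    · rintro rfl; exact n3 (al3 t ht'.symm)
    · rintro rfl; exact n4 (al4 t ht'.symm)
  have hη0 : 0 < 3 * η := by positivity
  refine ⟨R, ?_, ?_, ?_, (rt_bd H hη0 hwL (hR (c 8))).1.trans_eq (val 8),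
    (val 8).symm.trans_le ((rt_bd H hη0 hwL (hR (c 8))).2.trans_eq rfl),
    (val 5).symm.trans_le ((rt_bd H hη0 hwL (hR (c 5))).2.trans_eq rfl), hq, fun h2 => ?_,
    fun h8 => ?_⟩
  · -- P1
    set w' : V9 := ![w 0, 40 - w 0, w 2, 40, -200, w 5, w 6, w 7, w 8] with hw'
    have hs : ∀ t, t ≠ 1 → t ≠ 3 → t ≠ 4 → w' t = w t := by
      intro t n1 n3 n4
      fin_cases t <;> first | rfl | exact absurd rfl n1 | exact absurd rfl n3 | exact absurd rfl n4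
    have hone : One 1 w' := by
      refine one_of 1 ?_ ?_ ?_ ?_ ?_ ?_ ?_ ?_ ?_ ?_ <;>
        simp only [hw', Matrix.cons_val, Fin.reduceEq, reduceIte] <;>
        linarith [hx.1, hx.2, b0.1, b0.2, b2.1, b2.2, b5.1, b5.2, b6.1, b6.2, b7.1, b7.2, b8.1,
          b8.2]
    obtain ⟨R', hl, hal, hu⟩ := (gen w' hs).lin H hone.leg
    have h3 := F.P1 w' R' hone (hSk w' hone.leg sk6 sk7) hl
    rwa [hal 1 al1, hal 3 al3] at h3
  · -- W3
    set w' : V9 := ![0, w 2, w 2, w 5 / 2, -200, w 5, 0, -a / 8, w 8] with hw'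
    have hone : One 5 w' := by
      refine one_of 5 ?_ ?_ ?_ ?_ ?_ ?_ ?_ ?_ ?_ ?_ <;>
        simp only [hw', Matrix.cons_val, Fin.reduceEq, reduceIte] <;>
        linarith [hx.1, hx.2, b0.1, b0.2, b2.1, b2.2, b5.1, b5.2, b6.1, b6.2, b7.1, b7.2, b8.1,
          b8.2]
    have hB : ∀ t : Fin 9, t = 1 ∨ t = 3 ∨ t = 4 ∨ (t = 0 ∨ t = 6 ∨ t = 7) ∨
        (t = 2 ∨ t = 5 ∨ t = 8) := by decide
    have hs : ∀ t, t = 2 ∨ t = 5 ∨ t = 8 → ∀ t', c t' = c t → w' t' = w t' := by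
      intro t ht t' ht'
      rcases hB t' with rfl | rfl | rfl | h0 | h2
      · have := al1 t ht'.symm
        rcases ht with rfl | rfl | rfl <;> exact absurd this (by decide)
      · have := al3 t ht'.symm
        rcases ht with rfl | rfl | rfl <;> exact absurd this (by decide)
      · have := al4 t ht'.symm
        rcases ht with rfl | rfl | rfl <;> exact absurd this (by decide)
      · have h1 := (hz t).1 (ht'.symm.trans ((hz t').2 h0))
        rcases ht with rfl | rfl | rfl <;> exact absurd h1 (by decide)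
      · rcases h2 with rfl | rfl | rfl <;> rfl
    have hg : GenZ φ (fun k => k = c 0) w' := by
      refine H.genZ fun t h0 => ?_
      rcases hB t with rfl | rfl | rfl | h | h
      · exact Or.inl al1
      · exact Or.inl al3
      · exact Or.inl al4
      · exact absurd ((hz t).2 h) h0
      · exact Or.inr ⟨w, _, hR (c t), hs t h⟩
    obtain ⟨R', hl, hal, hu⟩ := hg.linZ H hone.leg (Z := {0, 6, 7}) (kz := c 0) (fun t => by
      rw [hz t]; simp)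
    have h3 := hW3 w' R' hone rfl rfl (by show -a / 8 < 0; linarith) (linS_mono (by decide) hl)
    rw [hal 1 (by decide) al1, hu 2 _ (by decide) ((hR (c 2)).loc H (hs 2 (Or.inl rfl))),
      if_pos rfl] at h3
    exact h3
  · -- P2
    set w' : V9 := ![w 0, 50, w 2, 40, w 0 + w 2, w 5, w 6, w 7, w 8] with hw'
    have hs : ∀ t, t ≠ 1 → t ≠ 3 → t ≠ 4 → w' t = w t := by
      intro t n1 n3 n4
      fin_cases t <;> first | rfl | exact absurd rfl n1 | exact absurd rfl n3 | exact absurd rfl n4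
    have hone : One 7 w' := by
      refine one_of 7 ?_ ?_ ?_ ?_ ?_ ?_ ?_ ?_ ?_ ?_ <;>
        simp only [hw', Matrix.cons_val, Fin.reduceEq, reduceIte] <;>
        linarith [hx.1, hx.2, b0.1, b0.2, b2.1, b2.2, b5.1, b5.2, b6.1, b6.2, b7.1, b7.2, b8.1,
          b8.2]
    obtain ⟨R', hl, hal, hu⟩ := (gen w' hs).lin H hone.leg
    have h3 := F.P2 w' R' hone (hSk w' hone.leg sk6 sk7) hl
    rw [hu 2 _ (same w' hs 2 (by decide) (by decide) (by decide)), if_pos rfl, hal 4 al4] at h3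
    exact h3
  · have := (hR (c 2)).uniq (H.rt_alone h2 w)
    have h5 := congrFun this 2
    simpa using h5
  · have := (hR (c 8)).uniq (H.rt_alone h8 w)
    have h5 := congrFun this 8
    simpa using h5

/-! ### the numbers -/

/-- the row with a relaxed bound of `ρH` -/
theorem eHalfD {θ θb k s cc qa qb e ρz m r ρX ρN ρH ρD δ : ℝ} (hk : 0 ≤ k) (hk1 : k ≤ 1)
    (hb : θb = θ - k) (hθ : θ ≤ (1 + k) / 2) (hβ : 0 ≤ (2 * θ - θb - 1) * ρD) (he : 0 ≤ e)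
    (hTV : TVe θ θb s cc qa qb e ρz m r ρX ρN ρH ρD)
    (hz : 1 - s ≤ ρz) (hD0 : 0 ≤ ρD) (hD1 : ρD ≤ 1) (hH : ρH ≤ 1 + δ)
    (p1 : m ≤ ρX) (p2 : r ≤ ρN) (mr : m ≤ r) :
    cc + (1 + k) / 2 * qa + (1 - k) / 2 * qb ≤ 1 + ((1 + k) / 2 - θ) * e + k * δ := by
  obtain ⟨hT, hV⟩ := hTV
  subst hb
  have h1 : 0 ≤ ((1 + k) / 2 - θ) * (m + r + ρX + ρN + 2 * ρH + e * ρD - (4 + qa + qb)) :=
    mul_nonneg (by linarith) (by linarith)
  have h2 : 0 ≤ (1 - k) / 2 * (ρX - m) := mul_nonneg (by linarith) (by linarith)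
  have h3 : 0 ≤ (1 + k) / 2 * (ρN - r) := mul_nonneg (by linarith) (by linarith)
  have h4 : 0 ≤ k * (1 + δ - ρH) := mul_nonneg hk (by linarith)
  have h5 : 0 ≤ k * (r - m) := mul_nonneg hk (by linarith)
  have h7 : 0 ≤ ((1 + k) / 2 - θ) * e * (1 - ρD) :=
    mul_nonneg (mul_nonneg (by linarith) he) (by linarith)
  nlinarith

/-- **`1/2 ≤ s` is impossible above the record**, `e`-plane, `D` live -/
theorem eUp_false (H : Cl9 c dl s Λ φ ρ) (al1 : Al c 1) (al3 : Al c 3) (al4 : Al c 4)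
    (hz : ∀ t, c t = c 0 ↔ t = 0 ∨ t = 6 ∨ t = 7) {θ θb k k' e J cc qa qb : ℝ} (hk : 0 < k)
    (hk1 : k ≤ 1) (hk' : 0 < k') (he : 0 < e) (hb : θb = θ - k) (hθ0 : 0 < θ)
    (hθ : θ ≤ (1 + k) / 2) (hs : 1 / 2 ≤ s) (hc : 2 * s + e ≤ cc) (hqa : 0 ≤ qa) (hqb : 0 ≤ qb)
    (hW3 : ∀ w R, One 5 w → w 0 = 0 → w 6 = 0 → w 7 < 0 → LinS {0, 6, 7, 8} Λ w R → R 1 ≤ R 2)
    {Sk : V9 → Prop} (hSk : ∀ w, LegM 0 w → w 6 < k * w 0 → w 7 < k' * w 0 → Sk w)
    (F : FctP Sk Λ)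
    (hJ : ∀ v, LegM 0 v → v 2 = 0 → v 5 = 0 → v 8 = 0 → LegM 0 (v + uD e) →
      J ≤ Λ v - Λ (v + uD e))
    (hTV : ∀ r h d, r + 2 * h + e * d = J → (Al c 2 → r = ρ 2) → (Al c 8 → d = ρ 8) →
      TVe θ θb s cc qa qb e (ρ 0) (ρ 1) r (ρ 3) (ρ 4) h d)
    (hβ : 0 ≤ 2 * θ - θb - 1 ∨ (Al c 8 ∧ ρ 8 = 0)) : False := by
  obtain ⟨δ, hδ, hδ1⟩ : ∃ δ : ℝ, 0 < δ ∧ k * δ < θ * e := by
    refine ⟨θ * e / 2, by positivity, ?_⟩
    have h1 : 0 < θ * e := by positivity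
    have h2 : k * (θ * e / 2) ≤ 1 * (θ * e / 2) := mul_le_mul_of_nonneg_right hk1 (by positivity)
    linarith
  obtain ⟨R, p1, mr, p2, d0, d1, h5, hq, a2, a8⟩ := pos_th H al1 al3 al4 hz hk hk' he hW3 hSk F
    hJ hδ
  have hT := hTV (R 2) ((J - R 2 - e * R 8) / 2) (R 8) (by ring) a2 a8
  have hb8 : 0 ≤ (2 * θ - θb - 1) * R 8 := by
    rcases hβ with h | ⟨h8, h⟩
    · exact mul_nonneg h d0
    · rw [a8 h8, h, mul_zero]
  have h := eHalfD hk.le hk1 hb hθ hb8 he.le hT H.own d0 d1 (δ := δ) (by linarith) p1 p2 mr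
  have h1 : 0 ≤ (1 + k) / 2 * qa := mul_nonneg (by linarith) hqa
  have h2 : 0 ≤ (1 - k) / 2 * qb := mul_nonneg (by linarith) hqb
  have h3 : ((1 + k) / 2 - θ) * e ≤ (1 - θ) * e := mul_le_mul_of_nonneg_right (by linarith) he.le
  linarith

end Crest.Agent.R116.Th171
end

-- ▼ part R116/Th2b_899
section

/-!
# R116, ties, `1/2 ≤ s`, `e`-plane above the record (`T⁺`), over `CtxT` (helper899, second of helper171)

* `J_of`   : the joint increment of several classes along their directions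
* `eUp_ctx` : `CtxT`, `0 < θ0 - θ1 < 1`, `2 θ0 ≤ 1 + (θ0 - θ1)`, `1/2 ≤ s`, W3 on the plane `oSe` ⊢ `False`
-/

set_option autoImplicit false
set_option linter.unusedVariables false
set_option linter.unusedSectionVars false

open Set Filter Topology MeasureTheory

namespace Crest.Agent.R116.Th899

open Crest.Agent.R136
open Crest.Agent.R138
open Dg262 (X X_cont SupOn)
open Dg219 (Tn lf det2 zz lf_zz Cone Sep gset mem_gset Walls gC nC dhC gC_zero gC_eq nC_zero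
  nC_of dirC exists_grpC OutS mw)
open Rc683 (Srf)
open RbK219
open RbM219
open SgO219 (PP)
open Sl741 (slice xt rs)
open Kz647
open Crest.Agent.R116.PL504 (eL)
open Crest.Agent.R116.Sg337 (coneL DL)
open Crest.Agent.R116.Tq741
open Crest.Agent.R116.Tq126
open Crest.Agent.R138.Ex926 (Base U IsTan)
open Crest.Agent.R136.MkA627 Crest.Agent.R136.TD627 Crest.Agent.R136.Net191
open Crest.Agent.R136.Lq196
open Crest.Agent.R116.ChL222
open Crest.Agent.R116.PL504 (rL βL Shift)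
open Crest.Agent.R116.Gd222 (TSet sN)
open Crest.Agent.R116.KI439
open Crest.Agent.R116.KF439 (PL)
open Crest.Agent.R116.CtxB468
open Crest.Agent.R116.Rcx363
open Crest.Agent.R116.Pd363
open Crest.Agent.R116.Tq794 (E9)
open Crest.Agent.R116.Pu171
open Crest.Agent.R116.KTie794 (Fill InvB VisE VisB InvE)
open Crest.Agent.R116.KTop387 (NumL)
open Crest.Agent.R116.Tk538 (ctxP9 shift_succ)
open Crest.Agent.R116.Tp139 (oSe sok_oSe leg_oSe exists_DAl DAl tve tve_h tve_d TVe)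
open Crest.Agent.R116.Th171 (uD eUp_false)

section cls

variable {c : Fin 9 → Fin 9} {dl : V9} {s : ℝ} {Λ : V9 → ℝ} {φ : Fin 9 → V9 → ℝ} {ρ : V9}

/-- the joint increment of the classes of `T` along their directions -/
theorem J_of (H : Cl9 c dl s Λ φ ρ) {v v' : V9} (hv : LegM 0 v) (hv' : LegM 0 v')
    (T : Finset (Fin 9)) (hi : ∀ t ∈ T, ∀ t' ∈ T, c t = c t' → t = t')
    (h0 : ∀ t ∈ T, ∀ t', c t' = c t → v t' = 0)
    (h1 : ∀ t ∈ T, ∀ t', c t' = c t → v' t' * dl t = v' t * dl t')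
    (h2 : ∀ t', (∀ t ∈ T, c t' ≠ c t) → v' t' = v t') :
    Λ v - Λ v' = ∑ t ∈ T, ρ t * v' t := by
  classical
  rw [H.sum v hv, H.sum v' hv', ← Finset.sum_sub_distrib]
  have e1 : ∑ t ∈ T, ρ t * v' t = ∑ k ∈ T.image c, (φ k v - φ k v') := by
    rw [Finset.sum_image hi]
    refine Finset.sum_congr rfl fun t ht => ?_
    rw [H.zero_of t (h0 t ht), H.rate t v' (h1 t ht)]
    ring
  rw [e1]
  symm
  refine Finset.sum_subset (Finset.subset_univ _) fun k _ hk => ?_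
  rw [H.loc k v v' fun t ht => (h2 t fun t' ht' h => hk ?_).symm, sub_self]
  exact Finset.mem_image.2 ⟨t', ht', h.symm.trans ht⟩

end cls

/-! ### the tables -/

theorem hz_cS {k : ℝ} (t : Fin 9) : cS k t = cS k 0 ↔ t = 0 ∨ t = 6 ∨ t = 7 := by
  constructor
  · intro h
    exact z_cS t h.symm
  · rintro (rfl | rfl | rfl) <;> rfl

theorem hz_cSd (t : Fin 9) : cSd t = cSd 0 ↔ t = 0 ∨ t = 6 ∨ t = 7 := by
  constructor
  · intro h
    exact z_cSd t h.symm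
  · rintro (rfl | rfl | rfl) <;> rfl

theorem al_cS {k : ℝ} (hk : k ≠ 1) (t : Fin 9) (ht : t = 1 ∨ t = 3 ∨ t = 4 ∨ t = 8) :
    Al (cS k) t := by
  intro t' h
  rcases ht with rfl | rfl | rfl | rfl <;> revert h <;> revert t' <;>
    refine Tp139.all9 ?_ ?_ ?_ ?_ ?_ ?_ ?_ ?_ ?_ <;> evc <;> (try rw [if_neg hk]) <;>
    (try split_ifs) <;> decide

theorem al_cSd (t : Fin 9) (ht : t = 1 ∨ t = 3 ∨ t = 4) : Al cSd t := by
  intro t' h
  rcases ht with rfl | rfl | rfl <;> revert h <;> revert t' <;>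
    refine Tp139.all9 ?_ ?_ ?_ ?_ ?_ ?_ ?_ ?_ ?_ <;> evc <;> decide

/-! ### the joint increment of `C_b`, `H`, `D` -/

section J

variable {dl : V9} {s : ℝ} {Λ : V9 → ℝ} {φ : Fin 9 → V9 → ℝ} {ρ : V9} {e k : ℝ}

theorem uD_val (v : V9) (e : ℝ) : (v + uD e) 0 = v 0 ∧ (v + uD e) 1 = v 1 ∧
    (v + uD e) 2 = v 2 + 1 ∧ (v + uD e) 3 = v 3 ∧ (v + uD e) 4 = v 4 ∧ (v + uD e) 5 = v 5 + 2 ∧
    (v + uD e) 6 = v 6 ∧ (v + uD e) 7 = v 7 ∧ (v + uD e) 8 = v 8 + e := by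
  refine ⟨?_, ?_, ?_, ?_, ?_, ?_, ?_, ?_, ?_⟩ <;> simp [uD]

theorem uD_off (v : V9) (e : ℝ) (t : Fin 9) : t ≠ 2 → t ≠ 5 → t ≠ 8 →
    (v + uD e) t = v t := by
  obtain ⟨a0, a1, a2, a3, a4, a5, a6, a7, a8⟩ := uD_val v e
  revert t
  refine Tp139.all9 ?_ ?_ ?_ ?_ ?_ ?_ ?_ ?_ ?_ <;> intro h2 h5 h8 <;>
    first | assumption | exact absurd rfl h2 | exact absurd rfl h5 | exact absurd rfl h8

theorem cS_8 (t' : Fin 9) : cS k t' = cS k 8 → t' = 8 := by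
  revert t'
  refine Tp139.all9 ?_ ?_ ?_ ?_ ?_ ?_ ?_ ?_ ?_ <;> evc <;> (try split_ifs) <;> decide

theorem cS_2 (h1 : k ≠ 1) (h2 : k ≠ 1 / 2) (t' : Fin 9) : cS k t' = cS k 2 → t' = 2 := by
  revert t'
  refine Tp139.all9 ?_ ?_ ?_ ?_ ?_ ?_ ?_ ?_ ?_ <;> evc <;> (try rw [if_neg h1]) <;>
    (try rw [if_neg h2]) <;> decide

theorem cS_5 (h2 : k ≠ 1 / 2) (t' : Fin 9) : cS k t' = cS k 5 → t' = 5 := by
  revert t'
  refine Tp139.all9 ?_ ?_ ?_ ?_ ?_ ?_ ?_ ?_ ?_ <;> evc <;> (try rw [if_neg h2]) <;>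
    (try split_ifs) <;> decide

theorem cS_5h (h2 : k = 1 / 2) (t' : Fin 9) : cS k t' = cS k 5 → t' = 2 ∨ t' = 5 := by
  have h1 : k ≠ 1 := by rw [h2]; norm_num
  revert t'
  refine Tp139.all9 ?_ ?_ ?_ ?_ ?_ ?_ ?_ ?_ ?_ <;> evc <;> (try rw [if_neg h1]) <;>
    (try rw [if_pos h2]) <;> decide

theorem cS_25 (h2 : k = 1 / 2) : cS k 2 = cS k 5 := by
  evc; rw [if_pos h2]

theorem cSd_5 (t' : Fin 9) : cSd t' = cSd 5 → t' = 2 ∨ t' = 5 ∨ t' = 8 := by
  revert t'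
  decide

/-- case `k ≠ 1/2` -/
theorem J_gen (H : Cl9 (cS k) dl s Λ φ ρ) (hk1 : k ≠ 1) (hk : k ≠ 1 / 2) {v : V9}
    (hv : LegM 0 v) (h2 : v 2 = 0) (h5 : v 5 = 0) (h8 : v 8 = 0) (hv' : LegM 0 (v + uD e)) :
    Λ v - Λ (v + uD e) = ρ 2 + 2 * ρ 5 + e * ρ 8 := by
  obtain ⟨a0, a1, a2, a3, a4, a5, a6, a7, a8⟩ := uD_val v e
  have hc : ∀ t ∈ ({2, 5, 8} : Finset (Fin 9)), ∀ t', cS k t' = cS k t → t' = t := by
    intro t ht t' h
    simp only [Finset.mem_insert, Finset.mem_singleton] at ht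
    rcases ht with rfl | rfl | rfl
    · exact cS_2 hk1 hk t' h
    · exact cS_5 hk t' h
    · exact cS_8 t' h
  have hv0 : ∀ t ∈ ({2, 5, 8} : Finset (Fin 9)), v t = 0 := by
    intro t ht
    simp only [Finset.mem_insert, Finset.mem_singleton] at ht
    rcases ht with rfl | rfl | rfl <;> assumption
  rw [J_of H hv hv' {2, 5, 8} (fun t ht t' ht' h => hc t' ht' t h)
    (fun t ht t' h => by rw [hc t ht t' h]; exact hv0 t ht)
    (fun t ht t' h => by rw [hc t ht t' h])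
    (fun t' h => uD_off v e t' (fun h' => h 2 (by decide) (by rw [h']))
      (fun h' => h 5 (by decide) (by rw [h'])) (fun h' => h 8 (by decide) (by rw [h'])))]
  rw [Finset.sum_insert (by decide), Finset.sum_insert (by decide), Finset.sum_singleton, a2, a5,
    a8, h2, h5, h8]
  ring

/-- case `k = 1/2` -/
theorem J_half (H : Cl9 (cS k) dl s Λ φ ρ) (hk : k = 1 / 2) (hd : dl 5 = 2 * dl 2) {v : V9}
    (hv : LegM 0 v) (h2 : v 2 = 0) (h5 : v 5 = 0) (h8 : v 8 = 0) (hv' : LegM 0 (v + uD e)) :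
    Λ v - Λ (v + uD e) = 2 * ρ 5 + e * ρ 8 := by
  obtain ⟨a0, a1, a2, a3, a4, a5, a6, a7, a8⟩ := uD_val v e
  rw [J_of H hv hv' {5, 8} (fun t ht t' ht' h => ?_) (fun t ht t' h => ?_) (fun t ht t' h => ?_)
    (fun t' h => uD_off v e t' (fun h' => h 5 (by decide) (by rw [h']; exact cS_25 hk))
      (fun h' => h 5 (by decide) (by rw [h'])) (fun h' => h 8 (by decide) (by rw [h'])))]
  · rw [Finset.sum_insert (by decide), Finset.sum_singleton, a5, a8, h5, h8]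
    ring
  · simp only [Finset.mem_insert, Finset.mem_singleton] at ht ht'
    rcases ht with rfl | rfl <;> rcases ht' with rfl | rfl
    · rfl
    · exact absurd (cS_8 _ h) (by decide)
    · exact absurd (cS_8 _ h.symm) (by decide)
    · rfl
  · simp only [Finset.mem_insert, Finset.mem_singleton] at ht
    rcases ht with rfl | rfl
    · rcases cS_5h hk t' h with rfl | rfl <;> assumption
    · rw [cS_8 t' h]; exact h8
  · simp only [Finset.mem_insert, Finset.mem_singleton] at ht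
    rcases ht with rfl | rfl
    · rcases cS_5h hk t' h with rfl | rfl
      · rw [a2, a5, h2, h5, hd]; ring
      · rfl
    · rw [cS_8 t' h]

/-- case `θ = 1/2`, `θb = 0` -/
theorem J_d (H : Cl9 cSd dl s Λ φ ρ) (hd : dl 5 = 2 * dl 2) (hd8 : dl 8 = e * dl 2) {v : V9}
    (hv : LegM 0 v) (h2 : v 2 = 0) (h5 : v 5 = 0) (h8 : v 8 = 0) (hv' : LegM 0 (v + uD e)) :
    Λ v - Λ (v + uD e) = 2 * ρ 5 := by
  obtain ⟨a0, a1, a2, a3, a4, a5, a6, a7, a8⟩ := uD_val v e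
  rw [J_of H hv hv' {5} (fun t ht t' ht' h => ?_) (fun t ht t' h => ?_) (fun t ht t' h => ?_)
    (fun t' h => uD_off v e t' (fun h' => h 5 (by decide) (by rw [h']; rfl))
      (fun h' => h 5 (by decide) (by rw [h'])) (fun h' => h 5 (by decide) (by rw [h']; rfl)))]
  · rw [Finset.sum_singleton, a5, h5]
    ring
  · rw [Finset.mem_singleton] at ht ht'
    rw [ht, ht']
  · rw [Finset.mem_singleton] at ht
    subst ht
    rcases cSd_5 t' h with rfl | rfl | rfl <;> assumption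
  · rw [Finset.mem_singleton] at ht
    subst ht
    rcases cSd_5 t' h with rfl | rfl | rfl
    · rw [a2, a5, h2, h5, hd]; ring
    · rfl
    · rw [a8, a5, h8, h5, hd, hd8]; ring

end J

section ctx

variable {G : Geo TSet (Fin 2)} {L : ℕ → ℕ → LRay} {r : ℕ → ℝ} {g s : ℝ} {θ q : Fin 2 → ℝ}
    {Rg : ℝ} {B : Base} {I : ℕ → Finset (ℕ × ℝ)} {lev : ℕ → ℚ → ℕ} {A : ℕ → ℝ}
    {f : ℕ → ℚ → ℕ → ℤ → ℕ} {b : ℕ → ℚ → ℕ → TSet} {vm : ℕ → ℚ → ℝ} {w : Fin 2 → ℕ → ℚ → ℝ}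
    {fr : ℕ → ℚ → ℕ × ℝ → LInc} {fl : ℕ → ℕ × ℝ → LInc} {sc : Fin 12 → ℕ → ℝ}
    {w0 sa sb δ R : ℝ} {I0 I' : ℕ → Finset (ℕ × ℝ)} {ν own : (Fin 12 → ℝ) → ℝ} {c₀ : ℝ}

/-- the visible slots -/
def V278 (k : Fin 12) : Prop := k = 0 ∨ k = 2 ∨ k = 7 ∨ k = 8

theorem nat_le_oSe {e : ℝ} (he : 0 < e) : nat9 0 1 1 ≤ oSe e := by
  refine Tp139.all9 ?_ ?_ ?_ ?_ ?_ ?_ ?_ ?_ ?_
  · change (0:ℝ) ≤ 0; norm_num
  · change (1:ℝ) ≤ 1; norm_num
  · change (1:ℝ) ≤ 1; norm_num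
  · change (0:ℝ) + 1 ≤ 1; norm_num
  · change (0:ℝ) + 1 ≤ 1; norm_num
  · change (0:ℝ) + 2 * 1 ≤ 2; norm_num
  · change (1:ℝ) - 1 ≤ 0; norm_num
  · change (1:ℝ) - 2 * 1 ≤ 0; norm_num
  · change (1:ℝ) - 2 * 1 - 0 ≤ e; linarith

theorem dl_oSe (A : Fin 9 → ℝ) {e : ℝ} (he : 0 < e) :
    dl A (oSe e) 1 5 = 2 * dl A (oSe e) 1 2 ∧ dl A (oSe e) 1 8 = e * dl A (oSe e) 1 2 := by
  unfold dl
  rw [if_neg (by rw [Tp139.u5]; norm_num), if_neg (by rw [Tp139.u2]; norm_num),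
    if_neg (by rw [Tp139.u8]; exact he.ne'), Tp139.u5, Tp139.u2, Tp139.u8]
  constructor <;> ring

/-- **`T⁺` of the `e`-plane over the context, `1/2 ≤ s`**: from W3 on the plane `oSe` -/
theorem eUp_ctx
    (C : CtxT G L r g s θ q Rg B I lev A f b vm w fr fl sc w0 sa sb δ R I0 I' ν own c₀)
    (hR0 : w0 + (θ 1 + sb) < R) (hR1 : w0 + 1 + sb < R) (hRg : θ 0 + |θ 1| < Rg)
    (hθ : 0 < θ 0) (hs : 1 / 2 ≤ s) (hs1 : s < 1) (hg : 2 * s < g) (hqa : 0 ≤ q 0)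
    (hqb : 0 ≤ q 1) (hI1 : InvT PL B I 1 fl (sc 1)) (k0 : 0 < θ 0 - θ 1) (k1 : θ 0 - θ 1 < 1)
    (hθ' : 2 * θ 0 ≤ 1 + (θ 0 - θ 1))
    (hW : ∀ (e : ℝ) (a b' : Fin 2) (v0 κ l α : ℝ) (lam lam2 : Fin 2 → (Fin 12 → ℝ) → ℝ)
      (ρ ρ2 : Fin 9 → ℝ) (h' H : ℕ → ℝ) (Xb : ℕ → Fin 12 → ℝ), 0 < e → 0 < v0 → v0 < 1 →
      Pd9 R s a b' V278 (θ 0) (θ 1) w0 sa sb v0 κ (oSe e) 1 (fo ν own) lam ρ l α h' Xb H lam2 ρ2 →
      ∀ w Rw : V9, One 5 w → w 0 = 0 → w 6 = 0 → w 7 < 0 →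
        LinS {0, 6, 7, 8} (fun w => lam2 0 (RL9.vec w)) w Rw → Rw 1 ≤ Rw 2) : False := by
  have hb2 : θ 1 < 2 * θ 0 := by linarith
  have hb : θ 1 < θ 0 := by linarith
  have hbk : θ 1 = θ 0 - (θ 0 - θ 1) := by ring
  obtain ⟨e, he, he1, he2, hd⟩ : ∃ e : ℝ, 0 < e ∧ e < g - 2 * s ∧
      (2 * θ 0 - θ 1 - 1 < 0 → e * θ 0 < -(2 * θ 0 - θ 1 - 1)) ∧
      (DAl (θ 0) (θ 1) e ∨ (θ 0 = 1 / 2 ∧ θ 1 = 0)) := by
    by_cases hβ : 2 * θ 0 - θ 1 - 1 < 0
    · obtain ⟨e, he, he0, hd⟩ := exists_DAl (θ 0) (θ 1)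
        (e0 := min (g - 2 * s) (-(2 * θ 0 - θ 1 - 1) / θ 0))
        (lt_min (by linarith) (div_pos (by linarith) hθ)) (fun h => absurd h hβ.ne)
      refine ⟨e, he, he0.trans_le (min_le_left _ _), fun _ => ?_, Or.inl hd⟩
      have := he0.trans_le (min_le_right _ _)
      rwa [lt_div_iff₀ hθ] at this
    · by_cases hh : θ 0 = 1 / 2 ∧ θ 1 = 0
      · exact ⟨(g - 2 * s) / 2, by linarith, by linarith, fun h => absurd h hβ, Or.inr hh⟩
      · obtain ⟨e, he, he0, hd⟩ := exists_DAl (θ 0) (θ 1) (e0 := g - 2 * s) (by linarith)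
          (fun h h1 => hh ⟨h1, by linarith⟩)
        exact ⟨e, he, he0, fun h => absurd h hβ, Or.inl hd⟩
  have hS := sok_oSe (θ := θ 0) (θb := θ 1) he hb hb2
  obtain ⟨v0, -, hv0, hv1, a, b', x, hh, lam, hX, O⟩ := exists_out9 C hR0 hR1 hθ hRg (T := Unit)
    (Bs := fun _ => oSe e) (sg := fun _ => 1) (fun _ => hS) (fun _ => leg_oSe he) (N := univ)
    (Eventually.of_forall fun _ => mem_univ _)
  obtain ⟨c0, hc0, hLW, hrec, ρ, hR⟩ := O.surf ()
  obtain ⟨l, α, h', Xb, H, lam2, ρ2, hl, -, -, P⟩ := plane9 O hS (leg_oSe he) hc0 hR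
    (v := 0) (c := 1) (p := 1) (Vis' := V278) (nat_le_oSe he) (fun k hk => by
      left
      by_cases h0 : k = 0
      · subst h0
        refine ⟨Or.inl rfl, ?_⟩
        change (0:ℝ) ≤ 0 * _
        rw [zero_mul]
      by_cases h2 : k = 2
      · subst h2
        refine ⟨Or.inr (Or.inl rfl), ?_⟩
        change (0:ℝ) ≤ 0 * _
        rw [zero_mul]
      by_cases h7 : k = 7
      · subst h7
        refine ⟨Or.inr (Or.inr (Or.inl rfl)), ?_⟩
        change (0:ℝ) ≤ 0 * _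
        rw [zero_mul]
      by_cases h8 : k = 8
      · subst h8
        refine ⟨Or.inr (Or.inr (Or.inr rfl)), ?_⟩
        change (0:ℝ) ≤ 0 * _
        rw [zero_mul]
      exfalso
      apply hk
      by_cases h1 : k = 1
      · subst h1; exact hI1
      refine C.out.inv_ray ?_
      clear hk
      revert h0 h2 h7 h8 h1
      revert k
      decide) (N := univ) (Eventually.of_forall fun _ => mem_univ _) (y := 1) one_pos
  have hPZ : PZi (L9B (θ 0) (θ 1) (oSe e) 1) s a b' (lam2 0) := PZi.of_prf P.prf fun k hk => hk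
  have hκ : DL g s (q 0) (q 1) 0 1 1 = -(4 + q 0 + q 1) := by
    unfold DL; ring
  have hHf := P.half
  rw [hκ] at hHf
  have hrec' : lam 0 (RL9.vec (nat9 1 (-(θ 0)) (-(θ 1)))) =
      DL g s (q 0) (q 1) 1 (-(θ 0)) (-(θ 1)) := by
    have h1 := O.rx.rcd 1
    rw [mul_one, mul_one] at h1
    rw [RL9_nat]
    exact h1
  have FP : FctP (fun w : V9 => w 6 ≤ (θ 0 - θ 1) * w 0 ∧ w 7 ≤ (2 * θ 0 - θ 1) * w 0)
      (fun w => lam2 0 (RL9.vec w)) := by
    refine ctxP9 C hs1 P ?_ ?_ fun w hw hS' k hk => ?_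
    · change (1:ℝ) = 0 + 1; norm_num
    · change (1:ℝ) = 0 + 1; norm_num
    · have h6 : w 6 ≤ (θ 0 - θ 1) * w 0 := hS'.1
      have h7 : w 7 ≤ (2 * θ 0 - θ 1) * w 0 := hS'.2
      rcases hk with rfl | rfl | rfl | rfl
      · change w 0 ≤ w 0 * 1
        rw [mul_one]
      · change w 7 ≤ w 0 * (-(θ 1) - 2 * -(θ 0))
        linarith
      · change w 6 ≤ w 0 * (-(θ 1) - -(θ 0))
        linarith
      · change w 6 ≤ w 0 * (-(θ 1) - -(θ 0))
        linarith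
  have hW3 := hW e a b' v0 _ l α lam lam2 ρ ρ2 h' H Xb he hv0 hv1 P
  obtain ⟨d5, d8⟩ := dl_oSe (nat9 1 (-(θ 0)) (-(θ 1))) he
  rcases hd with hd | ⟨hd1, hd2⟩
  · obtain ⟨φ, H9⟩ := cl9_of9i hS P.half hPZ (hc_oSe he hθ k0 hbk hd) (hz_oSe he hθ k0 hbk hd)
    have hβ : 0 ≤ 2 * θ 0 - θ 1 - 1 ∨ (Al (cS (θ 0 - θ 1)) 8 ∧ ρ2 8 = 0) := by
      by_cases hβ : 2 * θ 0 - θ 1 - 1 < 0
      · refine Or.inr ⟨al_cS k1.ne 8 (by decide), ?_⟩
        rw [P.half.eq 8 (by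
          change -(θ 1) - 2 * -(θ 0) - 1 ≠ 0
          intro h1; linarith)]
        exact Sd538.rD_oSe C hθ hRg hv0 hv1 O hc0 he hb hb2 hd hβ (he2 hβ) hR
      · exact Or.inl (not_lt.1 hβ)
    by_cases hk2 : θ 0 - θ 1 = 1 / 2
    · exact eUp_false H9 (al_cS k1.ne 1 (by decide)) (al_cS k1.ne 3 (by decide))
        (al_cS k1.ne 4 (by decide)) hz_cS (θ := θ 0) (θb := θ 1) (k := θ 0 - θ 1)
        (k' := 2 * θ 0 - θ 1) (e := e) (J := 2 * ρ2 5 + e * ρ2 8) (cc := g) (qa := q 0)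
        (qb := q 1) k0 k1.le (by linarith) he hbk hθ (by linarith) hs (by linarith) hqa hqb hW3
        (fun w h1 h2 h3 => ⟨h2.le, h3.le⟩) FP
        (fun v h1 h2 h5 h8 h3 => (J_half H9 hk2 d5 h1 h2 h5 h8 h3).ge)
        (fun r h d hJ h2 h8 => by
          have e8 := h8 (al_cS k1.ne 8 (by decide))
          subst e8
          exact tve_h hHf (O.zero 0) hrec' he hθ hb2 hd hk2 (by linarith)) hβ
    · exact eUp_false H9 (al_cS k1.ne 1 (by decide)) (al_cS k1.ne 3 (by decide))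
        (al_cS k1.ne 4 (by decide)) hz_cS (θ := θ 0) (θb := θ 1) (k := θ 0 - θ 1)
        (k' := 2 * θ 0 - θ 1) (e := e) (J := ρ2 2 + 2 * ρ2 5 + e * ρ2 8) (cc := g) (qa := q 0)
        (qb := q 1) k0 k1.le (by linarith) he hbk hθ (by linarith) hs (by linarith) hqa hqb hW3
        (fun w h1 h2 h3 => ⟨h2.le, h3.le⟩) FP
        (fun v h1 h2 h5 h8 h3 => (J_gen H9 k1.ne hk2 h1 h2 h5 h8 h3).ge)
        (fun r h d hJ h2 h8 => by
          have e8 := h8 (al_cS k1.ne 8 (by decide))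
          have e2 := h2 (cS_2 k1.ne hk2)
          subst e8
          subst e2
          have e5 : h = ρ2 5 := by linarith
          subst e5
          exact tve hHf (O.zero 0) hrec' he hθ hb hb2 hd k1.ne hk2) hβ
  · obtain ⟨φ, H9⟩ := cl9_of9i hS P.half hPZ (hc_oSd he hd1 hd2) (hz_oSd he hd1 hd2)
    exact eUp_false H9 (al_cSd 1 (by decide)) (al_cSd 3 (by decide))
      (al_cSd 4 (by decide)) hz_cSd (θ := θ 0) (θb := θ 1) (k := θ 0 - θ 1)
      (k' := 2 * θ 0 - θ 1) (e := e) (J := 2 * ρ2 5) (cc := g) (qa := q 0)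
      (qb := q 1) k0 k1.le (by linarith) he hbk hθ (by linarith) hs (by linarith) hqa hqb hW3
      (fun w h1 h2 h3 => ⟨h2.le, h3.le⟩) FP
      (fun v h1 h2 h5 h8 h3 => (J_d H9 d5 d8 h1 h2 h5 h8 h3).ge)
      (fun r h d hJ h2 h8 => tve_d hHf (O.zero 0) hrec' he hd1 hd2 (by linarith))
      (Or.inl (by rw [hd1, hd2]; norm_num))

end ctx

end Crest.Agent.R116.Th899
end

-- ▼ part R116/Th2c_899

/-!
# R116, ties, `1/2 ≤ s`, `T⁺` of the `e`-plane: the cells (helper899, second of helper171)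

* `w3_oSe`   : W3 on the plane `oSe` over `CtxT` (helper171's `fctU9`)
* **`fillE_up`** : `e`-tie, `θ0 - θ1 < 1`, `2 θ0 ≤ 1 + (θ0 - θ1)`, `1/2 ≤ s` is impossible
* **`fillD_up`** : the same for the double tie, `2 θ0 - θ1 < 1`
-/

set_option autoImplicit false
set_option linter.unusedVariables false
set_option linter.unusedSectionVars false

open Set Filter Topology MeasureTheory

namespace Crest.Agent.R116.Th899

open Crest.Agent.R136
open Crest.Agent.R138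
open RbK219
open RbM219
open Kz647
open Crest.Agent.R116.PL504 (eL)
open Crest.Agent.R116.Sg337 (coneL DL)
open Crest.Agent.R116.Tq741
open Crest.Agent.R116.Tq126
open Crest.Agent.R138.Ex926 (Base U IsTan)
open Crest.Agent.R136.MkA627 Crest.Agent.R136.TD627 Crest.Agent.R136.Net191
open Crest.Agent.R136.Lq196
open Crest.Agent.R116.ChL222
open Crest.Agent.R116.PL504 (rL βL Shift)
open Crest.Agent.R116.Gd222 (TSet sN)
open Crest.Agent.R116.KI439
open Crest.Agent.R116.KF439 (PL)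
open Crest.Agent.R116.CtxB468
open Crest.Agent.R116.Rcx363
open Crest.Agent.R116.Pd363
open Crest.Agent.R116.KTie794
open Crest.Agent.R116.KTop387 (NumL)
open Crest.Agent.R116.Tp139 (oSe sok_oSe leg_oSe FctU)
open Crest.Agent.R116.FlH850 (VE VD SFill fill_of)

section ctx

variable {G : Geo TSet (Fin 2)} {L : ℕ → ℕ → LRay} {r : ℕ → ℝ} {g s : ℝ} {θ q : Fin 2 → ℝ}
    {Rg : ℝ} {B : Base} {I : ℕ → Finset (ℕ × ℝ)} {lev : ℕ → ℚ → ℕ} {A : ℕ → ℝ}
    {f : ℕ → ℚ → ℕ → ℤ → ℕ} {b : ℕ → ℚ → ℕ → TSet} {vm : ℕ → ℚ → ℝ} {w : Fin 2 → ℕ → ℚ → ℝ}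
    {fr : ℕ → ℚ → ℕ × ℝ → LInc} {fl : ℕ → ℕ × ℝ → LInc} {sc : Fin 12 → ℕ → ℝ}
    {w0 sa sb δ R : ℝ} {I0 I' : ℕ → Finset (ℕ × ℝ)} {ν own : (Fin 12 → ℝ) → ℝ} {c₀ : ℝ}

/-- W3 on the plane `oSe` -/
theorem w3_oSe
    (C : CtxT G L r g s θ q Rg B I lev A f b vm w fr fl sc w0 sa sb δ R I0 I' ν own c₀)
    (hθ : 0 < θ 0) (hI1 : InvT PL B I 1 fl (sc 1))
    (hB : TieT θ B I lev fl sc 7 ∨ TieT θ B I lev fl sc 8)
    (e : ℝ) (a b' : Fin 2) (v0 κ l α : ℝ) (lam lam2 : Fin 2 → (Fin 12 → ℝ) → ℝ)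
    (ρ ρ2 : Fin 9 → ℝ) (h' H : ℕ → ℝ) (Xb : ℕ → Fin 12 → ℝ) (he : 0 < e) (hv0 : 0 < v0)
    (hv1 : v0 < 1)
    (P : Pd9 R s a b' V278 (θ 0) (θ 1) w0 sa sb v0 κ (oSe e) 1 (fo ν own) lam ρ l α h' Xb H
      lam2 ρ2) (w : V9) (Rw : V9) (ho : One 5 w) (w0' : w 0 = 0) (w6 : w 6 = 0) (w7 : w 7 < 0)
    (hL : LinS {0, 6, 7, 8} (fun w => lam2 0 (RL9.vec w)) w Rw) : Rw 1 ≤ Rw 2 := by
  have F := Th171.fctU9 (Sg := fun w => w 7 < (2 * θ 0 - θ 1) * w 0) P C hθ hv0 hv1 (leg_oSe he)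
    (by change (1:ℝ) = 0 + 1; norm_num) (by change (2:ℝ) = 1 + 1; norm_num)
    (by change (1:ℝ) = 0 + 1; norm_num) (by change (1:ℝ) = 1 + 0; norm_num)
    (by change (1:ℝ) = 1 + 0; norm_num) (by change (0:ℝ) = _ * 0; rw [mul_zero]) hB
    (fun _ => by change (0:ℝ) ≤ _ * 0; rw [mul_zero]) (fun h => absurd hI1 h)
    (fun w _ h => ⟨fun _ => h, fun h => absurd hI1 h⟩)
  exact F.W3 w Rw ho (by rw [w0', w6, mul_zero]) (by
    show w 7 < (2 * θ 0 - θ 1) * w 0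
    rw [w0', mul_zero]; exact w7) hL

end ctx

/-- **`e`-tie, `T⁺`, `1/2 ≤ s`** -/
theorem fillE_up (η : ℝ) : Fill η VE fun g s θ q =>
    1 / 2 ≤ s → θ 0 - θ 1 < 1 → 2 * θ 0 ≤ 1 + (θ 0 - θ 1) → False := by
  refine fill_of ?_
  intro G L r g s θ q Rg B I lev A f b vm w fr fl sc w0 sa sb δ R I0 I' ν own c₀ C hN hR0 hR1 hRg
    hV hs k1 hθ'
  exact eUp_ctx C hR0 hR1 (by linarith) hN.θa hs hN.s1 (by linarith [hN.gpos]) hN.qa.le hN.qb.le
    hV.2.2 (TieT.kB hV.1) k1 hθ' (w3_oSe C hN.θa hV.2.2 hV.1)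

/-- **double tie, `T⁺`, `1/2 ≤ s`** -/
theorem fillD_up (η : ℝ) : Fill η VD fun g s θ q =>
    1 / 2 ≤ s → 2 * θ 0 - θ 1 < 1 → 2 * θ 0 ≤ 1 + (θ 0 - θ 1) → False := by
  refine fill_of ?_
  intro G L r g s θ q Rg B I lev A f b vm w fr fl sc w0 sa sb δ R I0 I' ν own c₀ C hN hR0 hR1 hRg
    hV hs k1 hθ'
  have hD : InvT PL B I 1 fl (sc 1) := by
    rcases C.out.clsD with h | h
    · exact h
    · exfalso
      have h1 := h.2.1
      change 0 < -(θ 1) - 2 * -(θ 0) - 1 at h1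
      linarith
  have hθ := hN.θa
  exact eUp_ctx C hR0 hR1 (by linarith) hN.θa hs hN.s1 (by linarith [hN.gpos]) hN.qa.le hN.qb.le
    hD (TieT.kB hV.1) (by linarith) hθ' (w3_oSe C hN.θa hD hV.1)

end Crest.Agent.R116.Th899
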