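import Crest.Agent.R116.Tq1_741

/-!
# R116 (K side, ties), own-strip facts at a tied base (helper741)

Replaces the two last structures of `Tq1_741`: the wall of the fact is tight, the other windows are
open, the tied flag sits on its natural value.

* `FctE k Λ`  : (W3), (W2) at an `e`-tie
* `FctK k Λ`  : (W3k) at a `κ`-tie, `D` frozen;  `FctK9 k Λ` : `D` live
* `LinP`      : `LinS` with a named `Ψ`;  `K3E s Λ` : (K3) at an `e`-tie with `k = 1`
-/

set_option autoImplicit false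

open Set Filter Topology

namespace Crest.Agent.R116.Tq741

/-- own-strip facts at an `e`-tie (`B` tied); class `{z, B}` -/
structure FctE (k : ℝ) (Λ : V9 → ℝ) : Prop where
  W3 : ∀ w R, One 5 w → w 6 = k * w 0 → LinS {0, 6} Λ w R → R 1 ≤ R 2
  W2 : ∀ w R, One 8 w → w 6 = k * w 0 → LinS {0, 6} Λ w R → R 3 ≤ R 4

/-- own-strip fact at a `κ`-tie, `D` frozen; class `{z, G}` -/
structure FctK (k : ℝ) (Λ : V9 → ℝ) : Prop where
  W3 : ∀ w R, One 2 w → w 7 = k * w 0 → LinS {0, 7} Λ w R → R 1 ≤ R 6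

/-- own-strip fact at a `κ`-tie, `D` live; class `{z, G, D}` -/
structure FctK9 (k : ℝ) (Λ : V9 → ℝ) : Prop where
  W3 : ∀ w R, gap w 0 = 0 → gap w 1 = 0 → gap w 2 = 0 → gap w 3 = 0 →
    (∀ i : Fin 10, 4 ≤ i → 0 < gap w i) → w 7 = k * w 0 → w 8 = (k - 1) * w 0 →
    LinS {0, 7, 8} Λ w R → R 1 ≤ R 6



end Crest.Agent.R116.Tq741
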