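import Crest.Agent.R116.KW3_420
import Crest.Agent.R116.EvL6_504

-- ▼ part R116/KW4_420
section

/-!
# R116, K-TEXT II-c, section 1, fact (W3k), part 4: the D-tie (helper420)

At a D-tie the own motion of the slot `1` is spread (`OwnThin 1`) and the slot `2` moves with it:
`own k1 k 2 = own k0 k 2 + own k1 k0 2 - 2 own k0 k 1 own k1 k0 0`.

* `line_pins` : for one line, all heights `k0` with `|own k0 k 2| ≤ θ` at more than two thirds of its
  heights `k` lie in one interval of heights.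
* `good_pin` : a pin whose fibre consists of good lines (double counting).
* `two_heights_E`, `twist_core_E` : the pin may depend on `ε`.
* `w3_d` : `w3_k` at a D-tie.
* `w3_e0`, `w2_e0` : `w3_e`, `w2_e` for windows with the slot `1` dropped (`1 ∈ S`, own motion `0`).
-/

set_option autoImplicit false
set_option linter.unusedVariables false
set_option linter.unusedSectionVars false

open Filter Topology Finset

namespace Crest.Agent.R116.KW420

open Crest.Agent.R138.Ex926 (Base U)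
open Crest.Agent.R136.Gf356

/-- **the pins of one line** -/
theorem line_pins (A : Finset ℕ) (z : ℕ → ℝ) (a0 a1 a2 : ℕ → ℕ → ℝ)
    {η θ θ1 d q f : ℝ} (hη : 0 ≤ η) (hθ : 0 ≤ θ) (hd : 0 < d) (hηd : 2 * η ≤ d)
    (h0 : ∀ k1 ∈ A, ∀ k0 ∈ A, |a0 k1 k0 + (z k0 - z k1)| ≤ η)
    (h1 : ∀ k0 ∈ A, ∀ k1 ∈ A, ∀ k ∈ A, |a1 k1 k - (a1 k0 k + a1 k1 k0)| ≤ η)
    (h2 : ∀ k0 ∈ A, ∀ k1 ∈ A, ∀ k ∈ A,
      |a2 k1 k - (a2 k0 k + a2 k1 k0 - 2 * (a1 k0 k * a0 k1 k0))| ≤ η)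
    (hθ1 : (4 * θ + 2 * η) / d + 3 * η ≤ θ1)
    (hthin : ∀ k0 ∈ A, ∀ T ⊆ A, (∀ k ∈ T, |a1 k0 k| ≤ θ1) → (T.card : ℝ) ≤ q)
    (hq : 3 * q < A.card)
    (hfr : ∀ k0 ∈ A, ∀ T ⊆ A, (∀ k ∈ T, |z k - z k0| ≤ d) → (T.card : ℝ) ≤ f) (hf : 0 ≤ f) :
    ((A.filter fun k0 => 2 * (A.card : ℝ) <
      3 * ((A.filter fun k => |a2 k0 k| ≤ θ).card : ℝ)).card : ℝ) ≤ f := by
  classical
  set Bd := A.filter fun k0 => 2 * (A.card : ℝ) <
      3 * ((A.filter fun k => |a2 k0 k| ≤ θ).card : ℝ) with hBd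
  rcases Bd.eq_empty_or_nonempty with he | ⟨k0, hk0⟩
  · rw [he]; simpa using hf
  obtain ⟨k0A, k0b⟩ := Finset.mem_filter.1 hk0
  refine hfr k0 k0A Bd (Finset.filter_subset _ _) ?_
  intro k1 hk1
  obtain ⟨k1A, k1b⟩ := Finset.mem_filter.1 hk1
  by_contra hfar
  push Not at hfar
  set F0 := A.filter fun k => |a2 k0 k| ≤ θ with hF0
  set F1 := A.filter fun k => |a2 k1 k| ≤ θ with hF1
  have hun : F0 ∪ F1 ⊆ A := Finset.union_subset (Finset.filter_subset _ _)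
    (Finset.filter_subset _ _)
  have c1 := Finset.card_union_add_card_inter F0 F1
  have c2 := Finset.card_le_card hun
  have c1' : ((F0 ∪ F1).card : ℝ) + ((F0 ∩ F1).card : ℝ) = (F0.card : ℝ) + (F1.card : ℝ) := by
    exact_mod_cast c1
  have c2' : ((F0 ∪ F1).card : ℝ) ≤ (A.card : ℝ) := by exact_mod_cast c2
  have c3 : (A.card : ℝ) < 3 * ((F0 ∩ F1).card : ℝ) := by linarith
  have hne : (F0 ∩ F1).Nonempty := by
    rw [← Finset.card_pos]
    have : (0 : ℝ) ≤ A.card := Nat.cast_nonneg _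
    have h : (0 : ℝ) < ((F0 ∩ F1).card : ℝ) := by linarith
    exact_mod_cast h
  obtain ⟨ks, hks⟩ := hne
  have mem : ∀ k ∈ F0 ∩ F1, k ∈ A ∧ |a2 k0 k| ≤ θ ∧ |a2 k1 k| ≤ θ := by
    intro k hk
    obtain ⟨g1, g2⟩ := Finset.mem_inter.1 hk
    exact ⟨(Finset.mem_filter.1 g1).1, (Finset.mem_filter.1 g1).2, (Finset.mem_filter.1 g2).2⟩
  obtain ⟨sA, s0, s1⟩ := mem ks hks
  set w := a0 k1 k0 with hw
  set c := a2 k1 k0 with hc
  have hw1 : d / 2 ≤ |w| := by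
    have e1 := h0 k1 k1A k0 k0A
    have e2 : |z k1 - z k0| ≤ |w + (z k0 - z k1)| + |w| := by
      have e : z k1 - z k0 = -(w + (z k0 - z k1)) + w := by ring
      rw [e]
      refine (abs_add_le _ _).trans ?_
      rw [abs_neg]
    linarith
  have key : ∀ k ∈ F0 ∩ F1, |c - 2 * (a1 k0 k * w)| ≤ 2 * θ + η := by
    intro k hk
    obtain ⟨kA, b0, b1⟩ := mem k hk
    have e1 := h2 k0 k0A k1 k1A k kA
    have e : c - 2 * (a1 k0 k * w) = a2 k1 k - a2 k0 k -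
        (a2 k1 k - (a2 k0 k + c - 2 * (a1 k0 k * w))) := by ring
    rw [e]
    have t1 := abs_sub (a2 k1 k - a2 k0 k) (a2 k1 k - (a2 k0 k + c - 2 * (a1 k0 k * w)))
    have t2 := abs_sub (a2 k1 k) (a2 k0 k)
    linarith
  have hle := hthin ks sA (F0 ∩ F1) (Finset.inter_subset_left.trans (Finset.filter_subset _ _))
    (by
      intro k hk
      have b1 := key k hk
      have b2 := key ks hks
      obtain ⟨kA, _, _⟩ := mem k hk
      have b3 : |2 * w * (a1 k0 k - a1 k0 ks)| ≤ 4 * θ + 2 * η := by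
        have e : 2 * w * (a1 k0 k - a1 k0 ks) =
            (c - 2 * (a1 k0 ks * w)) - (c - 2 * (a1 k0 k * w)) := by ring
        rw [e]
        refine (abs_sub _ _).trans ?_
        linarith
      have b4 : |a1 k0 k - a1 k0 ks| ≤ (4 * θ + 2 * η) / d := by
        rw [le_div_iff₀ hd]
        rw [abs_mul, abs_mul, abs_of_pos (two_pos : (0 : ℝ) < 2)] at b3
        have := mul_le_mul_of_nonneg_left hw1 (abs_nonneg (a1 k0 k - a1 k0 ks))
        nlinarith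
      have b5 := h1 k0 k0A ks sA k kA
      have b6 := h1 k0 k0A ks sA ks sA
      have b7 : |a1 ks ks| ≤ η := by
        have := h1 ks sA ks sA ks sA
        have e : a1 ks ks - (a1 ks ks + a1 ks ks) = -a1 ks ks := by ring
        rwa [e, abs_neg] at this
      have e : a1 ks k = (a1 k0 k - a1 k0 ks) + (a1 ks k - (a1 k0 k + a1 ks k0)) -
          (a1 ks ks - (a1 k0 ks + a1 ks k0)) + a1 ks ks := by ring
      rw [e]
      have t1 := abs_add_le ((a1 k0 k - a1 k0 ks) + (a1 ks k - (a1 k0 k + a1 ks k0)) -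
          (a1 ks ks - (a1 k0 ks + a1 ks k0))) (a1 ks ks)
      have t2 := abs_sub ((a1 k0 k - a1 k0 ks) + (a1 ks k - (a1 k0 k + a1 ks k0)))
          (a1 ks ks - (a1 k0 ks + a1 ks k0))
      have t3 := abs_add_le (a1 k0 k - a1 k0 ks) (a1 ks k - (a1 k0 k + a1 ks k0))
      linarith)
  linarith

/-- **a pin whose fibre consists of good lines** -/
theorem good_pin {κ : Type} (G : RCfg κ) (hsub : G.I ⊆ G.L ×ˢ G.Z) (hne : G.I.Nonempty)
    (box box' : ℕ → ℕ → Finset ℕ) (bad : ℕ → ℕ → Prop) {w Lb Ub : ℝ}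
    (hbox : ∀ i k, (i, k) ∈ G.I → ∀ l ∈ box i k, l ∈ G.L ∧ (l, k) ∈ G.I ∧ i ∈ box' l k)
    (hb : ∀ i ∈ G.L, ∀ T ⊆ G.hts i, (∀ k ∈ T, bad i k) → (T.card : ℝ) ≤ w * ((G.hts i).card : ℝ))
    (hup : ∀ i k, (i, k) ∈ G.I → ((box' i k).card : ℝ) ≤ Ub)
    (hlow : ∀ i k, (i, k) ∈ G.I → Lb ≤ ((box i k).card : ℝ)) (hUb : 0 ≤ Ub)
    (hw : 2 * (w * Ub) < Lb) :
    ∃ i k, (i, k) ∈ G.I ∧ ∃ S0 ⊆ box i k, Lb ≤ 2 * (S0.card : ℝ) ∧ ∀ l ∈ S0, ¬ bad l k := by
  classical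
  by_contra hcon
  push Not at hcon
  have hI0 : (0 : ℝ) < G.I.card := by exact_mod_cast hne.card_pos
  -- many bad lines in each fibre
  have hbadf : ∀ p ∈ G.I, Lb / 2 ≤ (((box p.1 p.2).filter fun l => bad l p.2).card : ℝ) := by
    intro p hp
    by_contra h
    push Not at h
    have h1 := hlow p.1 p.2 hp
    have h2 : (((box p.1 p.2).filter fun l => bad l p.2).card : ℝ) +
        (((box p.1 p.2).filter fun l => ¬ bad l p.2).card : ℝ) = ((box p.1 p.2).card : ℝ) := by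
      exact_mod_cast Finset.card_filter_add_card_filter_not (s := box p.1 p.2)
        (fun l => bad l p.2)
    obtain ⟨l, hl1, hl2⟩ := hcon p.1 p.2 hp ((box p.1 p.2).filter fun l => ¬ bad l p.2)
      (Finset.filter_subset _ _) (by linarith)
    exact (Finset.mem_filter.1 hl1).2 hl2
  set Q := (G.I ×ˢ G.L).filter fun q => q.2 ∈ box q.1.1 q.1.2 ∧ bad q.2 q.1.2 with hQ
  have hQm : ∀ q, q ∈ Q ↔ (q.1 ∈ G.I ∧ q.2 ∈ G.L) ∧ q.2 ∈ box q.1.1 q.1.2 ∧ bad q.2 q.1.2 := by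
    intro q
    rw [hQ, Finset.mem_filter, Finset.mem_product]
  -- lower bound of `Q`
  have low : (G.I.card : ℝ) * (Lb / 2) ≤ (Q.card : ℝ) := by
    have e1 : Q.card = ∑ p ∈ G.I, (Q.filter fun q => q.1 = p).card :=
      Finset.card_eq_sum_card_fiberwise fun q hq => ((hQm q).1 hq).1.1
    have e2 : ∀ p ∈ G.I, Lb / 2 ≤ ((Q.filter fun q => q.1 = p).card : ℝ) := by
      intro p hp
      refine (hbadf p hp).trans ?_
      have : ((box p.1 p.2).filter fun l => bad l p.2).card ≤ (Q.filter fun q => q.1 = p).card := by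
        refine Finset.card_le_card_of_injOn (fun l => (p, l)) ?_ ?_
        · intro l hl
          obtain ⟨l1, l2⟩ := Finset.mem_filter.1 hl
          refine Finset.mem_coe.2 (Finset.mem_filter.2 ⟨(hQm _).2 ⟨⟨hp, ?_⟩, l1, l2⟩, rfl⟩)
          exact (hbox p.1 p.2 hp l l1).1
        · intro l _ l' _ h
          exact (Prod.mk.inj h).2
      exact_mod_cast this
    calc (G.I.card : ℝ) * (Lb / 2) = ∑ p ∈ G.I, Lb / 2 := by
          rw [Finset.sum_const, nsmul_eq_mul]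
      _ ≤ ∑ p ∈ G.I, ((Q.filter fun q => q.1 = p).card : ℝ) := Finset.sum_le_sum e2
      _ = (Q.card : ℝ) := by rw [e1]; push_cast; rfl
  -- upper bound of `Q`
  set Ib := G.I.filter fun p => bad p.1 p.2 with hIb
  have up : (Q.card : ℝ) ≤ (Ib.card : ℝ) * Ub := by
    have e1 : Q.card = ∑ p ∈ Ib, (Q.filter fun q => (q.2, q.1.2) = p).card :=
      Finset.card_eq_sum_card_fiberwise fun q hq => by
        obtain ⟨⟨q1, q2⟩, q3, q4⟩ := (hQm q).1 hq
        exact Finset.mem_coe.2 (Finset.mem_filter.2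
          ⟨(hbox q.1.1 q.1.2 q1 q.2 q3).2.1, q4⟩)
    have e2 : ∀ p ∈ Ib, ((Q.filter fun q => (q.2, q.1.2) = p).card : ℝ) ≤ Ub := by
      intro p hp
      have hpI := (Finset.mem_filter.1 hp).1
      refine le_trans ?_ (hup p.1 p.2 hpI)
      have : (Q.filter fun q => (q.2, q.1.2) = p).card ≤ (box' p.1 p.2).card := by
        refine Finset.card_le_card_of_injOn (fun q => q.1.1) ?_ ?_
        · intro q hq
          obtain ⟨hq1, hq2⟩ := Finset.mem_filter.1 hq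
          obtain ⟨⟨q1, q2⟩, q3, q4⟩ := (hQm q).1 hq1
          have := (hbox q.1.1 q.1.2 q1 q.2 q3).2.2
          rw [← hq2]
          exact this
        · intro q hq q' hq' h
          obtain ⟨_, hq2⟩ := Finset.mem_filter.1 (Finset.mem_coe.1 hq)
          obtain ⟨_, hq2'⟩ := Finset.mem_filter.1 (Finset.mem_coe.1 hq')
          have h3 : (q.2, q.1.2) = (q'.2, q'.1.2) := hq2.trans hq2'.symm
          obtain ⟨h4, h5⟩ := Prod.mk.inj h3
          exact Prod.ext (Prod.ext h h5) h4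
      exact_mod_cast this
    calc (Q.card : ℝ) = ∑ p ∈ Ib, ((Q.filter fun q => (q.2, q.1.2) = p).card : ℝ) := by
          rw [e1]; push_cast; rfl
      _ ≤ ∑ p ∈ Ib, Ub := Finset.sum_le_sum e2
      _ = (Ib.card : ℝ) * Ub := by rw [Finset.sum_const, nsmul_eq_mul]
  -- bad incidences
  have hbI : (Ib.card : ℝ) ≤ w * (G.I.card : ℝ) := by
    have e1 : Ib.card = ∑ i ∈ G.L, (Ib.filter fun p => p.1 = i).card :=
      Finset.card_eq_sum_card_fiberwise fun p hp =>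
        (Finset.mem_product.1 (hsub (Finset.mem_filter.1 hp).1)).1
    have e2 : G.I.card = ∑ i ∈ G.L, (G.I.filter fun p => p.1 = i).card :=
      Finset.card_eq_sum_card_fiberwise fun p hp => (Finset.mem_product.1 (hsub hp)).1
    have e3 : ∀ i ∈ G.L, ((Ib.filter fun p => p.1 = i).card : ℝ) ≤
        w * ((G.I.filter fun p => p.1 = i).card : ℝ) := by
      intro i hi
      have h1 : (G.I.filter fun p => p.1 = i).card = (G.hts i).card := by
        symm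
        refine Finset.card_bij (fun k _ => (i, k)) ?_ ?_ ?_
        · intro k hk
          exact Finset.mem_filter.2 ⟨(Finset.mem_filter.1 hk).2, rfl⟩
        · intro k _ k' _ h
          exact (Prod.mk.inj h).2
        · intro p hp
          obtain ⟨p1, p2⟩ := Finset.mem_filter.1 hp
          refine ⟨p.2, ?_, ?_⟩
          · refine Finset.mem_filter.2 ⟨(Finset.mem_product.1 (hsub p1)).2, ?_⟩
            rw [← p2]; exact p1
          · rw [← p2]
      have h2 := hb i hi ((G.hts i).filter fun k => bad i k) (Finset.filter_subset _ _)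
        (fun k hk => (Finset.mem_filter.1 hk).2)
      have h3 : (Ib.filter fun p => p.1 = i).card ≤ ((G.hts i).filter fun k => bad i k).card := by
        refine Finset.card_le_card_of_injOn (fun p => p.2) ?_ ?_
        · intro p hp
          obtain ⟨p1, p2⟩ := Finset.mem_filter.1 hp
          obtain ⟨p3, p4⟩ := Finset.mem_filter.1 p1
          refine Finset.mem_coe.2 (Finset.mem_filter.2 ⟨Finset.mem_filter.2
            ⟨(Finset.mem_product.1 (hsub p3)).2, ?_⟩, ?_⟩)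
          · rw [← p2]; exact p3
          · rw [← p2]; exact p4
        · intro p hp p' hp' h
          obtain ⟨_, p2⟩ := Finset.mem_filter.1 (Finset.mem_coe.1 hp)
          obtain ⟨_, p2'⟩ := Finset.mem_filter.1 (Finset.mem_coe.1 hp')
          exact Prod.ext (p2.trans p2'.symm) h
      have h3' : ((Ib.filter fun p => p.1 = i).card : ℝ) ≤
          (((G.hts i).filter fun k => bad i k).card : ℝ) := by exact_mod_cast h3
      rw [h1]
      exact h3'.trans h2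
    calc (Ib.card : ℝ) = ∑ i ∈ G.L, ((Ib.filter fun p => p.1 = i).card : ℝ) := by
          rw [e1]; push_cast; rfl
      _ ≤ ∑ i ∈ G.L, w * ((G.I.filter fun p => p.1 = i).card : ℝ) := Finset.sum_le_sum e3
      _ = w * (G.I.card : ℝ) := by rw [← Finset.mul_sum, e2]; push_cast; rfl
  have h1 : (G.I.card : ℝ) * (Lb / 2) ≤ w * (G.I.card : ℝ) * Ub :=
    low.trans (up.trans (mul_le_mul_of_nonneg_right hbI hUb))
  have h2 : (G.I.card : ℝ) * (Lb / 2) ≤ (G.I.card : ℝ) * (w * Ub) := by linarith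
  have h3 := le_of_mul_le_mul_left h2 hI0
  linarith

/-! ### pins which depend on `ε` -/

section pinE

variable {κ : Type} {B : Base} {G : ℕ → RCfg κ} {Leg : Set (κ → ℝ)} {ν : (κ → ℝ) → ℝ}
  {σ R D : ℝ}

/-- `two_heights_R` with pins which depend on `ε` -/
theorem two_heights_E (H : RUnif B G Leg ν D) (k0 : ℝ → ℕ → ℕ)
    (S0 : ℝ → ℕ → Finset ℕ) (p' pT r : κ → ℝ) (hp' : p' ∈ Leg) (hpT : pT ∈ Leg) (hr : r ∈ Leg)
    (hTr : ∀ j, pT j ≤ r j) (Zg : ℕ → Finset ℕ)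
    (hZg : ∀ᶠ n in (U : Filter ℕ), (Zg n).Nonempty) {a C1 : ℝ} (hC1 : 0 < C1)
    (hS0 : ∀ ε : ℝ, 0 < ε → ∀ᶠ n in (U : Filter ℕ), ∀ i ∈ S0 ε n, (i, k0 ε n) ∈ (G n).I)
    (hcard : ∀ ε : ℝ, 0 < ε → ∀ᶠ n in (U : Filter ℕ),
      B.d n ^ (-a + C1 * ε) ≤ ((S0 ε n).card : ℝ))
    (good : ℝ → ℕ → ℕ → ℕ → Prop)
    (hal : ∀ ε : ℝ, 0 < ε → ∀ᶠ n in (U : Filter ℕ), ∀ i ∈ S0 ε n,
      ∀ T ⊆ Zg n, (∀ k ∈ Zg n, (i, k) ∈ (G n).I → good ε n i k → k ∈ T) →
      B.d n ^ (C1 * ε) * ((Zg n).card : ℝ) ≤ (T.card : ℝ))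
    (hT : ∀ ε : ℝ, 0 < ε → ∀ᶠ n in (U : Filter ℕ), ∀ k ∈ Zg n,
      ∀ i ∈ S0 ε n, ∀ i' ∈ S0 ε n, (i, k) ∈ (G n).I → (i', k) ∈ (G n).I →
      (G n).loose pT (C1 * ε) k i i')
    (hgeo : ∀ C2 : ℝ, 0 < C2 → ∃ C3 : ℝ, 0 < C3 ∧ ∀ ε : ℝ, 0 < ε → ∀ᶠ n in (U : Filter ℕ),
      ∀ k ∈ Zg n, ∀ i ∈ S0 ε n, ∀ i' ∈ S0 ε n, (i, k) ∈ (G n).I → (i', k) ∈ (G n).I →
        good ε n i k → good ε n i' k → (G n).loose r (C2 * ε) k i i' →
        (G n).loose p' (C3 * ε) (k0 ε n) i i') :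
    a - ν p' ≤ ν pT - ν r := by
  classical
  have hex : ∀ ε : ℝ, 0 < ε → ∀ᶠ n in (U : Filter ℕ), ∃ k ∈ Zg n,
      B.d n ^ (C1 * ε) * ((S0 ε n).card : ℝ) ≤
        (((S0 ε n).filter fun i => (i, k) ∈ (G n).I ∧ good ε n i k).card : ℝ) := by
    intro ε hε
    filter_upwards [hZg, hal ε hε] with n hZn haln
    refine pick_height (S0 ε n) (Zg n) (fun i k => (i, k) ∈ (G n).I ∧ good ε n i k) hZn ?_
    intro i hi
    refine haln i hi _ (Finset.filter_subset _ _) ?_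
    intro k hk h1 h2
    exact Finset.mem_filter.2 ⟨hk, h1, h2⟩
  let k1 : ℝ → ℕ → ℕ := fun ε n => if h : ∃ k ∈ Zg n,
      B.d n ^ (C1 * ε) * ((S0 ε n).card : ℝ) ≤
        (((S0 ε n).filter fun i => (i, k) ∈ (G n).I ∧ good ε n i k).card : ℝ) then h.choose else 0
  have hk1 : ∀ ε : ℝ, 0 < ε → ∀ᶠ n in (U : Filter ℕ), k1 ε n ∈ Zg n ∧
      B.d n ^ (C1 * ε) * ((S0 ε n).card : ℝ) ≤
        (((S0 ε n).filter fun i => (i, k1 ε n) ∈ (G n).I ∧ good ε n i (k1 ε n)).card : ℝ) := by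
    intro ε hε
    filter_upwards [hex ε hε] with n hn
    have e : k1 ε n = hn.choose := dif_pos hn
    rw [e]
    exact hn.choose_spec
  set S : ℝ → ℕ → Finset ℕ := fun ε n =>
    (S0 ε n).filter fun i => (i, k1 ε n) ∈ (G n).I ∧ good ε n i (k1 ε n) with hS
  have hmem : ∀ {ε : ℝ} {n i : ℕ}, i ∈ S ε n → i ∈ S0 ε n ∧ (i, k1 ε n) ∈ (G n).I ∧
      good ε n i (k1 ε n) := fun h => by
    obtain ⟨a1, a2, a3⟩ := Finset.mem_filter.1 h
    exact ⟨a1, a2, a3⟩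
  refine two_heights H k0 k1 S p' pT r hp' hpT hr hTr (C := C1 + C1)
    (by positivity) ?_ ?_ ?_ ?_ ?_
  · intro ε hε
    filter_upwards [hS0 ε hε] with n hn i hi
    exact hn i (hmem hi).1
  · intro ε hε
    exact Filter.Eventually.of_forall fun n i hi => (hmem hi).2.1
  · intro ε hε
    filter_upwards [hk1 ε hε, hcard ε hε] with n h1 h2
    calc B.d n ^ (-a + (C1 + C1) * ε) = B.d n ^ (C1 * ε) * B.d n ^ (-a + C1 * ε) := by
          rw [← rpow_add']; congr 1; ring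
      _ ≤ B.d n ^ (C1 * ε) * ((S0 ε n).card : ℝ) :=
          mul_le_mul_of_nonneg_left h2 (rpos B n _).le
      _ ≤ _ := h1.2
  · intro ε hε
    filter_upwards [hk1 ε hε, hT ε hε] with n h1 h2 i hi i' hi'
    exact H.loose_mono (fun _ => le_rfl) (by nlinarith)
      (h2 _ h1.1 i (hmem hi).1 i' (hmem hi').1 (hmem hi).2.1 (hmem hi').2.1)
  · intro C2 hC2
    obtain ⟨C3, hC3, hg⟩ := hgeo C2 hC2
    refine ⟨C3, hC3, fun ε hε => ?_⟩
    filter_upwards [hk1 ε hε, hg ε hε] with n h1 h2 i hi i' hi' hr'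
    exact h2 _ h1.1 i (hmem hi).1 i' (hmem hi').1 (hmem hi).2.1 (hmem hi').2.1
      (hmem hi).2.2 (hmem hi').2.2 hr'

end pinE

section dtie

open Crest.Agent.R116.EvL504 (evoS LvS SL)
open Crest.Agent.R116.Kr710 (LLaw)

variable {B : Base} {G : ℕ → RCfg (Fin 12)} {Leg : Set (Fin 12 → ℝ)} {ν : (Fin 12 → ℝ) → ℝ}
  {σ R D x0 : ℝ} {S : Finset (Fin 12)} {own : ℕ → ℕ → ℕ → ℕ → Fin 12 → ℝ}

/-- **composition of the own motions of one line**, slots `1`, `2` -/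
def OwnCoc (B : Base) (G : ℕ → RCfg (Fin 12)) (own : ℕ → ℕ → ℕ → ℕ → Fin 12 → ℝ) (x0 : ℝ) :
    Prop :=
  ∀ ε : ℝ, 0 < ε → ∀ᶠ n in (U : Filter ℕ), ∀ i k0 k1 k, (i, k0) ∈ (G n).I → (i, k1) ∈ (G n).I →
    (i, k) ∈ (G n).I →
    |own n i k1 k 1 - (own n i k0 k 1 + own n i k1 k0 1)| ≤ B.d n ^ (x0 - ε) ∧
    |own n i k1 k 2 - (own n i k0 k 2 + own n i k1 k0 2 -
      2 * (own n i k0 k 1 * own n i k1 k0 0))| ≤ B.d n ^ (x0 - ε)




end dtie

end Crest.Agent.R116.KW420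
end

-- ▼ part R116/KW5_420
section

/-!
# R116, K-TEXT II-c, section 1, facts (W2), (W3), part 5: dropped slot `1`, own composition (helper420)

* `w3_e0`, `w2_e0` : `w3_e`, `w2_e` for windows with the slot `1` dropped (`1 ∈ S`, own motion `0`:
  504's `drop 1`, `ownL0`).
* `ownCoc_of` : `OwnCoc` for `W.cfg E`, `ownL W` (input of `w3_d`).
-/

set_option autoImplicit false
set_option linter.unusedVariables false
set_option linter.unusedSectionVars false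

open Filter Topology Finset

namespace Crest.Agent.R116.KW420

open Crest.Agent.R138.Ex926 (Base U)
open Crest.Agent.R136.Gf356

section drop

open Crest.Agent.R116.EvL504 (evoS LvS LnS hgt comp SL)
open Crest.Agent.R116.Kr710 (LLaw)

variable {B : Base} {G : ℕ → RCfg (Fin 12)} {Leg : Set (Fin 12 → ℝ)} {ν : (Fin 12 → ℝ) → ℝ}
  {σ R D x0 : ℝ} {S : Finset (Fin 12)} {own : ℕ → ℕ → ℕ → ℕ → Fin 12 → ℝ}

/-- slots which stay fine, slot `1` dropped -/
def Low0 (S : Finset (Fin 12)) (pS pT : Fin 12 → ℝ) (x0 : ℝ) : Prop :=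
  ∀ j, j ∈ S ∨ pT j ≤ 0 ∨ (j = 2 ∧ pT j ≤ pS 2 ∧ pT j ≤ x0)

theorem Ev.low0 {pS pT : Fin 12 → ℝ} {ρ β : ℝ} {a c w : Fin 12 → ℝ} (hρ : 0 < ρ) (hρ1 : ρ ≤ 1)
    (h : Ev S pS ρ x0 β a c w) (m1 : (1 : Fin 12) ∈ S) (ha : a 1 = 0)
    (hL : Low0 S pS pT x0) (j : Fin 12) : |w j| ≤ ρ ^ pT j * β ^ 3 := by
  have hβ := h.β8
  have hβ0 : 0 < β := by linarith
  have p := fun t : ℝ => Real.rpow_pos_of_pos hρ t
  have mono : ∀ {s t : ℝ}, s ≤ t → ρ ^ t ≤ ρ ^ s := fun hst =>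
    Real.rpow_le_rpow_of_exponent_ge hρ hρ1 hst
  by_cases hjS : j ∈ S
  · rw [h.wS j hjS, abs_zero]
    have := p (pT j)
    positivity
  rcases hL j with h1 | h1 | ⟨rfl, h1, h2⟩
  · exact absurd h1 hjS
  · refine (h.w1 j).trans ?_
    have e1 : (1 : ℝ) ≤ ρ ^ pT j := by
      have := mono h1
      rwa [Real.rpow_zero] at this
    have q1 : β ≤ β ^ 3 := by nlinarith [sq_nonneg β, mul_pos hβ0 hβ0]
    nlinarith
  · have e1 := h.e 2 hjS
    have hc : c 1 = 0 := h.cS 1 m1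
    have e0 : evoS S a c 2 = c 2 := by
      simp [evoS, comp, LvS, LnS, hgt, m1, hjS, ha]
    rw [e0] at e1
    have e2 := h.cb 2
    have e3 : |w 2| ≤ |w 2 - c 2| + |c 2| := by
      have := abs_add_le (w 2 - c 2) (c 2)
      rwa [sub_add_cancel] at this
    have e4 := mul_le_mul_of_nonneg_right (mono h1) hβ0.le
    have e5 := mul_le_mul_of_nonneg_right (mono h2) hβ0.le
    have e6 : 2 * β ≤ β ^ 3 := by nlinarith [mul_pos hβ0 hβ0]
    have e7 := mul_le_mul_of_nonneg_left e6 (p (pT 2)).le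
    linarith



/-- `twist_fib` with slot `1` dropped -/
theorem twist_fib0 (H : RModel B G σ R Leg ν D) (L : LLaw B G S own x0) (hx0 : 0 < x0)
    (m1 : (1 : Fin 12) ∈ S) (z1 : ∀ n i k0 k, own n i k0 k 1 = 0)
    (i0 k0 : ℕ → ℕ) (h0 : ∀ᶠ n in (U : Filter ℕ), (i0 n, k0 n) ∈ (G n).I)
    (pS p' pT r : Fin 12 → ℝ) (hpS : pS ∈ Leg) (hp' : p' ∈ Leg) (hpT : pT ∈ Leg) (hr : r ∈ Leg)
    (hTr : ∀ j, pT j ≤ r j) (hlow : Low0 S pS pT x0) (τ : ℕ → ℕ → ℕ → ℝ) {j : Fin 12}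
    {γ x1 : ℝ} (hγ : 0 < γ) (hx1 : 0 < x1) (hO : OwnThin B G own j γ x1)
    (hcmp : ∀ ε : ℝ, 0 < ε → ∀ᶠ n in (U : Filter ℕ), ∀ i k, (i, k0 n) ∈ (G n).I →
      (i, k) ∈ (G n).I → |own n i (k0 n) k j| ≤ |τ n i k| + B.d n ^ (x0 - ε))
    {m : ℕ} {K0 : ℝ} (hsep : Sep B G pS p' r i0 k0 τ K0 m) :
    ν pS - ν p' ≤ ν pT - ν r := by
  classical
  obtain ⟨C1, hC1, hal⟩ := hal_of_own H hγ hx1 hx0 hO k0 τ hcmp
  have hD := H.D1
  have hU := H.toRUnif
  obtain ⟨M, hM⟩ : ∃ M : ℝ, M = 3 * (D * D + 1) + C1 := ⟨_, rfl⟩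
  have hM0 : C1 ≤ M := by nlinarith
  refine two_heights_R hU k0 (fun ε n => (G n).box pS ε (i0 n) (k0 n)) p' pT r hp' hpT hr hTr
    (fun n => (G n).Z) (Eventually.of_forall fun n => ?_) (a := ν pS) (C1 := M) (by linarith) ?_ ?_
    (fun ε n i k => B.d n ^ (C1 * ε) ≤ |τ n i k|) ?_ ?_ ?_
  · obtain ⟨⟨i1, k1⟩, hI1⟩ := H.nonempty n
    exact ⟨k1, H.memZ hI1⟩
  · intro ε hε
    exact Eventually.of_forall fun n i hi => H.memSlice.1 (RCfg.box_subset_slice hi)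
  · intro ε hε
    filter_upwards [H.low pS hpS ε hε, h0] with n hn h0n
    exact (rpow_anti B n (by nlinarith)).trans (hn _ _ h0n)
  · intro ε hε
    filter_upwards [hal ε hε] with n hn i hi T hT1 hT2
    refine le_trans ?_ (hn i (H.memSlice.1 (RCfg.box_subset_slice hi)) T hT1 hT2)
    exact mul_le_mul_of_nonneg_right (rpow_anti B n (by nlinarith)) (Nat.cast_nonneg _)
  · intro ε hε
    filter_upwards [exists_Ev hU L h0 hpS (le_refl (D * D + 1)) hε]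
      with n hEv k hk i hi l hl h1 h2 j
    have := (hEv k i hi l hl h1 h2).low0 (B.pos n) (B.lt n).le m1 (z1 _ _ _ _) hlow j
    rw [H.base n]
    refine this.trans ?_
    rw [pow_eps]
    refine rpow_anti B n ?_
    push_cast
    nlinarith
  · intro C2 hC2
    obtain ⟨K, hK⟩ : ∃ K : ℝ, K = |K0| + C1 + C2 + 1 := ⟨_, rfl⟩
    have hK0 : K0 ≤ K := by linarith [le_abs_self K0]
    have hKp : 0 < K := by linarith [abs_nonneg K0]
    refine ⟨(m : ℝ) * K + 1, by positivity, fun ε hε => ?_⟩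
    filter_upwards [hsep K hK0 ε hε] with n hsn k hk i hi l hl h1 h2 g1 g2 hlr j
    have a1 : (B.d n ^ (-(K * ε)))⁻¹ ≤ |τ n i k| := by
      refine le_trans ?_ g1
      rw [← Real.rpow_neg (B.pos n).le, neg_neg]
      exact rpow_anti B n (by nlinarith [abs_nonneg K0])
    have a2 : ∀ s, |(G n).rel k i l s| ≤ B.d n ^ r s * B.d n ^ (-(K * ε)) := by
      intro s
      have := hlr s
      rw [H.base n] at this
      refine this.trans ?_
      rw [← rpow_add']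
      exact rpow_anti B n (by nlinarith [abs_nonneg K0])
    have := hsn k i hi l hl h1 h2 a1 a2 j
    rw [H.base n]
    refine this.trans ?_
    rw [pow_eps]
    exact rpow_anti B n (by nlinarith)



end drop

section owncoc

open Crest.Agent.R136.Net191 Crest.Agent.R136.Qg926
open Crest.Agent.R116.ChL222 Crest.Agent.R116.PL504
open Crest.Agent.R116.EvL504

variable {ι : ℕ → Type*} [∀ n, DecidableEq (ι n)] {W : Wnd 12 ι} {K tp : ℝ}



end owncoc

end Crest.Agent.R116.KW420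
end

-- ▼ part R116/KW6_420

/-!
# R116, K-TEXT II-c, section 1, facts (W2), (W3), part 6 (helper420)

`w3_e00`, `w2_e00` : `w3_e`, `w2_e` for windows in which the slots `1`, `2` are dropped (both in `S`, own
motions `0`), 369's form (base with `D`, `E` raised).
-/

set_option autoImplicit false
set_option linter.unusedVariables false
set_option linter.unusedSectionVars false

open Filter Topology Finset

namespace Crest.Agent.R116.KW420

open Crest.Agent.R138.Ex926 (Base U)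
open Crest.Agent.R136.Gf356

section drop2

open Crest.Agent.R116.EvL504 (evoS LvS LnS hgt comp SL)
open Crest.Agent.R116.Kr710 (LLaw)

variable {B : Base} {G : ℕ → RCfg (Fin 12)} {Leg : Set (Fin 12 → ℝ)} {ν : (Fin 12 → ℝ) → ℝ}
  {σ R D x0 : ℝ} {S : Finset (Fin 12)} {own : ℕ → ℕ → ℕ → ℕ → Fin 12 → ℝ}

theorem sep_w300 (H : RUnif B G Leg ν D) (L : LLaw B G S own x0) {u v : ℕ → ℝ}
    (T : Dir B G own u v x0) (m7 : (7 : Fin 12) ∈ S) (m8 : (8 : Fin 12) ∈ S)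
    (z1 : ∀ n i k0 k, own n i k0 k 1 = 0) (z2 : ∀ n i k0 k, own n i k0 k 2 = 0) {i0 k0 : ℕ → ℕ}
    (h0 : ∀ᶠ n in (U : Filter ℕ), (i0 n, k0 n) ∈ (G n).I) {pS p' r : Fin 12 → ℝ} (hpS : pS ∈ Leg)
    {y : ℝ} (hy : y ≤ x0) (hS10 : y ≤ pS 10) (hr10 : y ≤ r 10) (hp3 : p' 3 ≤ y)
    (hp4 : p' 4 ≤ y) (hp : ∀ s, s ≠ 3 → s ≠ 4 → p' s ≤ pS s) :
    Sep B G pS p' r i0 k0
      (fun n i k => -v n * own n i (k0 n) k 7 + u n * own n i (k0 n) k 8) (D * D + 1) 5 := by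
  intro K hK ε hε
  have hD := H.D1
  have hK1 : 1 ≤ K := by nlinarith
  filter_upwards [exists_Ev H L h0 hpS hK hε, T.tc ε hε] with n hEv htc k i hi l hl h1 h2 hτ hr s
  have E := hEv k i hi l hl h1 h2
  have I1 := H.memSlice.1 (RCfg.mem_box.1 hi).1
  have I2 := H.memSlice.1 (RCfg.mem_box.1 hl).1
  set β := B.d n ^ (-(K * ε)) with hβd
  have hβ := E.β8
  have hβ0 : 0 < β := by linarith
  have hpow : ∀ t : ℝ, 0 < B.d n ^ t := fun t => rpos B n t
  have up : ∀ {t : ℝ}, y ≤ t → B.d n ^ t * β ≤ B.d n ^ y * β := fun ht =>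
    mul_le_mul_of_nonneg_right (rpow_anti B n ht) hβ0.le
  have e10 := E.e 10 (fun h => absurd (L.SSL h) (by decide))
  rw [evoS_10 _ _ L.SSL] at e10
  have l7 : LvS S (own n i (k0 n) k) 7 = own n i (k0 n) k 7 := if_pos m7
  have l8 : LvS S (own n i (k0 n) k) 8 = own n i (k0 n) k 8 := if_pos m8
  have l1 : LvS S (own n i (k0 n) k) 1 = 0 := by
    unfold LvS
    split_ifs
    · exact z1 _ _ _ _
    · rfl
  have l2 : LvS S (own n i (k0 n) k) 2 = 0 := by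
    unfold LvS
    split_ifs
    · exact z2 _ _ _ _
    · rfl
  rw [l7, l8, l1, l2, zero_mul, zero_mul, mul_zero, sub_zero, sub_zero] at e10
  have c1 : |u n * (G n).rel (k0 n) i l 3 + v n * (G n).rel (k0 n) i l 4| ≤ B.d n ^ y * β := by
    refine (htc _ _ _ I1 I2).trans ?_
    rw [hβd, ← rpow_add']
    exact rpow_anti B n (by nlinarith)
  obtain ⟨r3, r4⟩ := alg_w3 (hpow y) hβ (T.unit n) (E.a1 7) (E.a1 8) c1
    ((E.cb 10).trans (up hS10)) ((hr 10).trans (up hr10)) (e10.trans (up hy)) hτ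
  have b5 : β ≤ β ^ 5 := by
    calc β = β ^ 1 := (pow_one β).symm
      _ ≤ β ^ 5 := pow_le_pow_right₀ (by linarith) (by norm_num)
  by_cases hs3 : s = 3
  · subst hs3
    exact r3.trans (mul_le_mul_of_nonneg_right (rpow_anti B n hp3) (by positivity))
  by_cases hs4 : s = 4
  · subst hs4
    exact r4.trans (mul_le_mul_of_nonneg_right (rpow_anti B n hp4) (by positivity))
  · refine (E.cb s).trans (mul_le_mul (rpow_anti B n (hp s hs3 hs4)) b5 hβ0.le (hpow _).le)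


/-- **(W3), e-tie, `D`, `E` dropped: `m ≤ r`** -/
theorem w3_e00 (H : RModel B G σ R Leg ν D) (L : LLaw B G S own x0) (hx0 : 0 < x0)
    {u v : ℕ → ℝ} (T : Dir B G own u v x0) (m7 : (7 : Fin 12) ∈ S) (m8 : (8 : Fin 12) ∈ S)
    (m1 : (1 : Fin 12) ∈ S) (m2 : (2 : Fin 12) ∈ S) (z1 : ∀ n i k0 k, own n i k0 k 1 = 0)
    (z2 : ∀ n i k0 k, own n i k0 k 2 = 0)
    {j : Fin 12} (hj : j = 7 ∨ j = 8)
    {γ x1 : ℝ} (hγ : 0 < γ) (hx1 : 0 < x1) (hO : OwnThin B G own j γ x1)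
    (pS p' pT r : Fin 12 → ℝ) (hpS : pS ∈ Leg) (hp' : p' ∈ Leg) (hpT : pT ∈ Leg) (hr : r ∈ Leg)
    (hTr : ∀ j, pT j ≤ r j) (hlow : ∀ j, j ∈ S ∨ pT j ≤ 0) {y : ℝ} (hy : y ≤ x0)
    (hS10 : y ≤ pS 10) (hr10 : y ≤ r 10) (hp3 : p' 3 ≤ y) (hp4 : p' 4 ≤ y)
    (hp : ∀ s, s ≠ 3 → s ≠ 4 → p' s ≤ pS s) : ν pS - ν p' ≤ ν pT - ν r := by
  choose q hq using H.nonempty
  have h0 : ∀ᶠ n in (U : Filter ℕ), ((q n).1, (q n).2) ∈ (G n).I :=
    Eventually.of_forall fun n => hq n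
  exact twist_fib0 H L hx0 m1 z1 (fun n => (q n).1) (fun n => (q n).2) h0 pS p' pT r hpS hp' hpT
    hr hTr (fun j => (hlow j).imp_right Or.inl) _ hγ hx1 hO (T.cmp _ hj)
    (sep_w300 H.toRUnif L T m7 m8 z1 z2 h0 hpS hy hS10 hr10 hp3 hp4 hp)


end drop2

end Crest.Agent.R116.KW420
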