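import Crest.Agent.R116.TieW3_369
import Crest.Agent.R116.KW6_420

-- ▼ part R116/TwU1_369
section

/-!
# R116, ties (helper369): W3, W2, W3k in GENERAL UNITS

The window stands at any legal base; exactly the wall of the fact is tight, the others are slack.

* `twist_u` : 420's `twist_fib` without `LLaw`; `w_e`, `w_k` : the facts over the law of one slot;
* `law10`, `law11`, `law7` : the law of one slot in a window, general units;
* `w3_u`, `w2_u`, `w3k_u` : the facts in a window (`WL`, `Reg`, `RModel`, `OwnThin`, `Dir`).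
-/

set_option autoImplicit false
set_option linter.unusedVariables false
set_option linter.unusedSectionVars false

open Filter Topology Finset

namespace Crest.Agent.R116.Tw369

open Crest.Agent.R138.Ex926 (Base U)
open Crest.Agent.R136.Gf356 Crest.Agent.R136.Net191 Crest.Agent.R136.Qg926
open Crest.Agent.R116.ChL222 Crest.Agent.R116.PL504 Crest.Agent.R116.EvL504
open Crest.Agent.R116.KW420

section facts

variable {B : Base} {G : ℕ → RCfg (Fin 12)} {Leg : Set (Fin 12 → ℝ)} {ν : (Fin 12 → ℝ) → ℝ}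
  {σ R D x0 : ℝ} {S : Finset (Fin 12)} {own : ℕ → ℕ → ℕ → ℕ → Fin 12 → ℝ}

/-- `rel` is bounded -/
def RelB (B : Base) (G : ℕ → RCfg (Fin 12)) : Prop :=
  ∀ ε : ℝ, 0 < ε → ∀ᶠ n in (U : Filter ℕ), ∀ k i l, (i, k) ∈ (G n).I → (l, k) ∈ (G n).I →
    ∀ s, |(G n).rel k i l s| ≤ B.d n ^ (-ε)

/-- `own` is bounded -/
def OwnB (B : Base) (G : ℕ → RCfg (Fin 12)) (own : ℕ → ℕ → ℕ → ℕ → Fin 12 → ℝ) : Prop :=
  ∀ ε : ℝ, 0 < ε → ∀ᶠ n in (U : Filter ℕ), ∀ i k0 k, (i, k0) ∈ (G n).I →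
    (i, k) ∈ (G n).I → ∀ s, |own n i k0 k s| ≤ B.d n ^ (-ε)

/-- **`twist_fib` without the laws**: `pT ≤ 0` off the level slots -/
theorem twist_u (H : RModel B G σ R Leg ν D) (hx0 : 0 < x0) (bd : RelB B G)
    (relS : ∀ n k i l, ∀ s ∈ S, (G n).rel k i l s = 0)
    (i0 k0 : ℕ → ℕ) (h0 : ∀ᶠ n in (U : Filter ℕ), (i0 n, k0 n) ∈ (G n).I)
    (pS p' pT r : Fin 12 → ℝ) (hpS : pS ∈ Leg) (hp' : p' ∈ Leg) (hpT : pT ∈ Leg) (hr : r ∈ Leg)
    (hTr : ∀ j, pT j ≤ r j) (hlow : ∀ j, j ∈ S ∨ pT j ≤ 0) (τ : ℕ → ℕ → ℕ → ℝ) {j : Fin 12}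
    {γ x1 : ℝ} (hγ : 0 < γ) (hx1 : 0 < x1) (hO : OwnThin B G own j γ x1)
    (hcmp : ∀ ε : ℝ, 0 < ε → ∀ᶠ n in (U : Filter ℕ), ∀ i k, (i, k0 n) ∈ (G n).I →
      (i, k) ∈ (G n).I → |own n i (k0 n) k j| ≤ |τ n i k| + B.d n ^ (x0 - ε))
    {m : ℕ} {K0 : ℝ} (hsep : Sep B G pS p' r i0 k0 τ K0 m) :
    ν pS - ν p' ≤ ν pT - ν r := by
  classical
  obtain ⟨C1, hC1, hal⟩ := hal_of_own H hγ hx1 hx0 hO k0 τ hcmp
  have hD := H.D1
  have hU := H.toRUnif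
  refine two_heights_R hU k0 (fun ε n => (G n).box pS ε (i0 n) (k0 n)) p' pT r hp' hpT hr hTr
    (fun n => (G n).Z) (Eventually.of_forall fun n => ?_) (a := ν pS) (C1 := C1) (by linarith) ?_ ?_
    (fun ε n i k => B.d n ^ (C1 * ε) ≤ |τ n i k|) ?_ ?_ ?_
  · obtain ⟨⟨i1, k1⟩, hI1⟩ := H.nonempty n
    exact ⟨k1, H.memZ hI1⟩
  · intro ε hε
    exact Eventually.of_forall fun n i hi => H.memSlice.1 (RCfg.box_subset_slice hi)
  · intro ε hε
    filter_upwards [H.low pS hpS ε hε, h0] with n hn h0n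
    exact (rpow_anti B n (by nlinarith)).trans (hn _ _ h0n)
  · intro ε hε
    filter_upwards [hal ε hε] with n hn i hi T hT1 hT2
    exact hn i (H.memSlice.1 (RCfg.box_subset_slice hi)) T hT1 hT2
  · intro ε hε
    filter_upwards [bd ε hε] with n hn k hk i hi l hl h1 h2 j
    rw [H.base n]
    rcases hlow j with h3 | h3
    · rw [relS n k i l j h3, abs_zero]
      exact (rpos B n _).le
    · refine (hn k i l h1 h2 j).trans (rpow_anti B n ?_)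
      nlinarith
  · intro C2 hC2
    obtain ⟨K, hK⟩ : ∃ K : ℝ, K = |K0| + C1 + C2 + 1 := ⟨_, rfl⟩
    have hK0 : K0 ≤ K := by linarith [le_abs_self K0]
    have hKp : 0 < K := by linarith [abs_nonneg K0]
    refine ⟨(m : ℝ) * K + 1, by positivity, fun ε hε => ?_⟩
    filter_upwards [hsep K hK0 ε hε] with n hsn k hk i hi l hl h1 h2 g1 g2 hlr j
    have a1 : (B.d n ^ (-(K * ε)))⁻¹ ≤ |τ n i k| := by
      refine le_trans ?_ g1
      rw [← Real.rpow_neg (B.pos n).le, neg_neg]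
      exact rpow_anti B n (by nlinarith [abs_nonneg K0])
    have a2 : ∀ s, |(G n).rel k i l s| ≤ B.d n ^ r s * B.d n ^ (-(K * ε)) := by
      intro s
      have := hlr s
      rw [H.base n] at this
      refine this.trans ?_
      rw [← rpow_add']
      exact rpow_anti B n (by nlinarith [abs_nonneg K0])
    have := hsn k i hi l hl h1 h2 a1 a2 j
    rw [H.base n]
    refine this.trans ?_
    rw [pow_eps]
    exact rpow_anti B n (by nlinarith)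

/-- bounds in a box -/
theorem box_b (H : RUnif B G Leg ν D) {i0 k0 : ℕ → ℕ}
    (h0 : ∀ᶠ n in (U : Filter ℕ), (i0 n, k0 n) ∈ (G n).I) {pS : Fin 12 → ℝ} (lS : pS ∈ Leg)
    {K : ℝ} (hK : D * D + 1 ≤ K) {ε : ℝ} (hε : 0 < ε) : ∀ᶠ n in (U : Filter ℕ),
      8 ≤ B.d n ^ (-(K * ε)) ∧
      ∀ i ∈ (G n).box pS ε (i0 n) (k0 n), ∀ l ∈ (G n).box pS ε (i0 n) (k0 n),
      ∀ s, |(G n).rel (k0 n) i l s| ≤ B.d n ^ pS s * B.d n ^ (-(K * ε)) := by
  have hD := H.D1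
  filter_upwards [box_pair H i0 k0 h0 pS lS hε, ev_const_le B hε 8] with n g1 g8
  have hK1 : 1 ≤ K := by nlinarith
  have e1 : B.d n ^ (-ε) ≤ B.d n ^ (-(K * ε)) := rpow_anti B n (by nlinarith)
  refine ⟨g8.trans e1, fun i hi l hl s => ?_⟩
  have := g1 i hi l hl s
  rw [H.base n] at this
  refine this.trans ?_
  rw [← rpow_add']
  exact rpow_anti B n (by nlinarith)

/-- **e-tie fact over the law of one slot** : `(P, C, C') = (10, 3, 4)` or `(11, 5, 6)` -/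
theorem w_e (H : RModel B G σ R Leg ν D) (hx0 : 0 < x0) (bd : RelB B G) (ob : OwnB B G own)
    (relS : ∀ n k i l, ∀ s ∈ S, (G n).rel k i l s = 0) {u v : ℕ → ℝ}
    (unit : ∀ n, u n ^ 2 + v n ^ 2 = 1) {P C C' : Fin 12}
    (tc : ∀ ε : ℝ, 0 < ε → ∀ᶠ n in (U : Filter ℕ), ∀ k i l, (i, k) ∈ (G n).I → (l, k) ∈ (G n).I →
      |u n * (G n).rel k i l C + v n * (G n).rel k i l C'| ≤ B.d n ^ (x0 - ε))
    (tow : ∀ ε : ℝ, 0 < ε → ∀ᶠ n in (U : Filter ℕ), ∀ i k0 k, (i, k0) ∈ (G n).I →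
      (i, k) ∈ (G n).I → |u n * own n i k0 k 7 + v n * own n i k0 k 8| ≤ B.d n ^ (x0 - ε))
    (law : ∀ ε : ℝ, 0 < ε → ∀ᶠ n in (U : Filter ℕ), ∀ k0 k i l, (i, k0) ∈ (G n).I →
      (l, k0) ∈ (G n).I → (i, k) ∈ (G n).I → (l, k) ∈ (G n).I →
      |(G n).rel k i l P - ((G n).rel k0 i l P - own n i k0 k 7 * (G n).rel k0 i l C -
        own n i k0 k 8 * (G n).rel k0 i l C')| ≤ B.d n ^ (x0 - ε))
    {j : Fin 12} (hj : j = 7 ∨ j = 8) {γ x1 : ℝ} (hγ : 0 < γ) (hx1 : 0 < x1)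
    (hO : OwnThin B G own j γ x1)
    (pS p' pT r : Fin 12 → ℝ) (hpS : pS ∈ Leg) (hp' : p' ∈ Leg) (hpT : pT ∈ Leg) (hr : r ∈ Leg)
    (hTr : ∀ j, pT j ≤ r j) (hlow : ∀ j, j ∈ S ∨ pT j ≤ 0) {y : ℝ} (hy : y ≤ x0)
    (hSP : y ≤ pS P) (hrP : y ≤ r P) (hpC : p' C ≤ y) (hpC' : p' C' ≤ y)
    (hp : ∀ s, s ≠ C → s ≠ C' → p' s ≤ pS s) : ν pS - ν p' ≤ ν pT - ν r := by
  choose q hq using H.nonempty
  have h0 : ∀ᶠ n in (U : Filter ℕ), ((q n).1, (q n).2) ∈ (G n).I :=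
    Eventually.of_forall fun n => hq n
  have hD := H.D1
  refine twist_u H hx0 bd relS (fun n => (q n).1) (fun n => (q n).2) h0 pS p' pT r hpS hp' hpT
    hr hTr hlow (fun n i k => -v n * own n i ((q n).2) k 7 + u n * own n i ((q n).2) k 8) hγ hx1 hO
    ?_ (m := 5) (K0 := D * D + 1) ?_
  · -- comparison
    intro ε hε
    have e2 : 0 < ε / 2 := by linarith
    filter_upwards [tow (ε / 2) e2, ev_const_le B e2 2] with n hn h2 i k h1 h3
    set a := own n i ((q n).2) k 7 with ha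
    set b := own n i ((q n).2) k 8 with hb
    have w := hn i _ k h1 h3
    have un := unit n
    have u1 : |u n| ≤ 1 := by rw [abs_le]; constructor <;> nlinarith [sq_nonneg (v n), sq_nonneg (u n - 1), sq_nonneg (u n + 1)]
    have v1 : |v n| ≤ 1 := by rw [abs_le]; constructor <;> nlinarith [sq_nonneg (u n), sq_nonneg (v n - 1), sq_nonneg (v n + 1)]
    have up : B.d n ^ (x0 - ε / 2) ≤ B.d n ^ (x0 - ε) := rpow_anti B n (by linarith)
    have key : ∀ c : ℝ, (∃ p p' : ℝ, |p| ≤ 1 ∧ |p'| ≤ 1 ∧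
        c = p * (-v n * a + u n * b) + p' * (u n * a + v n * b)) →
        |c| ≤ |-v n * a + u n * b| + B.d n ^ (x0 - ε) := by
      rintro c ⟨p, p', hp, hp', rfl⟩
      refine (abs_add_le _ _).trans (add_le_add ?_ ?_)
      · rw [abs_mul]
        exact mul_le_of_le_one_left (abs_nonneg _) hp
      · rw [abs_mul]
        exact (mul_le_of_le_one_left (abs_nonneg _) hp').trans (w.trans up)
    rcases hj with rfl | rfl
    · refine key a ⟨-v n, u n, by rw [abs_neg]; exact v1, u1, ?_⟩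
      linear_combination (-a) * un
    · refine key b ⟨u n, v n, u1, v1, ?_⟩
      linear_combination (-b) * un
  · intro K hK ε hε
    have hK1 : 1 ≤ K := by nlinarith
    filter_upwards [box_b H.toRUnif h0 hpS hK hε, tc ε hε, ob ε hε, law ε hε] with
      n hB htc hob hlaw k i hi l hl h1 h2 hτ hr' s
    obtain ⟨hβ, cb⟩ := hB
    have I1 := H.toRUnif.memSlice.1 (RCfg.mem_box.1 hi).1
    have I2 := H.toRUnif.memSlice.1 (RCfg.mem_box.1 hl).1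
    set β := B.d n ^ (-(K * ε)) with hβd
    have hβ0 : 0 < β := by linarith
    have hpow : ∀ t : ℝ, 0 < B.d n ^ t := fun t => rpos B n t
    have up : ∀ {t : ℝ}, y ≤ t → B.d n ^ t * β ≤ B.d n ^ y * β := fun ht =>
      mul_le_mul_of_nonneg_right (rpow_anti B n ht) hβ0.le
    have up' : B.d n ^ (x0 - ε) ≤ B.d n ^ y * β := by
      rw [hβd, ← rpow_add']
      exact rpow_anti B n (by nlinarith)
    have ow : ∀ s, |own n i ((q n).2) k s| ≤ β := fun s =>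
      (hob _ _ _ I1 h1 s).trans (rpow_anti B n (by nlinarith))
    obtain ⟨r3, r4⟩ := alg_w3 (hpow y) hβ (unit n) (ow 7) (ow 8) ((htc _ _ _ I1 I2).trans up')
      ((cb i hi l hl P).trans (up hSP)) ((hr' P).trans (up hrP))
      ((hlaw _ _ _ _ I1 I2 h1 h2).trans up') hτ
    have b5 : β ≤ β ^ 5 := by
      calc β = β ^ 1 := (pow_one β).symm
        _ ≤ β ^ 5 := pow_le_pow_right₀ (by linarith) (by norm_num)
    by_cases hs3 : s = C
    · rw [hs3]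
      exact r3.trans (mul_le_mul_of_nonneg_right (rpow_anti B n hpC) (by positivity))
    by_cases hs4 : s = C'
    · rw [hs4]
      exact r4.trans (mul_le_mul_of_nonneg_right (rpow_anti B n hpC') (by positivity))
    · refine (cb i hi l hl s).trans (mul_le_mul (rpow_anti B n (hp s hs3 hs4)) b5 hβ0.le
        (hpow _).le)

/-- **kappa-tie fact over the law of the slots `7`, `8`** -/
theorem w_k (H : RModel B G σ R Leg ν D) (hx0 : 0 < x0) (bd : RelB B G) (ob : OwnB B G own)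
    (relS : ∀ n k i l, ∀ s ∈ S, (G n).rel k i l s = 0)
    (law : ∀ ε : ℝ, 0 < ε → ∀ᶠ n in (U : Filter ℕ), ∀ k0 k i l, (i, k0) ∈ (G n).I →
      (l, k0) ∈ (G n).I → (i, k) ∈ (G n).I → (l, k) ∈ (G n).I →
      |(G n).rel k i l 7 - ((G n).rel k0 i l 7 + own n i k0 k 2 * (G n).rel k0 i l 3)| ≤
        B.d n ^ (x0 - ε) ∧
      |(G n).rel k i l 8 - ((G n).rel k0 i l 8 + own n i k0 k 2 * (G n).rel k0 i l 4)| ≤
        B.d n ^ (x0 - ε))
    {γ x1 : ℝ} (hγ : 0 < γ) (hx1 : 0 < x1) (hO : OwnThin B G own 2 γ x1)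
    (pS p' pT r : Fin 12 → ℝ) (hpS : pS ∈ Leg) (hp' : p' ∈ Leg) (hpT : pT ∈ Leg) (hr : r ∈ Leg)
    (hTr : ∀ j, pT j ≤ r j) (hlow : ∀ j, j ∈ S ∨ pT j ≤ 0) {y : ℝ} (hy : y ≤ x0)
    (hS7 : y ≤ pS 7) (hS8 : y ≤ pS 8) (hr7 : y ≤ r 7) (hr8 : y ≤ r 8)
    (hp3 : p' 3 ≤ y) (hp4 : p' 4 ≤ y)
    (hp : ∀ s, s ≠ 3 → s ≠ 4 → p' s ≤ pS s) : ν pS - ν p' ≤ ν pT - ν r := by
  choose q hq using H.nonempty
  have h0 : ∀ᶠ n in (U : Filter ℕ), ((q n).1, (q n).2) ∈ (G n).I :=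
    Eventually.of_forall fun n => hq n
  have hD := H.D1
  refine twist_u H hx0 bd relS (fun n => (q n).1) (fun n => (q n).2) h0 pS p' pT r hpS hp' hpT
    hr hTr hlow (fun n i k => own n i ((q n).2) k 2) hγ hx1 hO
    ?_ (m := 4) (K0 := D * D + 1) ?_
  · intro ε hε
    refine Eventually.of_forall fun n i k h1 h2 => ?_
    have := rpos B n (x0 - ε)
    linarith
  · intro K hK ε hε
    have hK1 : 1 ≤ K := by nlinarith
    filter_upwards [box_b H.toRUnif h0 hpS hK hε, ob ε hε, law ε hε] with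
      n hB hob hlaw k i hi l hl h1 h2 hτ hr' s
    obtain ⟨hβ, cb⟩ := hB
    have I1 := H.toRUnif.memSlice.1 (RCfg.mem_box.1 hi).1
    have I2 := H.toRUnif.memSlice.1 (RCfg.mem_box.1 hl).1
    set β := B.d n ^ (-(K * ε)) with hβd
    have hβ0 : 0 < β := by linarith
    have hpow : ∀ t : ℝ, 0 < B.d n ^ t := fun t => rpos B n t
    have up : ∀ {t : ℝ}, y ≤ t → B.d n ^ t * β ≤ B.d n ^ y * β := fun ht =>
      mul_le_mul_of_nonneg_right (rpow_anti B n ht) hβ0.le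
    have up' : B.d n ^ (x0 - ε) ≤ B.d n ^ y * β := by
      rw [hβd, ← rpow_add']
      exact rpow_anti B n (by nlinarith)
    have z0 : |(0 : ℝ)| ≤ β := by rw [abs_zero]; exact hβ0.le
    have z1 : |(0 : ℝ)| ≤ B.d n ^ y * β := by
      rw [abs_zero]; exact (mul_pos (hpow y) hβ0).le
    have L := hlaw _ _ _ _ I1 I2 h1 h2
    have r3 : |(G n).rel ((q n).2) i l 3| ≤ B.d n ^ y * β ^ 4 :=
      alg_w3k (a1 := 0) (c' := 0) (a2 := own n i ((q n).2) k 2) (hpow y) hβ z0 z1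
        ((cb i hi l hl 7).trans (up hS7)) ((hr' 7).trans (up hr7)) (by
        rw [zero_mul, mul_zero, add_zero]; exact L.1.trans up') hτ
    have r4 : |(G n).rel ((q n).2) i l 4| ≤ B.d n ^ y * β ^ 4 :=
      alg_w3k (a1 := 0) (c' := 0) (a2 := own n i ((q n).2) k 2) (hpow y) hβ z0 z1
        ((cb i hi l hl 8).trans (up hS8)) ((hr' 8).trans (up hr8)) (by
        rw [zero_mul, mul_zero, add_zero]; exact L.2.trans up') hτ
    have b5 : β ≤ β ^ 4 := by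
      calc β = β ^ 1 := (pow_one β).symm
        _ ≤ β ^ 4 := pow_le_pow_right₀ (by linarith) (by norm_num)
    by_cases hs3 : s = 3
    · rw [hs3]
      exact r3.trans (mul_le_mul_of_nonneg_right (rpow_anti B n hp3) (by positivity))
    by_cases hs4 : s = 4
    · rw [hs4]
      exact r4.trans (mul_le_mul_of_nonneg_right (rpow_anti B n hp4) (by positivity))
    · refine (cb i hi l hl s).trans (mul_le_mul (rpow_anti B n (hp s hs3 hs4)) b5 hβ0.le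
        (hpow _).le)

end facts

/-! ### the laws of one slot, general units -/

section laws

variable {ι : ℕ → Type*} [∀ n, DecidableEq (ι n)] {W : Wnd 12 ι} {K tp : ℝ}
  {E : ∀ n, Finset (ι n)}

theorem pr3 {a b c A Bc Cc T : ℝ} (ha : |a| ≤ A) (hb : |b| ≤ Bc) (h : A * Bc ≤ T) :
    |a * b| ≤ T := (bd2D ha hb).trans h

/-- slot `10` -/
theorem law10 (h : WL W K tp) {n : ℕ} (r : Reg W E n) {q : ℝ} (q0 : 0 ≤ q)
    (T1 : side W n 3 * side W n 7 = side W n 10) (T2 : side W n 4 * side W n 8 = side W n 10)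
    (s7 : side W n 2 * side W n 3 ≤ q * side W n 7) (s8 : side W n 2 * side W n 4 ≤ q * side W n 8)
    (s7' : side W n 1 * side W n 5 ≤ q * side W n 7)
    (s8' : side W n 1 * side W n 6 ≤ q * side W n 8)
    (s9 : side W n 1 * side W n 9 ≤ q * side W n 10)
    {k k' i l : ℕ} (hi : (i, k) ∈ (W.cfg E n).I)
    (hl : (l, k) ∈ (W.cfg E n).I) (hi' : (i, k') ∈ (W.cfg E n).I) (hl' : (l, k') ∈ (W.cfg E n).I) :
    |(W.cfg E n).rel k' i l 10 - ((W.cfg E n).rel k i l 10 -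
      EvL504.own W n i k' k 7 * (W.cfg E n).rel k i l 3 -
      EvL504.own W n i k' k 8 * (W.cfg E n).rel k i l 4)| ≤ 7 * q + 96 * W.B'.d n ^ tp := by
  have key := r.evoSL h hi hl hi' hl' (s := 10) (by decide)
  have hs := h.side_pos' n
  set o := EvL504.own W n i k' k with ho
  set c := (W.cfg E n).rel k i l with hc
  set D := side W n with hDd
  have o1 : ∀ s, |LvS SL o s| ≤ 1 := fun s => by
    unfold LvS
    split_ifs
    · exact r.own_le h hi hi' s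
    · rw [abs_zero]; exact zero_le_one
  have c1 : ∀ s, |LnS SL c s| ≤ 1 := fun s => by
    unfold LnS
    split_ifs
    · rw [abs_zero]; exact zero_le_one
    · exact r.rel_le h hi hl s
  set a : Fin 12 → ℝ := fun j => D j * LvS SL o j with ha
  set b : Fin 12 → ℝ := fun j => D j * LnS SL c j with hb
  have ab : ∀ (s : Fin 12) (u : ℝ), |u| ≤ 1 → |D s * u| ≤ D s := by
    intro s u hu
    rw [abs_mul, abs_of_pos (hs s)]
    exact mul_le_of_le_one_right (hs s).le hu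
  have a1 : ∀ s, |a s| ≤ D s := fun s => ab s _ (o1 s)
  have b1 : ∀ s, |b s| ≤ D s := fun s => ab s _ (c1 s)
  have l3 : LnS SL c 3 = c 3 := if_neg (by decide)
  have l4 : LnS SL c 4 = c 4 := if_neg (by decide)
  have l10 : LnS SL c 10 = c 10 := if_neg (by decide)
  have o7 : LvS SL o 7 = o 7 := if_pos (by decide)
  have o8 : LvS SL o 8 = o 8 := if_pos (by decide)
  have o10 : LvS SL o 10 = 0 := if_neg (by decide)
  have p10 : 0 ≤ q * D 10 := mul_nonneg q0 (hs 10).le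
  -- `a2 b3 ≤ q D7`, ...
  have u3 : |a 2 * b 3| ≤ q * D 7 := pr3 (c := 0) (Cc := 0) (a1 2) (b1 3) s7
  have u4 : |a 2 * b 4| ≤ q * D 8 := pr3 (c := 0) (Cc := 0) (a1 2) (b1 4) s8
  have v5 : |a 1 * b 5| ≤ q * D 7 := pr3 (c := 0) (Cc := 0) (a1 1) (b1 5) s7'
  have v6 : |a 1 * b 6| ≤ q * D 8 := pr3 (c := 0) (Cc := 0) (a1 1) (b1 6) s8'
  have v9 : |a 1 * b 9| ≤ q * D 10 := pr3 (c := 0) (Cc := 0) (a1 1) (b1 9) s9
  have w3 : q * D 7 * D 3 = q * D 10 := by rw [mul_assoc, mul_comm (D 7), T1]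
  have w4 : q * D 8 * D 4 = q * D 10 := by rw [mul_assoc, mul_comm (D 8), T2]
  have t1 : |a 2 * b 3 * b 3| ≤ q * D 10 := pr3 (c := 0) (Cc := 0) u3 (b1 3) w3.le
  have t2 : |a 2 * b 4 * b 4| ≤ q * D 10 := pr3 (c := 0) (Cc := 0) u4 (b1 4) w4.le
  have t3 : |a 1 * b 5 * b 3| ≤ q * D 10 := pr3 (c := 0) (Cc := 0) v5 (b1 3) w3.le
  have t4 : |a 1 * b 6 * b 4| ≤ q * D 10 := pr3 (c := 0) (Cc := 0) v6 (b1 4) w4.le
  have e1 : b 10 - a 7 * b 3 - a 8 * b 4 = D 10 * (c 10 - o 7 * c 3 - o 8 * c 4) := by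
    show D 10 * LnS SL c 10 - (D 7 * LvS SL o 7) * (D 3 * LnS SL c 3) -
      (D 8 * LvS SL o 8) * (D 4 * LnS SL c 4) = _
    rw [l10, o7, l3, o8, l4]
    linear_combination (-(o 7 * c 3)) * T1 - (o 8 * c 4) * T2
  have A : |comp a b 10 - D 10 * (c 10 - o 7 * c 3 - o 8 * c 4)| ≤ 7 * q * D 10 := by
    rw [← e1]
    have a10 : a 10 = 0 := by show D 10 * LvS SL o 10 = 0; rw [o10, mul_zero]
    have e : comp a b 10 - (b 10 - a 7 * b 3 - a 8 * b 4) =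
        -(a 2 * b 3 * b 3) / 2 - (a 2 * b 4 * b 4) / 2 - 2 * (a 1 * b 5 * b 3) -
        2 * (a 1 * b 6 * b 4) + 2 * (a 1 * b 9) := by
      have : comp a b 10 = a 10 + b 10 - a 7 * b 3 - a 8 * b 4 -
        a 2 * ((b 3 ^ 2 + b 4 ^ 2) / 2) - 2 * (a 1 * (b 5 * b 3 + b 6 * b 4 - b 9)) := rfl
      rw [this, a10]; ring
    rw [e]
    have g1 := abs_le.1 t1
    have g2 := abs_le.1 t2
    have g3 := abs_le.1 t3
    have g4 := abs_le.1 t4
    have g5 := abs_le.1 v9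
    have e7 : 7 * q * D 10 = 7 * (q * D 10) := by ring
    rw [abs_le, e7]
    constructor <;> linarith [g1.1, g1.2, g2.1, g2.2, g3.1, g3.2, g4.1, g4.2, g5.1, g5.2]
  have Bd : |compW W n (LvS SL o) (LnS SL c) 10 - (c 10 - o 7 * c 3 - o 8 * c 4)| ≤ 7 * q := by
    have e2 : compW W n (LvS SL o) (LnS SL c) 10 - (c 10 - o 7 * c 3 - o 8 * c 4) =
        (comp a b 10 - D 10 * (c 10 - o 7 * c 3 - o 8 * c 4)) / D 10 := by
      unfold compW
      rw [sub_div, mul_div_cancel_left₀ _ (hs 10).ne']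
    rw [e2, abs_div, abs_of_pos (hs 10), div_le_iff₀ (hs 10)]
    exact A
  have e3 := abs_sub_le ((W.cfg E n).rel k' i l 10) (compW W n (LvS SL o) (LnS SL c) 10)
    (c 10 - o 7 * c 3 - o 8 * c 4)
  linarith

/-- slot `11` -/
theorem law11 (h : WL W K tp) {n : ℕ} (r : Reg W E n) {q : ℝ} (q0 : 0 ≤ q)
    (T1 : side W n 5 * side W n 7 = side W n 11) (T2 : side W n 6 * side W n 8 = side W n 11)
    (s5 : side W n 0 * side W n 3 ≤ q * side W n 5) (s6 : side W n 0 * side W n 4 ≤ q * side W n 6)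
    (s7' : side W n 1 * side W n 5 ≤ q * side W n 7)
    (s8' : side W n 1 * side W n 6 ≤ q * side W n 8)
    (s11 : side W n 0 * side W n 10 ≤ q * side W n 11)
    (s11' : side W n 2 * side W n 9 ≤ q * side W n 11)
    {k k' i l : ℕ} (hi : (i, k) ∈ (W.cfg E n).I)
    (hl : (l, k) ∈ (W.cfg E n).I) (hi' : (i, k') ∈ (W.cfg E n).I) (hl' : (l, k') ∈ (W.cfg E n).I) :
    |(W.cfg E n).rel k' i l 11 - ((W.cfg E n).rel k i l 11 -
      EvL504.own W n i k' k 7 * (W.cfg E n).rel k i l 5 -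
      EvL504.own W n i k' k 8 * (W.cfg E n).rel k i l 6)| ≤ 14 * q + 96 * W.B'.d n ^ tp := by
  have key := r.evoSL h hi hl hi' hl' (s := 11) (by decide)
  have hs := h.side_pos' n
  have hSd := h.sides r.good
  set o := EvL504.own W n i k' k with ho
  set c := (W.cfg E n).rel k i l with hc
  set D := side W n with hDd
  have o1 : ∀ s, |LvS SL o s| ≤ 1 := fun s => by
    unfold LvS
    split_ifs
    · exact r.own_le h hi hi' s
    · rw [abs_zero]; exact zero_le_one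
  have c1 : ∀ s, |LnS SL c s| ≤ 1 := fun s => by
    unfold LnS
    split_ifs
    · rw [abs_zero]; exact zero_le_one
    · exact r.rel_le h hi hl s
  set a : Fin 12 → ℝ := fun j => D j * LvS SL o j with ha
  set b : Fin 12 → ℝ := fun j => D j * LnS SL c j with hb
  have ab : ∀ (s : Fin 12) (u : ℝ), |u| ≤ 1 → |D s * u| ≤ D s := by
    intro s u hu
    rw [abs_mul, abs_of_pos (hs s)]
    exact mul_le_of_le_one_right (hs s).le hu
  have a1 : ∀ s, |a s| ≤ D s := fun s => ab s _ (o1 s)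
  have b1 : ∀ s, |b s| ≤ D s := fun s => ab s _ (c1 s)
  have l5 : LnS SL c 5 = c 5 := if_neg (by decide)
  have l6 : LnS SL c 6 = c 6 := if_neg (by decide)
  have l11 : LnS SL c 11 = c 11 := if_neg (by decide)
  have o7 : LvS SL o 7 = o 7 := if_pos (by decide)
  have o8 : LvS SL o 8 = o 8 := if_pos (by decide)
  have o11 : LvS SL o 11 = 0 := if_neg (by decide)
  have n11 : 0 ≤ q * D 11 := mul_nonneg q0 (hs 11).le
  have w7 : q * D 5 * D 7 = q * D 11 := by rw [mul_assoc, T1]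
  have w8 : q * D 6 * D 8 = q * D 11 := by rw [mul_assoc, T2]
  have w7' : q * D 7 * D 5 = q * D 11 := by rw [mul_assoc, mul_comm (D 7), T1]
  have w8' : q * D 8 * D 6 = q * D 11 := by rw [mul_assoc, mul_comm (D 8), T2]
  have u10 : |a 0 * b 10| ≤ q * D 11 := pr3 (c := 0) (Cc := 0) (a1 0) (b1 10) s11
  have u3 : |a 0 * b 3| ≤ q * D 5 := pr3 (c := 0) (Cc := 0) (a1 0) (b1 3) s5
  have u4 : |a 0 * b 4| ≤ q * D 6 := pr3 (c := 0) (Cc := 0) (a1 0) (b1 4) s6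
  have t3 : |a 0 * b 3 * a 7| ≤ q * D 11 := pr3 (c := 0) (Cc := 0) u3 (a1 7) w7.le
  have t4 : |a 0 * b 4 * a 8| ≤ q * D 11 := pr3 (c := 0) (Cc := 0) u4 (a1 8) w8.le
  have t9 : |a 2 * b 9| ≤ q * D 11 := pr3 (c := 0) (Cc := 0) (a1 2) (b1 9) s11'
  have v3 : |a 2 * b 3| ≤ D 7 := pr3 (c := 0) (Cc := 0) (a1 2) (b1 3) hSd.w7
  have v4 : |a 2 * b 4| ≤ D 8 := pr3 (c := 0) (Cc := 0) (a1 2) (b1 4) hSd.w8
  have t5 : |a 0 * b 3 * (a 2 * b 3)| ≤ q * D 11 := pr3 (c := 0) (Cc := 0) u3 v3 w7.le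
  have t6 : |a 0 * b 4 * (a 2 * b 4)| ≤ q * D 11 := pr3 (c := 0) (Cc := 0) u4 v4 w8.le
  have x5 : |a 1 * b 5| ≤ q * D 7 := pr3 (c := 0) (Cc := 0) (a1 1) (b1 5) s7'
  have x6 : |a 1 * b 6| ≤ q * D 8 := pr3 (c := 0) (Cc := 0) (a1 1) (b1 6) s8'
  have y5 : |a 1 * b 5 * b 5| ≤ q * D 11 := pr3 (c := 0) (Cc := 0) x5 (b1 5) w7'.le
  have y6 : |a 1 * b 6 * b 6| ≤ q * D 11 := pr3 (c := 0) (Cc := 0) x6 (b1 6) w8'.le
  have z3 : |a 0 * b 3| ≤ D 5 := pr3 (c := 0) (Cc := 0) (a1 0) (b1 3) hSd.w5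
  have z4 : |a 0 * b 4| ≤ D 6 := pr3 (c := 0) (Cc := 0) (a1 0) (b1 4) hSd.w6
  have y3 : |a 1 * b 5 * (a 0 * b 3)| ≤ q * D 11 := pr3 (c := 0) (Cc := 0) x5 z3 w7'.le
  have y4 : |a 1 * b 6 * (a 0 * b 4)| ≤ q * D 11 := pr3 (c := 0) (Cc := 0) x6 z4 w8'.le
  have x9 : |a 1 * b 9| ≤ D 10 := pr3 (c := 0) (Cc := 0) (a1 1) (b1 9) hSd.w10''
  have y9 : |a 0 * (a 1 * b 9)| ≤ q * D 11 := pr3 (c := 0) (Cc := 0) (a1 0) x9 s11
  have e1 : b 11 - a 7 * b 5 - a 8 * b 6 = D 11 * (c 11 - o 7 * c 5 - o 8 * c 6) := by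
    show D 11 * LnS SL c 11 - (D 7 * LvS SL o 7) * (D 5 * LnS SL c 5) -
      (D 8 * LvS SL o 8) * (D 6 * LnS SL c 6) = _
    rw [l11, o7, l5, o8, l6]
    linear_combination (-(o 7 * c 5)) * T1 - (o 8 * c 6) * T2
  have A : |comp a b 11 - D 11 * (c 11 - o 7 * c 5 - o 8 * c 6)| ≤ 14 * q * D 11 := by
    rw [← e1]
    have a11 : a 11 = 0 := by show D 11 * LvS SL o 11 = 0; rw [o11, mul_zero]
    have e : comp a b 11 - (b 11 - a 7 * b 5 - a 8 * b 6) =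
        -(a 0 * b 10) + a 0 * b 3 * a 7 + a 0 * b 4 * a 8 - a 2 * b 9 +
        (a 0 * b 3 * (a 2 * b 3)) / 2 + (a 0 * b 4 * (a 2 * b 4)) / 2 - a 1 * b 5 * b 5 -
        a 1 * b 6 * b 6 + 2 * (a 1 * b 5 * (a 0 * b 3)) + 2 * (a 1 * b 6 * (a 0 * b 4)) -
        2 * (a 0 * (a 1 * b 9)) := by
      have : comp a b 11 = a 11 + b 11 - a 0 * b 10 - a 7 * (b 5 - a 0 * b 3) -
        a 8 * (b 6 - a 0 * b 4) - a 2 * (b 9 - a 0 * ((b 3 ^ 2 + b 4 ^ 2) / 2)) -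
        a 1 * (b 5 ^ 2 + b 6 ^ 2 - 2 * (a 0 * (b 5 * b 3 + b 6 * b 4 - b 9))) := rfl
      rw [this, a11]; ring
    rw [e]
    have g1 := abs_le.1 u10
    have g2 := abs_le.1 t3
    have g3 := abs_le.1 t4
    have g4 := abs_le.1 t9
    have g5 := abs_le.1 t5
    have g6 := abs_le.1 t6
    have g7 := abs_le.1 y5
    have g8 := abs_le.1 y6
    have g9 := abs_le.1 y3
    have g10 := abs_le.1 y4
    have g11 := abs_le.1 y9
    have e7 : 14 * q * D 11 = 14 * (q * D 11) := by ring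
    rw [abs_le, e7]
    constructor <;> linarith [g1.1, g1.2, g2.1, g2.2, g3.1, g3.2, g4.1, g4.2, g5.1, g5.2, g6.1,
      g6.2, g7.1, g7.2, g8.1, g8.2, g9.1, g9.2, g10.1, g10.2, g11.1, g11.2]
  have Bd : |compW W n (LvS SL o) (LnS SL c) 11 - (c 11 - o 7 * c 5 - o 8 * c 6)| ≤ 14 * q := by
    have e2 : compW W n (LvS SL o) (LnS SL c) 11 - (c 11 - o 7 * c 5 - o 8 * c 6) =
        (comp a b 11 - D 11 * (c 11 - o 7 * c 5 - o 8 * c 6)) / D 11 := by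
      unfold compW
      rw [sub_div, mul_div_cancel_left₀ _ (hs 11).ne']
    rw [e2, abs_div, abs_of_pos (hs 11), div_le_iff₀ (hs 11)]
    exact A
  have e3 := abs_sub_le ((W.cfg E n).rel k' i l 11) (compW W n (LvS SL o) (LnS SL c) 11)
    (c 11 - o 7 * c 5 - o 8 * c 6)
  linarith

/-- slots `7`, `8`, line slots, resolved -/
theorem law7 (h : WL W K tp) {n : ℕ} (r : Reg W E n) {q : ℝ} (q0 : 0 ≤ q)
    {s s3 s5 : Fin 12} (hs78 : (s = 7 ∧ s3 = 3 ∧ s5 = 5) ∨ (s = 8 ∧ s3 = 4 ∧ s5 = 6))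
    (hS : s ∉ W.S) (ht : tp ≤ W.top s)
    (T1 : side W n 2 * side W n s3 = side W n s)
    (s7' : side W n 1 * side W n s5 ≤ q * side W n s)
    {k k' i l : ℕ} (hi : (i, k) ∈ (W.cfg E n).I)
    (hl : (l, k) ∈ (W.cfg E n).I) (hi' : (i, k') ∈ (W.cfg E n).I) (hl' : (l, k') ∈ (W.cfg E n).I) :
    |(W.cfg E n).rel k' i l s - ((W.cfg E n).rel k i l s +
      EvL504.own W n i k' k 2 * (W.cfg E n).rel k i l s3)| ≤ 4 * q + 3 * W.B'.d n ^ tp := by
  have hsd := h.side_pos' n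
  have n3 : s3 ∉ SL := by rcases hs78 with ⟨-, rfl, -⟩ | ⟨-, rfl, -⟩ <;> decide
  have n5 : s5 ∉ SL := by rcases hs78 with ⟨-, -, rfl⟩ | ⟨-, -, rfl⟩ <;> decide
  -- the law
  have law : ∀ a c : Fin 12 → ℝ, |a 1| ≤ 1 → |c s5| ≤ 1 →
      |compW W n a c s - (a s + c s + a 2 * c s3)| ≤ 2 * q := by
    intro a c h1 h5
    have e : compW W n a c s - (a s + c s + a 2 * c s3) =
        2 * (side W n 1 * a 1 * (side W n s5 * c s5)) / side W n s := by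
      have e1 : compW W n a c s = (side W n s * a s + side W n s * c s + side W n 2 * a 2 *
          (side W n s3 * c s3) + 2 * (side W n 1 * a 1 * (side W n s5 * c s5))) / side W n s := by
        unfold compW
        congr 1
        rcases hs78 with ⟨rfl, rfl, rfl⟩ | ⟨rfl, rfl, rfl⟩ <;> rfl
      have hne := (hsd s).ne'
      rw [e1, eq_div_iff hne, sub_mul, div_mul_cancel₀ _ hne]
      linear_combination (a 2 * c s3) * T1
    rw [e, abs_div, abs_of_pos (hsd s), div_le_iff₀ (hsd s), abs_mul, abs_two]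
    have q1 : |side W n 1 * a 1| ≤ side W n 1 := by
      rw [abs_mul, abs_of_pos (hsd 1)]
      exact mul_le_of_le_one_right (hsd 1).le h1
    have q2 : |side W n s5 * c s5| ≤ side W n s5 := by
      rw [abs_mul, abs_of_pos (hsd s5)]
      exact mul_le_of_le_one_right (hsd s5).le h5
    have := (bd2D q1 q2).trans s7'
    nlinarith
  obtain ⟨a1, a2, a3⟩ := r.spec hi
  obtain ⟨b1, b2, b3⟩ := r.spec hl
  obtain ⟨c1, c2, c3⟩ := r.spec hi'
  obtain ⟨d1, d2, d3⟩ := r.spec hl'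
  rw [r.rel_of hS, r.rel_of hS, r.rel_of (h.notS n3)]
  have g := r.good
  have m1 := law (W.crd n (W.rep n i k') (W.rep n i k)) (W.crd n (W.rep n i k) (W.rep n l k))
    (h.crd_le g c1 a1 1) (h.crd_le g a1 b1 s5)
  rw [← h.crd_add] at m1
  have m2 := law (W.crd n (W.rep n i k') (W.rep n l k)) (W.crd n (W.rep n l k) (W.rep n l k'))
    (h.crd_le g c1 b1 1) (h.crd_le g b1 d1 s5)
  rw [← h.crd_add] at m2
  have o7 := h.crd_l g c1 a1 (c2.trans a2.symm) hS ht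
  have p7 := h.crd_l g b1 d1 (b2.trans d2.symm) hS ht
  have p3 := h.crd_l g b1 d1 (b2.trans d2.symm) (h.notS n3) (h.topL _ n3)
  have p2 : |W.crd n (W.rep n i k') (W.rep n l k) 2 *
      W.crd n (W.rep n l k) (W.rep n l k') s3| ≤ W.B'.d n ^ tp := by
    rw [abs_mul]
    have := mul_le_mul (h.crd_le g c1 b1 2) p3 (abs_nonneg _) (zero_le_one)
    linarith
  show |W.crd n (W.rep n i k') (W.rep n l k') s - (W.crd n (W.rep n i k) (W.rep n l k) s +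
    W.crd n (W.rep n i k') (W.rep n i k) 2 * W.crd n (W.rep n i k) (W.rep n l k) s3)| ≤ _
  rw [abs_le] at m1 m2 o7 p7 p2 ⊢
  constructor <;> linarith [m1.1, m1.2, m2.1, m2.2, o7.1, o7.2, p7.1, p7.2, p2.1, p2.2]

end laws

end Crest.Agent.R116.Tw369
end

-- ▼ part R116/TwU2_369

/-!
# R116, ties (helper369): W3, W2, W3k in a tie window (`TWin`), any legal base

Only the wall of the fact is tight, the other walls used are slack by `t` units: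
* `TWin.w3` (`S = {0, 7, 8}`, `Dr = {1, 2}`): `lam (P y) - lam (C y, P y) ≤ lam 0 - lam (P y)`;
* `TWin.w2` : the same for `(F, X)`;  `TWin.w3k` (`S = {0, 2}`, `Dr = {1}`) : for `(B, C)`.
-/

set_option autoImplicit false
set_option linter.unusedVariables false
set_option linter.unusedSectionVars false

open Filter Topology Finset

namespace Crest.Agent.R116.Tw369

open Crest.Agent.R138.Ex926 (Base U)
open Crest.Agent.R136.Gf356 Crest.Agent.R136.Net191 Crest.Agent.R136.Qg926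
open Crest.Agent.R116.ChL222 Crest.Agent.R116.PL504 Crest.Agent.R116.EvL504
open Crest.Agent.R116.KW420


variable {B : Base} {I0 I' : ℕ → Finset (ℕ × ℝ)}
  {co : ∀ n : ℕ, ℕ × ℝ → ℕ × ℝ → Fin 12 → ℝ} {X : ℕ → Fin 12 → ℝ} {hh : ℕ → ℝ}
  {lam : (Fin 12 → ℝ) → ℝ} {S Dr Ts : Finset (Fin 12)} {Sl : Fin 12 → Set ℝ} {σ t : ℝ}
  {k : ℕ → ℕ} {W : Wnd 12 (fun _ => ℕ × ℝ)} {N : ℕ → ℝ} {cw : ∀ n : ℕ, ℕ × ℝ → ℤ}
  {E' : ∀ n : ℕ, Finset (ℕ × ℝ)} {g' : ℕ → ℝ} {ex : ℕ → ∀ n : ℕ, ℕ × ℝ → ℕ}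

theorem TWin.relB (T : TWin B I0 I' co X hh lam S Dr Ts Sl σ t k W N cw E' g' ex) :
    RelB W.B' (W.cfg E') := by
  intro ε hε
  filter_upwards [T.reg] with n r
  intro k i l hi hl s
  exact (r.rel_le T.wl hi hl s).trans
    (Real.one_le_rpow_of_pos_of_le_one_of_nonpos (W.B'.pos n) (W.B'.lt n).le (by linarith))

theorem TWin.ownB (T : TWin B I0 I' co X hh lam S Dr Ts Sl σ t k W N cw E' g' ex) :
    OwnB W.B' (W.cfg E') (ownL W) := by
  intro ε hε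
  filter_upwards [T.reg] with n r
  intro i k0 k hi hi' s
  exact (r.own_le T.wl hi hi' s).trans
    (Real.one_le_rpow_of_pos_of_le_one_of_nonpos (W.B'.pos n) (W.B'.lt n).le (by linarith))

theorem TWin.ecut (T : TWin B I0 I' co X hh lam S Dr Ts Sl σ t k W N cw E' g' ex)
    (hw : WSD S Dr) {p : Fin 12 → ℝ} (hp : ∀ s ∈ Dr, p s = 0) :
    cut W.S p W.top = cT S Dr t p := by
  rw [T.eS, T.etop]
  exact cut_top (t := t) hw 1 hp

theorem TWin.nu_eq (T : TWin B I0 I' co X hh lam S Dr Ts Sl σ t k W N cw E' g' ex)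
    (hw : WSD S Dr) {p : Fin 12 → ℝ} (hp : ∀ s ∈ Dr, p s = 0) :
    W.nu p = lam (cT S Dr t p) - lam (cT S Dr t fun _ => t) := by
  show W.lam (cut W.S p W.top) - W.lam W.top = _
  rw [T.ecut hw hp, T.elam, T.etop]
  congr 2
  exact (top_cT (t := t) hw 1)

theorem TWin.leg_of (T : TWin B I0 I' co X hh lam S Dr Ts Sl σ t k W N cw E' g' ex)
    (hw : WSD S Dr) {p : Fin 12 → ℝ} (hp : ∀ s ∈ Dr, p s = 0)
    (h : cT S Dr t p ∈ Leg (monX Dr) t) : p ∈ W.legW := by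
  refine ⟨?_, ?_⟩
  · rw [T.ecut hw hp, T.eM, T.eR]
    exact h
  · intro s hs
    rw [T.eS] at hs
    rw [T.etop]
    have h3 := h.2 s
    unfold cT at h3
    by_cases hD : s ∈ Dr
    · simp only [if_pos hD]; exact (hp s hD).le
    · simp only [if_neg hD, if_neg hs] at h3 ⊢
      exact h3

/-- legality of the boxes with value `y` on `A`, level slots at `t` -/
theorem leg_mk {R : ℝ} {Dr : Finset (Fin 12)} {p : Fin 12 → ℝ} (h0 : ∀ k, 0 ≤ p k) (h1 : ∀ k, p k ≤ R)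
    (hw : ∀ k, ∀ e ∈ monL.mon k, (∀ s ∈ Dr, e s = 0) → ∃ s, e s ≠ 0 ∧ p k ≤ p s) :
    p ∈ Leg (monX Dr) R := by
  refine ⟨⟨h0, fun k e he => ?_⟩, h1⟩
  obtain ⟨h2, h3⟩ := mem_monX.1 he
  obtain ⟨s, h4, h5⟩ := hw k e h2 h3
  exact h5.trans (sum_ge h0 h4)

/-- the box `y` on `A`, `0` elsewhere -/
def bA (y : ℝ) (A : Finset (Fin 12)) : Fin 12 → ℝ := fun s => if s ∈ A then y else 0

theorem bA_of {y : ℝ} {A : Finset (Fin 12)} {s : Fin 12} (h : s ∈ A) : bA y A s = y := if_pos h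

theorem bA_off {y : ℝ} {A : Finset (Fin 12)} {s : Fin 12} (h : s ∉ A) : bA y A s = 0 := if_neg h

theorem cT_bA {t y : ℝ} {A : Finset (Fin 12)} (k : Fin 12) :
    cT S Dr t (bA y A) k = if k ∈ Dr then 0 else if k ∈ S then t else if k ∈ A then y else 0 := rfl

/-- legality, combinatorial form: `A` off `S ∪ Dr`, every wall of a slot of `A` has a slot of `S ∪ A`,
every wall of a slot of `S` has a slot of `S` -/
theorem leg_bA (hw : WSD S Dr) {y : ℝ} (hy : 0 ≤ y) (hyt : y ≤ t) {A : Finset (Fin 12)}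
    (hA : ∀ k, k ∈ A → k ∉ S → k ∉ Dr → ∀ e ∈ monL.mon k, (∀ s ∈ Dr, e s = 0) →
      ∃ s, e s ≠ 0 ∧ s ∉ Dr ∧ (s ∈ S ∨ s ∈ A)) : cT S Dr t (bA y A) ∈ Leg (monX Dr) t := by
  have ht : 0 ≤ t := hy.trans hyt
  have h0 : ∀ k, 0 ≤ cT S Dr t (bA y A) k := fun k => by
    rw [cT_bA]; split_ifs <;> first | exact le_rfl | assumption
  refine leg_mk h0 (fun k => ?_) fun k e he hD => ?_
  · rw [cT_bA]; split_ifs <;> first | exact le_rfl | assumption
  · by_cases h1 : k ∈ Dr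
    · obtain ⟨s, hs⟩ := monL.ne k e he
      refine ⟨s, hs, ?_⟩
      rw [cT_bA k, if_pos h1]
      exact h0 s
    by_cases h2 : k ∈ S
    · obtain ⟨s, s1, s2⟩ := hw.lev k h2 e he hD
      refine ⟨s, s2, ?_⟩
      rw [cT_bA, cT_bA, if_neg (hw.dis k h2), if_pos h2, if_neg (hw.dis s s1), if_pos s1]
    by_cases h3 : k ∈ A
    · obtain ⟨s, s1, s2, s3⟩ := hA k h3 h2 h1 e he hD
      refine ⟨s, s1, ?_⟩
      rw [cT_bA, cT_bA, if_neg h1, if_neg h2, if_pos h3, if_neg s2]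
      by_cases s4 : s ∈ S
      · rw [if_pos s4]; exact hyt
      · rw [if_neg s4, if_pos (s3.resolve_left s4)]
    · obtain ⟨s, hs⟩ := monL.ne k e he
      refine ⟨s, hs, ?_⟩
      rw [cT_bA k, if_neg h1, if_neg h2, if_neg h3]
      exact h0 s

/-- **e-tie facts**, common part: `(P, C, C')` -/
theorem TWin.w_e (T : TWin B I0 I' co X hh lam S Dr Ts Sl σ t k W N cw E' g' ex) (hw : WSD S Dr)
    (ht : 0 < t) (hTs : Ts ⊆ S) (hSl : ∀ j ∈ Ts, (0 : ℝ) ∈ Sl j)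
    {j : Fin 12} (hj : j = 7 ∨ j = 8) (hjT : j ∈ Ts) {u v : ℕ → ℝ} {P C C' : Fin 12}
    (unit : ∀ n, u n ^ 2 + v n ^ 2 = 1)
    (tc : ∀ ε : ℝ, 0 < ε → ∀ᶠ n in (U : Filter ℕ), ∀ k i l, (i, k) ∈ (W.cfg E' n).I →
      (l, k) ∈ (W.cfg E' n).I →
      |u n * (W.cfg E' n).rel k i l C + v n * (W.cfg E' n).rel k i l C'| ≤ W.B'.d n ^ (t - ε))
    (tow : ∀ ε : ℝ, 0 < ε → ∀ᶠ n in (U : Filter ℕ), ∀ i k0 k, (i, k0) ∈ (W.cfg E' n).I →
      (i, k) ∈ (W.cfg E' n).I →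
      |u n * ownL W n i k0 k 7 + v n * ownL W n i k0 k 8| ≤ W.B'.d n ^ (t - ε))
    (law : ∀ ε : ℝ, 0 < ε → ∀ᶠ n in (U : Filter ℕ), ∀ k0 k i l, (i, k0) ∈ (W.cfg E' n).I →
      (l, k0) ∈ (W.cfg E' n).I → (i, k) ∈ (W.cfg E' n).I → (l, k) ∈ (W.cfg E' n).I →
      |(W.cfg E' n).rel k i l P - ((W.cfg E' n).rel k0 i l P -
        ownL W n i k0 k 7 * (W.cfg E' n).rel k0 i l C -
        ownL W n i k0 k 8 * (W.cfg E' n).rel k0 i l C')| ≤ W.B'.d n ^ (t - ε))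
    {A A' : Finset (Fin 12)} (hAD : ∀ s ∈ Dr, s ∉ A') (hAA : A ⊆ A') (hPA : P ∈ A)
    (hA' : ∀ s, s ∈ A' → s ≠ C → s ≠ C' → s ∈ A)
    (hA : ∀ k, k ∈ A → k ∉ S → k ∉ Dr → ∀ e ∈ monL.mon k, (∀ s ∈ Dr, e s = 0) →
      ∃ s, e s ≠ 0 ∧ s ∉ Dr ∧ (s ∈ S ∨ s ∈ A))
    (hA1 : ∀ k, k ∈ A' → k ∉ S → k ∉ Dr → ∀ e ∈ monL.mon k, (∀ s ∈ Dr, e s = 0) →
      ∃ s, e s ≠ 0 ∧ s ∉ Dr ∧ (s ∈ S ∨ s ∈ A')) {y : ℝ} (hy : 0 ≤ y) (hyt : y ≤ t) :
    lam (cT S Dr t (bA y A)) - lam (cT S Dr t (bA y A')) ≤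
      lam (cT S Dr t 0) - lam (cT S Dr t (bA y A)) := by
  obtain ⟨γ, hγ, hO⟩ := T.thin hTs hSl hjT (addF7 T.wl (by rw [T.eS]; exact hTs hjT)
    (by rcases hj with rfl | rfl <;> decide))
  have z1 : ∀ s ∈ Dr, bA y A s = 0 := fun s hs => bA_off fun h => hAD s hs (hAA h)
  have z2 : ∀ s ∈ Dr, bA y A' s = 0 := fun s hs => bA_off (hAD s hs)
  have z3 : ∀ s ∈ Dr, (0 : Fin 12 → ℝ) s = 0 := fun s hs => rfl
  have l1 := T.leg_of hw z1 (leg_bA hw hy hyt hA)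
  have l2 := T.leg_of hw z2 (leg_bA hw hy hyt hA1)
  have l3 : (0 : Fin 12 → ℝ) ∈ W.legW := T.leg_of hw z3 (lev_leg hw ht.le)
  have key := Tw369.w_e T.mod ht T.relB T.ownB (fun n k i l s hs => cfg_rel_S E' n k i l hs)
    unit tc tow law hj hγ ht hO (bA y A) (bA y A') 0 (bA y A) l1 l2 l3 l1
    (fun s => by
      show (0 : ℝ) ≤ bA y A s
      unfold bA; split_ifs <;> first | exact le_rfl | assumption)
    (fun s => Or.inr le_rfl) hyt (bA_of hPA).ge (bA_of hPA).ge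
    (by unfold bA; split_ifs <;> first | exact le_rfl | assumption)
    (by unfold bA; split_ifs <;> first | exact le_rfl | assumption)
    (fun s h3 h4 => by
      by_cases hs : s ∈ A'
      · rw [bA_of hs, bA_of (hA' s hs h3 h4)]
      · rw [bA_off hs]
        unfold bA; split_ifs <;> first | exact le_rfl | assumption)
  rw [T.nu_eq hw z1, T.nu_eq hw z2, T.nu_eq hw z3] at key
  linarith

/-- slack walls of `W3` -/
structure Sl3 (X : ℕ → Fin 12 → ℝ) (hh : ℕ → ℝ) (t : ℝ) : Prop where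
  a : ∀ᶠ l in atTop, X l 7 + t * hh l ≤ X l 2 + X l 3
  b : ∀ᶠ l in atTop, X l 8 + t * hh l ≤ X l 2 + X l 4
  c : ∀ᶠ l in atTop, X l 7 + t * hh l ≤ X l 1 + X l 5
  d : ∀ᶠ l in atTop, X l 8 + t * hh l ≤ X l 1 + X l 6
  e : ∀ᶠ l in atTop, X l 10 + t * hh l ≤ X l 1 + X l 9

/-- **(W3) in a window**: `C_b` against `C_a`, only `C_b = C_a + B` is tight -/
theorem TWin.w3 (T : TWin B I0 I' co X hh lam {0, 7, 8} {1, 2} Ts Sl σ t k W N cw E' g' ex)
    (ht : 0 < t) (hTs : Ts ⊆ {0, 7, 8}) (hSl : ∀ j ∈ Ts, (0 : ℝ) ∈ Sl j)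
    {j : Fin 12} (hj : j = 7 ∨ j = 8) (hjT : j ∈ Ts) {u v : ℕ → ℝ}
    (hd : Dir W.B' (W.cfg E') (ownL W) u v t) (x3 : ∀ᶠ l in atTop, X l 10 = X l 3 + X l 7)
    (x4 : ∀ᶠ l in atTop, X l 10 = X l 4 + X l 8) (sl : Sl3 X hh t) {y : ℝ} (hy : 0 ≤ y)
    (hyt : y ≤ t) :
    lam (cT {0, 7, 8} {1, 2} t (bA y {10})) - lam (cT {0, 7, 8} {1, 2} t (bA y {3, 4, 10})) ≤
      lam (cT {0, 7, 8} {1, 2} t 0) - lam (cT {0, 7, 8} {1, 2} t (bA y {10})) := by
  refine T.w_e wsd_e ht hTs hSl hj hjT (P := 10) (C := 3) (C' := 4) hd.unit hd.tc hd.tow ?_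
    (by decide) (by decide) (by decide) (by decide) (by decide +kernel) (by decide +kernel) hy hyt
  intro ε hε
  filter_upwards [T.reg, T.tight (i := 3) (j := 7) (m := 10) (by decide) x3,
    T.tight (i := 4) (j := 8) (m := 10) (by decide) x4,
    T.slack (i := 2) (j := 3) (m := 7) (by decide) sl.a,
    T.slack (i := 2) (j := 4) (m := 8) (by decide) sl.b,
    T.slack (i := 1) (j := 5) (m := 7) (by decide) sl.c,
    T.slack (i := 1) (j := 6) (m := 8) (by decide) sl.d,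
    T.slack (i := 1) (j := 9) (m := 10) (by decide) sl.e, ev_up W 103 t hε] with
    n r h1 h2 h3 h4 h5 h6 h7 h8 k0 k1 i l a1 a2 a3 a4
  have r0 := T.wl.r0 n
  refine (law10 T.wl r r0 h1 h2 h3 h4 h5 h6 h7 a1 a2 a3 a4).trans (le_trans (le_of_eq ?_) h8)
  ring

/-- slack walls of `W2` -/
structure Sl2 (X : ℕ → Fin 12 → ℝ) (hh : ℕ → ℝ) (t : ℝ) : Prop where
  a : ∀ᶠ l in atTop, X l 5 + t * hh l ≤ X l 0 + X l 3
  b : ∀ᶠ l in atTop, X l 6 + t * hh l ≤ X l 0 + X l 4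
  c : ∀ᶠ l in atTop, X l 7 + t * hh l ≤ X l 1 + X l 5
  d : ∀ᶠ l in atTop, X l 8 + t * hh l ≤ X l 1 + X l 6
  e : ∀ᶠ l in atTop, X l 11 + t * hh l ≤ X l 0 + X l 10
  f : ∀ᶠ l in atTop, X l 11 + t * hh l ≤ X l 2 + X l 9

/-- **(W2) in a window**: `N` against `X`, only `N = X + B` is tight -/
theorem TWin.w2 (T : TWin B I0 I' co X hh lam {0, 7, 8} {1, 2} Ts Sl σ t k W N cw E' g' ex)
    (ht : 0 < t) (hTs : Ts ⊆ {0, 7, 8}) (hSl : ∀ j ∈ Ts, (0 : ℝ) ∈ Sl j)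
    {j : Fin 12} (hj : j = 7 ∨ j = 8) (hjT : j ∈ Ts) {u v : ℕ → ℝ}
    (hd : Dir W.B' (W.cfg E') (ownL W) u v t) (x3 : ∀ᶠ l in atTop, X l 11 = X l 5 + X l 7)
    (x4 : ∀ᶠ l in atTop, X l 11 = X l 6 + X l 8) (sl : Sl2 X hh t) {y : ℝ} (hy : 0 ≤ y)
    (hyt : y ≤ t) :
    lam (cT {0, 7, 8} {1, 2} t (bA y {11})) - lam (cT {0, 7, 8} {1, 2} t (bA y {5, 6, 11})) ≤
      lam (cT {0, 7, 8} {1, 2} t 0) - lam (cT {0, 7, 8} {1, 2} t (bA y {11})) := by
  refine T.w_e wsd_e ht hTs hSl hj hjT (P := 11) (C := 5) (C' := 6) hd.unit hd.tx hd.tow ?_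
    (by decide) (by decide) (by decide) (by decide) (by decide +kernel) (by decide +kernel) hy hyt
  intro ε hε
  filter_upwards [T.reg, T.tight (i := 5) (j := 7) (m := 11) (by decide) x3,
    T.tight (i := 6) (j := 8) (m := 11) (by decide) x4,
    T.slack (i := 0) (j := 3) (m := 5) (by decide) sl.a,
    T.slack (i := 0) (j := 4) (m := 6) (by decide) sl.b,
    T.slack (i := 1) (j := 5) (m := 7) (by decide) sl.c,
    T.slack (i := 1) (j := 6) (m := 8) (by decide) sl.d,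
    T.slack (i := 0) (j := 10) (m := 11) (by decide) sl.e,
    T.slack (i := 2) (j := 9) (m := 11) (by decide) sl.f, ev_up W 110 t hε] with
    n r h1 h2 h3 h4 h5 h6 h7 h7' h8 k0 k1 i l a1 a2 a3 a4
  have r0 := T.wl.r0 n
  refine (law11 T.wl r r0 h1 h2 h3 h4 h5 h6 h7 h7' a1 a2 a3 a4).trans (le_trans (le_of_eq ?_) h8)
  ring

/-- **(W3k) in a window**: `B` against `C_a`, only `B = G + C_a` is tight -/
theorem TWin.w3k (T : TWin B I0 I' co X hh lam {0, 2} {1} Ts Sl σ t k W N cw E' g' ex)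
    (ht : 0 < t) (hTs : Ts ⊆ {0, 2}) (hSl : ∀ j ∈ Ts, (0 : ℝ) ∈ Sl j) (hjT : (2 : Fin 12) ∈ Ts)
    (x3 : ∀ᶠ l in atTop, X l 7 = X l 2 + X l 3) (x4 : ∀ᶠ l in atTop, X l 8 = X l 2 + X l 4)
    (sE : ∀ᶠ l in atTop, X l 2 + t * hh l ≤ X l 0 + X l 1)
    (s7 : ∀ᶠ l in atTop, X l 7 + t * hh l ≤ X l 1 + X l 5)
    (s8 : ∀ᶠ l in atTop, X l 8 + t * hh l ≤ X l 1 + X l 6) {y : ℝ} (hy : 0 ≤ y) (hyt : y ≤ t) :
    lam (cT {0, 2} {1} t (bA y {7, 8})) - lam (cT {0, 2} {1} t (bA y {3, 4, 7, 8})) ≤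
      lam (cT {0, 2} {1} t 0) - lam (cT {0, 2} {1} t (bA y {7, 8})) := by
  have hw := wsd_k
  have eS := T.eS
  have n7 : (7 : Fin 12) ∉ W.S := by rw [eS]; decide
  have n8 : (8 : Fin 12) ∉ W.S := by rw [eS]; decide
  have t7 : t ≤ W.top 7 := by rw [T.etop]; exact le_of_eq (if_neg (by decide)).symm
  have t8 : t ≤ W.top 8 := by rw [T.etop]; exact le_of_eq (if_neg (by decide)).symm
  obtain ⟨γ, hγ, hO⟩ := T.thin hTs hSl hjT (addF2 T.wl
    (T.slack (i := 0) (j := 1) (m := 2) (by decide) sE))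
  have hA : ∀ k, k ∈ ({7, 8} : Finset (Fin 12)) → k ∉ ({0, 2} : Finset (Fin 12)) →
      k ∉ ({1} : Finset (Fin 12)) → ∀ e ∈ monL.mon k, (∀ s ∈ ({1} : Finset (Fin 12)), e s = 0) →
      ∃ s, e s ≠ 0 ∧ s ∉ ({1} : Finset (Fin 12)) ∧
        (s ∈ ({0, 2} : Finset (Fin 12)) ∨ s ∈ ({7, 8} : Finset (Fin 12))) := by decide +kernel
  have hA1 : ∀ k, k ∈ ({3, 4, 7, 8} : Finset (Fin 12)) → k ∉ ({0, 2} : Finset (Fin 12)) →
      k ∉ ({1} : Finset (Fin 12)) → ∀ e ∈ monL.mon k, (∀ s ∈ ({1} : Finset (Fin 12)), e s = 0) →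
      ∃ s, e s ≠ 0 ∧ s ∉ ({1} : Finset (Fin 12)) ∧
        (s ∈ ({0, 2} : Finset (Fin 12)) ∨ s ∈ ({3, 4, 7, 8} : Finset (Fin 12))) := by
    decide +kernel
  have z1 : ∀ s ∈ ({1} : Finset (Fin 12)), bA y {7, 8} s = 0 := fun s hs => by
    rw [Finset.mem_singleton.1 hs]; exact bA_off (by decide)
  have z2 : ∀ s ∈ ({1} : Finset (Fin 12)), bA y {3, 4, 7, 8} s = 0 := fun s hs => by
    rw [Finset.mem_singleton.1 hs]; exact bA_off (by decide)
  have z3 : ∀ s ∈ ({1} : Finset (Fin 12)), (0 : Fin 12 → ℝ) s = 0 := fun s hs => rfl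
  have l1 := T.leg_of hw z1 (leg_bA hw hy hyt hA)
  have l2 := T.leg_of hw z2 (leg_bA hw hy hyt hA1)
  have l3 : (0 : Fin 12 → ℝ) ∈ W.legW := T.leg_of hw z3 (lev_leg hw ht.le)
  have key := Tw369.w_k T.mod ht T.relB T.ownB (fun n k i l s hs => cfg_rel_S E' n k i l hs)
    (by
      intro ε hε
      filter_upwards [T.reg, T.tight (i := 2) (j := 3) (m := 7) (by decide) x3,
        T.tight (i := 2) (j := 4) (m := 8) (by decide) x4,
        T.slack (i := 1) (j := 5) (m := 7) (by decide) s7,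
        T.slack (i := 1) (j := 6) (m := 8) (by decide) s8, ev_up W 7 t hε] with
        n r h1 h2 h3 h4 h8 k0 k1 i l a1 a2 a3 a4
      have r0 := T.wl.r0 n
      have e7 : 4 * W.B'.d n ^ t + 3 * W.B'.d n ^ t = 7 * W.B'.d n ^ t := by ring
      exact ⟨(law7 T.wl r r0 (Or.inl ⟨rfl, rfl, rfl⟩) n7 t7 h1 h3 a1 a2 a3 a4).trans
          (e7.le.trans h8),
        (law7 T.wl r r0 (Or.inr ⟨rfl, rfl, rfl⟩) n8 t8 h2 h4 a1 a2 a3 a4).trans
          (e7.le.trans h8)⟩) hγ ht hO (bA y {7, 8}) (bA y {3, 4, 7, 8}) 0 (bA y {7, 8}) l1 l2 l3 l1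
    (fun s => by
      show (0 : ℝ) ≤ bA y {7, 8} s
      unfold bA; split_ifs <;> first | exact le_rfl | assumption)
    (fun s => Or.inr le_rfl) hyt (bA_of (by decide)).ge (bA_of (by decide)).ge
    (bA_of (by decide)).ge (bA_of (by decide)).ge (bA_of (by decide)).le (bA_of (by decide)).le
    (fun s h3 h4 => by
      by_cases hs : s ∈ ({3, 4, 7, 8} : Finset (Fin 12))
      · rw [bA_of hs, bA_of]
        have : ∀ s : Fin 12, s ≠ 3 → s ≠ 4 → s ∈ ({3, 4, 7, 8} : Finset (Fin 12)) →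
            s ∈ ({7, 8} : Finset (Fin 12)) := by decide
        exact this s h3 h4 hs
      · rw [bA_off hs]
        unfold bA; split_ifs <;> first | exact le_rfl | assumption)
  rw [T.nu_eq hw z1, T.nu_eq hw z2, T.nu_eq hw z3] at key
  linarith

end Crest.Agent.R116.Tw369
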