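import Crest.Agent.R116.TieW3_369
import Crest.Agent.R116.TwU2_369
import Crest.Agent.R116.Tq3_794
import Crest.Agent.R116.Tq4_741
import Crest.Agent.R116.Rcx6_363

-- ▼ part R116/TieW4_369
section

/-!
# R116, ties (helper369): windows on the tie planes, part 4: visible slots coarser than their own level

* `exists_twinV` : `exists_twin`, a visible slot is in `S` or stays coarser than its own level;
* `wsd_ek` : `S = {0, 2, 7, 8}`, `Dr = {1}`; `wsd_dd` : `S = {0, 1, 2, 7, 8}`, `Dr = ∅`.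
-/

set_option autoImplicit false
set_option linter.unusedVariables false
set_option linter.unusedSectionVars false

open Finset Filter Topology

namespace Crest.Agent.R116.Tw369

open Crest.Agent.R138.Ex926
open Crest.Agent.R138.Mk163 (zc zl rho alive)
open Crest.Agent.R136.Net191 Crest.Agent.R136.Gf356 Crest.Agent.R136.Qg926
open Crest.Agent.R136.MkA627 Crest.Agent.R136.TD627 Crest.Agent.R136.Lq196
open Crest.Agent.R116.LZg725 Crest.Agent.R116.ChL222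
open Crest.Agent.R116.EvL504 (WL Reg side natD LnS ownL)
open Crest.Agent.R116.PL504 (βL eL rL oL Shift nb DN prN wtL)
open Crest.Agent.R116.Gd222 (TSet sN PDL DT vb)
open Crest.Agent.R116.KI439
open Crest.Agent.R116.KF439 (PL Thin)
open Crest.Agent.R116.Tw468 Crest.Agent.R116.CtxB468
open Crest.Agent.R116.EvD369 Crest.Agent.R116.Kst593



variable {G : Geo TSet (Fin 2)} {L : ℕ → ℕ → LRay} {r : ℕ → ℝ} {g s : ℝ} {θ q : Fin 2 → ℝ}
    {Rg : ℝ} {B : Base} {I : ℕ → Finset (ℕ × ℝ)} {lev : ℕ → ℚ → ℕ} {A : ℕ → ℝ}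
    {f : ℕ → ℚ → ℕ → ℤ → ℕ} {b : ℕ → ℚ → ℕ → TSet} {vm : ℕ → ℚ → ℝ} {w : Fin 2 → ℕ → ℚ → ℝ}
    {fr : ℕ → ℚ → ℕ × ℝ → LInc} {fl : ℕ → ℕ × ℝ → LInc} {sc : Fin 12 → ℕ → ℝ}
    {w0 sa sb δ R : ℝ} {I0 I' : ℕ → Finset (ℕ × ℝ)} {ν own : (Fin 12 → ℝ) → ℝ} {c₀ : ℝ}

/-- **existence of the window**, all conditions from the start -/
theorem exists_twinV0 (ctx : CtxT G L r g s θ q Rg B I lev A f b vm w fr fl sc w0 sa sb δ R I0 I' ν
      own c₀) {S Dr Ts : Finset (Fin 12)} (hw : WSD S Dr) {X : ℕ → Fin 12 → ℝ} {hh v : ℕ → ℝ}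
    {t v0 σ : ℝ} (ht : 0 < t) (hpos : ∀ l, 0 < hh l) (hh0 : Tendsto hh atTop (𝓝 0))
    {D : Set (Fin 12 → ℝ)} {lam : (Fin 12 → ℝ) → ℝ} (htan : IsTan (Leg monL R) D ν X hh lam)
    (hD : Leg (monX Dr) t ⊆ D) (hb : TBase (θ 0) (θ 1) w0 sa sb v0 S X v)
    (hTs : Ts ⊆ S) (hβ : ∀ j ∈ Ts, 0 < βL (θ 0) (θ 1) j)
    {Sl : Fin 12 → Set ℝ} (hSl : ∀ j ∈ Ts, Sl j = {0} ∨ Sl j = Set.univ)
    (hSt : ∀ j ∈ Ts, StC B I lev fl (sc j) j (βL (θ 0) (θ 1) j) (Sl j))
    (hvis : ∀ k, k ≠ 0 → VisT B I fl sc k → k ∈ S ∨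
      ∀ l, X l k + t * hh l ≤ rL (θ 0) (θ 1) w0 sa sb (v l) k)
    (hden : DensT S Dr t σ lam)
    (hX : ∀ l, X l ∈ Leg monL R) (hv0 : ∀ l, 0 < v l) (hv1 : ∀ l, v l ≤ 1)
    (hr1 : ∀ j ∈ Ts, ∀ l, v l + hh l * (t / βL (θ 0) (θ 1) j) ≤ 1) :
    ∃ (k : ℕ → ℕ) (W : Wnd 12 (fun _ => ℕ × ℝ)) (N : ℕ → ℝ) (cw : ∀ n : ℕ, ℕ × ℝ → ℤ)
      (E' : ∀ n : ℕ, Finset (ℕ × ℝ)) (g' : ℕ → ℝ),
      TWin B I0 I' (PL504.coN B lev w w0 sa sb fl) X hh lam S Dr Ts Sl σ t k W N cw E' g'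
        (fun _ _ _ => 0) := by
  classical
  have hR : 0 ≤ R := by
    have h1 := (hX 0).1.nonneg 0
    have h2 := (hX 0).2 0
    linarith
  have hK1 : 1 ≤ cK0 monL 2 := cK0_one (by norm_num)
  have hK : 0 < cK0 monL 2 := by linarith
  obtain ⟨γ, hγ, HO⟩ := ostrips_of ctx.out.win.sys (fun k n v => rfl) ctx.out.win.hz w0 sa sb Ts
    hβ Sl hSl hSt
  have HO' := HO.sub (I' := I0) (Eventually.of_forall ctx.sub0)
  have hN := WinU954.nprof_of_ext hR ctx.ext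
  have hst := stX_ok hw hK ht.le hD
  have h00 : (0 : Fin 12 → ℝ) ∈ Leg (monX Dr) t :=
    ⟨⟨fun _ => le_rfl, fun k e _ => by simp⟩, fun _ => ht.le⟩
  have hz : ∀ l, X l 0 = w0 + v l := hb.z
  -- the own profile on the fibre
  have hown : ∀ l, ∀ y ∈ Leg monL R, (∀ k ∈ S, y k = X l k) →
      (∀ k, y k ≤ X l k + t * hh l) → own y = (1 - s) * (1 - v l) := by
    intro l y hy hyS hyt
    refine ctx.ext.own_rot y hy (v l) (hv0 l).le (hv1 l) ?_ ?_
    · rw [hyS 0 hw.z, hz]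
    · intro k
      by_cases hk : k = 0
      · subst hk
        rw [hyS 0 hw.z, hz]
        unfold oL
        rw [if_pos (Or.inl rfl)]
        exact le_rfl
      · by_cases hV : VisT B I fl sc k
        · rw [CtxB468.oV hV]
          rcases hvis k hk hV with hkS | hkC
          · rw [hyS k hkS, hb.tie l k hkS]
          · exact (hyt k).trans (hkC l)
        · rw [CtxB468.oR hk hV]
          exact hy.2 k
  have g1 : ∀ᶠ l in (atTop : Filter ℕ),
      own (X l + hh l • cut (stX S Dr (cK0 monL 2) t).S (stX S Dr (cK0 monL 2) t).top 0) =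
        own (X l) := by
    filter_upwards [htan ‖cut (stX S Dr (cK0 monL 2) t).S (stX S Dr (cK0 monL 2) t).top 0‖ 1
      one_pos] with l hl
    have h1 := (hl _ (hst.leg hst.lin_leg) le_rfl).1
    have h2 := hown l _ h1 (fun k hk => ?_) (fun k => ?_)
    · rw [h2, hown l _ (hX l) (fun k _ => rfl) fun k => by
        have := mul_pos ht (hpos l)
        linarith]
    · have e : cut (stX S Dr (cK0 monL 2) t).S (stX S Dr (cK0 monL 2) t).top 0 k = 0 :=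
        cut_of_mem hk
      simp only [Pi.add_apply, Pi.smul_apply, smul_eq_mul, e, mul_zero, add_zero]
    · have e : cut (stX S Dr (cK0 monL 2) t).S (stX S Dr (cK0 monL 2) t).top 0 k ≤ t := by
        have e1 := cut_lin (t := t) hw (cK0 monL 2)
        have e2 : cut (stX S Dr (cK0 monL 2) t).S (stX S Dr (cK0 monL 2) t).top 0 k =
            cL S Dr (fun _ => t) k := congrFun e1 k
        rw [e2]
        exact ((lin_leg hw ht.le).2 k)
      simp only [Pi.add_apply, Pi.smul_apply, smul_eq_mul]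
      have := mul_le_mul_of_nonneg_left e (hpos l).le
      linarith
  have g2 : ∀ j ∈ Ts, ∀ l, X l j = rL (θ 0) (θ 1) w0 sa sb 0 j + βL (θ 0) (θ 1) j * v l := by
    intro j hj l
    rw [hb.tie l j (hTs hj), PL504.rL_lin]
  have g3 : ∀ l, own (X l) = (1 - s) * (1 - v l) := fun l => hown l _ (hX l) (fun k _ => rfl)
    fun k => by
      have := mul_pos ht (hpos l)
      linarith
  obtain ⟨uq, k, hk, hk2⟩ := exists_swin hN hpos (hst.leg h00) htan hst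
    (rl := fun _ x => x.1) (own := own) ctx.ext.oprof g1 HO' (fun j _ => (hγ j).le) hβ ctx.ext.s0
    ctx.ext.s1 hz hv0 hv1 ht hr1 g2 g3 (fun _ _ => 1) (fun _ => Base.Sub.const one_pos)
    (fun _ => (0, 0)) (Gd := I') (E := I') (Eventually.of_forall fun n => Subset.refl _)
    (Eventually.of_forall fun n => Subset.refl _) (Sd := fun _ => 1) (Base.Sub.const one_pos)
    (Eventually.of_forall fun n => by rw [one_mul])
  obtain ⟨B', s₀, W, eW, b1, b2, -, c1, c2, c3, c4⟩ := hk2 k hk (Eventually.of_forall fun n => le_rfl)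
  have hN2 : ∀ s, s ∉ EvL504.SL → s ∉ Dr := fun s hs h1 => by
    rcases hw.hDr s h1 with rfl | rfl <;> exact hs (by decide)
  have wl : WL W (cK0 monL 2) t := by
    subst eW
    exact
      { ok := c2
        hM := rfl
        coc := fun n => Sd369.coc_N B lev w w0 sa sb fl n
        hK := le_rfl
        kap := fun s => rfl
        hS := hw.hSL
        kz := rfl
        topS := fun s hs => by
          show t ≤ if s ∈ Dr then 0 else t
          rw [if_neg (hw.dis s hs)]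
        topL := fun s hs => by
          show t ≤ if s ∈ Dr then 0 else t
          rw [if_neg (hN2 s hs)] }
  have hmod : ∃ (E' : ∀ n : ℕ, Finset (ℕ × ℝ)) (g' : ℕ → ℝ),
      Wnd.Pruned W W.Cl E' g' (exO W (fun _ x => x.1) fun _ _ _ => 0) ∧
      RModel W.B' (W.cfg E') σ t W.legW W.nu W.Dc := by
    subst eW
    obtain ⟨E', g', p1, p2, p3⟩ := (hden.st hw).model c2 c2.eok_class
      (exO _ (fun _ x => x.1) fun _ _ _ => 0) (g₀ := fun n => (n : ℝ))
      (tendsto_natCast_atTop_atTop.mono_left U_le_atTop)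
    exact ⟨E', g', p1, p3⟩
  obtain ⟨E', g', p1, p3⟩ := hmod
  refine ⟨k, W, fun n => B.d n ^ (-(own (X (k n)))), fun n y => zc (lev n (uq (k n))) y.2, E', g', ?_⟩
  have hBd : ∀ n, W.B'.d n = B.d n ^ hh (k n) := by subst eW; exact b1
  have hX' : W.X = fun n => X (k n) := by subst eW; rfl
  have hB' : W.B = B := by subst eW; rfl
  have hkap : W.kap = fun j => cK0 monL 2 ^ wtL j := by subst eW; rfl
  exact
    { wl := wl
      hk := hk
      eB := hB'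
      eI := by subst eW; rfl
      eJ := by subst eW; rfl
      eco := by subst eW; rfl
      eX := hX'
      ew := by subst eW; rfl
      elam := by subst eW; rfl
      eS := by subst eW; rfl
      etop := by subst eW; rfl
      eM := by subst eW; rfl
      eR := by subst eW; rfl
      ekap := hkap
      base := hBd
      cl := by
        filter_upwards [c2.ev_good] with n g1
        have := g1.clI
        subst eW
        exact this
      rl := c3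
      ws := fun j hj => ⟨γ j / βL (θ 0) (θ 1) j, div_pos (hγ j) (hβ j hj), c4 j hj⟩
      pr := p1
      reg := WinU954.ev_reg_of c2 c2.eok_class p1
      mod := p3 }

/-- **existence of the window** -/
theorem exists_twinV (ctx : CtxT G L r g s θ q Rg B I lev A f b vm w fr fl sc w0 sa sb δ R I0 I' ν
      own c₀) {S Dr Ts : Finset (Fin 12)} (hw : WSD S Dr) {X : ℕ → Fin 12 → ℝ} {hh v : ℕ → ℝ}
    {t v0 σ : ℝ} (ht : 0 < t) (hpos : ∀ l, 0 < hh l) (hh0 : Tendsto hh atTop (𝓝 0))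
    {D : Set (Fin 12 → ℝ)} {lam : (Fin 12 → ℝ) → ℝ} (htan : IsTan (Leg monL R) D ν X hh lam)
    (hD : Leg (monX Dr) t ⊆ D) (hb : TBase (θ 0) (θ 1) w0 sa sb v0 S X v)
    (hTs : Ts ⊆ S) (hβ : ∀ j ∈ Ts, 0 < βL (θ 0) (θ 1) j)
    {Sl : Fin 12 → Set ℝ} (hSl : ∀ j ∈ Ts, Sl j = {0} ∨ Sl j = Set.univ)
    (hSt : ∀ j ∈ Ts, StC B I lev fl (sc j) j (βL (θ 0) (θ 1) j) (Sl j))
    (hvis : ∀ k, k ≠ 0 → VisT B I fl sc k → k ∈ S ∨
      ∀ᶠ l in atTop, X l k + t * hh l ≤ rL (θ 0) (θ 1) w0 sa sb (v l) k)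
    (hden : DensT S Dr t σ lam) :
    ∃ (k : ℕ → ℕ) (W : Wnd 12 (fun _ => ℕ × ℝ)) (N : ℕ → ℝ) (cw : ∀ n : ℕ, ℕ × ℝ → ℤ)
      (E' : ∀ n : ℕ, Finset (ℕ × ℝ)) (g' : ℕ → ℝ),
      TWin B I0 I' (PL504.coN B lev w w0 sa sb fl) X hh lam S Dr Ts Sl σ t k W N cw E' g'
        (fun _ _ _ => 0) := by
  have h00 : (0 : Fin 12 → ℝ) ∈ Leg (monX Dr) t :=
    ⟨⟨fun _ => le_rfl, fun k e _ => by simp⟩, fun _ => ht.le⟩
  have a1 : ∀ᶠ l in atTop, X l ∈ Leg monL R := by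
    filter_upwards [htan ‖(0 : Fin 12 → ℝ)‖ 1 one_pos] with l hl
    have := (hl 0 (hD h00) le_rfl).1
    rwa [smul_zero, add_zero] at this
  have a2 : ∀ᶠ l in atTop, 0 < v l := hb.hv.eventually_const_lt hb.v00
  have a3 : ∀ᶠ l in atTop, v l < 1 := hb.hv.eventually_lt_const hb.v01
  have a4 : ∀ j : Fin 12, ∀ᶠ l in atTop, v l + hh l * (t / βL (θ 0) (θ 1) j) < 1 := fun j => by
    have h1 : Tendsto (fun l => v l + hh l * (t / βL (θ 0) (θ 1) j)) atTop
        (𝓝 (v0 + 0 * (t / βL (θ 0) (θ 1) j))) := hb.hv.add (hh0.mul_const _)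
    exact h1.eventually_lt_const (by rw [zero_mul, add_zero]; exact hb.v01)
  have a5 : ∀ k : Fin 12, ∀ᶠ l in atTop, k ≠ 0 → VisT B I fl sc k → k ∈ S ∨
      X l k + t * hh l ≤ rL (θ 0) (θ 1) w0 sa sb (v l) k := fun k => by
    by_cases hk : k ≠ 0 ∧ VisT B I fl sc k
    · rcases hvis k hk.1 hk.2 with h | h
      · exact Eventually.of_forall fun l _ _ => Or.inl h
      · exact h.mono fun l hl _ _ => Or.inr hl
    · exact Eventually.of_forall fun l h1 h2 => (hk ⟨h1, h2⟩).elim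
  have all := (((a1.and a2).and a3).and (eventually_all.2 a4)).and (eventually_all.2 a5)
  obtain ⟨M, hM⟩ := eventually_atTop.1 all
  have hvis' : ∀ k, k ≠ 0 → VisT B I fl sc k → k ∈ S ∨
      ∀ l, X (l + M) k + t * hh (l + M) ≤ rL (θ 0) (θ 1) w0 sa sb (v (l + M)) k := by
    intro k h1 h2
    by_cases hS : k ∈ S
    · exact Or.inl hS
    · exact Or.inr fun l => ((hM (l + M) (Nat.le_add_left _ _)).2 k h1 h2).resolve_left hS
  obtain ⟨k, W, N, cw, E', g', T⟩ := exists_twinV0 ctx hw ht (fun l => hpos (l + M))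
    (hh0.comp (tendsto_add_atTop_nat M)) (tan_tail htan M) hD (hb.tail M) hTs hβ hSl hSt hvis' hden
    (fun l => (hM (l + M) (Nat.le_add_left _ _)).1.1.1.1)
    (fun l => (hM (l + M) (Nat.le_add_left _ _)).1.1.1.2)
    (fun l => (hM (l + M) (Nat.le_add_left _ _)).1.1.2.le)
    (fun j _ l => ((hM (l + M) (Nat.le_add_left _ _)).1.2 j).le)
  exact ⟨fun n => k n + M, W, N, cw, E', g',
    { wl := T.wl
      hk := tendsto_atTop_mono (fun n => Nat.le_add_right (k n) M) T.hk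
      eB := T.eB
      eI := T.eI
      eJ := T.eJ
      eco := T.eco
      eX := T.eX
      ew := T.ew
      elam := T.elam
      eS := T.eS
      etop := T.etop
      eM := T.eM
      eR := T.eR
      ekap := T.ekap
      base := T.base
      cl := T.cl
      rl := T.rl
      ws := T.ws
      pr := T.pr
      reg := T.reg
      mod := T.mod }⟩


end Crest.Agent.R116.Tw369
end

-- ▼ part R116/TwF1_369
section

/-!
# R116, ties (helper369): from `LinS Z` to the windows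

* `tan_Z`     : `LinS Z Λ w R` gives a tangent `lam3` of `f` at the moving base
                `X (ψ m) + H (ψ m) • E w`, with `lam3 (E d) = -(Ψ d + Σ R t d t)`
* `EMd E M`   : the two boxes of a class vector (`em8 : EMd E8 LM0`, `em9 : EMd E9 LM`)
* `Rs`        : the base raised in `G`, `D` (`dE`) or in `D` (`dK`), formula `Rs.lam`
* `slk`       : slack walls at the raised base
-/

set_option autoImplicit false
set_option linter.unusedVariables false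
set_option linter.unusedSectionVars false

open Set Filter Topology

namespace Crest.Agent.R116.Tw369

open Crest.Agent.R138
open Crest.Agent.R138.Ex926 (Base IsTan)
open Crest.Agent.R136
open Crest.Agent.R136.Net191
open Crest.Agent.R136.Qg926 Crest.Agent.R136.Gf356 Crest.Agent.R116.EvL504
open Crest.Agent.R116.ChL222
open Crest.Agent.R116.Sg337 (bx9)
open Crest.Agent.R116.RbM219
open Crest.Agent.R116.SgF665 (wl wl_add wl_smul LM0)
open Crest.Agent.R116.WinG954 (LM)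
open Crest.Agent.R116.Tq741 Crest.Agent.R116.Tq794
open Crest.Agent.R116.PL504 (rL βL)

section adapter

variable {P M : Set (Fin 12 → ℝ)} {f lam2 : (Fin 12 → ℝ) → ℝ} {X : ℕ → Fin 12 → ℝ} {H : ℕ → ℝ}
  {E : V9 → Fin 12 → ℝ} {w R : V9} {Z : Finset (Fin 9)}

/-- **from `LinS Z` to a tangent at the moving base** -/
theorem tan_Z (hMc : IsClosed M) (hM0 : (0 : Fin 12 → ℝ) ∈ M)
    (hMa : ∀ p ∈ M, ∀ q ∈ M, p + q ∈ M) (hMs : ∀ t : ℝ, 0 ≤ t → ∀ p ∈ M, t • p ∈ M)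
    (hpos : ∀ l, 0 < H l) (ht : IsTan P M f X H lam2)
    (hlip : ∃ K : ℝ, 0 ≤ K ∧ ∀ p ∈ M, ∀ q ∈ M, |lam2 p - lam2 q| ≤ K * ‖p - q‖)
    (hanti : ∀ p ∈ M, ∀ q ∈ M, p ≤ q → lam2 q ≤ lam2 p)
    (hE : ∀ (w d : V9) (t : ℝ), E (w + t • d) = E w + t • E d) (hw : E w ∈ M)
    (hL : LinS Z (fun w => lam2 (E w)) w R)
    {Pr : ℕ → ℕ → Prop} (hPr : ∀ m, ∀ᶠ l in atTop, Pr m l) :
    ∃ (ψ : ℕ → ℕ) (h' : ℕ → ℝ) (lam3 : (Fin 12 → ℝ) → ℝ) (Ψ : V9 → ℝ), StrictMono ψ ∧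
      (∀ m, Pr m (ψ m)) ∧ (∀ m, 0 < h' m) ∧ Tendsto h' atTop (𝓝 0) ∧
      IsTan P M f (fun m => X (ψ m) + H (ψ m) • E w) (fun m => H (ψ m) * h' m) lam3 ∧
      (∀ p ∈ M, ∀ q ∈ M, p ≤ q → lam3 q ≤ lam3 p) ∧
      (∀ d d', (∀ t ∈ Z, d t = d' t) → LegM 0 d → LegM 0 d' → Ψ d = Ψ d') ∧
      ∀ d, LegM 0 d → E d ∈ M → lam3 (E d) = -(Ψ d + ∑ t ∈ Zᶜ, R t * d t) := by
  obtain ⟨h, Ψ, hp, h0, hΨ, hd⟩ := hL
  obtain ⟨K, hK, hlip⟩ := hlip
  obtain ⟨φ, hφ, lam3, hT⟩ := Rc683.exists_tan (J := Unit) (P := fun _ => M) (D := fun _ => M)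
    (fun _ => hMc) (ν := fun _ => lam2) hK (fun _ => hlip) (x := fun _ => E w) (h := h) hp
    (fun _ C => Eventually.of_forall fun l c hc _ => hMa _ hw _ (hMs _ (hp l).le _ hc))
    (fun _ => hM0)
  have hT := hT ()
  have hp' : ∀ m, 0 < h (φ m) := fun m => hp _
  obtain ⟨ψ, hψ, hPψ, hTT⟩ := Rc683.diag hpos ht hw hp' hT hPr
  have z := tan_zero hp' hT hM0
  have lim : ∀ c ∈ M, Tendsto (fun m => (lam2 (E w + h (φ m) • c) - lam2 (E w)) / h (φ m)) atTop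
      (𝓝 (lam3 () c)) := by
    intro c hc
    have h1 := SgO219.tan_lim hp' hT hc hM0
    rw [z, sub_zero] at h1
    refine h1.congr fun m => ?_
    rw [smul_zero, add_zero]
  refine ⟨ψ, fun m => h (φ m), lam3 (), Ψ, hψ, hPψ, hp', h0.comp hφ.tendsto_atTop, hTT, ?_, hΨ,
    fun d hdl hdM => ?_⟩
  · intro p hpM q hqM hpq
    refine le_of_tendsto_of_tendsto' (lim q hqM) (lim p hpM) fun m => ?_
    refine div_le_div_of_nonneg_right ?_ (hp' m).le
    have := hanti (E w + h (φ m) • p) (hMa _ hw _ (hMs _ (hp' m).le _ hpM))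
      (E w + h (φ m) • q) (hMa _ hw _ (hMs _ (hp' m).le _ hqM)) (by
        intro i
        have := mul_le_mul_of_nonneg_left (hpq i) (hp' m).le
        simp only [Pi.add_apply, Pi.smul_apply, smul_eq_mul]
        linarith)
    linarith
  · refine tendsto_nhds_unique (lim _ hdM) (((hd d hdl).comp hφ.tendsto_atTop).congr fun m => ?_)
    simp only [Function.comp]
    rw [hE]

end adapter

/-- the box of a class vector: `E8`, `LM0` (`D` frozen) or `E9`, `LM` (`D` live) -/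
structure EMd (E : V9 → Fin 12 → ℝ) (M : Set (Fin 12 → ℝ)) : Prop where
  cl : IsClosed M
  z : (0 : Fin 12 → ℝ) ∈ M
  ad : ∀ p ∈ M, ∀ q ∈ M, p + q ∈ M
  sm : ∀ t : ℝ, 0 ≤ t → ∀ p ∈ M, t • p ∈ M
  lin : ∀ (w d : V9) (t : ℝ), E (w + t • d) = E w + t • E d
  mem : ∀ {w : V9}, LegM 0 w → E w ∈ M
  eq9 : ∀ {w : V9}, w 8 = 0 → E w = E9 w
  off : ∀ (w : V9) (k : Fin 12), k ≠ 1 → E w k = E9 w k

theorem em8 : EMd E8 LM0 where
  cl := LM0_closed
  z := by rw [← E8_zero]; exact E8_mem leg_zero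
  ad := fun p hp q hq => LM0_add hp hq
  sm := fun t ht p hp => LM0_smul ht hp
  lin := E8_add
  mem := fun h => E8_mem h
  eq9 := by
    intro w hw
    unfold E8 E9
    rw [hw]
  off := by
    intro w k hk
    fin_cases k <;> first | rfl | exact absurd rfl hk

theorem em9 : EMd E9 LM where
  cl := LM_closed
  z := by rw [← E9_zero]; exact E9_mem leg_zero
  ad := fun p hp q hq => LM_add hp hq
  sm := fun t ht p hp => LM_smul ht hp
  lin := E9_add
  mem := fun h => E9_mem h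
  eq9 := fun _ => rfl
  off := fun _ _ _ => rfl

theorem EMd.zero {E : V9 → Fin 12 → ℝ} {M : Set (Fin 12 → ℝ)} (em : EMd E M) : E 0 = 0 := by
  rw [em.eq9 rfl, E9_zero]

/-! ### the raised cone -/

/-- raise `G` and `D` -/
def dE : V9 := ![0, 0, 0, 0, 0, 0, 0, 1, 2]

/-- raise `D` -/
def dK : V9 := ![0, 0, 0, 0, 0, 0, 0, 0, 2]

/-- `a` in slot `1`, `b` in slot `2` -/
def cc (a b : ℝ) : Fin 12 → ℝ := fun k => if k = 1 then a else if k = 2 then b else 0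

theorem E8_dE : E8 dE = cc 0 1 := by
  funext k; fin_cases k <;> simp [E8, bx9, dE, cc]

theorem E9_dE : E9 dE = cc 2 1 := by
  funext k; fin_cases k <;> simp [E9, bx9, dE, cc]

theorem E8_dK : E8 dK = cc 0 0 := by
  funext k; fin_cases k <;> simp [E8, bx9, dK, cc]

theorem E9_dK : E9 dK = cc 2 0 := by
  funext k; fin_cases k <;> simp [E9, bx9, dK, cc]

theorem wl_nn {e : Fin 12 → ℕ} {p : Fin 12 → ℝ} (hp : ∀ s, 0 ≤ p s) {s : Fin 12} (hs : e s ≠ 0) :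
    p s ≤ wl e p := by
  have := sum_ge hp hs
  exact this

/-- one wall of the raised cone -/
theorem rz_wall {Dr : Finset (Fin 12)} {t : ℝ} {c c0 : Fin 12 → ℝ} (hc : c ∈ Leg (monX Dr) t)
    (h0 : ∀ k, 0 ≤ c0 k) {k : Fin 12} {e : Fin 12 → ℕ} (he : e ∈ monL.mon k)
    (h : ((∀ s ∈ Dr, e s = 0) ∧ c0 k = 0) ∨ ∃ s, e s ≠ 0 ∧ c0 k + t ≤ c0 s) :
    (c0 + c) k ≤ wl e (c0 + c) := by
  have hc0 : ∀ s, 0 ≤ c s := fun s => hc.1.nonneg s
  rw [wl_add, Pi.add_apply]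
  rcases h with ⟨h1, h2⟩ | ⟨s, h1, h2⟩
  · have h3 : c k ≤ wl e c := hc.1.2 k e (mem_monX.2 ⟨he, h1⟩)
    have h4 : 0 ≤ wl e c0 := Finset.sum_nonneg fun s _ => mul_nonneg (Nat.cast_nonneg _) (h0 s)
    rw [h2]
    linarith
  · have h3 := wl_nn h0 h1
    have h4 : 0 ≤ wl e c := Finset.sum_nonneg fun s _ => mul_nonneg (Nat.cast_nonneg _) (hc0 s)
    have h5 := hc.2 k
    linarith

theorem mon1 : ∀ k : Fin 12, ∀ e ∈ monL.mon k, k ≠ 0 ∧ k ≠ 1 := by decide +kernel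

theorem mon2 : ∀ k : Fin 12, ∀ e ∈ monL.mon k, e 1 = 0 → k ≠ 2 := by decide +kernel

/-- the raised cone is inside `M` -/
def Rz (M : Set (Fin 12 → ℝ)) (Dr : Finset (Fin 12)) (e0 : Fin 12 → ℝ) : Prop :=
  ∀ t : ℝ, 0 ≤ t → ∀ c ∈ Leg (monX Dr) t, t • e0 + c ∈ M

theorem cc_nn {a b t : ℝ} (ha : 0 ≤ a) (hb : 0 ≤ b) (ht : 0 ≤ t) (k : Fin 12) :
    0 ≤ (t • cc a b) k := by
  simp only [Pi.smul_apply, smul_eq_mul]
  unfold cc
  split_ifs <;> positivity

theorem cc_off {a b t : ℝ} {k : Fin 12} (h1 : k ≠ 1) (h2 : k ≠ 2) : (t • cc a b) k = 0 := by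
  simp only [Pi.smul_apply, smul_eq_mul]
  unfold cc
  rw [if_neg h1, if_neg h2, mul_zero]

theorem cc1 {a b t : ℝ} : (t • cc a b) 1 = t * a := rfl

theorem cc2 {a b t : ℝ} : (t • cc a b) 2 = t * b := rfl

theorem rz8E : Rz LM0 {1, 2} (E8 dE) := by
  intro t ht c hc
  rw [E8_dE]
  intro k e he h1
  obtain ⟨k0, k1⟩ := mon1 k e he
  have k2 := mon2 k e he h1
  refine rz_wall hc (fun k => cc_nn le_rfl zero_le_one ht k) he ?_
  rw [cc_off k1 k2]
  by_cases h2 : e 2 = 0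
  · exact Or.inl ⟨fun s hs => by
      rcases Finset.mem_insert.1 hs with rfl | hs
      · exact h1
      · rw [Finset.mem_singleton.1 hs]; exact h2, rfl⟩
  · exact Or.inr ⟨2, h2, by rw [cc2]; linarith⟩

theorem rz9E : Rz LM {1, 2} (E9 dE) := by
  intro t ht c hc
  rw [E9_dE]
  intro k e he
  obtain ⟨k0, k1⟩ := mon1 k e he
  refine rz_wall hc (fun k => cc_nn (by norm_num) zero_le_one ht k) he ?_
  by_cases h1 : e 1 = 0
  · have k2 := mon2 k e he h1
    rw [cc_off k1 k2]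
    by_cases h2 : e 2 = 0
    · exact Or.inl ⟨fun s hs => by
        rcases Finset.mem_insert.1 hs with rfl | hs
        · exact h1
        · rw [Finset.mem_singleton.1 hs]; exact h2, rfl⟩
    · exact Or.inr ⟨2, h2, by rw [cc2]; linarith⟩
  · refine Or.inr ⟨1, h1, ?_⟩
    by_cases k2 : k = 2
    · rw [k2, cc2, cc1]; linarith
    · rw [cc_off k1 k2, cc1]; linarith

theorem rz8K : Rz LM0 {1} (E8 dK) := by
  intro t ht c hc
  rw [E8_dK]
  intro k e he h1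
  obtain ⟨k0, k1⟩ := mon1 k e he
  have k2 := mon2 k e he h1
  refine rz_wall hc (fun k => cc_nn le_rfl le_rfl ht k) he ?_
  rw [cc_off k1 k2]
  exact Or.inl ⟨fun s hs => by rw [Finset.mem_singleton.1 hs]; exact h1, rfl⟩

theorem rz9K : Rz LM {1} (E9 dK) := by
  intro t ht c hc
  rw [E9_dK]
  intro k e he
  obtain ⟨k0, k1⟩ := mon1 k e he
  refine rz_wall hc (fun k => cc_nn (by norm_num) le_rfl ht k) he ?_
  by_cases h1 : e 1 = 0
  · have k2 := mon2 k e he h1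
    rw [cc_off k1 k2]
    exact Or.inl ⟨fun s hs => by rw [Finset.mem_singleton.1 hs]; exact h1, rfl⟩
  · refine Or.inr ⟨1, h1, ?_⟩
    by_cases k2 : k = 2
    · rw [k2, cc2, cc1]; linarith
    · rw [cc_off k1 k2, cc1]; linarith

/-- the formula of the raised tangent -/
theorem lam_eq {E : V9 → Fin 12 → ℝ} {M : Set (Fin 12 → ℝ)} (em : EMd E M)
    {lam3 : (Fin 12 → ℝ) → ℝ} {Ψ : V9 → ℝ} {R : V9} {Z : Finset (Fin 9)}
    (hf : ∀ d, LegM 0 d → E d ∈ M → lam3 (E d) = -(Ψ d + ∑ t ∈ Zᶜ, R t * d t)) {d d0 : V9}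
    {t : ℝ} (h0 : LegM 0 (t • d0)) (h : LegM 0 (d + t • d0)) :
    lam3 (t • E d0 + E d) - lam3 (t • E d0) =
      -(Ψ (d + t • d0) - Ψ (t • d0) + ∑ u ∈ Zᶜ, R u * d u) := by
  have e1 : t • E d0 = E (t • d0) := by
    have := em.lin 0 d0 t
    rw [em.zero, zero_add, zero_add] at this
    exact this.symm
  have e2 : t • E d0 + E d = E (d + t • d0) := by rw [em.lin, add_comm]
  rw [e2, e1, hf _ h (em.mem h), hf _ h0 (em.mem h0)]
  have e3 : ∑ u ∈ Zᶜ, R u * (d + t • d0) u =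
      ∑ u ∈ Zᶜ, R u * d u + ∑ u ∈ Zᶜ, R u * (t • d0) u := by
    rw [← Finset.sum_add_distrib]
    exact Finset.sum_congr rfl fun u _ => by rw [Pi.add_apply]; ring
  rw [e3]
  ring

/-! ### the raised base -/

section base

variable {X : ℕ → Fin 12 → ℝ} {H : ℕ → ℝ} {ew c0 : Fin 12 → ℝ} {ψ : ℕ → ℕ} {h' : ℕ → ℝ}

/-- the raised base -/
def Xs (X : ℕ → Fin 12 → ℝ) (H : ℕ → ℝ) (ew c0 : Fin 12 → ℝ) (ψ : ℕ → ℕ) (h' : ℕ → ℝ) (m : ℕ) :
    Fin 12 → ℝ := (X (ψ m) + H (ψ m) • ew) + (H (ψ m) * h' m) • c0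

theorem Xs_apply (m : ℕ) (k : Fin 12) :
    Xs X H ew c0 ψ h' m k = X (ψ m) k + H (ψ m) * ew k + H (ψ m) * h' m * c0 k := rfl

/-- a tight wall -/
theorem Xs_tight {i j k : Fin 12} (hX : ∀ l, X l k = X l i + X l j) (hw : ew k = ew i + ew j)
    (hc : c0 k = c0 i + c0 j) (m : ℕ) :
    Xs X H ew c0 ψ h' m k = Xs X H ew c0 ψ h' m i + Xs X H ew c0 ψ h' m j := by
  rw [Xs_apply, Xs_apply, Xs_apply, hX, hw, hc]
  ring

/-- how a wall is slack -/
def Slw (X : ℕ → Fin 12 → ℝ) (H : ℕ → ℝ) (ew : Fin 12 → ℝ) (i j k : Fin 12) : Prop :=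
  ((∀ᶠ l in atTop, X l k ≤ X l i + X l j) ∧ ew k < ew i + ew j) ∨
    ∀ K : ℝ, ∀ᶠ l in atTop, X l k + K * H l ≤ X l i + X l j

/-- **a slack wall** -/
theorem Xs_slack (hpos : ∀ l, 0 < H l) (hψ : StrictMono ψ) (hp' : ∀ m, 0 < h' m)
    (h0' : Tendsto h' atTop (𝓝 0)) {i j k : Fin 12} (hs : Slw X H ew i j k) (t : ℝ) :
    ∀ᶠ m in atTop, Xs X H ew c0 ψ h' m k + t * (H (ψ m) * h' m) ≤
      Xs X H ew c0 ψ h' m i + Xs X H ew c0 ψ h' m j := by
  set C : ℝ := |t| + |c0 i + c0 j - c0 k| with hC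
  have hC0 : 0 ≤ C := by positivity
  have e : t - (c0 i + c0 j - c0 k) ≤ C := by
    have h1 := le_abs_self t
    have h2 := neg_abs_le (c0 i + c0 j - c0 k)
    rw [hC]; linarith
  have hlim : Tendsto (fun m => h' m * C) atTop (𝓝 0) := by simpa using h0'.mul_const C
  rcases hs with ⟨h1, h2⟩ | h1
  · have h3 : ∀ᶠ m in atTop, h' m * C < ew i + ew j - ew k :=
      hlim.eventually_lt_const (by linarith)
    filter_upwards [hψ.tendsto_atTop.eventually h1, h3] with m m1 m2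
    rw [Xs_apply, Xs_apply, Xs_apply]
    have p := hpos (ψ m)
    have q1 := mul_le_mul_of_nonneg_left m2.le p.le
    have q2 := mul_le_mul_of_nonneg_left e (mul_pos p (hp' m)).le
    nlinarith
  · have h3 : ∀ᶠ m in atTop, h' m * C < 1 := hlim.eventually_lt_const one_pos
    filter_upwards [hψ.tendsto_atTop.eventually (h1 (1 + |ew i + ew j - ew k|)), h3] with m m1 m2
    rw [Xs_apply, Xs_apply, Xs_apply]
    have p := hpos (ψ m)
    have q1 := mul_le_mul_of_nonneg_left m2.le p.le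
    have q2 := mul_le_mul_of_nonneg_left e (mul_pos p (hp' m)).le
    have q3 := mul_le_mul_of_nonneg_left (neg_abs_le (ew i + ew j - ew k)) p.le
    nlinarith

theorem tend_hh (h0 : Tendsto H atTop (𝓝 0)) (hψ : StrictMono ψ)
    (h0' : Tendsto h' atTop (𝓝 0)) : Tendsto (fun m => H (ψ m) * h' m) atTop (𝓝 0) := by
  have := (h0.comp hψ.tendsto_atTop).mul h0'
  simpa using this

/-- the limit of the raised base -/
theorem Xs_lim (h0 : Tendsto H atTop (𝓝 0)) (hψ : StrictMono ψ)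
    (h0' : Tendsto h' atTop (𝓝 0)) {k : Fin 12} {x : ℝ} (hX : Tendsto (fun l => X l k) atTop (𝓝 x)) :
    Tendsto (fun m => Xs X H ew c0 ψ h' m k) atTop (𝓝 x) := by
  have h1 := (hX.comp hψ.tendsto_atTop).add ((h0.comp hψ.tendsto_atTop).mul_const (ew k))
  have h2 := h1.add ((tend_hh h0 hψ h0').mul_const (c0 k))
  simpa [Xs, Function.comp_def] using h2

/-- **the raised base is a base point of a tie window** -/
theorem Xs_base {θ0 θ1 w0 sa sb v0 : ℝ} {S : Finset (Fin 12)} {v : ℕ → ℝ}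
    (hb : TBase θ0 θ1 w0 sa sb v0 S X v) (h0 : Tendsto H atTop (𝓝 0)) (hψ : StrictMono ψ) {u : ℝ}
    (hu : ew 0 = u) (hS : ∀ k ∈ S, ew k = βL θ0 θ1 k * u) (hc0 : c0 0 = 0)
    (hc : ∀ k ∈ S, c0 k = 0) :
    TBase θ0 θ1 w0 sa sb v0 S (Xs X H ew c0 ψ h') (fun m => v (ψ m) + H (ψ m) * u) where
  v00 := hb.v00
  v01 := hb.v01
  hv := by
    have := (hb.hv.comp hψ.tendsto_atTop).add ((h0.comp hψ.tendsto_atTop).mul_const u)
    simpa [Function.comp_def] using this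
  z := by
    intro m
    rw [Xs_apply, hb.z, hu, hc0]
    ring
  tie := by
    intro m k hk
    rw [Xs_apply, hb.tie _ k hk, hS k hk, hc k hk, PL504.rL_lin θ0 θ1 w0 sa sb (v (ψ m)) k,
      PL504.rL_lin θ0 θ1 w0 sa sb (v (ψ m) + H (ψ m) * u) k]
    ring

end base

end Crest.Agent.R116.Tw369
end

-- ▼ part R116/TwF2_369
section

/-!
# R116, ties (helper369): own-strip facts at the class level

* `core`  : `LinS Z Λ w R` at a tied position gives a tie window at the raised base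
* `NBase` : natural base (`D` raised or natural)
* `WU`    : (W3), (W2) at an `e`-tie, `G`, `D` invisible or strictly coarser than their own levels
            (`u3`, `u2`); `u3n`, `u2n` : `G` exactly on its own level (`S = {0, 2, 7, 8}`)
* `k3`    : (W3k) at a `κ`-tie
-/

set_option autoImplicit false
set_option linter.unusedVariables false
set_option linter.unusedSectionVars false

open Set Filter Topology

namespace Crest.Agent.R116.Tw369

open Crest.Agent.R138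
open Crest.Agent.R138.Ex926 (Base U IsTan)
open Crest.Agent.R136
open Crest.Agent.R136.MkA627
open Crest.Agent.R136.TD627
open Crest.Agent.R136.Net191
open Crest.Agent.R136.Lq196
open Crest.Agent.R136.Qg926 Crest.Agent.R136.Gf356 Crest.Agent.R116.EvL504
open Crest.Agent.R116.ChL222
open Crest.Agent.R116.PL504 (nb rL DN eL βL oL Shift eL_wall)
open Crest.Agent.R116.Sg337 (bx9)
open Crest.Agent.R116.Gd222 (TSet sN PDL DT)
open Crest.Agent.R116.KI439
open Crest.Agent.R116.KF439 (PL)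
open Crest.Agent.R116.CtxB468
open Crest.Agent.R116.Kst593
open Crest.Agent.R116.Rcx363 (fo fo_lip Prf)
open Crest.Agent.R116.RbM219
open Crest.Agent.R116.SgF665 (wl wl_add wl_smul LM0)
open Crest.Agent.R116.WinG954 (LM)
open Crest.Agent.R116.Tq741 Crest.Agent.R116.Tq794

variable {G : Geo TSet (Fin 2)} {L : ℕ → ℕ → LRay} {r : ℕ → ℝ} {g s : ℝ} {θ q : Fin 2 → ℝ}
    {Rg : ℝ} {B : Base} {I : ℕ → Finset (ℕ × ℝ)} {lev : ℕ → ℚ → ℕ} {A : ℕ → ℝ}
    {f : ℕ → ℚ → ℕ → ℤ → ℕ} {b : ℕ → ℚ → ℕ → TSet} {vm : ℕ → ℚ → ℝ} {wt : Fin 2 → ℕ → ℚ → ℝ}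
    {fr : ℕ → ℚ → ℕ × ℝ → LInc} {fl : ℕ → ℕ × ℝ → LInc} {sc : Fin 12 → ℕ → ℝ}
    {w0 sa sb δ R : ℝ} {I0 I' : ℕ → Finset (ℕ × ℝ)} {ν own : (Fin 12 → ℝ) → ℝ} {c₀ : ℝ}

/-- a visible slot which is not level stays coarser than its own level -/
theorem Xs_vis {θ0 θ1 : ℝ} {X : ℕ → Fin 12 → ℝ} {H : ℕ → ℝ} {ew c0 : Fin 12 → ℝ} {ψ : ℕ → ℕ}
    {h' v : ℕ → ℝ} (hpos : ∀ l, 0 < H l) (hψ : StrictMono ψ) (hp' : ∀ m, 0 < h' m)
    (h0' : Tendsto h' atTop (𝓝 0)) {k : Fin 12} {u : ℝ}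
    (hX : ∀ᶠ l in atTop, X l k ≤ rL θ0 θ1 w0 sa sb (v l) k) (hw : ew k < βL θ0 θ1 k * u) (t : ℝ) :
    ∀ᶠ m in atTop, Xs X H ew c0 ψ h' m k + t * (H (ψ m) * h' m) ≤
      rL θ0 θ1 w0 sa sb (v (ψ m) + H (ψ m) * u) k := by
  set C : ℝ := |t| + |c0 k| with hC
  have e : t + c0 k ≤ C := by
    have h1 := le_abs_self t
    have h2 := le_abs_self (c0 k)
    rw [hC]; linarith
  have hlim : Tendsto (fun m => h' m * C) atTop (𝓝 0) := by simpa using h0'.mul_const C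
  have h3 : ∀ᶠ m in atTop, h' m * C < βL θ0 θ1 k * u - ew k :=
    hlim.eventually_lt_const (by linarith)
  filter_upwards [hψ.tendsto_atTop.eventually hX, h3] with m m1 m2
  rw [PL504.rL_lin] at m1
  rw [PL504.rL_lin, Xs_apply]
  have p := hpos (ψ m)
  have q1 := mul_le_mul_of_nonneg_left m2.le p.le
  have q2 := mul_le_mul_of_nonneg_left e (mul_pos p (hp' m)).le
  nlinarith

/-- a visible slot which is not level: on its own level or coarser and `w` moves it coarser, or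
coarser by more than every multiple of the unit -/
def Vw (θ0 θ1 w0 sa sb : ℝ) (X : ℕ → Fin 12 → ℝ) (H v : ℕ → ℝ) (ew : Fin 12 → ℝ) (u : ℝ)
    (k : Fin 12) : Prop :=
  ((∀ᶠ l in atTop, X l k ≤ rL θ0 θ1 w0 sa sb (v l) k) ∧ ew k < βL θ0 θ1 k * u) ∨
    ∀ K : ℝ, ∀ᶠ l in atTop, X l k + K * H l ≤ rL θ0 θ1 w0 sa sb (v l) k

/-- a visible slot which is not level stays coarser than its own level -/
theorem Xs_vw {θ0 θ1 : ℝ} {X : ℕ → Fin 12 → ℝ} {H : ℕ → ℝ} {ew c0 : Fin 12 → ℝ} {ψ : ℕ → ℕ}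
    {h' v : ℕ → ℝ} (hpos : ∀ l, 0 < H l) (hψ : StrictMono ψ) (hp' : ∀ m, 0 < h' m)
    (h0' : Tendsto h' atTop (𝓝 0)) {k : Fin 12} {u : ℝ}
    (h : Vw θ0 θ1 w0 sa sb X H v ew u k) (t : ℝ) :
    ∀ᶠ m in atTop, Xs X H ew c0 ψ h' m k + t * (H (ψ m) * h' m) ≤
      rL θ0 θ1 w0 sa sb (v (ψ m) + H (ψ m) * u) k := by
  rcases h with ⟨h1, h2⟩ | h1
  · exact Xs_vis hpos hψ hp' h0' h1 h2 t
  · have h3 : ∀ᶠ m in atTop, h' m < 1 := h0'.eventually_lt_const one_pos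
    filter_upwards [hψ.tendsto_atTop.eventually
      (h1 (ew k + (|c0 k| + |t|) - βL θ0 θ1 k * u)), h3] with m m1 m2
    rw [PL504.rL_lin] at m1
    rw [PL504.rL_lin, Xs_apply]
    have p := hpos (ψ m)
    have p' := hp' m
    have a1 := le_abs_self t
    have a2 := le_abs_self (c0 k)
    have q1 : h' m * (|c0 k| + |t|) ≤ |c0 k| + |t| := by
      have : 0 ≤ |c0 k| + |t| := by positivity
      nlinarith
    have q2 : h' m * (c0 k + t) ≤ h' m * (|c0 k| + |t|) :=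
      mul_le_mul_of_nonneg_left (by linarith) p'.le
    have q3 := mul_le_mul_of_nonneg_left (q2.trans q1) p.le
    nlinarith

/-- tangents at a shifted base point (120's `tan_shift`) -/
theorem tan_shiftW {V : Type*} [NormedAddCommGroup V] [NormedSpace ℝ V] {P D D' : Set V}
    {ν lam : V → ℝ} {x : ℕ → V} {h : ℕ → ℝ} (H : IsTan P D ν x h lam) {c0 : V}
    (h0 : (0 : V) ∈ D') (hD : ∀ c ∈ D', c0 + c ∈ D) :
    IsTan P D' ν (fun l => x l + h l • c0) h (fun c => lam (c0 + c) - lam c0) := by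
  intro C ε hε
  have hc0 : c0 ∈ D := by have := hD 0 h0; rwa [add_zero] at this
  filter_upwards [H (‖c0‖ + |C|) (ε / 2) (by positivity)] with l hl c hc hcC
  have a1 := hl (c0 + c) (hD c hc) ((norm_add_le _ _).trans (by
    have := le_abs_self C
    linarith))
  have a2 := hl c0 hc0 (by have := abs_nonneg C; linarith)
  have e1 : x l + h l • (c0 + c) = x l + h l • c0 + h l • c := by
    rw [smul_add, add_assoc]
  rw [e1] at a1
  refine ⟨a1.1, ?_⟩
  have b1 := abs_le.1 a1.2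
  have b2 := abs_le.1 a2.2
  rw [abs_le]
  constructor <;> nlinarith [b1.1, b1.2, b2.1, b2.2]

/-- **the window over a tied linear position** -/
theorem core (ctx : CtxT G L r g s θ q Rg B I lev A f b vm wt fr fl sc w0 sa sb δ R I0 I' ν own c₀)
    {E : V9 → Fin 12 → ℝ} {M : Set (Fin 12 → ℝ)} (em : EMd E M) {S Dr Ts : Finset (Fin 12)}
    (hw : WSD S Dr) {d0 : V9} (rz : Rz M Dr (E d0)) (hd0 : LegM 0 d0) (hd0S : ∀ k ∈ S, E d0 k = 0)
    {X : ℕ → Fin 12 → ℝ} {H v : ℕ → ℝ} {v0 : ℝ} (hpos : ∀ l, 0 < H l)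
    (hH0 : Tendsto H atTop (𝓝 0)) {lam2 : (Fin 12 → ℝ) → ℝ}
    (ht : IsTan (Leg monL R) M ν X H lam2)
    (hanti : ∀ p ∈ M, ∀ q ∈ M, p ≤ q → lam2 q ≤ lam2 p)
    (hb : TBase (θ 0) (θ 1) w0 sa sb v0 S X v)
    (hTs : Ts ⊆ S) (hβ : ∀ j ∈ Ts, 0 < βL (θ 0) (θ 1) j)
    {Sl : Fin 12 → Set ℝ} (hSl : ∀ j ∈ Ts, Sl j = {0} ∨ Sl j = Set.univ)
    (hSt : ∀ j ∈ Ts, StC B I lev fl (sc j) j (βL (θ 0) (θ 1) j) (Sl j))
    {Z : Finset (Fin 9)} {w Rw : V9} (hwl : LegM 0 w) (hwS : ∀ k ∈ S, E w k = βL (θ 0) (θ 1) k * w 0)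
    (hvis : ∀ k, k ≠ 0 → VisT B I fl sc k → k ∈ S ∨
      Vw (θ 0) (θ 1) w0 sa sb X H v (E w) (w 0) k)
    (hL : LinS Z (fun w => lam2 (E w)) w Rw)
    {dT dL dV : V9} (eT : cT S Dr 1 (fun _ => 1) = E dT) (eL : cL S Dr (fun _ => 1) = E dL)
    (eV : cT S Dr 1 0 = E dV) (lT : LegM 0 (dT + (1:ℝ) • d0)) (lL : LegM 0 (dL + (1:ℝ) • d0))
    (lV : LegM 0 (dV + (1:ℝ) • d0)) (z1 : ∀ u ∈ Z, dT u = dV u) (z2 : ∀ u ∈ Z, dL u = 0)
    (z3 : ∀ u ∈ Zᶜ, dT u = dL u + dV u) :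
    ∃ (ψ : ℕ → ℕ) (h' : ℕ → ℝ) (Q : (Fin 12 → ℝ) → ℝ) (Φ : V9 → ℝ), StrictMono ψ ∧
      (∀ m, 0 < h' m) ∧ Tendsto h' atTop (𝓝 0) ∧
      (∀ d d' : V9, (∀ u ∈ Z, d u = d' u) → LegM 0 (d + (1:ℝ) • d0) → LegM 0 (d' + (1:ℝ) • d0) →
        Φ d = Φ d') ∧
      (∀ d, LegM 0 (d + (1:ℝ) • d0) → Q (E d) = -(Φ d + ∑ u ∈ Zᶜ, Rw u * d u)) ∧
      TBase (θ 0) (θ 1) w0 sa sb v0 S (Xs X H (E w) ((1:ℝ) • E d0) ψ h')
        (fun m => v (ψ m) + H (ψ m) * w 0) ∧
      ∃ (k : ℕ → ℕ) (W : Wnd 12 (fun _ => ℕ × ℝ)) (N : ℕ → ℝ) (cw : ∀ n : ℕ, ℕ × ℝ → ℤ)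
        (E' : ∀ n : ℕ, Finset (ℕ × ℝ)) (g' : ℕ → ℝ),
        TWin B I0 I' (PL504.coN B lev wt w0 sa sb fl) (Xs X H (E w) ((1:ℝ) • E d0) ψ h')
          (fun m => H (ψ m) * h' m) Q S Dr Ts Sl 0 1 k W N cw E' g' (fun _ _ _ => 0) := by
  have hlip : ∃ K : ℝ, 0 ≤ K ∧ ∀ p ∈ M, ∀ q ∈ M, |lam2 p - lam2 q| ≤ K * ‖p - q‖ := by
    refine ⟨12, by norm_num, fun p hp' q hq' => ?_⟩
    have := SgO219.tan_lip hpos ht (K := 12) (fo_lip ctx 0) p hp' q hq'
    rwa [dist_eq_norm] at this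
  obtain ⟨ψ, h', lam3, Ψ, hψ, -, hp', h0', hT, hanti3, hΨ, hf⟩ := tan_Z em.cl em.z em.ad em.sm hpos
    ht hlip hanti em.lin (em.mem hwl) hL (Pr := fun _ _ => True)
    (fun _ => Eventually.of_forall fun _ => trivial)
  have h1d : LegM 0 ((1:ℝ) • d0) := by rw [one_smul]; exact hd0
  have hwz : E w 0 = w 0 := by
    have h1 := hwS 0 hw.z
    have h2 : βL (θ 0) (θ 1) 0 = 1 := rfl
    rw [h1, h2, one_mul]
  set Q : (Fin 12 → ℝ) → ℝ := fun c => lam3 ((1:ℝ) • E d0 + c) - lam3 ((1:ℝ) • E d0) with hQ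
  have hz : (0 : Fin 12 → ℝ) ∈ Leg (monX Dr) (1:ℝ) :=
    ⟨⟨fun _ => le_rfl, fun k e _ => by simp⟩, fun _ => zero_le_one⟩
  have hsh := tan_shiftW hT (c0 := (1:ℝ) • E d0) hz (rz 1 zero_le_one)
  have hform : ∀ d, LegM 0 (d + (1:ℝ) • d0) →
      Q (E d) = -(Ψ (d + (1:ℝ) • d0) - Ψ ((1:ℝ) • d0) + ∑ u ∈ Zᶜ, Rw u * d u) := fun d hd =>
    lam_eq em hf h1d hd
  have hbase := Xs_base (ew := E w) (c0 := (1:ℝ) • E d0) (h' := h') hb hH0 hψ hwz hwS
    (by rw [Pi.smul_apply, hd0S 0 hw.z, smul_zero])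
    (fun k hk => by rw [Pi.smul_apply, hd0S k hk, smul_zero])
  have hden : DensT S Dr 1 0 Q := by
    refine ⟨?_, le_rfl, zero_le_one, fun y hy _ => ?_⟩
    · rw [eT, eL, eV, hform _ lT, hform _ lL, hform _ lV]
      have a1 : Ψ (dT + (1:ℝ) • d0) = Ψ (dV + (1:ℝ) • d0) := hΨ _ _ (fun u hu => by
        rw [Pi.add_apply, Pi.add_apply, z1 u hu]) lT lV
      have a2 : Ψ (dL + (1:ℝ) • d0) = Ψ ((1:ℝ) • d0) := hΨ _ _ (fun u hu => by
        rw [Pi.add_apply, z2 u hu, zero_add]) lL h1d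
      have a3 : ∑ u ∈ Zᶜ, Rw u * dT u = ∑ u ∈ Zᶜ, Rw u * dL u + ∑ u ∈ Zᶜ, Rw u * dV u := by
        rw [← Finset.sum_add_distrib]
        exact Finset.sum_congr rfl fun u hu => by rw [z3 u hu]; ring
      rw [a1, a2, a3]
      linarith
    · have hs0 : Pi.single 0 y = E (y • e9 0) := by
        have e1 : (y • e9 0) 8 = 0 := by simp [e9]
        rw [em.eq9 e1]
        funext k
        fin_cases k <;> simp [E9, bx9, e9]
      have hl1 : LegM 0 (e9 0) := by constructor <;> simp [e9]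
      have hm1 : (1:ℝ) • E d0 ∈ M := em.sm _ zero_le_one _ (em.mem hd0)
      have hm2 : (1:ℝ) • E d0 + Pi.single 0 y ∈ M := by
        rw [hs0]
        have h9 := hl1.smul hy
        rw [mul_zero] at h9
        exact em.ad _ hm1 _ (em.mem h9)
      have := hanti3 _ hm1 _ hm2 (by
        intro i
        rw [Pi.add_apply]
        have : 0 ≤ (Pi.single 0 y : Fin 12 → ℝ) i := by
          by_cases hi : i = 0
          · subst hi; simpa using hy
          · rw [Pi.single_eq_of_ne hi]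
        linarith)
      show lam3 ((1:ℝ) • E d0 + Pi.single 0 y) - lam3 ((1:ℝ) • E d0) ≤ -(0 * y)
      linarith
  refine ⟨ψ, h', Q, fun d => Ψ (d + (1:ℝ) • d0) - Ψ ((1:ℝ) • d0), hψ, hp', h0', ?_, hform, hbase,
    ?_⟩
  · intro d d' hu hd hd'
    show Ψ (d + (1:ℝ) • d0) - _ = Ψ (d' + (1:ℝ) • d0) - _
    rw [hΨ (d + (1:ℝ) • d0) (d' + (1:ℝ) • d0) (fun u hz => by
      rw [Pi.add_apply, Pi.add_apply, hu u hz]) hd hd']
  · exact exists_twinV ctx hw one_pos (fun m => mul_pos (hpos _) (hp' m)) (tend_hh hH0 hψ h0') hsh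
      (Subset.refl _) hbase hTs hβ hSl hSt (fun k hk hV => by
        rcases hvis k hk hV with h1 | h1
        · exact Or.inl h1
        · exact Or.inr (Xs_vw hpos hψ hp' h0' h1 1)) hden

end Crest.Agent.R116.Tw369
end

-- ▼ part R116/TwF3_369

/-!
# R116, ties (helper369): (W3), (W2), (W3k) over the context, class letters

* `NBase`      : natural base (`nbase8` : `D` raised; `nbase9` : `D` natural)
* `u3`, `u2`   : (W3), (W2) at an `e`-tie; `E`, `D` invisible or strictly coarser than their own level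
* `u3n`, `u2n` : the same, `G` exactly on its own level
* `k3`         : (W3k) at a `κ`-tie, `D` raised
-/

set_option autoImplicit false
set_option linter.unusedVariables false
set_option linter.unusedSectionVars false

open Set Filter Topology

namespace Crest.Agent.R116.Tw369

open Crest.Agent.R138
open Crest.Agent.R138.Ex926 (Base U IsTan)
open Crest.Agent.R136
open Crest.Agent.R136.MkA627
open Crest.Agent.R136.TD627
open Crest.Agent.R136.Net191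
open Crest.Agent.R136.Lq196
open Crest.Agent.R136.Qg926 Crest.Agent.R136.Gf356 Crest.Agent.R116.EvL504
open Crest.Agent.R116.ChL222
open Crest.Agent.R116.PL504 (nb rL DN eL βL oL Shift eL_wall)
open Crest.Agent.R116.Sg337 (bx9)
open Crest.Agent.R116.Gd222 (TSet sN PDL DT)
open Crest.Agent.R116.KI439
open Crest.Agent.R116.KF439 (PL)
open Crest.Agent.R116.CtxB468
open Crest.Agent.R116.Kst593 Crest.Agent.R116.KW420
open Crest.Agent.R116.Rcx363 (fo fo_lip Prf)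
open Crest.Agent.R116.RbM219
open Crest.Agent.R116.SgF665 (wl wl_add wl_smul LM0)
open Crest.Agent.R116.WinG954 (LM)
open Crest.Agent.R116.Tq741 Crest.Agent.R116.Tq794

/-- more slots in `Z` -/
theorem linS_mono {Z Z' : Finset (Fin 9)} (h : Z ⊆ Z') {Λ : V9 → ℝ} {w R : V9}
    (hL : LinS Z Λ w R) : LinS Z' Λ w R := by
  obtain ⟨hh, Ψ, h1, h2, h3, h4⟩ := hL
  refine ⟨hh, fun d => Ψ d + ∑ u ∈ Z' \ Z, R u * d u, h1, h2, fun d d' hd h5 h6 => ?_,
    fun d hd => ?_⟩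
  · have e1 := h3 d d' (fun t ht => hd t (h ht)) h5 h6
    have e2 : ∑ u ∈ Z' \ Z, R u * d u = ∑ u ∈ Z' \ Z, R u * d' u :=
      Finset.sum_congr rfl fun u hu => by rw [hd u (Finset.mem_sdiff.1 hu).1]
    show Ψ d + _ = Ψ d' + _
    rw [e1, e2]
  · have e : Ψ d + ∑ u ∈ Z' \ Z, R u * d u + ∑ t ∈ Z'ᶜ, R t * d t = Ψ d + ∑ t ∈ Zᶜ, R t * d t := by
      rw [add_assoc]
      congr 1
      rw [← Finset.sum_union]
      · congr 1
        ext u
        simp only [Finset.mem_union, Finset.mem_sdiff, Finset.mem_compl]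
        constructor
        · rintro (⟨-, h7⟩ | h7)
          · exact h7
          · exact fun h8 => h7 (h h8)
        · intro h7
          by_cases h8 : u ∈ Z'
          · exact Or.inl ⟨h8, h7⟩
          · exact Or.inr h8
      · rw [Finset.disjoint_left]
        intro u h7 h8
        exact (Finset.mem_compl.1 h8) (Finset.mem_sdiff.1 h7).1
    rw [e]
    exact h4 d hd

/-- natural base; `D` raised above every multiple of the unit, or `D` live -/
structure NBase (E : V9 → Fin 12 → ℝ) (X : ℕ → Fin 12 → ℝ) (H : ℕ → ℝ) : Prop where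
  hx : ∀ l k, ∀ e ∈ monL.mon k, e 1 = 0 → X l k = wl e (X l)
  hD : (∀ k, ∀ e ∈ monL.mon k, e 1 ≠ 0 → ∀ K : ℝ, ∀ᶠ l in atTop, X l k + K * H l ≤ wl e (X l)) ∨
    ((∀ w, E w = E9 w) ∧ ∀ l k, ∀ e ∈ monL.mon k, e 1 ≠ 0 → X l k ≤ wl e (X l))
  p3 : ∀ l, X l 3 = X l 4
  p5 : ∀ l, X l 5 = X l 6
  p7 : ∀ l, X l 7 = X l 8

theorem mon_one' {k : Fin 12} {e : Fin 12 → ℕ} (he : e ∈ monL.mon k) : k ≠ 1 := (mon1 k e he).2

theorem wl_single' (e : Fin 12 → ℕ) (t : ℝ) :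
    wl e (t • (Pi.single 1 1 : Fin 12 → ℝ)) = t * e 1 := by
  rw [wl_smul]
  congr 1
  unfold wl
  rw [Finset.sum_eq_single (1 : Fin 12)]
  · rw [Pi.single_eq_same, mul_one]
  · intro s _ hs
    rw [Pi.single_eq_of_ne hs, mul_zero]
  · intro h
    exact absurd (Finset.mem_univ _) h

theorem nbase8 {X : ℕ → Fin 12 → ℝ} {H : ℕ → ℝ} {zz c p dd : ℕ → ℝ}
    (hXn : ∀ l, X l = eL (zz l) (c l) (p l) + dd l • (Pi.single 1 1 : Fin 12 → ℝ))
    (hdd : ∀ K : ℝ, ∀ᶠ l in atTop, K * H l ≤ dd l) : NBase E8 X H where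
  hx := by
    intro l k e he h1
    rw [hXn l, wl_add, show wl e (eL (zz l) (c l) (p l)) = eL (zz l) (c l) (p l) k from
      eL_wall _ _ _ k he, wl_single', h1]
    simp only [Pi.add_apply, Pi.smul_apply, smul_eq_mul, Pi.single_eq_of_ne (mon_one' he)]
    simp
  hD := by
    left
    intro k e he h1 K
    filter_upwards [hdd K, hdd 0] with l hl hl0
    rw [hXn l, wl_add, show wl e (eL (zz l) (c l) (p l)) = eL (zz l) (c l) (p l) k from
      eL_wall _ _ _ k he, wl_single']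
    simp only [Pi.add_apply, Pi.smul_apply, smul_eq_mul, Pi.single_eq_of_ne (mon_one' he)]
    have h2 : (1:ℝ) ≤ e 1 := by exact_mod_cast Nat.one_le_iff_ne_zero.2 h1
    nlinarith
  p3 := fun l => by rw [hXn l]; simp [eL]
  p5 := fun l => by rw [hXn l]; simp [eL]
  p7 := fun l => by rw [hXn l]; simp [eL]

theorem nbase9 {X : ℕ → Fin 12 → ℝ} {H : ℕ → ℝ} {zz c p : ℕ → ℝ}
    (hXn : ∀ l, X l = eL (zz l) (c l) (p l)) : NBase E9 X H where
  hx := by
    intro l k e he h1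
    rw [hXn l]
    exact (eL_wall _ _ _ k he).symm
  hD := by
    right
    refine ⟨fun _ => rfl, fun l k e he _ => ?_⟩
    rw [hXn l]
    exact (eL_wall _ _ _ k he).symm.le
  p3 := fun l => by rw [hXn l]; simp [eL]
  p5 := fun l => by rw [hXn l]; simp [eL]
  p7 := fun l => by rw [hXn l]; simp [eL]

section nb

variable {E : V9 → Fin 12 → ℝ} {M : Set (Fin 12 → ℝ)} {X : ℕ → Fin 12 → ℝ} {H : ℕ → ℝ}

/-- the walls without `D` -/
theorem NBase.walls (nb : NBase E X H) : (∀ n, X n 5 = X n 0 + X n 3) ∧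
    (∀ n, X n 6 = X n 0 + X n 4) ∧ (∀ n, X n 7 = X n 2 + X n 3) ∧ (∀ n, X n 8 = X n 2 + X n 4) ∧
    (∀ n, X n 11 = X n 0 + X n 10) ∧ (∀ n, X n 11 = X n 5 + X n 7) ∧
    (∀ n, X n 11 = X n 6 + X n 8) ∧ (∀ n, X n 10 = X n 3 + X n 7) ∧
    (∀ n, X n 10 = X n 4 + X n 8) ∧ (∀ n, X n 11 = X n 2 + X n 9) := by
  have g : ∀ (l : ℕ) (k : Fin 12) (e : Fin 12 → ℕ), e ∈ mfL k → e 1 = 0 → X l k = wl e (X l) := nb.hx
  refine ⟨fun n => ?_, fun n => ?_, fun n => ?_, fun n => ?_, fun n => ?_, fun n => ?_,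
    fun n => ?_, fun n => ?_, fun n => ?_, fun n => ?_⟩
  · have := g n 5 ![1, 0, 0, 1, 0, 0, 0, 0, 0, 0, 0, 0] (by decide) rfl
    rw [wl12] at this; simpa using this
  · have := g n 6 ![1, 0, 0, 0, 1, 0, 0, 0, 0, 0, 0, 0] (by decide) rfl
    rw [wl12] at this; simpa using this
  · have := g n 7 ![0, 0, 1, 1, 0, 0, 0, 0, 0, 0, 0, 0] (by decide) rfl
    rw [wl12] at this; simpa using this
  · have := g n 8 ![0, 0, 1, 0, 1, 0, 0, 0, 0, 0, 0, 0] (by decide) rfl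
    rw [wl12] at this; simpa using this
  · have := g n 11 ![1, 0, 0, 0, 0, 0, 0, 0, 0, 0, 1, 0] (by decide) rfl
    rw [wl12] at this; simpa using this
  · have := g n 11 ![0, 0, 0, 0, 0, 1, 0, 1, 0, 0, 0, 0] (by decide) rfl
    rw [wl12] at this; simpa using this
  · have := g n 11 ![0, 0, 0, 0, 0, 0, 1, 0, 1, 0, 0, 0] (by decide) rfl
    rw [wl12] at this; simpa using this
  · have := g n 10 ![0, 0, 0, 1, 0, 0, 0, 1, 0, 0, 0, 0] (by decide) rfl
    rw [wl12] at this; simpa using this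
  · have := g n 10 ![0, 0, 0, 0, 1, 0, 0, 0, 1, 0, 0, 0] (by decide) rfl
    rw [wl12] at this; simpa using this
  · have := g n 11 ![0, 0, 1, 0, 0, 0, 0, 0, 0, 1, 0, 0] (by decide) rfl
    rw [wl12] at this; simpa using this

/-- the walls with `D` -/
theorem NBase.slD (nb : NBase E X H) {w : V9} :
    (w 6 < w 8 + w 3 → Slw X H (E w) 1 5 7) ∧ (w 6 < w 8 + w 3 → Slw X H (E w) 1 6 8) ∧
      (w 2 < w 8 + w 5 → Slw X H (E w) 1 9 10) ∧ (w 7 < w 0 + w 8 → Slw X H (E w) 0 1 2) := by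
  rcases nb.hD with h | ⟨h0, h⟩
  · have g : ∀ (k : Fin 12) (e : Fin 12 → ℕ), e ∈ mfL k → e 1 ≠ 0 → ∀ K : ℝ,
      ∀ᶠ l in atTop, X l k + K * H l ≤ wl e (X l) := h
    refine ⟨fun _ => Or.inr fun K => ?_, fun _ => Or.inr fun K => ?_, fun _ => Or.inr fun K => ?_,
      fun _ => Or.inr fun K => ?_⟩
    · filter_upwards [g 7 ![0, 1, 0, 0, 0, 1, 0, 0, 0, 0, 0, 0] (by decide) (by decide) K] with l hl
      rw [wl12] at hl; simpa using hl
    · filter_upwards [g 8 ![0, 1, 0, 0, 0, 0, 1, 0, 0, 0, 0, 0] (by decide) (by decide) K] with l hl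
      rw [wl12] at hl; simpa using hl
    · filter_upwards [g 10 ![0, 1, 0, 0, 0, 0, 0, 0, 0, 1, 0, 0] (by decide) (by decide) K] with l hl
      rw [wl12] at hl; simpa using hl
    · filter_upwards [g 2 ![1, 1, 0, 0, 0, 0, 0, 0, 0, 0, 0, 0] (by decide) (by decide) K] with l hl
      rw [wl12] at hl; simpa using hl
  · have g : ∀ (l : ℕ) (k : Fin 12) (e : Fin 12 → ℕ), e ∈ mfL k → e 1 ≠ 0 →
      X l k ≤ wl e (X l) := h
    refine ⟨fun hg => Or.inl ⟨Eventually.of_forall fun l => ?_, ?_⟩,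
      fun hg => Or.inl ⟨Eventually.of_forall fun l => ?_, ?_⟩,
      fun hg => Or.inl ⟨Eventually.of_forall fun l => ?_, ?_⟩,
      fun hg => Or.inl ⟨Eventually.of_forall fun l => ?_, ?_⟩⟩
    · have := g l 7 ![0, 1, 0, 0, 0, 1, 0, 0, 0, 0, 0, 0] (by decide) (by decide)
      rw [wl12] at this; simpa using this
    · rw [h0]; exact hg
    · have := g l 8 ![0, 1, 0, 0, 0, 0, 1, 0, 0, 0, 0, 0] (by decide) (by decide)
      rw [wl12] at this; simpa using this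
    · rw [h0]; exact hg
    · have := g l 10 ![0, 1, 0, 0, 0, 0, 0, 0, 0, 1, 0, 0] (by decide) (by decide)
      rw [wl12] at this; simpa using this
    · rw [h0]; exact hg
    · have := g l 2 ![1, 1, 0, 0, 0, 0, 0, 0, 0, 0, 0, 0] (by decide) (by decide)
      rw [wl12] at this; simpa using this
    · rw [h0]; exact hg

end nb

end Crest.Agent.R116.Tw369
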