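import Crest.Agent.R116.Hm2_621
import Crest.Agent.R116.Th5c_658
import Crest.Agent.R116.Tk7_538_Mg
import Crest.Agent.R116.D0h5_894_Mg
import Crest.Agent.R116.Th5d_658
import Crest.Agent.R116.TwF6_369

-- ▼ part R116/FlH_858
section

/-!
# R116, ROW TIE, `1/2 ≤ s`: coverage of the regions (helper858, second of helper850)

`k = θ0 - θ1`, `k' = 2 θ0 - θ1`.

* `eLo` : 621's cell (`e`-tie, `T⁻`, `k < 1`, `(1 + k)/2 ≤ θ0`), D0 of 708 and 894 plugged, no binder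
* `fillH_e` : 171's `T⁺` cell and (H4) (`k = 1`) ⊢ every `e`-tie with `k ≤ 1`
* `fillH_k` : 658's cell ⊢ every `κ`-tie with `k' < 1` (538's and 954's cells plugged)
* `fillH_d` : 171's `T⁺` cell, 658's cell ⊢ every double tie with `k' < 1`
-/

set_option autoImplicit false
set_option linter.unusedVariables false

open Finset Filter Topology

namespace Crest.Agent.R116.FlH858

open Crest.Agent.R138.Ex926 (Base U)
open Crest.Agent.R136.MkA627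
open Crest.Agent.R136.TD627
open Crest.Agent.R116.KI439
open Crest.Agent.R116.Gd222 (TSet)
open Crest.Agent.R116.ChL222 (LInc)
open Crest.Agent.R116.Tw468 (OutT OutR)
open Crest.Agent.R116.KF439 (PL)
open Crest.Agent.R116.KTop387
open Crest.Agent.R116.CtxB468
open Crest.Agent.R116.KTie794
open Crest.Agent.R116.Hm621 (XLo)
open Crest.Agent.R116.Th658 (reg5)

variable {η : ℝ}

/-- visible slots: `e`-tie -/
abbrev VE (θ : Fin 2 → ℝ) (B : Base) (I : ℕ → Finset (ℕ × ℝ)) (lev : ℕ → ℚ → ℕ)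
    (fl : ℕ → ℕ × ℝ → LInc) (sc : Fin 12 → ℕ → ℝ) : Prop :=
  VisB θ B I lev fl sc ∧ InvE B I fl sc


/-- visible slots: double tie -/
abbrev VD (θ : Fin 2 → ℝ) (B : Base) (I : ℕ → Finset (ℕ × ℝ)) (lev : ℕ → ℚ → ℕ)
    (fl : ℕ → ℕ × ℝ → LInc) (sc : Fin 12 → ℕ → ℝ) : Prop :=
  VisB θ B I lev fl sc ∧ VisE θ B I lev fl sc





/-- 658's D0 region from 708's -/
theorem d0_5 (hη : η < 1) : D0T η reg5 := by
  intro G L r g s θ q Rg B I lev A f b vm w fr fl sc w0 sa sb δ R I0 I' ν own c₀ C N h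
  obtain ⟨h1, h2, h3, h4⟩ := h
  exact D0h708.d0H2 hη C N ⟨h1, by linarith, by linarith, by linarith, fun h => by linarith,
    by linarith, fun h => by linarith [h.1, h.2]⟩



end Crest.Agent.R116.FlH858
end

-- ▼ part R116/Th5k_363

/-!
# R116, ROW TIE: (W3k) on the plane `kD`, `B` visible or not; the cell `1/2 ≤ s`, `1 + k' ≤ 3 θ`
(helper363)

* `fctK8x`      : 741's `FctK` on 363's plane `kD`, `B` coarser than its own level
* `cell5x`      : 658's `cell5` over `plane8x`, no plug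
* **`fillH5_k`**, **`fillH5_d`** : the fills without binder
-/

set_option autoImplicit false
set_option linter.unusedSectionVars false
set_option linter.unusedVariables false

open Set Filter Topology

namespace Crest.Agent.R116.Th5k363

open Crest.Agent.R138
open Crest.Agent.R138.Ex926 (Base U IsTan)
open Crest.Agent.R136
open Crest.Agent.R136.MkA627
open Crest.Agent.R136.TD627
open Crest.Agent.R136.Net191
open Crest.Agent.R136.Lq196
open Crest.Agent.R116.ChL222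
open Crest.Agent.R116.PL504 (nb rL DN eL βL oL Shift)
open Crest.Agent.R116.Sg337 (bx9 DL)
open Crest.Agent.R116.Gd222 (TSet sN PDL DT)
open Crest.Agent.R116.KI439
open Crest.Agent.R116.KF439 (PL)
open Crest.Agent.R116.KTop387
open Crest.Agent.R116.CtxB468
open Crest.Agent.R116.KTie794
open Crest.Agent.R116.Rcx363
open Crest.Agent.R116.RbM219
open Crest.Agent.R116.RbK219 (RS)
open Crest.Agent.R116.Kz647
open Crest.Agent.R116.Pd363
open Crest.Agent.R116.Tq741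
open Crest.Agent.R116.Tq794
open Crest.Agent.R116.Tp139
open Crest.Agent.R116.Pu171
open Crest.Agent.R116.Tie460
open Crest.Agent.R116.Th658 (reg5 pbK8 cK_eq tanver_A kD_false)
open Sl741 (slice xt rs)

section ctx

variable {G : Geo TSet (Fin 2)} {L : ℕ → ℕ → LRay} {r : ℕ → ℝ} {g s : ℝ} {θ q : Fin 2 → ℝ}
    {Rg : ℝ} {B : Base} {I : ℕ → Finset (ℕ × ℝ)} {lev : ℕ → ℚ → ℕ} {A : ℕ → ℝ}
    {f : ℕ → ℚ → ℕ → ℤ → ℕ} {b : ℕ → ℚ → ℕ → TSet} {vm : ℕ → ℚ → ℝ} {w : Fin 2 → ℕ → ℚ → ℝ}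
    {fr : ℕ → ℚ → ℕ × ℝ → LInc} {fl : ℕ → ℕ × ℝ → LInc} {sc : Fin 12 → ℕ → ℝ}
    {w0 sa sb δ R : ℝ} {I0 I' : ℕ → Finset (ℕ × ℝ)} {ν own : (Fin 12 → ℝ) → ℝ} {c₀ : ℝ} {η : ℝ}

/-- **(W3k) on the plane `kD`**, `D` frozen and invisible, `E` tied, `B` invisible or
macroscopically coarser than its own level -/
theorem fctK8x
    (C : CtxT G L r g s θ q Rg B I lev A f b vm w fr fl sc w0 sa sb δ R I0 I' ν own c₀)
    {v0 t κ l α : ℝ} {a b' : Fin 2} {Vis' : Fin 12 → Prop} {X : ℕ → Fin 12 → ℝ}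
    {h' H : ℕ → ℝ} {lam lam2 : Fin 2 → (Fin 12 → ℝ) → ℝ} {ρ ρ2 : Fin 8 → ℝ}
    (P : Pd8 R s a b' Vis' (θ 0) (θ 1) w0 sa sb v0 t κ kD (-1) (fo ν own) lam ρ l α h' X H lam2 ρ2)
    (ht : t ≠ 0) (hv0 : 0 < v0) (hv1 : v0 < 1) (hI1 : InvT PL B I 1 fl (sc 1))
    (hE : TieT θ B I lev fl sc 2)
    (hB : ∀ k, k = 7 ∨ k = 8 → InvT PL B I k fl (sc k) ∨ ∀ K : ℝ, ∀ᶠ l in atTop,
      X l k + K * H l ≤ rL (θ 0) (θ 1) w0 sa sb (X l 0 - w0) k) :
    FctK (2 * θ 0 - θ 1)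
      (fun w => lam2 0 (xt kp 0 (RL8.vec (fun i : Fin 8 => w i.castSucc)))) := by
  refine ⟨fun x Rw ho hx hL => ?_⟩
  have hL' : LinS {0, 7} (fun w => lam2 0 (E8 w)) x Rw := by
    simpa only [Tq794.E8_eq] using hL
  refine Tw369.k3 C hE Tw369.em8 Tw369.rz8K (pbK8 P ht hv0 hv1) (fun k hk0 hV => ?_) ho hx
    (Tw369.linS_mono (by decide) hL')
  rcases Fk647.vis_flag C.out k hV with rfl | rfl | rfl | rfl | rfl
  · exact absurd rfl hk0
  · exact absurd hI1 hV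
  · exact Or.inl rfl
  · rcases hB 7 (Or.inl rfl) with h | h
    · exact absurd h hV
    · exact Or.inr (Or.inr h)
  · rcases hB 8 (Or.inr rfl) with h | h
    · exact absurd h hV
    · exact Or.inr (Or.inr h)

/-- **658's cell over the context**, over `plane8x` -/
theorem cell5x (hη : η < 1)
    (C : CtxT G L r (g + 2 * s) s θ q Rg B I lev A f b vm w fr fl sc w0 sa sb δ R I0 I' ν own c₀)
    (hN : NumL η g s θ q) (hR0 : w0 + (θ 1 + sb) < R) (hR1 : w0 + 1 + sb < R)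
    (hRg : θ 0 + |θ 1| + 1 ≤ Rg) (hmic : Mic ν (θ 0) (θ 1) w0 sa sb)
    (hV1 : InvT PL B I 1 fl (sc 1)) (hT : TieT θ B I lev fl sc 2) (h5 : reg5 s θ) : False := by
  obtain ⟨hs, hk, hk1, hθ⟩ := h5
  have hθ0 := hN.θa
  have hk0 : 0 < 2 * θ 0 - θ 1 := by linarith
  have hb : θ 1 = 2 * θ 0 - (2 * θ 0 - θ 1) := by ring
  have hSok := sok_kD hθ0 hk0 hb
  obtain ⟨v0, -, hv0, hv1, a, b', x, hh, lam, -, -, O⟩ := exists_out8 C hR0 hR1 hθ0 (by linarith)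
    hmic hV1 (t := 1) one_pos (T := Unit) (Bs := fun _ => kD) (sg := fun _ => -1)
    (fun _ => hSok) (fun _ => leg_kD) (N := Set.univ) (Eventually.of_forall fun _ => trivial)
  obtain ⟨c0, hc0, -, -, ρ, hR⟩ := O.surf ()
  have e0 : kD 0 = 0 := rfl
  have e7 : kD (cl8 7) < kD 0 * βL (θ 0) (θ 1) 7 := by
    change kD 6 < kD 0 * _
    rw [e0, zero_mul]
    ev8; norm_num
  have e8 : kD (cl8 8) < kD 0 * βL (θ 0) (θ 1) 8 := by
    change kD 6 < kD 0 * _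
    rw [e0, zero_mul]
    ev8; norm_num
  have hVis : ∀ k, VisT B I fl sc k → ((VisT B I fl sc k ∧ k ≠ 7 ∧ k ≠ 8) ∧
      kD (cl8 k) ≤ kD 0 * βL (θ 0) (θ 1) k) ∨ kD (cl8 k) < kD 0 * βL (θ 0) (θ 1) k := by
    intro k hk'
    rcases Fk647.vis_flag C.out k hk' with rfl | rfl | rfl | rfl | rfl
    · refine Or.inl ⟨⟨hk', by decide, by decide⟩, ?_⟩
      change kD 0 ≤ kD 0 * _
      rw [e0, zero_mul]
    · exact absurd hV1 hk'
    · refine Or.inl ⟨⟨hk', by decide, by decide⟩, ?_⟩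
      change kD 7 ≤ kD 0 * _
      rw [e0, zero_mul]
      ev8; norm_num
    · exact Or.inr e7
    · exact Or.inr e8
  obtain ⟨l, α, h', X, H, lam2, ρ2, -, -, -, P, co⟩ :=
    plane8x (Vis' := fun k => VisT B I fl sc k ∧ k ≠ 7 ∧ k ≠ 8) (v := 0) (c := -1) (p := -2) O
      one_pos hSok leg_kD hc0 hR le_rfl (not_not.2 hV1) hVis (N := Set.univ)
      (Eventually.of_forall fun _ => trivial) (y := 1) one_pos
  have hc : ∀ i j : Fin 8, Tk538.cK i.castSucc = Tk538.cK j.castSucc ↔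
      RbK219.Par (nat8 1 (-(θ 0)) (-(θ 1))) kD i j := fun i j => by
    rw [← cK_eq hk hk1]
    exact Tq126.hc_kD hθ0 hk0 hb i j
  obtain ⟨φ, Hc⟩ := P.cls one_pos hSok
    (fun k hk' => Fk647.vis_flag C.out k hk'.1) hc (by decide) (Tq126.hz_kD hθ0 hk0 hb)
  have hSk : ∀ w : V9, LegM 0 w → w 7 < (2 * θ 0 - θ 1) * w 0 →
      ∀ k, (VisT B I fl sc k ∧ k ≠ 7 ∧ k ≠ 8) → E8 w k ≤ w 0 * βL (θ 0) (θ 1) k := by
    intro w hw hw7 k hk'
    rcases Fk647.vis_flag C.out k hk'.1 with rfl | rfl | rfl | rfl | rfl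
    · have e1 : βL (θ 0) (θ 1) 0 = 1 := rfl
      rw [e1, mul_one]; exact le_rfl
    · exact absurd hV1 hk'.1
    · have e2 : βL (θ 0) (θ 1) 2 = -(θ 1) - 2 * -(θ 0) := rfl
      change w 7 ≤ w 0 * _
      rw [e2]
      nlinarith
    · exact absurd rfl hk'.2.1
    · exact absurd rfl hk'.2.2
  have FP := Th658.pd8_fctP (Sk := fun w => w 7 < (2 * θ 0 - θ 1) * w 0) (v := 0) (c := -1) (p := -2)
    P C hN.s1 one_ne_zero hSk
  have FK := fctK8x C P one_ne_zero hv0 hv1 hV1 hT fun k hk' => Or.inr (by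
    rcases hk' with rfl | rfl
    · exact co 7 (by decide) e7
    · exact co 8 (by decide) e8)
  have hrec : lam 0 (xt kp 0 (RL8.vec (nat8 1 (-(θ 0)) (-(θ 1))))) =
      DL (g + 2 * s) s (q 0) (q 1) 1 (-(θ 0)) (-(θ 1)) := by
    have h1 := O.rx.rcd 1
    rw [RL8_nat]
    simpa only [mul_one, ntD] using h1
  obtain ⟨tan, ver⟩ := tanver_A P.half (O.zero 0) hrec hθ0 hk hk1 hb
  exact kD_false (num_of hη hN) hs hk hk1 (by linarith) Hc FP FK
    (κ1 := 1) (κ2 := 2 * θ 0 - θ 1) (κ3 := 1) (fun w _ h7 _ => h7) one_pos hk0 one_pos tan ver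

end ctx

/-- **THE FILL** : `κ`-tie and double tie, `1/2 ≤ s`, `1/2 < k' < 1`, `1 + k' ≤ 3 θ` -/
theorem fillH5 {η : ℝ} (hη : η < 1)
    {V : (Fin 2 → ℝ) → Base → (ℕ → Finset (ℕ × ℝ)) → (ℕ → ℚ → ℕ) → (ℕ → ℕ × ℝ → LInc) →
      (Fin 12 → ℕ → ℝ) → Prop}
    (hV : ∀ θ B I lev fl sc, V θ B I lev fl sc → VisE θ B I lev fl sc) :
    Fill η V fun g s θ q => 1 / 2 ≤ s → 1 / 2 < 2 * θ 0 - θ 1 → 2 * θ 0 - θ 1 < 1 →
      1 + (2 * θ 0 - θ 1) ≤ 3 * θ 0 → False := by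
  intro g s θ q hN
  refine ⟨θ 0 + |θ 1| + 1, fun Rg hRg => ?_⟩
  intro G L r B I lev A f b vm w fr fl sc w0 sa sb δ R I0 I' ν own c₀ C hV' hs hk hk1 hθ
  obtain ⟨w0, sa, sb, δ, R, I0, I', ν, own, c₀, C, hR0, hR1⟩ := strict_ctx C
  have hV1 : InvT PL B I 1 fl (sc 1) := C.out.invD (by linarith)
  have hT : TieT θ B I lev fl sc 2 := by
    rcases hV _ _ _ _ _ _ hV' with h | h
    · exact h
    · exact absurd hV1 h.1
  have h5 : reg5 s θ := ⟨hs, hk, hk1, hθ⟩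
  have hmic := FlH858.d0_5 hη C hN h5 hR0 hR1 hRg hV1 (fun _ => by linarith [hN.θa]) (fun _ => hk1)
  exact cell5x hη C hN hR0 hR1 hRg hmic hV1 hT h5

/-- `κ`-tie -/
theorem fillH5_k {η : ℝ} (hη : η < 1) :
    Fill η (fun θ B I lev fl sc => InvB B I fl sc ∧ VisE θ B I lev fl sc)
      fun g s θ q => 1 / 2 ≤ s → 1 / 2 < 2 * θ 0 - θ 1 → 2 * θ 0 - θ 1 < 1 →
        1 + (2 * θ 0 - θ 1) ≤ 3 * θ 0 → False :=
  fillH5 hη fun _ _ _ _ _ _ h => h.2

/-- double tie -/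
theorem fillH5_d {η : ℝ} (hη : η < 1) :
    Fill η (fun θ B I lev fl sc => VisB θ B I lev fl sc ∧ VisE θ B I lev fl sc)
      fun g s θ q => 1 / 2 ≤ s → 1 / 2 < 2 * θ 0 - θ 1 → 2 * θ 0 - θ 1 < 1 →
        1 + (2 * θ 0 - θ 1) ≤ 3 * θ 0 → False :=
  fillH5 hη fun _ _ _ _ _ _ h => h.2

end Crest.Agent.R116.Th5k363
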