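import Crest.Agent.R116.Hm2_621
import Crest.Agent.R116.D0h5_894_Mg
import Crest.Agent.R116.FlH_850
import Crest.Agent.R116.Tk7_538_Mg
import Crest.Agent.R116.Th5k_363
import Crest.Agent.R116.Th2c_899
import Crest.Agent.R116.Pe2_794
import Crest.Agent.R116.Kt3_387
import Crest.Agent.R116.Tm3_741
import Crest.Agent.R116.Tk8_126
import Crest.Agent.R116.PosA_348
import Crest.Agent.R116.IIr4_460
import Crest.Agent.R116.K1p2_736
import Crest.Agent.R116.Th4_171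
import Crest.Agent.R116.FlK1_363
import Crest.Agent.R116.Pd3_363
import Crest.Agent.R116.Tp7_139
import Crest.Agent.R116.Rz3_460
import Crest.Agent.R116.FlK2_30

-- ▼ part R116/Hm4_621
section

/-!
# R116 (K side, TIES): the cell `1/2 ≤ s`, `e`-tie, `k < 1`, `(1 + k)/2 ≤ θa`, no binder (helper621)
-/

set_option autoImplicit false
set_option linter.unusedSectionVars false
set_option linter.unusedVariables false

open Set Filter Topology MeasureTheory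

namespace Crest.Agent.R116.Hm621

open Crest.Agent.R116.KTie794

/-- **D0 on the region of the cell**, `β_D ≠ 0` -/
theorem d0_XLo {η : ℝ} (hη : η < 1) : D0T η fun s θ => XLo s θ ∧ 2 * θ 0 - θ 1 ≠ 1 :=
  D0T.mono (D0h708.d0H2 hη) (Y := fun s θ => XLo s θ ∧ 2 * θ 0 - θ 1 ≠ 1) fun s θ h => by
    obtain ⟨⟨h1, h2, h3, h4⟩, h5⟩ := h
    refine ⟨h1, by linarith, by linarith, by linarith, fun h7 => h5 (by linarith), by linarith,
      fun h8 => ?_⟩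
    linarith [h8.1, h8.2]

/-- **D0 on the region of the cell**, `β_D = 0` -/
theorem d0_XLo0 {η : ℝ} (hη : η < 1) : D0E η fun s θ => XLo s θ ∧ 2 * θ 0 - θ 1 = 1 :=
  D0E.mono (D0h0894.D0Hz hη) (Y := fun s θ => XLo s θ ∧ 2 * θ 0 - θ 1 = 1) fun s θ h => by
    obtain ⟨⟨h1, h2, h3, h4⟩, h5⟩ := h
    exact ⟨h1, h5, by linarith⟩

/-- **`e`-tie, `k < 1`, `(1 + k)/2 ≤ θa`, `1/2 ≤ s`** -/
theorem fillE_lo4 {η : ℝ} (hη : η < 1) :
    Fill η (fun θ B I lev fl sc => VisB θ B I lev fl sc ∧ InvE B I fl sc)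
      fun g s θ q => 1 / 2 ≤ s → θ 0 - θ 1 < 1 → 1 + (θ 0 - θ 1) ≤ 2 * θ 0 → False :=
  fillE_lo' hη (d0_XLo hη) (d0_XLo0 hη)

end Crest.Agent.R116.Hm621
end

-- ▼ part R116/RTf_850
section

/-!
# R116, ROW TIE (helper850, finished by helper858): the assembly with all landed cells of `1/2 ≤ s`

* **`falseE_tab`, `falseK_tab`, `falseD_tab`** : from the tables (794, 363, 348) and the line
  `k = 1` (120); the cells of 171 / 899, 621, 954, 538, 658 / 363 are plugged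
* **`rowTie_of_tabs`**
-/

set_option autoImplicit false
set_option linter.unusedVariables false

open Finset Filter Topology MeasureTheory Set

namespace Crest.Agent.R116.FlH850

open Crest.Agent.R116.KTop387
open Crest.Agent.R116.CtxB468
open Crest.Agent.R116.Tie460
open Crest.Agent.R116.KTie794

variable {η : ℝ}

/-- 621's cell -/
theorem fillE_lo (hη : η < 1) : Fill η VE fun g s θ q =>
    1 / 2 ≤ s → θ 0 - θ 1 < 1 → 1 + (θ 0 - θ 1) ≤ 2 * θ 0 → False :=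
  Hm621.fillE_lo4 hη



/-- **`e`-tie** from 794's table and the line `k = 1` -/
theorem falseE_tab (hη : η < 1)
    (hT : Fill η VE fun g s θ q => (s < 1 / 2 ∨ 1 < θ 0 - θ 1) →
      ETie' (θ 0 - θ 1) (θ 0) s (g + 2 * s) (q 0) (q 1))
    (h1 : Fill η VE fun g s θ q => 1 / 2 ≤ s → θ 0 - θ 1 = 1 → False) : FalseE η :=
  falseE_cells hη (fun _ => False)
    (hT.mono fun g s θ q _ h h' => h (by
      rcases h' with h' | h' | h'
      · exact Or.inl h'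
      · exact Or.inr h'
      · exact h'.2.elim))
    (h1.mono fun g s θ q _ h a b _ => h a b) (Th899.fillE_up η) (fillE_lo hη)




end Crest.Agent.R116.FlH850
end

-- ▼ part R116/FlE9_330
section

/-!
# R116, ROW TIE, `e`-tie with `k > 1` (helper330)

* `eU9 k` : the natural offset above the record, tables
* `planeE9` : `Out9` + `CtxT` ⊢ facts, tangency and vertical inequality of a natural plane
* **`eTie9`** : the data `ETie'` for `1 < θ 0 - θ 1`, every `s`; `fillE9` : as a `Fill`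
-/

set_option autoImplicit false
set_option linter.unusedSectionVars false
set_option linter.unusedVariables false

open Set Filter Topology MeasureTheory

namespace Crest.Agent.R116.FlE330

open Crest.Agent.R138
open Crest.Agent.R138.Ex926 (Base U IsTan)
open Crest.Agent.R136
open Crest.Agent.R136.MkA627
open Crest.Agent.R136.TD627
open Crest.Agent.R136.Net191
open Crest.Agent.R136.Lq196
open Crest.Agent.R136.Qg926 Crest.Agent.R136.Gf356 Crest.Agent.R116.EvL504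
open Crest.Agent.R116.ChL222
open Crest.Agent.R116.PL504 (nb rL DN eL βL oL Shift eL_wall)
open Crest.Agent.R116.Sg337 (bx9 DL coneL)
open Crest.Agent.R116.Gd222 (TSet sN PDL DT)
open Crest.Agent.R116.KI439 hiding kD
open Crest.Agent.R116.KF439 (PL)
open Crest.Agent.R116.CtxB468
open Crest.Agent.R116.Rcx363
open Crest.Agent.R116.RbM219
open Crest.Agent.R116.RbK219 (RS SOk Par dl Aln)
open Crest.Agent.R116.SgO219 (PP)
open Crest.Agent.R116.Kz647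
open Crest.Agent.R116.Pd363
open Crest.Agent.R116.Tq794
open Crest.Agent.R116.Tq741
open Crest.Agent.R116.Tq126
open Crest.Agent.R116.Tp139
open Crest.Agent.R116.KTop387
open Crest.Agent.R116.KTie794
open Crest.Agent.R116.Pos126 (posB9)
open Crest.Agent.R116.PosA348 (posA_eD9)
open Crest.Agent.R116.Kt387 (pd9_fct')
open Tie460 (Pl EF' EUp' ETie')
open Dg219 (mw Walls)
open Dg262 (SupOn)
open Sl741 (slice xt rs)

/-! ### the offset above the record -/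

section tabs

variable {θ θb k : ℝ}

/-- `T⁺` of the `e`-plane, natural, `k > 1` -/
def eU9 (k : ℝ) : Fin 9 → ℝ := nat9 1 (k - 1) (2 * k - 1)

theorem sok_eU9 (hθ : 0 < θ) (hk : 1 < k) (hb : θb = θ - k) :
    SOk (nat9 1 (-θ) (-θb)) (eU9 k) 1 where
  sg1 := Or.inl rfl
  nn := by refine all9 ?_ ?_ ?_ ?_ ?_ ?_ ?_ ?_ ?_ <;> simp only [eU9] <;> ev9 <;> linarith
  zero := by
    refine all9 ?_ ?_ ?_ ?_ ?_ ?_ ?_ ?_ ?_ <;> intro h <;> simp only [eU9] at h <;> ev9 <;> linarith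

theorem leg_eU9 : Leg9 (eU9 k) := leg9_nat _ _ _

theorem aln_eU9 (hθ : 0 < θ) (hk : 1 < k) (hb : θb = θ - k) :
    Aln (nat9 1 (-θ) (-θb)) (eU9 k) 1 := by
  have h1 := mul_pos hθ (by linarith : 0 < k)
  have h2 := mul_pos (by linarith : 0 < k) (by linarith : 0 < k - 1)
  subst hb
  refine all9 ?_ ?_ ?_ ?_ ?_ ?_ ?_ ?_ ?_ <;> intro ht h <;>
    first | exact ht rfl | (simp only [eU9] at h; ev9; nlinarith)

theorem vEU9 (t : Fin 9) (hb : θb = θ - k) :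
    eU9 k t = 1 * nat9 1 (-θ) (-θb) t + (θ + k - 1) * nat9 0 1 1 t := by
  subst hb; revert t
  refine all9 ?_ ?_ ?_ ?_ ?_ ?_ ?_ ?_ ?_ <;> simp only [eU9] <;> ev9 <;> ring

theorem hc_eU9 (hθ : 0 < θ) (hk : 1 < k) (hb : θb = θ - k) (i j : Fin 9) :
    cE k i = cE k j ↔ Par (nat9 1 (-θ) (-θb)) (eU9 k) i j :=
  (tabE9 hθ hk hb i j).trans (par_of (x := 1) (y := θ + k - 1) (fun t => vEU9 t hb)
    (by linarith : 0 < θ + k - 1).ne' i j).symm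

theorem hz_eU9 (hθ : 0 < θ) (hk : 1 < k) (hb : θb = θ - k) (i : Fin 9)
    (h : Par (nat9 1 (-θ) (-θb)) (eU9 k) 0 i) : i = 0 ∨ i = 6 ∨ i = 7 ∨ i = 8 := by
  rcases z_cE (k := k) _ ((hc_eU9 hθ hk hb 0 i).2 h) with h1 | h1
  · exact Or.inl h1
  · exact Or.inr (Or.inl h1)

theorem hG_eU9 (hθ : 0 < θ) (hk : 1 < k) (hb : θb = θ - k)
    (h : Par (nat9 1 (-θ) (-θb)) (eU9 k) 0 7) : Par (nat9 1 (-θ) (-θb)) (eU9 k) 0 8 ∧
      dl (nat9 1 (-θ) (-θb)) (eU9 k) 1 7 ≤ dl (nat9 1 (-θ) (-θb)) (eU9 k) 1 0 +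
        dl (nat9 1 (-θ) (-θb)) (eU9 k) 1 8 := by
  exact absurd (z_cE (k := k) _ ((hc_eU9 hθ hk hb 0 7).2 h)) (by decide)

theorem par_gen9 (hk : 1 < k) : ∀ t t', cE k t = cE k t' ↔ PE k t t' := by
  have h1 : ¬ k = 1 := hk.ne'
  have h2 : ¬ k = 1 / 2 := by intro h; rw [h] at hk; norm_num at hk
  have h3 : ¬ k = 2⁻¹ := by rwa [one_div] at h2
  intro t t'
  unfold PE
  revert t t'
  refine all9 ?_ ?_ ?_ ?_ ?_ ?_ ?_ ?_ ?_ <;> refine all9 ?_ ?_ ?_ ?_ ?_ ?_ ?_ ?_ ?_ <;> evc <;>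
    simp [h1, h3]

theorem ple_D (hθ : 0 < θ) (hk : 1 < k) :
    PlE k (cE k) (dl (nat9 1 (-θ) (-θb)) (eD9 k) (-1)) where
  par := par_gen9 hk
  d6 := by
    have e6 : eD9 k 6 = -k := by ev9; ring
    have e0 : eD9 k 0 = -1 := rfl
    unfold dl
    rw [e6, e0, if_neg (by linarith), if_neg (by norm_num)]; ring
  d3 := fun h => absurd h hk.ne'
  d5 := fun h => by rw [h] at hk; norm_num at hk

theorem ple_U (hθ : 0 < θ) (hk : 1 < k) :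
    PlE k (cE k) (dl (nat9 1 (-θ) (-θb)) (eU9 k) 1) where
  par := par_gen9 hk
  d6 := by
    have e6 : eU9 k 6 = k := by simp only [eU9]; ev9; ring
    have e0 : eU9 k 0 = 1 := rfl
    unfold dl
    rw [e6, e0, if_neg (by linarith), if_neg (by norm_num)]; ring
  d3 := fun h => absurd h hk.ne'
  d5 := fun h => by rw [h] at hk; norm_num at hk

section cmp

variable {lam : (Fin 12 → ℝ) → ℝ} {M : Set (Fin 12 → ℝ)} {c₁ c₂ : ℝ} {ρ₁ ρ₂ : Fin 9 → ℝ}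

/-- rate of `C_a` on `T⁺` ≤ rate on `T⁻` -/
theorem ant_eU9 (hs : SupOn lam M) (hθ : 0 < θ) (hc₁ : 0 < c₁) (hc₂ : 0 < c₂)
    (hk : 1 < k) (hb : θb = θ - k)
    (hM₁ : (srf9 θ θb (eD9 k) (-1)).LW (mw monL) c₁ ⊆ M)
    (hM₂ : (srf9 θ θb (eU9 k) 1).LW (mw monL) c₂ ⊆ M)
    (r₁ : Rates9 θ θb (eD9 k) (-1) c₁ lam ρ₁) (r₂ : Rates9 θ θb (eU9 k) 1 c₂ lam ρ₂) :
    ρ₂ 1 ≤ ρ₁ 1 := by
  have hk1 : 0 < k - 1 := by linarith
  have h1 := mul_pos hθ hk1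
  have h2 := mul_pos hk1 hk1
  refine cl9' hs hθ (sok_eD9 hθ hk hb) (sok_eU9 hθ hk hb)
    (aln_eD9 hθ hk hb) (aln_eU9 hθ hk hb) hc₁ hc₂ hM₁ hM₂ r₁ r₂
    0 (2 * (k - 1)) θ θ hθ hθ ?_ ?_
  · subst hb
    refine all9 ?_ ?_ ?_ ?_ ?_ ?_ ?_ ?_ ?_ <;> simp only [eU9] <;> ev9 <;> nlinarith
  · simp only [eU9]; ev9; ring

/-- rate of `C_a` on `(1, 0)` ≤ rate on `T⁺`, `θb < 0` -/
theorem pos_eU9 (hs : SupOn lam M) (hθ : 0 < θ) (hc₁ : 0 < c₁) (hc₂ : 0 < c₂)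
    (hk : 1 < k) (hb : θb = θ - k) (hb0 : θb < 0)
    (hM₁ : (srf9 θ θb (eU9 k) 1).LW (mw monL) c₁ ⊆ M)
    (hM₂ : (srf9 θ θb oP9 1).LW (mw monL) c₂ ⊆ M)
    (r₁ : Rates9 θ θb (eU9 k) 1 c₁ lam ρ₁) (r₂ : Rates9 θ θb oP9 1 c₂ lam ρ₂) :
    ρ₂ 1 ≤ ρ₁ 1 := by
  have hk0 : 0 < k - θ := by linarith
  have hk1 : 0 < k - 1 := by linarith
  have hkk : 0 < k := by linarith
  have h1 := mul_pos hk0 hk1
  have h2 := mul_pos hkk hθ
  have h3 := mul_pos hkk hk0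
  have h4 := mul_pos hkk hkk
  have h5 := mul_pos hkk hk1
  refine cl9' hs hθ (sok_eU9 hθ hk hb)
    (sok_oP9 (by linarith) (by linarith) hb0 hθ) (aln_eU9 hθ hk hb)
    (aln_oP9 (by linarith) (by linarith) hb0 hθ) hc₁ hc₂ hM₁ hM₂ r₁ r₂ (-(2 * k)) 0
    (k - θ) ((k - θ) * (k - 1) + 2 * k * θ) hk0 (by nlinarith) ?_ ?_
  · subst hb
    refine all9 ?_ ?_ ?_ ?_ ?_ ?_ ?_ ?_ ?_ <;> simp only [eU9] <;> ev9 <;> nlinarith
  · simp only [eU9]; ev9; ring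

end cmp

end tabs

/-! ### a natural plane -/

section ctx

variable {G : Geo TSet (Fin 2)} {L : ℕ → ℕ → LRay} {r : ℕ → ℝ} {g g' s : ℝ} {θ q : Fin 2 → ℝ}
    {Rg : ℝ} {B : Base} {I : ℕ → Finset (ℕ × ℝ)} {lev : ℕ → ℚ → ℕ} {A : ℕ → ℝ}
    {f : ℕ → ℚ → ℕ → ℤ → ℕ} {b : ℕ → ℚ → ℕ → TSet} {vm : ℕ → ℚ → ℝ} {w : Fin 2 → ℕ → ℚ → ℝ}
    {fr : ℕ → ℚ → ℕ × ℝ → LInc} {fl : ℕ → ℕ × ℝ → LInc} {sc : Fin 12 → ℕ → ℝ}
    {w0 sa sb δ R : ℝ} {I0 I' : ℕ → Finset (ℕ × ℝ)} {ν own : (Fin 12 → ℝ) → ℝ} {c₀ : ℝ}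
    {v0 : ℝ} {a b' : Fin 2} {T : Type*} {Bs : T → Fin 9 → ℝ} {sgs : T → ℝ}
    {x : ℕ → Fin 12 → ℝ} {hh : ℕ → ℝ} {lam : Fin 2 → (Fin 12 → ℝ) → ℝ}

/-- **facts, tangency and vertical inequality of a natural plane of the `e`-tie**, `k > 1` -/
theorem planeE9
    (C : CtxT G L r g' s θ q Rg B I lev A f b vm w fr fl sc w0 sa sb δ R I0 I' ν own c₀)
    (O : Out9 R s a b' (VisT B I fl sc) (θ 0) (θ 1) g' (q 0) (q 1) Bs sgs
      (rL (θ 0) (θ 1) w0 sa sb v0) (fo ν own) x hh lam)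
    (hs0 : 0 ≤ s) (hs1 : s ≤ 1) (hθ : 0 < θ 0) (hk : 1 < θ 0 - θ 1) (hv0 : 0 < v0) (hv1 : v0 < 1)
    (hB : TieT θ B I lev fl sc 7 ∨ TieT θ B I lev fl sc 8)
    (hvis : ∀ i, VisT B I fl sc i → i = 0 ∨ i = 7 ∨ i = 8)
    {v c p sg : ℝ} (hp : p = c + (θ 0 - θ 1) * v)
    (hS : SOk (nat9 1 (-(θ 0)) (-(θ 1))) (nat9 v c p) sg)
    (hc : ∀ i j : Fin 9, cE (θ 0 - θ 1) i = cE (θ 0 - θ 1) j ↔
      Par (nat9 1 (-(θ 0)) (-(θ 1))) (nat9 v c p) i j)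
    (hz : ∀ i : Fin 9, Par (nat9 1 (-(θ 0)) (-(θ 1))) (nat9 v c p) 0 i →
      i = 0 ∨ i = 6 ∨ i = 7 ∨ i = 8)
    (hG : Par (nat9 1 (-(θ 0)) (-(θ 1))) (nat9 v c p) 0 7 →
      Par (nat9 1 (-(θ 0)) (-(θ 1))) (nat9 v c p) 0 8 ∧
      dl (nat9 1 (-(θ 0)) (-(θ 1))) (nat9 v c p) sg 7 ≤
        dl (nat9 1 (-(θ 0)) (-(θ 1))) (nat9 v c p) sg 0 +
        dl (nat9 1 (-(θ 0)) (-(θ 1))) (nat9 v c p) sg 8)
    (PE : PlE (θ 0 - θ 1) (cE (θ 0 - θ 1)) (dl (nat9 1 (-(θ 0)) (-(θ 1))) (nat9 v c p) sg))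
    {c0 : ℝ} (hc0 : 0 < c0) {ρ : Fin 9 → ℝ}
    (hR : Rates9 (θ 0) (θ 1) (nat9 v c p) sg c0 (lam 0) ρ) :
    ∃ P : Pl, EF' s (θ 0 - θ 1) P ∧ P.FanA s ∧ P.Tan g' (θ 0) (θ 0 - (θ 0 - θ 1)) (q 0) (q 1) ∧
      0 ≤ -(c + θ 0 * v) * (P.Fa (q 0) + P.Fb (q 1)) ∧ P.m = ρ 1 := by
  have hk0 : 0 < θ 0 - θ 1 := by linarith
  have hV : ∀ j, VisT B I fl sc j → ((j = 0 ∨ j = 7 ∨ j = 8) ∧
      nat9 v c p (cl9 j) ≤ nat9 v c p 0 * βL (θ 0) (θ 1) j) ∨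
      nat9 v c p (cl9 j) < nat9 v c p 0 * βL (θ 0) (θ 1) j := by
    intro j hj
    left
    refine ⟨hvis j hj, ?_⟩
    rcases hvis j hj with rfl | rfl | rfl
    · change v ≤ v * 1
      rw [mul_one]
    · change p - c ≤ v * (-(θ 1) - -(θ 0))
      rw [hp]; exact le_of_eq (by ring)
    · change p - c ≤ v * (-(θ 1) - -(θ 0))
      rw [hp]; exact le_of_eq (by ring)
  obtain ⟨l, α, h', X, H, lam2, ρ2, hl, -, -, P⟩ := plane9
    (Vis' := fun j => j = 0 ∨ j = 7 ∨ j = 8) (v := v) (c := c) (p := p) (N := univ) (y := 1) O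
    hS (leg9_nat _ _ _) hc0 hR le_rfl hV (by simp) one_pos
  obtain ⟨φ, Hc⟩ := P.cls hS (fun j hj => by rcases hj with h | h | h <;> simp [h]) hc hz hG
  have F : Fct9 (fun w => w 6 < (θ 0 - θ 1) * w 0) s (fun w => lam2 0 (RL9.vec w)) := by
    refine pd9_fct' P C hs0 hs1 hθ hv0 hv1 ?_
    intro w' hl' hw' j hj
    have h1 : w' 6 < (θ 0 - θ 1) * w' 0 := hw'
    rcases hj with rfl | rfl | rfl
    · change w' 0 ≤ w' 0 * 1
      rw [mul_one]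
    · change w' 6 ≤ w' 0 * (-(θ 1) - -(θ 0))
      nlinarith
    · change w' 6 ≤ w' 0 * (-(θ 1) - -(θ 0))
      nlinarith
  have FE := fctE9 P C hθ hv0 hv1 hB hvis hp
  have e1 : -(θ 1) = -(θ 0 - (θ 0 - θ 1)) := by ring
  have hT : (fun w => lam2 0 (RL9.vec w)) (nat9 1 (-(θ 0)) (-(θ 0 - (θ 0 - θ 1)))) =
      DL g' s (q 0) (q 1) 1 (-(θ 0)) (-(θ 0 - (θ 0 - θ 1))) := by
    rw [← e1]; exact Ku126.T9 O P.half
  have hVv : (fun w => lam2 0 (RL9.vec w)) (nat9 v c (c + (θ 0 - θ 1) * v)) ≤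
      DL g' s (q 0) (q 1) v c (c + (θ 0 - θ 1) * v) := by
    rw [← hp]; exact P.half.row
  have hK3 : (θ 0 - θ 1 = 1 → 0 < ρ2 1 →
      (∀ y : ℝ, 0 ≤ y → (1 - s) * y ≤ φ (cE (θ 0 - θ 1) 3) 0 -
        φ (cE (θ 0 - θ 1) 3) (y • e9 3)) → 1 - s ≤ ρ2 4) := fun h => absurd h hk.ne'
  exact ⟨plE s (cE (θ 0 - θ 1)) φ ρ2, PE.ef Hc hk0 F hs0 FE hK3, PE.fanA Hc hk0 F hs0,
    PE.tan Hc hT, PE.ver Hc hT hVv, P.half.eq 1 (A1_ne9 hθ)⟩

/-! ### the data -/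

/-- the side below the record -/
theorem lowE9
    (C : CtxT G L r g' s θ q Rg B I lev A f b vm w fr fl sc w0 sa sb δ R I0 I' ν own c₀)
    (O : Out9 R s a b' (VisT B I fl sc) (θ 0) (θ 1) g' (q 0) (q 1) Bs sgs
      (rL (θ 0) (θ 1) w0 sa sb v0) (fo ν own) x hh lam)
    (hs0 : 0 ≤ s) (hs1 : s ≤ 1) (hθ : 0 < θ 0) (hk : 1 < θ 0 - θ 1) (hv0 : 0 < v0) (hv1 : v0 < 1)
    (hB : TieT θ B I lev fl sc 7 ∨ TieT θ B I lev fl sc 8)
    (hvis : ∀ i, VisT B I fl sc i → i = 0 ∨ i = 7 ∨ i = 8)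
    {i : T} (hi : Bs i = eD9 (θ 0 - θ 1)) (hi1 : sgs i = -1) :
    ∃ (c1 : ℝ) (ρ : Fin 9 → ℝ), 0 < c1 ∧
      (srf9 (θ 0) (θ 1) (eD9 (θ 0 - θ 1)) (-1)).LW (mw monL) c1 ⊆ PP (mw monL) ∧
      Rates9 (θ 0) (θ 1) (eD9 (θ 0 - θ 1)) (-1) c1 (lam 0) ρ ∧
      ∃ P : Pl, EF' s (θ 0 - θ 1) P ∧ P.FanA s ∧
        P.Tan g' (θ 0) (θ 0 - (θ 0 - θ 1)) (q 0) (q 1) ∧ 0 ≤ P.Fa (q 0) + P.Fb (q 1) ∧
        P.m = ρ 1 ∧ q 0 ≤ ρ 1 := by
  obtain ⟨c1, hc1, hL1, -, ρ, hR⟩ := O.surf i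
  rw [hi, hi1] at hL1 hR
  have hb : θ 1 = θ 0 - (θ 0 - θ 1) := by ring
  obtain ⟨P, h1, h2, h3, h4, h5⟩ := planeE9 C O hs0 hs1 hθ hk hv0 hv1 hB hvis (v := -1)
    (c := -((θ 0 - θ 1) - 1)) (p := -(2 * (θ 0 - θ 1) - 1)) (sg := -1) (by ring)
    (sok_eD9 hθ hk hb) (hc_eD9 hθ hk hb) (hz_eD9 hθ hk hb) (hG_eD9 hθ hk hb) (ple_D hθ hk)
    hc1 hR
  refine ⟨c1, ρ, hc1, hL1, hR, P, h1, h2, h3, ?_, h5, ?_⟩
  · have e : 0 < -(-((θ 0 - θ 1) - 1) + θ 0 * -1) := by linarith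
    by_contra hcon
    push Not at hcon
    nlinarith
  · exact posA_eD9 hc1 hθ hk hb hR O.rx.prf (O.zero 0) O.rx.dmax hL1

/-- the side above the record -/
theorem upE9
    (C : CtxT G L r g' s θ q Rg B I lev A f b vm w fr fl sc w0 sa sb δ R I0 I' ν own c₀)
    (O : Out9 R s a b' (VisT B I fl sc) (θ 0) (θ 1) g' (q 0) (q 1) Bs sgs
      (rL (θ 0) (θ 1) w0 sa sb v0) (fo ν own) x hh lam)
    (hs0 : 0 ≤ s) (hs1 : s ≤ 1) (hθ : 0 < θ 0) (hk : 1 < θ 0 - θ 1) (h1 : θ 1 < 0)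
    (hv0 : 0 < v0) (hv1 : v0 < 1)
    (hB : TieT θ B I lev fl sc 7 ∨ TieT θ B I lev fl sc 8)
    (hvis : ∀ i, VisT B I fl sc i → i = 0 ∨ i = 7 ∨ i = 8)
    {i j : T} (hi : Bs i = eU9 (θ 0 - θ 1)) (hi1 : sgs i = 1) (hj : Bs j = oP9) (hj1 : sgs j = 1)
    {c1 : ℝ} {ρ : Fin 9 → ℝ} (hc1 : 0 < c1)
    (hL1 : (srf9 (θ 0) (θ 1) (eD9 (θ 0 - θ 1)) (-1)).LW (mw monL) c1 ⊆ PP (mw monL))
    (hR1 : Rates9 (θ 0) (θ 1) (eD9 (θ 0 - θ 1)) (-1) c1 (lam 0) ρ) {A : Pl} (hA : A.m = ρ 1) :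
    ∃ P : Pl, EUp' (θ 0 - θ 1) (θ 0) s g' (q 0) (q 1) A P := by
  obtain ⟨c2, hc2, hL2, -, ρ2, hR2⟩ := O.surf i
  obtain ⟨c3, hc3, hL3, -, ρ3, hR3⟩ := O.surf j
  rw [hi, hi1] at hL2 hR2
  rw [hj, hj1] at hL3 hR3
  have hb : θ 1 = θ 0 - (θ 0 - θ 1) := by ring
  have hs : SupOn (lam 0) (PP (mw monL)) := by rw [← coneL_PP]; exact O.rx.prf.sm
  obtain ⟨P, a1, a2, a3, a4, a5⟩ := planeE9 C O hs0 hs1 hθ hk hv0 hv1 hB hvis (v := 1)
    (c := (θ 0 - θ 1) - 1) (p := 2 * (θ 0 - θ 1) - 1) (sg := 1) (by ring)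
    (sok_eU9 hθ hk hb) (hc_eU9 hθ hk hb) (hz_eU9 hθ hk hb) (hG_eU9 hθ hk hb) (ple_U hθ hk)
    hc2 hR2
  refine ⟨P, a1, a3, ?_, ?_, ?_⟩
  · have e : -(((θ 0 - θ 1) - 1) + θ 0 * 1) < 0 := by linarith
    by_contra hcon
    push Not at hcon
    nlinarith
  · rw [a5, hA]
    exact ant_eU9 hs hθ hc1 hc2 hk hb hL1 hL2 hR1 hR2
  · rw [a5]
    have h2 := pos_eU9 hs hθ hc2 hc3 hk hb h1 hL2 hL3 hR2 hR3
    have h3 := posB9 (s := s) (g := g') (qa := q 0) (qb := q 1) (lam := lam 0) O.rx.prf.ab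
      O.rx.prf.anti O.rx.prf.cost (O.zero 0) O.rx.dmax hc3 hθ h1 (by linarith) hR3
    exact h3.trans h2

/-- **the data of the `e`-tie, `1 < θ 0 - θ 1`** -/
theorem eTie9 {η : ℝ} (hη : η < 1)
    (C : CtxT G L r (g + 2 * s) s θ q Rg B I lev A f b vm w fr fl sc w0 sa sb δ R I0 I' ν own c₀)
    (hN : NumL η g s θ q) (hR0 : w0 + (θ 1 + sb) < R) (hR1 : w0 + 1 + sb < R)
    (hRg : θ 0 + |θ 1| + 1 ≤ Rg) (hB : VisB θ B I lev fl sc) (hE : InvE B I fl sc)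
    (hk : 1 < θ 0 - θ 1) : ETie' (θ 0 - θ 1) (θ 0) s (g + 2 * s) (q 0) (q 1) := by
  have hθ : 0 < θ 0 := hN.θa
  have hb : θ 1 = θ 0 - (θ 0 - θ 1) := by ring
  have hvis : ∀ i, VisT B I fl sc i → i = 0 ∨ i = 7 ∨ i = 8 := by
    intro k hk
    by_contra h0
    apply hk
    by_cases h1 : k = 1
    · rw [h1]; exact hE.2
    by_cases h2 : k = 2
    · rw [h2]; exact hE.1
    refine C.out.inv_ray ?_
    clear hk
    revert h0 h1 h2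
    revert k
    decide
  by_cases h1 : θ 1 < 0
  · obtain ⟨v0, -, hv0, hv1, a, b', x, hh, lam, -, O⟩ := exists_out9 (T := Fin 3) C hR0 hR1 hθ
      (by linarith) (Bs := ![eD9 (θ 0 - θ 1), eU9 (θ 0 - θ 1), oP9]) (sg := ![-1, 1, 1])
      (by
        intro i
        fin_cases i
        · exact sok_eD9 hθ hk hb
        · exact sok_eU9 hθ hk hb
        · exact sok_oP9 (by linarith) (by linarith) h1 hθ)
      (by
        intro i
        fin_cases i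
        · exact leg_eD9
        · exact leg_eU9
        · exact leg_oP9) (N := univ) (by simp)
    obtain ⟨c1, ρ, hc1, hL1, hR, P, a1, a2, a3, a4, a5, a6⟩ := lowE9 C O hN.s0 hN.s1.le hθ hk hv0
      hv1 hB hvis (i := 0) rfl rfl
    refine ⟨P, a1, fun _ => a2, fun h => absurd h (not_lt.2 hk.le), a3, a4, by rw [a5]; exact a6,
      fun h2 => ?_, fun _ _ => ?_⟩
    · exact absurd h2 (not_le.2 (by linarith))
    · obtain ⟨P', h'⟩ := upE9 C O hN.s0 hN.s1.le hθ hk h1 hv0 hv1 hB hvis (i := 1) (j := 2) rfl rfl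
        rfl rfl hc1 hL1 hR a5
      exact ⟨P', h', fun h => absurd h (not_lt.2 hk.le)⟩
  · obtain ⟨v0, -, hv0, hv1, a, b', x, hh, lam, -, O⟩ := exists_out9 (T := Unit) C hR0 hR1 hθ
      (by linarith) (Bs := fun _ => eD9 (θ 0 - θ 1)) (sg := fun _ => -1)
      (fun _ => sok_eD9 hθ hk hb) (fun _ => leg_eD9) (N := univ) (by simp)
    obtain ⟨c1, ρ, hc1, hL1, hR, P, a1, a2, a3, a4, a5, a6⟩ := lowE9 C O hN.s0 hN.s1.le hθ hk hv0
      hv1 hB hvis (i := ()) rfl rfl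
    refine ⟨P, a1, fun _ => a2, fun h => absurd h (not_lt.2 hk.le), a3, a4, by rw [a5]; exact a6,
      fun h2 h3 => ?_, fun h2 _ => ?_⟩
    · exfalso; linarith
    · exfalso; linarith

end ctx

end Crest.Agent.R116.FlE330
end

-- ▼ part R116/RTe_850
section

/-!
# R116, ROW TIE (helper850): the `e`-tie, assembly of the table

* `fillE9` : 330's cell `1 < k` as a fill
* `tabE_of` : 794's cell (`s < 1/2`, `k ≤ 1`) ⊢ the table
* `falseE_of2` : 794's cell and (H4) ⊢ `FalseE η`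
-/

set_option autoImplicit false
set_option linter.unusedVariables false

namespace Crest.Agent.R116.FlH850

open Crest.Agent.R116.KTop387
open Crest.Agent.R116.CtxB468
open Crest.Agent.R116.Tie460
open Crest.Agent.R116.KTie794

variable {η : ℝ}

/-- 330's cell -/
theorem fillE9 (hη : η < 1) : Fill η VE fun g s θ q => 1 < θ 0 - θ 1 →
    ETie' (θ 0 - θ 1) (θ 0) s (g + 2 * s) (q 0) (q 1) := by
  refine fill_of ?_
  intro G L r g s θ q Rg B I lev A f b vm w fr fl sc w0 sa sb δ R I0 I' ν own c₀ C hN hR0 hR1 hRg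
    hV hk
  exact FlE330.eTie9 hη C hN hR0 hR1 hRg hV.1 hV.2 hk

/-- the table of the `e`-tie from 794's cell -/
theorem tabE_of (hη : η < 1)
    (h8 : Fill η VE fun g s θ q => s < 1 / 2 → θ 0 - θ 1 ≤ 1 →
      ETie' (θ 0 - θ 1) (θ 0) s (g + 2 * s) (q 0) (q 1)) :
    Fill η VE fun g s θ q => (s < 1 / 2 ∨ 1 < θ 0 - θ 1) →
      ETie' (θ 0 - θ 1) (θ 0) s (g + 2 * s) (q 0) (q 1) := by
  refine ((fillE9 hη).and h8).mono fun g s θ q _ h h' => ?_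
  rcases lt_or_ge 1 (θ 0 - θ 1) with hk | hk
  · exact h.1 hk
  · rcases h' with h' | h'
    · exact h.2 h' hk
    · exact absurd h' (not_lt.2 hk)

/-- **`e`-tie** from 794's cell and (H4) -/
theorem falseE_of2 (hη : η < 1)
    (h8 : Fill η VE fun g s θ q => s < 1 / 2 → θ 0 - θ 1 ≤ 1 →
      ETie' (θ 0 - θ 1) (θ 0) s (g + 2 * s) (q 0) (q 1))
    (h4 : Fill η VE fun g s θ q => 1 / 2 ≤ s → θ 0 - θ 1 = 1 → False) : FalseE η :=
  falseE_tab hη (tabE_of hη h8) h4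

end Crest.Agent.R116.FlH850
end

-- ▼ part R116/K1p3_736
section

/-!
# R116 (K side, TIES), `k' = 1` exactly: plane data with the relation of the scales (helper736)

* **`plane8zE`** : `plane8z` with `K * H m ≤ E m` eventually
-/

set_option autoImplicit false
set_option linter.unusedSectionVars false
set_option linter.unusedVariables false

open Set Filter Topology Metric MeasureTheory

namespace Crest.Agent.R116.K1p736

open Crest.Agent.R138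
open Crest.Agent.R138.Ex926 (IsTan)
open Crest.Agent.R136
open Crest.Agent.R136.Net191
open Crest.Agent.R116.ChL222
open Crest.Agent.R116.PL504 (eL βL rL eL_wall)
open Crest.Agent.R116.Xd954 (cs xs)
open Crest.Agent.R116.Sg337 (coneL DL natB eL_bx9)
open Crest.Agent.R116.RbM219
open Crest.Agent.R116.RbK219 (SOk RS Par dl SRates)
open Crest.Agent.R116.SgO219 (PP OO cw cw_PP ae_out_lam exists_tan_OO)
open Crest.Agent.R116.Kz647
open Crest.Agent.R116.Rcx363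
open Crest.Agent.R116.Rz460
open Crest.Agent.R116.Pd363 (Pd8)
open Dg262 (X X_cont SupOn)
open Dg219 (mw Walls OutS gC dhC nC gC_zero gset mem_gset)
open Sl741 (slice xt rs)

section out

variable {R s : ℝ} {a b : Fin 2} {Vis Vis' : Fin 12 → Prop} {θa θb g qa qb w0 sa sb v0 : ℝ}
    {T : Type*} {Bs : T → Fin 8 → ℝ} {sgs : T → ℝ} {f : Fin 2 → (Fin 12 → ℝ) → ℝ}
    {x : ℕ → Fin 12 → ℝ} {hh : ℕ → ℝ} {lam : Fin 2 → (Fin 12 → ℝ) → ℝ}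
    {B : Fin 8 → ℝ} {sg : ℝ} {ρ : Fin 8 → ℝ}

/-- **plane data exist, `D` raised in the second level, offset large against the unit** -/
theorem plane8zE (O : Out8z R s a b Vis θa θb g qa qb Bs sgs (rL θa θb w0 sa sb v0) f x hh lam)
    (hβ : 2 * θa - θb - 1 = 0) (hS : SOk (nat8 1 (-θa) (-θb)) B sg) (hL : Leg80 B) {c0 : ℝ}
    (hc0 : 0 < c0) (hR : Rates8 θa θb 0 B sg c0 (lam 0) ρ) {v c p : ℝ} (hn : nat8 v c p ≤ B)
    (hD : p ≤ 2 * c + v) (hV1 : ¬ Vis 1)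
    (hV : ∀ k, Vis k → (Vis' k ∧ B (cl8 k) ≤ B 0 * βL θa θb k) ∨ B (cl8 k) < B 0 * βL θa θb k)
    {N : Set (ℝ × ℝ)} (hN : ∀ᵐ z : ℝ × ℝ, z ∈ N) {y : ℝ} (hy : 0 < y) :
    ∃ (l α : ℝ) (h' : ℕ → ℝ) (X : ℕ → Fin 12 → ℝ) (H : ℕ → ℝ)
      (lam3 lam4 : Fin 2 → (Fin 12 → ℝ) → ℝ) (ρ3 ρ4 : Fin 8 → ℝ),
      0 < l ∧ l < y ∧ ((l * sg, α) : ℝ × ℝ) ∈ N ∧
      Pd8 R s a b Vis' θa θb w0 sa sb v0 1 (DL g s qa qb v c p) B sg f lam3 ρ3 l α h' X H lam4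
        ρ4 ∧
      (∀ t, nat8 1 (-θa) (-θb) t ≠ 0 → ρ4 t = ρ t) ∧
      (∀ τ : ℝ, lam4 0 (xt kp 0 (RL8.vec (τ • nat8 1 (-θa) (-θb)))) =
        DL g s qa qb τ (-(θa * τ)) (-(θb * τ))) ∧
      ∃ V E : ℕ → ℝ, Tendsto V atTop (𝓝 0) ∧ Tendsto E atTop (𝓝 0) ∧ (∀ m, 0 < E m) ∧
        (∀ K : ℝ, ∀ᶠ m in atTop, K * H m ≤ E m) ∧
        ∀ m, ∀ k, k ≠ 1 → X m k = rL θa θb w0 sa sb (v0 + V m) k + E m * B (cl8 k) := by
  classical
  set Visi : Fin 12 → Prop := fun k => Vis k ∧ Vis' k ∧ B (cl8 k) ≤ B 0 * βL θa θb k with hVi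
  have hV1' : ∀ k, Vis k → (Visi k ∧ B (cl8 k) ≤ B 0 * βL θa θb k) ∨
      B (cl8 k) < B 0 * βL θa θb k := by
    intro k hk
    rcases hV k hk with ⟨h1, h2⟩ | h1
    · exact Or.inl ⟨⟨hk, h1, h2⟩, h2⟩
    · exact Or.inr h1
  have hV2' : ∀ k, Visi k → (Visi k ∧ B (cl8 k) ≤ B 0 * βL θa θb k) ∨
      B (cl8 k) < B 0 * βL θa θb k := fun k hk => Or.inl ⟨hk, hk.2.2⟩
  have hV3' : ∀ k, Visi k → (Vis' k ∧ B (cl8 k) ≤ B 0 * βL θa θb k) ∨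
      B (cl8 k) < B 0 * βL θa θb k := fun k hk => Or.inl ⟨hk.2.1, hk.2.2⟩
  have hVi1 : ¬ Visi 1 := fun h => hV1 h.1
  -- first level
  have hdecN := ae_dec8 (g := lam 0) hβ hS hL (O.lip 0) O.rx.prf.anti O.rx.prf.sm
  obtain ⟨l1, α1, hl1, -, hzN, hz1, H1⟩ := z8z_out (Vis' := Visi) O hβ hS hL hc0 hR hn hD hV1 hV1'
    hdecN one_pos
  set kk : ℕ → ℝ := fun m => 1 / ((m : ℝ) + 1) with hkk
  have kpos : ∀ m, 0 < kk m := fun m => by rw [hkk]; positivity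
  have k0 : Tendsto kk atTop (𝓝 0) := tendsto_one_div_add_atTop_nhds_zero_nat
  obtain ⟨φ, lam2, ρ2, ψ, hφ, hH, hT2, hψ, -, hTf, hP2⟩ := H1 kk kpos k0 (fun _ _ => True)
    (fun _ => Eventually.of_forall fun _ => trivial)
  have kpos' : ∀ m, 0 < kk (φ m) := fun m => kpos _
  have k0' : Tendsto (fun m => kk (φ m)) atTop (𝓝 0) := k0.comp hφ.tendsto_atTop
  have hdec := hzN l1 α1 hl1 rfl (fun m => kk (φ m)) kpos' k0' (lam2 0) (hT2 0)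
  have hlip2 : ∀ j, ∀ p ∈ L8B θa θb 0 B sg, ∀ q ∈ L8B θa θb 0 B sg,
      |lam2 j p - lam2 j q| ≤ (12:ℝ) * dist p q := fun j =>
    SgO219.tan_lip kpos' (hT2 j) (by rw [L8_cone hβ]; exact O.lip j)
  -- raise
  obtain ⟨l2, α2, hl2, hz2, H2⟩ := raise8z (Vis' := Visi) hS hlip2 hP2 hH.rates hdec hVi1 hV2'
  obtain ⟨φ', lam3, hφ', hT3, hO3, hF3, hP3⟩ := H2 kk kpos k0
  have kpos2 : ∀ m, 0 < kk (φ' m) := fun m => kpos _
  have k02 : Tendsto (fun m => kk (φ' m)) atTop (𝓝 0) := k0.comp hφ'.tendsto_atTop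
  have hlip3 : ∀ j, ∀ p ∈ L8B θa θb 1 B sg, ∀ q ∈ L8B θa θb 1 B sg,
      |lam3 j p - lam3 j q| ≤ (12:ℝ) * dist p q := fun j =>
    SgO219.tan_lip kpos2 (hT3 j) (hlip2 j)
  have hpos1 : ∀ m, 0 < hh (ψ m) * kk (φ m) := fun m => mul_pos (O.pos _) (kpos' m)
  obtain ⟨ψ2, hψ2, -, hTf3⟩ := diag_at hpos1 hTf hz2 kpos2 hT3 (Pr := fun _ _ => True)
    (fun _ => Eventually.of_forall fun _ => trivial)
  -- second generic point
  have hsubL : L8 θa θb 1 ⊆ L8B θa θb 1 B sg := L8_sub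
  have h00 : (0 : Fin 12 → ℝ) ∈ L8B θa θb 1 B sg := hsubL (L8_zero _ _ _)
  have hz3 : ∀ j, lam3 j 0 = 0 := fun j => SgZ388.tan_zero kpos2 (hT3 j) h00
  have hRT : RecTan (L8 θa θb 1) lam3 0 12 :=
    ⟨by norm_num, fun j p hp q hq => hlip3 j p (hsubL hp) q (hsubL hq),
      fun p hp q hq => hP3.anti p (hsubL hp) q (hsubL hq),
      fun p hp q hq h1 h2 => hP3.sm p (hsubL hp) q (hsubL hq) (hsubL h1) (hsubL h2), hz3 0⟩
  have hκ : lam3 0 (xt kp 0 (RL8.vec (y • B))) ≤ DL g s qa qb v c p * y := by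
    have e1 := nat_hom8 hS hF3 y
    have e2 := nat_eq8 hS hF3 hH.rates 0 1
    rw [zero_smul, add_zero, one_smul] at e2
    have e1' : lam3 0 (xt kp 0 (RL8.vec (y • B))) = y * lam3 0 (xt kp 0 (RL8.vec B)) := e1
    have e2' : lam3 0 (xt kp 0 (RL8.vec B)) = lam2 0 (xt kp 0 (RL8.vec B)) := e2
    have e3 : lam2 0 (xt kp 0 (RL8.vec B)) ≤ DL g s qa qb v c p := hH.row
    rw [e1', e2', mul_comm]
    exact mul_le_mul_of_nonneg_right e3 hy.le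
  obtain ⟨l, α, hl, hly, hlN, hzL, H3⟩ := half8 (t := 1) one_pos hRT hS hL.leg8 one_pos
    (srates8 (c0 := 1) hS hF3) hy hκ hN
  obtain ⟨φ3, lam4, ρ4, hφ3, hT4, hH4⟩ := H3 kk kpos k0
  have kpos3 : ∀ m, 0 < kk (φ3 m) := fun m => kpos _
  have k03 : Tendsto (fun m => kk (φ3 m)) atTop (𝓝 0) := k0.comp hφ3.tendsto_atTop
  have hpos2 : ∀ m, 0 < hh (ψ (ψ2 m)) * kk (φ (ψ2 m)) * kk (φ' m) := fun m =>
    mul_pos (hpos1 _) (kpos2 m)
  obtain ⟨ψ3, hψ3, -, hTf4⟩ := diag_at hpos2 (fun j => Rc683.tan_mono (hTf3 j) Subset.rfl hsubL)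
    hzL kpos3 hT4 (Pr := fun _ _ => True) (fun _ => Eventually.of_forall fun _ => trivial)
  obtain ⟨Hf, yy, ξ, hHp, hH0, hy0, hx⟩ := O.base
  have t3 := hψ3.tendsto_atTop
  have t2 : Tendsto (fun m => ψ2 (ψ3 m)) atTop atTop := hψ2.tendsto_atTop.comp t3
  have t1 : Tendsto (fun m => ψ (ψ2 (ψ3 m))) atTop atTop := hψ.tendsto_atTop.comp t2
  have hhl : Tendsto (fun m => hh (ψ (ψ2 (ψ3 m)))) atTop (𝓝 0) := O.lim.comp t1
  have hk1 : Tendsto (fun m => kk (φ (ψ2 (ψ3 m)))) atTop (𝓝 0) := k0'.comp t2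
  have hk2 : Tendsto (fun m => kk (φ' (ψ3 m))) atTop (𝓝 0) := k02.comp t3
  have hH1l : Tendsto (fun m => hh (ψ (ψ2 (ψ3 m))) * kk (φ (ψ2 (ψ3 m)))) atTop (𝓝 0) := by
    simpa using hhl.mul hk1
  have hH2l : Tendsto (fun m => hh (ψ (ψ2 (ψ3 m))) * kk (φ (ψ2 (ψ3 m))) * kk (φ' (ψ3 m))) atTop
      (𝓝 0) := by
    simpa using hH1l.mul hk2
  have hbase : ∀ m, ∀ k, k ≠ 1 → (x (ψ (ψ2 (ψ3 m))) + hh (ψ (ψ2 (ψ3 m))) • z8 θa θb B l1 α1 +
      (hh (ψ (ψ2 (ψ3 m))) * kk (φ (ψ2 (ψ3 m)))) • zr θa θb B l2 α2 +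
      (hh (ψ (ψ2 (ψ3 m))) * kk (φ (ψ2 (ψ3 m))) * kk (φ' (ψ3 m))) • z8 θa θb B l α) k =
      rL θa θb w0 sa sb (v0 + (Hf (ψ (ψ2 (ψ3 m))) * yy (ψ (ψ2 (ψ3 m))) +
        hh (ψ (ψ2 (ψ3 m))) * α1 + hh (ψ (ψ2 (ψ3 m))) * kk (φ (ψ2 (ψ3 m))) * α2 +
        hh (ψ (ψ2 (ψ3 m))) * kk (φ (ψ2 (ψ3 m))) * kk (φ' (ψ3 m)) * α)) k +
      (hh (ψ (ψ2 (ψ3 m))) * l1 + hh (ψ (ψ2 (ψ3 m))) * kk (φ (ψ2 (ψ3 m))) * l2 +
        hh (ψ (ψ2 (ψ3 m))) * kk (φ (ψ2 (ψ3 m))) * kk (φ' (ψ3 m)) * l) * B (cl8 k) := by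
    intro m k hk
    have e1 : (x (ψ (ψ2 (ψ3 m))) + hh (ψ (ψ2 (ψ3 m))) • z8 θa θb B l1 α1) k =
        rL θa θb w0 sa sb (v0 + (Hf (ψ (ψ2 (ψ3 m))) * yy (ψ (ψ2 (ψ3 m))) +
          hh (ψ (ψ2 (ψ3 m))) * α1)) k + hh (ψ (ψ2 (ψ3 m))) * l1 * B (cl8 k) := by
      rw [hx, base8z_val hk]
    have e2 : zr θa θb B l2 α2 k = l2 * B (cl8 k) + α2 * βL θa θb k := by
      unfold zr
      rw [Pi.add_apply, y8_at hk, zero_add, z8_val l2 α2 hk]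
    have e3 : z8 θa θb B l α k = l * B (cl8 k) + α * βL θa θb k := z8_val l α hk
    change (x (ψ (ψ2 (ψ3 m))) + hh (ψ (ψ2 (ψ3 m))) • z8 θa θb B l1 α1) k +
        hh (ψ (ψ2 (ψ3 m))) * kk (φ (ψ2 (ψ3 m))) * zr θa θb B l2 α2 k +
        hh (ψ (ψ2 (ψ3 m))) * kk (φ (ψ2 (ψ3 m))) * kk (φ' (ψ3 m)) * z8 θa θb B l α k = _
    rw [e1, e2, e3, rL_add, rL_add]
    simp only [Pi.add_apply, Pi.smul_apply, smul_eq_mul]
    ring
  have hV0 : Tendsto (fun m => Hf (ψ (ψ2 (ψ3 m))) * yy (ψ (ψ2 (ψ3 m))) +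
      hh (ψ (ψ2 (ψ3 m))) * α1 + hh (ψ (ψ2 (ψ3 m))) * kk (φ (ψ2 (ψ3 m))) * α2 +
      hh (ψ (ψ2 (ψ3 m))) * kk (φ (ψ2 (ψ3 m))) * kk (φ' (ψ3 m)) * α) atTop (𝓝 0) := by
    have h1 := ((((hH0.comp t1).mul (hy0.comp t1)).add (hhl.mul_const α1)).add
      (hH1l.mul_const α2)).add (hH2l.mul_const α)
    simp only [zero_mul, add_zero] at h1
    exact h1
  have hE0 : Tendsto (fun m => hh (ψ (ψ2 (ψ3 m))) * l1 +
      hh (ψ (ψ2 (ψ3 m))) * kk (φ (ψ2 (ψ3 m))) * l2 +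
      hh (ψ (ψ2 (ψ3 m))) * kk (φ (ψ2 (ψ3 m))) * kk (φ' (ψ3 m)) * l) atTop (𝓝 0) := by
    have h1 := ((hhl.mul_const l1).add (hH1l.mul_const l2)).add (hH2l.mul_const l)
    simp only [zero_mul, add_zero] at h1
    exact h1
  have hEp : ∀ m, 0 < hh (ψ (ψ2 (ψ3 m))) * l1 + hh (ψ (ψ2 (ψ3 m))) * kk (φ (ψ2 (ψ3 m))) * l2 +
      hh (ψ (ψ2 (ψ3 m))) * kk (φ (ψ2 (ψ3 m))) * kk (φ' (ψ3 m)) * l := by
    intro m
    have := O.pos (ψ (ψ2 (ψ3 m)))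
    have := hpos1 (ψ2 (ψ3 m))
    have := hpos2 (ψ3 m)
    positivity
  have hKE : ∀ K : ℝ, ∀ᶠ m in atTop, K * (hh (ψ (ψ2 (ψ3 m))) * kk (φ (ψ2 (ψ3 m))) *
      kk (φ' (ψ3 m)) * kk (φ3 m)) ≤ hh (ψ (ψ2 (ψ3 m))) * l1 +
      hh (ψ (ψ2 (ψ3 m))) * kk (φ (ψ2 (ψ3 m))) * l2 +
      hh (ψ (ψ2 (ψ3 m))) * kk (φ (ψ2 (ψ3 m))) * kk (φ' (ψ3 m)) * l := by
    intro K
    have h1 : Tendsto (fun m => K * (kk (φ (ψ2 (ψ3 m))) * kk (φ' (ψ3 m)) * kk (φ3 m))) atTop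
        (𝓝 0) := by simpa using ((hk1.mul hk2).mul k03).const_mul K
    filter_upwards [h1.eventually_lt_const hl1] with m hm
    have p0 := O.pos (ψ (ψ2 (ψ3 m)))
    have p1 := mul_pos (hpos1 (ψ2 (ψ3 m))) hl2
    have p2 := mul_pos (hpos2 (ψ3 m)) hl
    have p3 := mul_le_mul_of_nonneg_left hm.le p0.le
    nlinarith
  refine ⟨l, α, fun m => kk (φ3 m), _, _, lam3, lam4, ρ2, ρ4, hl, hly, hlN,
    ⟨hH4, hT4, fun m => mul_pos (hpos2 _) (kpos3 m), ?_, ?_, ⟨_, _, hV0, hE0, hEp, hbase⟩, hTf4,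
      prf_z8 (hP3.mono hsubL) hl kpos3 k03 (hT4 0) hVi1 hV3'⟩, fun t ht => ?_, fun τ => ?_,
    _, _, hV0, hE0, hEp, hKE, hbase⟩
  · simpa using hH2l.mul k03
  · have h1 := (((O.xlim.comp t1).add (hhl.smul_const (z8 θa θb B l1 α1))).add
      (hH1l.smul_const (zr θa θb B l2 α2))).add (hH2l.smul_const (z8 θa θb B l α))
    simp only [zero_smul, add_zero] at h1
    exact h1
  · rw [hH4.eq t ht, hH.eq t ht]
  · have h1 := hH4.rcd τ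
    have h2 := hH.rcd τ
    have e0 : xt kp (0 : Fin 12 → ℝ) (0 : K8 → ℝ) = 0 := by
      funext i
      by_cases hi : kp i
      · rw [Sl741.xt_in _ _ hi]; rfl
      · rw [Sl741.xt_off _ _ hi]
    have e1 := nat_eq8 hS hF3 hH.rates τ 0
    rw [zero_smul, zero_add] at e1
    have e1' : lam3 0 (xt kp 0 (RL8.vec (τ • nat8 1 (-θa) (-θb)))) =
        lam2 0 (xt kp 0 (RL8.vec (τ • nat8 1 (-θa) (-θb)))) := e1
    have h1' : lam4 0 (xt kp 0 (RL8.vec (τ • nat8 1 (-θa) (-θb)))) =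
        lam3 0 (xt kp 0 (RL8.vec (τ • nat8 1 (-θa) (-θb)))) - lam3 0 (xt kp 0 0) := h1
    have h2' : lam2 0 (xt kp 0 (RL8.vec (τ • nat8 1 (-θa) (-θb)))) =
        lam 0 (xt kp 0 (RL8.vec (τ • nat8 1 (-θa) (-θb)))) - lam 0 (xt kp 0 0) := h2
    have e2 : xt kp 0 (RL8.vec (τ • nat8 1 (-θa) (-θb))) = eL τ (-(θa * τ)) (-(θb * τ)) := by
      rw [RS.vec_smul, Sl741.xt_smul, r8_vec, r8_eq_r9 hβ]
      unfold r9
      rw [← PL504.eL_smul]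
      congr 1 <;> ring
    rw [h1', e1', h2', e0, hz3 0, O.zero 0, e2, O.rx.rcd τ]
    ring

end out

end Crest.Agent.R116.K1p736
end

-- ▼ part R116/D2u_736
section

/-!
# R116 (K side, TIES), DOUBLE TIE at `k' = 2 θ0 - θ1 = 1` : the half above the record (helper736)

* `tvS8` : 139's `TV` of the plane `oS` from the values of the second tangent
* **`d2_up`** : `EUp'` over the context at the raised plane `oS`
-/

set_option autoImplicit false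
set_option linter.unusedSectionVars false
set_option linter.unusedVariables false

open Set Filter Topology MeasureTheory

namespace Crest.Agent.R116.D2u736

open Crest.Agent.R138
open Crest.Agent.R138.Ex926 (Base U IsTan)
open Crest.Agent.R136
open Crest.Agent.R136.MkA627
open Crest.Agent.R136.TD627
open Crest.Agent.R136.Net191
open Crest.Agent.R136.Lq196
open Crest.Agent.R116.ChL222
open Crest.Agent.R116.PL504 (nb rL DN eL βL oL Shift)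
open Crest.Agent.R116.Sg337 (bx9 coneL DL natB)
open Crest.Agent.R116.Gd222 (TSet sN PDL DT)
open Crest.Agent.R116.KI439 hiding kD
open Crest.Agent.R116.KF439 (PL)
open Crest.Agent.R116.KTop387
open Crest.Agent.R116.CtxB468
open Crest.Agent.R116.KTie794
open Crest.Agent.R116.Rcx363
open Crest.Agent.R116.RbM219
open Crest.Agent.R116.RbK219 (RS SOk Par dl Aln)
open Crest.Agent.R116.SgO219 (PP)
open Crest.Agent.R116.Kz647
open Crest.Agent.R116.Pd363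
open Crest.Agent.R116.Tq741
open Crest.Agent.R116.Tq794
open Crest.Agent.R116.Tq126
open Crest.Agent.R116.Tp139 hiding cl8
open Crest.Agent.R116.PosA348
open Crest.Agent.R116.Tie460
open Crest.Agent.R116.Rz460
open Crest.Agent.R116.K1p736
open Crest.Agent.R116.NZ90 (Lam8)
open Dg219 (mw Walls)
open Sl741 (slice xt rs)

section val

variable {s θ θb g qa qb t : ℝ} {lam lam2 : Fin 2 → (Fin 12 → ℝ) → ℝ} {ρ ρ2 : Fin 8 → ℝ}
    {l α : ℝ} {h : ℕ → ℝ}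

/-- 139's `TV` of the plane `oS`, no resonance -/
theorem tvS8 (H : Half8 θ θb t oS 1 lam 0 ρ (DL g s qa qb 0 1 1) l α h lam2 ρ2)
    (hT : lam2 0 (xt kp 0 (RL8.vec (nat8 1 (-θ) (-θb)))) = DL g s qa qb 1 (-θ) (-θb))
    (hb : θb < θ) (hb2 : θb < 2 * θ) (h1 : θ - θb ≠ 1) (h2 : θ - θb ≠ 1 / 2) :
    TV θ θb s g qa qb (ρ2 0) (ρ2 1) (ρ2 2) (ρ2 3) (ρ2 4) (ρ2 5) := by
  have eκ : DL g s qa qb 0 1 1 = -(4 + qa + qb) := by unfold DL; ring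
  rw [eκ] at H
  have a1 := cls_T H (rep_oS hb hb2 h1 h2)
  have a2 := cls_V H (rep_oS hb hb2 h1 h2)
  have h3 := H.rcd 1
  rw [one_smul] at h3
  have h4 : lam2 0 (xt kp 0 (RL8.vec (nat8 1 (-θ) (-θb)))) =
      lam 0 (xt kp 0 (RL8.vec (nat8 1 (-θ) (-θb)))) - lam 0 (xt kp 0 (0 : K8 → ℝ)) := h3
  simp only [← h4, hT] at a1
  rw [Finset.sum_insert (by decide), Finset.sum_insert (by decide), Finset.sum_insert (by decide),
    Finset.sum_insert (by decide), Finset.sum_insert (by decide), Finset.sum_singleton] at a1 a2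
  unfold DL at a1
  ev8
  exact ⟨by linarith, by linarith⟩

end val

section ctx

variable {G : Geo TSet (Fin 2)} {L : ℕ → ℕ → LRay} {r : ℕ → ℝ} {g s : ℝ} {θ q : Fin 2 → ℝ}
    {Rg : ℝ} {B : Base} {I : ℕ → Finset (ℕ × ℝ)} {lev : ℕ → ℚ → ℕ} {A : ℕ → ℝ}
    {f : ℕ → ℚ → ℕ → ℤ → ℕ} {b : ℕ → ℚ → ℕ → TSet} {vm : ℕ → ℚ → ℝ} {w : Fin 2 → ℕ → ℚ → ℝ}
    {fr : ℕ → ℚ → ℕ × ℝ → LInc} {fl : ℕ → ℕ × ℝ → LInc} {sc : Fin 12 → ℕ → ℝ}
    {w0 sa sb δ R : ℝ} {I0 I' : ℕ → Finset (ℕ × ℝ)} {ν own : (Fin 12 → ℝ) → ℝ} {c₀ : ℝ}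

/-- **double tie at `k' = 1`, above the record** -/
theorem d2_up
    (C : CtxT G L r g s θ q Rg B I lev A f b vm w fr fl sc w0 sa sb δ R I0 I' ν own c₀)
    (hθ0 : 0 < θ 0) (hs0 : 0 ≤ s) (hs1 : s ≤ 1) (hβ : 2 * θ 0 - θ 1 - 1 = 0)
    (hV1 : InvT PL B I 1 fl (sc 1)) (hB : TieT θ B I lev fl sc 7 ∨ TieT θ B I lev fl sc 8)
    (hk : θ 0 < θ 0 - θ 1) {v0 : ℝ} (hv0 : 0 < v0) (hv1 : v0 < 1)
    {a b' : Fin 2} {T : Type*} {Bs : T → Fin 8 → ℝ} {sgs : T → ℝ} {x : ℕ → Fin 12 → ℝ}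
    {hh : ℕ → ℝ} {lam : Fin 2 → (Fin 12 → ℝ) → ℝ}
    (O : Out8z R s a b' (VisT B I fl sc) (θ 0) (θ 1) g (q 0) (q 1) Bs sgs
      (rL (θ 0) (θ 1) w0 sa sb v0) (fo ν own) x hh lam)
    {cm cp cP : ℝ} (hcm : 0 < cm) (hcp : 0 < cp) (hcP : 0 < cP) {ρm ρp ρP : Fin 8 → ℝ}
    (hMm : (srf8 (θ 0) (θ 1) 0 kD (-1)).LW (Q8 0) cm ⊆
      (Q8 0).L (rs kp (y8 0)) (rs kp (r8 (θ 0) (θ 1))) 0)
    (hMp : (srf8 (θ 0) (θ 1) 0 oS 1).LW (Q8 0) cp ⊆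
      (Q8 0).L (rs kp (y8 0)) (rs kp (r8 (θ 0) (θ 1))) 0)
    (hMP : (srf8 (θ 0) (θ 1) 0 oP 1).LW (Q8 0) cP ⊆
      (Q8 0).L (rs kp (y8 0)) (rs kp (r8 (θ 0) (θ 1))) 0)
    (hRm : Rates8 (θ 0) (θ 1) 0 kD (-1) cm (lam 0) ρm)
    (hRp : Rates8 (θ 0) (θ 1) 0 oS 1 cp (lam 0) ρp)
    (hRP : Rates8 (θ 0) (θ 1) 0 oP 1 cP (lam 0) ρP) {A' : Pl} (hA : A'.m = ρm 1) :
    ∃ B' : Pl, EUp' (θ 0 - θ 1) (θ 0) s g (q 0) (q 1) A' B' := by
  have hb0 : θ 1 < 0 := by linarith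
  have hkk : 0 < θ 0 - θ 1 := by linarith
  have hbe : θ 1 = θ 0 - (θ 0 - θ 1) := by ring
  have hk1 : θ 0 - θ 1 < 1 := by linarith
  have hk2 : θ 0 - θ 1 ≠ 1 / 2 := by intro h; linarith
  have hk3 : θ 0 - θ 1 ≠ 1 := hk1.ne
  have hvis : ∀ i, VisT B I fl sc i → i = 0 ∨ i = 1 ∨ i = 2 ∨ i = 7 ∨ i = 8 :=
    fun i hi => Th171.vis_flag C hi
  have hSo := sok_oS (by linarith : θ 1 < θ 0) (by linarith : θ 1 < 2 * θ 0)
  obtain ⟨l', α', h'', X', H', lam3, lam4, ρ3, ρ4, -, -, -, P, hEq, hT⟩ :=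
    plane8z (Vis' := VisT B I fl sc) (v := 0) (c := 1) (p := 1) O hβ hSo leg80_oS hcp hRp (by
        refine all8 ?_ ?_ ?_ ?_ ?_ ?_ ?_ ?_ <;> ev8 <;> norm_num) (by norm_num)
      (not_not.2 hV1) (fun i hi => by
      have e6 : oS 6 = 0 := rfl
      have e7 : oS 7 = 0 := rfl
      have e0 : oS 0 = 0 := rfl
      left
      refine ⟨hi, ?_⟩
      rcases hvis i hi with rfl | rfl | rfl | rfl | rfl
      · change oS 0 ≤ oS 0 * _
        rw [e0, zero_mul]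
      · exact absurd hV1 hi
      · change oS 7 ≤ oS 0 * _
        rw [e0, zero_mul, e7]
      · change oS 6 ≤ oS 0 * _
        rw [e0, zero_mul, e6]
      · change oS 6 ≤ oS 0 * _
        rw [e0, zero_mul, e6]) (N := Set.univ)
      (Eventually.of_forall fun _ => trivial) (y := 1) one_pos
  obtain ⟨φ', hcl'⟩ := P.cls one_pos hSo (fun i hi => hvis i hi) (hc_oS hθ0 hkk hbe) h8_cS
    (hz_oS hθ0 hkk hbe)
  have F' : Fct9 (fun w => w 6 ≤ (θ 0 - θ 1) * w 0 ∧ w 7 ≤ (2 * θ 0 - θ 1) * w 0) s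
      (Lam8 (lam4 0)) := by
    refine Pd3x363.pd8_fctS P C hs0 hs1 one_ne_zero hθ0 hv0 hv1 fun w hw hS i hi => ?_
    rcases hvis i hi with rfl | rfl | rfl | rfl | rfl
    · change w 0 ≤ w 0 * βL (θ 0) (θ 1) 0
      have : βL (θ 0) (θ 1) 0 = 1 := rfl
      rw [this, mul_one]
    · exact absurd hV1 hi
    · change w 7 ≤ w 0 * βL (θ 0) (θ 1) 2
      have e2 : βL (θ 0) (θ 1) 2 = -(θ 1) - 2 * -(θ 0) := rfl
      rw [e2]; linarith [hS.2]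
    · change w 6 ≤ w 0 * βL (θ 0) (θ 1) 7
      have e2 : βL (θ 0) (θ 1) 7 = -(θ 1) - -(θ 0) := rfl
      rw [e2]; linarith [hS.1]
    · change w 6 ≤ w 0 * βL (θ 0) (θ 1) 8
      have e2 : βL (θ 0) (θ 1) 8 = -(θ 1) - -(θ 0) := rfl
      rw [e2]; linarith [hS.1]
  have FU : FctU (θ 0 - θ 1) (fun w => w 7 < (2 * θ 0 - θ 1) * w 0) (Lam8 (lam4 0)) := by
    refine Th171.fctU8 P C hθ0 one_ne_zero hv0 hv1 leg_oS ?_ ?_ ?_ ?_ ?_ ?_ hB hV1 (fun _ => ?_)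
      (fun w _ hw _ => hw) <;> ev8 <;> norm_num
  have PU := FlK363.plU_oS (θ := θ 0) (θb := θ 1) (k := θ 0 - θ 1)
  have GU : RgU (θ 0 - θ 1) (2 * θ 0 - θ 1) 1
      (fun w => w 6 ≤ (θ 0 - θ 1) * w 0 ∧ w 7 ≤ (2 * θ 0 - θ 1) * w 0)
      (fun w => w 7 < (2 * θ 0 - θ 1) * w 0) :=
    { k0 := hkk
      k1 := by linarith
      k2 := one_pos
      sk := fun w h1 h2 _ => ⟨h1.le, h2.le⟩
      sg := fun _ h _ => h
      h12 := fun h => absurd h hk2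
      h11 := fun h => absurd h hk3 }
  have hEF : EF' s (θ 0 - θ 1) (plS s (ρ4 0) (ρ4 1) (rE (cS (θ 0 - θ 1)) φ')
      (1 - xE (cS (θ 0 - θ 1)) φ') (ρ4 4) (1 - hE (cS (θ 0 - θ 1)) φ')) := by
    have e := FlK363.cS_gen hk3 hk2
    refine efU hcl' PU GU F' hs0 ?_ ?_ ?_ (fun _ => FU) (fun h => absurd h hk3)
    · right
      rw [e]
      intro t' ht'
      revert ht'
      fin_cases t' <;> decide
    · left
      rw [e]; rfl
    · left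
      rw [e]; rfl
  have hTV : TV (θ 0) (θ 0 - (θ 0 - θ 1)) s g (q 0) (q 1) (ρ4 0) (ρ4 1)
      (rE (cS (θ 0 - θ 1)) φ') (1 - xE (cS (θ 0 - θ 1)) φ') (ρ4 4)
      (1 - hE (cS (θ 0 - θ 1)) φ') := by
    have e := FlK363.cS_gen hk3 hk2
    have r2 : rE (cS (θ 0 - θ 1)) φ' = ρ4 2 := by
      rw [rE_al hcl' (by rw [e]; decide)]; rfl
    have r3 : 1 - xE (cS (θ 0 - θ 1)) φ' = ρ4 3 := by
      rw [xE_al hcl' (by rw [e]; decide)]
      show 1 - (1 - ρ4 3) = _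
      ring
    have r5 : 1 - hE (cS (θ 0 - θ 1)) φ' = ρ4 5 := by
      rw [hE_al hcl' (by rw [e]; decide)]
      show 1 - (1 - ρ4 5) = _
      ring
    rw [← hbe, r2, r3, r5]
    have h1 := hT 1
    rw [one_smul, mul_one, mul_one] at h1
    exact tvS8 P.half h1 (by linarith) (by linarith) hk3 hk2
  have hE1 : ρ4 1 = ρp 1 := hEq 1 (A1_ne hθ0)
  have hsup := O.sup8 hβ
  refine ⟨_, hEF, hTV.tan, hTV.ver, ?_, ?_⟩
  · change ρ4 1 ≤ A'.m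
    rw [hA, hE1]
    exact ant_S hsup hθ0 one_pos hcm hcp (by linarith) (by linarith) hMm hMp hRm hRp
  · change q 0 ≤ ρ4 1
    rw [hE1]
    exact (pos8z hcP hθ0 hb0 hRP O.rx.prf (O.zero 0) O.rx.dmax).trans
      (pos_eS hsup hθ0 hkk hcp hcP hbe hb0 hMp hMP hRp hRP)

end ctx

end Crest.Agent.R116.D2u736
end

-- ▼ part R116/FlD2_460

/-!
# R116 (K side, TIES), DOUBLE TIE, cell D2 : `k' = 2 θ 0 - θ 1 = 1` exactly, every `s` (helper460)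

* **`d2_low`** : the half plane data below the record at `kD`, `B` visible (strictly coarser)
* **`cellD2`**  : `DTie'` over the context (above the record: helper736's `d2_up`)
* **`fillD2`**  : the `Fill`, no binder
-/

set_option autoImplicit false
set_option linter.unusedSectionVars false
set_option linter.unusedVariables false

open Set Filter Topology MeasureTheory

namespace Crest.Agent.R116.D2460

open Crest.Agent.R138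
open Crest.Agent.R138.Ex926 (Base U IsTan)
open Crest.Agent.R136
open Crest.Agent.R136.MkA627
open Crest.Agent.R136.TD627
open Crest.Agent.R136.Net191
open Crest.Agent.R136.Lq196
open Crest.Agent.R136.Qg926 Crest.Agent.R136.Gf356 Crest.Agent.R116.EvL504
open Crest.Agent.R116.ChL222
open Crest.Agent.R116.PL504 (nb rL DN eL βL oL Shift eL_wall)
open Crest.Agent.R116.Sg337 (bx9 DL)
open Crest.Agent.R116.Gd222 (TSet sN PDL DT)
open Crest.Agent.R116.KI439 hiding kD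
open Crest.Agent.R116.KF439 (PL)
open Crest.Agent.R116.CtxB468
open Crest.Agent.R116.Rcx363
open Crest.Agent.R116.RbM219
open Crest.Agent.R116.RbK219 (RS SOk Par dl)
open Crest.Agent.R116.Kz647
open Crest.Agent.R116.Rz460
open Crest.Agent.R116.Pd363
open Crest.Agent.R116.Tq741
open Crest.Agent.R116.Tq126
open Crest.Agent.R116.Tp139 hiding cl8
open Crest.Agent.R116.Ku126 (tk8_D)
open Crest.Agent.R116.K1p736 (plane8zE)
open Crest.Agent.R116.Tk299 (K3K AK kf1)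
open Crest.Agent.R116.K1d30 (kf1K' natcut)
open Crest.Agent.R116.KTop387
open Crest.Agent.R116.KTie794
open Tie460 (Pl KF' DTie' EUp')
open Dg219 (mw Walls)
open Sl741 (slice xt rs)

section ctx

variable {G : Geo TSet (Fin 2)} {L : ℕ → ℕ → LRay} {r : ℕ → ℝ} {g s : ℝ} {θ q : Fin 2 → ℝ}
    {Rg : ℝ} {B : Base} {I : ℕ → Finset (ℕ × ℝ)} {lev : ℕ → ℚ → ℕ} {A : ℕ → ℝ}
    {f : ℕ → ℚ → ℕ → ℤ → ℕ} {b : ℕ → ℚ → ℕ → TSet} {vm : ℕ → ℚ → ℝ} {w : Fin 2 → ℕ → ℚ → ℝ}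
    {fr : ℕ → ℚ → ℕ × ℝ → LInc} {fl : ℕ → ℕ × ℝ → LInc} {sc : Fin 12 → ℕ → ℝ}
    {w0 sa sb δ R : ℝ} {I0 I' : ℕ → Finset (ℕ × ℝ)} {ν own : (Fin 12 → ℝ) → ℝ} {c₀ : ℝ}

/-- **below the record at `k' = 1`**, `B` visible: the plane `kD` lowers `b`, so that `B` is strictly
coarser than its level there -/
theorem d2_low {T : Type*} {Bs : T → Fin 8 → ℝ} {sgs : T → ℝ} {v0 : ℝ} {a b' : Fin 2}
    {x : ℕ → Fin 12 → ℝ} {hh : ℕ → ℝ} {lam : Fin 2 → (Fin 12 → ℝ) → ℝ}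
    (C : CtxT G L r g s θ q Rg B I lev A f b vm w fr fl sc w0 sa sb δ R I0 I' ν own c₀)
    (hs0 : 0 ≤ s) (hs1 : s ≤ 1) (hθ : 0 < θ 0) (hβ : 2 * θ 0 - θ 1 - 1 = 0)
    (hv0 : 0 < v0) (hv1 : v0 < 1)
    (hVis : ∀ k, VisT B I fl sc k → k = 0 ∨ k = 2 ∨ k = 7 ∨ k = 8)
    (hE : ¬ InvT PL B I 2 fl (sc 2))
    (O : Out8z R s a b' (VisT B I fl sc) (θ 0) (θ 1) g (q 0) (q 1) Bs sgs
      (rL (θ 0) (θ 1) w0 sa sb v0) (fo ν own) x hh lam)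
    {c0 : ℝ} (hc0 : 0 < c0) {ρ : Fin 8 → ℝ}
    (hR : Rates8 (θ 0) (θ 1) 0 kD (-1) c0 (lam 0) ρ) :
    ∃ A : Pl, KF' s 1 A ∧ TVk 1 (θ 0) s g (q 0) (q 1) 0 (-1) A ∧ A.m = ρ 1 := by
  have hb : θ 1 = 2 * θ 0 - 1 := by linarith
  have kD_eq : kD = nat8 0 (-1) (2 * (-1)) := by unfold kD; norm_num
  have hS := sok_kD hθ one_pos hb
  have hc := hc_kD hθ one_pos hb
  have hz := hz_kD hθ one_pos hb
  have hdl := tk8_D hb
  rw [kD_eq] at hS hc hz hdl hR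
  have hV1 : ¬ VisT B I fl sc 1 := fun h => by
    rcases hVis 1 h with h | h | h | h <;> exact absurd h (by decide)
  have e2 : βL (θ 0) (θ 1) 2 = 1 := by
    change -(θ 1) - 2 * -(θ 0) = 1
    linarith
  obtain ⟨l, α, h', X, H, lam3, lam4, ρ3, ρ4, hl, -, -, P, hρ, hrec, V, E, hV0, hE0, hEp, hEH, hX⟩ :=
    plane8zE (Vis' := fun k => k = 0 ∨ k = 2) O hβ hS (leg80_nat (by ring)) hc0 hR
      (v := 0) (c := -1) (p := 2 * (-1)) le_rfl (by linarith) hV1 (fun k hk => by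
        rcases hVis k hk with rfl | rfl | rfl | rfl
        · left
          refine ⟨Or.inl rfl, ?_⟩
          change (0:ℝ) ≤ 0 * 1
          norm_num
        · left
          refine ⟨Or.inr rfl, ?_⟩
          rw [e2]
          change 2 * (-1) - 2 * (-1) ≤ (0:ℝ) * 1
          norm_num
        · right
          change (2 * (-1) - (-1) : ℝ) < 0 * _
          rw [zero_mul]
          norm_num
        · right
          change (2 * (-1) - (-1) : ℝ) < 0 * _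
          rw [zero_mul]
          norm_num) (N := univ) (by simp) one_pos
  obtain ⟨φ, Hc⟩ := P.cls one_pos hS (fun k hk => by rcases hk with rfl | rfl <;> simp) hc h8_cK hz
  have F : Fct9 (fun w => w 7 ≤ w 0) s
      (fun w : V9 => lam4 0 (xt kp 0 (RL8.vec (fun i : Fin 8 => w i.castSucc)))) := by
    refine Kt387.pd8_fct' P C hs0 hs1 one_ne_zero hθ hv0 hv1 ?_
    intro w' _ hSk k hk
    rcases hk with rfl | rfl
    · change w' 0 ≤ w' 0 * 1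
      rw [mul_one]
    · rw [e2, mul_one]
      exact hSk
  have hX0 : ∀ m, X m 0 - w0 = v0 + V m := fun m => by
    rw [hX m 0 (by decide)]
    change w0 + (v0 + V m) + E m * 0 - w0 = _
    ring
  have K3 : K3K s (fun w : V9 => lam4 0 (xt kp 0 (RL8.vec (fun i : Fin 8 => w i.castSucc)))) := by
    refine K3V460.k3K_pd8 P C one_ne_zero hβ (by ring) hE hv0 hv1 fun k hk => Or.inr fun K => ?_
    filter_upwards [hEH K] with m hm
    rw [hX0 m]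
    rcases hk with rfl | rfl
    · rw [hX m 7 (by decide)]
      change _ + E m * (2 * (-1) - (-1)) + K * H m ≤ _
      linarith
    · rw [hX m 8 (by decide)]
      change _ + E m * (2 * (-1) - (-1)) + K * H m ≤ _
      linarith
  have hKF := kf1K' hdl Hc hs0 hs1 F (fun w h7 h8 => h7.le) K3
  have T1 : (fun w : V9 => lam4 0 (xt kp 0 (RL8.vec (fun i : Fin 8 => w i.castSucc))))
      (nat9 1 (-(θ 0)) (-(2 * (θ 0) - 1))) =
        DL g s (q 0) (q 1) 1 (-(θ 0)) (-(2 * (θ 0) - 1)) := by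
    show lam4 0 (xt kp 0 (RL8.vec
      (fun i : Fin 8 => nat9 1 (-(θ 0)) (-(2 * (θ 0) - 1)) i.castSucc))) = _
    rw [natcut, ← hb]
    have h1 := hrec 1
    rw [one_smul, mul_one, mul_one] at h1
    exact h1
  have V1 : (fun w : V9 => lam4 0 (xt kp 0 (RL8.vec (fun i : Fin 8 => w i.castSucc))))
      (nat9 0 (-1) (2 * (-1) + 1 * 0)) ≤ DL g s (q 0) (q 1) 0 (-1) (2 * (-1) + 1 * 0) := by
    show lam4 0 (xt kp 0 (RL8.vec
      (fun i : Fin 8 => nat9 0 (-1) (2 * (-1) + 1 * 0) i.castSucc))) ≤ _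
    have e : 2 * (-1) + 1 * 0 = (2 * (-1) : ℝ) := by ring
    rw [natcut, e]
    exact P.half.row
  refine ⟨_, hKF, Tk299.PlK.tv hdl Hc (fun _ => rfl) T1 V1, ?_⟩
  show sn8 ρ4 0 1 = ρ 1
  exact hρ 1 (A1_ne hθ)

/-- **cell D2 over the context** -/
theorem cellD2 {η : ℝ} (hη : η < 1)
    (C : CtxT G L r (g + 2 * s) s θ q Rg B I lev A f b vm w fr fl sc w0 sa sb δ R I0 I' ν own c₀)
    (hN : NumL η g s θ q) (hβ : 2 * θ 0 - θ 1 - 1 = 0)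
    (hR0 : w0 + (θ 1 + sb) < R) (hR1 : w0 + 1 + sb < R) (hRg : θ 0 + |θ 1| < Rg)
    (h1 : InvT PL B I 1 fl (sc 1)) (hE : ¬ InvT PL B I 2 fl (sc 2))
    (hB : TieT θ B I lev fl sc 7 ∨ TieT θ B I lev fl sc 8) :
    DTie' (θ 0 - θ 1) (2 * θ 0 - θ 1) (θ 0) s (g + 2 * s) (q 0) (q 1) := by
  have hθ : 0 < θ 0 := hN.θa
  have hb : θ 1 = 2 * θ 0 - 1 := by linarith
  have hs0 : 0 ≤ s := hN.s0
  have hs1 : s ≤ 1 := hN.s1.le
  have hk1 : 2 * θ 0 - θ 1 = 1 := by linarith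
  have hVis : ∀ k, VisT B I fl sc k → k = 0 ∨ k = 2 ∨ k = 7 ∨ k = 8 := fun k hk => by
    rcases Fk647.vis_flag C.out k hk with h | h | h | h | h
    · exact Or.inl h
    · rw [h] at hk
      exact absurd h1 hk
    · exact Or.inr (Or.inl h)
    · exact Or.inr (Or.inr (Or.inl h))
    · exact Or.inr (Or.inr (Or.inr h))
  by_cases h2 : 2 * θ 0 < 1
  · -- both sides
    have hb0 : θ 1 < 0 := by linarith
    obtain ⟨v0, -, hv0, hv1, a, b', x, hh, lam, hX, O⟩ := exists_out8z (T := Fin 3) C hR0 hR1 hθ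
      hRg hβ (Bs := ![kD, oS, oP]) (sg := ![-1, 1, 1]) (fun i => by
        fin_cases i
        · exact sok_kD hθ one_pos hb
        · exact sok_oS (by linarith) (by linarith)
        · exact sok_oP (by linarith) (by linarith) hb0) (fun i => by
        fin_cases i
        · exact leg80_kD
        · exact leg80_oS
        · exact leg80_oP) (N := univ) (by simp)
    obtain ⟨cD, hcD, hLD, -, ρD, hRD⟩ := O.surf 0
    obtain ⟨cS, hcS, hLS, -, ρS, hRS⟩ := O.surf 1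
    obtain ⟨cP, hcP, hLP, -, ρP, hRP⟩ := O.surf 2
    change (srf8 (θ 0) (θ 1) 0 kD (-1)).LW (Q8 0) cD ⊆ _ at hLD
    change Rates8 (θ 0) (θ 1) 0 kD (-1) cD (lam 0) ρD at hRD
    change (srf8 (θ 0) (θ 1) 0 oS 1).LW (Q8 0) cS ⊆ _ at hLS
    change Rates8 (θ 0) (θ 1) 0 oS 1 cS (lam 0) ρS at hRS
    change (srf8 (θ 0) (θ 1) 0 oP 1).LW (Q8 0) cP ⊆ _ at hLP
    change Rates8 (θ 0) (θ 1) 0 oP 1 cP (lam 0) ρP at hRP
    have hp := O.posA_kD hβ hθ hcD hLD hRD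
    obtain ⟨A1, hA, tvA, hAm⟩ := d2_low C hs0 hs1 hθ hβ hv0 hv1 hVis hE O hcD hRD
    refine ⟨A1, by rw [hk1]; exact hA, fun h => absurd h (by linarith), ?_, tvA.ver (by norm_num),
      by rw [hAm]; exact hp, fun h => absurd h (by linarith), fun _ hk _ =>
      D2u736.d2_up C hθ hs0 hs1 hβ h1 hB hk hv0 hv1 O hcD hcS hcP hLD hLS hLP hRD hRS hRP hAm⟩
    have e : θ 0 - (θ 0 - θ 1) = 2 * θ 0 - 1 := by linarith
    rw [e]
    exact tvA.tan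
  · obtain ⟨v0, -, hv0, hv1, a, b', x, hh, lam, hX, O⟩ := exists_out8z (T := Unit) C hR0 hR1 hθ
      hRg hβ (Bs := fun _ => kD) (sg := fun _ => -1) (fun _ => sok_kD hθ one_pos hb)
      (fun _ => leg80_kD) (N := univ) (by simp)
    obtain ⟨cD, hcD, hLD, -, ρD, hRD⟩ := O.surf ()
    have hp := O.posA_kD hβ hθ hcD hLD hRD
    obtain ⟨A1, hA, tvA, hAm⟩ := d2_low C hs0 hs1 hθ hβ hv0 hv1 hVis hE O hcD hRD
    refine ⟨A1, by rw [hk1]; exact hA, fun h => absurd h (by linarith), ?_, tvA.ver (by norm_num),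
      by rw [hAm]; exact hp, fun h => absurd h (by linarith), fun _ hk _ =>
      absurd hk (by linarith)⟩
    have e : θ 0 - (θ 0 - θ 1) = 2 * θ 0 - 1 := by linarith
    rw [e]
    exact tvA.tan

end ctx

/-- **THE FILL of the cell D2** (`k' = 1`), no binder -/
theorem fillD2 {η : ℝ} (hη : η < 1) :
    Fill η FlH850.VD fun g s θ q => 2 * θ 0 - θ 1 = 1 →
      DTie' (θ 0 - θ 1) (2 * θ 0 - θ 1) (θ 0) s (g + 2 * s) (q 0) (q 1) := by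
  intro g s θ q hN
  refine ⟨θ 0 + |θ 1| + 1, fun Rg hRg => ?_⟩
  intro G L r B I lev A f b vm w fr fl sc w0 sa sb δ R I0 I' ν own c₀ C hV hk
  obtain ⟨hB, hE⟩ := hV
  obtain ⟨w0', sa', sb', δ', R', J0, J', ν', own', c', C', hR0, hR1⟩ := strict_ctx C
  have h1 : InvT PL B I 1 fl (sc 1) := not_not.1 (Fk647.vis_noD C'.out hk.le)
  have h2 : ¬ InvT PL B I 2 fl (sc 2) := by
    rcases hE with h | h
    · exact h.1
    · exact absurd h1 h.1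
  exact cellD2 hη C' hN (by linarith) hR0 hR1 (by linarith) h1 h2 hB


end Crest.Agent.R116.D2460
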