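import Crest.Agent.R116.FlK1_363
import Crest.Agent.R116.Pd3_363
import Crest.Agent.R116.Pk2_348
import Crest.Agent.R116.Tp7_139
import Crest.Agent.R116.Hm1_621
import Crest.Agent.R116.IIr4_460
import Crest.Agent.R116.Hm2_621
import Crest.Agent.R116.TwF6_369
import Crest.Agent.R116.D0y5_219
import Crest.Agent.R116.FlH_850
import Crest.Agent.R116.Tk7_538_Mg
import Crest.Agent.R116.Tk8_126
import Crest.Agent.R116.TwK9_420
import Crest.Agent.R116.Kt3_387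
import Crest.Agent.R116.Fk1_647
import Crest.Agent.R116.Pd2_363
import Crest.Agent.R116.Pk1_348
import Crest.Agent.R116.Tk5_299
import Crest.Agent.R116.TwM_420

-- ▼ part R116/FlK2_363
section

/-!
# R116, `κ`-tie, `k' < 1`, `s < 1/2` (helper363)

* `hh_half`     : the sum rule of the class `{C_b, H}` of `oS`, `κ = 1/2`
* `s1_plane`    : the plane `oS` over the context ⊢ 139's `TV`, `Pos`, `FanB`
* `kTie_lo`     : context ⊢ `KTie'` for `k' < 1`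
* **`fillK3`**  : the cell as a `Fill`
-/

set_option autoImplicit false
set_option linter.unusedVariables false
set_option linter.unusedSectionVars false

open Set Filter Topology MeasureTheory

namespace Crest.Agent.R116.FlK363

open Crest.Agent.R138
open Crest.Agent.R138.Ex926 (Base U IsTan)
open Crest.Agent.R136
open Crest.Agent.R136.MkA627
open Crest.Agent.R136.TD627
open Crest.Agent.R136.Net191
open Crest.Agent.R136.Lq196
open Crest.Agent.R116.ChL222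
open Crest.Agent.R116.PL504 (nb rL DN eL βL oL Shift)
open Crest.Agent.R116.Sg337 (bx9 coneL DL natB)
open Crest.Agent.R116.Gd222 (TSet sN PDL DT)
open Crest.Agent.R116.KI439 hiding kD
open Crest.Agent.R116.KF439 (PL)
open Crest.Agent.R116.CtxB468
open Crest.Agent.R116.Rcx363
open Crest.Agent.R116.RbM219
open Crest.Agent.R116.RbK219 (RS SOk Par dl Aln)
open Crest.Agent.R116.SgO219 (PP)
open Crest.Agent.R116.Kz647
open Crest.Agent.R116.Pd363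
open Crest.Agent.R116.SgF665 (LM0)
open Crest.Agent.R116.WinG954 (LM)
open Crest.Agent.R116.Tq741
open Crest.Agent.R116.Tq794
open Crest.Agent.R116.Tq126
open Crest.Agent.R116.Tp139 hiding cl8
open Crest.Agent.R116.PosA348
open Crest.Agent.R116.Pk348 (KDat8 kdat8 VisK AK)
open Crest.Agent.R116.KTop387
open Crest.Agent.R116.KTie794
open Crest.Agent.R116.Tie460 (Pl KF' S1 KUp' KTie')
open Crest.Agent.R116.NZ90 (Lam8)
open Dg219 (mw Walls)
open Sl741 (slice xt rs)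

/-- the sum rule of the class `{C_b, H}` of `oS`, `κ = 1/2` -/
theorem hh_half {θ θb s : ℝ} {Λ : V9 → ℝ} {φ : Fin 9 → V9 → ℝ} {ρ : V9}
    (C : Cl9 (cS (1 / 2)) (sn8 (dl (nat8 1 (-θ) (-θb)) oS 1) 1) s Λ φ ρ) :
    rE (cS (1 / 2)) φ / 2 + (1 - hE (cS (1 / 2)) φ) = ρ 5 := by
  have d2 : sn8 (dl (nat8 1 (-θ) (-θb)) oS 1) 1 2 = 1 := by
    show dl _ _ _ 2 = 1
    unfold dl; rw [s2, if_neg one_ne_zero, mul_one]
  have d5 : sn8 (dl (nat8 1 (-θ) (-θb)) oS 1) 1 5 = 2 := by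
    show dl _ _ _ 5 = 2
    unfold dl; rw [s5, if_neg two_ne_zero, one_mul]
  have c2 : cS (1 / 2) 2 = 2 := by rw [cS_half]; rfl
  have c5 : cS (1 / 2) 5 = 2 := by rw [cS_half]; rfl
  have al : ∀ t : Fin 9, cS (1 / 2) t = 2 → t = 2 ∨ t = 5 := by
    rw [cS_half]; decide
  have h0 : φ 2 0 = 0 := by
    have := C.zero_of 5 (w := 0) fun t' _ => rfl
    rwa [c5] at this
  have h1 : φ 2 (e9 2 + (2:ℝ) • e9 5) = -(ρ 5 * 2) := by
    have := C.rate 5 (e9 2 + (2:ℝ) • e9 5) fun t' ht' => by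
      rw [d5]
      rw [c5] at ht'
      rcases al t' ht' with rfl | rfl
      · rw [add_e9_ne (by decide), e9_same, add_e9_same, e9_ne (by decide), d2]; ring
      · rw [d5]
    rw [c5, add_e9_same, e9_ne (by decide)] at this
    rw [this]; ring
  have h2 : φ 2 (e9 3) = φ 2 0 := C.loc 2 _ _ fun t ht => by
    rcases al t ht with rfl | rfl
    · rw [e9_ne (by decide)]; rfl
    · rw [e9_ne (by decide)]; rfl
  have h3 : φ 2 (e9 3 + (1:ℝ) • e9 2) = φ 2 (e9 2) := C.loc 2 _ _ fun t ht => by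
    rcases al t ht with rfl | rfl
    · rw [add_e9_same, e9_ne (by decide), e9_same]; ring
    · rw [add_e9_ne (by decide), e9_ne (by decide), e9_ne (by decide)]
  unfold rE hE
  rw [c2, c5, h2, h3, h0, h1]
  ring

section ctx

variable {G : Geo TSet (Fin 2)} {L : ℕ → ℕ → LRay} {r : ℕ → ℝ} {g s : ℝ} {θ q : Fin 2 → ℝ}
    {Rg : ℝ} {B : Base} {I : ℕ → Finset (ℕ × ℝ)} {lev : ℕ → ℚ → ℕ} {A : ℕ → ℝ}
    {f : ℕ → ℚ → ℕ → ℤ → ℕ} {b : ℕ → ℚ → ℕ → TSet} {vm : ℕ → ℚ → ℝ} {w : Fin 2 → ℕ → ℚ → ℝ}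
    {fr : ℕ → ℚ → ℕ × ℝ → LInc} {fl : ℕ → ℕ × ℝ → LInc} {sc : Fin 12 → ℕ → ℝ}
    {w0 sa sb δ R : ℝ} {I0 I' : ℕ → Finset (ℕ × ℝ)} {ν own : (Fin 12 → ℝ) → ℝ} {c₀ : ℝ}
    {v0 t k c0 : ℝ} {a b' : Fin 2} {x : ℕ → Fin 12 → ℝ} {hh : ℕ → ℝ}
    {lam : Fin 2 → (Fin 12 → ℝ) → ℝ} {T : Type*}

/-- **the plane `oS` over the context**, `k' < 1` -/
theorem s1_plane
    (C : CtxT G L r g s θ q Rg B I lev A f b vm w fr fl sc w0 sa sb δ R I0 I' ν own c₀)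
    (hs0 : 0 ≤ s) (hs1 : s ≤ 1) (hθ : 0 < θ 0) (hk1 : k < 1) (hb : θ 1 = 2 * θ 0 - k)
    (hlt : θ 0 < k) (hv0 : 0 < v0) (hv1 : v0 < 1) (ht : 0 < t)
    (hVis : ∀ i, VisT B I fl sc i → i = 0 ∨ i = 2)
    {Bs : T → Fin 8 → ℝ} {sgs : T → ℝ}
    (O : Out8 R s a b' (VisT B I fl sc) (θ 0) (θ 1) g (q 0) (q 1) t Bs sgs
      (rL (θ 0) (θ 1) w0 sa sb v0) (fo ν own) x hh lam) (hc0 : 0 < c0) {ρ : Fin 8 → ℝ}
    (hR : Rates8 (θ 0) (θ 1) t oS 1 c0 (lam 0) ρ) :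
    ∃ (κ l α : ℝ) (h' : ℕ → ℝ) (lam2 : Fin 2 → (Fin 12 → ℝ) → ℝ) (ρ2 : Fin 8 → ℝ)
      (rr xx hx : ℝ), Half8 (θ 0) (θ 1) t oS 1 lam 0 ρ κ l α h' lam2 ρ2 ∧
      TV (θ 0) (2 * θ 0 - k) s g (q 0) (q 1) (ρ2 0) (ρ2 1) rr (1 - xx) (ρ2 4) (1 - hx) ∧
      (plS s (ρ2 0) (ρ2 1) rr (1 - xx) (ρ2 4) (1 - hx)).Pos ∧
      (plS s (ρ2 0) (ρ2 1) rr (1 - xx) (ρ2 4) (1 - hx)).FanB s ∧ ρ2 1 = ρ 1 := by
  have hk : 0 < k := hθ.trans hlt
  have hκ : 0 < θ 0 - θ 1 := by rw [hb]; linarith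
  have hb1 : θ 1 < θ 0 := by linarith
  have hb2 : θ 1 < 2 * θ 0 := by linarith
  have hS := sok_oS hb1 hb2
  have hV1 : ¬ VisT B I fl sc 1 := fun h => by
    rcases hVis 1 h with h | h <;> exact absurd h (by decide)
  obtain ⟨l, α, h', X, H, lam2, ρ2, hl, -, -, P⟩ := plane8 (Vis' := VisT B I fl sc) O ht hS
    leg_oS hc0 hR (v := 0) (c := 1) (p := 1) (by
      refine all8 ?_ ?_ ?_ ?_ ?_ ?_ ?_ ?_ <;> ev8 <;> norm_num) hV1 (fun i hi => by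
      left
      refine ⟨hi, ?_⟩
      have e0 : oS 0 = 0 := by ev8
      have e7 : oS 7 = 0 := by ev8
      rcases hVis i hi with rfl | rfl
      · change oS 0 ≤ oS 0 * βL (θ 0) (θ 1) 0
        rw [e0, zero_mul]
      · change oS 7 ≤ oS 0 * βL (θ 0) (θ 1) 2
        rw [e0, zero_mul, e7])
    (N := univ) (Eventually.of_forall fun _ => mem_univ _) one_pos
  have eb : θ 1 = θ 0 - (θ 0 - θ 1) := by ring
  obtain ⟨φ, hcl⟩ := P.cls ht hS (fun i hi => by rcases hVis i hi with rfl | rfl <;> simp)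
    (hc_oS hθ hκ eb) h8_cS (hz_oS hθ hκ eb)
  have hfct : Fct9 (fun w => w 7 ≤ k * w 0) s
      (fun w => lam2 0 (xt kp 0 (RL8.vec (fun i : Fin 8 => w i.castSucc)))) := by
    refine Pd3x363.pd8_fctS P C hs0 hs1 ht.ne' hθ hv0 hv1 ?_
    intro w hw hSk i hi
    rcases hVis i hi with rfl | rfl
    · change w 0 ≤ w 0 * βL (θ 0) (θ 1) 0
      have : βL (θ 0) (θ 1) 0 = 1 := rfl
      rw [this, mul_one]
    · change w 7 ≤ w 0 * βL (θ 0) (θ 1) 2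
      have e2 : βL (θ 0) (θ 1) 2 = -(θ 1) - 2 * -(θ 0) := rfl
      have e3 : βL (θ 0) (θ 1) 2 = k := by rw [e2, hb]; ring
      rw [e3, mul_comm]
      exact hSk
  have hκ1 : θ 0 - θ 1 ≠ 1 := by rw [hb]; intro h; linarith
  have PU : PlU (θ 0 - θ 1) (cS (θ 0 - θ 1)) (sn8 (dl (nat8 1 (-(θ 0)) (-(θ 1))) oS 1) 1) :=
    plU_oS
  have RG : RgU (θ 0 - θ 1) k 1 (fun w => w 7 ≤ k * w 0) (fun w => w 7 ≤ k * w 0) :=
    ⟨hκ, hk, one_pos, fun w _ h _ => h.le, fun w h _ => h.le,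
      fun _ => ⟨hk1, fun w _ h => h.le, fun w h => h.le⟩, fun h => absurd h hκ1⟩
  refine ⟨_, l, α, h', lam2, ρ2, rE (cS (θ 0 - θ 1)) φ, xE (cS (θ 0 - θ 1)) φ,
    hE (cS (θ 0 - θ 1)) φ, P.half, ?_, posU hcl PU, fanBU hcl PU RG hfct hκ1, ?_⟩
  · rw [← hb]
    exact tvS P.half (O.zero 0) O.rx hb1 hb2 hκ1 hcl fun h => by
      have hcl' := hcl
      rw [h] at hcl' ⊢
      exact hh_half hcl'
  · exact P.half.eq 1 (by
      show -(θ 0) ≠ 0
      linarith)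

theorem supSO {θa θb t K own : ℝ} {lm : (Fin 12 → ℝ) → ℝ} (hl : NZ90.LamOk (L8 θa θb t) lm K own) :
    Dg262.SupOn (fun c => lm (xt kp 0 c)) ((Q8 t).L (rs kp (y8 t)) (rs kp (r8 θa θb)) 0) :=
  supOn8 hl.sup

/-- **(W3k) on a natural plane of a `κ`-tie, `D` frozen**, `B`, `D` invisible -/
theorem fctK8
    (C : CtxT G L r g s θ q Rg B I lev A f b vm w fr fl sc w0 sa sb δ R I0 I' ν own c₀)
    {κ sg l α v c p : ℝ} {Vis' : Fin 12 → Prop} {X : ℕ → Fin 12 → ℝ} {h' H : ℕ → ℝ}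
    {lam2 : Fin 2 → (Fin 12 → ℝ) → ℝ} {ρ ρ2 : Fin 8 → ℝ}
    (P : Pd8 R s a b' Vis' (θ 0) (θ 1) w0 sa sb v0 t κ (nat8 v c p) sg (fo ν own) lam ρ l α
      h' X H lam2 ρ2) (ht : t ≠ 0) (hv0 : 0 < v0) (hv1 : v0 < 1)
    (hp : p - 2 * c = v * (2 * θ 0 - θ 1)) (hE : TieT θ B I lev fl sc 2)
    (hVis : ∀ k, VisT B I fl sc k → k = 0 ∨ k = 2) :
    FctK (2 * θ 0 - θ 1)
      (fun w => lam2 0 (xt kp 0 (RL8.vec (fun i : Fin 8 => w i.castSucc)))) := by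
  obtain ⟨v', pb, -⟩ := Hm621.pb8 P ht hv0 hv1 (S := {0, 2}) (by
    intro k hk
    have h1 : k = 0 ∨ k = 2 := by simpa using hk
    rcases h1 with rfl | rfl
    · refine ⟨by decide, ?_⟩
      change v = v * 1
      ring
    · refine ⟨by decide, ?_⟩
      change p - 2 * c = v * (-(θ 1) - 2 * -(θ 0))
      rw [hp]; ring)
  refine ⟨fun x Rw ho hx hL => ?_⟩
  have hL' : LinS {0, 7} (fun w => lam2 0 (E8 w)) x Rw := by
    simpa only [Tq794.E8_eq] using hL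
  refine Tw369.k3 C hE Tw369.em8 Tw369.rz8K pb (fun k hk0 hV => ?_) ho hx
    (Tw369.linS_mono (by decide) hL')
  rcases hVis k hV with h | h
  · exact absurd h hk0
  · exact Or.inl h

/-- **`KTie'` over the context**, `k' < 1` -/
theorem kTie_lo
    (C : CtxT G L r g s θ q Rg B I lev A f b vm w fr fl sc w0 sa sb δ R I0 I' ν own c₀)
    (hs0 : 0 ≤ s) (hs1 : s ≤ 1) (hθ : 0 < θ 0) (hk : 0 < k) (hk1 : k < 1)
    (hb : θ 1 = 2 * θ 0 - k) (hR0 : w0 + (θ 1 + sb) < R) (hR1 : w0 + 1 + sb < R)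
    (hRg : θ 0 + |θ 1| < Rg) (hmic : Mic ν (θ 0) (θ 1) w0 sa sb) (hI1 : InvT PL B I 1 fl (sc 1))
    (hE : TieT θ B I lev fl sc 2) (hVis : ∀ i, VisT B I fl sc i → i = 0 ∨ i = 2) :
    KTie' k (θ 0) s g (q 0) (q 1) := by
  have ek : 2 * θ 0 - θ 1 = k := by rw [hb]; ring
  have hW : ∀ {v0 c0 l α : ℝ} {ρ ρ2 : Fin 8 → ℝ} {h' H : ℕ → ℝ} {X : ℕ → Fin 12 → ℝ}
      {lam lam2 : Fin 2 → (Fin 12 → ℝ) → ℝ} {φ : Fin 9 → V9 → ℝ} {a b' : Fin 2}, 0 < v0 → v0 < 1 →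
      KDat8 R s a b' (VisT B I fl sc) θ q g w0 sa sb v0 1 k (fo ν own) lam ρ l α h' X H lam2 ρ2
        φ → AK k s g θ q ρ (plK s (cK k) φ (sn8 ρ2 0)) := by
    intro v0 c0 l α ρ ρ2 h' H X lam lam2 φ a b' hv0 hv1 K
    refine K.fin hs0 hθ hk hk1 hb ?_
    rw [← ek]
    exact fctK8 C (v := 0) (c := -1) (p := -2) K.pd one_ne_zero hv0 hv1 (by ring) hE hVis
  have hS1 := sok_kD hθ hk hb
  by_cases hlt : θ 0 < k
  · have hb1 : θ 1 < θ 0 := by linarith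
    have hb2 : θ 1 < 2 * θ 0 := by linarith
    obtain ⟨v0, -, hv0, hv1, a, b', x, hh, lam, -, -, O⟩ := exists_out8 (T := Fin 3) C hR0 hR1 hθ
      hRg hmic hI1 (t := 1) one_pos (Bs := ![kD, NZ90.kH, oS]) (sg := ![-1, -1, 1])
      (by
        intro i; fin_cases i
        · exact hS1
        · exact NZ90.sok_kH hk hb
        · exact sok_oS hb1 hb2)
      (by
        intro i; fin_cases i
        · exact leg_kD
        · exact NZ90.leg_kH
        · exact leg_oS) (N := univ) (by simp)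
    obtain ⟨c1, hc1, hM1, -, ρ1, hr1⟩ := O.surf 0
    obtain ⟨c2, hc2, hM2, -, ρ2, hr2⟩ := O.surf 1
    obtain ⟨c3, hc3, hM3, -, ρ3, hr3⟩ := O.surf 2
    change Rates8 (θ 0) (θ 1) 1 kD (-1) c1 (lam 0) ρ1 at hr1
    change Rates8 (θ 0) (θ 1) 1 NZ90.kH (-1) c2 (lam 0) ρ2 at hr2
    change Rates8 (θ 0) (θ 1) 1 oS 1 c3 (lam 0) ρ3 at hr3
    obtain ⟨l, α, h', X, H, lam2, ρ', φ, K⟩ := kdat8 C hs0 hs1 hθ hk hb hv0 hv1 one_pos hI1 O hc1
      hM1 hr1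
    have F := hW (c0 := c1) hv0 hv1 K
    obtain ⟨κ', l', α', h'', lamS, ρS, rr, xx, hx, HS, TVS, PS, FS, e1⟩ := s1_plane C hs0 hs1 hθ
      hk1 hb hlt hv0 hv1 one_pos hVis O hc3 hr3
    have hLam := NZ90.Out8.lamOk O fun i hi => by rcases hVis i hi with rfl | rfl <;> simp
    refine ⟨plK s (cK k) φ (sn8 ρ' 0), F.F, fun _ => F.dz, ?_, F.ver, F.pos, fun h => ?_,
      fun _ _ => ?_, fun h h1 => ?_⟩
    · rw [← hb]; exact F.tan
    · exact absurd h (not_le.2 hlt)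
    · refine ⟨plS s (ρS 0) (ρS 1) rr (1 - xx) (ρS 4) (1 - hx), Tp139.s1_of TVS PS FS ?_ ?_⟩
      · rw [e1, F.m]
        exact Tp139.ant_S (hs := supSO hLam) (hθ := hθ) (hk := hk) (hc₁ := hc1) (hc₂ := hc3) hb hb1
          hM1 hM3 hr1 hr3
      · intro h4
        refine NZ90.nzK_pl one_ne_zero hθ hlt hk1 hb hc3 hc1 hc2 hLam hr3 hr1 hr2 K.pd.half HS K.cl
          (Pk348.plK_cK hθ hk hk1 hb) (B := plS s (ρS 0) (ρS 1) rr (1 - xx) (ρS 4) (1 - hx)) rfl ?_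
        show 1 - ρS 4 = 0
        rw [h4]; ring
    · exact absurd h1 (not_le.2 hk1)
  · push Not at hlt
    obtain ⟨v0, -, hv0, hv1, a, b', x, hh, lam, -, -, O⟩ := exists_out8 (T := Unit) C hR0 hR1 hθ
      hRg hmic hI1 (t := 1) one_pos (Bs := fun _ => kD) (sg := fun _ => -1)
      (fun _ => hS1) (fun _ => leg_kD) (N := univ) (by simp)
    obtain ⟨c1, hc1, hM1, -, ρ1, hr1⟩ := O.surf ()
    obtain ⟨l, α, h', X, H, lam2, ρ', φ, K⟩ := kdat8 C hs0 hs1 hθ hk hb hv0 hv1 one_pos hI1 O hc1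
      hM1 hr1
    have F := hW (c0 := c1) hv0 hv1 K
    refine ⟨plK s (cK k) φ (sn8 ρ' 0), F.F, fun _ => F.dz, ?_, F.ver, F.pos, fun h _ => ?_,
      fun h => absurd h (not_lt.2 hlt), fun h h1 => absurd h1 (not_le.2 hk1)⟩
    · rw [← hb]; exact F.tan
    · have h3 := Fk647.sum8_out O one_pos hθ (by rw [ek]; exact hk) (by rw [ek]; exact hk1)
        (by rw [ek]; exact hlt) hVis hc1 hM1 hr1
      have e1 : ρ' 1 = ρ1 1 := K.r1
      have e2 : ρ' 2 = ρ1 2 := K.pd.half.eq 2 (by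
        show -(θ 1) ≠ 0
        linarith)
      show g + q 0 + q 1 ≤ ρ' 1 + ρ' 2
      rw [e1, e2]; exact h3

end ctx

/-- **`κ`-tie, `k' < 1`, `s < 1/2`** -/
theorem fillK3 {η : ℝ} (hD : D0T η fun s θ => s < 1 / 2 ∧ 2 * θ 0 - θ 1 < 1) :
    Fill η (fun θ B I lev fl sc => InvB B I fl sc ∧ VisE θ B I lev fl sc)
      fun g s θ q => s < 1 / 2 → 2 * θ 0 - θ 1 < 1 →
        KTie' (2 * θ 0 - θ 1) (θ 0) s (g + 2 * s) (q 0) (q 1) := by
  intro g s θ q hN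
  refine ⟨θ 0 + |θ 1| + 1, fun Rg hRg => ?_⟩
  intro G L r B I lev A f b vm w fr fl sc w0 sa sb δ R I0 I' ν own c₀ C hV hs k1
  obtain ⟨R', J0, J', ν', own', c', C', hR0, hR1⟩ := Hm621.strict_ctx C
  have hI1 : InvT PL B I 1 fl (sc 1) := C.out.invD (by linarith)
  have hE : TieT θ B I lev fl sc 2 := by
    rcases hV.2 with h | h
    · exact h
    · exact absurd hI1 h.1
  have hk : 0 < 2 * θ 0 - θ 1 := TieT.kE (Or.inl hE)
  refine kTie_lo C' hN.s0 hN.s1.le hN.θa hk k1 (by ring) hR0 hR1 (by linarith)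
    (hD C' hN ⟨hs, k1⟩ hR0 hR1 hRg hI1 (fun h => ?_) fun _ => k1) hI1 hE
    (Fk647.vis_kap C.out hV.1 k1.le)
  rcases h with h | h
  · exact absurd hV.1.1 h.1
  · exact absurd hV.1.2 h.1

end Crest.Agent.R116.FlK363
end

-- ▼ part R116/FlK9_363
section

/-!
# R116, `κ`-tie: the cells together (helper363)

* `falseK_of3` : `FalseK η` from the cells `k' > 1`, `k' = 1` and `T⁻`, `1/2 ≤ s`
-/

set_option autoImplicit false
set_option linter.unusedVariables false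

open Set Filter Topology

namespace Crest.Agent.R116.FlK363

open Crest.Agent.R116.KTop387
open Crest.Agent.R116.KTie794
open Crest.Agent.R116.Tie460 (KTie')
open Crest.Agent.R116.FlH850

/-- **`FalseK`** from the cells `k' > 1` (79), `k' = 1` (30), `T⁻` at `1/2 ≤ s` (658) -/
theorem falseK_of3 {η : ℝ} (hη : η < 1)
    (h1 : Fill η (fun θ B I lev fl sc => InvB B I fl sc ∧ VisE θ B I lev fl sc)
      fun g s θ q => 1 < 2 * θ 0 - θ 1 →
        KTie' (2 * θ 0 - θ 1) (θ 0) s (g + 2 * s) (q 0) (q 1))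
    (h2 : Fill η (fun θ B I lev fl sc => InvB B I fl sc ∧ VisE θ B I lev fl sc)
      fun g s θ q => 2 * θ 0 - θ 1 = 1 → False)
    (h5 : Fill η (fun θ B I lev fl sc => InvB B I fl sc ∧ VisE θ B I lev fl sc)
      fun g s θ q => 1 / 2 ≤ s → 1 / 2 < 2 * θ 0 - θ 1 → 2 * θ 0 - θ 1 < 1 →
        1 + (2 * θ 0 - θ 1) ≤ 3 * θ 0 → False) : FalseK η := by
  refine falseK_cells hη ?_ (ApV954.fillHk fun _ _ _ _ _ _ h => h.1) Tk538.fillH2 h5
  refine (((fillK3 (D0y219.D0neg hη.le)).and h1).and h2).mono fun g s θ q hN h hr => ?_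
  obtain ⟨⟨a, b⟩, c⟩ := h
  rcases lt_trichotomy (2 * θ 0 - θ 1) 1 with hk | hk | hk
  · rcases hr with hs | h
    · exact a hs hk
    · exact absurd h (not_le.2 hk)
  · exact (c hk).elim
  · exact b hk

end Crest.Agent.R116.FlK363
end

-- ▼ part R116/Tk9_126
section

/-!
# R116 (K side, ties), `KUp'` over the context, `k > 1` (helper126)

* `Prf.drop0` : the slot `0` is no condition
* `fctK9_pd` : 420's own-strip fact on plane data whose offset has `0 = z = G = D`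
* **`kU9ctx`** : `CtxT`, `Out9` on `kU9`, `oP9` ⊢ `KUp'`
-/

set_option autoImplicit false
set_option linter.unusedVariables false
set_option linter.unusedSectionVars false

open Set Filter Topology MeasureTheory

namespace Crest.Agent.R116.Ku126

open Crest.Agent.R138
open Crest.Agent.R138.Ex926 (Base U IsTan)
open Crest.Agent.R136
open Crest.Agent.R136.MkA627
open Crest.Agent.R136.TD627
open Crest.Agent.R136.Net191
open Crest.Agent.R136.Lq196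
open Crest.Agent.R136.Qg926 Crest.Agent.R136.Gf356 Crest.Agent.R116.EvL504
open Crest.Agent.R116.ChL222
open Crest.Agent.R116.PL504 (nb rL DN eL βL oL Shift)
open Crest.Agent.R116.Sg337 (bx9 coneL DL natB)
open Crest.Agent.R116.Gd222 (TSet sN PDL DT)
open Crest.Agent.R116.KI439 hiding kD
open Crest.Agent.R116.KF439 (PL)
open Crest.Agent.R116.CtxB468
open Crest.Agent.R116.Rcx363
open Crest.Agent.R116.RbM219
open Crest.Agent.R116.RbK219 (RS SOk Par dl Aln)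
open Crest.Agent.R116.SgO219 (PP)
open Crest.Agent.R116.Kz647
open Crest.Agent.R116.Pd363
open Crest.Agent.R116.WinG954 (LM)
open Crest.Agent.R116.Tq741
open Crest.Agent.R116.Tq794 (E8 E9 E9_eq)
open Crest.Agent.R116.Tq126
open Crest.Agent.R116.Tp139 hiding cl8
open Crest.Agent.R116.Tie460 (Pl KF' KUp')
open Dg219 (mw Walls)
open Sl741 (slice xt rs)

/-- the slot `0` is no condition in `own` -/
theorem Prf.drop0 {L : Set (Fin 12 → ℝ)} {s : ℝ} {a b : Fin 2} {Vis : Fin 12 → Prop}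
    {θa θb : ℝ} {g : (Fin 12 → ℝ) → ℝ} (H : Prf L s a b Vis (βL θa θb) g) :
    Prf L s a b (fun k => Vis k ∧ k ≠ 0) (βL θa θb) g where
  ab := H.ab
  anti := H.anti
  sm := H.sm
  own := fun p hp q hq hpq u hu hk => H.own p hp q hq hpq u hu fun k hv => by
    by_cases h0 : k = 0
    · subst h0
      have : βL θa θb 0 = 1 := rfl
      rw [this, mul_one]
      exact hu
    · exact hk k ⟨hv, h0⟩
  cost := H.cost

section ctx

variable {G : Geo TSet (Fin 2)} {L : ℕ → ℕ → LRay} {r : ℕ → ℝ} {g s : ℝ} {θ q : Fin 2 → ℝ}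
    {Rg : ℝ} {B : Base} {I : ℕ → Finset (ℕ × ℝ)} {lev : ℕ → ℚ → ℕ} {A : ℕ → ℝ}
    {f : ℕ → ℚ → ℕ → ℤ → ℕ} {b : ℕ → ℚ → ℕ → TSet} {vm : ℕ → ℚ → ℝ} {w : Fin 2 → ℕ → ℚ → ℝ}
    {fr : ℕ → ℚ → ℕ × ℝ → LInc} {fl : ℕ → ℕ × ℝ → LInc} {sc : Fin 12 → ℕ → ℝ}
    {w0 sa sb δ R : ℝ} {I0 I' : ℕ → Finset (ℕ × ℝ)} {ν own : (Fin 12 → ℝ) → ℝ} {c₀ : ℝ}
    {v0 k κ sg l α cc0 : ℝ} {a b' : Fin 2} {x X : ℕ → Fin 12 → ℝ} {hh h' H : ℕ → ℝ}
    {lam lam2 : Fin 2 → (Fin 12 → ℝ) → ℝ} {T : Type*}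

/-- **420's own-strip fact on plane data**, offset `nat9 0 c (2 c)` -/
theorem fctK9_pd {ρ ρ2 : Fin 9 → ℝ}
    (C : CtxT G L r g s θ q Rg B I lev A f b vm w fr fl sc w0 sa sb δ R I0 I' ν own c₀)
    (hs0 : 0 ≤ s) (hs1 : s < 1) (hv0 : 0 < v0) (hv1 : v0 < 1)
    (P : Pd9 R s a b' (VisT B I fl sc) (θ 0) (θ 1) w0 sa sb v0 κ (nat9 0 cc0 (2 * cc0)) sg
      (fo ν own) lam ρ l α h' X H lam2 ρ2)
    (hlip : ∀ p ∈ PP (mw monL), ∀ q ∈ PP (mw monL), |lam 0 p - lam 0 q| ≤ (12:ℝ) * dist p q)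
    (hI7 : InvT PL B I 7 fl (sc 7)) (hI8 : InvT PL B I 8 fl (sc 8))
    (hT : InvT PL B I 1 fl (sc 1) ∧ TieT θ B I lev fl sc 2 ∨ TieT θ B I lev fl sc 1)
    (hk : k = 2 * θ 0 - θ 1) : FctK9 k (fun w => lam2 0 (RL9.vec w)) := by
  obtain ⟨zz, cc, pp, hX⟩ := P.nat
  obtain ⟨v, hv, hv1', hv2⟩ := P.tb (S := {0, 1, 2}) (by
      intro j hj
      have e0 : nat9 0 cc0 (2 * cc0) 0 = 0 := rfl
      rw [e0, zero_mul]
      rw [Finset.mem_insert, Finset.mem_insert, Finset.mem_singleton] at hj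
      rcases hj with rfl | rfl | rfl
      · rfl
      · show 2 * cc0 - 2 * cc0 - 0 = 0
        ring
      · show 2 * cc0 - 2 * cc0 = 0
        ring) (c := 0) (by intro j _; simp) (ψ := id) strictMono_id (u := fun _ => 0)
    tendsto_const_nhds
  have hL := L9B_nat (θa := θ 0) (θb := θ 1) 0 cc0 (2 * cc0) sg
  have ht2 := P.tan2 0
  have hl2 := SgO219.tan_lip P.half.hpos ht2 hlip
  rw [hL] at hl2
  have hVis : ∀ j, VisT B I fl sc j ∧ j ≠ 0 → j = 1 ∨ j = 2 := by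
    rintro j ⟨hj, h0⟩
    rcases Fk647.vis_flag C.out j hj with h | h | h | h | h
    · exact absurd h h0
    · exact Or.inl h
    · exact Or.inr h
    · subst h; exact absurd hI7 hj
    · subst h; exact absurd hI8 hj
  have key := KW420.fctK9 (X := X) (H := H) (v := v) C hs0 hs1 P.pos P.lim
    (P.tan0 0) ⟨12, by norm_num, fun p hp q hq => by
      have := hl2 p hp q hq
      rwa [dist_eq_norm] at this⟩ hX hv hv0 hv1 (fun m j hj => by
      have := hv2 m j hj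
      simpa using this) (fun j hj => by
        rcases hj with rfl | rfl
        · exact Or.inl hI7
        · exact Or.inl hI8) (Prf.drop0 P.prf0)
    (fun j hj => Or.inr (hVis j hj)) hT hk
  simpa only [E9_eq] using key

/-- 299's `tm_k`, `D` live, as a binder -/
def TmK9 (s k : ℝ) : Prop := ∀ {c : Fin 9 → Fin 9} {dl : V9} {Λ : V9 → ℝ} {φ : Fin 9 → V9 → ℝ}
  {ρ : V9}, Cl9 c dl s Λ φ ρ → Tk299.PlK True k c dl →
  Fct9 (fun w => w 7 < k * w 0 ∧ w 8 < (k - 1) * w 0) s Λ → FctK9 k Λ →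
  KF' s k (Tk299.AK c s φ ρ)

/-- **`KUp'` over the context, `k > 1`** -/
theorem kU9ctx_of (tm : TmK9 s k)
    (C : CtxT G L r g s θ q Rg B I lev A f b vm w fr fl sc w0 sa sb δ R I0 I' ν own c₀)
    (hs0 : 0 ≤ s) (hs1 : s < 1) (hθ : 0 < θ 0) (hk : 1 < k) (hb : θ 1 = 2 * θ 0 - k)
    (hk2 : 2 * θ 0 < k) (hv0 : 0 < v0) (hv1 : v0 < 1) (hI7 : InvT PL B I 7 fl (sc 7))
    (hI8 : InvT PL B I 8 fl (sc 8))
    (hT : InvT PL B I 1 fl (sc 1) ∧ TieT θ B I lev fl sc 2 ∨ TieT θ B I lev fl sc 1)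
    {Bs : T → Fin 9 → ℝ} {sgs : T → ℝ}
    (O : Out9 R s a b' (VisT B I fl sc) (θ 0) (θ 1) g (q 0) (q 1) Bs sgs
      (rL (θ 0) (θ 1) w0 sa sb v0) (fo ν own) x hh lam)
    {iU iP : T} (hU : Bs iU = kU9) (hU1 : sgs iU = 1) (hP : Bs iP = oP9) (hP1 : sgs iP = 1)
    (A' : Pl) : ∃ B', KUp' k (θ 0) s g (q 0) (q 1) A' B' := by
  have hvis : ∀ j, VisT B I fl sc j → j = 0 ∨ j = 1 ∨ j = 2 := by
    intro j hj
    rcases Fk647.vis_flag C.out j hj with h | h | h | h | h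
    · exact Or.inl h
    · exact Or.inr (Or.inl h)
    · exact Or.inr (Or.inr h)
    · subst h; exact absurd hI7 hj
    · subst h; exact absurd hI8 hj
  refine kU9up' hb O hθ hk hk2 hU hU1 hP hP1 hvis (fun P hC => ?_) A'
  refine tm hC (tk9_U hk hb) ?_ ?_
  · refine Kt387.pd9_fct' P C hs0 hs1.le hθ hv0 hv1 ?_
    intro w hw hSk i hi
    rcases hvis i hi with rfl | rfl | rfl
    · change w 0 ≤ w 0 * βL (θ 0) (θ 1) 0
      have : βL (θ 0) (θ 1) 0 = 1 := rfl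
      rw [this, mul_one]
    · change w 8 ≤ w 0 * βL (θ 0) (θ 1) 1
      have e2 : βL (θ 0) (θ 1) 1 = -(θ 1) - 2 * -(θ 0) - 1 := rfl
      have e3 : βL (θ 0) (θ 1) 1 = k - 1 := by rw [e2, hb]; ring
      rw [e3, mul_comm]
      exact hSk.2.le
    · change w 7 ≤ w 0 * βL (θ 0) (θ 1) 2
      have e2 : βL (θ 0) (θ 1) 2 = -(θ 1) - 2 * -(θ 0) := rfl
      have e3 : βL (θ 0) (θ 1) 2 = k := by rw [e2, hb]; ring
      rw [e3, mul_comm]
      exact hSk.1.le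
  · have e : kU9 = nat9 0 1 (2 * 1) := by unfold kU9; norm_num
    rw [e] at P
    exact fctK9_pd C hs0 hs1 hv0 hv1 P (fun p hp q hq => O.lip 0 p (by rwa [coneL_PP]) q
      (by rwa [coneL_PP])) hI7 hI8 hT (by rw [hb]; ring)

end ctx

end Crest.Agent.R116.Ku126
end

-- ▼ part R116/FlK3_79

/-!
# R116, `κ`-tie, cell K1 (helper79): `k' = 2 θa - θb > 1`, every `s`

* `low9`       : the plane `kD9` over `CtxT` ⊢ facts, tangency, vertical inequality, `qa ≤ m`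
* **`fillK1`** : the data `KTie'` for `1 < k'`
-/

set_option autoImplicit false
set_option linter.unusedVariables false
set_option linter.unusedSectionVars false

open Set Filter Topology MeasureTheory

namespace Crest.Agent.R116.FlK79

open Crest.Agent.R138
open Crest.Agent.R138.Ex926 (Base U IsTan)
open Crest.Agent.R136
open Crest.Agent.R136.MkA627
open Crest.Agent.R136.TD627
open Crest.Agent.R136.Net191
open Crest.Agent.R136.Lq196
open Crest.Agent.R136.Qg926 Crest.Agent.R136.Gf356 Crest.Agent.R116.EvL504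
open Crest.Agent.R116.ChL222
open Crest.Agent.R116.PL504 (nb rL DN eL βL oL Shift)
open Crest.Agent.R116.Sg337 (bx9 coneL DL natB)
open Crest.Agent.R116.Gd222 (TSet sN PDL DT)
open Crest.Agent.R116.KI439 hiding kD
open Crest.Agent.R116.KF439 (PL)
open Crest.Agent.R116.CtxB468
open Crest.Agent.R116.Rcx363
open Crest.Agent.R116.RbM219
open Crest.Agent.R116.RbK219 (RS SOk Par dl Aln)
open Crest.Agent.R116.SgO219 (PP)
open Crest.Agent.R116.Kz647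
open Crest.Agent.R116.Pd363
open Crest.Agent.R116.WinG954 (LM)
open Crest.Agent.R116.Tq741
open Crest.Agent.R116.Tq126
open Crest.Agent.R116.Tp139 hiding cl8
open Crest.Agent.R116.Pk348
open Crest.Agent.R116.KTop387 (NumL)
open Crest.Agent.R116.KTie794 (Fill InvB VisE)
open Crest.Agent.R116.Tie460 (Pl KF' KUp' KTie')
open Dg219 (mw Walls)
open Sl741 (slice xt rs)

/-- the slot `0` is no condition in the plane data -/
theorem pd9_drop0 {R s : ℝ} {a b : Fin 2} {Vis' : Fin 12 → Prop} {θa θb w0 sa sb v0 κ : ℝ}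
    {B : Fin 9 → ℝ} {sg : ℝ} {f : Fin 2 → (Fin 12 → ℝ) → ℝ} {lam : Fin 2 → (Fin 12 → ℝ) → ℝ}
    {ρ : Fin 9 → ℝ} {l α : ℝ} {h' : ℕ → ℝ} {X : ℕ → Fin 12 → ℝ} {H : ℕ → ℝ}
    {lam2 : Fin 2 → (Fin 12 → ℝ) → ℝ} {ρ2 : Fin 9 → ℝ}
    (P : Pd9 R s a b Vis' θa θb w0 sa sb v0 κ B sg f lam ρ l α h' X H lam2 ρ2) :
    Pd9 R s a b (fun k => Vis' k ∧ k ≠ 0) θa θb w0 sa sb v0 κ B sg f lam ρ l α h' X H lam2 ρ2 where
  half := P.half
  tan2 := P.tan2
  pos := P.pos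
  lim := P.lim
  xlim := P.xlim
  base := P.base
  tan := P.tan
  prf := Ku126.Prf.drop0 P.prf

section ctx

variable {G : Geo TSet (Fin 2)} {L : ℕ → ℕ → LRay} {r : ℕ → ℝ} {g s : ℝ} {θ q : Fin 2 → ℝ}
    {Rg : ℝ} {B : Base} {I : ℕ → Finset (ℕ × ℝ)} {lev : ℕ → ℚ → ℕ} {A : ℕ → ℝ}
    {f : ℕ → ℚ → ℕ → ℤ → ℕ} {b : ℕ → ℚ → ℕ → TSet} {vm : ℕ → ℚ → ℝ} {w : Fin 2 → ℕ → ℚ → ℝ}
    {fr : ℕ → ℚ → ℕ × ℝ → LInc} {fl : ℕ → ℕ × ℝ → LInc} {sc : Fin 12 → ℕ → ℝ}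
    {w0 sa sb δ R : ℝ} {I0 I' : ℕ → Finset (ℕ × ℝ)} {ν own : (Fin 12 → ℝ) → ℝ} {c₀ : ℝ}
    {v0 k : ℝ} {a b' : Fin 2} {x : ℕ → Fin 12 → ℝ} {hh : ℕ → ℝ}
    {lam : Fin 2 → (Fin 12 → ℝ) → ℝ} {T : Type*}

/-- **the side below the record of the `κ`-plane, `D` live** -/
theorem low9
    (C : CtxT G L r g s θ q Rg B I lev A f b vm w fr fl sc w0 sa sb δ R I0 I' ν own c₀)
    (hs0 : 0 ≤ s) (hs1 : s < 1) (hθ : 0 < θ 0) (hk : 1 < k) (hb : θ 1 = 2 * θ 0 - k)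
    (hv0 : 0 < v0) (hv1 : v0 < 1) (hI7 : InvT PL B I 7 fl (sc 7)) (hI8 : InvT PL B I 8 fl (sc 8))
    (hT : InvT PL B I 1 fl (sc 1) ∧ TieT θ B I lev fl sc 2 ∨ TieT θ B I lev fl sc 1)
    {Bs : T → Fin 9 → ℝ} {sgs : T → ℝ}
    (O : Out9 R s a b' (VisT B I fl sc) (θ 0) (θ 1) g (q 0) (q 1) Bs sgs
      (rL (θ 0) (θ 1) w0 sa sb v0) (fo ν own) x hh lam) {i : T} (hi : Bs i = kD9)
    (hi1 : sgs i = -1) :
    ∃ A' : Pl, KF' s k A' ∧ A'.Tan g (θ 0) (2 * θ 0 - k) (q 0) (q 1) ∧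
      0 ≤ A'.Fa (q 0) + 2 * A'.Fb (q 1) ∧ q 0 ≤ A'.m := by
  obtain ⟨c0, hc0, hLW, -, ρ, hρ⟩ := O.surf i
  rw [hi, hi1] at hLW hρ
  obtain ⟨l, α, h', X, H, lam2, ρ2, φ, K⟩ := kdat9 C hs0 hs1.le hθ hk hb hv0 hv1 O hc0 hLW hρ
  have hPd : Pd9 R s a b' (VisK (VisT B I fl sc)) (θ 0) (θ 1) w0 sa sb v0
      (DL g s (q 0) (q 1) 0 (-1) (-2)) (nat9 0 (-1) (-2)) (-1) (fo ν own) lam ρ l α h' X H lam2
      ρ2 := K.pd
  have hk' : 2 * θ 0 - θ 1 = k := by rw [hb]; ring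
  have hW := KW420.fctK9_pd C hs0 hs1 (pd9_drop0 hPd) (by norm_num) hv0 hv1
    (fun j hj => by
      rcases hj with rfl | rfl
      · exact Or.inl hI7
      · exact Or.inl hI8)
    (fun j hj => by
      have h : j = 1 ∨ j = 2 := by
        rcases Fk647.vis_flag C.out j hj.1.1 with h | h | h | h | h
        · exact absurd h hj.2
        · exact Or.inl h
        · exact Or.inr h
        · exact absurd h hj.1.2.1
        · exact absurd h hj.1.2.2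
      first
        | exact h
        | exact Or.inr h) hT
  rw [hk'] at hW
  have hP := Ku126.tk9_D (θ := θ 0) (θb := θ 1) hk hb
  have hF : KF' s k (Tk299.AK (cK9 k) s φ ρ2) :=
    Tk299.kf9 hP K.cl hk hs0 hs1.le K.fct (fun w h7 h8 => ⟨h7.le, h8.le⟩)
      (fun h => absurd trivial h) (fun _ => hW)
  have hTT := K.T
  rw [hb] at hTT
  have hVV := K.V
  have tv : TVk k (θ 0) s g (q 0) (q 1) 0 (-1) (Tk299.AK (cK9 k) s φ ρ2) :=
    Ku126.tvK K.cl hP (fun h => absurd trivial h) hTT (by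
      have e : (2:ℝ) * (-1) + k * 0 = -2 := by ring
      rw [e]
      exact hVV)
  refine ⟨Tk299.AK (cK9 k) s φ ρ2, hF, tv.tan, tv.ver (by norm_num), ?_⟩
  show q 0 ≤ ρ2 1
  rw [K.r1]
  exact K.pos

/-- **`KTie'` over the context, `1 < k`** -/
theorem kTie9
    (C : CtxT G L r g s θ q Rg B I lev A f b vm w fr fl sc w0 sa sb δ R I0 I' ν own c₀)
    (hs0 : 0 ≤ s) (hs1 : s < 1) (hθ : 0 < θ 0) (hk : 1 < k) (hb : θ 1 = 2 * θ 0 - k)
    (hR0 : w0 + (θ 1 + sb) < R) (hR1 : w0 + 1 + sb < R) (hRg : θ 0 + |θ 1| < Rg)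
    (hI7 : InvT PL B I 7 fl (sc 7)) (hI8 : InvT PL B I 8 fl (sc 8))
    (hT : InvT PL B I 1 fl (sc 1) ∧ TieT θ B I lev fl sc 2 ∨ TieT θ B I lev fl sc 1) :
    KTie' k (θ 0) s g (q 0) (q 1) := by
  have tm : Ku126.TmK9 s k := fun H P F W =>
    Tk299.kf9 P H hk hs0 hs1.le F (fun w h7 h8 => ⟨h7, h8⟩) (fun h => absurd trivial h)
      (fun _ => W)
  by_cases hk2 : 2 * θ 0 < k
  · obtain ⟨v0, -, hv0, hv1, a, b', x, hh, lam, -, O⟩ := exists_out9 (T := Fin 3) C hR0 hR1 hθ hRg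
      (Bs := ![kD9, kU9, oP9]) (sg := ![-1, 1, 1])
      (fun i => by
        fin_cases i
        · exact sok_kD9 hk hb
        · exact sok_kU9 hk hb
        · exact sok_oP9 (by linarith) (by linarith) (by linarith) hθ)
      (fun i => by
        fin_cases i
        · exact leg_kD9
        · exact leg_kU9
        · exact leg_oP9) (N := univ) (by simp)
    obtain ⟨A', h1, h2, h3, h4⟩ := low9 C hs0 hs1 hθ hk hb hv0 hv1 hI7 hI8 hT O (i := 0) rfl rfl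
    exact ⟨A', h1, fun h => absurd h (by linarith), h2, h3, h4, fun _ h => absurd h (by linarith),
      fun _ h => absurd h (by linarith), fun _ _ =>
        Ku126.kU9ctx_of tm C hs0 hs1 hθ hk hb hk2 hv0 hv1 hI7 hI8 hT O (iU := 1) (iP := 2) rfl rfl
          rfl rfl A'⟩
  · obtain ⟨v0, -, hv0, hv1, a, b', x, hh, lam, -, O⟩ := exists_out9 (T := Unit) C hR0 hR1 hθ hRg
      (Bs := fun _ => kD9) (sg := fun _ => -1) (fun i => sok_kD9 hk hb) (fun i => leg_kD9)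
      (N := univ) (by simp)
    obtain ⟨A', h1, h2, h3, h4⟩ := low9 C hs0 hs1 hθ hk hb hv0 hv1 hI7 hI8 hT O (i := ()) rfl rfl
    exact ⟨A', h1, fun h => absurd h (by linarith), h2, h3, h4, fun _ h => absurd h (by linarith),
      fun _ h => absurd h (by linarith), fun h => absurd h hk2⟩

end ctx

/-- **cell K1** : `κ`-tie or `D`-tie, `B` invisible, `k' > 1` -/
theorem fillK1 {η : ℝ} (hη : η < 1) :
    Fill η (fun θ B I lev fl sc => InvB B I fl sc ∧ VisE θ B I lev fl sc)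
      fun g s θ q => 1 < 2 * θ 0 - θ 1 →
        Tie460.KTie' (2 * θ 0 - θ 1) (θ 0) s (g + 2 * s) (q 0) (q 1) := by
  intro g s θ q hN
  refine ⟨θ 0 + |θ 1| + 1, fun Rg hRg => ?_⟩
  intro G L r B I lev A f b vm w fr fl sc w0 sa sb δ R I0 I' ν own c₀ C hV hk
  obtain ⟨hB, hE⟩ := hV
  obtain ⟨R', J0, J', ν', own', c', C', hR0, hR1⟩ := Hm621.strict_ctx C
  refine kTie9 C' hN.s0 hN.s1 hN.θa hk (by ring) hR0 hR1 (by linarith) hB.1 hB.2 ?_
  rcases hE with h | h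
  · rcases C.out.clsD with h1 | h1
    · exact Or.inl ⟨h1, h⟩
    · exact Or.inr h1
  · exact Or.inr h

end Crest.Agent.R116.FlK79
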