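import Crest.Agent.R116.EBcDef_665
import Crest.Agent.R138.Fs2_665
import Crest.Agent.R116.CWp3_480

-- ▼ part R116/Gw1_665
section

/-! R116 front (helper665): decay of the kernel `Kt a t`, `|t| ≤ 2R`. -/

set_option autoImplicit false

open MeasureTheory Filter Topology
open scoped ENNReal FourierTransform ContDiff

noncomputable section

namespace Crest.Agent.R116.EB665

open Crest.Agent.R138.Defs (E2 ee)
open Crest.Agent.R138.Fr665 (cv)
open Crest.Agent.R138.Fq665 (PR up deriv_bdd)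
open Crest.Agent.R116.Sh927 (V)

theorem gen_pow {Cd : ℕ → ℝ} (hCd0 : ∀ j, 0 ≤ Cd j) (n : ℕ) :
    ∃ C : ℝ, 0 ≤ C ∧ ∀ R : ℝ, 1 ≤ R → ∀ G : V → ℂ, ContDiff ℝ ∞ G →
      (∀ v, G v ≠ 0 → ‖v‖ ≤ 2) → (∀ j v, ‖iteratedFDeriv ℝ j G v‖ ≤ Cd j * R ^ j) → ∀ x : V,
        ‖x‖ ^ n * ‖𝓕⁻ G x‖ ≤ C * R ^ n := by
  set vol := (volume (Metric.closedBall (0 : V) 2)).toReal with hvol
  have hvol0 : 0 ≤ vol := ENNReal.toReal_nonneg
  refine ⟨2 ^ n * ∑ j ∈ Finset.range (n + 1), Cd j * vol, by
    have := Finset.sum_nonneg (s := Finset.range (n + 1)) fun j _ => mul_nonneg (hCd0 j) hvol0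
    positivity, fun R hR G hGc hGsupp hGd x => ?_⟩
  have hR0 : 0 < R := by linarith
  have hts : tsupport G ⊆ Metric.closedBall (0 : V) 2 := by
    apply closure_minimal _ Metric.isClosed_closedBall
    intro v hv
    simpa using hGsupp v hv
  have hGs : HasCompactSupport G :=
    HasCompactSupport.of_support_subset_isCompact (isCompact_closedBall (0 : V) 2)
      ((subset_tsupport G).trans hts)
  have hd0 : ∀ (j : ℕ) (v : V), ‖iteratedFDeriv ℝ j G v‖ ≤
      (Metric.closedBall (0 : V) 2).indicator (fun _ => Cd j * R ^ j) v := by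
    intro j v
    by_cases hv : v ∈ Metric.closedBall (0 : V) 2
    · rw [Set.indicator_of_mem hv]; exact hGd j v
    · rw [Set.indicator_of_notMem hv]
      have hz : iteratedFDeriv ℝ j G v = 0 := by
        by_contra hne
        exact hv (hts (support_iteratedFDeriv_subset (𝕜 := ℝ) j (f := G) hne))
      rw [hz, norm_zero]
  have hint : ∀ (k n : ℕ), Integrable (fun v : V ↦ ‖v‖ ^ k * ‖iteratedFDeriv ℝ n G v‖) := by
    intro k n
    apply Continuous.integrable_of_hasCompactSupport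
    · exact (continuous_norm.pow k).mul
        (hGc.continuous_iteratedFDeriv (m := n) (mod_cast le_top)).norm
    · exact (hGs.iteratedFDeriv n).norm.mul_left
  have h1 := Real.pow_mul_norm_iteratedFDeriv_fourier_le (K := 0) (N := ⊤) (f := G) (k := 0)
    (n := n) (mod_cast hGc) (fun k n _ _ => hint k n) le_rfl le_top (-x)
  rw [norm_neg, norm_iteratedFDeriv_zero, ← Real.fourierInv_eq_fourier_neg] at h1
  refine h1.trans ?_
  simp only [pow_zero, Nat.cast_zero, mul_zero, zero_add, one_mul]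
  rw [Finset.sum_product, Finset.sum_range_one, mul_assoc, Finset.sum_mul]
  simp only [pow_zero, one_mul]
  gcongr with j hj
  have h2 : ∫ v, ‖iteratedFDeriv ℝ j G v‖ ≤
      ∫ v, (Metric.closedBall (0 : V) 2).indicator (fun _ => Cd j * R ^ j) v := by
    apply integral_mono
    · simpa using hint 0 j
    · exact (integrable_indicator_iff Metric.isClosed_closedBall.measurableSet).2
        (integrableOn_const measure_closedBall_lt_top.ne)
    · intro v
      exact hd0 j v
  refine h2.trans ?_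
  rw [integral_indicator_const _ Metric.isClosed_closedBall.measurableSet]
  have h3 : R ^ j ≤ R ^ n := pow_le_pow_right₀ hR (by simp at hj; omega)
  have h4 := hCd0 j
  simp only [smul_eq_mul, Measure.real]
  rw [← hvol]
  calc vol * (Cd j * R ^ j) ≤ vol * (Cd j * R ^ n) := by gcongr
    _ = Cd j * vol * R ^ n := by ring

/-- the far part of the kernel is dominated by a fixed integrable function. -/
theorem gen_tail {Cd : ℕ → ℝ} (hCd0 : ∀ j, 0 ≤ Cd j) {δ : ℝ} (hδ : 0 < δ) :
    ∃ C : ℝ, 0 ≤ C ∧ ∀ R : ℝ, 1 ≤ R → ∀ G : V → ℂ, ContDiff ℝ ∞ G →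
      (∀ v, G v ≠ 0 → ‖v‖ ≤ 2) → (∀ j v, ‖iteratedFDeriv ℝ j G v‖ ≤ Cd j * R ^ j) →
      ∫⁻ x : V, ‖({x : V | R ^ (1 + δ) < ‖x‖}.indicator (𝓕⁻ G) x : ℂ)‖ₑ ≤ ENNReal.ofReal C := by
  set n : ℕ := ⌈8 / δ⌉₊ + 4 with hn
  have hn4 : 4 ≤ n := by omega
  have hnδ : 8 ≤ δ * ((n : ℝ) - 4) := by
    have := Nat.le_ceil (8 / δ)
    rw [div_le_iff₀ hδ] at this
    have h2 : (n : ℝ) - 4 = (⌈8 / δ⌉₊ : ℝ) := by rw [hn]; push_cast; ring
    rw [h2]; linarith
  obtain ⟨C, hC, hk⟩ := gen_pow hCd0 n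
  have hint : Integrable (fun x : V => (1 + ‖x‖) ^ (-(4:ℝ))) :=
    integrable_one_add_norm (by simp; norm_num)
  refine ⟨C * 16 * ∫ x : V, (1 + ‖x‖) ^ (-(4:ℝ)), by positivity, fun R hR G hGc hGs hGd => ?_⟩
  have hR0 : 0 < R := by linarith
  have hpt : ∀ x : V, ‖({x : V | R ^ (1 + δ) < ‖x‖}.indicator (𝓕⁻ G) x : ℂ)‖ₑ ≤
      ENNReal.ofReal (C * 16 * (1 + ‖x‖) ^ (-(4:ℝ))) := by
    intro x
    by_cases hx : R ^ (1 + δ) < ‖x‖
    · have hx' : x ∈ {x : V | R ^ (1 + δ) < ‖x‖} := hx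
      rw [Set.indicator_of_mem hx', ← ofReal_norm]
      apply ENNReal.ofReal_le_ofReal
      have hR1 : 1 ≤ R ^ (1 + δ) := Real.one_le_rpow hR (by linarith)
      have hx1 : 1 < ‖x‖ := hR1.trans_lt hx
      have hx0 : 0 < ‖x‖ := by linarith
      have h1 := hk R hR G hGc hGs hGd x
      have h2 : R ^ n ≤ ‖x‖ ^ (n - 4) := by
        calc R ^ n = R ^ ((n : ℝ)) := (Real.rpow_natCast _ _).symm
          _ ≤ R ^ ((1 + δ) * ((n : ℝ) - 4)) := by
            apply Real.rpow_le_rpow_of_exponent_le hR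
            nlinarith
          _ = (R ^ (1 + δ)) ^ (n - 4) := by
            rw [Real.rpow_mul hR0.le, ← Real.rpow_natCast, Nat.cast_sub hn4]
            norm_num
          _ ≤ ‖x‖ ^ (n - 4) := by gcongr
      have h3 : ‖x‖ ^ 4 * ‖𝓕⁻ G x‖ ≤ C := by
        have h4 : 0 < ‖x‖ ^ (n - 4) := by positivity
        refine le_of_mul_le_mul_left ?_ h4
        calc ‖x‖ ^ (n - 4) * (‖x‖ ^ 4 * ‖𝓕⁻ G x‖)
            = ‖x‖ ^ n * ‖𝓕⁻ G x‖ := by
              rw [← mul_assoc, ← pow_add, Nat.sub_add_cancel hn4]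
          _ ≤ C * R ^ n := h1
          _ ≤ C * ‖x‖ ^ (n - 4) := by gcongr
          _ = _ := mul_comm _ _
      have h5 : (1 + ‖x‖) ^ (-(4:ℝ)) = ((1 + ‖x‖) ^ 4)⁻¹ := by
        rw [Real.rpow_neg (by positivity)]; norm_num
      rw [h5, ← div_eq_mul_inv, le_div_iff₀ (by positivity)]
      have h6 : (1 + ‖x‖) ^ 4 ≤ 16 * ‖x‖ ^ 4 := by
        calc (1 + ‖x‖) ^ 4 ≤ (2 * ‖x‖) ^ 4 := by gcongr; linarith
          _ = _ := by ring
      calc ‖𝓕⁻ G x‖ * (1 + ‖x‖) ^ 4
          ≤ ‖𝓕⁻ G x‖ * (16 * ‖x‖ ^ 4) := by gcongr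
        _ = 16 * (‖x‖ ^ 4 * ‖𝓕⁻ G x‖) := by ring
        _ ≤ 16 * C := by gcongr
        _ = C * 16 := by ring
    · have hx' : x ∉ {x : V | R ^ (1 + δ) < ‖x‖} := hx
      rw [Set.indicator_of_notMem hx', enorm_zero]
      exact zero_le
  refine (lintegral_mono hpt).trans ?_
  rw [← integral_const_mul, ofReal_integral_eq_lintegral_ofReal (hint.const_mul _)
    (Eventually.of_forall fun x => by positivity)]

/-! ### the symbol `a(v) ee(t ‖v‖)` -/

/-- a smooth function equal to the norm for `‖v‖ ≥ 1/2`. -/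
def nu (v : V) : ℝ := Real.smoothTransition (8 * ‖v‖ ^ 2 - 1) * ‖v‖

theorem nu_eq {v : V} (hv : 1/2 ≤ ‖v‖) : nu v = ‖v‖ := by
  unfold nu
  rw [Real.smoothTransition.one_of_one_le (by nlinarith), one_mul]

theorem contDiff_nu : ContDiff ℝ ∞ nu := by
  rw [contDiff_iff_contDiffAt]
  intro v
  by_cases hv : v = 0
  · have h1 : nu =ᶠ[𝓝 v] fun _ => 0 := by
      have h2 : ∀ᶠ w : V in 𝓝 v, ‖w‖ < 1/3 := by
        have := (continuous_norm (E := V)).tendsto v
        rw [hv, norm_zero] at this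
        rw [hv]
        exact this.eventually (gt_mem_nhds (by norm_num))
      filter_upwards [h2] with w hw
      unfold nu
      rw [Real.smoothTransition.zero_of_nonpos (by nlinarith [norm_nonneg w]), zero_mul]
    exact contDiffAt_const.congr_of_eventuallyEq h1
  · unfold nu
    refine ContDiffAt.mul ?_ (contDiffAt_norm ℝ hv)
    exact (Real.smoothTransition.contDiff.comp
      ((contDiff_const.mul (contDiff_norm_sq ℝ)).sub contDiff_const)).contDiffAt

theorem ee_eq_exp (t : ℝ) : ee t = Complex.exp (t • (2 * Real.pi * Complex.I : ℂ)) := by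
  unfold ee
  congr 1
  rw [Complex.real_smul]
  push_cast
  ring

theorem contDiff_ee : ContDiff ℝ ∞ ee := by
  have : ee = fun t : ℝ => Complex.exp (t • (2 * Real.pi * Complex.I : ℂ)) := funext ee_eq_exp
  rw [this]
  exact (contDiff_id.smul contDiff_const).cexp

theorem norm_ee (t : ℝ) : ‖ee t‖ = 1 := Crest.Agent.R138.Wpk685.norm_ee t

theorem iterDeriv_ee (n : ℕ) (t : ℝ) : ‖iteratedFDeriv ℝ n ee t‖ = (2 * Real.pi) ^ n := by
  rw [norm_iteratedFDeriv_eq_norm_iteratedDeriv]
  have h : ∀ n : ℕ, iteratedDeriv n ee = fun t => (2 * Real.pi * Complex.I : ℂ) ^ n * ee t := by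
    intro n
    induction n with
    | zero => ext t; simp
    | succ n ih =>
      rw [iteratedDeriv_succ, ih]
      ext t
      have h1 : HasDerivAt ee ((2 * Real.pi * Complex.I : ℂ) * ee t) t := by
        have h2 : HasDerivAt (fun t : ℝ => t • (2 * Real.pi * Complex.I : ℂ))
            (2 * Real.pi * Complex.I : ℂ) t := by
          simpa using (hasDerivAt_id t).smul_const (2 * Real.pi * Complex.I : ℂ)
        have h3 := h2.cexp
        have : ee = fun t : ℝ => Complex.exp (t • (2 * Real.pi * Complex.I : ℂ)) :=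
          funext ee_eq_exp
        rw [this]
        convert h3 using 1
        ring
      rw [(h1.const_mul _).deriv]
      ring
  rw [h n, norm_mul, norm_ee, mul_one, norm_pow]
  congr 1
  rw [norm_mul, norm_mul, Complex.norm_I, Complex.norm_real, mul_one, Real.norm_eq_abs,
    abs_of_pos Real.pi_pos]
  simp

/-- the symbol. -/
def Gt (a : V → ℂ) (t : ℝ) (v : V) : ℂ := a v * ee (t * nu v)

theorem Gt_eq {a : V → ℂ} (ha : ∀ v, a v ≠ 0 → 1/2 ≤ ‖v‖) (t : ℝ) :
    (fun v => a v * ee (t * ‖v‖)) = Gt a t := by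
  ext v
  unfold Gt
  by_cases h : a v = 0
  · rw [h, zero_mul, zero_mul]
  · rw [nu_eq (ha v h)]

theorem contDiff_Gt {a : V → ℂ} (ha : ContDiff ℝ ∞ a) (t : ℝ) : ContDiff ℝ ∞ (Gt a t) :=
  ha.mul (contDiff_ee.comp (contDiff_const.mul contDiff_nu))

theorem deriv_Gt {a : V → ℂ} (hac : ContDiff ℝ ∞ a) (has : ∀ v, a v ≠ 0 → ‖v‖ ≤ 2) (n : ℕ) :
    ∃ C : ℝ, 0 ≤ C ∧ ∀ R : ℝ, 1 ≤ R → ∀ t : ℝ, |t| ≤ 2 * R → ∀ v : V,
      ‖iteratedFDeriv ℝ n (Gt a t) v‖ ≤ C * R ^ n := by
  have hac0 : HasCompactSupport a := by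
    apply HasCompactSupport.of_support_subset_isCompact (isCompact_closedBall (0 : V) 2)
    intro v hv
    simpa using has v hv
  choose Ca hCa0 hCa using deriv_bdd hac hac0
  have hfb : ∀ i : ℕ, ∃ c : ℝ, 0 ≤ c ∧ ∀ v : V, ‖v‖ ≤ 2 → ‖iteratedFDeriv ℝ i nu v‖ ≤ c := by
    intro i
    have hc : Continuous (iteratedFDeriv ℝ i nu) :=
      contDiff_nu.continuous_iteratedFDeriv (mod_cast le_top)
    obtain ⟨c, hc⟩ := (isCompact_closedBall (0 : V) 2).exists_bound_of_continuousOn hc.continuousOn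
    exact ⟨max c 0, le_max_right _ _, fun v hv => (hc v (by simpa using hv)).trans (le_max_left _ _)⟩
  choose cf hcf0 hcf using hfb
  have hE : ∀ m : ℕ, ∃ C : ℝ, 0 ≤ C ∧ ∀ R : ℝ, 1 ≤ R → ∀ t : ℝ, |t| ≤ 2 * R → ∀ v : V, ‖v‖ ≤ 2 →
      ‖iteratedFDeriv ℝ m (fun v => ee (t * nu v)) v‖ ≤ C * R ^ m := by
    intro m
    set c : ℝ := 1 + ∑ i ∈ Finset.range (m + 1), cf i with hc
    have hc1 : 1 ≤ c := by
      have : 0 ≤ ∑ i ∈ Finset.range (m + 1), cf i := Finset.sum_nonneg fun i _ => hcf0 i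
      linarith
    have hpi1 : 1 ≤ 2 * Real.pi := by have := Real.pi_gt_three; linarith
    refine ⟨m.factorial * (2 * Real.pi) ^ m * (2 * c) ^ m, by positivity, fun R hR t ht v hv => ?_⟩
    have hR0 : 0 < R := by linarith
    have hu : (fun v => ee (t * nu v)) = ee ∘ (fun v => t • nu v) := by
      ext v; simp
    have huc : ContDiff ℝ ∞ fun v => t • nu v := contDiff_nu.const_smul t
    rw [hu]
    have key := norm_iteratedFDeriv_comp_le (𝕜 := ℝ) (g := ee) (f := fun v => t • nu v) (n := m)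
      (N := ∞) contDiff_ee huc (mod_cast le_top) v (C := (2 * Real.pi) ^ m) (D := 2 * R * c) ?_ ?_
    · refine key.trans (le_of_eq ?_)
      rw [show 2 * R * c = (2 * c) * R by ring, mul_pow]; ring
    · intro i hi
      rw [iterDeriv_ee]
      exact pow_le_pow_right₀ hpi1 hi
    · intro i hi1 hin
      rw [iteratedFDeriv_const_smul_apply' (contDiff_nu.contDiffAt.of_le (mod_cast le_top)),
        norm_smul, Real.norm_eq_abs]
      have h1 : ‖iteratedFDeriv ℝ i nu v‖ ≤ c := by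
        refine (hcf i v hv).trans ?_
        have := Finset.single_le_sum (f := cf) (s := Finset.range (m + 1)) (fun i _ => hcf0 i)
          (Finset.mem_range.2 (by omega : i < m + 1))
        linarith
      calc |t| * ‖iteratedFDeriv ℝ i nu v‖ ≤ 2 * R * c := by gcongr
        _ ≤ (2 * R * c) ^ i := by
          apply le_self_pow₀ _ (by omega)
          nlinarith
  choose Cm hCm0 hCm using hE
  refine ⟨∑ i ∈ Finset.range (n + 1), (n.choose i : ℝ) * Ca i * Cm (n - i),
    Finset.sum_nonneg fun i _ => by have := hCa0 i; have := hCm0 (n - i); positivity,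
    fun R hR t ht v => ?_⟩
  by_cases hv : ‖v‖ ≤ 2
  · have hcE : ContDiff ℝ ∞ (fun v => ee (t * nu v)) :=
      contDiff_ee.comp (contDiff_const.mul contDiff_nu)
    refine (norm_iteratedFDeriv_mul_le (N := ∞) hac hcE v (mod_cast le_top)).trans ?_
    rw [Finset.sum_mul]
    refine Finset.sum_le_sum fun i hi => ?_
    have h1 := hCa i v
    have h2 := hCm (n - i) R hR t ht v hv
    have h3 : R ^ (n - i) ≤ R ^ n := pow_le_pow_right₀ hR (by omega)
    have h4 := hCa0 i
    have h5 := hCm0 (n - i)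
    calc (n.choose i : ℝ) * ‖iteratedFDeriv ℝ i a v‖ *
          ‖iteratedFDeriv ℝ (n - i) (fun v => ee (t * nu v)) v‖
        ≤ (n.choose i : ℝ) * Ca i * (Cm (n - i) * R ^ n) := by
          gcongr
          exact h2.trans (by gcongr)
      _ = _ := by ring
  · have hz : iteratedFDeriv ℝ n (Gt a t) v = 0 := by
      by_contra hne
      have h1 := support_iteratedFDeriv_subset (𝕜 := ℝ) n (f := Gt a t) hne
      have h2 : tsupport (Gt a t) ⊆ Metric.closedBall (0 : V) 2 := by
        apply closure_minimal _ Metric.isClosed_closedBall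
        intro x hx
        simpa using has x (left_ne_zero_of_mul hx)
      exact hv (by simpa using h2 h1)
    rw [hz, norm_zero]
    have h6 : 0 ≤ ∑ i ∈ Finset.range (n + 1), (n.choose i : ℝ) * Ca i * Cm (n - i) :=
      Finset.sum_nonneg fun i _ => by have := hCa0 i; have := hCm0 (n - i); positivity
    have : 0 < R := by linarith
    positivity

/-- tail of the kernel of one piece. -/
theorem tail_Kt {a : V → ℂ} (hac : ContDiff ℝ ∞ a) (has : ∀ v, a v ≠ 0 → 1/2 ≤ ‖v‖ ∧ ‖v‖ ≤ 2)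
    {δ : ℝ} (hδ : 0 < δ) :
    ∃ C : ℝ, 0 ≤ C ∧ ∀ R : ℝ, 1 ≤ R → ∀ t : ℝ, |t| ≤ 2 * R →
      ∫⁻ x : V, ‖({x : V | R ^ (1 + δ) < ‖x‖}.indicator (Kt a t) x : ℂ)‖ₑ ≤
        ENNReal.ofReal C := by
  choose Cd hCd0 hCd using deriv_Gt hac (fun v hv => (has v hv).2)
  obtain ⟨C, hC, h⟩ := gen_tail hCd0 hδ
  refine ⟨C, hC, fun R hR t ht => ?_⟩
  have h1 := h R hR (Gt a t) (contDiff_Gt hac t) (fun v hv => (has v (left_ne_zero_of_mul hv)).2)
    (fun j v => hCd j R hR t ht v)
  unfold Kt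
  rw [Gt_eq (fun v hv => (has v hv).1) t]
  exact h1

end Crest.Agent.R116.EB665
end
end

-- ▼ part R116/Gw2_665
section

/-! R116 front (helper665): from the local to the global estimate, averaging over balls, with time. -/

set_option autoImplicit false

open MeasureTheory Filter Topology
open scoped ENNReal FourierTransform ContDiff

noncomputable section

namespace Crest.Agent.R116.EB665

open Crest.Agent.R138.Defs (E2 ee)
open Crest.Agent.R138.Fr665 (cv)
open Crest.Agent.R138.Fq665 (PR up enorm_add_cube lint_cv_cube cv_add int_cv cv_translate lint_balls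
  vol_double measurable_cv)
open Crest.Agent.R116.Sh927 (V)

/-- one ball at a fixed time. -/
theorem ball_le {K : V → ℂ} (hK : Measurable K) {M : ℝ} (hM : ∀ v, ‖K v‖ ≤ M) {R' : ℝ}
    {Ct : ℝ≥0∞} (htail : ∫⁻ x : V, ‖({x : V | R' < ‖x‖}.indicator K x : ℂ)‖ₑ ≤ Ct)
    {Ω : Set V} (hΩ : MeasurableSet Ω) (hΩf : volume Ω ≠ ⊤) {f : V → ℂ} (hf : Measurable f)
    (hfΩ : ∀ x, ‖f x‖ ≤ Ω.indicator (fun _ => (1:ℝ)) x) (b : V) :
    ∫⁻ x in Metric.closedBall b R', ‖cv ({x : V | R' < ‖x‖}ᶜ.indicator K) f x‖ₑ ^ 3 ≤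
      4 * ((∫⁻ x in Metric.closedBall (0 : V) R',
          ‖cv K (fun y => (Metric.closedBall b (2 * R')).indicator f (y + b)) x‖ₑ ^ 3) +
        Ct ^ 3 * volume (Ω ∩ Metric.closedBall b (2 * R'))) := by
  set K2 : V → ℂ := {x : V | R' < ‖x‖}.indicator K with hK2
  set K1 : V → ℂ := {x : V | R' < ‖x‖}ᶜ.indicator K with hK1
  have hSm : MeasurableSet {x : V | R' < ‖x‖} := measurableSet_lt measurable_const (by fun_prop)
  have hK2m : Measurable K2 := hK.indicator hSm
  have hM2 : ∀ v, ‖K2 v‖ ≤ M := fun v => (norm_indicator_le_norm_self _ _).trans (hM v)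
  have hKs : K = fun v => K1 v + K2 v := by
    ext v
    rw [hK1, hK2, add_comm]
    exact (congrFun (Set.indicator_self_add_compl _ K) v).symm
  have hf1 : ∀ x, ‖f x‖ ≤ 1 := fun x => (hfΩ x).trans (Set.indicator_le_self' (by simp) x)
  have hfi : Integrable f := by
    have h1 : Integrable (Ω.indicator (fun _ => (1:ℝ))) :=
      (integrable_indicator_iff hΩ).2 (integrableOn_const hΩf)
    exact h1.mono' hf.aestronglyMeasurable (Eventually.of_forall hfΩ)
  have hcube : ∀ S : Set V, MeasurableSet S → ∀ k : ℕ, k ≠ 0 →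
      ∫⁻ x, ‖S.indicator f x‖ₑ ^ k ≤ volume (Ω ∩ S) := by
    intro S hS k hk
    rw [← lintegral_indicator_one (hΩ.inter hS)]
    refine lintegral_mono fun x => ?_
    by_cases hx : x ∈ S
    · rw [Set.indicator_of_mem hx]
      by_cases hx2 : x ∈ Ω
      · rw [Set.indicator_of_mem (Set.mem_inter hx2 hx), Pi.one_apply]
        have h1 : ‖f x‖ₑ ≤ 1 := by
          rw [← ofReal_norm, ← ENNReal.ofReal_one]
          exact ENNReal.ofReal_le_ofReal (hf1 x)
        exact pow_le_one₀ zero_le h1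
      · have h1 := hfΩ x
        rw [Set.indicator_of_notMem hx2] at h1
        have h2 : f x = 0 := norm_le_zero_iff.1 h1
        simp [h2, hk]
    · rw [Set.indicator_of_notMem hx]
      simp [hk]
  set B := Metric.closedBall b (2 * R') with hB
  have hBm : MeasurableSet B := Metric.isClosed_closedBall.measurableSet
  set fb := B.indicator f with hfb
  have hfbm : Measurable fb := hf.indicator hBm
  have hfbi : Integrable fb := hfi.indicator hBm
  have hpt : ∀ x ∈ Metric.closedBall b R', cv K1 f x = cv K fb x + cv (fun v => -K2 v) fb x := by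
    intro x hx
    have e1 : cv K1 f x = cv K1 fb x := by
      unfold cv
      refine integral_congr_ae (Eventually.of_forall fun y => ?_)
      simp only
      by_cases hy : y ∈ B
      · rw [hfb, Set.indicator_of_mem hy]
      · rw [hfb, Set.indicator_of_notMem hy]
        have : K1 (x - y) = 0 := by
          rw [hK1]
          apply Set.indicator_of_notMem
          simp only [Set.mem_compl_iff, not_not]
          show R' < ‖x - y‖
          rw [← dist_eq_norm]
          simp only [hB, Metric.mem_closedBall, not_le] at hy hx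
          have := dist_triangle y x b
          rw [dist_comm y x] at this
          linarith
        rw [this]; ring
    rw [e1, ← cv_add (K := K) (K' := fun v => -K2 v) x (int_cv hK hM hfbi x)
      (int_cv (K := fun v => -K2 v) hK2m.neg (fun v => by simpa using hM2 v) hfbi x)]
    congr 1
    ext v
    have hv : K v = K1 v + K2 v := congrFun hKs v
    rw [hv]; ring
  have hneg : ∀ x, ‖cv (fun v => -K2 v) fb x‖ₑ = ‖cv K2 fb x‖ₑ := by
    intro x
    have : cv (fun v => -K2 v) fb x = -cv K2 fb x := by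
      unfold cv
      rw [← integral_neg]
      refine integral_congr_ae (Eventually.of_forall fun y => ?_)
      simp only
      ring
    rw [this, enorm_neg]
  have hm1 : Measurable fun x => ‖cv K fb x‖ₑ ^ 3 := (measurable_cv hK hfbm).enorm.pow_const 3
  have e2 : ∫⁻ x in Metric.closedBall b R', ‖cv K fb x‖ₑ ^ 3 =
      ∫⁻ x in Metric.closedBall (0 : V) R', ‖cv K (fun y => fb (y + b)) x‖ₑ ^ 3 := by
    rw [← lintegral_indicator Metric.isClosed_closedBall.measurableSet,
      ← lintegral_indicator Metric.isClosed_closedBall.measurableSet,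
      ← lintegral_add_right_eq_self _ b]
    refine lintegral_congr fun x => ?_
    by_cases hx : ‖x‖ ≤ R'
    · rw [Set.indicator_of_mem (by simpa [dist_eq_norm] using hx : x + b ∈
          Metric.closedBall b R'), Set.indicator_of_mem (by simpa using hx : x ∈
          Metric.closedBall (0 : V) R'), cv_translate]
    · rw [Set.indicator_of_notMem (by simpa [dist_eq_norm] using hx : x + b ∉
          Metric.closedBall b R'), Set.indicator_of_notMem (by simpa using hx : x ∉
          Metric.closedBall (0 : V) R')]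
  calc ∫⁻ x in Metric.closedBall b R', ‖cv K1 f x‖ₑ ^ 3
      ≤ ∫⁻ x in Metric.closedBall b R', 4 * (‖cv K fb x‖ₑ ^ 3 + ‖cv K2 fb x‖ₑ ^ 3) := by
        refine setLIntegral_mono' Metric.isClosed_closedBall.measurableSet fun x hx => ?_
        rw [hpt x hx, ← hneg x]
        exact enorm_add_cube _ _
    _ = 4 * ((∫⁻ x in Metric.closedBall b R', ‖cv K fb x‖ₑ ^ 3) +
          ∫⁻ x in Metric.closedBall b R', ‖cv K2 fb x‖ₑ ^ 3) := by
        rw [← lintegral_add_left hm1]
        exact lintegral_const_mul' _ _ (by norm_num)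
    _ ≤ _ := by
        rw [e2]
        gcongr
        refine (setLIntegral_le_lintegral _ _).trans ((lint_cv_cube hK2m hfbm).trans ?_)
        gcongr
        exact hcube B hBm 3 (by norm_num)

/-- one time: reduction to balls. -/
theorem time_le {K : V → ℂ} (hK : Measurable K) {M : ℝ} (hM : ∀ v, ‖K v‖ ≤ M) {R' : ℝ}
    {Ct : ℝ≥0∞} (htail : ∫⁻ x : V, ‖({x : V | R' < ‖x‖}.indicator K x : ℂ)‖ₑ ≤ Ct)
    {Ω : Set V} (hΩ : MeasurableSet Ω) (hΩf : volume Ω ≠ ⊤) {f : V → ℂ} (hf : Measurable f)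
    (hfΩ : ∀ x, ‖f x‖ ≤ Ω.indicator (fun _ => (1:ℝ)) x) :
    volume (Metric.closedBall (0 : V) R') * ∫⁻ x, ‖cv K f x‖ₑ ^ 3 ≤
      16 * (∫⁻ b : V, ((∫⁻ x in Metric.closedBall (0 : V) R',
          ‖cv K (fun y => (Metric.closedBall b (2 * R')).indicator f (y + b)) x‖ₑ ^ 3) +
        Ct ^ 3 * volume (Ω ∩ Metric.closedBall b (2 * R')))) +
      4 * Ct ^ 3 * (volume (Metric.closedBall (0 : V) R') * volume Ω) := by
  set K2 : V → ℂ := {x : V | R' < ‖x‖}.indicator K with hK2
  set K1 : V → ℂ := {x : V | R' < ‖x‖}ᶜ.indicator K with hK1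
  have hSm : MeasurableSet {x : V | R' < ‖x‖} := measurableSet_lt measurable_const (by fun_prop)
  have hK2m : Measurable K2 := hK.indicator hSm
  have hK1m : Measurable K1 := hK.indicator hSm.compl
  have hM2 : ∀ v, ‖K2 v‖ ≤ M := fun v => (norm_indicator_le_norm_self _ _).trans (hM v)
  have hM1 : ∀ v, ‖K1 v‖ ≤ M := fun v => (norm_indicator_le_norm_self _ _).trans (hM v)
  have hKs : K = fun v => K1 v + K2 v := by
    ext v
    rw [hK1, hK2, add_comm]
    exact (congrFun (Set.indicator_self_add_compl _ K) v).symm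
  have hf1 : ∀ x, ‖f x‖ ≤ 1 := fun x => (hfΩ x).trans (Set.indicator_le_self' (by simp) x)
  have hfi : Integrable f := by
    have h1 : Integrable (Ω.indicator (fun _ => (1:ℝ))) :=
      (integrable_indicator_iff hΩ).2 (integrableOn_const hΩf)
    exact h1.mono' hf.aestronglyMeasurable (Eventually.of_forall hfΩ)
  have hcube : ∫⁻ x, ‖f x‖ₑ ^ 3 ≤ volume Ω := by
    rw [← lintegral_indicator_one hΩ]
    refine lintegral_mono fun x => ?_
    by_cases hx2 : x ∈ Ω
    · rw [Set.indicator_of_mem hx2, Pi.one_apply]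
      have h1 : ‖f x‖ₑ ≤ 1 := by
        rw [← ofReal_norm, ← ENNReal.ofReal_one]
        exact ENNReal.ofReal_le_ofReal (hf1 x)
      exact pow_le_one₀ zero_le h1
    · have h1 := hfΩ x
      rw [Set.indicator_of_notMem hx2] at h1
      have h2 : f x = 0 := norm_le_zero_iff.1 h1
      simp [h2]
  have h1 : ∫⁻ x, ‖cv K f x‖ₑ ^ 3 ≤ 4 * (∫⁻ x, ‖cv K1 f x‖ₑ ^ 3) + 4 * Ct ^ 3 * volume Ω := by
    calc ∫⁻ x, ‖cv K f x‖ₑ ^ 3 ≤ ∫⁻ x, 4 * (‖cv K1 f x‖ₑ ^ 3 + ‖cv K2 f x‖ₑ ^ 3) := by
          refine lintegral_mono fun x => ?_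
          have : cv K f x = cv K1 f x + cv K2 f x := by
            rw [← cv_add x (int_cv hK1m hM1 hfi x) (int_cv hK2m hM2 hfi x), ← hKs]
          simp only
          rw [this]
          exact enorm_add_cube _ _
      _ = 4 * ((∫⁻ x, ‖cv K1 f x‖ₑ ^ 3) + ∫⁻ x, ‖cv K2 f x‖ₑ ^ 3) := by
          rw [← lintegral_add_left ((measurable_cv hK1m hf).enorm.pow_const 3)]
          exact lintegral_const_mul' _ _ (by norm_num)
      _ ≤ 4 * ((∫⁻ x, ‖cv K1 f x‖ₑ ^ 3) + Ct ^ 3 * volume Ω) := by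
          gcongr
          refine (lint_cv_cube hK2m hf).trans ?_
          gcongr
      _ = _ := by ring
  have h2 := lint_balls R' (u := fun x => ‖cv K1 f x‖ₑ ^ 3)
      ((measurable_cv hK1m hf).enorm.pow_const 3)
  calc volume (Metric.closedBall (0 : V) R') * ∫⁻ x, ‖cv K f x‖ₑ ^ 3
      ≤ volume (Metric.closedBall (0 : V) R') *
        (4 * (∫⁻ x, ‖cv K1 f x‖ₑ ^ 3) + 4 * Ct ^ 3 * volume Ω) := by gcongr
    _ = 4 * (volume (Metric.closedBall (0 : V) R') * ∫⁻ x, ‖cv K1 f x‖ₑ ^ 3) +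
        4 * Ct ^ 3 * (volume (Metric.closedBall (0 : V) R') * volume Ω) := by ring
    _ = 4 * (∫⁻ b : V, ∫⁻ x in Metric.closedBall b R', ‖cv K1 f x‖ₑ ^ 3) +
        4 * Ct ^ 3 * (volume (Metric.closedBall (0 : V) R') * volume Ω) := by rw [h2]
    _ ≤ 4 * (∫⁻ b : V, 4 * ((∫⁻ x in Metric.closedBall (0 : V) R',
          ‖cv K (fun y => (Metric.closedBall b (2 * R')).indicator f (y + b)) x‖ₑ ^ 3) +
        Ct ^ 3 * volume (Ω ∩ Metric.closedBall b (2 * R')))) +
        4 * Ct ^ 3 * (volume (Metric.closedBall (0 : V) R') * volume Ω) := by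
          gcongr with b
          exact ball_le hK hM htail hΩ hΩf hf hfΩ b
    _ = _ := by
          rw [lintegral_const_mul' _ _ (by norm_num), ← mul_assoc]
          norm_num

/-- **local ⟹ global**, with a time parameter. -/
theorem glob_time {K : ℝ → V → ℂ} (hK : Measurable (fun p : ℝ × V => K p.1 p.2)) {M : ℝ}
    (hM : ∀ t v, ‖K t v‖ ≤ M) {I : Set ℝ} {R' : ℝ}
    (hR' : 0 < R') {Ct : ℝ≥0∞}
    (htail : ∀ t ∈ I, ∫⁻ x : V, ‖({x : V | R' < ‖x‖}.indicator (K t) x : ℂ)‖ₑ ≤ Ct)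
    (hI : MeasurableSet I) {Cl : ℝ≥0∞}
    (hloc : ∀ f : V → ℂ, Measurable f → (∀ v, ‖f v‖ ≤ 1) → (∀ v, 2 * R' < ‖v‖ → f v = 0) →
      ∫⁻ t in I, ∫⁻ v in Metric.closedBall (0 : V) R', ‖cv (K t) f v‖ₑ ^ 3 ≤
        Cl * ∫⁻ v, ‖f v‖ₑ ^ 2)
    {Ω : Set V} (hΩ : MeasurableSet Ω) (hΩf : volume Ω ≠ ⊤) {f : V → ℂ} (hf : Measurable f)
    (hfΩ : ∀ x, ‖f x‖ ≤ Ω.indicator (fun _ => (1:ℝ)) x) :
    ∫⁻ t in I, ∫⁻ x, ‖cv (K t) f x‖ₑ ^ 3 ≤
      (128 * (Cl + Ct ^ 3 * volume I) + 4 * Ct ^ 3 * volume I) * volume Ω := by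
  have hKt : ∀ t, Measurable (K t) := fun t => hK.comp measurable_prodMk_left
  have hf1 : ∀ x, ‖f x‖ ≤ 1 := fun x => (hfΩ x).trans (Set.indicator_le_self' (by simp) x)
  set v0 := volume (Metric.closedBall (0 : V) R') with hv0d
  have hv0 : v0 ≠ 0 := (Metric.measure_closedBall_pos volume 0 hR').ne'
  have hvt : v0 ≠ ⊤ := measure_closedBall_lt_top.ne
  set F : ℝ → V → ℝ≥0∞ := fun t b => ∫⁻ x in Metric.closedBall (0 : V) R',
    ‖cv (K t) (fun y => (Metric.closedBall b (2 * R')).indicator f (y + b)) x‖ₑ ^ 3 with hF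
  have hS : MeasurableSet {p : V × V | dist p.2 p.1 ≤ 2 * R'} :=
    measurableSet_le (by fun_prop) measurable_const
  have hFm : Measurable (fun p : ℝ × V => F p.1 p.2) := by
    simp only [hF]
    refine Measurable.lintegral_prod_right' (ν := volume.restrict (Metric.closedBall (0 : V) R'))
      (f := fun q : (ℝ × V) × V => ‖cv (K q.1.1) (fun y =>
        (Metric.closedBall q.1.2 (2 * R')).indicator f (y + q.1.2)) q.2‖ₑ ^ 3) ?_
    refine Measurable.pow_const (Measurable.enorm ?_) 3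
    unfold cv
    refine StronglyMeasurable.measurable ?_
    refine StronglyMeasurable.integral_prod_right' (ν := (volume : Measure V))
      (f := fun q : ((ℝ × V) × V) × V => K q.1.1.1 (q.1.2 - q.2) *
        (Metric.closedBall q.1.1.2 (2 * R')).indicator f (q.2 + q.1.1.2)) ?_
    refine Measurable.stronglyMeasurable ?_
    refine Measurable.mul ?_ ?_
    · exact hK.comp (by fun_prop : Measurable fun q : ((ℝ × V) × V) × V =>
        ((q.1.1.1, q.1.2 - q.2) : ℝ × V))
    · have e : (fun q : ((ℝ × V) × V) × V =>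
          (Metric.closedBall q.1.1.2 (2 * R')).indicator f (q.2 + q.1.1.2)) =
          fun q => ({p : V × V | dist p.2 p.1 ≤ 2 * R'}.indicator (fun p => f p.2))
            (q.1.1.2, q.2 + q.1.1.2) := by
        ext q
        by_cases h : dist (q.2 + q.1.1.2) q.1.1.2 ≤ 2 * R'
        · rw [Set.indicator_of_mem (Metric.mem_closedBall.2 h), Set.indicator_of_mem
            (show ((q.1.1.2, q.2 + q.1.1.2) : V × V) ∈ {p : V × V | dist p.2 p.1 ≤ 2 * R'} from h)]
        · rw [Set.indicator_of_notMem (fun h' => h (Metric.mem_closedBall.1 h')),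
            Set.indicator_of_notMem
            (show ((q.1.1.2, q.2 + q.1.1.2) : V × V) ∉ {p : V × V | dist p.2 p.1 ≤ 2 * R'} from h)]
      rw [e]
      exact ((hf.comp measurable_snd).indicator hS).comp (by fun_prop)
  have hGm : Measurable (fun b : V => volume (Ω ∩ Metric.closedBall b (2 * R'))) := by
    have h5 : (fun b : V => volume (Ω ∩ Metric.closedBall b (2 * R'))) =
        fun b => ∫⁻ x, {p : V × V | dist p.2 p.1 ≤ 2 * R'}.indicator
          (fun p => Ω.indicator (1 : V → ℝ≥0∞) p.2) (b, x) := by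
      ext b
      rw [← lintegral_indicator_one
        (hΩ.inter Metric.isClosed_closedBall.measurableSet)]
      refine lintegral_congr fun x => ?_
      by_cases hx : dist x b ≤ 2 * R'
      · rw [Set.indicator_of_mem (show (b, x) ∈ {p : V × V | dist p.2 p.1 ≤ 2 * R'} from hx)]
        by_cases hx2 : x ∈ Ω
        · have hx3 : x ∈ Ω ∩ Metric.closedBall b (2 * R') :=
            Set.mem_inter hx2 (Metric.mem_closedBall.2 hx)
          rw [Set.indicator_of_mem hx3, Set.indicator_of_mem hx2]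
        · rw [Set.indicator_of_notMem (fun h => hx2 h.1), Set.indicator_of_notMem hx2]
      · rw [Set.indicator_of_notMem
          (show (b, x) ∉ {p : V × V | dist p.2 p.1 ≤ 2 * R'} from hx),
          Set.indicator_of_notMem (fun h => hx h.2)]
    rw [h5]
    exact Measurable.lintegral_prod_right' (f := fun q : V × V =>
      {p : V × V | dist p.2 p.1 ≤ 2 * R'}.indicator
          (fun p => Ω.indicator (1 : V → ℝ≥0∞) p.2) q)
      (((measurable_one.indicator hΩ).comp measurable_snd).indicator hS)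
  have h2 : ∫⁻ b : V, volume (Ω ∩ Metric.closedBall b (2 * R')) = 8 * v0 * volume Ω := by
    have h3 := lint_balls (2 * R') (u := Ω.indicator 1) (measurable_one.indicator hΩ)
    rw [lintegral_indicator_one hΩ, vol_double hR'] at h3
    rw [← h3]
    refine lintegral_congr fun b => ?_
    rw [lintegral_indicator_one₀ hΩ.nullMeasurableSet, Measure.restrict_apply hΩ]
  have hone : ∀ b : V, ∫⁻ t in I, F t b ≤ Cl * volume (Ω ∩ Metric.closedBall b (2 * R')) := by
    intro b
    have hBm : MeasurableSet (Metric.closedBall b (2 * R')) :=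
      Metric.isClosed_closedBall.measurableSet
    refine (hloc (fun y => (Metric.closedBall b (2 * R')).indicator f (y + b))
      ((hf.indicator hBm).comp (measurable_add_const b)) (fun v => ?_) (fun v hv => ?_)).trans ?_
    · exact (norm_indicator_le_norm_self _ _).trans (hf1 _)
    · apply Set.indicator_of_notMem
      simp only [Metric.mem_closedBall, not_le, dist_eq_norm, add_sub_cancel_right]
      exact hv
    · rw [lintegral_add_right_eq_self
        (fun v => ‖(Metric.closedBall b (2 * R')).indicator f v‖ₑ ^ 2) b]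
      gcongr
      rw [← lintegral_indicator_one (hΩ.inter hBm)]
      refine lintegral_mono fun x => ?_
      by_cases hx : x ∈ Metric.closedBall b (2 * R')
      · rw [Set.indicator_of_mem hx]
        by_cases hx2 : x ∈ Ω
        · rw [Set.indicator_of_mem (Set.mem_inter hx2 hx), Pi.one_apply]
          have h1 : ‖f x‖ₑ ≤ 1 := by
            rw [← ofReal_norm, ← ENNReal.ofReal_one]
            exact ENNReal.ofReal_le_ofReal (hf1 x)
          exact pow_le_one₀ zero_le h1
        · have h1 := hfΩ x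
          rw [Set.indicator_of_notMem hx2] at h1
          have h2 : f x = 0 := norm_le_zero_iff.1 h1
          simp [h2]
      · rw [Set.indicator_of_notMem hx]
        simp
  have key : v0 * ∫⁻ t in I, ∫⁻ x, ‖cv (K t) f x‖ₑ ^ 3 ≤
      v0 * ((128 * (Cl + Ct ^ 3 * volume I) + 4 * Ct ^ 3 * volume I) * volume Ω) := by
    calc v0 * ∫⁻ t in I, ∫⁻ x, ‖cv (K t) f x‖ₑ ^ 3
        = ∫⁻ t in I, v0 * ∫⁻ x, ‖cv (K t) f x‖ₑ ^ 3 := (lintegral_const_mul' _ _ hvt).symm
      _ ≤ ∫⁻ t in I, (16 * (∫⁻ b : V, (F t b + Ct ^ 3 *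
            volume (Ω ∩ Metric.closedBall b (2 * R')))) + 4 * Ct ^ 3 * (v0 * volume Ω)) := by
          refine setLIntegral_mono' hI fun t ht => ?_
          exact time_le (hKt t) (hM t) (htail t ht) hΩ hΩf hf hfΩ
      _ = 16 * (∫⁻ b : V, ∫⁻ t in I, F t b) + (16 * Ct ^ 3 * (8 * v0 * volume Ω) +
            4 * Ct ^ 3 * (v0 * volume Ω)) * volume I := by
          have e1 : ∀ t, ∫⁻ b : V, (F t b + Ct ^ 3 * volume (Ω ∩ Metric.closedBall b (2 * R'))) =
              (∫⁻ b : V, F t b) + Ct ^ 3 * (8 * v0 * volume Ω) := by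
            intro t
            rw [lintegral_add_right _ (hGm.const_mul _), lintegral_const_mul _ hGm, h2]
          simp only [e1]
          rw [lintegral_add_right _ measurable_const, lintegral_const,
            lintegral_const_mul' _ _ (by norm_num), lintegral_add_right _ measurable_const,
            lintegral_const, Measure.restrict_apply_univ,
            lintegral_lintegral_swap hFm.aemeasurable]
          ring
      _ ≤ 16 * (∫⁻ b : V, Cl * volume (Ω ∩ Metric.closedBall b (2 * R'))) +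
            (16 * Ct ^ 3 * (8 * v0 * volume Ω) +
            4 * Ct ^ 3 * (v0 * volume Ω)) * volume I := by
          gcongr with b
          exact hone b
      _ = _ := by
          rw [lintegral_const_mul _ hGm, h2]
          ring
  exact (ENNReal.mul_le_mul_iff_right hv0 hvt).1 key

end Crest.Agent.R116.EB665
end
end

-- ▼ part R116/Gw3_665

/-! R116 front (helper665): `GlobW ⇐ LocW`. -/

set_option autoImplicit false

open MeasureTheory Filter Topology
open scoped ENNReal FourierTransform ContDiff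

noncomputable section

namespace Crest.Agent.R116.EB665

open Crest.Agent.R138.Defs (E2 ee)
open Crest.Agent.R138.Fr665 (cv)
open Crest.Agent.R138.Fq665 (PR up norm_up_sq)
open Crest.Agent.R116.Sh927 (V)

theorem norm_up34 (J : PR ≃ₗᵢ[ℝ] V) : ‖up J 0 (3/4)‖ = 3/4 := by
  have h := norm_up_sq J 0 (3/4)
  rw [norm_zero] at h
  have h2 := norm_nonneg (up J 0 (3/4))
  nlinarith

theorem piece_norm {ρ : ℝ} (hρ1 : ρ ≤ 1/8) {J : PR ≃ₗᵢ[ℝ] V} {a : V → ℂ}
    (ha : ∀ v, a v ≠ 0 → ‖v - up J 0 (3/4)‖ ≤ ρ) (v : V) (hv : a v ≠ 0) :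
    1/2 ≤ ‖v‖ ∧ ‖v‖ ≤ 2 := by
  have h1 := ha v hv
  have h3 := norm_up34 J
  constructor
  · have h4 : ‖up J 0 (3/4)‖ ≤ ‖v‖ + ‖v - up J 0 (3/4)‖ := by
      calc ‖up J 0 (3/4)‖ = ‖v - (v - up J 0 (3/4))‖ := by congr 1; abel
        _ ≤ _ := norm_sub_le _ _
    linarith
  · calc ‖v‖ = ‖(v - up J 0 (3/4)) + up J 0 (3/4)‖ := by rw [sub_add_cancel]
      _ ≤ ‖v - up J 0 (3/4)‖ + ‖up J 0 (3/4)‖ := norm_add_le _ _
      _ ≤ 2 := by rw [h3]; linarith

theorem hcs_of_piece {a : V → ℂ} (ha : ∀ v, a v ≠ 0 → 1/2 ≤ ‖v‖ ∧ ‖v‖ ≤ 2) :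
    HasCompactSupport a := by
  apply HasCompactSupport.of_support_subset_isCompact (isCompact_closedBall (0 : V) 2)
  intro v hv
  simpa using (ha v hv).2

theorem Kt_apply (a : V → ℂ) (t : ℝ) (x : V) :
    Kt a t x = ∫ ξ, a ξ * ee (t * ‖ξ‖) * ee (inner ℝ x ξ) := by
  unfold Kt
  rw [CWp480.fourierInv_eq_int]

theorem norm_Kt_le (a : V → ℂ) (t : ℝ) (x : V) : ‖Kt a t x‖ ≤ ∫ ξ, ‖a ξ‖ := by
  rw [Kt_apply]
  refine (norm_integral_le_integral_norm _).trans (le_of_eq ?_)
  refine integral_congr_ae (Eventually.of_forall fun ξ => ?_)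
  simp [norm_ee]

theorem continuous_Kt {a : V → ℂ} (hac : Continuous a) (has : HasCompactSupport a) :
    Continuous (fun p : ℝ × V => Kt a p.1 p.2) := by
  have hai : Integrable a := hac.integrable_of_hasCompactSupport has
  simp only [Kt_apply]
  refine continuous_of_dominated (bound := fun ξ => ‖a ξ‖) ?_ ?_ hai.norm ?_
  · intro p
    refine Continuous.aestronglyMeasurable ?_
    exact (hac.mul (contDiff_ee.continuous.comp (continuous_const.mul continuous_norm))).mul
      (contDiff_ee.continuous.comp (continuous_const.inner continuous_id))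
  · intro p
    refine Eventually.of_forall fun ξ => ?_
    simp [norm_ee]
  · refine Eventually.of_forall fun ξ => ?_
    exact (continuous_const.mul (contDiff_ee.continuous.comp
      (continuous_fst.mul continuous_const))).mul
      (contDiff_ee.continuous.comp (continuous_snd.inner continuous_const))

/-- **GlobW ⇐ LocW**. -/
theorem GlobW_of_LocW (h : LocW) : GlobW := by
  obtain ⟨ρ, hρ, hρ1, H⟩ := h
  refine ⟨ρ, hρ, hρ1, ?_⟩
  intro J a hac has ε hε
  have hn := piece_norm hρ1 has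
  have hcs := hcs_of_piece hn
  set δ : ℝ := min (ε / 8) 1 with hδ
  have hδ0 : 0 < δ := by positivity
  have hδ1 : δ ≤ 1 := min_le_right _ _
  have h6 : 8 * δ ≤ ε := by
    have : δ ≤ ε / 8 := min_le_left _ _
    linarith
  obtain ⟨Cl, hCl, hloc⟩ := H J a hac has δ hδ0 hδ1
  obtain ⟨Ct, hCt, htail⟩ := tail_Kt hac hn hδ0
  refine ⟨128 * (Cl + Ct ^ 3 * 2) + 4 * Ct ^ 3 * 2, by positivity, ?_⟩
  intro R hR Ω hΩ hΩf f hf hfΩ
  have hR0 : 0 < R := by linarith
  have key := glob_time (K := Kt a) (continuous_Kt hac.continuous hcs).measurable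
    (fun t v => norm_Kt_le a t v) (I := Set.Icc (0 : ℝ) (2 * R)) (R' := R ^ (1 + δ))
    (by positivity)
    (Ct := ENNReal.ofReal Ct)
    (fun t ht => htail R hR t (by rw [abs_of_nonneg ht.1]; exact ht.2)) measurableSet_Icc
    (Cl := ENNReal.ofReal (Cl * R ^ (1 + 8 * δ))) (fun f hf h1 h0 => hloc R hR f hf h1 h0)
    hΩ hΩf hf hfΩ
  refine key.trans ?_
  gcongr
  rw [Real.volume_Icc, sub_zero, ← ENNReal.ofReal_pow hCt,
    show (128 : ℝ≥0∞) = ENNReal.ofReal 128 by simp, show (4 : ℝ≥0∞) = ENNReal.ofReal 4 by simp,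
    ← ENNReal.ofReal_mul (by positivity), ← ENNReal.ofReal_add (by positivity) (by positivity),
    ← ENNReal.ofReal_mul (by norm_num), ← ENNReal.ofReal_mul (by norm_num),
    ← ENNReal.ofReal_mul (by positivity), ← ENNReal.ofReal_add (by positivity) (by positivity)]
  apply ENNReal.ofReal_le_ofReal
  have h1 : R ^ (1 + 8 * δ) ≤ R ^ (1 + ε) := Real.rpow_le_rpow_of_exponent_le hR (by linarith)
  have h2 : R ≤ R ^ (1 + ε) := by
    calc R = R ^ (1:ℝ) := (Real.rpow_one R).symm
      _ ≤ _ := Real.rpow_le_rpow_of_exponent_le hR (by linarith)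
  have h3 : Ct ^ 3 * (2 * R) ≤ Ct ^ 3 * (2 * R ^ (1 + ε)) := by gcongr
  calc 128 * (Cl * R ^ (1 + 8 * δ) + Ct ^ 3 * (2 * R)) + 4 * Ct ^ 3 * (2 * R)
      ≤ 128 * (Cl * R ^ (1 + ε) + Ct ^ 3 * (2 * R ^ (1 + ε))) +
        4 * (Ct ^ 3 * (2 * R ^ (1 + ε))) := by
        have e : 4 * Ct ^ 3 * (2 * R) = 4 * (Ct ^ 3 * (2 * R)) := by ring
        rw [e]
        gcongr
    _ = _ := by ring

end Crest.Agent.R116.EB665
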