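import Crest.Agent.R116.EBcDef_665
import Crest.Agent.R116.Gw3_665
import Crest.Agent.R138.Fs2_665
import Crest.Agent.R116.CWc1_480
import Crest.Agent.R116.Cad1_538
import Crest.Agent.R116.Ba1_449
import Crest.Agent.R116.LZg3_725
import Crest.Agent.R116.Vol1_809
import Crest.Agent.R116.Tr1_126
import Crest.Agent.R138.Wpk12_685

-- ▼ part R116/Hx1_665
section

/-!
# R116: the chart `E3 → V` of the half-cone and the change of variables (helper665)
-/

set_option autoImplicit false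

open MeasureTheory FourierTransform Set
open scoped ContDiff ENNReal

namespace Crest.Agent.R116.Hx665

open Crest.Agent.R138.Defs (E2 ee)
open Crest.Agent.R138.Fq665 (PR up)
open Crest.Agent.R116.Sh927 (V)
open Crest.Agent.R116.CDef480

/-! ### smooth reciprocal -/

/-- smooth reciprocal: `1/η` for `η ≥ 1/2`. -/
noncomputable def rc (η : ℝ) : ℝ := Real.smoothTransition (4 * η - 1) * η⁻¹

theorem rc_eq {η : ℝ} (h : 1 / 2 ≤ η) : rc η = η⁻¹ := by
  unfold rc
  rw [Real.smoothTransition.one_of_one_le (by linarith), one_mul]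

theorem contDiff_rc : ContDiff ℝ ∞ rc := by
  rw [contDiff_iff_contDiffAt]
  intro η
  rcases eq_or_ne η 0 with h | h
  · subst h
    have : rc =ᶠ[nhds 0] fun _ => 0 := by
      filter_upwards [Iio_mem_nhds (show (0:ℝ) < 1/4 by norm_num)] with x hx
      unfold rc
      rw [Real.smoothTransition.zero_of_nonpos (by simp only [mem_Iio] at hx; linarith), zero_mul]
    exact contDiffAt_const.congr_of_eventuallyEq this
  · exact (Real.smoothTransition.contDiff.contDiffAt.comp η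
      ((contDiffAt_id.const_smul (4:ℝ)).sub contDiffAt_const)).mul (contDiffAt_inv ℝ h)

/-- cut-off in the scalar frequency. -/
noncomputable def chi (η : ℝ) : ℝ := Real.smoothTransition (4 * η - 2)

theorem chi_one {η : ℝ} (h : 3 / 4 ≤ η) : chi η = 1 :=
  Real.smoothTransition.one_of_one_le (by linarith)

theorem chi_zero {η : ℝ} (h : η ≤ 1 / 2) : chi η = 0 :=
  Real.smoothTransition.zero_of_nonpos (by linarith)

theorem contDiff_chi : ContDiff ℝ ∞ chi :=
  Real.smoothTransition.contDiff.comp ((contDiff_id.const_smul (4:ℝ)).sub contDiff_const)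


/-! ### the chart -/

/-- smooth version of `hc`. -/
noncomputable def hs (ζ : E3) : ℝ := ‖lat ζ‖ ^ 2 * rc (ζ 2) / 2

theorem hs_eq {ζ : E3} (h : 1 / 2 ≤ ζ 2) : hs ζ = hc ζ := by
  unfold hs hc
  rw [rc_eq h]
  field_simp

theorem contDiff_lat : ContDiff ℝ ∞ lat := latL.contDiff
theorem contDiff_two : ContDiff ℝ ∞ (fun ζ : E3 => ζ 2) :=
  (EuclideanSpace.proj (𝕜 := ℝ) (2 : Fin 3)).contDiff

theorem contDiff_hs : ContDiff ℝ ∞ hs :=
  ((contDiff_lat.norm_sq ℝ).mul (contDiff_rc.comp contDiff_two)).div_const 2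

/-- the chart. -/
noncomputable def Ph (J : PR ≃ₗᵢ[ℝ] V) (ζ : E3) : V := up J (lat ζ) (ζ 2 / 2 - hs ζ)

theorem contDiff_Ph (J : PR ≃ₗᵢ[ℝ] V) : ContDiff ℝ ∞ (Ph J) :=
  (Crest.Agent.R138.Fq665.contDiff_up J).comp
    (contDiff_lat.prodMk ((contDiff_two.div_const 2).sub contDiff_hs))

theorem norm_Ph (J : PR ≃ₗᵢ[ℝ] V) {ζ : E3} (h : 1 / 2 ≤ ζ 2) : ‖Ph J ζ‖ = ζ 2 / 2 + hc ζ := by
  have h0 : 0 < ζ 2 := by linarith
  have h1 : 0 ≤ hc ζ := by unfold hc; positivity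
  have h2 : ‖Ph J ζ‖ ^ 2 = (ζ 2 / 2 + hc ζ) ^ 2 := by
    unfold Ph
    rw [Crest.Agent.R138.Fq665.norm_up_sq, hs_eq h]
    have : ‖lat ζ‖ ^ 2 = 2 * ζ 2 * hc ζ := by
      unfold hc
      field_simp
    rw [this]
    ring
  exact (sq_eq_sq₀ (norm_nonneg _) (by positivity)).1 h2

/-- the phase. -/
theorem phase_eq (J : PR ≃ₗᵢ[ℝ] V) {ζ : E3} (h : 1 / 2 ≤ ζ 2) (t x3 : ℝ) (x' : E2) :
    t * ‖Ph J ζ‖ + inner ℝ (up J x' x3) (Ph J ζ) =
      inner ℝ (pt x' ((x3 + t) / 2)) ζ + (t - x3) * hc ζ := by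
  rw [norm_Ph J h]
  unfold Ph
  rw [Crest.Agent.R138.Fq665.inner_up, hs_eq h, inner_split, lat_pt, pt_two]
  ring

theorem inner_Ph (J : PR ≃ₗᵢ[ℝ] V) {ζ : E3} (h : 1 / 2 ≤ ζ 2) (v3 : ℝ) (v' : E2) :
    inner ℝ (up J v' v3) (Ph J ζ) = inner ℝ (pt v' (v3 / 2)) ζ - v3 * hc ζ := by
  have := phase_eq J h 0 v3 v'
  rw [zero_mul, zero_add] at this
  rw [this]
  ring_nf

/-- the Jacobian. -/
noncomputable def jac (ζ : E3) : ℝ := (1 + ‖lat ζ‖ ^ 2 * rc (ζ 2) ^ 2) / 2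

theorem jac_pos (ζ : E3) : 0 < jac ζ := by unfold jac; positivity

theorem contDiff_jac : ContDiff ℝ ∞ jac :=
  (contDiff_const.add ((contDiff_lat.norm_sq ℝ).mul ((contDiff_rc.comp contDiff_two).pow 2))).div_const 2

/-! ### change of variables -/

/-- `E3 = E2 × ℝ`. -/
noncomputable def J0 : PR ≃ₗᵢ[ℝ] E3 where
  toFun p := pt p.fst p.snd
  invFun ζ := WithLp.toLp 2 (lat ζ, ζ 2)
  map_add' p q := by
    ext i; fin_cases i <;> simp [pt]
  map_smul' c p := by
    ext i; fin_cases i <;> simp [pt]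
  left_inv p := by
    simp only [lat_pt, pt_two]
    rfl
  right_inv ζ := by
    simp
  norm_map' p := by
    have h1 : ‖pt p.fst p.snd‖ ^ 2 = ‖p‖ ^ 2 := by
      rw [normsq3, lat_pt, pt_two, WithLp.prod_norm_sq_eq_of_L2]
      simp
    exact (sq_eq_sq₀ (norm_nonneg _) (norm_nonneg _)).1 h1


theorem mp_pt : MeasurePreserving (fun p : E2 × ℝ => pt p.1 p.2) volume volume :=
  Crest.Agent.R138.Fq665.mp_up J0


theorem lintegral_pt (f : E3 → ℝ≥0∞) (hf : Measurable f) :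
    ∫⁻ v, f v = ∫⁻ p : E2 × ℝ, f (pt p.1 p.2) :=
  (mp_pt.lintegral_comp hf).symm

/-- the one dimensional map. -/
noncomputable def psi (q η : ℝ) : ℝ := η / 2 - q / (2 * η)

theorem psi_image {q : ℝ} (hq : 0 ≤ q) : psi q '' Ioi (1/2) = Ioi (1/4 - q) := by
  ext u
  simp only [mem_image, mem_Ioi]
  constructor
  · rintro ⟨η, hη, rfl⟩
    unfold psi
    have h0 : 0 < η := by linarith
    have h1 : q / (2 * η) ≤ q := by
      rw [div_le_iff₀ (by positivity)]
      nlinarith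
    linarith
  · intro hu
    have hs : 0 ≤ u ^ 2 + q := by positivity
    set w := Real.sqrt (u ^ 2 + q) with hw
    have hw2 : w ^ 2 = u ^ 2 + q := Real.sq_sqrt hs
    have hw0 : 0 ≤ w := Real.sqrt_nonneg _
    have h1 : 1 / 2 < u + w := by
      by_contra hcon
      push Not at hcon
      have h2 : w ≤ 1/2 - u := by linarith
      have h3 : w ^ 2 ≤ (1/2 - u) ^ 2 := by
        apply pow_le_pow_left₀ hw0 h2
      nlinarith
    refine ⟨u + w, h1, ?_⟩
    unfold psi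
    have h4 : 0 < u + w := by linarith
    rw [div_sub_div _ _ (by norm_num) (by positivity), div_eq_iff (by positivity)]
    nlinarith

theorem psi_deriv (q : ℝ) {η : ℝ} (h : 0 < η) :
    HasDerivAt (psi q) ((1 + q * (η⁻¹) ^ 2) / 2) η := by
  have h1 : HasDerivAt (fun x : ℝ => x / 2 - q / 2 * x⁻¹) (1 / 2 - q / 2 * (-(η ^ 2)⁻¹)) η :=
    ((hasDerivAt_id η).div_const 2).sub ((hasDerivAt_inv h.ne').const_mul (q / 2))
  have h2 : psi q = fun x : ℝ => x / 2 - q / 2 * x⁻¹ := by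
    ext x; unfold psi
    rw [div_mul_eq_div_div, div_eq_mul_inv (q/2)]
  rw [h2]
  convert h1 using 1
  rw [inv_pow]
  ring

theorem psi_inj {q : ℝ} (hq : 0 ≤ q) : InjOn (psi q) (Ioi (1/2)) := by
  apply StrictMonoOn.injOn
  intro x hx y hy hxy
  simp only [mem_Ioi] at hx hy
  unfold psi
  have h0 : 0 < x := by linarith
  have h1 : q / (2 * y) ≤ q / (2 * x) := by
    apply div_le_div_of_nonneg_left hq (by positivity) (by linarith)
  linarith

/-- change of variables, one fibre. -/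
theorem cv_fibre {q : ℝ} (hq : 0 ≤ q) (F : ℝ → ℝ≥0∞) :
    ∫⁻ u in Ioi (1/4 - q), F u =
      ∫⁻ η in Ioi (1/2), ENNReal.ofReal ((1 + q * (η⁻¹) ^ 2) / 2) * F (psi q η) := by
  rw [← psi_image hq, lintegral_image_eq_lintegral_abs_deriv_mul measurableSet_Ioi
    (fun x hx => (psi_deriv q (by simp only [mem_Ioi] at hx; linarith)).hasDerivWithinAt)
    (psi_inj hq)]
  refine setLIntegral_congr_fun measurableSet_Ioi fun η _ => ?_
  rw [abs_of_nonneg (by positivity)]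

theorem Ph_pt (J : PR ≃ₗᵢ[ℝ] V) {x : E2} {η : ℝ} (h : 1 / 2 ≤ η) :
    Ph J (pt x η) = up J x (psi (‖x‖ ^ 2) η) := by
  unfold Ph psi
  rw [lat_pt, pt_two, hs_eq (by rw [pt_two]; exact h)]
  unfold hc
  rw [lat_pt, pt_two]

theorem measurable_Ph (J : PR ≃ₗᵢ[ℝ] V) : Measurable (Ph J) := (contDiff_Ph J).continuous.measurable

/-- **change of variables** (nonnegative functions). -/
theorem cv_lint (J : PR ≃ₗᵢ[ℝ] V) (F : V → ℝ≥0∞) (hF : Measurable F)
    (hs : ∀ x : E2, ∀ u : ℝ, F (up J x u) ≠ 0 → 1/4 < u) :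
    ∫⁻ v, F v = ∫⁻ ζ : E3 in {ζ | 1/2 < ζ 2}, ENNReal.ofReal (jac ζ) * F (Ph J ζ) := by
  have hjm : Measurable fun ζ : E3 => ENNReal.ofReal (jac ζ) :=
    (contDiff_jac.continuous.measurable).ennreal_ofReal
  have hset : MeasurableSet {ζ : E3 | 1/2 < ζ 2} :=
    measurableSet_lt measurable_const (measurable_coord 2)
  have hup := Crest.Agent.R138.Fq665.continuous_up J
  have hm1 : Measurable fun p : E2 × ℝ => F (up J p.1 p.2) := hF.comp hup.measurable
  have hm2 : Measurable fun p : E2 × ℝ => ({ζ : E3 | 1/2 < ζ 2}.indicator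
      (fun ζ => ENNReal.ofReal (jac ζ) * F (Ph J ζ))) (pt p.1 p.2) :=
    ((hjm.mul (hF.comp (measurable_Ph J))).indicator hset).comp mp_pt.measurable
  rw [Crest.Agent.R138.Fq665.lintegral_up J F hF, Measure.volume_eq_prod, lintegral_prod _
    hm1.aemeasurable]
  have hm3 : Measurable ({ζ : E3 | 1/2 < ζ 2}.indicator
      (fun ζ => ENNReal.ofReal (jac ζ) * F (Ph J ζ))) :=
    (hjm.mul (hF.comp (measurable_Ph J))).indicator hset
  rw [← lintegral_indicator hset, lintegral_pt _ hm3,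
    Measure.volume_eq_prod, lintegral_prod _ hm2.aemeasurable]
  refine lintegral_congr fun x => ?_
  simp only
  have e1 : ∫⁻ u, F (up J x u) = ∫⁻ u in Ioi (1/4 - ‖x‖ ^ 2), F (up J x u) := by
    rw [← lintegral_indicator measurableSet_Ioi]
    refine lintegral_congr fun u => ?_
    by_cases hu : u ∈ Ioi (1/4 - ‖x‖ ^ 2)
    · rw [indicator_of_mem hu]
    · rw [indicator_of_notMem hu]
      by_contra hne
      have := hs x u hne
      apply hu
      simp only [mem_Ioi]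
      nlinarith [sq_nonneg ‖x‖]
  rw [e1, cv_fibre (sq_nonneg ‖x‖), ← lintegral_indicator measurableSet_Ioi]
  refine lintegral_congr fun η => ?_
  by_cases hη : η ∈ Ioi (1/2 : ℝ)
  · have h1 : 1 / 2 ≤ η := le_of_lt hη
    rw [indicator_of_mem hη, indicator_of_mem (show pt x η ∈ {ζ : E3 | 1/2 < ζ 2} from hη), Ph_pt J h1]
    unfold jac
    rw [lat_pt, pt_two, rc_eq h1]
  · rw [indicator_of_notMem hη, indicator_of_notMem (show pt x η ∉ {ζ : E3 | 1/2 < ζ 2} from hη)]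

/-- the good region on the side of `V`. -/
def UV (J : PR ≃ₗᵢ[ℝ] V) : Set V := {v | 1/4 < (J.symm v).snd}

theorem meas_UV (J : PR ≃ₗᵢ[ℝ] V) : MeasurableSet (UV J) := by
  have h1 : Continuous fun v : V => (J.symm v).snd :=
    (WithLp.prod_continuous_ofLp 2 E2 ℝ).snd.comp J.symm.continuous
  exact measurableSet_lt measurable_const h1.measurable

theorem up_mem_UV (J : PR ≃ₗᵢ[ℝ] V) (x : E2) (u : ℝ) : up J x u ∈ UV J ↔ 1/4 < u := by
  unfold UV up
  simp

/-- the measure on the frequency side. -/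
noncomputable def mu : Measure E3 :=
  (volume.restrict {ζ : E3 | 1/2 < ζ 2}).withDensity (fun ζ => ENNReal.ofReal (jac ζ))

theorem map_mu (J : PR ≃ₗᵢ[ℝ] V) : (mu.map (Ph J)).restrict (UV J) = volume.restrict (UV J) := by
  ext s hs
  rw [Measure.restrict_apply hs, Measure.restrict_apply hs,
    Measure.map_apply (measurable_Ph J) (hs.inter (meas_UV J))]
  have hjm : Measurable fun ζ : E3 => ENNReal.ofReal (jac ζ) :=
    (contDiff_jac.continuous.measurable).ennreal_ofReal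
  have hm := hs.inter (meas_UV J)
  rw [← lintegral_indicator_one hm, cv_lint J _ (measurable_one.indicator hm)]
  · unfold mu
    rw [withDensity_apply _ (measurable_Ph J hm), ← lintegral_indicator (measurable_Ph J hm)]
    refine lintegral_congr fun ζ => ?_
    by_cases h : Ph J ζ ∈ s ∩ UV J
    · rw [indicator_of_mem (show ζ ∈ Ph J ⁻¹' (s ∩ UV J) from h), indicator_of_mem h]
      simp
    · rw [indicator_of_notMem (show ζ ∉ Ph J ⁻¹' (s ∩ UV J) from h), indicator_of_notMem h]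
      simp
  · intro x u h
    by_contra hcon
    apply h
    rw [indicator_of_notMem]
    rintro ⟨_, h2⟩
    exact hcon ((up_mem_UV J x u).1 h2)

/-- **change of variables** (vector valued). -/
theorem cv_int {W : Type*} [NormedAddCommGroup W] [NormedSpace ℝ W] (J : PR ≃ₗᵢ[ℝ] V) (F : V → W)
    (hF : AEStronglyMeasurable F volume)
    (hs : ∀ v, F v ≠ 0 → v ∈ UV J) :
    ∫ v, F v = ∫ ζ : E3 in {ζ | 1/2 < ζ 2}, jac ζ • F (Ph J ζ) := by
  have h1 : ∫ v, F v = ∫ v in UV J, F v := by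
    rw [setIntegral_eq_integral_of_forall_compl_eq_zero]
    intro v hv
    by_contra h
    exact hv (hs v h)
  have h2 : ∫ v in UV J, F v = ∫ v, F v ∂(mu.map (Ph J)) := by
    rw [← map_mu J, setIntegral_eq_integral_of_forall_compl_eq_zero]
    intro v hv
    by_contra h
    exact hv (hs v h)
  have h3 : AEStronglyMeasurable F (mu.map (Ph J)) := by
    have h4 : AEStronglyMeasurable F ((mu.map (Ph J)).restrict (UV J)) := by
      rw [map_mu J]; exact hF.restrict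
    have h5 : F = (UV J).indicator F := by
      ext v
      by_cases hv : v ∈ UV J
      · rw [indicator_of_mem hv]
      · rw [indicator_of_notMem hv]
        by_contra h
        exact hv (hs v h)
    rw [h5]
    exact (aestronglyMeasurable_indicator_iff (meas_UV J)).2 h4
  rw [h1, h2, integral_map (measurable_Ph J).aemeasurable h3]
  unfold mu
  rw [integral_withDensity_eq_integral_toReal_smul
    (contDiff_jac.continuous.measurable).ennreal_ofReal (Filter.Eventually.of_forall fun _ => ENNReal.ofReal_lt_top)]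
  refine integral_congr_ae (Filter.Eventually.of_forall fun ζ => ?_)
  simp only
  rw [ENNReal.toReal_ofReal (jac_pos ζ).le]

end Crest.Agent.R116.Hx665
end

-- ▼ part R116/Hx2_665
section

/-!
# R116: the function `gf` on the frequency side, the identity with `extc` (helper665)
-/

set_option autoImplicit false

open MeasureTheory FourierTransform Set Filter
open scoped ContDiff ENNReal

namespace Crest.Agent.R116.Hx665

open Crest.Agent.R138.Defs (E2 ee)
open Crest.Agent.R138.Fq665 (PR up)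
open Crest.Agent.R138.Fr665 (cv)
open Crest.Agent.R116.Sh927 (V)
open Crest.Agent.R116.EB665 (Kt)
open Crest.Agent.R116.CDef480

/-- admissible piece. -/
structure Pc (J : PR ≃ₗᵢ[ℝ] V) (a : V → ℂ) : Prop where
  sm : ContDiff ℝ ∞ a
  supp : ∀ v, a v ≠ 0 → ‖v - up J 0 (3/4)‖ ≤ 1/8

variable {J : PR ≃ₗᵢ[ℝ] V} {a : V → ℂ}

theorem Pc.nrm (h : Pc J a) (v : V) (hv : a v ≠ 0) : 1/2 ≤ ‖v‖ ∧ ‖v‖ ≤ 2 :=
  EB665.piece_norm le_rfl h.supp v hv

theorem Pc.hcs (h : Pc J a) : HasCompactSupport a := EB665.hcs_of_piece h.nrm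

theorem Pc.cont (h : Pc J a) : Continuous a := h.sm.continuous

theorem Pc.int (h : Pc J a) : Integrable a := h.cont.integrable_of_hasCompactSupport h.hcs

theorem up_bounds {x : E2} {u : ℝ} (h : ‖up J x u - up J 0 (3/4)‖ ≤ 1/8) :
    ‖x‖ ≤ 1/8 ∧ |u - 3/4| ≤ 1/8 := by
  have h1 : ‖up J x u - up J 0 (3/4)‖ ^ 2 ≤ (1/8) ^ 2 :=
    pow_le_pow_left₀ (norm_nonneg _) h 2
  rw [Crest.Agent.R138.Fq665.up_sub, Crest.Agent.R138.Fq665.norm_up_sq, sub_zero] at h1
  constructor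
  · exact abs_le_of_sq_le_sq' (by nlinarith [sq_nonneg (u - 3/4)]) (by norm_num) |>.2
  · apply abs_le_of_sq_le_sq _ (by norm_num)
    nlinarith [sq_nonneg ‖x‖]

theorem reg {ζ : E3} (h0 : 1/2 < ζ 2) (h : ‖Ph J ζ - up J 0 (3/4)‖ ≤ 1/8) :
    5/4 ≤ ζ 2 ∧ ζ 2 ≤ 2 ∧ ‖lat ζ‖ ≤ 1/8 ∧ ‖slp ζ‖ ≤ 1/10 := by
  obtain ⟨h1, h2⟩ := up_bounds h
  rw [hs_eq h0.le] at h2
  have hpos : 0 < ζ 2 := by linarith
  have h3 : 0 ≤ hc ζ := by unfold hc; positivity
  rw [abs_le] at h2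
  have h4 : 5/4 ≤ ζ 2 := by linarith [h2.1]
  have h5 : hc ζ ≤ 1/8 := by
    unfold hc
    rw [div_le_iff₀ (by positivity)]
    nlinarith [norm_nonneg (lat ζ)]
  refine ⟨h4, by linarith [h2.2], h1, ?_⟩
  unfold slp
  rw [norm_smul, norm_inv, Real.norm_eq_abs, abs_of_pos hpos, inv_mul_le_iff₀ hpos]
  nlinarith

/-- the amplitude in null coordinates. -/
noncomputable def Aa (J : PR ≃ₗᵢ[ℝ] V) (a : V → ℂ) (ζ : E3) : ℂ :=
  a (Ph J ζ) * ((chi (ζ 2) * jac ζ : ℝ) : ℂ)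

theorem Pc.Aa_reg (h : Pc J a) {ζ : E3} (hz : Aa J a ζ ≠ 0) :
    5/4 ≤ ζ 2 ∧ ζ 2 ≤ 2 ∧ ‖lat ζ‖ ≤ 1/8 ∧ ‖slp ζ‖ ≤ 1/10 := by
  unfold Aa at hz
  have h1 : a (Ph J ζ) ≠ 0 := left_ne_zero_of_mul hz
  have h2 : 1/2 < ζ 2 := by
    by_contra hcon
    push Not at hcon
    apply hz
    rw [chi_zero hcon]
    simp
  exact reg h2 (h.supp _ h1)

theorem Aa_eq_zero {ζ : E3} (hz : ζ 2 ≤ 1/2) : Aa J a ζ = 0 := by
  unfold Aa
  rw [chi_zero hz]
  simp

theorem Pc.Aa_eq (h : Pc J a) {ζ : E3} (hz : 1/2 < ζ 2) :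
    Aa J a ζ = a (Ph J ζ) * ((jac ζ : ℝ) : ℂ) := by
  unfold Aa
  by_cases h1 : a (Ph J ζ) = 0
  · rw [h1, zero_mul, zero_mul]
  · rw [chi_one (by linarith [(reg hz (h.supp _ h1)).1]), one_mul]

theorem Pc.contDiff_Aa (h : Pc J a) : ContDiff ℝ ∞ (Aa J a) :=
  (h.sm.comp (contDiff_Ph J)).mul (Complex.ofRealCLM.contDiff.comp
    ((contDiff_chi.comp contDiff_two).mul contDiff_jac))

theorem norm_le_of {ζ : E3} (h1 : 5/4 ≤ ζ 2) (h2 : ζ 2 ≤ 2) (h3 : ‖lat ζ‖ ≤ 1/8) : ‖ζ‖ ≤ 3 := by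
  have : ‖ζ‖ ^ 2 ≤ 3 ^ 2 := by
    rw [normsq3]
    nlinarith [norm_nonneg (lat ζ)]
  exact abs_le_of_sq_le_sq' this (by norm_num) |>.2

theorem Pc.norm_le (h : Pc J a) {ζ : E3} (hz : Aa J a ζ ≠ 0) : ‖ζ‖ ≤ 3 := by
  obtain ⟨h1, h2, h3, _⟩ := h.Aa_reg hz
  exact norm_le_of h1 h2 h3

theorem Pc.hcs_Aa (h : Pc J a) : HasCompactSupport (Aa J a) := by
  apply HasCompactSupport.of_support_subset_isCompact (isCompact_closedBall (0 : E3) 3)
  intro ζ hζ
  simpa using h.norm_le hζ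

theorem jac_le {ζ : E3} (h1 : 5/4 ≤ ζ 2) (h3 : ‖lat ζ‖ ≤ 1/8) : jac ζ ≤ 1 := by
  unfold jac
  rw [rc_eq (by linarith)]
  have h2 : (ζ 2)⁻¹ ≤ 1 := inv_le_one_of_one_le₀ (by linarith)
  have h4 : 0 ≤ (ζ 2)⁻¹ := by positivity
  have h5 : ‖lat ζ‖ ^ 2 ≤ 1 := by nlinarith [norm_nonneg (lat ζ)]
  have h6 : (ζ 2)⁻¹ ^ 2 ≤ 1 := by nlinarith
  nlinarith [mul_le_mul h5 h6 (by positivity) (by norm_num : (0:ℝ) ≤ 1)]


/-- the function on the frequency side. -/
noncomputable def gf (J : PR ≃ₗᵢ[ℝ] V) (a f : V → ℂ) (ζ : E3) : ℂ := Aa J a ζ * 𝓕 f (Ph J ζ)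

theorem gf_ne {f : V → ℂ} {ζ : E3} (hz : gf J a f ζ ≠ 0) : Aa J a ζ ≠ 0 :=
  left_ne_zero_of_mul hz

/-- **identity**. -/
theorem cv_eq_extc (h : Pc J a) {f : V → ℂ} (hf : Integrable f) (t x3 : ℝ) (x' : E2) :
    cv (Kt a t) f (up J x' x3) = extc (gf J a f) (pt x' ((x3 + t) / 2)) (t - x3) := by
  have hGc : Continuous fun v => a v * ee (t * ‖v‖) :=
    h.cont.mul (Crest.Agent.R138.Fq665.continuous_ee.comp (continuous_const.mul continuous_norm))
  have hG : Integrable fun v => a v * ee (t * ‖v‖) := by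
    refine hGc.integrable_of_hasCompactSupport ?_
    exact h.hcs.mul_right
  unfold EB665.Kt
  rw [Crest.Agent.R138.Fq665.cv_eq hG hf]
  have hFc : Continuous (𝓕 f) := Crest.Agent.R138.Fq665.continuous_fourier hf
  rw [cv_int J (fun ξ => a ξ * ee (t * ‖ξ‖) * 𝓕 f ξ * ee (inner ℝ (up J x' x3) ξ))]
  · unfold extc
    rw [← integral_indicator (measurableSet_lt measurable_const (measurable_coord 2))]
    refine integral_congr_ae (Eventually.of_forall fun ζ => ?_)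
    simp only
    by_cases hz : 1/2 < ζ 2
    · rw [indicator_of_mem (show ζ ∈ {ζ : E3 | 1/2 < ζ 2} from hz), ← phase_eq J hz.le,
        Crest.Agent.R138.Fq665.ee_add]
      unfold gf
      rw [h.Aa_eq hz, Complex.real_smul]
      ring
    · rw [indicator_of_notMem (show ζ ∉ {ζ : E3 | 1/2 < ζ 2} from hz)]
      unfold gf
      rw [Aa_eq_zero (by linarith)]
      simp
  · exact ((hGc.mul hFc).mul (Crest.Agent.R138.Fq665.continuous_ee.comp
      (continuous_const.inner continuous_id))).aestronglyMeasurable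
  · intro v hv
    have h1 : a v ≠ 0 := by
      intro h0
      apply hv
      rw [h0]
      simp
    have h2 := h.supp v h1
    have h3 : v = up J (J.symm v).fst (J.symm v).snd := by
      unfold Crest.Agent.R138.Fq665.up
      rw [show WithLp.toLp 2 ((J.symm v).fst, (J.symm v).snd) = J.symm v from rfl]
      simp
    rw [h3] at h2 ⊢
    rw [up_mem_UV]
    have := (up_bounds h2).2
    rw [abs_le] at this
    linarith [this.1]

theorem up_surj (J : PR ≃ₗᵢ[ℝ] V) (v : V) : v = up J (J.symm v).fst (J.symm v).snd := by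
  unfold Crest.Agent.R138.Fq665.up
  rw [show WithLp.toLp 2 ((J.symm v).fst, (J.symm v).snd) = J.symm v from rfl]
  simp

/-! ### the function `gf` is a state -/

theorem Pc.bdd (h : Pc J a) : ∃ L : ℝ, 0 ≤ L ∧ ∀ v, ‖a v‖ ≤ L := by
  obtain ⟨C, hC⟩ := h.cont.bounded_above_of_compact_support h.hcs
  exact ⟨max C 0, le_max_right _ _, fun v => (hC v).trans (le_max_left _ _)⟩

theorem Pc.gf_cont (h : Pc J a) {f : V → ℂ} (hf : Integrable f) : Continuous (gf J a f) :=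
  h.contDiff_Aa.continuous.mul ((Crest.Agent.R138.Fq665.continuous_fourier hf).comp
    (contDiff_Ph J).continuous)

theorem Pc.gf_hcs (h : Pc J a) (f : V → ℂ) : HasCompactSupport (gf J a f) :=
  h.hcs_Aa.mul_right

theorem Pc.gf_int (h : Pc J a) {f : V → ℂ} (hf : Integrable f) : Integrable (gf J a f) :=
  (h.gf_cont hf).integrable_of_hasCompactSupport (h.gf_hcs f)

/-- energy, as a `lintegral`. -/
theorem Pc.gf_energy (h : Pc J a) {L : ℝ} (hL : ∀ v, ‖a v‖ ≤ L) {f : V → ℂ}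
    (h1 : Integrable f) (h2 : MemLp f 2) :
    ∫⁻ ζ, ‖gf J a f ζ‖ₑ ^ 2 ≤ ENNReal.ofReal (L ^ 2) * ∫⁻ v, ‖f v‖ₑ ^ 2 := by
  have hFc : Continuous (𝓕 f) := Crest.Agent.R138.Fq665.continuous_fourier h1
  have key : ∫⁻ ζ, ‖gf J a f ζ‖ₑ ^ 2 ≤
      ∫⁻ ζ : E3 in {ζ | 1/2 < ζ 2}, ENNReal.ofReal (jac ζ) *
        (‖a (Ph J ζ)‖ₑ ^ 2 * ‖𝓕 f (Ph J ζ)‖ₑ ^ 2) := by
    rw [← lintegral_indicator (measurableSet_lt measurable_const (measurable_coord 2))]
    refine lintegral_mono fun ζ => ?_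
    by_cases hz : Aa J a ζ = 0
    · unfold gf
      rw [hz]
      simp
    · obtain ⟨r1, _, r3, _⟩ := h.Aa_reg hz
      have r0 : 1/2 < ζ 2 := by linarith
      rw [indicator_of_mem (show ζ ∈ {ζ : E3 | 1/2 < ζ 2} from r0)]
      unfold gf
      rw [h.Aa_eq r0, enorm_mul, mul_pow, enorm_mul, mul_pow]
      have e1 : ‖((jac ζ : ℝ) : ℂ)‖ₑ ^ 2 ≤ ENNReal.ofReal (jac ζ) := by
        rw [← ofReal_norm, Complex.norm_real, Real.norm_eq_abs, abs_of_pos (jac_pos ζ),
          ← ENNReal.ofReal_pow (jac_pos ζ).le]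
        apply ENNReal.ofReal_le_ofReal
        have := jac_le r1 r3
        nlinarith [jac_pos ζ]
      calc ‖a (Ph J ζ)‖ₑ ^ 2 * ‖((jac ζ : ℝ) : ℂ)‖ₑ ^ 2 * ‖𝓕 f (Ph J ζ)‖ₑ ^ 2
          ≤ ‖a (Ph J ζ)‖ₑ ^ 2 * ENNReal.ofReal (jac ζ) * ‖𝓕 f (Ph J ζ)‖ₑ ^ 2 := by gcongr
        _ = _ := by ring
  have hm : Measurable fun v : V => ‖a v‖ₑ ^ 2 * ‖𝓕 f v‖ₑ ^ 2 :=
    (h.cont.measurable.enorm.pow_const 2).mul (hFc.measurable.enorm.pow_const 2)
  rw [← cv_lint J (fun v => ‖a v‖ₑ ^ 2 * ‖𝓕 f v‖ₑ ^ 2) hm] at key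
  · refine key.trans ?_
    rw [← Crest.Agent.R138.Fq665.plancherel h1 h2, ← lintegral_const_mul _
      (hFc.measurable.enorm.pow_const 2)]
    refine lintegral_mono fun v => ?_
    simp only
    gcongr
    rw [← ofReal_norm, ← ENNReal.ofReal_pow (norm_nonneg _)]
    apply ENNReal.ofReal_le_ofReal
    exact pow_le_pow_left₀ (norm_nonneg _) (hL v) 2
  · intro x u hne
    have h3 : a (up J x u) ≠ 0 := by
      intro h0
      apply hne
      rw [h0]
      simp
    have := (up_bounds (h.supp _ h3)).2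
    rw [abs_le] at this
    linarith [this.1]

theorem Enc_nonneg (g : E3 → ℂ) : 0 ≤ Enc g := integral_nonneg fun _ => by positivity

end Crest.Agent.R116.Hx665
end

-- ▼ part R116/Hx3_665
section

/-!
# R116: space-time change of variables (helper665)
-/

set_option autoImplicit false

open MeasureTheory FourierTransform Set Filter
open scoped ContDiff ENNReal

namespace Crest.Agent.R116.Hx665

open Crest.Agent.R138.Defs (E2 ee)
open Crest.Agent.R138.Fq665 (PR up)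
open Crest.Agent.R138.Fr665 (cv)
open Crest.Agent.R116.Sh927 (V)
open Crest.Agent.R116.EB665 (Kt)
open Crest.Agent.R116.CDef480

variable {J : PR ≃ₗᵢ[ℝ] V} {a : V → ℂ}

/-- shear in the plane. -/
theorem shear2 {H : ℝ × ℝ → ℝ≥0∞} (hH : Measurable H) :
    ∫⁻ t : ℝ, ∫⁻ x : ℝ, H ((x + t) / 2, t - x) = ∫⁻ s : ℝ, ∫⁻ y : ℝ, H (y, s) := by
  have h1 : ∀ t : ℝ, ∫⁻ x : ℝ, H ((x + t) / 2, t - x) = ∫⁻ s : ℝ, H (t - s / 2, s) := by
    intro t
    rw [← lintegral_sub_left_eq_self (fun s => H (t - s / 2, s)) t]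
    refine lintegral_congr fun x => ?_
    congr 2
    ring
  simp only [h1]
  rw [lintegral_lintegral_swap]
  · refine lintegral_congr fun s => ?_
    exact lintegral_sub_right_eq_self (fun y => H (y, s)) (s / 2)
  · exact (hH.comp (by fun_prop)).aemeasurable

theorem shear4 {F : E3 × ℝ → ℝ≥0∞} (hF : Measurable F) :
    ∫⁻ t : ℝ, ∫⁻ p : E2 × ℝ, F (pt p.1 ((p.2 + t) / 2), t - p.2) = ∫⁻ q, F q := by
  have hpt : Continuous fun p : E2 × ℝ => pt p.1 p.2 := Crest.Agent.R138.Fq665.continuous_up J0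
  have c1 : Measurable fun q : ℝ × (E2 × ℝ) => F (pt q.2.1 ((q.2.2 + q.1) / 2), q.1 - q.2.2) := by
    refine hF.comp (Continuous.measurable ?_)
    exact (hpt.comp (by fun_prop : Continuous fun q : ℝ × (E2 × ℝ) =>
      (q.2.1, (q.2.2 + q.1) / 2))).prodMk (by fun_prop)
  have h1 : ∫⁻ t : ℝ, ∫⁻ p : E2 × ℝ, F (pt p.1 ((p.2 + t) / 2), t - p.2) =
      ∫⁻ t : ℝ, ∫⁻ x : E2, ∫⁻ u : ℝ, F (pt x ((u + t) / 2), t - u) := by
    refine lintegral_congr fun t => ?_
    have c0 : Measurable fun p : E2 × ℝ => F (pt p.1 ((p.2 + t) / 2), t - p.2) :=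
      c1.comp (measurable_const.prodMk measurable_id)
    rw [Measure.volume_eq_prod, lintegral_prod _ c0.aemeasurable]
  have h2 : ∫⁻ t : ℝ, ∫⁻ x : E2, ∫⁻ u : ℝ, F (pt x ((u + t) / 2), t - u) =
      ∫⁻ x : E2, ∫⁻ t : ℝ, ∫⁻ u : ℝ, F (pt x ((u + t) / 2), t - u) := by
    apply lintegral_lintegral_swap
    refine Measurable.aemeasurable ?_
    have c2 : Measurable fun q : (ℝ × E2) × ℝ => F (pt q.1.2 ((q.2 + q.1.1) / 2), q.1.1 - q.2) :=
      c1.comp (by fun_prop : Measurable fun q : (ℝ × E2) × ℝ => (q.1.1, (q.1.2, q.2)))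
    exact c2.lintegral_prod_right'
  have h3 : ∫⁻ x : E2, ∫⁻ t : ℝ, ∫⁻ u : ℝ, F (pt x ((u + t) / 2), t - u) =
      ∫⁻ x : E2, ∫⁻ s : ℝ, ∫⁻ y : ℝ, F (pt x y, s) := by
    refine lintegral_congr fun x => ?_
    have c3 : Measurable fun p : ℝ × ℝ => F (pt x p.1, p.2) :=
      hF.comp ((hpt.comp (by fun_prop : Continuous fun p : ℝ × ℝ => (x, p.1))).prodMk
        (by fun_prop)).measurable
    exact shear2 c3
  have h4 : ∫⁻ x : E2, ∫⁻ s : ℝ, ∫⁻ y : ℝ, F (pt x y, s) =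
      ∫⁻ s : ℝ, ∫⁻ x : E2, ∫⁻ y : ℝ, F (pt x y, s) := by
    apply lintegral_lintegral_swap
    have c2 : Measurable fun q : (E2 × ℝ) × ℝ => F (pt q.1.1 q.2, q.1.2) :=
      hF.comp ((hpt.comp (by fun_prop : Continuous fun q : (E2 × ℝ) × ℝ => (q.1.1, q.2))).prodMk
        (by fun_prop)).measurable
    exact c2.lintegral_prod_right'.aemeasurable
  rw [h1, h2, h3, h4, Measure.volume_eq_prod E3 ℝ, lintegral_prod_symm _ hF.aemeasurable]
  refine lintegral_congr fun s => ?_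
  have c4 : Measurable fun X : E3 => F (X, s) := hF.comp (by fun_prop)
  rw [lintegral_pt _ c4, Measure.volume_eq_prod, lintegral_prod]
  exact (c4.comp hpt.measurable).aemeasurable

theorem continuous_extc {g : E3 → ℂ} (hg : Integrable g) :
    Continuous fun p : E3 × ℝ => extc g p.1 p.2 := by
  unfold extc
  refine continuous_of_dominated (bound := fun ζ => ‖g ζ‖) ?_ ?_ hg.norm ?_
  · intro p
    refine hg.1.mul (Measurable.aestronglyMeasurable ?_)
    exact continuous_ee'.measurable.comp (by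
      have := measurable_hc
      fun_prop)
  · intro p
    refine Eventually.of_forall fun ζ => ?_
    rw [norm_mul, Crest.Agent.R138.Wpk685.norm_ee, mul_one]
  · refine Eventually.of_forall fun ζ => ?_
    exact continuous_const.mul (continuous_ee'.comp (by fun_prop))

theorem meas_cylc (R : ℝ) : MeasurableSet (cylc R) := by
  have h1 : IsClosed (cylc R) := by
    have e : cylc R = {p : E3 × ℝ | ‖p.1‖ ≤ R} ∩ {p | |p.2| ≤ R} := rfl
    rw [e]
    exact (isClosed_le (by fun_prop) (by fun_prop)).inter (isClosed_le (by fun_prop) (by fun_prop))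
  exact h1.measurableSet

/-- **space-time**. -/
theorem st_le (h : Pc J a) {f : V → ℂ} (hf : Integrable f) {R R1 : ℝ} (hR : 0 ≤ R)
    (hR1 : R ≤ R1) :
    ∫⁻ t in Icc (0 : ℝ) (2 * R), ∫⁻ v in Metric.closedBall (0 : V) R1,
        ‖cv (Kt a t) f v‖ₑ ^ 3 ≤
      ∫⁻ p in cylc (3 * R1), ‖extc (gf J a f) p.1 p.2‖ₑ ^ 3 := by
  have hcont := continuous_extc (h.gf_int hf)
  have hm : Measurable fun p : E3 × ℝ => ‖extc (gf J a f) p.1 p.2‖ₑ ^ 3 :=
    hcont.measurable.enorm.pow_const 3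
  rw [← lintegral_indicator (meas_cylc _), ← shear4 (hm.indicator (meas_cylc _)),
    ← lintegral_indicator measurableSet_Icc]
  refine lintegral_mono fun t => ?_
  by_cases ht : t ∈ Icc (0 : ℝ) (2 * R)
  · rw [indicator_of_mem ht, ← lintegral_indicator Metric.isClosed_closedBall.measurableSet,
      ← (Crest.Agent.R138.Fq665.mp_up J).lintegral_comp_emb
        (Crest.Agent.R138.Fq665.measurableEmbedding_up J)]
    refine lintegral_mono fun p => ?_
    simp only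
    by_cases hv : up J p.1 p.2 ∈ Metric.closedBall (0 : V) R1
    · rw [indicator_of_mem hv, cv_eq_extc h hf, indicator_of_mem]
      have h1 : ‖up J p.1 p.2‖ ≤ R1 := by simpa using hv
      have h2 := Crest.Agent.R138.Fq665.norm_up_sq J p.1 p.2
      have h3 : ‖up J p.1 p.2‖ ^ 2 ≤ R1 ^ 2 := pow_le_pow_left₀ (norm_nonneg _) h1 2
      have hR10 : 0 ≤ R1 := hR.trans hR1
      have h4 : ‖p.1‖ ≤ R1 := by
        apply abs_le_of_sq_le_sq' _ hR10 |>.2
        nlinarith [sq_nonneg p.2]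
      have h5 : |p.2| ≤ R1 := by
        apply abs_le_of_sq_le_sq _ hR10
        nlinarith [sq_nonneg ‖p.1‖]
      have h6 : |t| ≤ 2 * R := by rw [abs_of_nonneg ht.1]; exact ht.2
      constructor
      · simp only
        have h7 : ‖pt p.1 ((p.2 + t) / 2)‖ ^ 2 ≤ (3 * R1) ^ 2 := by
          rw [normsq3, lat_pt, pt_two]
          have h8 : |(p.2 + t) / 2| ≤ 3 * R1 / 2 := by
            rw [abs_div, abs_two]
            have := abs_add_le p.2 t
            linarith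
          have h9 : ((p.2 + t) / 2) ^ 2 ≤ (3 * R1 / 2) ^ 2 := by
            rw [← sq_abs ((p.2 + t) / 2)]
            exact pow_le_pow_left₀ (abs_nonneg _) h8 2
          nlinarith [norm_nonneg p.1]
        exact abs_le_of_sq_le_sq' h7 (by linarith) |>.2
      · simp only
        have := abs_sub t p.2
        linarith
    · rw [indicator_of_notMem hv]
      exact zero_le
  · rw [indicator_of_notMem ht]
    exact zero_le

end Crest.Agent.R116.Hx665
end

-- ▼ part R116/Hx4_665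
section

/-!
# R116: the packet kernels of the piece (helper665)
-/

set_option autoImplicit false

open MeasureTheory FourierTransform Set Filter
open scoped ContDiff ENNReal

namespace Crest.Agent.R116.Hx665

open Crest.Agent.R138.Defs (E2 ee)
open Crest.Agent.R138.Fq665 (PR up)
open Crest.Agent.R138.Wpk685 (win cen caps)
open Crest.Agent.R116.Sh927 (V)
open Crest.Agent.R116.CDef480
open Crest.Agent.R116.CWp480 (adjE Win ee_zero)
open Crest.Agent.R116.CWc480 (unif_win Pl adjE_Pl symm_Pl Pl_apply norm_pt_le lat_sub_eq ctr)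

variable {J : PR ≃ₗᵢ[ℝ] V} {a : V → ℂ}

/-- the window in the frame of the slope `C`. -/
noncomputable def Bw (J : PR ≃ₗᵢ[ℝ] V) (a : V → ℂ) (p : E2 × ℝ × ℝ) (w : E3) : ℂ :=
  win (rc (w 2) • lat w) * Aa J a (pt (w 2 • p.1 + p.2.1 • lat w) (w 2)) *
    ee (p.2.2 * (‖lat w‖ ^ 2 * rc (w 2) / 2))

theorem contDiff_pt : ContDiff ℝ ∞ (fun p : E2 × ℝ => pt p.1 p.2) :=
  Crest.Agent.R138.Fq665.contDiff_up J0

theorem Pc.Bw_smooth (h : Pc J a) :
    ContDiff ℝ ∞ (fun x : (E2 × ℝ × ℝ) × E3 => Bw J a x.1 x.2) := by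
  unfold Bw
  have h2 : ContDiff ℝ ∞ (fun x : (E2 × ℝ × ℝ) × E3 => x.2 2) := contDiff_two.comp contDiff_snd
  have hl : ContDiff ℝ ∞ (fun x : (E2 × ℝ × ℝ) × E3 => lat x.2) := contDiff_lat.comp contDiff_snd
  have h3 : ContDiff ℝ ∞ (fun x : (E2 × ℝ × ℝ) × E3 => x.1.1) := contDiff_fst.comp contDiff_fst
  have h4 : ContDiff ℝ ∞ (fun x : (E2 × ℝ × ℝ) × E3 => x.1.2.1) :=
    contDiff_fst.comp (contDiff_snd.comp contDiff_fst)
  have h5 : ContDiff ℝ ∞ (fun x : (E2 × ℝ × ℝ) × E3 => x.1.2.2) :=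
    contDiff_snd.comp (contDiff_snd.comp contDiff_fst)
  have hr := contDiff_rc.comp h2
  refine ((Crest.Agent.R138.Wpk685.win_contDiff.comp (hr.smul hl)).mul
    (h.contDiff_Aa.comp (contDiff_pt.comp (((h2.smul h3).add (h4.smul hl)).prodMk h2)))).mul
    (EB665.contDiff_ee.comp (h5.mul (((hl.norm_sq ℝ).mul hr).div_const 2)))

theorem Pc.Bw_zero (h : Pc J a) (p : E2 × ℝ × ℝ) {w : E3} (hw : 8 < ‖w‖) : Bw J a p w = 0 := by
  by_contra hc
  unfold Bw at hc
  have h1 := left_ne_zero_of_mul hc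
  have h2 := right_ne_zero_of_mul h1
  have h3 := left_ne_zero_of_mul h1
  obtain ⟨r1, r2, _, _⟩ := h.Aa_reg h2
  rw [pt_two] at r1 r2
  have h4 : ‖rc (w 2) • lat w‖ ≤ 71/50 := by
    by_contra hh
    exact h3 (Crest.Agent.R138.Wpk685.win_zero' (not_le.1 hh))
  rw [rc_eq (by linarith), norm_smul, norm_inv, Real.norm_eq_abs, abs_of_pos (by linarith),
    inv_mul_le_iff₀ (by linarith)] at h4
  have h5 : ‖lat w‖ ≤ 3 := by linarith
  have h6 := normsq3 w
  have h7 : ‖w‖ ^ 2 ≤ 8 ^ 2 := by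
    rw [h6]
    nlinarith [norm_nonneg (lat w)]
  have := abs_le_of_sq_le_sq' h7 (by norm_num) |>.2
  linarith

theorem adet_Pl {ρ : ℝ} (hρ : 0 < ρ) (C : E2) :
    Crest.Agent.R138.Wf448.adet (Pl ρ 1 hρ one_pos C : E3 →L[ℝ] E3) = ρ ^ 2 := by
  have e : ((Pl ρ 1 hρ one_pos C : E3 →L[ℝ] E3) : E3 →ₗ[ℝ] E3) =
      (Cad538.frc ρ 1 C : E3 →ₗ[ℝ] E3) := by
    ext1 X
    show Pl ρ 1 hρ one_pos C X = Cad538.frc ρ 1 C X
    rw [Pl_apply, Cad538.frc_apply]
    unfold nrm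
    congr 1
    ring
  unfold Crest.Agent.R138.Wf448.adet
  rw [e, Cad538.det_frc, mul_one, abs_of_pos (by positivity)]

/-- the piece of the cap in its frame. -/
theorem Pc.cap_Bw (h : Pc J a) {ρ : ℝ} (hρ : 0 < ρ) (C : E2) (s : ℝ) (ζ : E3) :
    Crest.Agent.R138.Wpk685.cap win C ρ (slp ζ) * Aa J a ζ * ee (s * hc ζ) =
      ee (inner ℝ (s • vel C) ζ) *
        CWp480.cap (Bw J a (C, ρ, s * ρ ^ 2)) 0 (Pl ρ 1 hρ one_pos C) ζ := by
  have e0 : ctr 0 C = 0 := by
    unfold ctr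
    ext i; fin_cases i <;> simp [pt]
  have e1 : (adjE (Pl ρ 1 hρ one_pos C)).symm (ζ - 0) = pt (ρ⁻¹ • (lat ζ - ζ 2 • C)) (ζ 2) := by
    have := symm_Pl hρ one_pos 0 C ζ
    rw [e0, sub_zero, div_one, sub_zero] at this
    rw [sub_zero]
    exact this
  unfold CWp480.cap
  rw [e1]
  unfold Bw
  simp only [pt_two, lat_pt]
  have e2 : ζ 2 • C + ρ • ρ⁻¹ • (lat ζ - ζ 2 • C) = lat ζ := by
    rw [smul_smul, mul_inv_cancel₀ hρ.ne', one_smul, add_sub_cancel]
  rw [e2, pt_lat]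
  by_cases hA : Aa J a ζ = 0
  · rw [hA]; simp
  obtain ⟨r1, r2, _, _⟩ := h.Aa_reg hA
  have hpos : 0 < ζ 2 := by linarith
  rw [rc_eq (by linarith)]
  have e3 : (ζ 2)⁻¹ • ρ⁻¹ • (lat ζ - ζ 2 • C) = ρ⁻¹ • (slp ζ - C) := by
    rw [lat_sub_eq hpos.ne', smul_comm, smul_smul (ζ 2)⁻¹, inv_mul_cancel₀ hpos.ne', one_smul]
  rw [e3]
  unfold Crest.Agent.R138.Wpk685.cap
  have e4 : s * hc ζ = inner ℝ (s • vel C) ζ +
      s * ρ ^ 2 * (‖ρ⁻¹ • (lat ζ - ζ 2 • C)‖ ^ 2 * (ζ 2)⁻¹ / 2) := by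
    rw [hc_split C hpos.ne', inner_smul_left, norm_smul, mul_pow, norm_inv, Real.norm_eq_abs,
      abs_of_pos hρ]
    simp only [conj_trivial]
    field_simp
  rw [e4, Crest.Agent.R138.Wpk685.ee_add]
  ring

theorem Pl_vel {ρ : ℝ} (hρ : 0 < ρ) (C : E2) (Y : E3) (s : ℝ) :
    Pl ρ 1 hρ one_pos C (Y + s • vel C) = pt (ρ • (lat Y + s • C)) (nrm C Y s) := by
  rw [Pl_apply]
  unfold vel nrm
  rw [lat_add, lat_smul, lat_pt, inner_add_right, inner_smul_right, real_inner_self_eq_norm_sq]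
  simp only [PiLp.add_apply, PiLp.smul_apply, smul_eq_mul, pt_two]
  congr 1
  ring

/-- packet kernel of the piece. -/
noncomputable def Kp (J : PR ≃ₗᵢ[ℝ] V) (a : V → ℂ) (C : E2) (ρ : ℝ) (Y : E3) (s : ℝ) : ℂ :=
  extc (fun ζ => Crest.Agent.R138.Wpk685.cap win C ρ (slp ζ) * Aa J a ζ) Y s

/-- **decay of the packet kernels**. -/
theorem Pc.ker (h : Pc J a) (N : ℕ) (L : ℝ) : ∃ Cn : ℝ, 0 ≤ Cn ∧ ∀ (ρ : ℝ), 0 < ρ → ρ ≤ 1 →
    ∀ (C : E2), ‖C‖ ≤ 8 → ∀ (Y : E3) (s : ℝ), |s| * ρ ^ 2 ≤ L →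
      ‖Kp J a C ρ Y s‖ ≤ Cn * ρ ^ 2 * ((1 + ‖pt (ρ • (lat Y + s • C)) (CDef480.nrm C Y s)‖) ^ N)⁻¹ := by
  have hK : IsCompact (Metric.closedBall (0:E2) 8 ×ˢ (Icc (0:ℝ) 1 ×ˢ Icc (-L) L)) :=
    (isCompact_closedBall _ _).prod (isCompact_Icc.prod isCompact_Icc)
  obtain ⟨Q, hQ0, hQ⟩ := unif_win (h.Bw_smooth) hK (fun p _ z hz => h.Bw_zero p hz) N
  obtain ⟨C1, hC1, hb⟩ := CWp480.Kf_bound E3 N
  refine ⟨C1 * Q, by positivity, ?_⟩
  intro ρ hρ hρ1 C hC Y s hs
  have hp : ((C, ρ, s * ρ ^ 2) : E2 × ℝ × ℝ) ∈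
      (Metric.closedBall (0:E2) 8 ×ˢ (Icc (0:ℝ) 1 ×ˢ Icc (-L) L)) := by
    refine ⟨by simpa using hC, ⟨hρ.le, hρ1⟩, ?_⟩
    have h1 : |s * ρ ^ 2| ≤ L := by
      rw [abs_mul, abs_of_nonneg (by positivity : (0:ℝ) ≤ ρ ^ 2)]
      exact hs
    exact ⟨(abs_le.1 h1).1, (abs_le.1 h1).2⟩
  have hw : Win N Q (Bw J a (C, ρ, s * ρ ^ 2)) := hQ _ hp
  have h1 := hb Q _ hw 0 (Pl ρ 1 hρ one_pos C) (Y + s • vel C)
  rw [adet_Pl, Pl_vel] at h1
  have h2 : Kp J a C ρ Y s = 𝓕⁻ (CWp480.cap (Bw J a (C, ρ, s * ρ ^ 2)) 0 (Pl ρ 1 hρ one_pos C))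
      (Y + s • vel C) := by
    unfold Kp extc
    rw [CWp480.fourierInv_eq_int]
    refine integral_congr_ae (Eventually.of_forall fun ζ => ?_)
    simp only
    rw [Crest.Agent.R138.Wpk685.ee_add, mul_comm (ee (inner ℝ Y ζ)), ← mul_assoc, h.cap_Bw hρ,
      inner_add_left, Crest.Agent.R138.Wpk685.ee_add]
    ring
  rw [h2]
  exact h1

end Crest.Agent.R116.Hx665
end

-- ▼ part R116/Hx5_665
section

/-!
# R116: packets of `gf` in physical form (helper665)
-/

set_option autoImplicit false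

open MeasureTheory FourierTransform Set Filter
open scoped ContDiff ENNReal

namespace Crest.Agent.R116.Hx665

open Crest.Agent.R138.Defs (E2 ee)
open Crest.Agent.R138.Fq665 (PR up)
open Crest.Agent.R138.Wpk685 (win cen caps)
open Crest.Agent.R116.Sh927 (V)
open Crest.Agent.R116.CDef480

variable {J : PR ≃ₗᵢ[ℝ] V} {a : V → ℂ}

/-- first component. -/
noncomputable def fx (J : PR ≃ₗᵢ[ℝ] V) (v : V) : E2 := (J.symm v).fst

/-- second component. -/
noncomputable def fu (J : PR ≃ₗᵢ[ℝ] V) (v : V) : ℝ := (J.symm v).snd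

theorem up_fx (v : V) : up J (fx J v) (fu J v) = v := (up_surj J v).symm

theorem fx_up (x : E2) (u : ℝ) : fx J (up J x u) = x := by
  unfold fx Crest.Agent.R138.Fq665.up
  simp

theorem fu_up (x : E2) (u : ℝ) : fu J (up J x u) = u := by
  unfold fu Crest.Agent.R138.Fq665.up
  simp

theorem continuous_fx : Continuous (fx J) :=
  (WithLp.prod_continuous_ofLp 2 E2 ℝ).fst.comp J.symm.continuous

theorem continuous_fu : Continuous (fu J) :=
  (WithLp.prod_continuous_ofLp 2 E2 ℝ).snd.comp J.symm.continuous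

theorem abs_fu_le (v : V) : |fu J v| ≤ ‖v‖ := by
  have h := Crest.Agent.R138.Fq665.norm_up_sq J (fx J v) (fu J v)
  rw [up_fx] at h
  apply abs_le_of_sq_le_sq _ (norm_nonneg _)
  nlinarith [sq_nonneg ‖fx J v‖]

/-- foot of `v`. -/
noncomputable def Pt (J : PR ≃ₗᵢ[ℝ] V) (v : V) : E3 := pt (fx J v) (fu J v / 2)

/-- the cap times the amplitude. -/
noncomputable def cA (J : PR ≃ₗᵢ[ℝ] V) (a : V → ℂ) (C : E2) (ρ : ℝ) (ζ : E3) : ℂ :=
  Crest.Agent.R138.Wpk685.cap win C ρ (slp ζ) * Aa J a ζ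

theorem Pc.cA_int (h : Pc J a) (C : E2) (ρ : ℝ) : Integrable (cA J a C ρ) := by
  have h1 : Integrable (Aa J a) := h.contDiff_Aa.continuous.integrable_of_hasCompactSupport h.hcs_Aa
  refine h1.bdd_mul (c := 1) ?_ (Eventually.of_forall fun ζ => ?_)
  · have h2 : Continuous (fun ξ : E2 => Crest.Agent.R138.Wpk685.cap win C ρ ξ) := by
      unfold Crest.Agent.R138.Wpk685.cap
      exact Crest.Agent.R138.Wpk685.win_contDiff.continuous.comp (by fun_prop)
    exact (h2.measurable.comp measurable_slp).aestronglyMeasurable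
  · exact Crest.Agent.R138.Wpk685.norm_win_le _

theorem umc_eq (h : Pc J a) {f : V → ℂ} (hf : Integrable f) (ρ : ℝ) (k : ℤ × ℤ) (X : E3) :
    umc ρ (gf J a f) k X = ∫ v, f v * Kp J a (cen ρ k) ρ (X - Pt J v) (fu J v) := by
  unfold umc
  rw [CWp480.fourierInv_eq_int]
  have e1 : ∀ ζ, capc ρ k ζ * gf J a f ζ * ee (inner ℝ X ζ) =
      ∫ v, cA J a (cen ρ k) ρ ζ * ee (inner ℝ X ζ) * (f v * ee (-inner ℝ v (Ph J ζ))) := by
    intro ζ
    rw [integral_const_mul, ← Crest.Agent.R138.Fq665.fourier_eq_ee]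
    unfold gf capc cA
    ring
  simp only [e1]
  rw [integral_integral_swap]
  · refine integral_congr_ae (Eventually.of_forall fun v => ?_)
    simp only
    unfold Kp extc
    rw [← integral_const_mul]
    refine integral_congr_ae (Eventually.of_forall fun ζ => ?_)
    simp only
    by_cases hA : Aa J a ζ = 0
    · unfold cA
      rw [hA]; simp
    · obtain ⟨r1, _, _, _⟩ := h.Aa_reg hA
      have e2 : inner ℝ v (Ph J ζ) = inner ℝ (Pt J v) ζ - fu J v * hc ζ := by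
        conv_lhs => rw [← up_fx (J := J) v]
        rw [inner_Ph J (by linarith)]
        rfl
      rw [e2]
      have e3 : inner ℝ (X - Pt J v) ζ + fu J v * hc ζ = inner ℝ X ζ +
          -(inner ℝ (Pt J v) ζ - fu J v * hc ζ) := by
        rw [inner_sub_left]; ring
      rw [e3, Crest.Agent.R138.Wpk685.ee_add]
      unfold cA
      ring
  · have h1 : Integrable (fun ζ => cA J a (cen ρ k) ρ ζ * ee (inner ℝ X ζ)) := by
      refine (h.cA_int _ ρ).mul_bdd (c := 1) ?_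
        (Eventually.of_forall fun ζ => (Crest.Agent.R138.Wpk685.norm_ee _).le)
      exact (continuous_ee'.comp (by fun_prop)).aestronglyMeasurable
    have h2 : Integrable (fun p : E3 × V => cA J a (cen ρ k) ρ p.1 * ee (inner ℝ X p.1) * f p.2)
        (volume.prod volume) := h1.mul_prod hf
    have h3 : AEStronglyMeasurable (fun p : E3 × V => ee (-inner ℝ p.2 (Ph J p.1)))
        (volume.prod volume) := by
      have := (contDiff_Ph J).continuous
      exact (continuous_ee'.comp (by fun_prop)).aestronglyMeasurable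
    have h4 := h2.mul_bdd (c := 1) h3
      (Eventually.of_forall fun p => (Crest.Agent.R138.Wpk685.norm_ee _).le)
    refine h4.congr (Eventually.of_forall fun p => ?_)
    simp only [Function.uncurry]
    ring

/-- the size of a point in the frame of the packet. -/
noncomputable def siz (J : PR ≃ₗᵢ[ℝ] V) (C : E2) (ρ : ℝ) (X : E3) (v : V) : ℝ :=
  ‖pt (ρ • (lat (X - Pt J v) + fu J v • C)) (nrm C (X - Pt J v) (fu J v))‖

/-- **tail bound**. -/
theorem Pc.umc_tail (h : Pc J a) (N : ℕ) : ∃ Cn : ℝ, 0 ≤ Cn ∧ ∀ (ρ R H : ℝ), 0 < ρ → ρ ≤ 1 →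
    0 ≤ R → R * ρ ^ 2 ≤ 1 → 0 < H → ∀ (f : V → ℂ), Measurable f → (∀ v, ‖f v‖ ≤ 1) →
    (∀ v, f v ≠ 0 → ‖v‖ ≤ R) → ∀ k : ℤ × ℤ, ‖cen ρ k‖ ≤ 8 → ∀ X : E3,
    (∀ v, f v ≠ 0 → H ≤ siz J (cen ρ k) ρ X v) →
      ‖umc ρ (gf J a f) k X‖ₑ ≤ ENNReal.ofReal (Cn * (H ^ N)⁻¹ * R ^ 3) := by
  obtain ⟨Cn, hCn, hk⟩ := h.ker N 1
  set vb : ℝ := (volume (Metric.closedBall (0:V) 1)).toReal with hvb
  refine ⟨Cn * vb, by positivity, ?_⟩
  intro ρ R H hρ hρ1 hR hRρ hH f hfm hf1 hfs k hck X hX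
  have hball : volume (Metric.closedBall (0:V) R) = ENNReal.ofReal (R ^ 3 * vb) := by
    rw [Measure.addHaar_closedBall' _ _ hR, ENNReal.ofReal_mul (by positivity), hvb,
      ENNReal.ofReal_toReal measure_closedBall_lt_top.ne]
    congr 3
    simp
  have hfi : Integrable f := by
    have hfb : f = (Metric.closedBall (0:V) R).indicator f := by
      ext v
      by_cases hv : v ∈ Metric.closedBall (0:V) R
      · rw [indicator_of_mem hv]
      · rw [indicator_of_notMem hv]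
        by_contra h0
        exact hv (by simpa using hfs v h0)
    rw [hfb, integrable_indicator_iff Metric.isClosed_closedBall.measurableSet]
    haveI : IsFiniteMeasure (volume.restrict (Metric.closedBall (0:V) R)) :=
      ⟨by rw [Measure.restrict_apply_univ]; exact measure_closedBall_lt_top⟩
    exact Integrable.of_bound hfm.aestronglyMeasurable 1 (Eventually.of_forall hf1)
  rw [umc_eq h hfi]
  refine (enorm_integral_le_lintegral_enorm _).trans ?_
  have hpt : ∀ v, ‖f v * Kp J a (cen ρ k) ρ (X - Pt J v) (fu J v)‖ₑ ≤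
      (Metric.closedBall (0:V) R).indicator (fun _ => ENNReal.ofReal (Cn * (H ^ N)⁻¹)) v := by
    intro v
    by_cases h0 : f v = 0
    · rw [h0, zero_mul, enorm_zero]
      exact zero_le
    · have hv := hfs v h0
      rw [indicator_of_mem (by simpa using hv), ← ofReal_norm]
      apply ENNReal.ofReal_le_ofReal
      rw [norm_mul]
      have h1 : |fu J v| * ρ ^ 2 ≤ 1 := by
        refine le_trans ?_ hRρ
        gcongr
        exact (abs_fu_le v).trans hv
      have h2 := hk ρ hρ hρ1 (cen ρ k) hck (X - Pt J v) (fu J v) h1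
      have h3 := hX v h0
      have h4 : ((1 + siz J (cen ρ k) ρ X v) ^ N)⁻¹ ≤ (H ^ N)⁻¹ := by
        apply inv_anti₀ (by positivity)
        apply pow_le_pow_left₀ hH.le
        linarith
      have h5 : ρ ^ 2 ≤ 1 := pow_le_one₀ hρ.le hρ1
      have h6 : 0 ≤ siz J (cen ρ k) ρ X v := norm_nonneg _
      have h7 : 0 ≤ ((1 + siz J (cen ρ k) ρ X v) ^ N)⁻¹ := by positivity
      calc ‖f v‖ * ‖Kp J a (cen ρ k) ρ (X - Pt J v) (fu J v)‖
          ≤ 1 * (Cn * ρ ^ 2 * ((1 + siz J (cen ρ k) ρ X v) ^ N)⁻¹) := by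
            apply mul_le_mul (hf1 v) h2 (norm_nonneg _) zero_le_one
        _ ≤ 1 * (Cn * 1 * (H ^ N)⁻¹) := by gcongr
        _ = Cn * (H ^ N)⁻¹ := by ring
  refine (lintegral_mono hpt).trans ?_
  rw [lintegral_indicator Metric.isClosed_closedBall.measurableSet, lintegral_const,
    Measure.restrict_apply_univ, hball, ← ENNReal.ofReal_mul (by positivity)]
  apply ENNReal.ofReal_le_ofReal
  apply le_of_eq
  ring

end Crest.Agent.R116.Hx665
end

-- ▼ part R116/Hx6_665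
section

/-!
# R116: geometry: rays of the box near `v` put `v` in the dilated member (helper665)
-/

set_option autoImplicit false

open MeasureTheory FourierTransform Set Filter
open scoped ContDiff ENNReal

namespace Crest.Agent.R116.Hx665

open Crest.Agent.R138.Defs (E2 ee)
open Crest.Agent.R138.Fq665 (PR up)
open Crest.Agent.R138.Wpk685 (win cen caps)
open Crest.Agent.R116.Sh927 (V)
open Crest.Agent.R116.CDef480
open Crest.Agent.R116.LZg725 (Cf InK)

variable {J : PR ≃ₗᵢ[ℝ] V}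

/-- the dilated member in the section. -/
def Ud (J : PR ≃ₗᵢ[ℝ] V) (c : E2) (K s1 s2 T R : ℝ) (X0 : E3) (p : Cf E2) : Set V :=
  {v | InK c (K * s2) (K ^ 2 * T) (K * R) (lat X0) (X0 2) 0 (fx J v) (fu J v / 2) (-fu J v) ∧
    |p.ev (fx J v) (fu J v / 2) (-fu J v)| ≤ K * s1 * (K * R)}


theorem nu1 {M H : ℝ} (hM : 1 ≤ M) (hH : 1 ≤ H) : 1 ≤ 8 * M * H ∧
    2 + H ≤ 8 * M * H * (8 * M * H) ∧ 2 + 2 * H ≤ (8 * M * H) ^ 2 * (8 * M * H) ∧
    2 + (1 + 2 * M) * H + M * H + M / 2 * H ^ 2 + M * H ≤ 64 * M ^ 2 * H ^ 2 := by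
  have h1 : 8 * H ≤ 8 * M * H := by nlinarith
  have h2 : 1 ≤ 8 * M * H := by linarith
  have h3 : 8 * M * H ≤ 8 * M * H * (8 * M * H) := by nlinarith
  have h4 : 8 * M * H ≤ (8 * M * H) ^ 2 * (8 * M * H) := by
    have : 1 ≤ (8 * M * H) ^ 2 := one_le_pow₀ h2
    nlinarith
  refine ⟨h2, by linarith, by linarith, ?_⟩
  have q1 : H ≤ H ^ 2 := by nlinarith
  have q3 : M * H ≤ M * H ^ 2 := by gcongr
  have q2 : M ≤ M ^ 2 := by nlinarith
  have q4 : M * H ^ 2 ≤ M ^ 2 * H ^ 2 := by gcongr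
  have q6 : 1 ≤ M ^ 2 := one_le_pow₀ hM
  have q5 : H ^ 2 ≤ M ^ 2 * H ^ 2 := by nlinarith [sq_nonneg H]
  nlinarith

theorem nu2 {R T s1 s2 H : ℝ} (hR : 0 < R) (hH : 0 ≤ H) (h1 : 0 < s1) (h12 : s1 ≤ s2)
    (hT : s2 ^ 2 ≤ T) :
    s2 * (H * (s1 * R)) ≤ H * (T * R) ∧ R * s2 ^ 2 / 2 ≤ T * R := by
  have h2 : s2 * s1 ≤ T := by nlinarith
  have hT0 : 0 ≤ T := (sq_nonneg s2).trans hT
  refine ⟨?_, ?_⟩
  · calc s2 * (H * (s1 * R)) = (s2 * s1) * (H * R) := by ring
      _ ≤ T * (H * R) := by gcongr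
      _ = _ := by ring
  · have h3 : R * s2 ^ 2 ≤ R * T := by gcongr
    have h4 : 0 ≤ R * T := by positivity
    linarith

theorem pos_of {ρ R : ℝ} (h : ρ ^ 2 * R = 1) : 0 < R := by
  by_contra hc
  push Not at hc
  nlinarith [sq_nonneg ρ]

theorem h_le {H T R : ℝ} (hH : 0 ≤ H) (h : 1 ≤ T * R) : H ≤ H * (T * R) := by nlinarith

theorem k_le {K R : ℝ} (hR : 0 ≤ R) (h : 1 ≤ K) : R ≤ K * R := by nlinarith

section bounds

variable {M s1 s2 T R : ℝ} {c : E2} {X0 : E3} {p : Cf E2}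

theorem ny_aff (p : Cf E2) {B : ℝ} (hR : 0 < R) (h : ∀ s, |s| ≤ R → |p.ny s| ≤ B) :
    2 * |p.d| * R ≤ B ∧ ∀ K s, 1 ≤ K → |s| ≤ K * R → |p.ny s| ≤ 2 * K * B := by
  have h1 := h R (by rw [abs_of_pos hR])
  have h2 := h (-R) (by rw [abs_neg, abs_of_pos hR])
  have h0 := h 0 (by rw [abs_zero]; exact hR.le)
  have e : p.ny (-R) - p.ny R = 4 * p.d * R := by unfold Cf.ny; ring
  have h3 : |4 * p.d * R| ≤ |p.ny (-R)| + |p.ny R| := by
    rw [← e]; exact abs_sub _ _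
  rw [abs_mul, abs_mul, abs_of_pos hR, abs_of_pos (by norm_num : (0:ℝ) < 4)] at h3
  have h4 : 2 * |p.d| * R ≤ B := by linarith
  refine ⟨h4, fun K s hK hs => ?_⟩
  have hB : 0 ≤ B := (abs_nonneg _).trans h0
  have e2 : p.ny s = p.ny 0 + -(2 * p.d * s) := by unfold Cf.ny; ring
  rw [e2]
  refine (abs_add_le _ _).trans ?_
  rw [abs_neg, abs_mul, abs_mul, abs_two]
  have h5 : 2 * |p.d| * |s| ≤ 2 * |p.d| * (K * R) := by gcongr
  have h6 : 2 * |p.d| * (K * R) = K * (2 * |p.d| * R) := by ring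
  have h7 : K * (2 * |p.d| * R) ≤ K * B := by gcongr
  nlinarith

/-- the dilated member is admissible. -/
theorem adm_dil (hM : 0 ≤ M) (hR : 0 < R) (hs2 : 0 < s2) (hT : 0 < T) {κ : ℝ}
    (h : WC188.Adm M κ s1 s2 T R c X0 p) {K : ℝ} (hK : 1 ≤ K) :
    LZg725.Adm (2 * K ^ 2 * M) c (K * s2) (K ^ 2 * T) (K * R) (lat X0) (X0 2) 0 p := by
  have hK0 : 0 ≤ K := zero_le_one.trans hK
  have hK2 : 1 ≤ K ^ 2 := one_le_pow₀ hK
  refine ⟨h.disc, fun s hs => ?_, ?_, ?_⟩
  · rw [sub_zero] at hs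
    have h1 := (ny_aff p hR h.ny).2 K s hK hs
    calc |p.ny s| * (K ^ 2 * T) ≤ (2 * K * (M * s2 / T)) * (K ^ 2 * T) := by gcongr
      _ = 2 * K ^ 2 * M * (K * s2) := by field_simp
  · refine h.ld.trans ?_
    have h1 : 0 ≤ M * s2 := by positivity
    nlinarith [mul_le_mul hK2 hK zero_le_one (by positivity)]
  · refine h.ev.trans ?_
    have h1 : 0 ≤ M * s2 * R := by positivity
    have h2 : 1 ≤ 2 * K ^ 2 * K * K := by
      nlinarith [mul_le_mul hK2 hK2 zero_le_one (by positivity)]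
    calc M * s2 * R = 1 * (M * s2 * R) := by ring
      _ ≤ (2 * K ^ 2 * K * K) * (M * s2 * R) := by gcongr
      _ = _ := by ring

/-- **GEO**. -/
theorem geo (hM : 1 ≤ M) {ρ H : ℝ} (hρ : 0 < ρ) (hρR : ρ ^ 2 * R = 1) (hH : 1 ≤ H) (h1ρ : ρ ≤ s1)
    (h12 : s1 ≤ s2) (hT : s2 ^ 2 ≤ T) (hTR : 1 ≤ T * R)
    (h : WC188.Adm M 1 s1 s2 T R c X0 p) {C : E2} {X : E3}
    (hX : X ∈ WC188.mset s2 T R s1 c X0 p C) {v : V} (hv : ‖v‖ ≤ R)
    (hs : siz J C ρ X v ≤ H) : v ∈ Ud J c (8 * M * H) s1 s2 T R X0 p := by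
  obtain ⟨m1, m2, m3, m4, m5⟩ := hX
  have hR : 0 < R := pos_of hρR
  have hs1 : 0 < s1 := hρ.trans_le h1ρ
  have hs2 : 0 < s2 := hs1.trans_le h12
  have hT0 : 0 < T := (by positivity : 0 < s2 ^ 2).trans_le hT
  set u := fu J v with hu
  set x := fx J v with hx
  have hu1 : |u| ≤ R := (abs_fu_le v).trans hv
  set w : E2 := lat X - x + u • C with hw
  set n : ℝ := nrm C X 0 - nrm C (Pt J v) (-u) with hn
  have hlat : lat (X - Pt J v) + u • C = w := by
    rw [lat_sub]; unfold Pt; rw [lat_pt]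
  have hnn : nrm C (X - Pt J v) u = n := by
    rw [hn]
    unfold nrm
    rw [lat_sub, inner_sub_right, PiLp.sub_apply]
    ring
  have hsz := hs
  unfold siz at hsz
  rw [← hu, hlat, hnn] at hsz
  have hw1 : ρ * ‖w‖ ≤ H := by
    have := CWc480.norm_lat_le (pt (ρ • w) n)
    rw [lat_pt, norm_smul, Real.norm_eq_abs, abs_of_pos hρ] at this
    linarith
  have hn1 : |n| ≤ H := by
    have := CWc480.abs_two_le (pt (ρ • w) n)
    rw [pt_two] at this
    linarith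
  have hw2 : ‖w‖ ≤ H * (ρ * R) := by
    have h1 : ‖w‖ = (ρ * ‖w‖) * (ρ * R) := by
      calc ‖w‖ = ‖w‖ * 1 := by ring
        _ = ‖w‖ * (ρ ^ 2 * R) := by rw [hρR]
        _ = _ := by ring
    rw [h1]
    gcongr
  have hρR1 : ρ * R ≤ s1 * R := by gcongr
  have hw3 : ‖w‖ ≤ H * (s1 * R) := hw2.trans (by gcongr)
  -- points
  have hPl : lat (Pt J v) = x := by unfold Pt; rw [lat_pt]
  have hP2 : (Pt J v) 2 = u / 2 := by unfold Pt; rw [pt_two]
  have hM0 : 0 < M := by linarith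
  obtain ⟨hK1, n2, n3, n4⟩ := nu1 hM hH
  have hH0 : 0 < H := by linarith
  refine ⟨⟨?_, ?_, ?_⟩, ?_⟩
  · rw [sub_zero, abs_neg]
    exact hu1.trans (k_le hR.le hK1)
  · -- lateral
    have e : x - lat X0 + (-u - 0) • c = (lat X - lat X0) + u • (C - c) - w := by
      rw [hw]
      module
    rw [e]
    have h1 : ‖u • (C - c)‖ ≤ R * s2 := by
      rw [norm_smul, Real.norm_eq_abs]
      gcongr
    have h2 : ‖w‖ ≤ H * (s2 * R) := hw3.trans (by gcongr)
    have h3 := norm_sub_le ((lat X - lat X0) + u • (C - c)) w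
    have h4 := norm_add_le (lat X - lat X0) (u • (C - c))
    have h5 : 0 < s2 * R := by positivity
    have h6 : (2 + H) * (s2 * R) ≤ (8 * M * H * (8 * M * H)) * (s2 * R) :=
      mul_le_mul_of_nonneg_right n2 h5.le
    calc _ ≤ (2 + H) * (s2 * R) := by linarith
      _ ≤ _ := h6
      _ = _ := by ring
  · -- normal
    have e : LZg725.nrm c x (u / 2) (-u) - LZg725.nrm c (lat X0) (X0 2) 0 =
        (nrm c X 0 - nrm c X0 0) - n + inner ℝ (c - C) (-w) +
          u * (inner ℝ (c - C) (C - c)) / 2 := by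
      rw [hn]
      unfold LZg725.nrm nrm
      rw [hPl, hP2, hw]
      simp only [inner_sub_left, inner_sub_right, inner_neg_right, inner_add_right,
        inner_smul_right, real_inner_self_eq_norm_sq, real_inner_comm c C]
      ring
    rw [e]
    have hcC : ‖c - C‖ ≤ s2 := by rw [norm_sub_rev]; exact m1
    have h1 : |inner ℝ (c - C) (-w)| ≤ s2 * (H * (s1 * R)) := by
      refine (abs_real_inner_le_norm _ _).trans ?_
      rw [norm_neg]
      gcongr
    have h2 : |u * (inner ℝ (c - C) (C - c)) / 2| ≤ R * s2 ^ 2 / 2 := by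
      rw [abs_div, abs_mul, abs_two]
      have h3 : |inner ℝ (c - C) (C - c)| ≤ s2 * s2 := by
        refine (abs_real_inner_le_norm _ _).trans ?_
        gcongr
      have h4 : |u| * |inner ℝ (c - C) (C - c)| ≤ R * (s2 * s2) := by gcongr
      rw [pow_two]
      linarith
    obtain ⟨h5, h6⟩ := nu2 hR hH0.le hs1 h12 hT
    have h7 := abs_add_le ((nrm c X 0 - nrm c X0 0) - n + inner ℝ (c - C) (-w))
      (u * (inner ℝ (c - C) (C - c)) / 2)
    have h8 := abs_add_le ((nrm c X 0 - nrm c X0 0) - n) (inner ℝ (c - C) (-w))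
    have h9 := abs_sub (nrm c X 0 - nrm c X0 0) n
    have h10 : H ≤ H * (T * R) := h_le hH0.le hTR
    have h11 : (2 + 2 * H) * (T * R) ≤ ((8 * M * H) ^ 2 * (8 * M * H)) * (T * R) :=
      mul_le_mul_of_nonneg_right n3 (by positivity)
    calc _ ≤ (2 + 2 * H) * (T * R) := by linarith
      _ ≤ _ := h11
      _ = _ := by ring
  · -- value
    have hny := ny_aff p hR h.cmp
    have e := LZg725.Cf.ev_expand p C (lat X) (X 2) 0 x (u / 2) (-u)
    have e1 : (x - lat X) + (-u - 0) • C = -w := by rw [hw]; module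
    have e2 : LZg725.nrm C x (u / 2) (-u) - LZg725.nrm C (lat X) (X 2) 0 = -n := by
      rw [hn]
      unfold LZg725.nrm nrm
      rw [hPl, hP2]
      ring
    rw [e1, e2] at e
    rw [e]
    have g1 := LZg725.gr_sq_near (m := 1) (C := C) (x := lat X) (y := X 2) (s := 0) hR hs2 hT
      hM0.le zero_le_one h.disc
      (by
        have := h.ny 0 (by rw [abs_zero]; exact hR.le)
        rwa [le_div_iff₀ hT0] at this)
      (by
        have := (ny_aff p hR h.ny).1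
        calc 2 * |p.d| * (T * R) = (2 * |p.d| * R) * T := by ring
          _ ≤ (M * s2 / T) * T := by gcongr
          _ = M * s2 := by field_simp)
      (by linarith)
      (by
        rw [one_mul]
        exact m4.trans (by gcongr))
    rw [mul_one] at g1
    have g2 := LZg725.norm_le_of_sq_near hM0.le g1
    have t1 : |inner ℝ (p.gr C (lat X) 0) (-w)| ≤ (1 + 2 * M) * (H * (s1 * R)) := by
      refine (abs_real_inner_le_norm _ _).trans ?_
      rw [norm_neg]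
      gcongr
    have t2 : |p.ny 0 * (-n)| ≤ (M * (s1 * R)) * H := by
      rw [abs_mul, abs_neg]
      have := h.cmp 0 (by rw [abs_zero]; exact hR.le)
      rw [one_mul] at this
      gcongr
    have hd : 2 * |p.d| * R ≤ M * (s1 * R) := by
      have := hny.1
      rwa [one_mul] at this
    have hd2 : 2 * |p.d| ≤ M * s1 := by
      have h1 : 2 * |p.d| * R ≤ M * s1 * R := by linarith
      exact le_of_mul_le_mul_right h1 hR
    have t3 : |p.d * (‖-w‖ ^ 2 - 2 * (-u - 0) * (-n))| ≤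
        M * s1 / 2 * (H ^ 2 * R) + M * (s1 * R) * H := by
      rw [abs_mul]
      have h1 : |‖-w‖ ^ 2 - 2 * (-u - 0) * (-n)| ≤ H ^ 2 * R + 2 * R * H := by
        refine (abs_sub _ _).trans ?_
        rw [norm_neg, abs_of_nonneg (by positivity : 0 ≤ ‖w‖ ^ 2), abs_mul, abs_mul, abs_two,
          abs_neg, sub_zero, abs_neg]
        have h2 : ‖w‖ ^ 2 ≤ H ^ 2 * R := by
          calc ‖w‖ ^ 2 ≤ (H * (ρ * R)) ^ 2 := by gcongr
            _ = H ^ 2 * (ρ ^ 2 * R) * R := by ring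
            _ = H ^ 2 * R := by rw [hρR, mul_one]
        have h3 : 2 * |u| * |n| ≤ 2 * R * H := by gcongr
        linarith
      calc |p.d| * |‖-w‖ ^ 2 - 2 * (-u - 0) * (-n)| ≤ |p.d| * (H ^ 2 * R + 2 * R * H) := by gcongr
        _ = (2 * |p.d|) * (H ^ 2 * R / 2 + R * H) := by ring
        _ ≤ (M * s1) * (H ^ 2 * R / 2 + R * H) := by gcongr
        _ = _ := by ring
    have t4 : |p.ld C (lat X) (X 2) 0 * (-u - 0)| ≤ s1 * R := by
      rw [abs_mul, sub_zero, abs_neg]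
      gcongr
    have u1 := abs_add_le (p.ev (lat X) (X 2) 0 + p.ld C (lat X) (X 2) 0 * (-u - 0) +
      inner ℝ (p.gr C (lat X) 0) (-w) + p.ny 0 * (-n)) (p.d * (‖-w‖ ^ 2 - 2 * (-u - 0) * (-n)))
    have u2 := abs_add_le (p.ev (lat X) (X 2) 0 + p.ld C (lat X) (X 2) 0 * (-u - 0) +
      inner ℝ (p.gr C (lat X) 0) (-w)) (p.ny 0 * (-n))
    have u3 := abs_add_le (p.ev (lat X) (X 2) 0 + p.ld C (lat X) (X 2) 0 * (-u - 0))
      (inner ℝ (p.gr C (lat X) 0) (-w))
    have u4 := abs_add_le (p.ev (lat X) (X 2) 0) (p.ld C (lat X) (X 2) 0 * (-u - 0))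
    have hsR : 0 < s1 * R := by positivity
    have fin : s1 * R * (2 + (1 + 2 * M) * H + M * H + M / 2 * H ^ 2 + M * H) ≤
        s1 * R * (64 * M ^ 2 * H ^ 2) := mul_le_mul_of_nonneg_left n4 hsR.le
    calc _ ≤ s1 * R * (2 + (1 + 2 * M) * H + M * H + M / 2 * H ^ 2 + M * H) := by linarith
      _ ≤ _ := fin
      _ = _ := by ring

end bounds

end Crest.Agent.R116.Hx665
end

-- ▼ part R116/Hx7_665
section

/-!
# R116: box bound of `gf` for bounded functions (helper665)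
-/

set_option autoImplicit false

open MeasureTheory FourierTransform Set Filter
open scoped ContDiff ENNReal

namespace Crest.Agent.R116.Hx665

open Crest.Agent.R138.Defs (E2 ee)
open Crest.Agent.R138.Fq665 (PR up)
open Crest.Agent.R138.Wpk685 (win cen caps)
open Crest.Agent.R116.Sh927 (V)
open Crest.Agent.R116.CDef480
open Crest.Agent.R116.LZg725 (Cf InK)

variable {J : PR ≃ₗᵢ[ℝ] V} {a : V → ℂ}

theorem sq_add_le (x y : ℝ≥0∞) : (x + y) ^ 2 ≤ 4 * (x ^ 2 + y ^ 2) := by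
  have h1 : x + y ≤ 2 * max x y := by
    rw [two_mul]
    exact add_le_add (le_max_left _ _) (le_max_right _ _)
  have h2 : (max x y) ^ 2 ≤ x ^ 2 + y ^ 2 := by
    rcases le_total x y with h | h
    · rw [max_eq_right h]; exact le_add_self
    · rw [max_eq_left h]; exact le_self_add
  calc (x + y) ^ 2 ≤ (2 * max x y) ^ 2 := by gcongr
    _ = 4 * (max x y) ^ 2 := by rw [mul_pow]; norm_num
    _ ≤ _ := by gcongr

theorem meas_Ud (c : E2) (K s1 s2 T R : ℝ) (X0 : E3) (p : Cf E2) :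
    MeasurableSet (Ud J c K s1 s2 T R X0 p) := by
  have hx : Continuous (fx J) := continuous_fx
  have hu : Continuous (fu J) := continuous_fu
  have h1 : IsClosed {v : V | |-fu J v - 0| ≤ K * R} :=
    isClosed_le (by fun_prop) continuous_const
  have h2 : IsClosed {v : V | ‖(fx J v - lat X0) + (-fu J v - 0) • c‖ ≤ K * s2 * (K * R)} :=
    isClosed_le (by fun_prop) continuous_const
  have h3 : IsClosed {v : V | |LZg725.nrm c (fx J v) (fu J v / 2) (-fu J v) -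
      LZg725.nrm c (lat X0) (X0 2) 0| ≤ K ^ 2 * T * (K * R)} := by
    refine isClosed_le ?_ continuous_const
    unfold LZg725.nrm
    fun_prop
  have h4 : IsClosed {v : V | |p.ev (fx J v) (fu J v / 2) (-fu J v)| ≤ K * s1 * (K * R)} := by
    refine isClosed_le ?_ continuous_const
    unfold LZg725.Cf.ev
    fun_prop
  have e : Ud J c K s1 s2 T R X0 p = ({v : V | |-fu J v - 0| ≤ K * R} ∩
      ({v : V | ‖(fx J v - lat X0) + (-fu J v - 0) • c‖ ≤ K * s2 * (K * R)} ∩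
      {v : V | |LZg725.nrm c (fx J v) (fu J v / 2) (-fu J v) -
      LZg725.nrm c (lat X0) (X0 2) 0| ≤ K ^ 2 * T * (K * R)})) ∩
      {v : V | |p.ev (fx J v) (fu J v / 2) (-fu J v)| ≤ K * s1 * (K * R)} := rfl
  rw [e]
  exact ((h1.inter (h2.inter h3)).inter h4).measurableSet

theorem vol_Ud {M κ s1 s2 T R : ℝ} {c : E2} {X0 : E3} {p : Cf E2} (hM : 1 ≤ M) (hc : ‖c‖ ≤ 8)
    (hs1 : 0 < s1) (h12 : s1 ≤ s2) (hT : s2 ^ 2 ≤ T) (hR : 0 < R)
    (h : WC188.Adm M κ s1 s2 T R c X0 p) {K : ℝ} (hK : 1 ≤ K) :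
    volume (Ud J c K s1 s2 T R X0 p) ≤
      ENNReal.ofReal (32000 * M * K ^ 9 * (s1 * s2 * T * R ^ 3)) := by
  have hK0 : 0 < K := by linarith
  have hs2 : 0 < s2 := hs1.trans_le h12
  have hT0 : 0 < T := (by positivity : 0 < s2 ^ 2).trans_le hT
  have h1 := Vol809.vol_section (M := 2 * K ^ 2 * M) (by nlinarith [one_le_pow₀ hK (n := 2)]) hc
    (s1 := K * s1) (sg := K * s2) (T := K ^ 2 * T) (R := K * R) (by positivity) (by gcongr)
    (by rw [mul_pow]; gcongr) (by positivity) (adm_dil (by linarith) hR hs2 hT0 h hK)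
  rw [← (Crest.Agent.R138.Fq665.mp_up J).measure_preimage
    (meas_Ud c K s1 s2 T R X0 p).nullMeasurableSet]
  have e : (fun q : E2 × ℝ => up J q.1 q.2) ⁻¹' (Ud J c K s1 s2 T R X0 p) =
      {v : E2 × ℝ | InK c (K * s2) (K ^ 2 * T) (K * R) (lat X0) (X0 2) 0 v.1 (v.2 / 2) (-v.2) ∧
        |p.ev v.1 (v.2 / 2) (-v.2)| ≤ K * s1 * (K * R)} := by
    ext q
    unfold Ud
    simp only [mem_preimage, mem_setOf_eq, fx_up, fu_up]
  rw [e]
  refine h1.trans (ENNReal.ofReal_le_ofReal (le_of_eq ?_))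
  ring

theorem umc_add {g1 g2 : E3 → ℂ} (h1 : Integrable g1) (h2 : Integrable g2) (ρ : ℝ) (k : ℤ × ℤ)
    (X : E3) : umc ρ (fun ζ => g1 ζ + g2 ζ) k X = umc ρ g1 k X + umc ρ g2 k X := by
  unfold umc
  rw [CWp480.fourierInv_eq_int, CWp480.fourierInv_eq_int, CWp480.fourierInv_eq_int, ← integral_add]
  · refine integral_congr_ae (Eventually.of_forall fun ζ => ?_)
    simp only
    ring
  all_goals
    refine Integrable.mul_bdd (c := 1) ?_ ?_ (Eventually.of_forall fun ζ =>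
      (Crest.Agent.R138.Wpk685.norm_ee _).le)
    · refine Integrable.bdd_mul (c := 1) (by assumption)
        (Ba449.measurable_capc ρ k).aestronglyMeasurable
        (Eventually.of_forall fun ζ => Ba449.norm_capc_le ρ k ζ)
    · exact (continuous_ee'.comp (by fun_prop)).aestronglyMeasurable

theorem ball_int {f : V → ℂ} (hfm : Measurable f) (hf1 : ∀ v, ‖f v‖ ≤ 1) {R : ℝ}
    (hfs : ∀ v, f v ≠ 0 → ‖v‖ ≤ R) (q : ℝ≥0∞) : MemLp f q := by
  have hfb : f = (Metric.closedBall (0:V) R).indicator f := by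
    ext v
    by_cases hv : v ∈ Metric.closedBall (0:V) R
    · rw [indicator_of_mem hv]
    · rw [indicator_of_notMem hv]
      by_contra h0
      exact hv (by simpa using hfs v h0)
  rw [hfb, memLp_indicator_iff_restrict Metric.isClosed_closedBall.measurableSet]
  have : IsFiniteMeasure (volume.restrict (Metric.closedBall (0:V) R)) :=
    ⟨by rw [Measure.restrict_apply_univ]; exact measure_closedBall_lt_top⟩
  exact MemLp.of_bound hfm.aestronglyMeasurable 1 (Eventually.of_forall hf1)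

theorem gf_add {f1 f2 : V → ℂ} (h1 : Integrable f1) (h2 : Integrable f2) (ζ : E3) :
    gf J a (fun v => f1 v + f2 v) ζ = gf J a f1 ζ + gf J a f2 ζ := by
  unfold gf
  rw [← mul_add]
  congr 1
  rw [CWp480.fourier_eq_int, CWp480.fourier_eq_int, CWp480.fourier_eq_int, ← integral_add]
  · refine integral_congr_ae (Eventually.of_forall fun v => ?_)
    simp only
    ring
  all_goals
    refine Integrable.mul_bdd (c := 1) (by assumption) ?_ (Eventually.of_forall fun ζ =>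
      (Crest.Agent.R138.Wpk685.norm_ee _).le)
    exact (continuous_ee'.comp (by fun_prop)).aestronglyMeasurable

theorem Pc.gd (h : Pc J a) {f : V → ℂ} (hf : Integrable f) : Ba449.Gd 3 (gf J a f) := by
  refine ⟨(h.gf_cont hf).measurable, ?_, fun ζ hz => h.norm_le (gf_ne hz), fun ζ hz => ?_⟩
  · obtain ⟨C, hC⟩ := (h.gf_cont hf).bounded_above_of_compact_support (h.gf_hcs f)
    exact ⟨C, hC⟩
  · exact ((h.Aa_reg (gf_ne hz)).2.2.2).trans (by norm_num)

theorem WC188_meas (sg T R s1 : ℝ) (c : E2) (X0 : E3) (p : Cf E2) (C : E2) :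
    MeasurableSet (WC188.mset sg T R s1 c X0 p C) := by
  have hl : Continuous lat := latL.continuous
  have h2' : Continuous (fun X : E3 => X 2) := (EuclideanSpace.proj (𝕜 := ℝ) (2 : Fin 3)).continuous
  by_cases hC : ‖C - c‖ ≤ sg
  · have h1 : IsClosed {X : E3 | ‖lat X - lat X0‖ ≤ sg * R} :=
      isClosed_le (by fun_prop) continuous_const
    have h2 : IsClosed {X : E3 | |nrm c X 0 - nrm c X0 0| ≤ T * R} := by
      refine isClosed_le ?_ continuous_const
      unfold nrm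
      fun_prop
    have h3 : IsClosed {X : E3 | |p.ev (lat X) (X 2) 0| ≤ s1 * R} := by
      refine isClosed_le ?_ continuous_const
      unfold LZg725.Cf.ev
      fun_prop
    have h4 : IsClosed {X : E3 | |p.ld C (lat X) (X 2) 0| ≤ s1} := by
      refine isClosed_le ?_ continuous_const
      unfold LZg725.Cf.ld LZg725.Cf.ny
      fun_prop
    have e : WC188.mset sg T R s1 c X0 p C = {X : E3 | ‖lat X - lat X0‖ ≤ sg * R} ∩
        ({X : E3 | |nrm c X 0 - nrm c X0 0| ≤ T * R} ∩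
        ({X : E3 | |p.ev (lat X) (X 2) 0| ≤ s1 * R} ∩
        {X : E3 | |p.ld C (lat X) (X 2) 0| ≤ s1})) := by
      ext X
      exact ⟨fun h => h.2, fun h => ⟨hC, h⟩⟩
    rw [e]
    exact (h1.inter (h2.inter (h3.inter h4))).measurableSet
  · have e : WC188.mset sg T R s1 c X0 p C = ∅ := by
      rw [Set.eq_empty_iff_forall_notMem]
      rintro X ⟨m1, _⟩
      exact hC m1
    rw [e]
    exact MeasurableSet.empty

theorem TT_facts {s2 R : ℝ} (hR : 1 ≤ R) (hs2 : 0 ≤ s2) (hs21 : s2 ≤ 1) :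
    s2 ^ 2 ≤ WC188.TT 1 s2 R ∧ 1 ≤ WC188.TT 1 s2 R * R ∧ WC188.TT 1 s2 R ≤ 1 ∧
      R⁻¹ ≤ WC188.TT 1 s2 R := by
  have hR0 : 0 < R := by linarith
  have h2 : R⁻¹ ≤ WC188.TT 1 s2 R := by
    unfold WC188.TT
    rw [one_mul]
    exact le_max_right _ _
  refine ⟨le_max_left _ _, ?_, ?_, h2⟩
  · calc (1:ℝ) = R⁻¹ * R := by field_simp
      _ ≤ _ := by gcongr
  · unfold WC188.TT
    rw [one_mul]
    exact max_le (pow_le_one₀ hs2 hs21) (inv_le_one_of_one_le₀ hR)

/-- the phase box is contained in a ball. -/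
theorem mset_sub {s2 T R s1 : ℝ} {c : E2} {X0 : E3} {p : Cf E2} {C : E2} (hR : 0 ≤ R)
    (hs2 : s2 ≤ 1) (hT : T ≤ 1) (hc : ‖c‖ ≤ 8) :
    WC188.mset s2 T R s1 c X0 p C ⊆ Metric.closedBall X0 (10 * R) := by
  rintro X ⟨_, m2, m3, _, _⟩
  rw [mem_closedBall_iff_norm]
  have h1 : ‖lat (X - X0)‖ ≤ R := by
    rw [lat_sub]
    refine m2.trans ?_
    exact mul_le_of_le_one_left hR hs2
  have h2 : |(X - X0) 2| ≤ 9 * R := by
    have e : (X - X0) 2 = (nrm c X 0 - nrm c X0 0) - inner ℝ c (lat (X - X0)) := by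
      unfold nrm
      rw [lat_sub, inner_sub_right, PiLp.sub_apply]
      ring
    rw [e]
    refine (abs_sub _ _).trans ?_
    have h3 : |inner ℝ c (lat (X - X0))| ≤ 8 * R := by
      refine (abs_real_inner_le_norm _ _).trans ?_
      gcongr
    have h4 : T * R ≤ R := mul_le_of_le_one_left hR hT
    linarith
  have h5 := CWc480.norm_pt_le (lat (X - X0)) ((X - X0) 2)
  rw [pt_lat] at h5
  linarith

theorem ball_vol (X0 : E3) {R : ℝ} (hR : 0 ≤ R) : volume (Metric.closedBall X0 R) =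
    ENNReal.ofReal (R ^ 3 * (volume (Metric.closedBall (0:E3) 1)).toReal) := by
  rw [Measure.addHaar_closedBall' _ _ hR, ENNReal.ofReal_mul (by positivity),
    ENNReal.ofReal_toReal measure_closedBall_lt_top.ne]
  congr 3
  simp

/-- **box bound**. -/
theorem Pc.box (h : Pc J a) {M : ℝ} (hM : 1 ≤ M) {ε : ℝ} (hε : 0 < ε) : ∃ Cb : ℝ, 0 ≤ Cb ∧
    ∀ R : ℝ, 1 ≤ R → ∀ f : V → ℂ, Measurable f → (∀ v, ‖f v‖ ≤ 1) →
      (∀ v, f v ≠ 0 → ‖v‖ ≤ R) → WC188.PBx M 1 0 R (gf J a f) (Cb * R ^ ε) := by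
  obtain ⟨L, hL0, hL⟩ := h.bdd
  obtain ⟨N, hN⟩ := exists_nat_ge (45 / ε)
  obtain ⟨Cn, hCn, htail⟩ := h.umc_tail N
  set vb : ℝ := (volume (Metric.closedBall (0:E3) 1)).toReal with hvb
  set A1 : ℝ := 4 * (L ^ 2 * (32000 * M * (8 * M) ^ 9)) with hA1
  set A2 : ℝ := 4 * (81 * Cn ^ 2 * (1000 * vb)) with hA2
  have hvb0 : 0 ≤ vb := ENNReal.toReal_nonneg
  refine ⟨A1 + A2, by positivity, ?_⟩
  intro R hR f hfm hf1 hfs c X0 p s1 s2 hsd hadm
  have hR0 : 0 < R := by linarith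
  set ρ : ℝ := R ^ (-(1/2) : ℝ) with hρ
  have hρ0 : 0 < ρ := Real.rpow_pos_of_pos hR0 _
  have hρ1 : ρ ≤ 1 := Real.rpow_le_one_of_one_le_of_nonpos hR (by norm_num)
  have hρR : ρ ^ 2 * R = 1 := by
    have h1 : ρ ^ 2 = R⁻¹ := by
      rw [hρ, ← Real.rpow_natCast, ← Real.rpow_mul hR0.le]
      norm_num
      exact Real.rpow_neg_one R
    rw [h1, inv_mul_cancel₀ hR0.ne']
  have hs1 : 0 < s1 := hρ0.trans_le hsd.lo
  have hs2 : 0 < s2 := hs1.trans_le hsd.le
  obtain ⟨t1, t2, t3, t4⟩ := TT_facts hR hs2.le hsd.hi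
  set T := WC188.TT 1 s2 R with hT
  have hcen : ∀ m ∈ caps ρ, ‖cen ρ m‖ ≤ 6 := fun m hm =>
    Crest.Agent.R138.Wpk685.caps_norm hρ0 hρ1 m hm
  have hpb : ∀ m, WC188.pbx 1 1 R s1 s2 c X0 p m = WC188.mset s2 T R s1 c X0 p (cen ρ m) := by
    intro m
    unfold WC188.pbx
    rw [one_mul, one_mul, one_mul, ← hT, ← hρ]
  by_cases hc : ‖c‖ ≤ 8
  swap
  · have h0 : enc ρ (gf J a f) (WC188.pbx 1 1 R s1 s2 c X0 p) = 0 := by
      unfold enc
      refine Finset.sum_eq_zero fun m hm => ?_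
      have he : WC188.pbx 1 1 R s1 s2 c X0 p m = ∅ := by
        rw [hpb, Set.eq_empty_iff_forall_notMem]
        rintro X ⟨m1, _⟩
        apply hc
        have h1 := norm_sub_le (cen ρ m) (cen ρ m - c)
        rw [sub_sub_cancel] at h1
        have h2 := hcen m hm
        have h3 := hsd.hi
        linarith
      rw [he, setLIntegral_empty]
    rw [h0]
    exact zero_le
  -- parameters
  set H : ℝ := R ^ (ε / 9) with hH
  have hH1 : 1 ≤ H := Real.one_le_rpow hR (by positivity)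
  have hH0 : 0 < H := by linarith
  have hH9 : H ^ 9 = R ^ ε := by
    rw [hH, ← Real.rpow_natCast, ← Real.rpow_mul hR0.le]
    congr 1
    push_cast
    field_simp
  have hHN : R ^ 5 ≤ H ^ N := by
    rw [hH, ← Real.rpow_natCast, ← Real.rpow_natCast, ← Real.rpow_mul hR0.le]
    apply Real.rpow_le_rpow_of_exponent_le hR
    rw [div_le_iff₀ hε] at hN
    push_cast
    linarith
  obtain ⟨hK1, -, -, -⟩ := nu1 hM hH1
  set K : ℝ := 8 * M * H with hK
  set U : Set V := Ud J c K s1 s2 T R X0 p with hU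
  have hUm : MeasurableSet U := meas_Ud c K s1 s2 T R X0 p
  set f1 : V → ℂ := U.indicator f with hf1d
  set f2 : V → ℂ := Uᶜ.indicator f with hf2d
  have m1 : Measurable f1 := hfm.indicator hUm
  have m2 : Measurable f2 := hfm.indicator hUm.compl
  have b1 : ∀ v, ‖f1 v‖ ≤ 1 := fun v => (norm_indicator_le_norm_self _ _).trans (hf1 v)
  have b2 : ∀ v, ‖f2 v‖ ≤ 1 := fun v => (norm_indicator_le_norm_self _ _).trans (hf1 v)
  have z1 : ∀ v, f1 v ≠ 0 → v ∈ U ∧ f v ≠ 0 := fun v hv => by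
    by_cases hvU : v ∈ U
    · rw [hf1d, indicator_of_mem hvU] at hv
      exact ⟨hvU, hv⟩
    · rw [hf1d, indicator_of_notMem hvU] at hv
      exact absurd rfl hv
  have z2 : ∀ v, f2 v ≠ 0 → v ∉ U ∧ f v ≠ 0 := fun v hv => by
    by_cases hvU : v ∈ Uᶜ
    · rw [hf2d, indicator_of_mem hvU] at hv
      exact ⟨hvU, hv⟩
    · rw [hf2d, indicator_of_notMem hvU] at hv
      exact absurd rfl hv
  have s1' : ∀ v, f1 v ≠ 0 → ‖v‖ ≤ R := fun v hv => hfs v (z1 v hv).2
  have s2' : ∀ v, f2 v ≠ 0 → ‖v‖ ≤ R := fun v hv => hfs v (z2 v hv).2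
  have i1 : Integrable f1 := memLp_one_iff_integrable.1 (ball_int m1 b1 s1' 1)
  have i2 : Integrable f2 := memLp_one_iff_integrable.1 (ball_int m2 b2 s2' 1)
  have hsum : gf J a f = fun ζ => gf J a f1 ζ + gf J a f2 ζ := by
    ext ζ
    rw [← gf_add i1 i2]
    congr 1
    ext v
    rw [hf1d, hf2d]
    exact (congrFun (indicator_self_add_compl U f) v).symm
  have hg1 := h.gd i1
  have hg2 := h.gd i2
  -- pointwise
  have hpw : ∀ m X, ‖umc ρ (gf J a f) m X‖ₑ ^ 2 ≤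
      4 * (‖umc ρ (gf J a f1) m X‖ₑ ^ 2 + ‖umc ρ (gf J a f2) m X‖ₑ ^ 2) := by
    intro m X
    rw [hsum, umc_add hg1.int hg2.int]
    refine le_trans ?_ (sq_add_le _ _)
    gcongr
    exact enorm_add_le _ _
  have hmeas1 : ∀ m, Measurable fun X => ‖umc ρ (gf J a f1) m X‖ₑ ^ 2 := fun m =>
    (Crest.Agent.R138.Fq665.continuous_fourierInv
      (hg1.cap ρ m).int).measurable.enorm.pow_const 2
  -- the main part
  have hmain : ∑ m ∈ caps ρ, ∫⁻ X, ‖umc ρ (gf J a f1) m X‖ₑ ^ 2 ≤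
      ENNReal.ofReal (L ^ 2 * (32000 * M * K ^ 9 * (s1 * s2 * T * R ^ 3))) := by
    refine (Ba449.sum_lint_umc hg1 hρ0).trans ?_
    rw [← hg1.lint]
    refine (h.gf_energy hL i1 (ball_int m1 b1 s1' 2)).trans ?_
    rw [ENNReal.ofReal_mul (by positivity)]
    gcongr
    calc ∫⁻ v, ‖f1 v‖ₑ ^ 2 ≤ ∫⁻ v, U.indicator (fun _ => (1:ℝ≥0∞)) v := by
          refine lintegral_mono fun v => ?_
          by_cases hv : v ∈ U
          · rw [indicator_of_mem hv]
            have : ‖f1 v‖ₑ ≤ 1 := by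
              rw [← ofReal_norm, ← ENNReal.ofReal_one]
              exact ENNReal.ofReal_le_ofReal (b1 v)
            exact pow_le_one' this 2
          · rw [indicator_of_notMem hv, hf1d, indicator_of_notMem hv]
            simp
      _ = volume U := by rw [lintegral_indicator hUm]; simp
      _ ≤ _ := vol_Ud hM hc hs1 hsd.le t1 hR0 hadm hK1
  -- the tail
  have htl : ∀ m ∈ caps ρ, ∫⁻ X in WC188.pbx 1 1 R s1 s2 c X0 p m,
      ‖umc ρ (gf J a f2) m X‖ₑ ^ 2 ≤ ENNReal.ofReal (Cn ^ 2 * (1000 * vb) * R⁻¹) := by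
    intro m hm
    have hpt : ∀ X ∈ WC188.pbx 1 1 R s1 s2 c X0 p m, ‖umc ρ (gf J a f2) m X‖ₑ ^ 2 ≤
        ENNReal.ofReal ((Cn * (H ^ N)⁻¹ * R ^ 3) ^ 2) := by
      intro X hX
      rw [hpb] at hX
      rw [ENNReal.ofReal_pow (by positivity)]
      gcongr
      refine htail ρ R H hρ0 hρ1 hR0.le (by rw [mul_comm]; exact hρR.le) hH0 f2 m2 b2 s2' m
        ((hcen m hm).trans (by norm_num)) X ?_
      intro v hv
      by_contra hcon
      push Not at hcon
      exact (z2 v hv).1 (geo hM hρ0 hρR hH1 hsd.lo hsd.le t1 t2 hadm hX (s2' v hv) hcon.le)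
    calc ∫⁻ X in WC188.pbx 1 1 R s1 s2 c X0 p m, ‖umc ρ (gf J a f2) m X‖ₑ ^ 2
        ≤ ∫⁻ _ in WC188.pbx 1 1 R s1 s2 c X0 p m,
          ENNReal.ofReal ((Cn * (H ^ N)⁻¹ * R ^ 3) ^ 2) := by
          apply setLIntegral_mono' ?_ hpt
          rw [hpb]
          exact WC188_meas s2 T R s1 c X0 p (cen ρ m)
      _ = ENNReal.ofReal ((Cn * (H ^ N)⁻¹ * R ^ 3) ^ 2) *
          volume (WC188.pbx 1 1 R s1 s2 c X0 p m) := by
          rw [lintegral_const, Measure.restrict_apply_univ]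
      _ ≤ ENNReal.ofReal ((Cn * (H ^ N)⁻¹ * R ^ 3) ^ 2) *
          ENNReal.ofReal ((10 * R) ^ 3 * vb) := by
          gcongr
          rw [← ball_vol X0 (by positivity), hpb]
          exact measure_mono (mset_sub hR0.le hsd.hi t3 hc)
      _ ≤ _ := by
          rw [← ENNReal.ofReal_mul (by positivity)]
          apply ENNReal.ofReal_le_ofReal
          have h1 : (H ^ N)⁻¹ ≤ (R ^ 5)⁻¹ := inv_anti₀ (by positivity) hHN
          calc (Cn * (H ^ N)⁻¹ * R ^ 3) ^ 2 * ((10 * R) ^ 3 * vb)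
              ≤ (Cn * (R ^ 5)⁻¹ * R ^ 3) ^ 2 * ((10 * R) ^ 3 * vb) := by gcongr
            _ = Cn ^ 2 * (1000 * vb) * R⁻¹ := by field_simp; ring
  have hone : 1 ≤ s1 * s2 * T * R ^ 3 / R := by
    have h1 : ρ * ρ * R⁻¹ ≤ s1 * s2 * T := by
      have h2 : ρ ≤ s2 := hsd.lo.trans hsd.le
      have h3 : ρ ≤ s1 := hsd.lo
      gcongr
    have h2 : R⁻¹ * R⁻¹ ≤ s1 * s2 * T := by
      refine le_trans (le_of_eq ?_) h1
      have : ρ * ρ = R⁻¹ := by
        rw [← pow_two, eq_comm]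
        field_simp
        linarith
      rw [this]
    calc (1:ℝ) = (R⁻¹ * R⁻¹) * R ^ 3 / R := by field_simp
      _ ≤ _ := by gcongr
  have hsc : WC188.scost 1 s1 s2 R = s1 * s2 * T * R ^ 3 := by
    unfold WC188.scost
    rw [← hT]
  rw [hsc, Real.rpow_zero, mul_one]
  set Q : ℝ := s1 * s2 * T * R ^ 3 with hQ
  have hQ0 : R ≤ Q := by
    rw [le_div_iff₀ hR0] at hone
    linarith
  have hQpos : 0 < Q := by linarith
  have hRε : 1 ≤ R ^ ε := Real.one_le_rpow hR hε.le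
  calc enc ρ (gf J a f) (WC188.pbx 1 1 R s1 s2 c X0 p)
      ≤ ∑ m ∈ caps ρ, (4 * (∫⁻ X, ‖umc ρ (gf J a f1) m X‖ₑ ^ 2) +
          4 * ENNReal.ofReal (Cn ^ 2 * (1000 * vb) * R⁻¹)) := by
        unfold enc
        refine Finset.sum_le_sum fun m hm => ?_
        calc ∫⁻ X in WC188.pbx 1 1 R s1 s2 c X0 p m, ‖umc ρ (gf J a f) m X‖ₑ ^ 2
            ≤ ∫⁻ X in WC188.pbx 1 1 R s1 s2 c X0 p m,
              4 * (‖umc ρ (gf J a f1) m X‖ₑ ^ 2 + ‖umc ρ (gf J a f2) m X‖ₑ ^ 2) :=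
              lintegral_mono fun X => hpw m X
          _ = 4 * (∫⁻ X in WC188.pbx 1 1 R s1 s2 c X0 p m, ‖umc ρ (gf J a f1) m X‖ₑ ^ 2) +
              4 * (∫⁻ X in WC188.pbx 1 1 R s1 s2 c X0 p m, ‖umc ρ (gf J a f2) m X‖ₑ ^ 2) := by
              rw [lintegral_const_mul' _ _ (by norm_num), lintegral_add_left (hmeas1 m), mul_add]
          _ ≤ _ := by
              gcongr
              · exact Measure.restrict_le_self
              · exact htl m hm
    _ = 4 * (∑ m ∈ caps ρ, ∫⁻ X, ‖umc ρ (gf J a f1) m X‖ₑ ^ 2) +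
          (caps ρ).card * (4 * ENNReal.ofReal (Cn ^ 2 * (1000 * vb) * R⁻¹)) := by
        rw [Finset.sum_add_distrib, ← Finset.mul_sum, Finset.sum_const, nsmul_eq_mul]
    _ ≤ ENNReal.ofReal 4 * ENNReal.ofReal (L ^ 2 * (32000 * M * K ^ 9 * Q)) +
          ENNReal.ofReal (81 * R) *
            (ENNReal.ofReal 4 * ENNReal.ofReal (Cn ^ 2 * (1000 * vb) * R⁻¹)) := by
        have e4 : ENNReal.ofReal 4 = 4 := by norm_num
        rw [e4]
        gcongr
        have h1 := Tr126.card_caps hρ0 hρ1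
        have h2 : (ρ⁻¹) ^ 2 = R := by
          rw [inv_pow, inv_eq_iff_eq_inv]
          field_simp
          linarith
        rw [h2] at h1
        calc ((caps ρ).card : ℝ≥0∞) = ENNReal.ofReal ((caps ρ).card : ℝ) := by
              rw [ENNReal.ofReal_natCast]
          _ ≤ _ := ENNReal.ofReal_le_ofReal h1
    _ = ENNReal.ofReal (4 * (L ^ 2 * (32000 * M * K ^ 9 * Q)) +
          81 * R * (4 * (Cn ^ 2 * (1000 * vb) * R⁻¹))) := by
        rw [ENNReal.ofReal_add (by positivity) (by positivity),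
          ENNReal.ofReal_mul (p := 81 * R) (by positivity),
          ENNReal.ofReal_mul (p := 4) (by norm_num), ENNReal.ofReal_mul (p := 4) (by norm_num)]
    _ ≤ ENNReal.ofReal ((A1 + A2) * R ^ ε * Q) := by
        apply ENNReal.ofReal_le_ofReal
        have e1 : 4 * (L ^ 2 * (32000 * M * K ^ 9 * Q)) = A1 * R ^ ε * Q := by
          rw [hA1, hK, ← hH9]
          ring
        have e2 : 81 * R * (4 * (Cn ^ 2 * (1000 * vb) * R⁻¹)) = A2 := by
          have e3 : 81 * R * (4 * (Cn ^ 2 * (1000 * vb) * R⁻¹)) =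
              4 * (81 * Cn ^ 2 * (1000 * vb)) * (R * R⁻¹) := by ring
          rw [e3, mul_inv_cancel₀ hR0.ne', mul_one, hA2]
        rw [e1, e2]
        have hA20 : 0 ≤ A2 := by positivity
        have h1 : A2 ≤ A2 * R ^ ε * Q := by
          calc A2 = A2 * 1 * 1 := by ring
            _ ≤ A2 * R ^ ε * Q := by
              gcongr
              linarith
        calc A1 * R ^ ε * Q + A2 ≤ A1 * R ^ ε * Q + A2 * R ^ ε * Q := by linarith
          _ = _ := by ring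

end Crest.Agent.R116.Hx665
end

-- ▼ part R116/Hx8_665

/-!
# R116 (S0155): `LocW` from the energy / box inequality of the cone (helper665)
-/

set_option autoImplicit false

open MeasureTheory FourierTransform Set Filter
open scoped ContDiff ENNReal

namespace Crest.Agent.R116.Hx665

open Crest.Agent.R138.Defs (E2 ee)
open Crest.Agent.R138.Fq665 (PR up)
open Crest.Agent.R138.Fr665 (cv)
open Crest.Agent.R116.Sh927 (V)
open Crest.Agent.R116.EB665 (Kt LocW GlobW)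
open Crest.Agent.R116.CDef480

variable {J : PR ≃ₗᵢ[ℝ] V} {a : V → ℂ}

/-- total energy of a bounded function supported in a ball. -/
theorem lint_ball_le {f : V → ℂ} (hf1 : ∀ v, ‖f v‖ ≤ 1) {R : ℝ} (hR : 0 ≤ R)
    (hfs : ∀ v, f v ≠ 0 → ‖v‖ ≤ R) : ∫⁻ v, ‖f v‖ₑ ^ 2 ≤
      ENNReal.ofReal (R ^ 3 * (volume (Metric.closedBall (0:E3) 1)).toReal) := by
  rw [← ball_vol 0 hR]
  calc ∫⁻ v, ‖f v‖ₑ ^ 2 ≤ ∫⁻ v, (Metric.closedBall (0:V) R).indicator (fun _ => (1:ℝ≥0∞)) v := by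
        refine lintegral_mono fun v => ?_
        by_cases hv : v ∈ Metric.closedBall (0:V) R
        · rw [indicator_of_mem hv]
          have : ‖f v‖ₑ ≤ 1 := by
            rw [← ofReal_norm, ← ENNReal.ofReal_one]
            exact ENNReal.ofReal_le_ofReal (hf1 v)
          exact pow_le_one' this 2
        · rw [indicator_of_notMem hv]
          have : f v = 0 := by
            by_contra h0
            exact hv (by simpa using hfs v h0)
          rw [this]
          simp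
    _ = _ := by rw [lintegral_indicator Metric.isClosed_closedBall.measurableSet]; simp

theorem expo {R δ : ℝ} (hR : 1 ≤ R) (hδ : 0 < δ) (hδ1 : δ ≤ 1) :
    (6 * R ^ (1 + δ)) ^ δ * ((6 * R ^ (1 + δ)) * ((6 * R ^ (1 + δ)) ^ (δ / 2))) ≤
      6 ^ (3 : ℝ) * R ^ (1 + 8 * δ) := by
  have hR0 : 0 < R := by linarith
  set S : ℝ := 6 * R ^ (1 + δ) with hS
  have hS0 : 0 < S := by positivity
  have h1 : S ^ δ * (S * S ^ (δ / 2)) = S ^ (1 + 3 / 2 * δ) := by
    rw [show 1 + 3 / 2 * δ = δ + (1 + δ / 2) by ring, Real.rpow_add hS0, Real.rpow_add hS0,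
      Real.rpow_one]
  rw [h1, hS, Real.mul_rpow (by norm_num) (by positivity), ← Real.rpow_mul hR0.le]
  have h2 : (6:ℝ) ^ (1 + 3 / 2 * δ) ≤ 6 ^ (3:ℝ) :=
    Real.rpow_le_rpow_of_exponent_le (by norm_num) (by linarith)
  have h3 : R ^ ((1 + δ) * (1 + 3 / 2 * δ)) ≤ R ^ (1 + 8 * δ) := by
    apply Real.rpow_le_rpow_of_exponent_le hR
    nlinarith
  exact mul_le_mul h2 h3 (by positivity) (by positivity)

/-- **`LocW` from `EBc M`**. -/
theorem LocW_of_EBc {M : ℝ} (hEB : WC188.EBc M) : LocW := by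
  refine ⟨1/8, by norm_num, le_rfl, ?_⟩
  intro J a ha hsupp δ hδ hδ1
  have h : Pc J a := ⟨ha, hsupp⟩
  obtain ⟨L, hL0, hL⟩ := h.bdd
  set M1 : ℝ := max M 1 with hM1
  obtain ⟨Cb, hCb, hbox⟩ := h.box (M := M1) (le_max_right _ _) hδ
  obtain ⟨CE, hCE, hE⟩ := hEB 2 1 δ 4 (by norm_num) (by norm_num) (by norm_num) hδ
  set vb : ℝ := (volume (Metric.closedBall (0:E3) 1)).toReal with hvb
  have hvb0 : 0 ≤ vb := ENNReal.toReal_nonneg
  set Cd : ℝ := Cb + L ^ 2 * vb with hCd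
  have hCd0 : 0 ≤ Cd := by positivity
  refine ⟨CE * (L ^ 2 * Real.sqrt Cd) * 6 ^ (3:ℝ), by positivity, ?_⟩
  intro R hR f hfm hf1 hf0
  have hR0 : 0 < R := by linarith
  set R1 : ℝ := R ^ (1 + δ) with hR1
  have hR11 : 1 ≤ R1 := Real.one_le_rpow hR (by linarith)
  have hRR1 : R ≤ R1 := by
    calc R = R ^ (1:ℝ) := (Real.rpow_one R).symm
      _ ≤ R1 := Real.rpow_le_rpow_of_exponent_le hR (by linarith)
  set S : ℝ := 6 * R1 with hS
  have hS1 : 1 ≤ S := by linarith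
  have hS0 : 0 < S := by linarith
  have hfs : ∀ v, f v ≠ 0 → ‖v‖ ≤ 2 * R1 := fun v hv => by
    by_contra hcon
    exact hv (hf0 v (not_le.1 hcon))
  have hfi : Integrable f := memLp_one_iff_integrable.1 (ball_int hfm hf1 hfs 1)
  have hf2 : MemLp f 2 := ball_int hfm hf1 hfs 2
  have hgd := h.gd hfi
  set D : ℝ := Cd * S ^ δ with hD
  have hSδ : 1 ≤ S ^ δ := Real.one_le_rpow hS1 hδ.le
  have hD0 : 0 ≤ D := by positivity
  -- energy
  have hen : ENNReal.ofReal (Enc (gf J a f)) ≤ ENNReal.ofReal (L ^ 2) * ∫⁻ v, ‖f v‖ₑ ^ 2 := by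
    rw [← hgd.lint]
    exact h.gf_energy hL hfi hf2
  have hen2 : Enc (gf J a f) ≤ L ^ 2 * ((2 * R1) ^ 3 * vb) := by
    have h1 : ENNReal.ofReal (Enc (gf J a f)) ≤
        ENNReal.ofReal (L ^ 2 * ((2 * R1) ^ 3 * vb)) := by
      refine hen.trans ?_
      rw [ENNReal.ofReal_mul (by positivity)]
      gcongr
      exact lint_ball_le hf1 (by positivity) hfs
    exact (ENNReal.ofReal_le_ofReal_iff (by positivity)).1 h1
  have hst : WC188.St M 1 0 2 1 4 0 2 (gf J a f) S D := by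
    refine ⟨hgd.meas, hgd.bdd, fun ζ hz => ?_, hS1, hD0, ?_, ?_⟩
    · obtain ⟨r1, r2, _, r4⟩ := h.Aa_reg (gf_ne hz)
      refine ⟨by linarith, r2, by linarith, ?_⟩
      rw [sub_zero]
      linarith
    · intro c X0 p s1 s2 hsd hadm
      have hadm1 : WC188.Adm M1 1 s1 s2 (WC188.TT 1 s2 S) S c X0 p := by
        have hs1 : 0 < s1 := (Real.rpow_pos_of_pos hS0 _).trans_le hsd.lo
        have hs2 : 0 < s2 := hs1.trans_le hsd.le
        have hTT : 0 < WC188.TT 1 s2 S := (by positivity : (0:ℝ) < s2 ^ 2).trans_le (le_max_left _ _)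
        have hMM : M ≤ M1 := le_max_left _ _
        refine ⟨hadm.disc, fun s hs => (hadm.ny s hs).trans ?_, fun s hs => (hadm.cmp s hs).trans ?_,
          hadm.ld.trans ?_, hadm.ev.trans ?_⟩ <;> gcongr
      have h1 := hbox S hS1 f hfm hf1 (fun v hv => (hfs v hv).trans (by linarith)) c X0 p s1 s2
        hsd hadm1
      refine h1.trans (ENNReal.ofReal_le_ofReal ?_)
      have hs1 : 0 < s1 := (Real.rpow_pos_of_pos hS0 _).trans_le hsd.lo
      have hs2 : 0 < s2 := hs1.trans_le hsd.le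
      have hTT : 0 < WC188.TT 1 s2 S := (by positivity : (0:ℝ) < s2 ^ 2).trans_le (le_max_left _ _)
      have hsc : 0 ≤ WC188.scost 1 s1 s2 S := by
        unfold WC188.scost
        positivity
      have h2 : Cb ≤ Cd := by
        rw [hCd]
        have : 0 ≤ L ^ 2 * vb := by positivity
        linarith
      rw [hD]
      gcongr
    · refine hen2.trans ?_
      have e1 : S ^ (4:ℝ) = S ^ (4:ℕ) := by
        rw [← Real.rpow_natCast]; norm_num
      rw [e1, hD]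
      have h2 : L ^ 2 * vb ≤ Cd := by
        rw [hCd]
        linarith
      have h3 : (2 * R1) ^ 3 ≤ S ^ 4 := by
        calc (2 * R1) ^ 3 ≤ S ^ 3 := by
              apply pow_le_pow_left₀ (by positivity)
              linarith
          _ ≤ S ^ 4 := pow_le_pow_right₀ hS1 (by norm_num)
      calc L ^ 2 * ((2 * R1) ^ 3 * vb) = (2 * R1) ^ 3 * ((L ^ 2 * vb) * 1) := by ring
        _ ≤ S ^ 4 * (Cd * S ^ δ) := by gcongr
  have h1 := hE (gf J a f) S D hst
  have h2 := st_le h hfi hR0.le hRR1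
  refine h2.trans ?_
  have e6 : 3 * R1 = S / 2 := by rw [hS]; ring
  rw [e6]
  refine h1.trans ?_
  have hsq : Real.sqrt D = Real.sqrt Cd * S ^ (δ / 2) := by
    rw [hD, Real.sqrt_mul hCd0, Real.sqrt_eq_rpow (S ^ δ), ← Real.rpow_mul hS0.le]
    congr 2
    ring
  have hEn0 := Enc_nonneg (gf J a f)
  calc ENNReal.ofReal (CE * S ^ δ * WC188.SS (gf J a f) S D)
      = ENNReal.ofReal (CE * Real.sqrt Cd * (S ^ δ * (S * S ^ (δ / 2)))) *
          ENNReal.ofReal (Enc (gf J a f)) := by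
        rw [← ENNReal.ofReal_mul (by positivity)]
        congr 1
        unfold WC188.SS
        rw [hsq]
        ring
    _ ≤ ENNReal.ofReal (CE * Real.sqrt Cd * (6 ^ (3:ℝ) * R ^ (1 + 8 * δ))) *
          (ENNReal.ofReal (L ^ 2) * ∫⁻ v, ‖f v‖ₑ ^ 2) := by
        refine mul_le_mul' (ENNReal.ofReal_le_ofReal ?_) hen
        exact mul_le_mul_of_nonneg_left (expo hR hδ hδ1) (by positivity)
    _ = ENNReal.ofReal (CE * (L ^ 2 * Real.sqrt Cd) * 6 ^ (3:ℝ) * R ^ (1 + 8 * δ)) *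
          ∫⁻ v, ‖f v‖ₑ ^ 2 := by
        rw [← mul_assoc, ← ENNReal.ofReal_mul (by positivity)]
        congr 2
        ring

/-- **`GlobW` from `EBc M`**. -/
theorem GlobW_of_EBc {M : ℝ} (hEB : WC188.EBc M) : GlobW :=
  EB665.GlobW_of_LocW (LocW_of_EBc hEB)

end Crest.Agent.R116.Hx665
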