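import Crest.Agent.R116.KW3_420
import Crest.Agent.R116.Kst4_593
import Crest.Agent.R116.Kst3_593
import Crest.Agent.R116.EvL6_504
import Crest.Agent.R116.EvL7_369
import Crest.Agent.R116.WinU_954
import Crest.Agent.R116.Bd1_369
import Crest.Agent.R116.CtxB_468

-- ▼ part R116/Kj1_899
section

/-!
# R116, (W2) / (W3): own strips on a fat line give the linear modulus of the own motion (helper899)

`ownThin_of` : 593's strips of the slot `t` on single real lines (`WStrip`, `RLines`) give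
420's `OwnThin W.B' (W.cfg E') (ownL W) t γ x1` for the level slots `t = 1, 7, 8` and `t = 2`
(the last one if the slot `1` is a resolved line slot).  `ownThin_drop` : the same with the slot
`D` forgotten.
-/

set_option autoImplicit false
set_option linter.unusedVariables false
set_option linter.unusedSectionVars false

open Filter Topology Finset

namespace Crest.Agent.R116.Kj899

open Crest.Agent.R138.Ex926 (Base U)
open Crest.Agent.R136.Net191 Crest.Agent.R136.Qg926 Crest.Agent.R136.Gf356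
open Crest.Agent.R116.ChL222 Crest.Agent.R116.PL504 Crest.Agent.R116.EvL504
open Crest.Agent.R116.Kst593 Crest.Agent.R116.KW420

variable {ι : ℕ → Type*} [∀ n, DecidableEq (ι n)] {W : Wnd 12 ι} {K tp : ℝ}

/-- level slots whose own motion is additive along a fat line -/
structure AddS (W : Wnd 12 ι) (tp : ℝ) (t : Fin 12) : Prop where
  mem : t ∈ W.S
  slot : t = 1 ∨ t = 7 ∨ t = 8 ∨ (t = 2 ∧ (1 : Fin 12) ∉ W.S ∧ tp ≤ W.top 1)

/-- **additivity along a fat line** -/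
theorem add_fat (h : WL W K tp) {n : ℕ} (g : W.Good n) {t : Fin 12} (ht : AddS W tp t)
    {x y z : ι n} (hx : x ∈ W.Cl n) (hy : y ∈ W.Cl n) (hz : z ∈ W.Cl n)
    (l1 : W.lc n x = W.lc n y) (l2 : W.lc n y = W.lc n z) :
    |W.crd n x z t - (W.crd n x y t + W.crd n y z t)| ≤ 3 * W.B'.d n ^ tp := by
  have hS := h.sides g
  have r0 := h.r0 n
  have sp := h.side_pos' n t
  have key : |W.co n x z t - (W.co n x y t + W.co n y z t)| ≤
      3 * (W.B'.d n ^ tp * side W n t) := by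
    have a := (h.coc n).add x y z
    have b1 := fun k => h.bd0 g hx hy k
    have b2 := fun k => h.bd0 g hy hz k
    have s3 := h.bdl g hy hz l2 (h.notS (s := 3) (by decide)) (h.topL 3 (by decide))
    have s4 := h.bdl g hy hz l2 (h.notS (s := 4) (by decide)) (h.topL 4 (by decide))
    have s5 := h.bdl g hy hz l2 (h.notS (s := 5) (by decide)) (h.topL 5 (by decide))
    have s6 := h.bdl g hy hz l2 (h.notS (s := 6) (by decide)) (h.topL 6 (by decide))
    have nn := mul_nonneg r0 sp.le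
    rcases ht.slot with rfl | rfl | rfl | ⟨rfl, c1, c2⟩
    · have e : W.co n x z 1 = W.co n x y 1 + W.co n y z 1 := by rw [a]; simp [comp]
      rw [e, sub_self, abs_zero]
      linarith
    · have e : W.co n x z 7 - (W.co n x y 7 + W.co n y z 7) =
          W.co n x y 2 * W.co n y z 3 + 2 * (W.co n x y 1 * W.co n y z 5) := by
        rw [a]; simp [comp]; ring
      rw [e]
      have t1 := bd2D (b1 2) s3
      have t2 := bd2D (b1 1) s5
      have w1 : side W n 2 * (W.B'.d n ^ tp * side W n 3) ≤ W.B'.d n ^ tp * side W n 7 := by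
        have := mul_le_mul_of_nonneg_left hS.w7 r0
        linarith [mul_comm (side W n 2) (W.B'.d n ^ tp * side W n 3),
          mul_left_comm (side W n 2) (W.B'.d n ^ tp) (side W n 3)]
      have w2 : side W n 1 * (W.B'.d n ^ tp * side W n 5) ≤ W.B'.d n ^ tp * side W n 7 := by
        have := mul_le_mul_of_nonneg_left hS.w7' r0
        linarith [mul_left_comm (side W n 1) (W.B'.d n ^ tp) (side W n 5)]
      refine (abs_add_le _ _).trans ?_
      rw [abs_mul 2, abs_two]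
      linarith
    · have e : W.co n x z 8 - (W.co n x y 8 + W.co n y z 8) =
          W.co n x y 2 * W.co n y z 4 + 2 * (W.co n x y 1 * W.co n y z 6) := by
        rw [a]; simp [comp]; ring
      rw [e]
      have t1 := bd2D (b1 2) s4
      have t2 := bd2D (b1 1) s6
      have w1 : side W n 2 * (W.B'.d n ^ tp * side W n 4) ≤ W.B'.d n ^ tp * side W n 8 := by
        have := mul_le_mul_of_nonneg_left hS.w8 r0
        linarith [mul_left_comm (side W n 2) (W.B'.d n ^ tp) (side W n 4)]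
      have w2 : side W n 1 * (W.B'.d n ^ tp * side W n 6) ≤ W.B'.d n ^ tp * side W n 8 := by
        have := mul_le_mul_of_nonneg_left hS.w8' r0
        linarith [mul_left_comm (side W n 1) (W.B'.d n ^ tp) (side W n 6)]
      refine (abs_add_le _ _).trans ?_
      rw [abs_mul 2, abs_two]
      linarith
    · have e : W.co n x z 2 - (W.co n x y 2 + W.co n y z 2) =
          -(2 * (W.co n x y 1 * W.co n y z 0)) := by
        rw [a]; simp [comp]
      rw [e, abs_neg]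
      have s1 := h.bdl g hx hy l1 c1 c2
      have t1 := bd2D s1 (b2 0)
      have w1 : W.B'.d n ^ tp * side W n 1 * side W n 0 ≤ W.B'.d n ^ tp * side W n 2 := by
        have := mul_le_mul_of_nonneg_left hS.w2 r0
        linarith [mul_comm (side W n 0) (side W n 1),
          mul_assoc (W.B'.d n ^ tp) (side W n 1) (side W n 0)]
      rw [abs_mul 2, abs_two]
      linarith
  have e2 : W.crd n x z t - (W.crd n x y t + W.crd n y z t) =
      (W.co n x z t - (W.co n x y t + W.co n y z t)) / side W n t := by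
    show W.co n x z t / side W n t - (W.co n x y t / side W n t + W.co n y z t / side W n t) = _
    rw [← add_div, ← sub_div]
  rw [e2, abs_div, abs_of_pos sp, div_le_iff₀ sp]
  linarith


variable {rl : ∀ n, ι n → ℕ} {N : ℕ → ℝ} {κ : Type*} [DecidableEq κ] {cw : ∀ n, ι n → κ}
  {t : Fin 12} {Sl : Set ℝ} {x γ : ℝ} {E' : ∀ n, Finset (ι n)} {g : ℕ → ℝ}
  {ex : ℕ → ∀ n, ι n → ℕ}



end Crest.Agent.R116.Kj899
end

-- ▼ part R116/TieW1_369
section

/-!
# R116, ties (helper369): windows on the tie planes, part 1: static data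

Level slots `S`, dropped slots `Dr` (base raised there, not resolved), resolution `t`.

* `WSD S Dr` : the combinatorial conditions; `wsd_e` : `S = {0, 7, 8}`, `Dr = {1, 2}`; `wsd_k` :
  `S = {0, 2}`, `Dr = {1}`; `wsd_d` : `S = {0, 1, 2}`, `Dr = ∅`; `wsd_z` : `S = {0}`, `Dr = {1}`.
* `stX S Dr K t` : static data; `stX_ok`.
* `cT S Dr t p` : `t` on `S`, `0` on `Dr`, `p` elsewhere; `legT`, `nuT` : legal set and profile of the
  model; `dropX Dr` : forget the slots of `Dr`; `model_drop`.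
* `TieM` : the model.
-/

set_option autoImplicit false
set_option linter.unusedVariables false
set_option linter.unusedSectionVars false

open Finset Filter Topology

namespace Crest.Agent.R116.Tw369

open Crest.Agent.R138.Ex926
open Crest.Agent.R136.Net191 Crest.Agent.R136.Gf356 Crest.Agent.R136.Qg926
open Crest.Agent.R116.ChL222 Crest.Agent.R116.PL504 Crest.Agent.R116.EvL504
open Crest.Agent.R116.EvD369

/-- the monomials without the slots of `Dr` -/
def monX (Dr : Finset (Fin 12)) : Mons 12 where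
  mon := fun k => (monL.mon k).filter fun e => ∀ s ∈ Dr, e s = 0
  low := fun k e he s hs => monL.low k e (Finset.mem_filter.1 he).1 s hs
  ne := fun k e he => monL.ne k e (Finset.mem_filter.1 he).1

theorem mem_monX {Dr : Finset (Fin 12)} {k : Fin 12} {e : Fin 12 → ℕ} :
    e ∈ (monX Dr).mon k ↔ e ∈ monL.mon k ∧ ∀ s ∈ Dr, e s = 0 := Finset.mem_filter

/-- combinatorial conditions on the level slots and the dropped slots -/
structure WSD (S Dr : Finset (Fin 12)) : Prop where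
  z : (0 : Fin 12) ∈ S
  hSL : S ⊆ EvL504.SL
  hDr : ∀ s ∈ Dr, s = 1 ∨ s = 2
  dis : ∀ s ∈ S, s ∉ Dr
  lev : ∀ k ∈ S, ∀ e ∈ monL.mon k, (∀ s ∈ Dr, e s = 0) → ∃ s ∈ S, e s ≠ 0
  lin : ∀ k, k ∉ S → k ∉ Dr → ∀ e ∈ monL.mon k, (∀ s ∈ Dr, e s = 0) →
    ∃ s, s ∉ S ∧ s ∉ Dr ∧ e s ≠ 0

theorem wsd_e : WSD {0, 7, 8} {1, 2} where
  z := by decide
  hSL := by decide
  hDr := by decide
  dis := by decide
  lev := by decide +kernel
  lin := by decide +kernel

theorem wsd_k : WSD {0, 2} {1} where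
  z := by decide
  hSL := by decide
  hDr := by decide
  dis := by decide
  lev := by decide +kernel
  lin := by decide +kernel


theorem wsd_d : WSD {0, 1, 2} ∅ where
  z := by decide
  hSL := by decide
  hDr := by decide
  dis := by decide
  lev := by decide +kernel
  lin := by decide +kernel

/-- `t` on `S`, `0` on `Dr`, `p` elsewhere -/
def cT (S Dr : Finset (Fin 12)) (t : ℝ) (p : Fin 12 → ℝ) : Fin 12 → ℝ := fun k =>
  if k ∈ Dr then 0 else if k ∈ S then t else p k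

/-- `0` on `S ∪ Dr`, `p` elsewhere -/
def cL (S Dr : Finset (Fin 12)) (p : Fin 12 → ℝ) : Fin 12 → ℝ := fun k =>
  if k ∈ Dr then 0 else if k ∈ S then 0 else p k

/-- **static data of the tie windows** -/
noncomputable def stX (S Dr : Finset (Fin 12)) (K t : ℝ) : WSt 12 where
  S := S
  kz := 0
  top := fun k => if k ∈ Dr then 0 else t
  kap := fun s => K ^ wtL s
  Mw := monX Dr
  R' := t

section static

variable {S Dr : Finset (Fin 12)} {t : ℝ}

theorem sum_ge {e : Fin 12 → ℕ} {p : Fin 12 → ℝ} (hp : ∀ s, 0 ≤ p s) {s : Fin 12} (hs : e s ≠ 0) :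
    p s ≤ ∑ k, (e k : ℝ) * p k := by
  have h1 : (e s : ℝ) * p s ≤ ∑ k, (e k : ℝ) * p k :=
    Finset.single_le_sum (f := fun k => (e k : ℝ) * p k)
      (fun k _ => mul_nonneg (Nat.cast_nonneg _) (hp k)) (Finset.mem_univ s)
  have h2 : (1 : ℝ) ≤ e s := by exact_mod_cast Nat.one_le_iff_ne_zero.2 hs
  nlinarith [hp s]

theorem stX_top (K : ℝ) (k : Fin 12) : (stX S Dr K t).top k = if k ∈ Dr then 0 else t := rfl

theorem cut_lin (h : WSD S Dr) (K : ℝ) : cut S (stX S Dr K t).top 0 = cL S Dr fun _ => t := by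
  funext k
  unfold cL
  by_cases hS : k ∈ S
  · rw [cut_of_mem hS, if_neg (h.dis k hS), if_pos hS]; rfl
  · rw [cut_of_notMem hS, stX_top, if_neg hS]

theorem cut_lev (h : WSD S Dr) (K : ℝ) : cut S 0 (stX S Dr K t).top = cT S Dr t 0 := by
  funext k
  unfold cT
  by_cases hS : k ∈ S
  · rw [cut_of_mem hS, stX_top, if_neg (h.dis k hS), if_neg (h.dis k hS), if_pos hS]
  · rw [cut_of_notMem hS, if_neg hS]
    split_ifs <;> rfl

theorem cut_top (h : WSD S Dr) (K : ℝ) {p : Fin 12 → ℝ} (hp : ∀ s ∈ Dr, p s = 0) :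
    cut S p (stX S Dr K t).top = cT S Dr t p := by
  funext k
  unfold cT
  by_cases hS : k ∈ S
  · rw [cut_of_mem hS, stX_top, if_neg (h.dis k hS), if_neg (h.dis k hS), if_pos hS]
  · rw [cut_of_notMem hS, if_neg hS]
    split_ifs with h1
    · exact hp k h1
    · rfl

theorem top_cT (h : WSD S Dr) (K : ℝ) : (stX S Dr K t).top = cT S Dr t fun _ => t := by
  funext k
  rw [stX_top]
  unfold cT
  split_ifs <;> rfl

theorem legX {p : Fin 12 → ℝ} (h0 : ∀ k, 0 ≤ p k ∧ p k ≤ t)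
    (hw : ∀ k, ∀ e ∈ monL.mon k, (∀ s ∈ Dr, e s = 0) → p k = 0 ∨ p k ≤ t ∧ ∃ s, e s ≠ 0 ∧ p s = t) :
    p ∈ Leg (monX Dr) t := by
  refine ⟨⟨fun k => (h0 k).1, fun k e he => ?_⟩, fun k => (h0 k).2⟩
  obtain ⟨h1, h2⟩ := mem_monX.1 he
  rcases hw k e h1 h2 with h3 | ⟨h3, s, h4, h5⟩
  · rw [h3]
    exact Finset.sum_nonneg fun s _ => mul_nonneg (Nat.cast_nonneg _) (h0 s).1
  · have := sum_ge (fun s => (h0 s).1) h4
    linarith

theorem top_leg (h : WSD S Dr) (ht : 0 ≤ t) : (cT S Dr t fun _ => t) ∈ Leg (monX Dr) t := by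
  have hv : ∀ k, (cT S Dr t fun _ => t) k = if k ∈ Dr then 0 else t := by
    intro k; unfold cT; split_ifs <;> rfl
  refine legX (fun k => ?_) fun k e he hD => ?_
  · rw [hv]; split_ifs
    · exact ⟨le_rfl, ht⟩
    · exact ⟨ht, le_rfl⟩
  · right
    constructor
    · rw [hv]; split_ifs
      · exact ht
      · exact le_rfl
    · obtain ⟨s, hs⟩ := monL.ne k e he
      refine ⟨s, hs, ?_⟩
      rw [hv, if_neg fun h1 => hs (hD s h1)]

theorem lin_leg (h : WSD S Dr) (ht : 0 ≤ t) : (cL S Dr fun _ => t) ∈ Leg (monX Dr) t := by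
  refine legX (fun k => ?_) fun k e he hD => ?_
  · unfold cL; split_ifs
    · exact ⟨le_rfl, ht⟩
    · exact ⟨le_rfl, ht⟩
    · exact ⟨ht, le_rfl⟩
  · by_cases h1 : k ∈ Dr
    · left; unfold cL; rw [if_pos h1]
    by_cases h2 : k ∈ S
    · left; unfold cL; rw [if_neg h1, if_pos h2]
    right
    obtain ⟨s, s1, s2, s3⟩ := h.lin k h2 h1 e he hD
    refine ⟨by unfold cL; rw [if_neg h1, if_neg h2], s, s3, ?_⟩
    unfold cL
    rw [if_neg s2, if_neg s1]

theorem lev_leg (h : WSD S Dr) (ht : 0 ≤ t) : cT S Dr t 0 ∈ Leg (monX Dr) t := by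
  refine legX (fun k => ?_) fun k e he hD => ?_
  · unfold cT; split_ifs
    · exact ⟨le_rfl, ht⟩
    · exact ⟨ht, le_rfl⟩
    · exact ⟨le_rfl, ht⟩
  · by_cases h2 : k ∈ S
    · right
      obtain ⟨s, s1, s3⟩ := h.lev k h2 e he hD
      refine ⟨by unfold cT; rw [if_neg (h.dis k h2), if_pos h2], s, s3, ?_⟩
      unfold cT
      rw [if_neg (h.dis s s1), if_pos s1]
    · left; unfold cT; split_ifs <;> rfl

theorem stX_ok (h : WSD S Dr) {K : ℝ} (hK : 0 < K) (ht : 0 ≤ t) {D : Set (Fin 12 → ℝ)}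
    (hD : Leg (monX Dr) t ⊆ D) : (stX S Dr K t).Ok monL D where
  R0 := ht
  leg := hD
  top_leg := by rw [top_cT h]; exact top_leg h ht
  lin_leg := by
    show cut S (stX S Dr K t).top 0 ∈ _
    rw [cut_lin h]; exact lin_leg h ht
  lev_leg := by
    show cut S 0 (stX S Dr K t).top ∈ _
    rw [cut_lev h]; exact lev_leg h ht
  kzS := h.z
  kz0 := rfl
  kzw := by
    show (monX Dr).mon 0 = ∅
    exact Finset.filter_empty _
  kap := fun s => pow_pos hK _

/-- legal boxes of the model -/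
def legT (S Dr : Finset (Fin 12)) (t : ℝ) : Set (Fin 12 → ℝ) := {p | cT S Dr t p ∈ Leg (monX Dr) t}

/-- profile of the model -/
noncomputable def nuT (S Dr : Finset (Fin 12)) (t : ℝ) (lam : (Fin 12 → ℝ) → ℝ)
    (p : Fin 12 → ℝ) : ℝ := lam (cT S Dr t p) - lam (cT S Dr t fun _ => t)

/-- density of the tangent in the window -/
structure DensT (S Dr : Finset (Fin 12)) (t σ : ℝ) (lam : (Fin 12 → ℝ) → ℝ) : Prop where
  dens : lam (cT S Dr t fun _ => t) ≤ lam (cL S Dr fun _ => t) + lam (cT S Dr t 0)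
  σ0 : 0 ≤ σ
  σ1 : σ ≤ 1
  frost : ∀ y, 0 ≤ y → y ≤ t → lam (Pi.single 0 y) ≤ -(σ * y)

theorem DensT.st (h : WSD S Dr) {σ K : ℝ} {lam : (Fin 12 → ℝ) → ℝ} (H : DensT S Dr t σ lam) :
    (stX S Dr K t).Dens lam σ t where
  dens := by
    show lam (stX S Dr K t).top ≤ lam (cut S (stX S Dr K t).top 0) +
      lam (cut S 0 (stX S Dr K t).top)
    rw [cut_lin h, cut_lev h, top_cT h]
    exact H.dens
  σ0 := H.σ0
  σ1 := H.σ1
  hR := by
    show t ≤ (stX S Dr K t).top 0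
    rw [stX_top, if_neg (h.dis 0 h.z)]
  frost := H.frost

end static

/-! ### forget slots -/

/-- forget the slots of `Dr` -/
def dropX (Dr : Finset (Fin 12)) (G : RCfg (Fin 12)) : RCfg (Fin 12) where
  ρ := G.ρ
  L := G.L
  Z := G.Z
  I := G.I
  z := G.z
  rel k i l := LnS Dr (G.rel k i l)

theorem dropX_insert {j : Fin 12} {Dr Dr' : Finset (Fin 12)}
    (hD : ∀ s, s ∈ Dr ↔ s = j ∨ s ∈ Dr') (G : RCfg (Fin 12)) :
    dropX Dr G = EvL504.drop j (dropX Dr' G) := by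
  have e : (fun k i l => LnS Dr (G.rel k i l)) =
      fun k i l s => if s = j then 0 else LnS Dr' (G.rel k i l) s := by
    funext k i l s
    unfold LnS
    by_cases h1 : s = j
    · simp [hD, h1]
    · simp [hD, h1]
  unfold dropX EvL504.drop
  simp only [RCfg.mk.injEq, true_and]
  exact e

theorem dropX_empty (G : RCfg (Fin 12)) : dropX ∅ G = G := by
  have e : (fun k i l => LnS ∅ (G.rel k i l)) = G.rel := by
    funext k i l s
    simp [LnS]
  unfold dropX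
  rw [e]

/-- `0` on `Dr` -/
theorem upd_LnS {j : Fin 12} {Dr Dr' : Finset (Fin 12)} (hD : ∀ s, s ∈ Dr ↔ s = j ∨ s ∈ Dr')
    (p : Fin 12 → ℝ) : LnS Dr' (Function.update p j 0) = LnS Dr p := by
  funext s
  unfold LnS
  by_cases h1 : s = j
  · subst h1
    simp [hD]
  · simp [hD, h1]

/-- **models, the slots of `Dr` forgotten** -/
theorem model_drop {B : Base} {G : ℕ → RCfg (Fin 12)} {Leg : Set (Fin 12 → ℝ)}
    {ν : (Fin 12 → ℝ) → ℝ} {σ R D : ℝ} (H : RModel B G σ R Leg ν D)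
    (hb : ∀ ε : ℝ, 0 < ε → ∀ᶠ n in (U : Filter ℕ), ∀ k i l, (i, k) ∈ (G n).I →
      (l, k) ∈ (G n).I → ∀ s, |(G n).rel k i l s| ≤ B.d n ^ (-ε)) (Dr : Finset (Fin 12)) :
    RModel B (fun n => dropX Dr (G n)) σ R {p | LnS Dr p ∈ Leg} (fun p => ν (LnS Dr p)) D := by
  induction Dr using Finset.induction_on with
  | empty =>
    have e1 : (fun n => dropX ∅ (G n)) = G := funext fun n => dropX_empty _
    have e2 : ∀ p : Fin 12 → ℝ, LnS ∅ p = p := fun p => by funext s; simp [LnS]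
    have e3 : {p : Fin 12 → ℝ | LnS ∅ p ∈ Leg} = Leg := by ext p; simp [e2]
    have e4 : (fun p => ν (LnS ∅ p)) = ν := by funext p; rw [e2]
    rw [e1, e3, e4]
    exact H
  | insert j Dr' hj ih =>
    have hD : ∀ s, s ∈ insert j Dr' ↔ s = j ∨ s ∈ Dr' := fun s => Finset.mem_insert
    have e1 : (fun n => dropX (insert j Dr') (G n)) =
        fun n => EvL504.drop j (dropX Dr' (G n)) := funext fun n => dropX_insert hD _
    have e4 : (fun p => ν (LnS (insert j Dr') p)) =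
        fun p => ν (LnS Dr' (Function.update p j 0)) := by
      funext p; rw [upd_LnS hD]
    rw [e1, e4]
    refine ih.drop (j := j) ?_ ?_
    · intro ε hε
      filter_upwards [hb ε hε] with n hn
      intro k i l hi hl
      show |LnS Dr' ((G n).rel k i l) j| ≤ _
      have e : LnS Dr' ((G n).rel k i l) j = (G n).rel k i l j := if_neg hj
      rw [e]
      exact hn k i l hi hl j
    · intro p hp
      show LnS Dr' (Function.update p j 0) ∈ Leg
      rw [upd_LnS hD]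
      exact hp

/-! ### the model of a tie window -/

/-- **model of a tie window** -/
structure TieM (S Dr Ts : Finset (Fin 12)) (σ t : ℝ) (lam : (Fin 12 → ℝ) → ℝ) (B' : Base)
    (G : ℕ → RCfg (Fin 12)) (own : ℕ → ℕ → ℕ → ℕ → Fin 12 → ℝ) (D : ℝ) : Prop where
  mod : RModel B' G σ t (legT S Dr t) (nuT S Dr t lam) D
  law : Kr710.LLaw B' G (S ∪ Dr) own t
  own0 : ∀ n i k0 k, ∀ s ∈ Dr, own n i k0 k s = 0
  thin : ∀ j ∈ Ts, ∃ γ : ℝ, 0 < γ ∧ KW420.OwnThin B' G own j γ t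

end Crest.Agent.R116.Tw369
end

-- ▼ part R116/Dir1_369
section

/-!
# R116, K-TEXT II-c (helper369): 420's `Dir` for the configurations of 926

* `tu l s` : direction of the flag (`tau` of 954, a fixed unit vector if the flag vanishes).
* `DimD` : the hypotheses of 954's `dim_window` and of `dimB_window`.
* **`dir_of`** : `Dir W.B' (W.cfg E) (ownL W) u v x` for every `x`; **`dir_drop`** : the same with the
  slot `D` forgotten.
-/

set_option autoImplicit false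
set_option linter.unusedVariables false

open Finset Filter Topology

namespace Crest.Agent.R116.Bd369

open Crest.Agent.R138.Ex926
open Crest.Agent.R138
open Crest.Agent.R136.Net191
open Crest.Agent.R136.Qg926
open Crest.Agent.R116.ChL222
open Crest.Agent.R116.Xd954
open Crest.Agent.R116.EvL504
open Crest.Agent.R116.KW420

/-- direction of the flag, a unit vector in all cases -/
noncomputable def tu (l : LInc) (s : Fin 2) : ℝ :=
  if 0 < bb l 0 ^ 2 + bb l 1 ^ 2 then tau l s else (if s = 0 then 1 else 0)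

theorem tu_unit (l : LInc) : tu l 0 ^ 2 + tu l 1 ^ 2 = 1 := by
  by_cases h : 0 < bb l 0 ^ 2 + bb l 1 ^ 2
  · have e : ∀ s, tu l s = tau l s := fun s => if_pos h
    rw [e, e]
    exact tau_sq h
  · have e0 : tu l 0 = 1 := by unfold tu; rw [if_neg h]; simp
    have e1 : tu l 1 = 0 := by unfold tu; rw [if_neg h]; simp
    rw [e0, e1]
    norm_num

theorem tu_eq {l : LInc} (h : 0 < bb l 0 ^ 2 + bb l 1 ^ 2) (s : Fin 2) : tu l s = tau l s :=
  if_pos h

/-- hypotheses of `dim_window` and `dimB_window` -/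
structure DimD (W : Wnd 12 (fun _ => ℕ × ℝ)) (I : ℕ → Finset (ℕ × ℝ)) (lev : ℕ → ℚ → ℕ)
    (inc : ℕ → ℕ × ℝ → LInc) (σ : Fin 2 → ℕ → ℝ) (k0 ϑ w0 sa sb v t y δ : ℝ) : Prop where
  co : W.co = Gd222.coN W.B lev inc σ w0 sa sb
  cl : ∀ᶠ n in (U : Filter ℕ), W.Cl n ⊆ I n
  fe : FlagE W.B I lev inc σ k0 ϑ
  fn : FlagN W.B I inc σ
  big : ∀ᶠ n in (U : Filter ℕ), ∀ x ∈ I n, 1 / 4 ≤ bb (inc n x) 0 ^ 2 + bb (inc n x) 1 ^ 2
  mrg : Mrg k0 ϑ v t y δ
  mty : 3 * δ ≤ t - y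
  X : ∀ᶠ n in (U : Filter ℕ), ∀ k, 3 ≤ k → |W.X n k - PL504.nb w0 sa sb v t y k| ≤ δ / 2
  X3 : ∀ᶠ n in (U : Filter ℕ), W.X n 3 = W.X n 4
  X5 : ∀ᶠ n in (U : Filter ℕ), W.X n 5 = W.X n 6
  X7 : ∀ᶠ n in (U : Filter ℕ), W.X n 7 = W.X n 8
  k3 : W.kap 3 = W.kap 4
  k5 : W.kap 5 = W.kap 6
  k7 : W.kap 7 = W.kap 8
  w0' : Tendsto W.w U (𝓝 0)

variable {W : Wnd 12 (fun _ => ℕ × ℝ)} {I : ℕ → Finset (ℕ × ℝ)} {lev : ℕ → ℚ → ℕ}
    {inc : ℕ → ℕ × ℝ → LInc} {σ : Fin 2 → ℕ → ℝ} {k0 ϑ w0 sa sb v t y δ : ℝ}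

/-- the three pairs of slots along the flag of `s₀` are smaller than every power of `ρ` -/
theorem DimD.all (ok : W.Ok) (h : DimD W I lev inc σ k0 ϑ w0 sa sb v t y δ) (x : ℝ) :
    ∀ᶠ n in (U : Filter ℕ), ∀ i ∈ W.Cl n, ∀ j ∈ W.Cl n,
      |tu (inc n (W.s₀ n)) 0 * W.crd n i j 3 + tu (inc n (W.s₀ n)) 1 * W.crd n i j 4| ≤
        W.B'.d n ^ x ∧
      |tu (inc n (W.s₀ n)) 0 * W.crd n i j 5 + tu (inc n (W.s₀ n)) 1 * W.crd n i j 6| ≤
        W.B'.d n ^ x ∧
      |tu (inc n (W.s₀ n)) 0 * W.crd n i j 7 + tu (inc n (W.s₀ n)) 1 * W.crd n i j 8| ≤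
        W.B'.d n ^ x := by
  filter_upwards [dim_window ok h.co h.cl h.fe h.big h.mrg h.X h.X3 h.X5 h.k3 h.k5 h.w0' x,
    dimB_window ok h.co h.cl h.fe h.fn h.big h.mrg h.mty h.X h.X7 h.k7 h.w0' x, ok.ev_good,
    h.cl, h.big] with n a1 a2 g hcl hb i hi j hj
  have hs := hb _ (hcl g.s0)
  have hp : 0 < bb (inc n (W.s₀ n)) 0 ^ 2 + bb (inc n (W.s₀ n)) 1 ^ 2 := by linarith
  rw [tu_eq hp, tu_eq hp]
  obtain ⟨b1, b2⟩ := a1 i hi j hj
  exact ⟨b1, b2, a2 i hi j hj⟩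

/-- **`Dir` in the window** -/
theorem dir_of (ok : W.Ok) (hS : W.S ⊆ SL) {E : ∀ n : ℕ, Finset (ℕ × ℝ)}
    (hE : ∀ᶠ n in (U : Filter ℕ), Reg W E n)
    (h : DimD W I lev inc σ k0 ϑ w0 sa sb v t y δ) (x : ℝ) :
    Dir W.B' (W.cfg E) (ownL W) (fun n => tu (inc n (W.s₀ n)) 0)
      (fun n => tu (inc n (W.s₀ n)) 1) x where
  unit := fun n => tu_unit _
  tc := by
    intro ε hε
    filter_upwards [h.all ok (x - ε), hE] with n a r
    intro k i l hi hl
    rw [r.rel_of (fun hh => absurd (hS hh) (by decide)),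
      r.rel_of (fun hh => absurd (hS hh) (by decide))]
    exact (a _ (r.spec hi).1 _ (r.spec hl).1).1
  tx := by
    intro ε hε
    filter_upwards [h.all ok (x - ε), hE] with n a r
    intro k i l hi hl
    rw [r.rel_of (fun hh => absurd (hS hh) (by decide)),
      r.rel_of (fun hh => absurd (hS hh) (by decide))]
    exact (a _ (r.spec hi).1 _ (r.spec hl).1).2.1
  tow := by
    intro ε hε
    filter_upwards [h.all ok (x - ε), hE] with n a r
    intro i k0 k hi hi'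
    exact (a _ (r.spec hi').1 _ (r.spec hi).1).2.2


end Crest.Agent.R116.Bd369
end

-- ▼ part R116/Ctd_369
section

/-!
# R116, ties (helper369): `CtxT → DimD`

* `CtxT.dimD` : every window of 926 built on a `CtxT` whose base is within `δ/2` of a natural box
  `nb w0 sa sb v t y` (`0 < t`, `y < t`, `0 < v + t`) in the slots `≥ 3`;
* `CtxT.dimD_lim` : the same for bases which converge in the slots `≥ 3` to the record point `rL .. v`,
  `0 < v < 1`, `θ 1 < θ 0`, `0 < θ 0`.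
-/

set_option autoImplicit false
set_option linter.unusedVariables false

open Finset Filter Topology

namespace Crest.Agent.R116.Ctd369

open Crest.Agent.R138.Ex926 (Base U)
open Crest.Agent.R136.MkA627
open Crest.Agent.R136.Net191
open Crest.Agent.R136.TD627
open Crest.Agent.R136.Lq196
open Crest.Agent.R136.Qg926
open Crest.Agent.R116.LZg725
open Crest.Agent.R116.ChL222
open Crest.Agent.R116.PL504 (βL eL rL oL Shift nb DN)
open Crest.Agent.R116.Gd222 (TSet sN PDL DT vb)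
open Crest.Agent.R116.KI439
open Crest.Agent.R116.KF439 (PL Thin frF flF scN)
open Crest.Agent.R116.Tw468
open Crest.Agent.R116.CtxB468
open Crest.Agent.R116.Xd954
open Crest.Agent.R116.Bd369

variable {G : Geo TSet (Fin 2)} {L : ℕ → ℕ → LRay} {r : ℕ → ℝ} {g s : ℝ} {θ q : Fin 2 → ℝ}
    {Rg : ℝ} {B : Base} {I : ℕ → Finset (ℕ × ℝ)} {lev : ℕ → ℚ → ℕ} {A : ℕ → ℝ}
    {f : ℕ → ℚ → ℕ → ℤ → ℕ} {b : ℕ → ℚ → ℕ → TSet} {vm : ℕ → ℚ → ℝ} {w : Fin 2 → ℕ → ℚ → ℝ}
    {fr : ℕ → ℚ → ℕ × ℝ → LInc} {fl : ℕ → ℕ × ℝ → LInc} {sc : Fin 12 → ℕ → ℝ}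
    {w0 sa sb δ R : ℝ} {I0 I' : ℕ → Finset (ℕ × ℝ)} {ν own : (Fin 12 → ℝ) → ℝ} {c₀ : ℝ}

/-- the flag is never small -/
theorem _root_.Crest.Agent.R116.CtxB468.CtxT.big
    (h : CtxT G L r g s θ q Rg B I lev A f b vm w fr fl sc w0 sa sb δ R I0 I' ν own c₀) :
    ∀ᶠ n in (U : Filter ℕ), ∀ x ∈ I n, 1 / 4 ≤ bb (fl n x) 0 ^ 2 + bb (fl n x) 1 ^ 2 := by
  obtain ⟨c, hc⟩ := h.out.ax
  filter_upwards [hc] with n hn x hx
  have h1 := (hn x hx).1
  rw [← bb_vb] at h1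
  have h2 : (1 : ℝ) / 4 ≤ bb (fl n x) c ^ 2 := by
    rw [← sq_abs]
    nlinarith [abs_nonneg (bb (fl n x) c)]
  fin_cases c
  · have := sq_nonneg (bb (fl n x) 1)
    simp only [Fin.zero_eta] at h2
    linarith
  · have := sq_nonneg (bb (fl n x) 0)
    simp only [Fin.mk_one] at h2
    linarith

/-- **`CtxT → DimD`** : windows near a natural box in the slots `≥ 3` -/
theorem _root_.Crest.Agent.R116.CtxB468.CtxT.dimD
    (h : CtxT G L r g s θ q Rg B I lev A f b vm w fr fl sc w0 sa sb δ R I0 I' ν own c₀)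
    {W : Wnd 12 (fun _ => ℕ × ℝ)} (hB : W.B = B) (hco : W.co = PL504.coN B lev w w0 sa sb fl)
    (hcl : ∀ᶠ n in (U : Filter ℕ), W.Cl n ⊆ I n) {v t y ε : ℝ} (hε : 0 < ε) (h1 : 3 * ε ≤ t)
    (h2 : 3 * ε ≤ t - y) (h3 : 3 * ε ≤ v + t)
    (hX : ∀ᶠ n in (U : Filter ℕ), ∀ k, 3 ≤ k → |W.X n k - nb w0 sa sb v t y k| ≤ ε / 2)
    (X3 : ∀ᶠ n in (U : Filter ℕ), W.X n 3 = W.X n 4)
    (X5 : ∀ᶠ n in (U : Filter ℕ), W.X n 5 = W.X n 6)
    (X7 : ∀ᶠ n in (U : Filter ℕ), W.X n 7 = W.X n 8)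
    (k3 : W.kap 3 = W.kap 4) (k5 : W.kap 5 = W.kap 6) (k7 : W.kap 7 = W.kap 8)
    (hw : Tendsto W.w U (𝓝 0)) :
    DimD W I lev fl (sN lev w) (3 * ε + t - y) 0 w0 sa sb v t y ε := by
  subst hB
  exact
    { co := hco
      cl := hcl
      fe := h.fE (fun n => Finset.Subset.refl _) _
      fn := h.fN (fun n => Finset.Subset.refl _)
      big := h.big
      mrg := ⟨hε, h1, by linarith, by linarith⟩
      mty := h2
      X := hX
      X3 := X3
      X5 := X5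
      X7 := X7
      k3 := k3
      k5 := k5
      k7 := k7
      w0' := hw }

/-- **`CtxT → DimD`** : bases converging to the record point in the slots `≥ 3` -/
theorem _root_.Crest.Agent.R116.CtxB468.CtxT.dimD_lim
    (h : CtxT G L r g s θ q Rg B I lev A f b vm w fr fl sc w0 sa sb δ R I0 I' ν own c₀)
    (hθ0 : 0 < θ 0) (hθ : θ 1 < θ 0)
    {W : Wnd 12 (fun _ => ℕ × ℝ)} (hB : W.B = B) (hco : W.co = PL504.coN B lev w w0 sa sb fl)
    (hcl : ∀ᶠ n in (U : Filter ℕ), W.Cl n ⊆ I n) {v : ℝ} (hv0 : 0 < v) (hv1 : v < 1)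
    (hX : ∀ k, 3 ≤ k → Tendsto (fun n => W.X n k) U (𝓝 (rL (θ 0) (θ 1) w0 sa sb v k)))
    (X3 : ∀ᶠ n in (U : Filter ℕ), W.X n 3 = W.X n 4)
    (X5 : ∀ᶠ n in (U : Filter ℕ), W.X n 5 = W.X n 6)
    (X7 : ∀ᶠ n in (U : Filter ℕ), W.X n 7 = W.X n 8)
    (k3 : W.kap 3 = W.kap 4) (k5 : W.kap 5 = W.kap 6) (k7 : W.kap 7 = W.kap 8)
    (hw : Tendsto W.w U (𝓝 0)) :
    ∃ k0 ε : ℝ, DimD W I lev fl (sN lev w) k0 0 w0 sa sb v (θ 0 * (1 - v)) (θ 1 * (1 - v)) ε := by
  have hv : 0 < 1 - v := by linarith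
  have e1 : 0 < θ 0 * (1 - v) := mul_pos hθ0 hv
  have e2 : 0 < θ 0 * (1 - v) - θ 1 * (1 - v) := by nlinarith
  set ε : ℝ := min (θ 0 * (1 - v)) (θ 0 * (1 - v) - θ 1 * (1 - v)) / 3 with hε
  have hε0 : 0 < ε := by
    have := lt_min e1 e2
    positivity
  have a1 : 3 * ε ≤ θ 0 * (1 - v) := by
    have := min_le_left (θ 0 * (1 - v)) (θ 0 * (1 - v) - θ 1 * (1 - v))
    linarith
  have a2 : 3 * ε ≤ θ 0 * (1 - v) - θ 1 * (1 - v) := by
    have := min_le_right (θ 0 * (1 - v)) (θ 0 * (1 - v) - θ 1 * (1 - v))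
    linarith
  have e3 : rL (θ 0) (θ 1) w0 sa sb v = nb w0 sa sb v (θ 0 * (1 - v)) (θ 1 * (1 - v)) := by
    unfold rL nb
    rw [add_comm (θ 0 * (1 - v)) sa, add_comm (θ 1 * (1 - v)) sb]
  refine ⟨_, ε, h.dimD hB hco hcl hε0 a1 a2 (by linarith) ?_ X3 X5 X7 k3 k5 k7 hw⟩
  refine eventually_all.2 fun k => ?_
  by_cases hk : 3 ≤ k
  · have h4 := (Metric.tendsto_nhds.1 (hX k hk)) (ε / 2) (by positivity)
    filter_upwards [h4] with n hn _
    rw [Real.dist_eq, e3] at hn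
    exact hn.le
  · exact Eventually.of_forall fun n hh => absurd hh hk

end Crest.Agent.R116.Ctd369
end

-- ▼ part R116/TieW2_369
section

/-!
# R116, ties (helper369): windows on the tie planes, part 2: existence

* `TBase` : the base points (raised in the slots of `Dr`, on the tie in the slots of `S`).
* `TWin` : the window; `exists_twin`.
-/

set_option autoImplicit false
set_option linter.unusedVariables false
set_option linter.unusedSectionVars false

open Finset Filter Topology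

namespace Crest.Agent.R116.Tw369

open Crest.Agent.R138.Ex926
open Crest.Agent.R138.Mk163 (zc zl rho alive)
open Crest.Agent.R136.Net191 Crest.Agent.R136.Gf356 Crest.Agent.R136.Qg926
open Crest.Agent.R136.MkA627 Crest.Agent.R136.TD627 Crest.Agent.R136.Lq196
open Crest.Agent.R116.LZg725 Crest.Agent.R116.ChL222
open Crest.Agent.R116.EvL504 (WL Reg side natD LnS ownL)
open Crest.Agent.R116.PL504 (βL eL rL oL Shift nb DN prN wtL)
open Crest.Agent.R116.Gd222 (TSet sN PDL DT vb)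
open Crest.Agent.R116.KI439
open Crest.Agent.R116.KF439 (PL Thin)
open Crest.Agent.R116.Tw468 Crest.Agent.R116.CtxB468
open Crest.Agent.R116.EvD369 Crest.Agent.R116.Kst593

/-- **base points of the windows**: any legal points with the slots of `S` on the tie, converging
to the record point `rL .. v0` in the slots `≥ 3` -/
structure TBase (θ0 θ1 w0 sa sb v0 : ℝ) (S : Finset (Fin 12)) (X : ℕ → Fin 12 → ℝ)
    (v : ℕ → ℝ) : Prop where
  v00 : 0 < v0
  v01 : v0 < 1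
  hv : Tendsto v atTop (𝓝 v0)
  z : ∀ l, X l 0 = w0 + v l
  tie : ∀ l, ∀ k ∈ S, X l k = rL θ0 θ1 w0 sa sb (v l) k

/-- drop the first `N` terms -/
theorem TBase.tail {θ0 θ1 w0 sa sb v0 : ℝ} {S : Finset (Fin 12)} {X : ℕ → Fin 12 → ℝ}
    {v : ℕ → ℝ} (h : TBase θ0 θ1 w0 sa sb v0 S X v) (N : ℕ) :
    TBase θ0 θ1 w0 sa sb v0 S (fun l => X (l + N)) (fun l => v (l + N)) where
  v00 := h.v00
  v01 := h.v01
  hv := h.hv.comp (tendsto_add_atTop_nat N)
  z := fun l => h.z (l + N)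
  tie := fun l => h.tie (l + N)

/-- tail of a tangent -/
theorem tan_tail {V : Type*} [NormedAddCommGroup V] [NormedSpace ℝ V] {P D : Set V}
    {ν lam : V → ℝ} {x : ℕ → V} {h : ℕ → ℝ} (H : IsTan P D ν x h lam) (N : ℕ) :
    IsTan P D ν (fun l => x (l + N)) (fun l => h (l + N)) lam := fun C ε hε =>
  (tendsto_add_atTop_nat N).eventually (H C ε hε)

/-- **the window** -/
structure TWin (B : Base) (I0 I' : ℕ → Finset (ℕ × ℝ))
    (co : ∀ n : ℕ, ℕ × ℝ → ℕ × ℝ → Fin 12 → ℝ) (X : ℕ → Fin 12 → ℝ) (hh : ℕ → ℝ)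
    (lam : (Fin 12 → ℝ) → ℝ) (S Dr Ts : Finset (Fin 12)) (Sl : Fin 12 → Set ℝ) (σ t : ℝ)
    (k : ℕ → ℕ) (W : Wnd 12 (fun _ => ℕ × ℝ)) (N : ℕ → ℝ) (cw : ∀ n : ℕ, ℕ × ℝ → ℤ)
    (E' : ∀ n : ℕ, Finset (ℕ × ℝ)) (g : ℕ → ℝ) (ex : ℕ → ∀ n : ℕ, ℕ × ℝ → ℕ) : Prop where
  wl : WL W (cK0 monL 2) t
  hk : Tendsto k U atTop
  eB : W.B = B
  eI : W.I = I0
  eJ : W.J = I'
  eco : W.co = co
  eX : W.X = fun n => X (k n)
  ew : W.w = fun n => hh (k n)
  elam : W.lam = lam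
  eS : W.S = S
  etop : W.top = fun j => if j ∈ Dr then 0 else t
  eM : W.Mw = monX Dr
  eR : W.R' = t
  ekap : W.kap = fun j => cK0 monL 2 ^ wtL j
  base : ∀ n, W.B'.d n = B.d n ^ hh (k n)
  cl : ∀ᶠ n in (U : Filter ℕ), W.Cl n ⊆ I0 n
  rl : RLines W (fun _ x => x.1) N
  ws : ∀ j ∈ Ts, ∃ γ : ℝ, 0 < γ ∧ WStrip W (fun _ x => x.1) cw j (Sl j) N t γ
  pr : Wnd.Pruned W W.Cl E' g (exO W (fun _ x => x.1) ex)
  reg : ∀ᶠ n in (U : Filter ℕ), Reg W E' n
  mod : RModel W.B' (W.cfg E') σ t W.legW W.nu W.Dc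

variable {G : Geo TSet (Fin 2)} {L : ℕ → ℕ → LRay} {r : ℕ → ℝ} {g s : ℝ} {θ q : Fin 2 → ℝ}
    {Rg : ℝ} {B : Base} {I : ℕ → Finset (ℕ × ℝ)} {lev : ℕ → ℚ → ℕ} {A : ℕ → ℝ}
    {f : ℕ → ℚ → ℕ → ℤ → ℕ} {b : ℕ → ℚ → ℕ → TSet} {vm : ℕ → ℚ → ℝ} {w : Fin 2 → ℕ → ℚ → ℝ}
    {fr : ℕ → ℚ → ℕ × ℝ → LInc} {fl : ℕ → ℕ × ℝ → LInc} {sc : Fin 12 → ℕ → ℝ}
    {w0 sa sb δ R : ℝ} {I0 I' : ℕ → Finset (ℕ × ℝ)} {ν own : (Fin 12 → ℝ) → ℝ} {c₀ : ℝ}

/-- **existence of the window**, all conditions from the start -/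
theorem exists_twin0 (ctx : CtxT G L r g s θ q Rg B I lev A f b vm w fr fl sc w0 sa sb δ R I0 I' ν
      own c₀) {S Dr Ts : Finset (Fin 12)} (hw : WSD S Dr) {X : ℕ → Fin 12 → ℝ} {hh v : ℕ → ℝ}
    {t v0 σ : ℝ} (ht : 0 < t) (hpos : ∀ l, 0 < hh l) (hh0 : Tendsto hh atTop (𝓝 0))
    {D : Set (Fin 12 → ℝ)} {lam : (Fin 12 → ℝ) → ℝ} (htan : IsTan (Leg monL R) D ν X hh lam)
    (hD : Leg (monX Dr) t ⊆ D) (hb : TBase (θ 0) (θ 1) w0 sa sb v0 S X v)
    (hTs : Ts ⊆ S) (hβ : ∀ j ∈ Ts, 0 < βL (θ 0) (θ 1) j)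
    {Sl : Fin 12 → Set ℝ} (hSl : ∀ j ∈ Ts, Sl j = {0} ∨ Sl j = Set.univ)
    (hSt : ∀ j ∈ Ts, StC B I lev fl (sc j) j (βL (θ 0) (θ 1) j) (Sl j))
    (hvis : ∀ k, k ≠ 0 → VisT B I fl sc k → k ∈ S)
    (hden : DensT S Dr t σ lam)
    (hX : ∀ l, X l ∈ Leg monL R) (hv0 : ∀ l, 0 < v l) (hv1 : ∀ l, v l ≤ 1)
    (hr1 : ∀ j ∈ Ts, ∀ l, v l + hh l * (t / βL (θ 0) (θ 1) j) ≤ 1) :
    ∃ (k : ℕ → ℕ) (W : Wnd 12 (fun _ => ℕ × ℝ)) (N : ℕ → ℝ) (cw : ∀ n : ℕ, ℕ × ℝ → ℤ)
      (E' : ∀ n : ℕ, Finset (ℕ × ℝ)) (g' : ℕ → ℝ),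
      TWin B I0 I' (PL504.coN B lev w w0 sa sb fl) X hh lam S Dr Ts Sl σ t k W N cw E' g'
        (fun _ _ _ => 0) := by
  classical
  have hR : 0 ≤ R := by
    have h1 := (hX 0).1.nonneg 0
    have h2 := (hX 0).2 0
    linarith
  have hK1 : 1 ≤ cK0 monL 2 := cK0_one (by norm_num)
  have hK : 0 < cK0 monL 2 := by linarith
  obtain ⟨γ, hγ, HO⟩ := ostrips_of ctx.out.win.sys (fun k n v => rfl) ctx.out.win.hz w0 sa sb Ts
    hβ Sl hSl hSt
  have HO' := HO.sub (I' := I0) (Eventually.of_forall ctx.sub0)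
  have hN := WinU954.nprof_of_ext hR ctx.ext
  have hst := stX_ok hw hK ht.le hD
  have h00 : (0 : Fin 12 → ℝ) ∈ Leg (monX Dr) t :=
    ⟨⟨fun _ => le_rfl, fun k e _ => by simp⟩, fun _ => ht.le⟩
  have hz : ∀ l, X l 0 = w0 + v l := hb.z
  -- the own profile on the fibre
  have hown : ∀ l, ∀ y ∈ Leg monL R, (∀ k ∈ S, y k = X l k) → own y = (1 - s) * (1 - v l) := by
    intro l y hy hyS
    refine ctx.ext.own_rot y hy (v l) (hv0 l).le (hv1 l) ?_ ?_
    · rw [hyS 0 hw.z, hz]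
    · intro k
      by_cases hk : k = 0
      · subst hk
        rw [hyS 0 hw.z, hz]
        unfold oL
        rw [if_pos (Or.inl rfl)]
        exact le_rfl
      · by_cases hV : VisT B I fl sc k
        · have hkS := hvis k hk hV
          rw [CtxB468.oV hV, hyS k hkS, hb.tie l k hkS]
        · rw [CtxB468.oR hk hV]
          exact hy.2 k
  have g1 : ∀ᶠ l in (atTop : Filter ℕ),
      own (X l + hh l • cut (stX S Dr (cK0 monL 2) t).S (stX S Dr (cK0 monL 2) t).top 0) =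
        own (X l) := by
    filter_upwards [htan ‖cut (stX S Dr (cK0 monL 2) t).S (stX S Dr (cK0 monL 2) t).top 0‖ 1
      one_pos] with l hl
    have h1 := (hl _ (hst.leg hst.lin_leg) le_rfl).1
    have h2 := hown l _ h1 fun k hk => ?_
    · rw [h2, hown l _ (hX l) fun k _ => rfl]
    · have e : cut (stX S Dr (cK0 monL 2) t).S (stX S Dr (cK0 monL 2) t).top 0 k = 0 :=
        cut_of_mem hk
      simp only [Pi.add_apply, Pi.smul_apply, smul_eq_mul, e, mul_zero, add_zero]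
  have g2 : ∀ j ∈ Ts, ∀ l, X l j = rL (θ 0) (θ 1) w0 sa sb 0 j + βL (θ 0) (θ 1) j * v l := by
    intro j hj l
    rw [hb.tie l j (hTs hj), PL504.rL_lin]
  have g3 : ∀ l, own (X l) = (1 - s) * (1 - v l) := fun l => hown l _ (hX l) fun k _ => rfl
  obtain ⟨uq, k, hk, hk2⟩ := exists_swin hN hpos (hst.leg h00) htan hst
    (rl := fun _ x => x.1) (own := own) ctx.ext.oprof g1 HO' (fun j _ => (hγ j).le) hβ ctx.ext.s0
    ctx.ext.s1 hz hv0 hv1 ht hr1 g2 g3 (fun _ _ => 1) (fun _ => Base.Sub.const one_pos)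
    (fun _ => (0, 0)) (Gd := I') (E := I') (Eventually.of_forall fun n => Subset.refl _)
    (Eventually.of_forall fun n => Subset.refl _) (Sd := fun _ => 1) (Base.Sub.const one_pos)
    (Eventually.of_forall fun n => by rw [one_mul])
  obtain ⟨B', s₀, W, eW, b1, b2, -, c1, c2, c3, c4⟩ := hk2 k hk (Eventually.of_forall fun n => le_rfl)
  have hN2 : ∀ s, s ∉ EvL504.SL → s ∉ Dr := fun s hs h1 => by
    rcases hw.hDr s h1 with rfl | rfl <;> exact hs (by decide)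
  have wl : WL W (cK0 monL 2) t := by
    subst eW
    exact
      { ok := c2
        hM := rfl
        coc := fun n => Sd369.coc_N B lev w w0 sa sb fl n
        hK := le_rfl
        kap := fun s => rfl
        hS := hw.hSL
        kz := rfl
        topS := fun s hs => by
          show t ≤ if s ∈ Dr then 0 else t
          rw [if_neg (hw.dis s hs)]
        topL := fun s hs => by
          show t ≤ if s ∈ Dr then 0 else t
          rw [if_neg (hN2 s hs)] }
  have hmod : ∃ (E' : ∀ n : ℕ, Finset (ℕ × ℝ)) (g' : ℕ → ℝ),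
      Wnd.Pruned W W.Cl E' g' (exO W (fun _ x => x.1) fun _ _ _ => 0) ∧
      RModel W.B' (W.cfg E') σ t W.legW W.nu W.Dc := by
    subst eW
    obtain ⟨E', g', p1, p2, p3⟩ := (hden.st hw).model c2 c2.eok_class
      (exO _ (fun _ x => x.1) fun _ _ _ => 0) (g₀ := fun n => (n : ℝ))
      (tendsto_natCast_atTop_atTop.mono_left U_le_atTop)
    exact ⟨E', g', p1, p3⟩
  obtain ⟨E', g', p1, p3⟩ := hmod
  refine ⟨k, W, fun n => B.d n ^ (-(own (X (k n)))), fun n y => zc (lev n (uq (k n))) y.2, E', g', ?_⟩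
  have hBd : ∀ n, W.B'.d n = B.d n ^ hh (k n) := by subst eW; exact b1
  have hX' : W.X = fun n => X (k n) := by subst eW; rfl
  have hB' : W.B = B := by subst eW; rfl
  have hkap : W.kap = fun j => cK0 monL 2 ^ wtL j := by subst eW; rfl
  exact
    { wl := wl
      hk := hk
      eB := hB'
      eI := by subst eW; rfl
      eJ := by subst eW; rfl
      eco := by subst eW; rfl
      eX := hX'
      ew := by subst eW; rfl
      elam := by subst eW; rfl
      eS := by subst eW; rfl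
      etop := by subst eW; rfl
      eM := by subst eW; rfl
      eR := by subst eW; rfl
      ekap := hkap
      base := hBd
      cl := by
        filter_upwards [c2.ev_good] with n g1
        have := g1.clI
        subst eW
        exact this
      rl := c3
      ws := fun j hj => ⟨γ j / βL (θ 0) (θ 1) j, div_pos (hγ j) (hβ j hj), c4 j hj⟩
      pr := p1
      reg := WinU954.ev_reg_of c2 c2.eok_class p1
      mod := p3 }

end Crest.Agent.R116.Tw369
end

-- ▼ part R116/TieW3_369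

/-!
# R116, ties (helper369): windows on the tie planes, part 3: the models

* `exists_twin` : `exists_twin0` without the conditions "from the start".
* `ownThin_gen` : 899's `ownThin_of` for an additive slot; `TWin.add7`, `TWin.add2`.
* `TWin.tieM` : the model; `TWin.dir` : `Dir` (`e`-tie).
* **`exists_tieM`**.
-/

set_option autoImplicit false
set_option linter.unusedVariables false
set_option linter.unusedSectionVars false

open Finset Filter Topology

namespace Crest.Agent.R116.Tw369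

open Crest.Agent.R138.Ex926
open Crest.Agent.R138.Mk163 (zc zl rho alive)
open Crest.Agent.R136.Net191 Crest.Agent.R136.Gf356 Crest.Agent.R136.Qg926
open Crest.Agent.R136.MkA627 Crest.Agent.R136.TD627 Crest.Agent.R136.Lq196
open Crest.Agent.R116.LZg725 Crest.Agent.R116.ChL222
open Crest.Agent.R116.EvL504 (WL Reg side natD LnS ownL Sides bd2D)
open Crest.Agent.R116.PL504 (βL eL rL oL Shift nb DN prN wtL)
open Crest.Agent.R116.Gd222 (TSet sN PDL DT vb)
open Crest.Agent.R116.KI439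
open Crest.Agent.R116.KF439 (PL Thin)
open Crest.Agent.R116.Tw468 Crest.Agent.R116.CtxB468
open Crest.Agent.R116.EvD369 Crest.Agent.R116.Kst593
open Crest.Agent.R116.KW420 (OwnThin Dir)
open Crest.Agent.R116.Bd369 (tu DimD dir_of)

section gen

variable {ι : ℕ → Type*} [∀ n, DecidableEq (ι n)] {W : Wnd 12 ι} {K tp : ℝ}
variable {rl : ∀ n, ι n → ℕ} {N : ℕ → ℝ} {κ : Type*} [DecidableEq κ] {cw : ∀ n, ι n → κ}
  {t : Fin 12} {Sl : Set ℝ} {x γ : ℝ} {E' : ∀ n, Finset (ι n)} {g : ℕ → ℝ}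
  {ex : ℕ → ∀ n, ι n → ℕ}

/-- additivity of the slot `t` along fat lines -/
def AddF (W : Wnd 12 ι) (tp : ℝ) (t : Fin 12) : Prop :=
  ∀ᶠ n in (U : Filter ℕ), ∀ x ∈ W.Cl n, ∀ y ∈ W.Cl n, ∀ z ∈ W.Cl n, W.lc n x = W.lc n y →
    W.lc n y = W.lc n z →
    |W.crd n x z t - (W.crd n x y t + W.crd n y z t)| ≤ 3 * W.B'.d n ^ tp

/-- 899's `ownThin_of` (same proof) for an additive slot -/
theorem ownThin_gen (h : WL W K tp) (R : RLines W rl N) (H : WStrip W rl cw t Sl N x γ)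
    (h0 : (0 : ℝ) ∈ Sl) (hP : Wnd.Pruned W W.Cl E' g (exO W rl ex)) (ht : t ∈ W.S)
    (hadd : AddF W tp t) {x1 : ℝ} (hx1 : x1 ≤ x) (hx2 : x1 ≤ tp) :
    OwnThin W.B' (W.cfg E') (ownL W) t γ x1 := by
  intro τ hτ hτx ε hε
  filter_upwards [strip_fat h.ok R H h0 hP hτ (hτx.trans hx1) 11 hε,
    Wnd.ev_cfg h.ok h.ok.eok_class hP, hadd] with n h1 h2 h3
  obtain ⟨hg, hE1, hE2, hcfg⟩ := h2
  have r : Reg W E' n := ⟨hg, hP.sub n, hE2⟩
  intro i k0 hik T hT hTT
  have hp := fun s => Real.rpow_pos_of_pos (W.B'.pos n) s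
  obtain ⟨e1, e2, e3⟩ := r.spec hik
  set e := W.rep n i k0 with he
  have hup : W.B'.d n ^ tp ≤ W.B'.d n ^ τ :=
    Real.rpow_le_rpow_of_exponent_ge (W.B'.pos n) (W.B'.lt n).le (hτx.trans hx2)
  have key := h1 i (fun k => -(W.crd n (W.rep n i k) e t)) (fun p hp1 q hq1 hpl hql hrl => by
      have hIp : (i, W.zc n p) ∈ (W.cfg E' n).I := by
        rw [r.cfg_eq]; exact Wnd.mem_I.2 ⟨p, hp1, hpl, rfl⟩
      have hIq : (i, W.zc n q) ∈ (W.cfg E' n).I := by
        rw [r.cfg_eq]; exact Wnd.mem_I.2 ⟨q, hq1, hql, rfl⟩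
      obtain ⟨a1, a2, a3⟩ := r.spec hIp
      obtain ⟨b1, b2, b3⟩ := r.spec hIq
      set a := W.rep n i (W.zc n p) with ha
      set b := W.rep n i (W.zc n q) with hb
      have p1 := hP.sub n hp1
      have q1 := hP.sub n hq1
      have f1 := h3 a a1 p p1 e e1 (a2.trans hpl.symm) (hpl.trans e2.symm)
      have f2 := h3 p p1 q q1 e e1 (hpl.trans hql.symm) (hql.trans e2.symm)
      have f3 := h3 b b1 q q1 e e1 (b2.trans hql.symm) (hql.trans e2.symm)
      have f4 := h.crd_z hg a1 p1 a3 ht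
      have f5 := h.crd_z hg b1 q1 b3 ht
      have e5 : -(W.crd n b e t) - -(W.crd n a e t) - W.crd n p q t =
          (W.crd n a e t - (W.crd n a p t + W.crd n p e t)) +
          (W.crd n p e t - (W.crd n p q t + W.crd n q e t)) -
          (W.crd n b e t - (W.crd n b q t + W.crd n q e t)) + W.crd n a p t - W.crd n b q t := by
        ring
      rw [e5]
      rw [abs_le] at f1 f2 f3 f4 f5 ⊢
      constructor <;> linarith [f1.1, f1.2, f2.1, f2.2, f3.1, f3.2, f4.1, f4.2, f5.1, f5.2])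
    0 T (fun k hk => by
      have hk1 := (hTT k hk).1
      rw [r.cfg_eq] at hk1 ⊢
      obtain ⟨y, hy, hyl, hyz⟩ := Wnd.mem_I.1 hk1
      exact Wnd.cfg0_hts.2 ⟨y, hy, hyl, hyz⟩)
    (fun k hk => by
      have hk2 := (hTT k hk).2
      rw [sub_zero, abs_neg]
      have : |W.crd n (W.rep n i k) e t| ≤ W.B'.d n ^ τ := hk2
      linarith [hp τ])
  refine key.trans (mul_le_mul_of_nonneg_left ?_ (hp _).le)
  exact_mod_cast card_le_card (filter_subset _ _)

/-- the same with the slots of `Dr` forgotten -/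
theorem ownThin_dropX {Dr : Finset (Fin 12)} {γ x1 : ℝ} (ht : t ∉ Dr)
    (hO : OwnThin W.B' (W.cfg E') (ownL W) t γ x1) :
    OwnThin W.B' (fun n => dropX Dr (W.cfg E' n)) (fun n i k0 k => LnS Dr (ownL W n i k0 k)) t γ
      x1 := by
  intro τ hτ hτx ε hε
  filter_upwards [hO τ hτ hτx ε hε] with n hn
  intro i k0 hik T hT hTT
  refine hn i k0 hik T hT fun k hk => ?_
  obtain ⟨a, b⟩ := hTT k hk
  refine ⟨a, ?_⟩
  have e : LnS Dr (ownL W n i k0 k) t = ownL W n i k0 k t := if_neg ht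
  rwa [e] at b

/-- the slot `2` is additive along fat lines when the wall `E ≤ z + D` is slack -/
theorem addF2 (h : WL W K tp)
    (hs : ∀ᶠ n in (U : Filter ℕ), side W n 0 * side W n 1 ≤ W.B'.d n ^ tp * side W n 2) :
    AddF W tp 2 := by
  filter_upwards [hs, h.ok.ev_good] with n f g x hx y hy z hz l1 l2
  have sp := h.side_pos' n 2
  have r0 := h.r0 n
  have e : W.co n x z 2 = W.co n x y 2 + W.co n y z 2 - 2 * (W.co n x y 1 * W.co n y z 0) := by
    rw [(h.coc n).add x y z]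
    simp [EvL504.comp]
  have t2 := bd2D (h.bd0 g hx hy 1) (h.bd0 g hy hz 0)
  have e2 : W.crd n x z 2 - (W.crd n x y 2 + W.crd n y z 2) =
      -(2 * (W.co n x y 1 * W.co n y z 0)) / side W n 2 := by
    show W.co n x z 2 / side W n 2 - (W.co n x y 2 / side W n 2 + W.co n y z 2 / side W n 2) = _
    rw [e]; ring
  rw [e2, abs_div, abs_of_pos sp, div_le_iff₀ sp, abs_neg, abs_mul, abs_two]
  have t4 : 0 ≤ W.B'.d n ^ tp * side W n 2 := mul_nonneg r0 sp.le
  nlinarith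

/-- the slots `1`, `7`, `8` are additive along fat lines -/
theorem addF7 (h : WL W K tp) {t : Fin 12} (ht : t ∈ W.S) (h7 : t = 1 ∨ t = 7 ∨ t = 8) :
    AddF W tp t := by
  filter_upwards [h.ok.ev_good] with n g x hx y hy z hz l1 l2
  refine Kj899.add_fat h g ⟨ht, ?_⟩ hx hy hz l1 l2
  rcases h7 with h | h | h
  · exact Or.inl h
  · exact Or.inr (Or.inl h)
  · exact Or.inr (Or.inr (Or.inl h))

end gen

variable {G : Geo TSet (Fin 2)} {L : ℕ → ℕ → LRay} {r : ℕ → ℝ} {g s : ℝ} {θ q : Fin 2 → ℝ}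
    {Rg : ℝ} {B : Base} {I : ℕ → Finset (ℕ × ℝ)} {lev : ℕ → ℚ → ℕ} {A : ℕ → ℝ}
    {f : ℕ → ℚ → ℕ → ℤ → ℕ} {b : ℕ → ℚ → ℕ → TSet} {vm : ℕ → ℚ → ℝ} {w : Fin 2 → ℕ → ℚ → ℝ}
    {fr : ℕ → ℚ → ℕ × ℝ → LInc} {fl : ℕ → ℕ × ℝ → LInc} {sc : Fin 12 → ℕ → ℝ}
    {w0 sa sb δ R : ℝ} {I0 I' : ℕ → Finset (ℕ × ℝ)} {ν own : (Fin 12 → ℝ) → ℝ} {c₀ : ℝ}

/-- **existence of the window** -/
theorem exists_twin (ctx : CtxT G L r g s θ q Rg B I lev A f b vm w fr fl sc w0 sa sb δ R I0 I' ν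
      own c₀) {S Dr Ts : Finset (Fin 12)} (hw : WSD S Dr) {X : ℕ → Fin 12 → ℝ} {hh v : ℕ → ℝ}
    {t v0 σ : ℝ} (ht : 0 < t) (hpos : ∀ l, 0 < hh l) (hh0 : Tendsto hh atTop (𝓝 0))
    {D : Set (Fin 12 → ℝ)} {lam : (Fin 12 → ℝ) → ℝ} (htan : IsTan (Leg monL R) D ν X hh lam)
    (hD : Leg (monX Dr) t ⊆ D) (hb : TBase (θ 0) (θ 1) w0 sa sb v0 S X v)
    (hTs : Ts ⊆ S) (hβ : ∀ j ∈ Ts, 0 < βL (θ 0) (θ 1) j)
    {Sl : Fin 12 → Set ℝ} (hSl : ∀ j ∈ Ts, Sl j = {0} ∨ Sl j = Set.univ)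
    (hSt : ∀ j ∈ Ts, StC B I lev fl (sc j) j (βL (θ 0) (θ 1) j) (Sl j))
    (hvis : ∀ k, k ≠ 0 → VisT B I fl sc k → k ∈ S)
    (hden : DensT S Dr t σ lam) :
    ∃ (k : ℕ → ℕ) (W : Wnd 12 (fun _ => ℕ × ℝ)) (N : ℕ → ℝ) (cw : ∀ n : ℕ, ℕ × ℝ → ℤ)
      (E' : ∀ n : ℕ, Finset (ℕ × ℝ)) (g' : ℕ → ℝ),
      TWin B I0 I' (PL504.coN B lev w w0 sa sb fl) X hh lam S Dr Ts Sl σ t k W N cw E' g'
        (fun _ _ _ => 0) := by
  have h00 : (0 : Fin 12 → ℝ) ∈ Leg (monX Dr) t :=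
    ⟨⟨fun _ => le_rfl, fun k e _ => by simp⟩, fun _ => ht.le⟩
  have a1 : ∀ᶠ l in atTop, X l ∈ Leg monL R := by
    filter_upwards [htan ‖(0 : Fin 12 → ℝ)‖ 1 one_pos] with l hl
    have := (hl 0 (hD h00) le_rfl).1
    rwa [smul_zero, add_zero] at this
  have a2 : ∀ᶠ l in atTop, 0 < v l := hb.hv.eventually_const_lt hb.v00
  have a3 : ∀ᶠ l in atTop, v l < 1 := hb.hv.eventually_lt_const hb.v01
  have a4 : ∀ j : Fin 12, ∀ᶠ l in atTop, v l + hh l * (t / βL (θ 0) (θ 1) j) < 1 := fun j => by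
    have h1 : Tendsto (fun l => v l + hh l * (t / βL (θ 0) (θ 1) j)) atTop
        (𝓝 (v0 + 0 * (t / βL (θ 0) (θ 1) j))) := hb.hv.add (hh0.mul_const _)
    exact h1.eventually_lt_const (by rw [zero_mul, add_zero]; exact hb.v01)
  have all := ((a1.and a2).and a3).and (eventually_all.2 a4)
  obtain ⟨M, hM⟩ := eventually_atTop.1 all
  obtain ⟨k, W, N, cw, E', g', T⟩ := exists_twin0 ctx hw ht (fun l => hpos (l + M))
    (hh0.comp (tendsto_add_atTop_nat M)) (tan_tail htan M) hD (hb.tail M) hTs hβ hSl hSt hvis hden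
    (fun l => (hM (l + M) (Nat.le_add_left _ _)).1.1.1)
    (fun l => (hM (l + M) (Nat.le_add_left _ _)).1.1.2)
    (fun l => (hM (l + M) (Nat.le_add_left _ _)).1.2.le)
    (fun j _ l => ((hM (l + M) (Nat.le_add_left _ _)).2 j).le)
  exact ⟨fun n => k n + M, W, N, cw, E', g',
    { wl := T.wl
      hk := tendsto_atTop_mono (fun n => Nat.le_add_right (k n) M) T.hk
      eB := T.eB
      eI := T.eI
      eJ := T.eJ
      eco := T.eco
      eX := T.eX
      ew := T.ew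
      elam := T.elam
      eS := T.eS
      etop := T.etop
      eM := T.eM
      eR := T.eR
      ekap := T.ekap
      base := T.base
      cl := T.cl
      rl := T.rl
      ws := T.ws
      pr := T.pr
      reg := T.reg
      mod := T.mod }⟩

section model

variable {co : ∀ n : ℕ, ℕ × ℝ → ℕ × ℝ → Fin 12 → ℝ} {X : ℕ → Fin 12 → ℝ} {hh : ℕ → ℝ}
  {lam : (Fin 12 → ℝ) → ℝ} {S Dr Ts : Finset (Fin 12)} {Sl : Fin 12 → Set ℝ} {σ t : ℝ}
  {k : ℕ → ℕ} {W : Wnd 12 (fun _ => ℕ × ℝ)} {N : ℕ → ℝ} {cw : ∀ n : ℕ, ℕ × ℝ → ℤ}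
  {E' : ∀ n : ℕ, Finset (ℕ × ℝ)} {g' : ℕ → ℝ} {ex : ℕ → ∀ n : ℕ, ℕ × ℝ → ℕ}

/-- **the model of the window** -/
theorem TWin.tieM (T : TWin B I0 I' co X hh lam S Dr Ts Sl σ t k W N cw E' g' ex)
    (hw : WSD S Dr) (ht : 0 ≤ t) (hTs : Ts ⊆ S) (hSl : ∀ j ∈ Ts, (0 : ℝ) ∈ Sl j)
    (hadd : ∀ j ∈ Ts, AddF W t j) (hnx : ∀ᶠ n in (U : Filter ℕ), NatX W (cK0 monL 2) Dr t n) :
    TieM S Dr Ts σ t lam W.B' (fun n => dropX Dr (W.cfg E' n))
      (fun n i k0 k => LnS Dr (ownL W n i k0 k)) W.Dc where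
  mod := by
    have h1 := model_drop T.mod (fun ε hε => by
      filter_upwards [T.reg] with n r
      intro k i l hi hl s
      exact (r.rel_le T.wl hi hl s).trans
        (Real.one_le_rpow_of_pos_of_le_one_of_nonpos (W.B'.pos n) (W.B'.lt n).le
          (by linarith))) Dr
    have ecut : ∀ p : Fin 12 → ℝ, cut W.S (LnS Dr p) W.top = cT S Dr t p := by
      intro p
      rw [T.eS, T.etop]
      have := cut_top (t := t) hw 1 (p := LnS Dr p) fun s hs => if_pos hs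
      have e : cT S Dr t (LnS Dr p) = cT S Dr t p := by
        funext j
        unfold cT LnS
        split_ifs <;> rfl
      rw [e] at this
      exact this
    have e1 : (fun p => W.nu (LnS Dr p)) = nuT S Dr t lam := by
      funext p
      show W.lam (cut W.S (LnS Dr p) W.top) - W.lam W.top = _
      rw [ecut, T.elam, T.etop]
      unfold nuT
      congr 2
      exact (top_cT (t := t) hw 1)
    have e2 : {p : Fin 12 → ℝ | LnS Dr p ∈ W.legW} = legT S Dr t := by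
      ext p
      constructor
      · intro hp
        have h2 := hp.1
        rw [ecut, T.eM, T.eR] at h2
        exact h2
      · intro hp
        have hp' : cT S Dr t p ∈ Leg (monX Dr) t := hp
        refine ⟨?_, ?_⟩
        · rw [ecut, T.eM, T.eR]
          exact hp
        · intro s hs
          rw [T.eS] at hs
          rw [T.etop]
          have h3 := hp'.2 s
          unfold cT at h3
          unfold LnS
          by_cases hD : s ∈ Dr
          · simp only [if_pos hD]; exact le_rfl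
          · simp only [if_neg hD, if_neg hs] at h3 ⊢
            exact h3
    rw [e1, e2] at h1
    exact h1
  law := by
    refine llawD (G := fun n => dropX Dr (W.cfg E' n))
      (ow := fun n i k0 k => LnS Dr (ownL W n i k0 k)) T.wl ht hw.hDr ?_ T.reg hnx
      (fun n => rfl) (fun n => rfl) (fun n k i l => rfl) (fun n i k0 k => rfl) ?_
    · intro s hs
      rw [T.etop]
      simp only [if_neg hs]
      exact le_rfl
    · intro s
      rw [T.eS]
      exact Finset.mem_union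
  own0 := fun n i k0 k s hs => if_pos hs
  thin := fun j hj => by
    obtain ⟨γ, hγ, hws⟩ := T.ws j hj
    refine ⟨γ, hγ, ownThin_dropX (hw.dis j (hTs hj)) (ownThin_gen T.wl T.rl hws (hSl j hj) T.pr
      ?_ (hadd j hj) le_rfl le_rfl)⟩
    rw [T.eS]
    exact hTs hj

/-- linear modulus of the own motion of a tied slot -/
theorem TWin.thin (T : TWin B I0 I' co X hh lam S Dr Ts Sl σ t k W N cw E' g' ex)
    (hTs : Ts ⊆ S) (hSl : ∀ j ∈ Ts, (0 : ℝ) ∈ Sl j)
    {j : Fin 12} (hj : j ∈ Ts) (hadd : AddF W t j) :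
    ∃ γ : ℝ, 0 < γ ∧ OwnThin W.B' (W.cfg E') (ownL W) j γ t := by
  obtain ⟨γ, hγ, hws⟩ := T.ws j hj
  refine ⟨γ, hγ, ownThin_gen T.wl T.rl hws (hSl j hj) T.pr ?_ hadd le_rfl le_rfl⟩
  rw [T.eS]
  exact hTs hj

/-- products of units: slack wall -/
theorem TWin.slack (T : TWin B I0 I' co X hh lam S Dr Ts Sl σ t k W N cw E' g' ex)
    {i j m : Fin 12} (hw : wtL i + wtL j = wtL m) {κ : ℝ}
    (h : ∀ᶠ l in atTop, X l m + κ * hh l ≤ X l i + X l j) :
    ∀ᶠ n in (U : Filter ℕ), side W n i * side W n j ≤ W.B'.d n ^ κ * side W n m := by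
  filter_upwards [T.hk.eventually h] with n hn
  have hK : 0 < cK0 monL 2 := by
    have := cK0_one (M := monL) (C := 2) (by norm_num)
    linarith
  have hd := B.pos n
  show W.kap i * W.B.d n ^ W.X n i * (W.kap j * W.B.d n ^ W.X n j) ≤
    W.B'.d n ^ κ * (W.kap m * W.B.d n ^ W.X n m)
  rw [T.ekap, T.eX, T.eB, T.base]
  show cK0 monL 2 ^ wtL i * B.d n ^ X (k n) i * (cK0 monL 2 ^ wtL j * B.d n ^ X (k n) j) ≤
    (B.d n ^ hh (k n)) ^ κ * (cK0 monL 2 ^ wtL m * B.d n ^ X (k n) m)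
  rw [← hw, pow_add, ← Real.rpow_mul hd.le]
  have e1 : B.d n ^ (X (k n) i + X (k n) j) ≤ B.d n ^ (X (k n) m + κ * hh (k n)) :=
    Real.rpow_le_rpow_of_exponent_ge hd (B.lt n).le hn
  rw [Real.rpow_add hd, Real.rpow_add hd] at e1
  have e2 := mul_le_mul_of_nonneg_left e1 (mul_pos (pow_pos hK (wtL i)) (pow_pos hK (wtL j))).le
  rw [mul_comm (hh (k n)) κ]
  calc _ = cK0 monL 2 ^ wtL i * cK0 monL 2 ^ wtL j * (B.d n ^ X (k n) i * B.d n ^ X (k n) j) := by
        ring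
    _ ≤ _ := e2
    _ = _ := by ring

/-- products of units: tight wall -/
theorem TWin.tight (T : TWin B I0 I' co X hh lam S Dr Ts Sl σ t k W N cw E' g' ex)
    {i j m : Fin 12} (hw : wtL i + wtL j = wtL m)
    (h : ∀ᶠ l in atTop, X l m = X l i + X l j) :
    ∀ᶠ n in (U : Filter ℕ), side W n i * side W n j = side W n m := by
  filter_upwards [T.hk.eventually h] with n hn
  have hd := B.pos n
  show W.kap i * W.B.d n ^ W.X n i * (W.kap j * W.B.d n ^ W.X n j) = W.kap m * W.B.d n ^ W.X n m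
  rw [T.ekap, T.eX, T.eB]
  show cK0 monL 2 ^ wtL i * B.d n ^ X (k n) i * (cK0 monL 2 ^ wtL j * B.d n ^ X (k n) j) =
    cK0 monL 2 ^ wtL m * B.d n ^ X (k n) m
  rw [← hw, pow_add, hn, Real.rpow_add hd]
  ring

end model

/-- **`Dir` in the window** (`e`-tie) : base converging to the record point in the slots `≥ 3` -/
theorem TWin.dir (ctx : CtxT G L r g s θ q Rg B I lev A f b vm w fr fl sc w0 sa sb δ R I0 I' ν
      own c₀) {S Dr Ts : Finset (Fin 12)} {X : ℕ → Fin 12 → ℝ} {hh v : ℕ → ℝ}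
    {t v0 σ : ℝ} (hh0 : Tendsto hh atTop (𝓝 0)) {lam : (Fin 12 → ℝ) → ℝ}
    (hb : TBase (θ 0) (θ 1) w0 sa sb v0 S X v)
    (hlim : ∀ j : Fin 12, 3 ≤ j → Tendsto (fun l => X l j) atTop
      (𝓝 (rL (θ 0) (θ 1) w0 sa sb v0 j)))
    (e3 : ∀ᶠ l in atTop, X l 3 = X l 4) (e5 : ∀ᶠ l in atTop, X l 5 = X l 6)
    (e7 : ∀ᶠ l in atTop, X l 7 = X l 8) {Sl : Fin 12 → Set ℝ}
    {k : ℕ → ℕ} {W : Wnd 12 (fun _ => ℕ × ℝ)} {N : ℕ → ℝ} {cw : ∀ n : ℕ, ℕ × ℝ → ℤ}
    {E' : ∀ n : ℕ, Finset (ℕ × ℝ)} {g' : ℕ → ℝ} {ex : ℕ → ∀ n : ℕ, ℕ × ℝ → ℕ}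
    (T : TWin B I0 I' (PL504.coN B lev w w0 sa sb fl) X hh lam S Dr Ts Sl σ t k W N cw E' g' ex)
    (hθ0 : 0 < θ 0) (hθ : θ 1 < θ 0) (x : ℝ) :
    ∃ u u' : ℕ → ℝ, Dir W.B' (W.cfg E') (ownL W) u u' x := by
  obtain ⟨k0, ε, hd⟩ := ctx.dimD_lim hθ0 hθ T.eB T.eco
    (T.cl.mono fun n hn => hn.trans (ctx.sub0 n)) hb.v00 hb.v01 (fun j hj => by
      have h1 := (hlim j hj).comp T.hk
      refine h1.congr fun n => ?_
      rw [T.eX]
      rfl)
    (by filter_upwards [T.hk.eventually e3] with n hn; rw [T.eX]; exact hn)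
    (by filter_upwards [T.hk.eventually e5] with n hn; rw [T.eX]; exact hn)
    (by filter_upwards [T.hk.eventually e7] with n hn; rw [T.eX]; exact hn)
    (by rw [T.ekap]; rfl) (by rw [T.ekap]; rfl) (by rw [T.ekap]; rfl)
    (by rw [T.ew]; exact hh0.comp T.hk)
  exact ⟨_, _, dir_of T.wl.ok T.wl.hS T.reg hd x⟩

/-- `Dir`, the slots of `Dr` forgotten -/
theorem dir_dropX {W : Wnd 12 (fun _ => ℕ × ℝ)} {E' : ∀ n : ℕ, Finset (ℕ × ℝ)} {u u' : ℕ → ℝ}
    {x : ℝ} (hD : Dir W.B' (W.cfg E') (ownL W) u u' x) {Dr : Finset (Fin 12)}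
    (hDr : ∀ s ∈ Dr, s = 1 ∨ s = 2) : Dir W.B' (fun n => dropX Dr (W.cfg E' n))
      (fun n i k0 k => LnS Dr (ownL W n i k0 k)) u u' x := by
  have hn : ∀ j : Fin 12, 3 ≤ j → j ∉ Dr := fun j hj h1 => by
    rcases hDr j h1 with rfl | rfl
    · exact absurd hj (by decide)
    · exact absurd hj (by decide)
  refine ⟨hD.unit, ?_, ?_, ?_⟩
  · intro ε' hε'
    filter_upwards [hD.tc ε' hε'] with n hn' k i l hi hl
    have e3 : (dropX Dr (W.cfg E' n)).rel k i l 3 = (W.cfg E' n).rel k i l 3 :=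
      if_neg (hn 3 (by decide))
    have e4 : (dropX Dr (W.cfg E' n)).rel k i l 4 = (W.cfg E' n).rel k i l 4 :=
      if_neg (hn 4 (by decide))
    rw [e3, e4]
    exact hn' k i l hi hl
  · intro ε' hε'
    filter_upwards [hD.tx ε' hε'] with n hn' k i l hi hl
    have e3 : (dropX Dr (W.cfg E' n)).rel k i l 5 = (W.cfg E' n).rel k i l 5 :=
      if_neg (hn 5 (by decide))
    have e4 : (dropX Dr (W.cfg E' n)).rel k i l 6 = (W.cfg E' n).rel k i l 6 :=
      if_neg (hn 6 (by decide))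
    rw [e3, e4]
    exact hn' k i l hi hl
  · intro ε' hε'
    filter_upwards [hD.tow ε' hε'] with n hn' i k0 k hi hl
    have e3 : LnS Dr (ownL W n i k0 k) 7 = ownL W n i k0 k 7 := if_neg (hn 7 (by decide))
    have e4 : LnS Dr (ownL W n i k0 k) 8 = ownL W n i k0 k 8 := if_neg (hn 8 (by decide))
    rw [e3, e4]
    exact hn' i k0 k hi hl

end Crest.Agent.R116.Tw369
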