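import Crest.Agent.R116.KW3_420
import Crest.Agent.R136.CD5_366
import Crest.Agent.R116.EvL7_369
import Crest.Agent.R116.KW6_420
import Crest.Agent.R116.TieW3_369
import Crest.Agent.R116.Tq1_741
import Crest.Agent.R116.Tq3_794

-- ▼ part R116/K3e1_160
section

/-!
# R116, e-tie `k = 1` : **K3core**, part 1 (helper160)

* `runif_conj`, `rmodel_conj` : another system of relative coordinates with comparable boxes;
* `rot u v G` : slots `3`, `5` = twice the components of `{3, 4}`, `{5, 6}` along `(-v, u)`, slots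
  `4`, `6` forgotten; `rot_loose`, `loose_rot`, `rmodel_rot`;
* `k3_data` : 366's `K3` for the rotated configuration from 710's `LLaw`, 420's `Dir` and common
  heights of the slots `7`, `8`;
* **`k3core_e`** : `σ ≤ a`.
-/

set_option autoImplicit false
set_option linter.unusedVariables false
set_option linter.unusedSectionVars false

open Filter Topology Finset

namespace Crest.Agent.R116.K3e160

open Crest.Agent.R138.Ex926 (Base U)
open Crest.Agent.R136.Gf356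
open Crest.Agent.R116.EvL504 (evoS LvS LnS SL)
open Crest.Agent.R116.Kr710 (LLaw)
open Crest.Agent.R116.KW420 (Dir evoS_10 evoS_11)

/-! ### another system of relative coordinates -/

section conj

variable {κ κ' : Type} {B : Base} {G : ℕ → RCfg κ} {G' : ℕ → RCfg κ'} {Leg : Set (κ → ℝ)}
  {Leg' : Set (κ' → ℝ)} {ν : (κ → ℝ) → ℝ} {σ R D : ℝ} {φ : (κ' → ℝ) → κ → ℝ}

/-- **comparable boxes** -/
theorem runif_conj (H : RUnif B G Leg ν D) {c : ℝ} (hc : 1 ≤ c)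
    (e1 : ∀ n, (G' n).ρ = (G n).ρ) (e2 : ∀ n, (G' n).L = (G n).L) (e3 : ∀ n, (G' n).Z = (G n).Z)
    (e4 : ∀ n, (G' n).I = (G n).I)
    (e5 : ∀ n k i, (i, k) ∈ (G n).I → ∀ j, (G' n).rel k i i j = 0)
    (hφ : ∀ p ∈ Leg', φ p ∈ Leg)
    (h1 : ∀ p ∈ Leg', ∀ ε : ℝ, 0 < ε → ∀ᶠ n in (U : Filter ℕ), ∀ k i l, (i, k) ∈ (G n).I →
      (l, k) ∈ (G n).I → (G' n).loose p ε k i l → (G n).loose (φ p) (c * ε) k i l)
    (h2 : ∀ p ∈ Leg', ∀ ε : ℝ, 0 < ε → ∀ᶠ n in (U : Filter ℕ), ∀ k i l, (i, k) ∈ (G n).I →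
      (l, k) ∈ (G n).I → (G n).loose (φ p) ε k i l → (G' n).loose p (c * ε) k i l) :
    RUnif B G' Leg' (fun p => ν (φ p)) (c ^ 2 * D) := by
  have hD := H.D1
  have hc0 : 0 < c := by linarith
  have hD0 : 0 < D := by linarith
  have hs : ∀ n k, (G' n).slice k = (G n).slice k := by
    intro n k
    ext i
    rw [RCfg.mem_slice, RCfg.mem_slice, e2, e4]
  refine
    { D1 := by nlinarith [one_le_pow₀ (n := 2) hc]
      base := fun n => by rw [e1]; exact H.base n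
      sub := fun n => by rw [e2, e3, e4]; exact H.sub n
      nonempty := fun n => by rw [e4]; exact H.nonempty n
      refl := fun n k i hi => e5 n k i (by rwa [e4] at hi)
      symm := fun p hp ε hε => ?_
      tri := fun p hp ε hε => ?_
      low := fun p hp ε hε => ?_
      up := fun p hp ε hε => ?_ }
  · filter_upwards [h1 p hp ε hε, H.symm _ (hφ p hp) (c * ε) (by positivity),
      h2 p hp (D * (c * ε)) (by positivity)] with n a1 a2 a3 k i l hi hl h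
    rw [e4] at hi hl
    have := a3 k l i hl hi (a2 k i l hi hl (a1 k i l hi hl h))
    have e : c * (D * (c * ε)) = c ^ 2 * D * ε := by ring
    rwa [e] at this
  · filter_upwards [h1 p hp ε hε, H.tri _ (hφ p hp) (c * ε) (by positivity),
      h2 p hp (D * (c * ε)) (by positivity)] with n a1 a2 a3 k i l m hi hl hm h h'
    rw [e4] at hi hl hm
    have := a3 k i m hi hm (a2 k i l m hi hl hm (a1 k i l hi hl h) (a1 k l m hl hm h'))
    have e : c * (D * (c * ε)) = c ^ 2 * D * ε := by ring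
    rwa [e] at this
  · filter_upwards [H.low _ (hφ p hp) (ε / c) (by positivity), h2 p hp (ε / c) (by positivity)]
      with n a1 a2 i k hi
    rw [e4] at hi
    have h3 : B.d n ^ (-ν (φ p) + ε) ≤ B.d n ^ (-ν (φ p) + ε / c) := by
      refine rpow_anti B n ?_
      have : ε / c ≤ ε := div_le_self hε.le hc
      linarith
    refine h3.trans ((a1 i k hi).trans (Nat.cast_le.2 (card_le_card fun l hl => ?_)))
    obtain ⟨b1, b2⟩ := RCfg.mem_box.1 hl
    have hlI := (RCfg.mem_slice.1 b1).2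
    refine RCfg.mem_box.2 ⟨by rw [hs]; exact b1, ?_⟩
    have := a2 k i l hi hlI b2
    have e : c * (ε / c) = ε := by field_simp
    rwa [e] at this
  · filter_upwards [H.up _ (hφ p hp) (c * ε) (by positivity), h1 p hp ε hε]
      with n a1 a2 i k hi
    rw [e4] at hi
    have h3 : B.d n ^ (-ν (φ p) - D * (c * ε)) ≤ B.d n ^ (-ν (φ p) - c ^ 2 * D * ε) := by
      refine rpow_anti B n ?_
      have : D * (c * ε) ≤ c ^ 2 * D * ε := by
        have h4 : c ≤ c ^ 2 := by nlinarith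
        have h5 : 0 ≤ D * ε := by positivity
        nlinarith
      linarith
    refine le_trans (Nat.cast_le.2 (card_le_card fun l hl => ?_)) ((a1 i k hi).trans h3)
    obtain ⟨b1, b2⟩ := RCfg.mem_box.1 hl
    rw [hs] at b1
    have hlI := (RCfg.mem_slice.1 b1).2
    exact RCfg.mem_box.2 ⟨b1, a2 k i l hi hlI b2⟩

/-- **comparable boxes**, models -/
theorem rmodel_conj (H : RModel B G σ R Leg ν D) {c : ℝ} (hc : 1 ≤ c)
    (e1 : ∀ n, (G' n).ρ = (G n).ρ) (e2 : ∀ n, (G' n).L = (G n).L) (e3 : ∀ n, (G' n).Z = (G n).Z)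
    (e4 : ∀ n, (G' n).I = (G n).I) (e6 : ∀ n, (G' n).z = (G n).z)
    (e5 : ∀ n k i, (i, k) ∈ (G n).I → ∀ j, (G' n).rel k i i j = 0)
    (hφ : ∀ p ∈ Leg', φ p ∈ Leg)
    (h1 : ∀ p ∈ Leg', ∀ ε : ℝ, 0 < ε → ∀ᶠ n in (U : Filter ℕ), ∀ k i l, (i, k) ∈ (G n).I →
      (l, k) ∈ (G n).I → (G' n).loose p ε k i l → (G n).loose (φ p) (c * ε) k i l)
    (h2 : ∀ p ∈ Leg', ∀ ε : ℝ, 0 < ε → ∀ᶠ n in (U : Filter ℕ), ∀ k i l, (i, k) ∈ (G n).I →
      (l, k) ∈ (G n).I → (G n).loose (φ p) ε k i l → (G' n).loose p (c * ε) k i l) :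
    RModel B G' σ R Leg' (fun p => ν (φ p)) (c ^ 2 * D) := by
  have hs : ∀ n k, (G' n).slice k = (G n).slice k := by
    intro n k
    ext i
    rw [RCfg.mem_slice, RCfg.mem_slice, e2, e4]
  have ht : ∀ n i, (G' n).hts i = (G n).hts i := by
    intro n i
    ext k
    rw [RCfg.mem_hts, RCfg.mem_hts, e3, e4]
  have hb : ∀ n x k, (G' n).hbox x k = (G n).hbox x k := by
    intro n x k
    unfold RCfg.hbox
    rw [e3, e6, e1]
  refine
    { toRUnif := runif_conj H.toRUnif hc e1 e2 e3 e4 e5 hφ h1 h2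
      σ_nonneg := H.σ_nonneg
      σ_le := H.σ_le
      line := fun ε hε => ?_
      slice := fun ε hε => ?_
      frost := fun x hx hxR ε hε => ?_ }
  · filter_upwards [H.line ε hε] with n h i hi
    rw [e2] at hi
    rw [e3, ht]
    exact h i hi
  · filter_upwards [H.slice ε hε] with n h k hk
    rw [e3] at hk
    rw [e2, hs]
    exact h k hk
  · filter_upwards [H.frost x hx hxR ε hε] with n h k hk
    rw [e3] at hk
    rw [e3, hb]
    exact h k hk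

end conj

/-! ### the rotated configuration -/

/-- slots `3`, `5` = twice the components along `(-v, u)`, slots `4`, `6` forgotten -/
def rot (u v : ℝ) (G : RCfg (Fin 12)) : RCfg (Fin 12) where
  ρ := G.ρ
  L := G.L
  Z := G.Z
  I := G.I
  z := G.z
  rel k i l s :=
    if s = 3 then 2 * (-v * G.rel k i l 3 + u * G.rel k i l 4)
    else if s = 5 then 2 * (-v * G.rel k i l 5 + u * G.rel k i l 6)
    else if s = 4 ∨ s = 6 then 0 else G.rel k i l s

/-- exponents: `4 := 3`, `6 := 5` -/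
def dup (p : Fin 12 → ℝ) : Fin 12 → ℝ := fun s => if s = 4 then p 3 else if s = 6 then p 5 else p s

theorem dup3 (p : Fin 12 → ℝ) : dup p 3 = p 3 := by simp [dup]

theorem dup4 (p : Fin 12 → ℝ) : dup p 4 = p 3 := by simp [dup]

theorem dup5 (p : Fin 12 → ℝ) : dup p 5 = p 5 := by simp [dup]

theorem dup6 (p : Fin 12 → ℝ) : dup p 6 = p 5 := by simp [dup]

theorem dup_of (p : Fin 12 → ℝ) {s : Fin 12} (h4 : s ≠ 4) (h6 : s ≠ 6) : dup p s = p s := by
  simp [dup, h4, h6]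

theorem rot3 (u v : ℝ) (G : RCfg (Fin 12)) (k i l : ℕ) : (rot u v G).rel k i l 3 =
    2 * (-v * G.rel k i l 3 + u * G.rel k i l 4) := by simp [rot]

theorem rot5 (u v : ℝ) (G : RCfg (Fin 12)) (k i l : ℕ) : (rot u v G).rel k i l 5 =
    2 * (-v * G.rel k i l 5 + u * G.rel k i l 6) := by simp [rot]

theorem rot4 (u v : ℝ) (G : RCfg (Fin 12)) (k i l : ℕ) : (rot u v G).rel k i l 4 = 0 := by
  simp [rot]

theorem rot6 (u v : ℝ) (G : RCfg (Fin 12)) (k i l : ℕ) : (rot u v G).rel k i l 6 = 0 := by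
  simp [rot]

theorem rot_of (u v : ℝ) (G : RCfg (Fin 12)) (k i l : ℕ) {s : Fin 12} (h3 : s ≠ 3) (h4 : s ≠ 4)
    (h5 : s ≠ 5) (h6 : s ≠ 6) : (rot u v G).rel k i l s = G.rel k i l s := by
  simp [rot, h3, h4, h5, h6]

/-- from the rotated coordinates back -/
theorem vec2 {u v c d t : ℝ} (huv : u ^ 2 + v ^ 2 = 1) (ht : 0 ≤ t)
    (h1 : |2 * (-v * c + u * d)| ≤ t) (h2 : |u * c + v * d| ≤ t) : |c| ≤ 2 * t ∧ |d| ≤ 2 * t := by
  have hu : |u| ≤ 1 := abs_le.2 ⟨by nlinarith [sq_nonneg v], by nlinarith [sq_nonneg v]⟩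
  have hv : |v| ≤ 1 := abs_le.2 ⟨by nlinarith [sq_nonneg u], by nlinarith [sq_nonneg u]⟩
  have e1 : c = u * (u * c + v * d) - v * (-v * c + u * d) := by linear_combination (-c) * huv
  have e2 : d = v * (u * c + v * d) + u * (-v * c + u * d) := by linear_combination (-d) * huv
  rw [abs_mul, abs_two] at h1
  have h3 : |-v * c + u * d| ≤ t := by linarith [abs_nonneg (-v * c + u * d)]
  have m1 : |u * (u * c + v * d)| ≤ t := by
    rw [abs_mul]
    exact (mul_le_mul hu h2 (abs_nonneg _) zero_le_one).trans_eq (one_mul _)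
  have m2 : |v * (-v * c + u * d)| ≤ t := by
    rw [abs_mul]
    exact (mul_le_mul hv h3 (abs_nonneg _) zero_le_one).trans_eq (one_mul _)
  have m3 : |v * (u * c + v * d)| ≤ t := by
    rw [abs_mul]
    exact (mul_le_mul hv h2 (abs_nonneg _) zero_le_one).trans_eq (one_mul _)
  have m4 : |u * (-v * c + u * d)| ≤ t := by
    rw [abs_mul]
    exact (mul_le_mul hu h3 (abs_nonneg _) zero_le_one).trans_eq (one_mul _)
  constructor
  · rw [e1]
    refine (abs_sub _ _).trans ?_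
    linarith
  · rw [e2]
    refine (abs_add_le _ _).trans ?_
    linarith

theorem vec4 {u v c d t : ℝ} (huv : u ^ 2 + v ^ 2 = 1) (h1 : |c| ≤ t) (h2 : |d| ≤ t) :
    |2 * (-v * c + u * d)| ≤ 4 * t := by
  have hu : |u| ≤ 1 := abs_le.2 ⟨by nlinarith [sq_nonneg v], by nlinarith [sq_nonneg v]⟩
  have hv : |v| ≤ 1 := abs_le.2 ⟨by nlinarith [sq_nonneg u], by nlinarith [sq_nonneg u]⟩
  rw [abs_mul, abs_two]
  have m2 : |v * c| ≤ t := by
    rw [abs_mul]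
    exact (mul_le_mul hv h1 (abs_nonneg _) zero_le_one).trans_eq (one_mul _)
  have m4 : |u * d| ≤ t := by
    rw [abs_mul]
    exact (mul_le_mul hu h2 (abs_nonneg _) zero_le_one).trans_eq (one_mul _)
  have e : -v * c + u * d = u * d - v * c := by ring
  rw [e]
  have := abs_sub (u * d) (v * c)
  linarith

section rot

variable {B : Base} {G : ℕ → RCfg (Fin 12)} {Leg : Set (Fin 12 → ℝ)} {ν : (Fin 12 → ℝ) → ℝ}
  {σ R D x0 : ℝ} {own : ℕ → ℕ → ℕ → ℕ → Fin 12 → ℝ} {u v : ℕ → ℝ}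

/-- **the rotated model** -/
theorem rmodel_rot (H : RModel B G σ R Leg ν D) (T : Dir B G own u v x0) :
    RModel B (fun n => rot (u n) (v n) (G n)) σ R
      {p | dup p ∈ Leg ∧ p 3 ≤ x0 ∧ p 5 ≤ x0} (fun p => ν (dup p)) ((2 : ℝ) ^ 2 * D) := by
  refine rmodel_conj H (c := 2) (by norm_num) (fun _ => rfl) (fun _ => rfl) (fun _ => rfl)
    (fun _ => rfl) (fun _ => rfl) ?_ (fun p hp => hp.1) ?_ ?_
  · intro n k i hi j
    have h := H.refl n k i hi
    by_cases h3 : j = 3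
    · subst h3; rw [rot3, h, h]; ring
    by_cases h4 : j = 4
    · subst h4; rw [rot4]
    by_cases h5 : j = 5
    · subst h5; rw [rot5, h, h]; ring
    by_cases h6 : j = 6
    · subst h6; rw [rot6]
    rw [rot_of _ _ _ _ _ _ h3 h4 h5 h6, h]
  · intro p hp ε hε
    filter_upwards [T.tc ε hε, T.tx ε hε, ev_const_le B hε 2] with n t1 t2 h2 k i l hi hl h s
    have hb : (G n).ρ = B.d n := H.base n
    have huv := T.unit n
    have hd := fun t => rpos B n t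
    have up : ∀ t : ℝ, 2 * B.d n ^ (t - ε) ≤ B.d n ^ (t - 2 * ε) := by
      intro t
      have e : B.d n ^ (t - 2 * ε) = B.d n ^ (-ε) * B.d n ^ (t - ε) := by
        rw [← rpow_add']; congr 1; ring
      rw [e]
      exact mul_le_mul_of_nonneg_right h2 (hd _).le
    have h3 : |2 * (-v n * (G n).rel k i l 3 + u n * (G n).rel k i l 4)| ≤ B.d n ^ (p 3 - ε) := by
      have := h 3
      rw [rot3] at this
      have e : (rot (u n) (v n) (G n)).ρ = B.d n := hb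
      rwa [e] at this
    have h5 : |2 * (-v n * (G n).rel k i l 5 + u n * (G n).rel k i l 6)| ≤ B.d n ^ (p 5 - ε) := by
      have := h 5
      rw [rot5] at this
      have e : (rot (u n) (v n) (G n)).ρ = B.d n := hb
      rwa [e] at this
    have g3 := vec2 huv (hd _).le h3 ((t1 k i l hi hl).trans (rpow_anti B n (by
      have := hp.2.1; linarith)))
    have g5 := vec2 huv (hd _).le h5 ((t2 k i l hi hl).trans (rpow_anti B n (by
      have := hp.2.2; linarith)))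
    rw [hb]
    by_cases e3 : s = 3
    · subst e3; rw [dup3]; exact g3.1.trans (up _)
    by_cases e4 : s = 4
    · subst e4; rw [dup4]; exact g3.2.trans (up _)
    by_cases e5 : s = 5
    · subst e5; rw [dup5]; exact g5.1.trans (up _)
    by_cases e6 : s = 6
    · subst e6; rw [dup6]; exact g5.2.trans (up _)
    have := h s
    rw [rot_of _ _ _ _ _ _ e3 e4 e5 e6] at this
    have e : (rot (u n) (v n) (G n)).ρ = B.d n := hb
    rw [e] at this
    rw [dup_of _ e4 e6]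
    exact this.trans (rpow_anti B n (by linarith))
  · intro p hp ε hε
    filter_upwards [ev_const_le B hε 4] with n h2 k i l hi hl h s
    have hb : (G n).ρ = B.d n := H.base n
    have huv := T.unit n
    have hd := fun t => rpos B n t
    have up : ∀ t : ℝ, 4 * B.d n ^ (t - ε) ≤ B.d n ^ (t - 2 * ε) := by
      intro t
      have e : B.d n ^ (t - 2 * ε) = B.d n ^ (-ε) * B.d n ^ (t - ε) := by
        rw [← rpow_add']; congr 1; ring
      rw [e]
      exact mul_le_mul_of_nonneg_right h2 (hd _).le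
    have e : (rot (u n) (v n) (G n)).ρ = B.d n := hb
    have hh : ∀ s, |(G n).rel k i l s| ≤ B.d n ^ (dup p s - ε) := by
      intro s
      have := h s
      rwa [hb] at this
    have h3 := hh 3
    have h4 := hh 4
    have h5 := hh 5
    have h6 := hh 6
    rw [dup3] at h3
    rw [dup4] at h4
    rw [dup5] at h5
    rw [dup6] at h6
    show |(rot (u n) (v n) (G n)).rel k i l s| ≤ (rot (u n) (v n) (G n)).ρ ^ _
    rw [e]
    by_cases e3 : s = 3
    · subst e3; rw [rot3]; exact (vec4 huv h3 h4).trans (up _)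
    by_cases e4 : s = 4
    · subst e4; rw [rot4, abs_zero]; exact (hd _).le
    by_cases e5 : s = 5
    · subst e5; rw [rot5]; exact (vec4 huv h5 h6).trans (up _)
    by_cases e6 : s = 6
    · subst e6; rw [rot6, abs_zero]; exact (hd _).le
    rw [rot_of _ _ _ _ _ _ e3 e4 e5 e6]
    have := hh s
    rw [dup_of _ e4 e6] at this
    exact this.trans (rpow_anti B n (by linarith))

end rot

/-! ### the movement of the normal slot -/

/-- one pair of lines at two heights -/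
theorem alg_e {u v z1 h7 h8 a0 a7 a8 c3 c4 c5 c6 c10 c11 w e β : ℝ} (he : 0 ≤ e) (hβ : 8 ≤ β)
    (huv : u ^ 2 + v ^ 2 = 1) (hz : |z1| ≤ 2) (g7 : |h7| ≤ 2) (g8 : |h8| ≤ 2)
    (b0 : |a0| ≤ β) (b3 : |c3| ≤ β) (b4 : |c4| ≤ β) (b5 : |c5| ≤ β) (b6 : |c6| ≤ β)
    (b10 : |c10| ≤ β) (d0 : |a0 + z1| ≤ e) (d7 : |a7 + h7| ≤ e) (d8 : |a8 + h8| ≤ e)
    (t3 : |u * c3 + v * c4| ≤ e) (t5 : |u * c5 + v * c6| ≤ e)
    (hE : |w - (c11 - a0 * c10 - a7 * (c5 - a0 * c3) - a8 * (c6 - a0 * c4))| ≤ e) :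
    |w - (c11 + z1 * c10 - ((v * h7 - u * h8) / 2) * (2 * (-v * c5 + u * c6) +
      z1 * (2 * (-v * c3 + u * c4))))| ≤ e * β ^ 3 := by
  have hu : |u| ≤ 1 := abs_le.2 ⟨by nlinarith [sq_nonneg v], by nlinarith [sq_nonneg v]⟩
  have hv : |v| ≤ 1 := abs_le.2 ⟨by nlinarith [sq_nonneg u], by nlinarith [sq_nonneg u]⟩
  have hβ0 : 0 ≤ β := by linarith
  have e1 : w - (c11 + z1 * c10 - ((v * h7 - u * h8) / 2) * (2 * (-v * c5 + u * c6) +
      z1 * (2 * (-v * c3 + u * c4)))) =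
      (w - (c11 - a0 * c10 - a7 * (c5 - a0 * c3) - a8 * (c6 - a0 * c4))) -
      (a0 + z1) * c10 - (a7 + h7) * (c5 - a0 * c3) - (a8 + h8) * (c6 - a0 * c4) -
      h7 * ((a0 + z1) * c3) - h8 * ((a0 + z1) * c4) +
      (u * h7 + v * h8) * ((u * c5 + v * c6) + z1 * (u * c3 + v * c4)) := by
    linear_combination (-(h7 * (c5 + z1 * c3)) - h8 * (c6 + z1 * c4)) * huv
  have m0 : |(a0 + z1) * c10| ≤ e * β := by
    rw [abs_mul]; exact mul_le_mul d0 b10 (abs_nonneg _) he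
  have p5 : |c5 - a0 * c3| ≤ β + β * β := by
    refine (abs_sub _ _).trans ?_
    rw [abs_mul]
    exact add_le_add b5 (mul_le_mul b0 b3 (abs_nonneg _) hβ0)
  have p6 : |c6 - a0 * c4| ≤ β + β * β := by
    refine (abs_sub _ _).trans ?_
    rw [abs_mul]
    exact add_le_add b6 (mul_le_mul b0 b4 (abs_nonneg _) hβ0)
  have m1 : |(a7 + h7) * (c5 - a0 * c3)| ≤ e * (β + β * β) := by
    rw [abs_mul]; exact mul_le_mul d7 p5 (abs_nonneg _) he
  have m2 : |(a8 + h8) * (c6 - a0 * c4)| ≤ e * (β + β * β) := by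
    rw [abs_mul]; exact mul_le_mul d8 p6 (abs_nonneg _) he
  have m3 : |h7 * ((a0 + z1) * c3)| ≤ 2 * (e * β) := by
    rw [abs_mul, abs_mul]
    exact mul_le_mul g7 (mul_le_mul d0 b3 (abs_nonneg _) he) (by positivity) (by norm_num)
  have m4 : |h8 * ((a0 + z1) * c4)| ≤ 2 * (e * β) := by
    rw [abs_mul, abs_mul]
    exact mul_le_mul g8 (mul_le_mul d0 b4 (abs_nonneg _) he) (by positivity) (by norm_num)
  have q1 : |u * h7 + v * h8| ≤ 4 := by
    refine (abs_add_le _ _).trans ?_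
    rw [abs_mul, abs_mul]
    have s1 := mul_le_mul hu g7 (abs_nonneg _) zero_le_one
    have s2 := mul_le_mul hv g8 (abs_nonneg _) zero_le_one
    linarith
  have q2 : |(u * c5 + v * c6) + z1 * (u * c3 + v * c4)| ≤ 3 * e := by
    refine (abs_add_le _ _).trans ?_
    rw [abs_mul z1]
    have s1 := mul_le_mul hz t3 (abs_nonneg _) (by norm_num)
    linarith
  have m5 : |(u * h7 + v * h8) * ((u * c5 + v * c6) + z1 * (u * c3 + v * c4))| ≤ 4 * (3 * e) := by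
    rw [abs_mul]; exact mul_le_mul q1 q2 (abs_nonneg _) (by norm_num)
  have k1 : 8 * e ≤ e * β := by nlinarith
  have k2 : 8 * (e * β) ≤ e * (β * β) := by
    have : 0 ≤ e * β := by positivity
    nlinarith
  have k3 : 8 * (e * (β * β)) ≤ e * β ^ 3 := by
    have : 0 ≤ e * (β * β) := by positivity
    have e3 : e * β ^ 3 = (e * (β * β)) * β := by ring
    rw [e3]; nlinarith
  have e2 : e * (β + β * β) = e * β + e * (β * β) := by ring
  rw [e2] at m1 m2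
  rw [e1]
  rw [abs_le] at hE m0 m1 m2 m3 m4 m5 ⊢
  have n1 : 0 ≤ e * β := by positivity
  constructor <;> linarith [hE.1, hE.2, m0.1, m0.2, m1.1, m1.2, m2.1, m2.2, m3.1, m3.2, m4.1,
    m4.2, m5.1, m5.2]

/-- exponents of the boxes -/
def q5 (n p x c : ℝ) : Fin 12 → ℝ := fun s =>
  if s = 11 then n else if s = 10 then p else if s = 5 ∨ s = 6 then x else
  if s = 3 ∨ s = 4 then c else 0

theorem dup_bx (y n p x c : ℝ) :
    dup (Crest.Agent.R136.CD366.bx (∅ : Finset (Fin 12)) 11 10 5 3 y n p x c) = q5 n p x c := by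
  funext s
  fin_cases s <;> simp [dup, Crest.Agent.R136.CD366.bx, q5]

theorem bx3 (y n p x c : ℝ) :
    Crest.Agent.R136.CD366.bx (∅ : Finset (Fin 12)) 11 10 5 3 y n p x c 3 = c := by
  simp [Crest.Agent.R136.CD366.bx]

theorem bx5 (y n p x c : ℝ) :
    Crest.Agent.R136.CD366.bx (∅ : Finset (Fin 12)) 11 10 5 3 y n p x c 5 = x := by
  simp [Crest.Agent.R136.CD366.bx]

theorem bx0 (y : ℝ) (s : Fin 12) :
    Crest.Agent.R136.CD366.bx (∅ : Finset (Fin 12)) 11 10 5 3 y 0 0 0 0 s = 0 := by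
  simp [Crest.Agent.R136.CD366.bx]

section main

variable {B : Base} {G : ℕ → RCfg (Fin 12)} {Leg : Set (Fin 12 → ℝ)} {ν : (Fin 12 → ℝ) → ℝ}
  {σ R D x0 : ℝ} {S : Finset (Fin 12)} {own : ℕ → ℕ → ℕ → ℕ → Fin 12 → ℝ} {u v : ℕ → ℝ}

/-- common heights of the slot `j` -/
structure Hgt (B : Base) (G : ℕ → RCfg (Fin 12)) (own : ℕ → ℕ → ℕ → ℕ → Fin 12 → ℝ) (j : Fin 12)
    (h : ℕ → ℕ → ℝ) (x : ℝ) : Prop where
  bd : ∀ᶠ n in (U : Filter ℕ), ∀ k ∈ (G n).Z, |h n k| ≤ 1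
  ow : ∀ ε : ℝ, 0 < ε → ∀ᶠ n in (U : Filter ℕ), ∀ i k0 k, (i, k0) ∈ (G n).I → (i, k) ∈ (G n).I →
    |own n i k0 k j + (h n k - h n k0)| ≤ B.d n ^ (x - ε)

/-- **366's data of K3core** for the rotated configuration -/
theorem k3_data (H : RModel B G σ R Leg ν D) (L : LLaw B G S own x0) (T : Dir B G own u v x0)
    (m7 : (7 : Fin 12) ∈ S) (m8 : (8 : Fin 12) ∈ S)
    (z1 : (1 : Fin 12) ∉ S ∨ ∀ n i k0 k, own n i k0 k 1 = 0)
    (z2 : (2 : Fin 12) ∉ S ∨ ∀ n i k0 k, own n i k0 k 2 = 0)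
    (zbd : ∀ᶠ n in (U : Filter ℕ), ∀ k ∈ (G n).Z, |(G n).z k| ≤ 1)
    {h7 h8 : ℕ → ℕ → ℝ} (T7 : Hgt B G own 7 h7 x0) (T8 : Hgt B G own 8 h8 x0)
    {R0 a c : ℝ} (hR0 : 0 < R0) (hx : R0 ≤ x0) (hc : 0 < c)
    (leg : ∀ n p x c' : ℝ, 0 ≤ n → n ≤ R0 → 0 ≤ p → p ≤ R0 → 0 ≤ x → x ≤ R0 → 0 ≤ c' →
      c' ≤ R0 → q5 n p x c' ∈ Leg)
    (hN : ∀ y : ℝ, 0 ≤ y → y ≤ R0 → ν (q5 0 0 0 0) - ν (q5 y 0 0 0) ≤ a * y)
    (h1 : ∀ y t : ℝ, 0 ≤ t → t ≤ y → y ≤ R0 →
      (a + c) * t ≤ ν (q5 0 y y 0) - ν (q5 t y y t))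
    (h2 : ∀ t : ℝ, 0 ≤ t → t ≤ R0 → (a + c) * t ≤ ν (q5 0 0 0 0) - ν (q5 t t 0 0))
    (h3 : ∀ t : ℝ, 0 ≤ t → t ≤ R0 → (a + c) * t ≤ ν (q5 R0 0 0 R0) - ν (q5 R0 t t R0)) :
    Crest.Agent.R136.CD366.K3 B (fun n => rot (u n) (v n) (G n))
      {p | dup p ∈ Leg ∧ p 3 ≤ x0 ∧ p 5 ≤ x0} (fun p => ν (dup p)) ∅ 11 10 5 3
      (fun n k => (v n * h7 n k - u n * h8 n k) / 2) R0 4 a c where
  R0_pos := hR0
  C1_one := by norm_num
  c_pos := hc
  NP := by decide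
  NX := by decide
  NC := by decide
  PX := by decide
  PC := by decide
  XC := by decide
  leg := by
    intro y n p x c' hy0 hyR a1 a2 a3 a4 a5 a6 a7 a8
    refine ⟨?_, ?_, ?_⟩
    · rw [dup_bx]
      exact leg n p x c' a1 (a2.trans hyR) a3 (a4.trans hyR) a5 (a6.trans hyR) a7 (a8.trans hyR)
    · rw [bx3]; linarith
    · rw [bx5]; linarith
  bd := by
    filter_upwards [zbd, T7.bd, T8.bd] with n a1 a2 a3 k hk
    refine ⟨a1 k hk, ?_⟩
    have huv := T.unit n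
    have hu : |u n| ≤ 1 := abs_le.2 ⟨by nlinarith [sq_nonneg (v n)], by nlinarith [sq_nonneg (v n)]⟩
    have hv : |v n| ≤ 1 := abs_le.2 ⟨by nlinarith [sq_nonneg (u n)], by nlinarith [sq_nonneg (u n)]⟩
    show |(v n * h7 n k - u n * h8 n k) / 2| ≤ 1
    rw [abs_div, abs_two]
    have b1 := abs_sub (v n * h7 n k) (u n * h8 n k)
    rw [abs_mul, abs_mul] at b1
    have s1 := mul_le_mul hv (a2 k hk) (abs_nonneg _) zero_le_one
    have s2 := mul_le_mul hu (a3 k hk) (abs_nonneg _) zero_le_one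
    linarith
  ev := by
    intro y hy0 hyR ε hε
    filter_upwards [zbd, T7.bd, T8.bd, T7.ow ε hε, T8.ow ε hε, L.bd ε hε, L.ownbd ε hε,
      L.own0 ε hε, L.evo ε hε, T.tc ε hε, T.tx ε hε, ev_const_le B hε 8] with n b1 b2 b3 b4 b5 b6
      b7 b8 b9 b10 b11 b12 k₀ k i l i0 l0 ik lk hl
    have i0' : (i, k₀) ∈ (G n).I := i0
    have l0' : (l, k₀) ∈ (G n).I := l0
    have ik' : (i, k) ∈ (G n).I := ik
    have lk' : (l, k) ∈ (G n).I := lk
    have hk0 : k₀ ∈ (G n).Z := (mem_product.1 (H.sub n i0')).2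
    have hk : k ∈ (G n).Z := (mem_product.1 (H.sub n ik')).2
    have huv := T.unit n
    have hd := fun t => rpos B n t
    set β := B.d n ^ (-ε) with hβ
    have β0 : 0 < β := hd _
    have hρ : (rot (u n) (v n) (G n)).ρ = B.d n := H.base n
    have e8 : ∀ t : ℝ, B.d n ^ (t - 4 * ε) = B.d n ^ (t - ε) * β ^ 3 := by
      intro t
      have : β ^ 3 = B.d n ^ (-(3 * ε)) := by
        rw [hβ, ← Real.rpow_natCast, ← Real.rpow_mul (B.pos n).le]
        congr 1; push_cast; ring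
      rw [this, ← rpow_add']; congr 1; ring
    constructor
    · intro s
      rw [hρ, bx0]
      have e9 : B.d n ^ (0 - 4 * ε) = β * β ^ 3 := by
        rw [e8, zero_sub]
      have g1 : 4 * β ≤ B.d n ^ (0 - 4 * ε) := by
        rw [e9]
        have h3 : (1 : ℝ) ≤ β := by linarith
        have h4 : β ≤ β ^ 3 := by nlinarith [mul_nonneg β0.le β0.le]
        nlinarith
      have g2 : β ≤ B.d n ^ (0 - 4 * ε) := by linarith
      by_cases e3 : s = 3
      · subst e3; rw [rot3]; exact (vec4 huv (b6 k i l ik' lk' 3) (b6 k i l ik' lk' 4)).trans g1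
      by_cases e4 : s = 4
      · subst e4; rw [rot4, abs_zero]; exact (hd _).le
      by_cases e5 : s = 5
      · subst e5; rw [rot5]; exact (vec4 huv (b6 k i l ik' lk' 5) (b6 k i l ik' lk' 6)).trans g1
      by_cases e6 : s = 6
      · subst e6; rw [rot6, abs_zero]; exact (hd _).le
      rw [rot_of _ _ _ _ _ _ e3 e4 e5 e6]
      exact (b6 k i l ik' lk' s).trans g2
    · have hev := b9 k₀ k i l i0' l0' ik' lk' 11 (fun h => by have := L.SSL h; simp [SL] at this)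
      rw [evoS_11 _ _ L.SSL L.S0] at hev
      have f7 : LvS S (own n i k₀ k) 7 = own n i k₀ k 7 := by simp [LvS, m7]
      have f8 : LvS S (own n i k₀ k) 8 = own n i k₀ k 8 := by simp [LvS, m8]
      have f1 : LvS S (own n i k₀ k) 1 = 0 := by
        rcases z1 with z | z
        · simp [LvS, z]
        · simp [LvS, z]
      have f2 : LvS S (own n i k₀ k) 2 = 0 := by
        rcases z2 with z | z
        · simp [LvS, z]
        · simp [LvS, z]
      rw [f7, f8, f1, f2, zero_mul, zero_mul, sub_zero, sub_zero] at hev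
      have d2 : ∀ {p q : ℝ}, |p| ≤ 1 → |q| ≤ 1 → |p - q| ≤ 2 := fun {p q} h h' =>
        (abs_sub _ _).trans (by linarith)
      have key := alg_e (u := u n) (v := v n) (β := β) (e := B.d n ^ (x0 - ε)) (hd _).le b12 huv
        (d2 (b1 k hk) (b1 k₀ hk0)) (d2 (b2 k hk) (b2 k₀ hk0)) (d2 (b3 k hk) (b3 k₀ hk0))
        (b7 i k₀ k i0' ik' 0) (b6 k₀ i l i0' l0' 3) (b6 k₀ i l i0' l0' 4) (b6 k₀ i l i0' l0' 5)
        (b6 k₀ i l i0' l0' 6) (b6 k₀ i l i0' l0' 10) (b8 i k₀ k i0' ik') (b4 i k₀ k i0' ik')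
        (b5 i k₀ k i0' ik') (b10 k₀ i l i0' l0') (b11 k₀ i l i0' l0') hev
      rw [← e8] at key
      rw [rot_of _ _ _ _ _ _ (by decide) (by decide) (by decide) (by decide),
        rot_of _ _ _ _ _ _ (by decide) (by decide) (by decide) (by decide),
        rot_of _ _ _ _ _ _ (by decide) (by decide) (by decide) (by decide), rot5, rot3]
      show |(G n).rel k i l 11 - ((G n).rel k₀ i l 11 + ((G n).z k - (G n).z k₀) *
        (G n).rel k₀ i l 10 - ((v n * h7 n k - u n * h8 n k) / 2 -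
          (v n * h7 n k₀ - u n * h8 n k₀) / 2) * (2 * (-v n * (G n).rel k₀ i l 5 +
            u n * (G n).rel k₀ i l 6) + ((G n).z k - (G n).z k₀) *
            (2 * (-v n * (G n).rel k₀ i l 3 + u n * (G n).rel k₀ i l 4))))| ≤ _
      have e9 : (v n * h7 n k - u n * h8 n k) / 2 - (v n * h7 n k₀ - u n * h8 n k₀) / 2 =
          (v n * (h7 n k - h7 n k₀) - u n * (h8 n k - h8 n k₀)) / 2 := by ring
      rw [e9]
      exact key.trans (rpow_anti B n (by linarith))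
  hN := by
    intro y hy0 hyR
    show ν (dup _) - ν (dup _) ≤ _
    rw [dup_bx, dup_bx]
    exact hN y hy0 hyR
  h1 := by
    intro y t ht hty hyR
    show _ ≤ ν (dup _) - ν (dup _)
    rw [dup_bx, dup_bx]
    exact h1 y t ht hty hyR
  h2 := by
    intro y t ht hty hyR
    show _ ≤ ν (dup _) - ν (dup _)
    rw [dup_bx, dup_bx]
    exact h2 t ht (hty.trans hyR)
  h3 := by
    intro t ht htR
    show _ ≤ ν (dup _) - ν (dup _)
    rw [dup_bx, dup_bx]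
    exact h3 t ht htR

/-- **K3core at the e-tie `k = 1`** -/
theorem k3core_e (H : RModel B G σ R Leg ν D) (L : LLaw B G S own x0) (T : Dir B G own u v x0)
    (m7 : (7 : Fin 12) ∈ S) (m8 : (8 : Fin 12) ∈ S)
    (z1 : (1 : Fin 12) ∉ S ∨ ∀ n i k0 k, own n i k0 k 1 = 0)
    (z2 : (2 : Fin 12) ∉ S ∨ ∀ n i k0 k, own n i k0 k 2 = 0)
    (zbd : ∀ᶠ n in (U : Filter ℕ), ∀ k ∈ (G n).Z, |(G n).z k| ≤ 1)
    {h7 h8 : ℕ → ℕ → ℝ} (T7 : Hgt B G own 7 h7 x0) (T8 : Hgt B G own 8 h8 x0)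
    {R0 a c : ℝ} (hR0 : 0 < R0) (hR : R0 ≤ R) (hx : R0 ≤ x0) (hc : 0 < c)
    (leg : ∀ n p x c' : ℝ, 0 ≤ n → n ≤ R0 → 0 ≤ p → p ≤ R0 → 0 ≤ x → x ≤ R0 → 0 ≤ c' →
      c' ≤ R0 → q5 n p x c' ∈ Leg)
    (hN : ∀ y : ℝ, 0 ≤ y → y ≤ R0 → ν (q5 0 0 0 0) - ν (q5 y 0 0 0) ≤ a * y)
    (h1 : ∀ y t : ℝ, 0 ≤ t → t ≤ y → y ≤ R0 →
      (a + c) * t ≤ ν (q5 0 y y 0) - ν (q5 t y y t))
    (h2 : ∀ t : ℝ, 0 ≤ t → t ≤ R0 → (a + c) * t ≤ ν (q5 0 0 0 0) - ν (q5 t t 0 0))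
    (h3 : ∀ t : ℝ, 0 ≤ t → t ≤ R0 → (a + c) * t ≤ ν (q5 R0 0 0 R0) - ν (q5 R0 t t R0)) :
    σ ≤ a :=
  Crest.Agent.R136.CD366.K3core_R (rmodel_rot H T)
    (k3_data H L T m7 m8 z1 z2 zbd T7 T8 hR0 hx hc leg hN h1 h2 h3) hR

/-- **K3core at the e-tie `k = 1` in rates**: `gN`, `gC` = growths of the slots `11`, `{3, 4}`, `J` = joint
growth of `10` and `{5, 6}`. -/
theorem k3_rates (H : RModel B G σ R Leg ν D) (L : LLaw B G S own x0) (T : Dir B G own u v x0)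
    (m7 : (7 : Fin 12) ∈ S) (m8 : (8 : Fin 12) ∈ S)
    (z1 : (1 : Fin 12) ∉ S ∨ ∀ n i k0 k, own n i k0 k 1 = 0)
    (z2 : (2 : Fin 12) ∉ S ∨ ∀ n i k0 k, own n i k0 k 2 = 0)
    (zbd : ∀ᶠ n in (U : Filter ℕ), ∀ k ∈ (G n).Z, |(G n).z k| ≤ 1)
    {h7 h8 : ℕ → ℕ → ℝ} (T7 : Hgt B G own 7 h7 x0) (T8 : Hgt B G own 8 h8 x0)
    {R0 : ℝ} (hR0 : 0 < R0) (hR : R0 ≤ R) (hx : R0 ≤ x0)
    (leg : ∀ n p x c' : ℝ, 0 ≤ n → n ≤ R0 → 0 ≤ p → p ≤ R0 → 0 ≤ x → x ≤ R0 → 0 ≤ c' →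
      c' ≤ R0 → q5 n p x c' ∈ Leg)
    {gN gC r0 : ℝ} {J : ℝ → ℝ → ℝ}
    (hν : ∀ n p x c' : ℝ, 0 ≤ n → n ≤ R0 → 0 ≤ p → p ≤ R0 → 0 ≤ x → x ≤ R0 → 0 ≤ c' →
      c' ≤ R0 → ν (q5 0 0 0 0) - ν (q5 n p x c') = gN * n + gC * c' + J p x)
    (hC : 0 < gC) (hr : 0 < r0) (hJ0 : ∀ t : ℝ, 0 ≤ t → t ≤ R0 → r0 * t ≤ J t 0)
    (hJ1 : ∀ t : ℝ, 0 ≤ t → t ≤ R0 → σ * t ≤ J t t) : σ ≤ gN := by
  by_contra hcon
  push Not at hcon
  have hc : 0 < min gC (min r0 (σ - gN)) := lt_min hC (lt_min hr (by linarith))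
  have c1 : min gC (min r0 (σ - gN)) ≤ gC := min_le_left _ _
  have c2 : min gC (min r0 (σ - gN)) ≤ r0 := (min_le_right _ _).trans (min_le_left _ _)
  have c3 : min gC (min r0 (σ - gN)) ≤ σ - gN := (min_le_right _ _).trans (min_le_right _ _)
  have J00 : J 0 0 = 0 := by
    have := hν 0 0 0 0 le_rfl hR0.le le_rfl hR0.le le_rfl hR0.le le_rfl hR0.le
    rw [sub_self] at this
    linarith
  have hR00 := hR0.le
  refine absurd (k3core_e H L T m7 m8 z1 z2 zbd T7 T8 (a := gN) hR0 hR hx hc leg ?_ ?_ ?_ ?_)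
    (not_le.2 hcon)
  · intro y hy hyR
    have := hν y 0 0 0 hy hyR le_rfl hR00 le_rfl hR00 le_rfl hR00
    rw [this, J00]; linarith
  · intro y t ht hty hyR
    have hy : 0 ≤ y := ht.trans hty
    have e1 := hν 0 y y 0 le_rfl hR00 hy hyR hy hyR le_rfl hR00
    have e2 := hν t y y t ht (hty.trans hyR) hy hyR hy hyR ht (hty.trans hyR)
    have e3 : ν (q5 0 y y 0) - ν (q5 t y y t) = gN * t + gC * t := by linarith
    rw [e3]
    nlinarith
  · intro t ht htR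
    have e1 := hν t t 0 0 ht htR ht htR le_rfl hR00 le_rfl hR00
    rw [e1]
    have := hJ0 t ht htR
    nlinarith
  · intro t ht htR
    have e1 := hν R0 0 0 R0 hR00 le_rfl le_rfl hR00 le_rfl hR00 hR00 le_rfl
    have e2 := hν R0 t t R0 hR00 le_rfl ht htR ht htR hR00 le_rfl
    have e3 : ν (q5 R0 0 0 R0) - ν (q5 R0 t t R0) = J t t := by
      rw [J00] at e1; linarith
    rw [e3]
    have := hJ1 t ht htR
    nlinarith

end main

end Crest.Agent.R116.K3e160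
end

-- ▼ part R116/K3e2_160
section

/-!
# R116, e-tie `k = 1` : **K3core**, part 2 (helper160): common heights in a window

* `AddS W s tp C` : the slot `s` is additive on the class up to `C ρ^tp`; `addS7`, `addS8`, `addS2`
  from small couplings; `addS7_nat`, `addS8_nat`, `addS2_nat` from 369's `NatX` (`D`, `E` raised);
* `hgt_of_addS` : common heights `h n k = crd (s₀ n) (zrep n k) s` of a resolved level slot `s`;
* `zbd_win` : `|z k| ≤ 1`.
-/

set_option autoImplicit false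
set_option linter.unusedVariables false
set_option linter.unusedSectionVars false

open Filter Topology Finset

namespace Crest.Agent.R116.K3e160

open Crest.Agent.R138.Ex926 (Base U)
open Crest.Agent.R136.Gf356 Crest.Agent.R136.Net191 Crest.Agent.R136.Qg926
open Crest.Agent.R116.ChL222 Crest.Agent.R116.PL504 Crest.Agent.R116.EvL504

variable {ι : ℕ → Type*} [∀ n, DecidableEq (ι n)] {W : Wnd 12 ι} {K tp : ℝ}

/-- the slot `s` is additive on the class -/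
def AddS (W : Wnd 12 ι) (s : Fin 12) (tp C : ℝ) : Prop :=
  ∀ᶠ n in (U : Filter ℕ), ∀ i ∈ W.Cl n, ∀ j ∈ W.Cl n, ∀ l ∈ W.Cl n,
    |W.crd n i l s - W.crd n i j s - W.crd n j l s| ≤ C * W.B'.d n ^ tp

theorem cpl_bd {p q r a c e : ℝ} (hr : 0 < r) (hp : 0 ≤ p) (hq : 0 ≤ q) (ha : |a| ≤ 1)
    (hc : |c| ≤ 1) (h : p * q ≤ e * r) : |p * a * (q * c) / r| ≤ e := by
  rw [abs_div, abs_of_pos hr, div_le_iff₀ hr]
  have e1 : p * a * (q * c) = (p * q) * (a * c) := by ring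
  rw [e1, abs_mul, abs_of_nonneg (mul_nonneg hp hq), abs_mul]
  have h1 : |a| * |c| ≤ 1 := by
    calc |a| * |c| ≤ 1 * 1 := mul_le_mul ha hc (abs_nonneg _) zero_le_one
      _ = 1 := one_mul _
  calc p * q * (|a| * |c|) ≤ p * q * 1 := mul_le_mul_of_nonneg_left h1 (mul_nonneg hp hq)
    _ ≤ e * r := by rw [mul_one]; exact h

theorem addS7 (h : WL W K tp) (hδ : ∀ᶠ n in (U : Filter ℕ),
    side W n 2 * side W n 3 ≤ W.B'.d n ^ tp * side W n 7 ∧
    side W n 1 * side W n 5 ≤ W.B'.d n ^ tp * side W n 7) : AddS W 7 tp 3 := by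
  filter_upwards [hδ, h.ok.ev_good] with n hd g i hi j hj l hl
  have s7 := h.side_pos' n 7
  have e : W.crd n i l 7 - W.crd n i j 7 - W.crd n j l 7 =
      side W n 2 * W.crd n i j 2 * (side W n 3 * W.crd n j l 3) / side W n 7 +
      2 * (side W n 1 * W.crd n i j 1 * (side W n 5 * W.crd n j l 5) / side W n 7) := by
    rw [h.crd_add i j l 7]
    unfold compW
    have h7 := s7.ne'
    show (side W n 7 * W.crd n i j 7 + side W n 7 * W.crd n j l 7 +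
      (side W n 2 * W.crd n i j 2) * (side W n 3 * W.crd n j l 3) +
      2 * ((side W n 1 * W.crd n i j 1) * (side W n 5 * W.crd n j l 5))) / side W n 7 - _ - _ = _
    field_simp
    ring
  rw [e]
  have a1 := cpl_bd s7 (h.side_pos' n 2).le (h.side_pos' n 3).le (h.crd_le g hi hj 2)
    (h.crd_le g hj hl 3) hd.1
  have a2 := cpl_bd s7 (h.side_pos' n 1).le (h.side_pos' n 5).le (h.crd_le g hi hj 1)
    (h.crd_le g hj hl 5) hd.2
  refine (abs_add_le _ _).trans ?_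
  rw [abs_mul, abs_two]
  linarith

theorem addS8 (h : WL W K tp) (hδ : ∀ᶠ n in (U : Filter ℕ),
    side W n 2 * side W n 4 ≤ W.B'.d n ^ tp * side W n 8 ∧
    side W n 1 * side W n 6 ≤ W.B'.d n ^ tp * side W n 8) : AddS W 8 tp 3 := by
  filter_upwards [hδ, h.ok.ev_good] with n hd g i hi j hj l hl
  have s7 := h.side_pos' n 8
  have e : W.crd n i l 8 - W.crd n i j 8 - W.crd n j l 8 =
      side W n 2 * W.crd n i j 2 * (side W n 4 * W.crd n j l 4) / side W n 8 +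
      2 * (side W n 1 * W.crd n i j 1 * (side W n 6 * W.crd n j l 6) / side W n 8) := by
    rw [h.crd_add i j l 8]
    unfold compW
    have h7 := s7.ne'
    show (side W n 8 * W.crd n i j 8 + side W n 8 * W.crd n j l 8 +
      (side W n 2 * W.crd n i j 2) * (side W n 4 * W.crd n j l 4) +
      2 * ((side W n 1 * W.crd n i j 1) * (side W n 6 * W.crd n j l 6))) / side W n 8 - _ - _ = _
    field_simp
    ring
  rw [e]
  have a1 := cpl_bd s7 (h.side_pos' n 2).le (h.side_pos' n 4).le (h.crd_le g hi hj 2)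
    (h.crd_le g hj hl 4) hd.1
  have a2 := cpl_bd s7 (h.side_pos' n 1).le (h.side_pos' n 6).le (h.crd_le g hi hj 1)
    (h.crd_le g hj hl 6) hd.2
  refine (abs_add_le _ _).trans ?_
  rw [abs_mul, abs_two]
  linarith


variable {E : ∀ n, Finset (ι n)}

theorem zrep_mem' {n : ℕ} (r : Reg W E n) {k : ℕ} (hk : k ∈ (W.cfg E n).Z) :
    W.zrep n k ∈ W.Cl n := by
  rw [r.cfg_eq] at hk
  obtain ⟨y, hy, rfl⟩ := mem_image.1 hk
  exact (W.zrep_spec (r.sub hy)).1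

/-- **common heights of a resolved level slot** -/
theorem hgt_of_addS (h : WL W K tp) (hE : ∀ᶠ n in (U : Filter ℕ), Reg W E n) {s : Fin 12}
    (hs : s ∈ W.S) {C : ℝ} (hA : AddS W s tp C) {G : ℕ → RCfg (Fin 12)}
    (hI : ∀ n, (G n).I = (W.cfg E n).I) (hZ : ∀ n, (G n).Z = (W.cfg E n).Z)
    {own' : ℕ → ℕ → ℕ → ℕ → Fin 12 → ℝ} (ho : ∀ n i k0 k, own' n i k0 k s = ownL W n i k0 k s) :
    Hgt W.B' G own' s (fun n k => W.crd n (W.s₀ n) (W.zrep n k) s) tp where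
  bd := by
    filter_upwards [hE] with n r k hk
    rw [hZ n] at hk
    exact h.crd_le r.good r.good.s0 (zrep_mem' r hk) s
  ow := by
    intro ε hε
    filter_upwards [hE, hA, ev_up W (3 * |C| + 2) tp hε] with n r hA hu i k0 k hi0 hik
    rw [hI n] at hi0 hik
    rw [ho]
    refine le_trans ?_ hu
    obtain ⟨a1, a2, a3⟩ := r.spec hik
    obtain ⟨b1, b2, b3⟩ := r.spec hi0
    obtain ⟨c1, c3⟩ := r.zspec ⟨i, hik⟩
    obtain ⟨d1, d3⟩ := r.zspec ⟨i, hi0⟩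
    have s0 := r.good.s0
    have hd := h.r0 n
    have hC : C * W.B'.d n ^ tp ≤ |C| * W.B'.d n ^ tp :=
      mul_le_mul_of_nonneg_right (le_abs_self C) hd
    have e1 := abs_le.1 (hA _ s0 _ a1 _ c1)
    have e2 := abs_le.1 (hA _ s0 _ b1 _ d1)
    have e3 := abs_le.1 (hA _ s0 _ a1 _ b1)
    have t1 := abs_le.1 (h.crd_z r.good a1 c1 (a3.trans c3.symm) hs)
    have t2 := abs_le.1 (h.crd_z r.good b1 d1 (b3.trans d3.symm) hs)
    show |W.crd n (W.rep n i k) (W.rep n i k0) s + (W.crd n (W.s₀ n) (W.zrep n k) s -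
      W.crd n (W.s₀ n) (W.zrep n k0) s)| ≤ _
    rw [abs_le]
    constructor <;> linarith [e1.1, e1.2, e2.1, e2.2, e3.1, e3.2, t1.1, t1.2, t2.1, t2.2]

theorem zbd_win (h : WL W K tp) (hE : ∀ᶠ n in (U : Filter ℕ), Reg W E n) {G : ℕ → RCfg (Fin 12)}
    (hz : ∀ n, (G n).z = (W.cfg E n).z) (hZ : ∀ n, (G n).Z = (W.cfg E n).Z) :
    ∀ᶠ n in (U : Filter ℕ), ∀ k ∈ (G n).Z, |(G n).z k| ≤ 1 := by
  filter_upwards [hE] with n r k hk
  rw [hZ n] at hk
  rw [hz n, r.z_eq]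
  exact h.crd_le r.good r.good.s0 (zrep_mem' r hk) _

/-! ### 369's windows: `D`, `E` raised -/

section nat

open Crest.Agent.R116.EvD369 (NatX)

theorem natD_mul {K x : ℝ} (hx : 0 < x) (z c p : ℝ) {i j k : Fin 12}
    (hw : wtL i + wtL j = wtL k) (he : eL z c p i + eL z c p j = eL z c p k) :
    natD K x z c p i * natD K x z c p j = natD K x z c p k := by
  unfold natD
  rw [← hw, ← he, pow_add, Real.rpow_add hx]
  ring

variable {Dr : Finset (Fin 12)}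

theorem natX_pair (h : WL W K tp) (h0 : 0 ≤ tp) {n : ℕ} (hX : NatX W K Dr tp n)
    {i j k : Fin 12} (hi : i ∈ Dr) (hj : j ∉ Dr) (hk : k ∉ Dr)
    (hw : wtL i + wtL j = wtL k) (he : ∀ z c p : ℝ, eL z c p i + eL z c p j = eL z c p k) :
    side W n i * side W n j ≤ W.B'.d n ^ tp * side W n k := by
  obtain ⟨z, c, p, -, h2, h3⟩ := hX
  have e := natD_mul (K := K) (W.B.pos n) z c p hw (he z c p)
  rw [h2 j hj, h2 k hk, ← e, ← mul_assoc]
  refine mul_le_mul_of_nonneg_right (h3 i hi) ?_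
  rw [← h2 j hj]
  exact (h.side_pos' n j).le

theorem addS7_nat (h : WL W K tp) (h0 : 0 ≤ tp) (hX : ∀ᶠ n in (U : Filter ℕ), NatX W K Dr tp n)
    (h1 : (1 : Fin 12) ∈ Dr) (h2 : (2 : Fin 12) ∈ Dr) (h3 : (3 : Fin 12) ∉ Dr)
    (h5 : (5 : Fin 12) ∉ Dr) (h7 : (7 : Fin 12) ∉ Dr) : AddS W 7 tp 3 := by
  refine addS7 h ?_
  filter_upwards [hX] with n x
  exact ⟨natX_pair h h0 x h2 h3 h7 rfl (fun z c p => by
      show p - 2 * c + c = p - c
      ring),
    natX_pair h h0 x h1 h5 h7 rfl (fun z c p => by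
      show p - 2 * c - z + (z + c) = p - c
      ring)⟩

theorem addS8_nat (h : WL W K tp) (h0 : 0 ≤ tp) (hX : ∀ᶠ n in (U : Filter ℕ), NatX W K Dr tp n)
    (h1 : (1 : Fin 12) ∈ Dr) (h2 : (2 : Fin 12) ∈ Dr) (h4 : (4 : Fin 12) ∉ Dr)
    (h6 : (6 : Fin 12) ∉ Dr) (h8 : (8 : Fin 12) ∉ Dr) : AddS W 8 tp 3 := by
  refine addS8 h ?_
  filter_upwards [hX] with n x
  exact ⟨natX_pair h h0 x h2 h4 h8 rfl (fun z c p => by
      show p - 2 * c + c = p - c
      ring),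
    natX_pair h h0 x h1 h6 h8 rfl (fun z c p => by
      show p - 2 * c - z + (z + c) = p - c
      ring)⟩


end nat

end Crest.Agent.R116.K3e160
end

-- ▼ part R116/K3e3_160
section

/-!
# R116, e-tie `k = 1` : **K3core**, part 3 (helper160): over 369's windows

Level slots `{0, 7, 8}`, dropped slots `{1, 2}`.

* `leg_q5` : the boxes are legal; `TWin.natX` : 369's `NatX` from the base point;
* `k3_tie` : over `TieM`, `Dir`, common heights; (W3) inside: `0 < gC`, `σ y ≤ J 0 y`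
  (increment of `{5, 6}` with `10` coarse) ⊢ `σ ≤ gN`;
* **`k3_ctx`** : over `CtxT`, at a natural base with `1`, `2` raised.
-/

set_option autoImplicit false
set_option linter.unusedVariables false
set_option linter.unusedSectionVars false

open Filter Topology Finset

namespace Crest.Agent.R116.K3e160

open Crest.Agent.R138.Ex926 (Base U IsTan)
open Crest.Agent.R136.Gf356 Crest.Agent.R136.Net191 Crest.Agent.R136.Qg926
open Crest.Agent.R116.ChL222 Crest.Agent.R116.PL504 Crest.Agent.R116.EvL504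
open Crest.Agent.R116.EvD369 (NatX)
open Crest.Agent.R116.Tw369
open Crest.Agent.R116.KW420 (Dir OwnThin)

/-! ### legality -/

theorem lev_mem : ∀ k : Fin 12, k ≠ 9 → k ≠ 1 → k ≠ 2 → ∀ e ∈ monL.mon k,
    (∀ s ∈ ({1, 2} : Finset (Fin 12)), e s = 0) → ∃ s ∈ ({0, 7, 8} : Finset (Fin 12)), e s ≠ 0 := by
  decide +kernel

theorem leg_q5 {t n p x c : ℝ} (ht : 0 ≤ t) (n0 : 0 ≤ n) (n1 : n ≤ t) (p0 : 0 ≤ p) (p1 : p ≤ t)
    (x0 : 0 ≤ x) (x1 : x ≤ t) (c0 : 0 ≤ c) (c1 : c ≤ t) :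
    q5 n p x c ∈ legT {0, 7, 8} {1, 2} t := by
  show cT {0, 7, 8} {1, 2} t (q5 n p x c) ∈ Leg (monX {1, 2}) t
  have hq : ∀ k, 0 ≤ q5 n p x c k ∧ q5 n p x c k ≤ t := by
    intro k
    unfold q5
    split_ifs
    · exact ⟨n0, n1⟩
    · exact ⟨p0, p1⟩
    · exact ⟨x0, x1⟩
    · exact ⟨c0, c1⟩
    · exact ⟨le_rfl, ht⟩
  have hb : ∀ k, 0 ≤ cT {0, 7, 8} {1, 2} t (q5 n p x c) k ∧
      cT {0, 7, 8} {1, 2} t (q5 n p x c) k ≤ t := by
    intro k
    unfold cT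
    split_ifs
    · exact ⟨le_rfl, ht⟩
    · exact ⟨ht, le_rfl⟩
    · exact hq k
  refine legX hb fun k e he hD => ?_
  by_cases h9 : k = 9
  · left
    subst h9
    simp [cT, q5]
  by_cases h1 : k = 1
  · left
    subst h1
    simp [cT]
  by_cases h2 : k = 2
  · left
    subst h2
    simp [cT]
  right
  obtain ⟨s, hs, hs2⟩ := lev_mem k h9 h1 h2 e he hD
  refine ⟨(hb k).2, s, hs2, ?_⟩
  have hs3 : s ∉ ({1, 2} : Finset (Fin 12)) := fun h => hs2 (hD s h)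
  unfold cT
  rw [if_neg hs3, if_pos hs]

/-! ### over `TieM` -/

theorem nu_mono {B : Base} {G : ℕ → RCfg (Fin 12)} {Leg : Set (Fin 12 → ℝ)}
    {ν : (Fin 12 → ℝ) → ℝ} {D : ℝ} (H : RUnif B G Leg ν D) {p q : Fin 12 → ℝ} (hp : p ∈ Leg)
    (hq : q ∈ Leg) (h : ∀ s, p s ≤ q s) : ν q ≤ ν p := by
  have hD := H.D1
  by_contra hcon
  push Not at hcon
  have hε : 0 < (ν q - ν p) / (D + 2) := div_pos (by linarith) (by linarith)
  set ε := (ν q - ν p) / (D + 2) with hεd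
  have he : (D + 2) * ε = ν q - ν p := by rw [hεd]; field_simp
  obtain ⟨n, h1, h2⟩ := ((H.low q hq ε hε).and (H.up p hp ε hε)).exists
  obtain ⟨⟨i, k⟩, hik⟩ := H.nonempty n
  have a1 := h1 i k hik
  have a2 := h2 i k hik
  have a3 : (((G n).box q ε i k).card : ℝ) ≤ (((G n).box p ε i k).card : ℝ) := by
    refine Nat.cast_le.2 (card_le_card fun l hl => ?_)
    obtain ⟨b1, b2⟩ := RCfg.mem_box.1 hl
    exact RCfg.mem_box.2 ⟨b1, H.loose_mono h le_rfl b2⟩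
  have a4 := a1.trans (a3.trans a2)
  have a5 : B.d n ^ (-ν p - D * ε) < B.d n ^ (-ν q + ε) :=
    Real.rpow_lt_rpow_of_exponent_gt (B.pos n) (B.lt n) (by nlinarith)
  linarith

/-- **K3core over `TieM`**, (W3) inside -/
theorem k3_tie {σ t : ℝ} {lam : (Fin 12 → ℝ) → ℝ} {B' : Base} {G : ℕ → RCfg (Fin 12)}
    {own : ℕ → ℕ → ℕ → ℕ → Fin 12 → ℝ} {D : ℝ} {Ts : Finset (Fin 12)}
    (M : TieM {0, 7, 8} {1, 2} Ts σ t lam B' G own D) (ht : 0 < t) {j : Fin 12} (hj : j ∈ Ts)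
    (h78 : j = 7 ∨ j = 8) {u v : ℕ → ℝ} (T : Dir B' G own u v t)
    (zbd : ∀ᶠ n in (U : Filter ℕ), ∀ k ∈ (G n).Z, |(G n).z k| ≤ 1) {h7 h8 : ℕ → ℕ → ℝ}
    (T7 : Hgt B' G own 7 h7 t) (T8 : Hgt B' G own 8 h8 t) {gN gC : ℝ} {J : ℝ → ℝ → ℝ}
    (hlam : ∀ n p x c' : ℝ, 0 ≤ n → n ≤ t → 0 ≤ p → p ≤ t → 0 ≤ x → x ≤ t → 0 ≤ c' → c' ≤ t →
      lam (cT {0, 7, 8} {1, 2} t (q5 0 0 0 0)) - lam (cT {0, 7, 8} {1, 2} t (q5 n p x c')) =
        gN * n + gC * c' + J p x)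
    (hC : 0 < gC) (hK1 : ∀ y : ℝ, 0 ≤ y → y ≤ t → σ * y ≤ J 0 y) : σ ≤ gN := by
  have hSD : ∀ s : Fin 12, s ∈ ({0, 7, 8} : Finset (Fin 12)) ∪ {1, 2} ↔
      s = 0 ∨ s = 7 ∨ s = 8 ∨ s = 1 ∨ s = 2 := by decide
  have m7 : (7 : Fin 12) ∈ ({0, 7, 8} : Finset (Fin 12)) ∪ {1, 2} := by decide
  have m8 : (8 : Fin 12) ∈ ({0, 7, 8} : Finset (Fin 12)) ∪ {1, 2} := by decide
  have m1 : (1 : Fin 12) ∈ ({0, 7, 8} : Finset (Fin 12)) ∪ {1, 2} := by decide
  have m2 : (2 : Fin 12) ∈ ({0, 7, 8} : Finset (Fin 12)) ∪ {1, 2} := by decide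
  have z1 : ∀ n i k0 k, own n i k0 k 1 = 0 := fun n i k0 k => M.own0 n i k0 k 1 (by decide)
  have z2 : ∀ n i k0 k, own n i k0 k 2 = 0 := fun n i k0 k => M.own0 n i k0 k 2 (by decide)
  have leg : ∀ n p x c' : ℝ, 0 ≤ n → n ≤ t → 0 ≤ p → p ≤ t → 0 ≤ x → x ≤ t → 0 ≤ c' → c' ≤ t →
      q5 n p x c' ∈ legT {0, 7, 8} {1, 2} t := fun n p x c' a1 a2 a3 a4 a5 a6 a7 a8 =>
    leg_q5 ht.le a1 a2 a3 a4 a5 a6 a7 a8
  have hν : ∀ n p x c' : ℝ, 0 ≤ n → n ≤ t → 0 ≤ p → p ≤ t → 0 ≤ x → x ≤ t → 0 ≤ c' → c' ≤ t →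
      nuT {0, 7, 8} {1, 2} t lam (q5 0 0 0 0) - nuT {0, 7, 8} {1, 2} t lam (q5 n p x c') =
        gN * n + gC * c' + J p x := by
    intro n p x c' a1 a2 a3 a4 a5 a6 a7 a8
    unfold nuT
    rw [← hlam n p x c' a1 a2 a3 a4 a5 a6 a7 a8]
    ring
  obtain ⟨γ, hγ, hO⟩ := M.thin j hj
  have t0 := ht.le
  -- (W3) at the natural base
  have hJ0 : ∀ y : ℝ, 0 ≤ y → y ≤ t → gC * y ≤ J y 0 := by
    intro y hy0 hyt
    have l1 := leg 0 y 0 0 le_rfl t0 hy0 hyt le_rfl t0 le_rfl t0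
    have l2 := leg 0 y 0 y le_rfl t0 hy0 hyt le_rfl t0 hy0 hyt
    have l3 := leg 0 0 0 0 le_rfl t0 le_rfl t0 le_rfl t0 le_rfl t0
    have w3 := Crest.Agent.R116.KW420.w3_e00 M.mod M.law ht T m7 m8 m1 m2 z1 z2 h78 hγ ht hO
      (q5 0 y 0 0) (q5 0 y 0 y) (q5 0 0 0 0) (q5 0 y 0 0) l1 l2 l3 l1 (y := y)
      (fun s => by unfold q5; split_ifs <;> first | exact le_rfl | exact hy0)
      (fun s => Or.inr (by unfold q5; split_ifs <;> exact le_rfl)) hyt
      (by simp [q5]) (by simp [q5]) (by simp [q5]) (by simp [q5])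
      (fun s h3 h4 => by unfold q5; simp [h3, h4])
    have e1 := hν 0 y 0 0 le_rfl t0 hy0 hyt le_rfl t0 le_rfl t0
    have e2 := hν 0 y 0 y le_rfl t0 hy0 hyt le_rfl t0 hy0 hyt
    linarith
  -- monotone in the slot `10`
  have hJ1 : ∀ y : ℝ, 0 ≤ y → y ≤ t → σ * y ≤ J y y := by
    intro y hy0 hyt
    have l1 := leg 0 0 y 0 le_rfl t0 le_rfl t0 hy0 hyt le_rfl t0
    have l2 := leg 0 y y 0 le_rfl t0 hy0 hyt hy0 hyt le_rfl t0
    have e := nu_mono M.mod.toRUnif l1 l2 fun s => by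
      unfold q5; split_ifs <;> first | exact le_rfl | exact hy0
    have e1 := hν 0 0 y 0 le_rfl t0 le_rfl t0 hy0 hyt le_rfl t0
    have e2 := hν 0 y y 0 le_rfl t0 hy0 hyt hy0 hyt le_rfl t0
    have := hK1 y hy0 hyt
    linarith
  exact k3_rates M.mod M.law T m7 m8 (Or.inr z1) (Or.inr z2) zbd T7 T8 ht le_rfl le_rfl leg hν hC
    hC hJ0 hJ1

end Crest.Agent.R116.K3e160
end

-- ▼ part R116/K3e4_160
section

/-!
# R116, e-tie `k = 1` : **K3core**, part 4 (helper160): over `CtxT`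

* `NatB Dr t X hh` : the base is natural off `Dr`, raised by `t * hh` on `Dr`; `TWin.natX`;
* `k3_win` : over 369's `TWin`;
* **`k3_ctx`** : over `CtxT`, at a natural base with the slots `1`, `2` raised.
-/

set_option autoImplicit false
set_option linter.unusedVariables false
set_option linter.unusedSectionVars false

open Filter Topology Finset

namespace Crest.Agent.R116.K3e160

open Crest.Agent.R138.Ex926
open Crest.Agent.R138.Mk163 (zc zl rho alive)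
open Crest.Agent.R136.Net191 Crest.Agent.R136.Gf356 Crest.Agent.R136.Qg926
open Crest.Agent.R136.MkA627 Crest.Agent.R136.TD627 Crest.Agent.R136.Lq196
open Crest.Agent.R116.LZg725 Crest.Agent.R116.ChL222
open Crest.Agent.R116.EvL504 (WL Reg side natD LnS ownL Sides bd2D)
open Crest.Agent.R116.PL504 (βL eL rL oL Shift nb DN prN wtL)
open Crest.Agent.R116.Gd222 (TSet sN PDL DT vb)
open Crest.Agent.R116.KI439
open Crest.Agent.R116.KF439 (PL Thin)
open Crest.Agent.R116.Tw468 Crest.Agent.R116.CtxB468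
open Crest.Agent.R116.EvD369 Crest.Agent.R116.Kst593
open Crest.Agent.R116.KW420 (OwnThin Dir)
open Crest.Agent.R116.Tw369

/-- **bases of the windows**: natural off `Dr`, raised by `t * hh` on `Dr` -/
def NatB (Dr : Finset (Fin 12)) (t : ℝ) (X : ℕ → Fin 12 → ℝ) (hh : ℕ → ℝ) : Prop :=
  ∀ᶠ l in (atTop : Filter ℕ), ∃ z c p : ℝ, Legal monL (eL z c p) ∧
    (∀ s, s ∉ Dr → X l s = eL z c p s) ∧ ∀ s ∈ Dr, eL z c p s + t * hh l ≤ X l s

theorem NatB.mono {Dr : Finset (Fin 12)} {t t' : ℝ} {X : ℕ → Fin 12 → ℝ} {hh : ℕ → ℝ}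
    (h : NatB Dr t X hh) (ht : t' ≤ t) (hpos : ∀ l, 0 ≤ hh l) : NatB Dr t' X hh :=
  Filter.Eventually.mono h fun l ⟨z, c, p, h1, h2, h3⟩ => ⟨z, c, p, h1, h2, fun s hs => by
    have := h3 s hs
    have := mul_le_mul_of_nonneg_right ht (hpos l)
    linarith⟩

/-- natural slots `3 .. 8` agree in pairs -/
theorem NatB.pair {Dr : Finset (Fin 12)} {t : ℝ} {X : ℕ → Fin 12 → ℝ} {hh : ℕ → ℝ}
    (h : NatB Dr t X hh) {i j : Fin 12} (hi : i ∉ Dr) (hj : j ∉ Dr)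
    (he : ∀ z c p : ℝ, eL z c p i = eL z c p j) : ∀ᶠ l in (atTop : Filter ℕ), X l i = X l j :=
  Filter.Eventually.mono h fun l ⟨z, c, p, h1, h2, h3⟩ => by rw [h2 i hi, h2 j hj, he]

section win

variable {B : Base} {I0 I' : ℕ → Finset (ℕ × ℝ)}
  {co : ∀ n : ℕ, ℕ × ℝ → ℕ × ℝ → Fin 12 → ℝ} {X : ℕ → Fin 12 → ℝ} {hh : ℕ → ℝ}
  {lam : (Fin 12 → ℝ) → ℝ} {S Dr Ts : Finset (Fin 12)} {Sl : Fin 12 → Set ℝ} {σ t : ℝ}
  {k : ℕ → ℕ} {W : Wnd 12 (fun _ => ℕ × ℝ)} {N : ℕ → ℝ} {cw : ∀ n : ℕ, ℕ × ℝ → ℤ}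
  {E' : ∀ n : ℕ, Finset (ℕ × ℝ)} {g' : ℕ → ℝ} {ex : ℕ → ∀ n : ℕ, ℕ × ℝ → ℕ}

/-- **the units of the window** -/
theorem natX_of (T : TWin B I0 I' co X hh lam S Dr Ts Sl σ t k W N cw E' g' ex)
    (h : NatB Dr t X hh) : ∀ᶠ n in (U : Filter ℕ), NatX W (cK0 monL 2) Dr t n := by
  filter_upwards [T.hk.eventually h] with n hn
  obtain ⟨z, c, p, h1, h2, h3⟩ := hn
  have hK : 0 < cK0 monL 2 := by
    have := cK0_one (M := monL) (C := 2) (by norm_num)
    linarith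
  have hd := B.pos n
  have e : ∀ s, side W n s = cK0 monL 2 ^ wtL s * B.d n ^ X (k n) s := fun s => by
    show W.kap s * W.B.d n ^ W.X n s = _
    rw [T.ekap, T.eX, T.eB]
  refine ⟨z, c, p, h1, fun s hs => ?_, fun s hs => ?_⟩
  · rw [e, h2 s hs, T.eB]
    rfl
  · rw [e, T.eB, T.base]
    have e1 : B.d n ^ X (k n) s ≤ B.d n ^ (eL z c p s + t * hh (k n)) :=
      Real.rpow_le_rpow_of_exponent_ge hd (B.lt n).le (h3 s hs)
    rw [Real.rpow_add hd, mul_comm t, Real.rpow_mul hd.le] at e1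
    have e2 := mul_le_mul_of_nonneg_left e1 (pow_pos hK (wtL s)).le
    calc _ ≤ _ := e2
      _ = _ := by
        show _ = (B.d n ^ hh (k n)) ^ t * (cK0 monL 2 ^ wtL s * B.d n ^ eL z c p s)
        ring

end win

variable {G : Geo TSet (Fin 2)} {L : ℕ → ℕ → LRay} {r : ℕ → ℝ} {g s : ℝ} {θ q : Fin 2 → ℝ}
    {Rg : ℝ} {B : Base} {I : ℕ → Finset (ℕ × ℝ)} {lev : ℕ → ℚ → ℕ} {A : ℕ → ℝ}
    {f : ℕ → ℚ → ℕ → ℤ → ℕ} {b : ℕ → ℚ → ℕ → TSet} {vm : ℕ → ℚ → ℝ} {w : Fin 2 → ℕ → ℚ → ℝ}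
    {fr : ℕ → ℚ → ℕ × ℝ → LInc} {fl : ℕ → ℕ × ℝ → LInc} {sc : Fin 12 → ℕ → ℝ}
    {w0 sa sb δ R : ℝ} {I0 I' : ℕ → Finset (ℕ × ℝ)} {ν own : (Fin 12 → ℝ) → ℝ} {c₀ : ℝ}

/-- **K3core over 369's windows** -/
theorem k3_win (ctx : CtxT G L r g s θ q Rg B I lev A f b vm w fr fl sc w0 sa sb δ R I0 I' ν
      own c₀) {X : ℕ → Fin 12 → ℝ} {hh v : ℕ → ℝ} {t v0 σ : ℝ} (ht : 0 < t)
    (hh0 : Tendsto hh atTop (𝓝 0)) {lam : (Fin 12 → ℝ) → ℝ}
    (hb : TBase (θ 0) (θ 1) w0 sa sb v0 {0, 7, 8} X v)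
    (hlim : ∀ j : Fin 12, 3 ≤ j → Tendsto (fun l => X l j) atTop
      (𝓝 (rL (θ 0) (θ 1) w0 sa sb v0 j)))
    (hnat : NatB {1, 2} t X hh) {Ts : Finset (Fin 12)} {Sl : Fin 12 → Set ℝ}
    {k : ℕ → ℕ} {W : Wnd 12 (fun _ => ℕ × ℝ)} {N : ℕ → ℝ} {cw : ∀ n : ℕ, ℕ × ℝ → ℤ}
    {E' : ∀ n : ℕ, Finset (ℕ × ℝ)} {g' : ℕ → ℝ} {ex : ℕ → ∀ n : ℕ, ℕ × ℝ → ℕ}
    (T : TWin B I0 I' (PL504.coN B lev w w0 sa sb fl) X hh lam {0, 7, 8} {1, 2} Ts Sl σ t k W N
      cw E' g' ex)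
    (hTs : ∀ j ∈ Ts, j = 7 ∨ j = 8) (hne : Ts.Nonempty) (hSl : ∀ j ∈ Ts, (0 : ℝ) ∈ Sl j)
    (hθ0 : 0 < θ 0) (hθ : θ 1 < θ 0) {gN gC : ℝ} {J : ℝ → ℝ → ℝ}
    (hlam : ∀ n p x c' : ℝ, 0 ≤ n → n ≤ t → 0 ≤ p → p ≤ t → 0 ≤ x → x ≤ t → 0 ≤ c' → c' ≤ t →
      lam (cT {0, 7, 8} {1, 2} t (q5 0 0 0 0)) - lam (cT {0, 7, 8} {1, 2} t (q5 n p x c')) =
        gN * n + gC * c' + J p x)
    (hC : 0 < gC) (hK1 : ∀ y : ℝ, 0 ≤ y → y ≤ t → σ * y ≤ J 0 y) : σ ≤ gN := by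
  obtain ⟨j, hj⟩ := hne
  have hTs' : Ts ⊆ ({0, 7, 8} : Finset (Fin 12)) := fun s hs => by
    rcases hTs s hs with rfl | rfl <;> decide
  have hS : ∀ s ∈ ({0, 7, 8} : Finset (Fin 12)), s ∈ W.S := fun s hs => by rw [T.eS]; exact hs
  have hnx := natX_of T hnat
  have M := T.tieM wsd_e ht.le hTs' hSl (fun j hj => addF7 T.wl (hS j (hTs' hj)) (Or.inr (hTs j hj)))
    hnx
  obtain ⟨u, u', hd⟩ := TWin.dir ctx hh0 hb hlim
    (hnat.pair (by decide) (by decide) fun z c p => rfl)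
    (hnat.pair (by decide) (by decide) fun z c p => rfl)
    (hnat.pair (by decide) (by decide) fun z c p => rfl) T hθ0 hθ t
  have hd' := dir_dropX hd (Dr := {1, 2}) (by decide)
  have n7 : (7 : Fin 12) ∉ ({1, 2} : Finset (Fin 12)) := by decide
  have n8 : (8 : Fin 12) ∉ ({1, 2} : Finset (Fin 12)) := by decide
  have T7 := hgt_of_addS T.wl T.reg (hS 7 (by decide))
    (addS7_nat T.wl ht.le hnx (by decide) (by decide) (by decide) (by decide) n7)
    (G := fun n => dropX {1, 2} (W.cfg E' n)) (fun n => rfl) (fun n => rfl)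
    (own' := fun n i k0 k => LnS {1, 2} (ownL W n i k0 k)) (fun n i k0 k => if_neg n7)
  have T8 := hgt_of_addS T.wl T.reg (hS 8 (by decide))
    (addS8_nat T.wl ht.le hnx (by decide) (by decide) (by decide) (by decide) n8)
    (G := fun n => dropX {1, 2} (W.cfg E' n)) (fun n => rfl) (fun n => rfl)
    (own' := fun n i k0 k => LnS {1, 2} (ownL W n i k0 k)) (fun n i k0 k => if_neg n8)
  exact k3_tie M ht hj (hTs j hj) hd' (zbd_win T.wl T.reg (fun n => rfl) fun n => rfl) T7 T8 hlam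
    hC hK1

/-- **K3core** (`e`-tie, `k = 1`) over `CtxT`, at a natural base with `1`, `2` raised -/
theorem k3_ctx (ctx : CtxT G L r g s θ q Rg B I lev A f b vm w fr fl sc w0 sa sb δ R I0 I' ν
      own c₀) {X : ℕ → Fin 12 → ℝ} {hh v : ℕ → ℝ} {t v0 σ : ℝ} (ht : 0 < t)
    (hpos : ∀ l, 0 < hh l) (hh0 : Tendsto hh atTop (𝓝 0))
    {D : Set (Fin 12 → ℝ)} {lam : (Fin 12 → ℝ) → ℝ} (htan : IsTan (Leg monL R) D ν X hh lam)
    (hD : Leg (monX {1, 2}) t ⊆ D) (hb : TBase (θ 0) (θ 1) w0 sa sb v0 {0, 7, 8} X v)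
    (hlim : ∀ j : Fin 12, 3 ≤ j → Tendsto (fun l => X l j) atTop
      (𝓝 (rL (θ 0) (θ 1) w0 sa sb v0 j)))
    (hnat : NatB {1, 2} t X hh) {Ts : Finset (Fin 12)} (hTs : ∀ j ∈ Ts, j = 7 ∨ j = 8)
    (hne : Ts.Nonempty) (hβ : ∀ j ∈ Ts, 0 < βL (θ 0) (θ 1) j)
    {Sl : Fin 12 → Set ℝ} (hSl : ∀ j ∈ Ts, Sl j = {0} ∨ Sl j = Set.univ)
    (hSt : ∀ j ∈ Ts, StC B I lev fl (sc j) j (βL (θ 0) (θ 1) j) (Sl j))
    (hvis : ∀ k, k ≠ 0 → VisT B I fl sc k → k ∈ ({0, 7, 8} : Finset (Fin 12)))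
    (hden : DensT {0, 7, 8} {1, 2} t σ lam)
    (hθ0 : 0 < θ 0) (hθ : θ 1 < θ 0) {gN gC : ℝ} {J : ℝ → ℝ → ℝ}
    (hlam : ∀ n p x c' : ℝ, 0 ≤ n → n ≤ t → 0 ≤ p → p ≤ t → 0 ≤ x → x ≤ t → 0 ≤ c' → c' ≤ t →
      lam (cT {0, 7, 8} {1, 2} t (q5 0 0 0 0)) - lam (cT {0, 7, 8} {1, 2} t (q5 n p x c')) =
        gN * n + gC * c' + J p x)
    (hC : 0 < gC) (hK1 : ∀ y : ℝ, 0 ≤ y → y ≤ t → σ * y ≤ J 0 y) : σ ≤ gN := by
  have hTs' : Ts ⊆ ({0, 7, 8} : Finset (Fin 12)) := fun s hs => by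
    rcases hTs s hs with rfl | rfl <;> decide
  obtain ⟨k, W, N, cw, E', g', T⟩ := exists_twin ctx wsd_e ht hpos hh0 htan hD hb hTs' hβ hSl hSt
    hvis hden
  exact k3_win ctx ht hh0 hb hlim hnat T hTs hne (fun j hj => by
    rcases hSl j hj with h | h <;> rw [h]
    · rfl
    · trivial) hθ0 hθ hlam hC hK1

end Crest.Agent.R116.K3e160
end

-- ▼ part R116/K3e5_160

/-!
# R116, e-tie `k = 1` : **K3core**, part 5 (helper160): class layer

* `K3C c s φ ρ` : the fact in the letters of 741's `Cl9`;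
* `LimV` : limits of a decoupled function at a moving base; `LimV.rate1`, `LimV.incr3`, `LimV.dens`;
* `exists_shift` : tangents at a raised base.
-/

set_option autoImplicit false
set_option linter.unusedVariables false
set_option linter.unusedSectionVars false

open Filter Topology Finset

namespace Crest.Agent.R116.K3e160

open Crest.Agent.R138.Ex926
open Crest.Agent.R136
open Crest.Agent.R116.Tq741
open Crest.Agent.R116.Tw369
open Crest.Agent.R116.ChL222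
open Crest.Agent.R116.Tq794 (E8 E9)

/-- **(K3)** at an `e`-tie with `k = 1`: `N` is fast if `X` is, `C_b` coarse -/
def K3C (c : Fin 9 → Fin 9) (s : ℝ) (φ : Fin 9 → V9 → ℝ) (ρ : V9) : Prop :=
  0 < ρ 1 → (∀ y : ℝ, 0 ≤ y → (1 - s) * y ≤ φ (c 3) 0 - φ (c 3) (y • e9 3)) → 1 - s ≤ ρ 4

/-- limits of `Λ` at the moving base `w + k m • e'`, directions in `A` -/
structure LimV (Λ : V9 → ℝ) (w e' : V9) (k : ℕ → ℝ) (A : V9 → Prop) (F : V9 → ℝ) : Prop where
  kpos : ∀ m, 0 < k m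
  leg : ∀ u, A u → ∀ᶠ m in (atTop : Filter ℕ), LegM 0 (w + k m • (u + e'))
  zero : A 0
  lim : ∀ u, A u → Tendsto (fun m => (Λ (w + k m • (u + e')) - Λ (w + k m • e')) / k m) atTop
    (𝓝 (F u))

section lim

variable {c : Fin 9 → Fin 9} {dl : V9} {s : ℝ} {Λ : V9 → ℝ} {φ : Fin 9 → V9 → ℝ} {ρ : V9}
  {w e' : V9} {k : ℕ → ℝ} {A : V9 → Prop} {F : V9 → ℝ}

theorem LimV.sub (H : LimV Λ w e' k A F) {u u' : V9} (hu : A u) (hu' : A u') :
    Tendsto (fun m => (Λ (w + k m • (u + e')) - Λ (w + k m • (u' + e'))) / k m) atTop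
      (𝓝 (F u - F u')) := by
  refine ((H.lim u hu).sub (H.lim u' hu')).congr fun m => ?_
  rw [← sub_div]
  congr 1
  ring

theorem LimV.ge (H : LimV Λ w e' k A F) {u u' : V9} (hu : A u) (hu' : A u') {r : ℝ}
    (h : ∀ᶠ m in (atTop : Filter ℕ),
      r * k m ≤ Λ (w + k m • (u + e')) - Λ (w + k m • (u' + e'))) : r ≤ F u - F u' := by
  refine ge_of_tendsto (H.sub hu hu') ?_
  filter_upwards [h] with m hm
  rw [le_div_iff₀ (H.kpos m)]
  exact hm

theorem LimV.eq (H : LimV Λ w e' k A F) {u u' : V9} (hu : A u) (hu' : A u') {r : ℝ}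
    (h : ∀ᶠ m in (atTop : Filter ℕ),
      Λ (w + k m • (u + e')) - Λ (w + k m • (u' + e')) = r * k m) : F u - F u' = r := by
  refine tendsto_nhds_unique (H.sub hu hu') (tendsto_const_nhds.congr' ?_)
  filter_upwards [h] with m hm
  rw [hm, mul_div_assoc, div_self (H.kpos m).ne', mul_one]

theorem LimV.F0 (H : LimV Λ w e' k A F) : F 0 = 0 := by
  have h := H.lim 0 H.zero
  refine tendsto_nhds_unique h (tendsto_const_nhds.congr fun m => ?_)
  rw [zero_add, sub_self, zero_div]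

/-- a slot which is alone in its class -/
theorem LimV.rate1 (H : LimV Λ w e' k A F) (C : Cl9 c dl s Λ φ ρ) {t : Fin 9}
    (ht : ∀ t', c t' = c t → t' = t) {u u' : V9} (hu : A u) (hu' : A u')
    (he : ∀ i, i ≠ t → u' i = u i) : F u - F u' = ρ t * (u' t - u t) := by
  refine H.eq hu hu' ?_
  filter_upwards [H.leg u hu, H.leg u' hu'] with m h1 h2
  rw [← C.incr h1 h2 (c t) fun i hi => ?_, C.rate t _ fun t' ht' => by rw [ht t' ht'],
    C.rate t _ fun t' ht' => by rw [ht t' ht']]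
  · simp only [Pi.add_apply, Pi.smul_apply, smul_eq_mul]
    ring
  · have : i ≠ t := fun h => hi (by rw [h])
    simp only [Pi.add_apply, Pi.smul_apply, smul_eq_mul]
    rw [he i this]

/-- the slot `3` finer, the other slots of its class at rest -/
theorem LimV.incr3 (H : LimV Λ w e' k A F) (C : Cl9 c dl s Λ φ ρ)
    (hc : ∀ t, c t = c 3 → t = 2 ∨ t = 3 ∨ t = 5) (w2 : w 2 = 0) (w3 : w 3 = 0) (w5 : w 5 = 0)
    (e2 : e' 2 = 0) (e3 : e' 3 = 0) (e5 : e' 5 = 0) {σ : ℝ}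
    (hX : ∀ y : ℝ, 0 ≤ y → σ * y ≤ φ (c 3) 0 - φ (c 3) (y • e9 3)) {u u' : V9} (hu : A u)
    (hu' : A u') (u2 : u 2 = 0) (u3 : u 3 = 0) (u5 : u 5 = 0) (he : ∀ i, i ≠ 3 → u' i = u i)
    (hy : 0 ≤ u' 3) : σ * u' 3 ≤ F u - F u' := by
  refine H.ge hu hu' ?_
  filter_upwards [H.leg u hu, H.leg u' hu'] with m h1 h2
  rw [← C.incr h1 h2 (c 3) fun i hi => ?_]
  · have a1 : φ (c 3) (w + k m • (u + e')) = φ (c 3) 0 := by
      refine C.loc (c 3) _ _ fun t ht => ?_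
      rcases hc t ht with rfl | rfl | rfl <;>
        simp only [Pi.add_apply, Pi.smul_apply, smul_eq_mul, Pi.zero_apply, w2, w3, w5, e2, e3, e5,
          u2, u3, u5] <;> ring
    have a2 : φ (c 3) (w + k m • (u' + e')) = φ (c 3) ((k m * u' 3) • e9 3) := by
      refine C.loc (c 3) _ _ fun t ht => ?_
      have u2' : u' 2 = 0 := by rw [he 2 (by decide), u2]
      have u5' : u' 5 = 0 := by rw [he 5 (by decide), u5]
      rcases hc t ht with rfl | rfl | rfl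
      · simp only [Pi.add_apply, Pi.smul_apply, smul_eq_mul, w2, e2, u2',
          e9_ne (show (2 : Fin 9) ≠ 3 by decide)]
        ring
      · simp only [Pi.add_apply, Pi.smul_apply, smul_eq_mul, w3, e3, e9_same]
        ring
      · simp only [Pi.add_apply, Pi.smul_apply, smul_eq_mul, w5, e5, u5',
          e9_ne (show (5 : Fin 9) ≠ 3 by decide)]
        ring
    rw [a1, a2]
    have := hX (k m * u' 3) (mul_nonneg (H.kpos m).le hy)
    linarith
  · have : i ≠ 3 := fun h => hi (by rw [h])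
    simp only [Pi.add_apply, Pi.smul_apply, smul_eq_mul]
    rw [he i this]

/-- density: every class moves either with `line` or with `level` -/
theorem LimV.dens (H : LimV Λ w e' k A F) (C : Cl9 c dl s Λ φ ρ) {T L V : V9} (hT : A T)
    (hL : A L) (hV : A V)
    (h : ∀ j, (∀ t, c t = j → T t = L t ∧ V t = 0) ∨ ∀ t, c t = j → T t = V t ∧ L t = 0) :
    F T = F L + F V := by
  have h1 := H.lim T hT
  have h2 := (H.lim L hL).add (H.lim V hV)
  refine tendsto_nhds_unique h1 (h2.congr' ?_)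
  have l0 := H.leg 0 H.zero
  filter_upwards [H.leg T hT, H.leg L hL, H.leg V hV, l0] with m m1 m2 m3 m4
  rw [zero_add] at m4
  rw [← add_div]
  congr 1
  rw [C.sum _ m1, C.sum _ m2, C.sum _ m3, C.sum _ m4, ← Finset.sum_sub_distrib,
    ← Finset.sum_sub_distrib, ← Finset.sum_sub_distrib, ← Finset.sum_add_distrib]
  refine Finset.sum_congr rfl fun j _ => ?_
  rcases h j with h5 | h5
  · have a1 : φ j (w + k m • (T + e')) = φ j (w + k m • (L + e')) :=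
      C.loc j _ _ fun t ht => by
        simp only [Pi.add_apply, Pi.smul_apply, smul_eq_mul]
        rw [(h5 t ht).1]
    have a2 : φ j (w + k m • (V + e')) = φ j (w + k m • e') :=
      C.loc j _ _ fun t ht => by
        simp only [Pi.add_apply, Pi.smul_apply, smul_eq_mul]
        rw [(h5 t ht).2, zero_add]
    rw [a1, a2]
    ring
  · have a1 : φ j (w + k m • (T + e')) = φ j (w + k m • (V + e')) :=
      C.loc j _ _ fun t ht => by
        simp only [Pi.add_apply, Pi.smul_apply, smul_eq_mul]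
        rw [(h5 t ht).1]
    have a2 : φ j (w + k m • (L + e')) = φ j (w + k m • e') :=
      C.loc j _ _ fun t ht => by
        simp only [Pi.add_apply, Pi.smul_apply, smul_eq_mul]
        rw [(h5 t ht).2, zero_add]
    rw [a1, a2]
    ring

end lim

/-! ### tangents at a raised base -/

/-- the tangent at the base `x + H • (b + K k • e)`, directions `d` with `d + K • e ∈ M` -/
theorem exists_shift {P M : Set (Fin 12 → ℝ)} {ν lam2 : (Fin 12 → ℝ) → ℝ}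
    {X : ℕ → Fin 12 → ℝ} {H : ℕ → ℝ} (hMc : IsClosed M) (hMa : ∀ p ∈ M, ∀ q ∈ M, p + q ∈ M)
    (hMs : ∀ t : ℝ, 0 ≤ t → ∀ p ∈ M, t • p ∈ M) (hpos : ∀ l, 0 < H l)
    (ht : IsTan P M ν X H lam2)
    (hlip : ∃ K : ℝ, 0 ≤ K ∧ ∀ p ∈ M, ∀ q ∈ M, |lam2 p - lam2 q| ≤ K * ‖p - q‖)
    {b e : Fin 12 → ℝ} (hb : b ∈ M) (he : e ∈ M) {K : ℝ} (hK : 0 ≤ K) :
    ∃ (ψ : ℕ → ℕ) (k : ℕ → ℝ) (lam3 : (Fin 12 → ℝ) → ℝ), StrictMono ψ ∧ (∀ m, 0 < k m) ∧
      Tendsto k atTop (𝓝 0) ∧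
      IsTan P {d | d + K • e ∈ M} ν (fun m => X (ψ m) + H (ψ m) • (b + (K * k m) • e))
        (fun m => H (ψ m) * k m) lam3 ∧
      ∀ d, d + K • e ∈ M → Tendsto (fun m => (lam2 (b + k m • (d + K • e)) -
        lam2 (b + k m • (K • e))) / k m) atTop (𝓝 (lam3 d)) := by
  obtain ⟨C, hC, hlip⟩ := hlip
  set h : ℕ → ℝ := fun m : ℕ => ((m : ℝ) + 1)⁻¹ with hh
  have hp : ∀ m, 0 < h m := fun m => by simp only [hh]; positivity
  have h0 : Tendsto h atTop (𝓝 0) := by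
    have := tendsto_one_div_add_atTop_nhds_zero_nat (𝕜 := ℝ)
    simpa [one_div] using this
  have ec : ∀ (r : ℝ) (d : Fin 12 → ℝ), b + (K * r) • e + r • d = b + r • (d + K • e) := by
    intro r d
    rw [smul_add, smul_smul, mul_comm r K]
    abel
  have hKe : K • e ∈ M := hMs K hK e he
  have hDc : IsClosed {d : Fin 12 → ℝ | d + K • e ∈ M} :=
    hMc.preimage (by fun_prop)
  have h0D : (0 : Fin 12 → ℝ) ∈ {d : Fin 12 → ℝ | d + K • e ∈ M} := by
    show 0 + K • e ∈ M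
    rw [zero_add]; exact hKe
  obtain ⟨φ, hφ, lam, hT⟩ := Rc683.exists_tan (J := Unit) (P := fun _ => M)
    (D := fun _ => {d : Fin 12 → ℝ | d + K • e ∈ M}) (fun _ => hDc) (ν := fun _ => lam2) hC
    (fun _ => hlip) (x := fun m => b + (K * h m) • e) (h := h) hp
    (fun _ C' => Eventually.of_forall fun l c hc _ => by
      rw [ec]
      exact hMa _ hb _ (hMs _ (hp l).le _ hc)) (fun _ => h0D)
  obtain ⟨ψ, hψ, -, hTT⟩ := RbK219.diagM (J := Unit) (P := fun _ => P) (L := fun _ => M)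
    (L' := fun _ => {d : Fin 12 → ℝ | d + K • e ∈ M}) hpos (fun _ => ht)
    (y := fun m => b + (K * h (φ m)) • e) (fun _ m => hMa _ hb _
      (hMs _ (mul_nonneg hK (hp _).le) _ he)) (k := fun m => h (φ m)) (fun m => hp _)
    (fun j => hT j) (A := fun _ _ => True) (fun _ => Eventually.of_forall fun _ => trivial)
  refine ⟨ψ, fun m => h (φ m), lam (), hψ, fun m => hp _, h0.comp hφ.tendsto_atTop, hTT (), ?_⟩
  intro d hd
  have h1 := SgO219.tan_lim (fun m => hp _) (hT ()) hd h0D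
  have h2 : lam () 0 = 0 := Tq794.tan_zero (fun m => hp _) (hT ()) h0D
  rw [h2, sub_zero] at h1
  refine h1.congr fun m => ?_
  rw [ec, smul_zero, add_zero]
  congr 3
  rw [smul_smul, mul_comm K]

end Crest.Agent.R116.K3e160
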