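import Crest.Agent.R116.Pe2_794
import Crest.Agent.R116.K3e6_160
import Crest.Agent.R116.Tp7_139

/-!
# R116, ties: (K3) at `k = 1` on 363's planes (helper794)

* `k3b_of8`  : 160's `K3B` of a plane `Pd8` on the tie plane, `E`, `D` raised or natural
* `k3_of8`   : `K3C` of the plane
* `sumU1`, `sumUh` : joint rates of 139's planes `PlU`, `k = 1`, `k = 1/2`
-/

set_option autoImplicit false
set_option linter.unusedVariables false
set_option linter.unusedSectionVars false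

open Set Filter Topology

namespace Crest.Agent.R116.Tq794

open Crest.Agent.R138
open Crest.Agent.R138.Ex926 (Base U IsTan)
open Crest.Agent.R136
open Crest.Agent.R136.MkA627
open Crest.Agent.R136.TD627
open Crest.Agent.R136.Net191
open Crest.Agent.R136.Lq196
open Crest.Agent.R116.EvL504
open Crest.Agent.R116.ChL222
open Crest.Agent.R116.PL504 (nb rL DN eL βL oL Shift eL_wall)
open Crest.Agent.R116.Sg337 (bx9)
open Crest.Agent.R116.Gd222 (TSet sN PDL DT)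
open Crest.Agent.R116.KI439
open Crest.Agent.R116.KF439 (PL)
open Crest.Agent.R116.CtxB468
open Crest.Agent.R116.Kst593
open Crest.Agent.R116.Rcx363 (fo fo_lip Prf)
open Crest.Agent.R116.RbM219
open Crest.Agent.R116.RbK219
open Crest.Agent.R116.SgF665 (wl wl_add wl_smul LM0)
open Crest.Agent.R116.WinG954 (LM)
open Crest.Agent.R116.Tq741
open Crest.Agent.R116.Pd363
open Crest.Agent.R116.Tw369
open Crest.Agent.R116.Tp139 (PlU)
open Crest.Agent.R116.K3e160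
open Sl741 (slice xt rs)

section ctx

variable {G : Geo TSet (Fin 2)} {L : ℕ → ℕ → LRay} {r : ℕ → ℝ} {g s : ℝ} {θ q : Fin 2 → ℝ}
    {Rg : ℝ} {B : Base} {I : ℕ → Finset (ℕ × ℝ)} {lev : ℕ → ℚ → ℕ} {A : ℕ → ℝ}
    {f : ℕ → ℚ → ℕ → ℤ → ℕ} {b : ℕ → ℚ → ℕ → TSet} {vm : ℕ → ℚ → ℝ} {wt : Fin 2 → ℕ → ℚ → ℝ}
    {fr : ℕ → ℚ → ℕ × ℝ → LInc} {fl : ℕ → ℕ × ℝ → LInc} {sc : Fin 12 → ℕ → ℝ}
    {w0 sa sb δ R : ℝ} {I0 I' : ℕ → Finset (ℕ × ℝ)} {ν own : (Fin 12 → ℝ) → ℝ} {c₀ : ℝ}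
    {a b' : Fin 2} {Vis' : Fin 12 → Prop} {v0 t κ sg l α v c p : ℝ}
    {lam lam2 : Fin 2 → (Fin 12 → ℝ) → ℝ} {h' H : ℕ → ℝ} {X : ℕ → Fin 12 → ℝ}

/-- **160's base data of a plane on the tie plane**, `E` may be raised -/
theorem k3b_of8 {Bo ρ ρ2 : Fin 8 → ℝ}
    (P : Pd8 R s a b' Vis' (θ 0) (θ 1) w0 sa sb v0 t κ Bo sg (fo ν own) lam ρ l α h' X H
      lam2 ρ2)
    (ht : t ≠ 0) (hv0 : 0 < v0) (hv1 : v0 < 1) (b1 : Bo 3 = Bo 0 + Bo 1)
    (b2 : Bo 5 = Bo 1 + Bo 3) (b3 : Bo 4 = Bo 0 + Bo 2) (b5 : Bo 2 = Bo 1 + Bo 6)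
    (b6 : Bo 6 = Bo 0 * (θ 0 - θ 1)) (b7 : Bo 6 ≤ Bo 7 + Bo 1) :
    ∃ vv : ℕ → ℝ, K3B (θ 0) (θ 1) w0 sa sb v0 X H vv := by
  have ht' : IsTan (Leg monL R) LM0 ν X H (lam2 0) :=
    Rc683.tan_mono (P.tan 0) Subset.rfl (LM0_L8B ht)
  have hD := slD_of_tan (leg_wall (R := R)) P.pos ht'
  obtain ⟨V, E, hV, hE, hE0, hb⟩ := P.base
  have key : ∀ m, ∀ k, k ≠ 1 → Bo (cl8 k) = Bo 0 * βL (θ 0) (θ 1) k →
      X m k = rL (θ 0) (θ 1) w0 sa sb (v0 + V m + E m * Bo 0) k := by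
    intro m k hk h1
    rw [hb m k hk, PL504.rL_lin _ _ _ _ _ (v0 + V m),
      PL504.rL_lin _ _ _ _ _ (v0 + V m + E m * Bo 0), h1]
    ring
  have h0 := fun m => hb m 0 (by decide)
  have h2 := fun m => hb m 2 (by decide)
  have h3 := fun m => hb m 3 (by decide)
  have h4 := fun m => hb m 4 (by decide)
  have h5 := fun m => hb m 5 (by decide)
  have h6 := fun m => hb m 6 (by decide)
  have h7 := fun m => hb m 7 (by decide)
  have h8 := fun m => hb m 8 (by decide)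
  have h9 := fun m => hb m 9 (by decide)
  have h10 := fun m => hb m 10 (by decide)
  have h11 := fun m => hb m 11 (by decide)
  have c0 : cl8 0 = 0 := rfl
  have c2 : cl8 2 = 7 := rfl
  have c3 : cl8 3 = 1 := rfl
  have c4 : cl8 4 = 1 := rfl
  have c5 : cl8 5 = 3 := rfl
  have c6 : cl8 6 = 3 := rfl
  have c7 : cl8 7 = 6 := rfl
  have c8 : cl8 8 = 6 := rfl
  have c9 : cl8 9 = 5 := rfl
  have c10 : cl8 10 = 2 := rfl
  have c11 : cl8 11 = 4 := rfl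
  simp only [c0, c2, c3, c4, c5, c6, c7, c8, c9, c10, c11, rL, eL, Matrix.cons_val]
    at h0 h2 h3 h4 h5 h6 h7 h8 h9 h10 h11
  refine ⟨fun m => v0 + V m + E m * Bo 0, ⟨⟨hv0, hv1, ?_, fun m => ?_, fun m k hk => ?_⟩,
    fun j hj => (tendsto_pi_nhds.1 P.xlim) j, fun m => ?_, fun m => ?_, fun m => ?_, fun m => ?_,
    fun m => ?_, fun m => ?_, fun m => ?_, fun m => ?_, fun K => ?_⟩⟩
  · have h1 := (hV.const_add v0).add (hE.mul_const (Bo 0))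
    simpa using h1
  · have h1 := key m 0 (by decide) (by
      show Bo 0 = Bo 0 * 1
      ring)
    rw [h1]
    simp [rL, eL]
  · simp only [Finset.mem_insert, Finset.mem_singleton] at hk
    rcases hk with rfl | rfl | rfl
    · exact key m 0 (by decide) (by
        show Bo 0 = Bo 0 * 1
        ring)
    · exact key m 7 (by decide) (by
        rw [βL7]; exact b6)
    · exact key m 8 (by decide) (by
        rw [βL8]; exact b6)
  · rw [h4, h3]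
  · rw [h5, h0, h3, b1]; ring
  · rw [h6, h0, h3, b1]; ring
  · rw [h8, h7]
  · rw [h9, h3, h5, b2]; ring
  · rw [h10, h7, h3, b5]; ring
  · rw [h11, h0, h10, b3]; ring
  · rw [h7, h2, h3]
    have := mul_le_mul_of_nonneg_left b7 (hE0 m).le
    linarith
  · filter_upwards [hD 10 ![0, 1, 0, 0, 0, 0, 0, 0, 0, 1, 0, 0] (by decide) (by decide) K] with m hm
    refine hm.trans (le_of_eq ?_)
    simp [wl, Fin.sum_univ_succ]

/-- **(K3) on a plane on the tie plane**, `E` may be raised -/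
theorem k3_of8 {Bo ρ ρ2 : Fin 8 → ℝ}
    (P : Pd8 R s a b' Vis' (θ 0) (θ 1) w0 sa sb v0 t κ Bo sg (fo ν own) lam ρ l α h' X H
      lam2 ρ2)
    (C : CtxT G L r g s θ q Rg B I lev A f b vm wt fr fl sc w0 sa sb δ R I0 I' ν own c₀)
    (hθ : 0 < θ 0) (ht : t ≠ 0) (hv0 : 0 < v0) (hv1 : v0 < 1) (b1 : Bo 3 = Bo 0 + Bo 1)
    (b2 : Bo 5 = Bo 1 + Bo 3) (b3 : Bo 4 = Bo 0 + Bo 2) (b5 : Bo 2 = Bo 1 + Bo 6)
    (b6 : Bo 6 = Bo 0 * (θ 0 - θ 1)) (b7 : Bo 6 ≤ Bo 7 + Bo 1)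
    (hB : TieT θ B I lev fl sc 7 ∨ TieT θ B I lev fl sc 8)
    (hvis : ∀ i, VisT B I fl sc i → i = 0 ∨ i = 7 ∨ i = 8)
    (hvis' : ∀ i, Vis' i → i = 0 ∨ i = 7 ∨ i = 8)
    {c : Fin 9 → Fin 9} {dl : V9} {φ : Fin 9 → V9 → ℝ} {ρ' : V9}
    (Hc : Cl9 c dl s (fun w => lam2 0 (xt kp 0 (RL8.vec (fun i : Fin 8 => w i.castSucc)))) φ ρ')
    (h1 : ∀ t, c t = c 1 → t = 1) (h4 : ∀ t, c t = c 4 → t = 4)
    (h3 : ∀ t, c t = c 3 → t = 2 ∨ t = 3 ∨ t = 5)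
    (hz : ∀ t t', c t = c t' → (t = 0 ∨ t = 6) → t' = 0 ∨ t' = 6 ∨ t' = 7 ∨ t' = 8) :
    K3C c s φ ρ' := by
  simp only [E8_eq] at Hc
  obtain ⟨vv, kb⟩ := k3b_of8 P ht hv0 hv1 b1 b2 b3 b5 b6 b7
  have ht' : ∀ j, IsTan (Leg monL R) LM0 (fo ν own j) X H (lam2 j) := fun j =>
    Rc683.tan_mono (P.tan j) Subset.rfl (LM0_L8B ht)
  have Hp := P.prf.mono (LM0_L8B ht)
  have hlip : ∃ K : ℝ, 0 ≤ K ∧ ∀ p ∈ LM0, ∀ q ∈ LM0, |lam2 0 p - lam2 0 q| ≤ K * ‖p - q‖ := by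
    refine ⟨12, by norm_num, fun p hp' q hq' => ?_⟩
    have := SgO219.tan_lip P.pos (ht' 0) (K := 12) (fo_lip C 0) p hp' q hq'
    rwa [dist_eq_norm] at this
  have hfr : ∀ w : V9, LegM 0 w → w 0 = 0 → w 6 = 0 → ∀ y : ℝ, 0 < y →
      (1 - s) * y ≤ lam2 0 (E8 w) - lam2 0 (E8 (w + y • e9 0)) := by
    intro w hw hw0 hw6 y hy
    refine own_prf Hp (fun d hd => E8_mem hd) E8_add (fun _ => rfl) e9_nonneg8 hw
      (fun k hk => ?_) hy
    rcases hvis' k hk with rfl | rfl | rfl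
    · show w 0 ≤ w 0 * βL (θ 0) (θ 1) 0
      rw [hw0]; simp
    · show w 6 ≤ w 0 * βL (θ 0) (θ 1) 7
      rw [hw0, hw6]; simp
    · show w 6 ≤ w 0 * βL (θ 0) (θ 1) 8
      rw [hw0, hw6]; simp
  have main : ∀ j : Fin 12, (j = 7 ∨ j = 8) → TieT θ B I lev fl sc j → K3C c s φ ρ' := by
    intro j hj hT
    have hk : 0 < θ 0 - θ 1 := by
      have h1 := hT.2.1
      rcases hj with rfl | rfl
      · rwa [βL7] at h1
      · rwa [βL8] at h1
    exact k3c_8 C P.pos P.lim (ht' 0) hlip kb (Ts := {j})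
      (fun i hi => by rw [Finset.mem_singleton.1 hi]; exact hj) (Finset.singleton_nonempty j)
      (fun i hi => by rw [Finset.mem_singleton.1 hi]; exact hT.2.1) (Sl := fun _ => {0})
      (fun _ _ => Or.inl rfl)
      (fun i hi => by
        rw [Finset.mem_singleton.1 hi]
        exact stC_of_TwP (fun _ _ _ _ => rfl) hT.2.2.2)
      (fun k hk hV => by
        rcases hvis k hV with rfl | rfl | rfl
        · exact absurd rfl hk
        · decide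
        · decide) hθ (by linarith) Hc hfr h1 h4 h3 hz
  rcases hB with h | h
  · exact main 7 (Or.inl rfl) h
  · exact main 8 (Or.inr rfl) h

end ctx

/-! ### joint rates of 139's planes -/

section sums

variable {c : Fin 9 → Fin 9} {dl : V9} {s : ℝ} {Λ : V9 → ℝ} {φ : Fin 9 → V9 → ℝ} {ρ : V9} {k : ℝ}


/-- `k = 1/2` : `C_b ∥ H` -/
theorem sumUh (H : Cl9 c dl s Λ φ ρ) (P : PlU k c dl) (hk : k = 1 / 2) :
    rE c φ / 2 + (1 - hE c φ) = ρ 5 := by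
  obtain ⟨hc5, h2, hd⟩ := P.c5 hk
  unfold rE hE
  have e0 : φ (c 2) (e9 3) = 0 := H.zero_of 2 fun t' ht' => by
    rcases h2 t' ht' with rfl | rfl <;> simp [e9]
  have e1 : φ (c 2) (e9 3 + (1:ℝ) • e9 2) = φ (c 2) (e9 2) := H.loc _ _ _ fun t ht => by
    rcases h2 t ht with rfl | rfl <;> simp [e9]
  have e2 : φ (c 2) (e9 2 + (2:ℝ) • e9 5) = -(ρ 5 * 2) := by
    rw [← hc5]
    rw [H.rate 5 _ fun t' ht' => by
      rcases h2 t' (ht'.trans hc5) with rfl | rfl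
      · simp [e9, hd]
      · rfl]
    simp [e9]
  rw [hc5, e0, e1, e2]
  ring

end sums

end Crest.Agent.R116.Tq794
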