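import Crest.Agent.R116.Pk2_348
import Crest.Agent.R116.Tk5_299
import Crest.Agent.R116.Tk8_126
import Crest.Agent.R116.Pdx_658
import Crest.Agent.R116.TwM_420
import Crest.Agent.R116.FlH_850
import Crest.Agent.R116.Rcx6_363
import Crest.Agent.R116.Tp7_139
import Crest.Agent.R116.Th4_171
import Crest.Agent.R116.Pd3_363
import Crest.Agent.R116.Pos3_126
import Crest.Agent.R116.K3e7_160
import Crest.Agent.R116.Pe3_794

-- ▼ part R116/Pk9_388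
section

/-!
# R116 (K side, TIES), the `κ`-plane BELOW the record, `D` live, `k > 1`: last step (helper388)

* `AK9` : the numbers of `T⁻` (348's `AK` with nine rates)
* **`KDat9.fin`** : 348's `KDat9` + `FctK9` ⊢ `KF'`, `Tan`, vertical inequality, `qa ≤ m` for 299's
  `A = AK (cK9 k) s φ ρ2`.
-/

set_option autoImplicit false
set_option linter.unusedSectionVars false
set_option linter.unusedVariables false

open Set Filter Topology MeasureTheory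

namespace Crest.Agent.R116.Pk388

open Crest.Agent.R138
open Crest.Agent.R138.Ex926 (Base U IsTan)
open Crest.Agent.R136
open Crest.Agent.R136.Net191
open Crest.Agent.R116.ChL222
open Crest.Agent.R116.PL504 (nb rL DN eL βL oL Shift)
open Crest.Agent.R116.Sg337 (bx9 coneL DL natB)
open Crest.Agent.R116.Rcx363
open Crest.Agent.R116.RbM219
open Crest.Agent.R116.RbK219 (RS SOk Par dl Aln)
open Crest.Agent.R116.SgO219 (PP)
open Crest.Agent.R116.Kz647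
open Crest.Agent.R116.Pd363
open Crest.Agent.R116.Tq741
open Crest.Agent.R116.Tq794
open Crest.Agent.R116.Tq126
open Crest.Agent.R116.Tp139 hiding cl8
open Crest.Agent.R116.Tie460 (Pl KF')
open Crest.Agent.R116.Pk348 (KDat9 VisK)
open Dg219 (mw Walls)

/-- the plane numbers of `T⁻`, `D` live -/
structure AK9 (k s g : ℝ) (θ q : Fin 2 → ℝ) (ρ : Fin 9 → ℝ) (A : Pl) : Prop where
  F : KF' s k A
  dz : A.d = 0
  tan : A.Tan g (θ 0) (θ 1) (q 0) (q 1)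
  ver : 0 ≤ A.Fa (q 0) + 2 * A.Fb (q 1)
  pos : q 0 ≤ A.m
  m : A.m = ρ 1
  e : A.e = ρ 0 - (1 - s)

section fin

variable {R s : ℝ} {a b' : Fin 2} {Vis : Fin 12 → Prop} {θ q : Fin 2 → ℝ}
    {g w0 sa sb v0 k : ℝ} {f : Fin 2 → (Fin 12 → ℝ) → ℝ} {lam : Fin 2 → (Fin 12 → ℝ) → ℝ}
    {ρ : Fin 9 → ℝ} {l α : ℝ} {h' : ℕ → ℝ} {X : ℕ → Fin 12 → ℝ} {H : ℕ → ℝ}
    {lam2 : Fin 2 → (Fin 12 → ℝ) → ℝ} {ρ2 : Fin 9 → ℝ} {φ : Fin 9 → V9 → ℝ}

/-- **last step, `1 < k`** -/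
theorem _root_.Crest.Agent.R116.Pk348.KDat9.fin
    (K : KDat9 R s a b' Vis θ q g w0 sa sb v0 k f lam ρ l α h' X H lam2 ρ2 φ)
    (hs0 : 0 ≤ s) (hs1 : s ≤ 1) (hk : 1 < k) (hb : θ 1 = 2 * θ 0 - k)
    (W : FctK9 k (fun w => lam2 0 (RL9.vec w))) :
    AK9 k s g θ q ρ (Tk299.AK (cK9 k) s φ ρ2) := by
  have P : Tk299.PlK True k (cK9 k) (dl (nat9 1 (-(θ 0)) (-(θ 1))) kD9 (-1)) :=
    Ku126.tk9_D hk hb
  have h1 := Tk299.kf9 P K.cl hk hs0 hs1 K.fct (fun w h7 h8 => ⟨h7.le, h8.le⟩)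
    (fun h => absurd trivial h) (fun _ => W)
  have e1 : -(θ 1) = -(2 * θ 0 - k) := by rw [hb]
  have hTV := Ku126.tvK (θ := θ 0) (g := g) (qa := q 0) (qb := q 1) (v := 0) (a := -1) K.cl P
    (fun h => absurd trivial h)
    (by rw [← e1]; exact K.T)
    (by
      have e2 : 2 * (-1 : ℝ) + k * 0 = -2 := by ring
      rw [e2]; exact K.V)
  refine ⟨h1, rfl, ?_, ?_, ?_, ?_, ?_⟩
  · rw [hb]; exact hTV.tan
  · exact hTV.ver (by norm_num)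
  · show q 0 ≤ ρ2 1
    rw [K.r1]; exact K.pos
  · exact K.r1
  · show ρ2 0 - (1 - s) = ρ 0 - (1 - s)
    rw [K.r0]

end fin

end Crest.Agent.R116.Pk388
end

-- ▼ part R116/PkM_388
section

/-!
# R116 (K side, TIES), the `κ`-plane BELOW the record, `k > 1`, over `Out9` and `CtxT` (helper388)

* `kdat9x` : 348's `kdat9` together with 658's `Co9` (all slots coarser than their own levels)
* **`kM9`** : `Out9`, rates of `kD9`, `E` or `D` tied, `B` invisible or tied ⊢ the numbers of `T⁻`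
-/

set_option autoImplicit false
set_option linter.unusedSectionVars false
set_option linter.unusedVariables false

open Set Filter Topology MeasureTheory

namespace Crest.Agent.R116.Pk388

open Crest.Agent.R138
open Crest.Agent.R138.Ex926 (Base U IsTan)
open Crest.Agent.R136
open Crest.Agent.R136.MkA627
open Crest.Agent.R136.TD627
open Crest.Agent.R136.Net191
open Crest.Agent.R136.Lq196
open Crest.Agent.R116.ChL222
open Crest.Agent.R116.PL504 (nb rL DN eL βL oL Shift)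
open Crest.Agent.R116.Sg337 (bx9 coneL DL natB)
open Crest.Agent.R116.Gd222 (TSet sN PDL DT)
open Crest.Agent.R116.KI439 hiding kD
open Crest.Agent.R116.KF439 (PL)
open Crest.Agent.R116.CtxB468
open Crest.Agent.R116.Rcx363
open Crest.Agent.R116.RbM219
open Crest.Agent.R116.RbK219 (RS SOk Par dl Aln)
open Crest.Agent.R116.SgO219 (PP)
open Crest.Agent.R116.Kz647
open Crest.Agent.R116.Pd363
open Crest.Agent.R116.SgF665 (LM0)
open Crest.Agent.R116.WinG954 (LM)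
open Crest.Agent.R116.Tq741
open Crest.Agent.R116.Tq794
open Crest.Agent.R116.Tq126
open Crest.Agent.R116.Tp139 hiding cl8
open Crest.Agent.R116.PosA348
open Crest.Agent.R116.Tie460 (Pl KF')
open Crest.Agent.R116.Pk348 (KDat9 VisK)
open Dg219 (mw Walls)
open Sl741 (slice xt rs)

section ctx

variable {G : Geo TSet (Fin 2)} {L : ℕ → ℕ → LRay} {r : ℕ → ℝ} {g s : ℝ} {θ q : Fin 2 → ℝ}
    {Rg : ℝ} {B : Base} {I : ℕ → Finset (ℕ × ℝ)} {lev : ℕ → ℚ → ℕ} {A : ℕ → ℝ}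
    {f : ℕ → ℚ → ℕ → ℤ → ℕ} {b : ℕ → ℚ → ℕ → TSet} {vm : ℕ → ℚ → ℝ} {w : Fin 2 → ℕ → ℚ → ℝ}
    {fr : ℕ → ℚ → ℕ × ℝ → LInc} {fl : ℕ → ℕ × ℝ → LInc} {sc : Fin 12 → ℕ → ℝ}
    {w0 sa sb δ R : ℝ} {I0 I' : ℕ → Finset (ℕ × ℝ)} {ν own : (Fin 12 → ℝ) → ℝ} {c₀ : ℝ}
    {v0 t k c0 : ℝ} {a b' : Fin 2} {x : ℕ → Fin 12 → ℝ} {hh : ℕ → ℝ}
    {lam : Fin 2 → (Fin 12 → ℝ) → ℝ} {T : Type*}

/-- 348's `kdat9` with 658's `Co9` -/
theorem kdat9x
    (C : CtxT G L r g s θ q Rg B I lev A f b vm w fr fl sc w0 sa sb δ R I0 I' ν own c₀)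
    (hs0 : 0 ≤ s) (hs1 : s ≤ 1) (hθ : 0 < θ 0) (hk : 1 < k) (hb : θ 1 = 2 * θ 0 - k)
    (hv0 : 0 < v0) (hv1 : v0 < 1) {Bs : T → Fin 9 → ℝ} {sgs : T → ℝ}
    (O : Out9 R s a b' (VisT B I fl sc) (θ 0) (θ 1) g (q 0) (q 1) Bs sgs
      (rL (θ 0) (θ 1) w0 sa sb v0) (fo ν own) x hh lam) (hc0 : 0 < c0)
    (hM : (srf9 (θ 0) (θ 1) kD9 (-1)).LW (mw monL) c0 ⊆ PP (mw monL)) {ρ : Fin 9 → ℝ}
    (hR : Rates9 (θ 0) (θ 1) kD9 (-1) c0 (lam 0) ρ) :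
    ∃ (l α : ℝ) (h' : ℕ → ℝ) (X : ℕ → Fin 12 → ℝ) (H : ℕ → ℝ)
      (lam2 : Fin 2 → (Fin 12 → ℝ) → ℝ) (ρ2 : Fin 9 → ℝ) (φ : Fin 9 → V9 → ℝ),
      KDat9 R s a b' (VisT B I fl sc) θ q g w0 sa sb v0 k (fo ν own) lam ρ l α h' X H lam2 ρ2
        φ ∧ Co9 (θ 0) (θ 1) w0 sa sb kD9 X H := by
  have hS := sok_kD9 (θ := θ 0) hk hb
  have hvis : ∀ i, VisT B I fl sc i → i = 0 ∨ i = 1 ∨ i = 2 ∨ i = 7 ∨ i = 8 :=
    fun i hi => Fk647.vis_flag C.out i hi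
  obtain ⟨l, α, h', X, H, lam2, ρ2, hl, -, -, P, co⟩ := plane9x (Vis' := VisK (VisT B I fl sc)) O
    hS leg_kD9 hc0 hR (v := 0) (c := -1) (p := -2) le_rfl (fun i hi => by
      have e6 : kD9 6 = -1 := by ev9; norm_num
      have e7 : kD9 7 = 0 := by ev9; norm_num
      have e8 : kD9 8 = 0 := by ev9; norm_num
      have e0 : kD9 0 = 0 := by ev9
      rcases hvis i hi with rfl | rfl | rfl | rfl | rfl
      · left
        refine ⟨⟨hi, by decide, by decide⟩, ?_⟩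
        change kD9 0 ≤ kD9 0 * βL (θ 0) (θ 1) 0
        rw [e0, zero_mul]
      · left
        refine ⟨⟨hi, by decide, by decide⟩, ?_⟩
        change kD9 8 ≤ kD9 0 * βL (θ 0) (θ 1) 1
        rw [e0, zero_mul, e8]
      · left
        refine ⟨⟨hi, by decide, by decide⟩, ?_⟩
        change kD9 7 ≤ kD9 0 * βL (θ 0) (θ 1) 2
        rw [e0, zero_mul, e7]
      · right
        change kD9 6 < kD9 0 * βL (θ 0) (θ 1) 7
        rw [e0, zero_mul, e6]; norm_num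
      · right
        change kD9 6 < kD9 0 * βL (θ 0) (θ 1) 8
        rw [e0, zero_mul, e6]; norm_num)
    (N := univ) (Eventually.of_forall fun _ => mem_univ _) one_pos
  obtain ⟨φ, hcl⟩ := P.cls hS (fun i hi => hvis i hi.1) (hc_kD9 hθ hk hb)
    (hz_kD9 hθ hk hb) (hG_kD9 hθ hk hb)
  refine ⟨l, α, h', X, H, lam2, ρ2, φ, ⟨P, hcl, ?_, ?_, ?_, ?_, ?_, ?_⟩, co⟩
  · refine pd9_fct P C hs0 hs1 (Kt710.flagZ_any C (fun n => Subset.rfl)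
      (θ 1 * (1 - v0) + 1)) hθ hv0 hv1 (by
        have := mul_pos hθ (by linarith : (0:ℝ) < 1 - v0)
        linarith) ?_
    intro w hw hSk i hi
    rcases hvis i hi.1 with rfl | rfl | rfl | rfl | rfl
    · change w 0 ≤ w 0 * βL (θ 0) (θ 1) 0
      have : βL (θ 0) (θ 1) 0 = 1 := rfl
      rw [this, mul_one]
    · change w 8 ≤ w 0 * βL (θ 0) (θ 1) 1
      have e2 : βL (θ 0) (θ 1) 1 = -(θ 1) - 2 * -(θ 0) - 1 := rfl
      have e3 : βL (θ 0) (θ 1) 1 = k - 1 := by rw [e2, hb]; ring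
      rw [e3, mul_comm]
      exact hSk.2
    · change w 7 ≤ w 0 * βL (θ 0) (θ 1) 2
      have e2 : βL (θ 0) (θ 1) 2 = -(θ 1) - 2 * -(θ 0) := rfl
      have e3 : βL (θ 0) (θ 1) 2 = k := by rw [e2, hb]; ring
      rw [e3, mul_comm]
      exact hSk.1
    · exact absurd rfl hi.2.1
    · exact absurd rfl hi.2.2
  · have h1 := P.half.rcd 1
    have h2 := O.rx.rcd 1
    show lam2 0 (RL9.vec (nat9 1 (-(θ 0)) (-(θ 1)))) = _
    rw [one_smul] at h1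
    rw [mul_one, mul_one] at h2
    rw [h1, O.zero 0, sub_zero, RL9_nat]
    exact h2
  · exact P.half.row
  · exact P.half.eq 0 (by simp [nat9])
  · exact P.half.eq 1 (by simp [nat9]; exact hθ.ne')
  · exact posA_kD9 hc0 hθ hk hb hR O.rx.prf (O.zero 0) O.rx.dmax hM

/-- **the numbers of `T⁻`, `k > 1`** : `E` or `D` tied, `B` arbitrary -/
theorem kM9
    (C : CtxT G L r g s θ q Rg B I lev A f b vm w fr fl sc w0 sa sb δ R I0 I' ν own c₀)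
    (hs0 : 0 ≤ s) (hs1 : s < 1) (hθ : 0 < θ 0) (hk : 1 < k) (hb : θ 1 = 2 * θ 0 - k)
    (hv0 : 0 < v0) (hv1 : v0 < 1)
    (hT : InvT PL B I 1 fl (sc 1) ∧ TieT θ B I lev fl sc 2 ∨ TieT θ B I lev fl sc 1)
    {Bs : T → Fin 9 → ℝ} {sgs : T → ℝ}
    (O : Out9 R s a b' (VisT B I fl sc) (θ 0) (θ 1) g (q 0) (q 1) Bs sgs
      (rL (θ 0) (θ 1) w0 sa sb v0) (fo ν own) x hh lam) (hc0 : 0 < c0)
    (hM : (srf9 (θ 0) (θ 1) kD9 (-1)).LW (mw monL) c0 ⊆ PP (mw monL)) {ρ : Fin 9 → ℝ}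
    (hR : Rates9 (θ 0) (θ 1) kD9 (-1) c0 (lam 0) ρ) : ∃ A : Pl, AK9 k s g θ q ρ A := by
  obtain ⟨l, α, h', X, H, lam2, ρ2, φ, K, co⟩ := kdat9x C hs0 hs1.le hθ hk hb hv0 hv1 O hc0 hM hR
  have hvis : ∀ i, VisT B I fl sc i → i = 0 ∨ i = 1 ∨ i = 2 ∨ i = 7 ∨ i = 8 :=
    fun i hi => Fk647.vis_flag C.out i hi
  have e6 : kD9 6 = -1 := by ev9; norm_num
  have e0 : kD9 0 = 0 := by ev9
  have W := KW420.fctK9_pd C hs0 hs1 K.pd (by norm_num) hv0 hv1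
    (fun j hj => Or.inr fun K' => by
      refine co j ?_ K'
      rcases hj with rfl | rfl
      · change kD9 6 < kD9 0 * βL (θ 0) (θ 1) 7
        rw [e0, zero_mul, e6]; norm_num
      · change kD9 6 < kD9 0 * βL (θ 0) (θ 1) 8
        rw [e0, zero_mul, e6]; norm_num)
    (fun j hj => by
      rcases hvis j hj.1 with h | h | h | h | h
      · exact Or.inl h
      · exact Or.inr (Or.inl h)
      · exact Or.inr (Or.inr h)
      · exact absurd h hj.2.1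
      · exact absurd h hj.2.2) hT
  have e : 2 * θ 0 - θ 1 = k := by rw [hb]; ring
  rw [e] at W
  exact ⟨_, K.fin hs0 hs1.le hk hb W⟩

end ctx

end Crest.Agent.R116.Pk388
end

-- ▼ part R116/FlD3a_538
section

/-!
# R116, DOUBLE TIE, cell D3 : `k' = 2 θa - θb > 1` (helper538), assembly

* `Bs3, sg3` : the three planes `kD9`, `oS9`, `oP9`
* `UpD3 η`   : the side above the record (`EUp'`), as a binder
* `dTie9`    : `DTie'` over the context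
* **`fillD3_of`** : the cell from the binder
-/

set_option autoImplicit false
set_option linter.unusedVariables false
set_option linter.unusedSectionVars false

open Set Filter Topology MeasureTheory

namespace Crest.Agent.R116.D3538

open Crest.Agent.R138
open Crest.Agent.R138.Ex926 (Base U IsTan)
open Crest.Agent.R136
open Crest.Agent.R136.MkA627
open Crest.Agent.R136.TD627
open Crest.Agent.R136.Net191
open Crest.Agent.R136.Lq196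
open Crest.Agent.R116.ChL222
open Crest.Agent.R116.PL504 (nb rL DN eL βL oL Shift)
open Crest.Agent.R116.Sg337 (bx9 coneL DL natB)
open Crest.Agent.R116.Gd222 (TSet sN PDL DT)
open Crest.Agent.R116.KI439 hiding kD
open Crest.Agent.R116.KF439 (PL)
open Crest.Agent.R116.CtxB468
open Crest.Agent.R116.Rcx363
open Crest.Agent.R116.RbM219
open Crest.Agent.R116.RbK219 (RS SOk Par dl Aln)
open Crest.Agent.R116.SgO219 (PP)
open Crest.Agent.R116.Kz647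
open Crest.Agent.R116.Pd363
open Crest.Agent.R116.Tq741
open Crest.Agent.R116.Tq126
open Crest.Agent.R116.Tp139 hiding cl8
open Crest.Agent.R116.Pk388 (AK9 kM9)
open Crest.Agent.R116.KTop387 (NumL)
open Crest.Agent.R116.KTie794
open Crest.Agent.R116.Tie460 (Pl KF' EUp' DTie')
open Crest.Agent.R116.FlH850 (VD SFill fill_of)
open Dg219 (mw Walls)
open Sl741 (slice xt rs)

/-- the three planes of the cell -/
noncomputable def Bs3 : Fin 3 → Fin 9 → ℝ := ![kD9, oS9, oP9]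
/-- their sides -/
noncomputable def sg3 : Fin 3 → ℝ := ![-1, 1, 1]

/-- **the side above the record** (binder), `θb < 0`, `1 < k'` -/
def UpD3 (η : ℝ) : Prop :=
  ∀ {G : Geo TSet (Fin 2)} {L : ℕ → ℕ → LRay} {r : ℕ → ℝ} {g s : ℝ} {θ q : Fin 2 → ℝ}
    {Rg : ℝ} {B : Base} {I : ℕ → Finset (ℕ × ℝ)} {lev : ℕ → ℚ → ℕ} {A : ℕ → ℝ}
    {f : ℕ → ℚ → ℕ → ℤ → ℕ} {b : ℕ → ℚ → ℕ → TSet} {vm : ℕ → ℚ → ℝ} {w : Fin 2 → ℕ → ℚ → ℝ}
    {fr : ℕ → ℚ → ℕ × ℝ → LInc} {fl : ℕ → ℕ × ℝ → LInc} {sc : Fin 12 → ℕ → ℝ}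
    {w0 sa sb δ R : ℝ} {I0 I' : ℕ → Finset (ℕ × ℝ)} {ν own : (Fin 12 → ℝ) → ℝ} {c₀ : ℝ}
    {v0 : ℝ} {a b' : Fin 2} {x : ℕ → Fin 12 → ℝ} {hh : ℕ → ℝ}
    {lam : Fin 2 → (Fin 12 → ℝ) → ℝ} {cm cp cP : ℝ} {ρm ρp ρP : Fin 9 → ℝ},
    CtxT G L r (g + 2 * s) s θ q Rg B I lev A f b vm w fr fl sc w0 sa sb δ R I0 I' ν own c₀ →
    NumL η g s θ q → VD θ B I lev fl sc → θ 1 < 0 → 1 < 2 * θ 0 - θ 1 →
    (θ 0 - θ 1 ≤ 1 ∨ θ 0 ≤ (θ 0 - θ 1) / 2) → 0 < v0 → v0 < 1 →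
    Out9 R s a b' (VisT B I fl sc) (θ 0) (θ 1) (g + 2 * s) (q 0) (q 1) Bs3 sg3
      (rL (θ 0) (θ 1) w0 sa sb v0) (fo ν own) x hh lam →
    0 < cm → (srf9 (θ 0) (θ 1) kD9 (-1)).LW (mw monL) cm ⊆ PP (mw monL) →
    Rates9 (θ 0) (θ 1) kD9 (-1) cm (lam 0) ρm →
    0 < cp → (srf9 (θ 0) (θ 1) oS9 1).LW (mw monL) cp ⊆ PP (mw monL) →
    Rates9 (θ 0) (θ 1) oS9 1 cp (lam 0) ρp →
    0 < cP → (srf9 (θ 0) (θ 1) oP9 1).LW (mw monL) cP ⊆ PP (mw monL) →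
    Rates9 (θ 0) (θ 1) oP9 1 cP (lam 0) ρP →
    ∀ A' : Pl, A'.m = ρm 1 →
      ∃ B', EUp' (θ 0 - θ 1) (θ 0) s (g + 2 * s) (q 0) (q 1) A' B'

section ctx

variable {G : Geo TSet (Fin 2)} {L : ℕ → ℕ → LRay} {r : ℕ → ℝ} {g s : ℝ} {θ q : Fin 2 → ℝ}
    {Rg : ℝ} {B : Base} {I : ℕ → Finset (ℕ × ℝ)} {lev : ℕ → ℚ → ℕ} {A : ℕ → ℝ}
    {f : ℕ → ℚ → ℕ → ℤ → ℕ} {b : ℕ → ℚ → ℕ → TSet} {vm : ℕ → ℚ → ℝ} {w : Fin 2 → ℕ → ℚ → ℝ}
    {fr : ℕ → ℚ → ℕ × ℝ → LInc} {fl : ℕ → ℕ × ℝ → LInc} {sc : Fin 12 → ℕ → ℝ}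
    {w0 sa sb δ R : ℝ} {I0 I' : ℕ → Finset (ℕ × ℝ)} {ν own : (Fin 12 → ℝ) → ℝ} {c₀ : ℝ} {η : ℝ}

/-- **`DTie'` over the context, `1 < k'`** -/
theorem dTie9 (hUp : UpD3 η)
    (C : CtxT G L r (g + 2 * s) s θ q Rg B I lev A f b vm w fr fl sc w0 sa sb δ R I0 I' ν own c₀)
    (hN : NumL η g s θ q) (hR0 : w0 + (θ 1 + sb) < R) (hR1 : w0 + 1 + sb < R)
    (hRg : θ 0 + |θ 1| + 1 ≤ Rg) (hV : VD θ B I lev fl sc) (hk : 1 < 2 * θ 0 - θ 1) :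
    DTie' (θ 0 - θ 1) (2 * θ 0 - θ 1) (θ 0) s (g + 2 * s) (q 0) (q 1) := by
  have hθ := hN.θa
  have hs0 := hN.s0
  have hs1 := hN.s1
  have hkB := TieT.kB hV.1
  have hb : θ 1 = 2 * θ 0 - (2 * θ 0 - θ 1) := by ring
  have hbe : θ 0 - (θ 0 - θ 1) = θ 1 := by ring
  have hT : InvT PL B I 1 fl (sc 1) ∧ TieT θ B I lev fl sc 2 ∨ TieT θ B I lev fl sc 1 := by
    rcases hV.2 with h | h
    · rcases C.out.clsD with h1 | h1
      · exact Or.inl ⟨h1, h⟩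
      · exact Or.inr h1
    · exact Or.inr h
  by_cases h1 : θ 1 < 0
  · obtain ⟨v0, -, hv0, hv1, a, b', x, hh, lam, -, O⟩ := exists_out9 (T := Fin 3) C hR0 hR1 hθ
      (by linarith) (Bs := Bs3) (sg := sg3)
      (fun i => by
        fin_cases i
        · exact sok_kD9 hk hb
        · exact sok_oS9 (by linarith) (by linarith) hθ
        · exact sok_oP9 (by linarith) (by linarith) h1 hθ)
      (fun i => by
        fin_cases i
        · exact leg_kD9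
        · exact leg_oS9
        · exact leg_oP9) (N := univ) (Eventually.of_forall fun _ => mem_univ _)
    obtain ⟨cm, hcm, hMm, -, ρm, hRm⟩ := O.surf 0
    obtain ⟨cp, hcp, hMp, -, ρp, hRp⟩ := O.surf 1
    obtain ⟨cP, hcP, hMP, -, ρP, hRP⟩ := O.surf 2
    change (srf9 (θ 0) (θ 1) kD9 (-1)).LW (mw monL) cm ⊆ _ at hMm
    change (srf9 (θ 0) (θ 1) oS9 1).LW (mw monL) cp ⊆ _ at hMp
    change (srf9 (θ 0) (θ 1) oP9 1).LW (mw monL) cP ⊆ _ at hMP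
    change Rates9 (θ 0) (θ 1) kD9 (-1) cm (lam 0) ρm at hRm
    change Rates9 (θ 0) (θ 1) oS9 1 cp (lam 0) ρp at hRp
    change Rates9 (θ 0) (θ 1) oP9 1 cP (lam 0) ρP at hRP
    obtain ⟨A', K⟩ := kM9 C hs0 hs1 hθ hk hb hv0 hv1 hT O hcm hMm hRm
    refine ⟨A', K.F, fun h => absurd h (by linarith), ?_, K.ver, K.pos,
      fun h => absurd h (by linarith), fun _ _ h3 => ?_⟩
    · rw [hbe]; exact K.tan
    · exact hUp C hN hV h1 hk h3 hv0 hv1 O hcm hMm hRm hcp hMp hRp hcP hMP hRP A' K.m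
  · obtain ⟨v0, -, hv0, hv1, a, b', x, hh, lam, -, O⟩ := exists_out9 (T := Unit) C hR0 hR1 hθ
      (by linarith) (Bs := fun _ => kD9) (sg := fun _ => -1) (fun i => sok_kD9 hk hb)
      (fun i => leg_kD9) (N := univ) (Eventually.of_forall fun _ => mem_univ _)
    obtain ⟨cm, hcm, hMm, -, ρm, hRm⟩ := O.surf ()
    change (srf9 (θ 0) (θ 1) kD9 (-1)).LW (mw monL) cm ⊆ _ at hMm
    change Rates9 (θ 0) (θ 1) kD9 (-1) cm (lam 0) ρm at hRm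
    obtain ⟨A', K⟩ := kM9 C hs0 hs1 hθ hk hb hv0 hv1 hT O hcm hMm hRm
    refine ⟨A', K.F, fun h => absurd h (by linarith), ?_, K.ver, K.pos,
      fun h => absurd h (by linarith), fun _ h2 _ => absurd h2 (by linarith)⟩
    rw [hbe]; exact K.tan

end ctx

/-- **cell D3 from the binder** -/
theorem fillD3_of {η : ℝ} (hη : η < 1) (hUp : UpD3 η) :
    Fill η VD fun g s θ q => 1 < 2 * θ 0 - θ 1 →
      DTie' (θ 0 - θ 1) (2 * θ 0 - θ 1) (θ 0) s (g + 2 * s) (q 0) (q 1) :=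
  fill_of (η := η) (V := VD) fun C hN hR0 hR1 hRg hV hk =>
    dTie9 hUp C hN hR0 hR1 hRg hV hk

end Crest.Agent.R116.D3538
end

-- ▼ part R116/FlD3b_538
section

/-!
# R116, DOUBLE TIE, cell D3 : `k' = 2 θa - θb > 1` (helper538), the side above the record

* `plU_oS9`  : 139's table `PlU` of `oS9`
* `sum_X`    : the two letters of the class `{C_b, X}` at `k = 1`
* `tvS9`     : 139's `TV` of the plane `oS9`
* **`eUp9_of`** : `EUp'` over the context, [K3] at `k = 1` as a binder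
-/

set_option autoImplicit false
set_option linter.unusedVariables false
set_option linter.unusedSectionVars false

open Set Filter Topology MeasureTheory

namespace Crest.Agent.R116.D3538

open Crest.Agent.R138
open Crest.Agent.R138.Ex926 (Base U IsTan)
open Crest.Agent.R136
open Crest.Agent.R136.MkA627
open Crest.Agent.R136.TD627
open Crest.Agent.R136.Net191
open Crest.Agent.R136.Lq196
open Crest.Agent.R116.ChL222
open Crest.Agent.R116.PL504 (nb rL DN eL βL oL Shift)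
open Crest.Agent.R116.Sg337 (bx9 coneL DL natB)
open Crest.Agent.R116.Gd222 (TSet sN PDL DT)
open Crest.Agent.R116.KI439 hiding kD
open Crest.Agent.R116.KF439 (PL)
open Crest.Agent.R116.CtxB468
open Crest.Agent.R116.Rcx363
open Crest.Agent.R116.RbM219
open Crest.Agent.R116.RbK219 (RS SOk Par dl Aln)
open Crest.Agent.R116.SgO219 (PP)
open Crest.Agent.R116.Kz647
open Crest.Agent.R116.Pd363
open Crest.Agent.R116.Tq741
open Crest.Agent.R116.Tq794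
open Crest.Agent.R116.Tq126
open Crest.Agent.R116.Tp139 hiding cl8
open Crest.Agent.R116.Pos126 (posB9)
open Crest.Agent.R116.KTop387 (NumL)
open Crest.Agent.R116.KTie794
open Crest.Agent.R116.Tie460 (Pl EF' EUp')
open Dg219 (mw Walls)
open Dg262 (SupOn)
open Sl741 (slice xt rs)

/-! ### tables -/

theorem cS9_one : cS9 1 = ![0, 1, 2, 2, 4, 5, 0, 0, 0] := by
  funext i
  fin_cases i <;> evc <;> norm_num [cS9]

theorem cS9_half : cS9 (1 / 2) = ![0, 1, 2, 3, 4, 2, 0, 0, 0] := by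
  funext i
  fin_cases i <;> evc <;> norm_num [cS9]

theorem cS9_gen {k : ℝ} (h1 : k ≠ 1) (h : k ≠ 1 / 2) :
    cS9 k = ![0, 1, 2, 3, 4, 5, 0, 0, 0] := by
  unfold cS9
  rw [if_neg h1, if_neg h]

theorem plU_oS9 {θ θb k : ℝ} : PlU k (cS9 k) (dl (nat9 1 (-θ) (-θb)) oS9 1) := by
  have d2 : dl (nat9 1 (-θ) (-θb)) oS9 1 2 = 1 := by
    unfold dl; rw [t2, if_neg one_ne_zero, mul_one]
  have d3 : dl (nat9 1 (-θ) (-θb)) oS9 1 3 = 1 := by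
    unfold dl; rw [t3, if_neg one_ne_zero, mul_one]
  have d5 : dl (nat9 1 (-θ) (-θb)) oS9 1 5 = 2 := by
    unfold dl; rw [t5, if_neg two_ne_zero, one_mul]
  by_cases h1 : k = 1
  · subst h1
    rw [cS9_one]
    refine ⟨by decide, by unfold Tp139.Al; decide, by unfold Tp139.Al; decide, fun h => absurd rfl h,
      fun _ => by unfold Tp139.Al; decide, fun h => absurd rfl h, fun _ => ⟨by decide, by decide, ?_⟩,
      fun h => absurd h (by norm_num), by decide⟩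
    rw [d3, d2]
  by_cases h2 : k = 1 / 2
  · subst h2
    rw [cS9_half]
    refine ⟨by decide, by unfold Tp139.Al; decide, by unfold Tp139.Al; decide, fun _ => by unfold Tp139.Al; decide,
      fun h => absurd rfl h, fun _ h => absurd rfl h, fun h => absurd h h1,
      fun _ => ⟨by decide, by decide, ?_⟩, by decide⟩
    rw [d5, d2]; norm_num
  · rw [cS9_gen h1 h2]
    exact ⟨by decide, by unfold Tp139.Al; decide, by unfold Tp139.Al; decide, fun _ => by unfold Tp139.Al; decide,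
      fun _ => by unfold Tp139.Al; decide, fun _ _ => by unfold Tp139.Al; decide, fun h => absurd h h1,
      fun h => absurd h h2, by decide⟩

/-- `k = 1` : the two letters of the class `{C_b, X}` -/
theorem sum_X {c : Fin 9 → Fin 9} {dl : V9} {s k : ℝ} {Λ : V9 → ℝ} {φ : Fin 9 → V9 → ℝ}
    {ρ : V9} (H : Cl9 c dl s Λ φ ρ) (P : PlU k c dl) (hk : k = 1) :
    rE c φ + (1 - xE c φ) = ρ 3 := by
  obtain ⟨hc3, hc, hd⟩ := P.c3 hk
  have e1 : φ (c 3) 0 = 0 := H.zero_of 3 fun t ht => rfl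
  have e3 : φ (c 3) (e9 3 + (1:ℝ) • e9 2) = -(ρ 3 * 1) := by
    rw [H.rate 3 _ fun t' ht' => by
      rcases hc t' (ht'.trans hc3) with rfl | rfl
      · simp [e9]; rw [hd]
      · simp [e9]]
    simp [e9]
  have e4 : φ (c 3) (0 + (1:ℝ) • e9 3) = φ (c 3) (e9 3) := by rw [zero_add, one_smul]
  unfold rE xE
  rw [e1, e4, ← hc3, e3]
  ring

/-- 139's `TV` of the plane `oS9` in the letters `rE`, `xE`, `hE` -/
theorem tvS9 {θ θb s g qa qb : ℝ} {lam lam2 : Fin 2 → (Fin 12 → ℝ) → ℝ} {ρ ρ2 : Fin 9 → ℝ}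
    {l α : ℝ} {h : ℕ → ℝ} (H : Half9 θ θb oS9 1 lam 0 ρ (DL g s qa qb 0 1 1) l α h lam2 ρ2)
    (h0 : lam 0 0 = 0)
    (hrec : lam 0 (RL9.vec (nat9 1 (-θ) (-θb))) = DL g s qa qb 1 (-θ) (-θb))
    (hθ : 0 < θ) (hb : θb < θ) (hb2 : θb < 2 * θ - 1) (h2 : θ - θb ≠ 1 / 2)
    {φ : Fin 9 → V9 → ℝ}
    (C : Cl9 (cS9 (θ - θb)) (dl (nat9 1 (-θ) (-θb)) oS9 1) s (fun w => lam2 0 (RL9.vec w)) φ ρ2) :
    TV θ θb s g qa qb (ρ2 0) (ρ2 1) (rE (cS9 (θ - θb)) φ) (1 - xE (cS9 (θ - θb)) φ) (ρ2 4)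
      (1 - hE (cS9 (θ - θb)) φ) := by
  have eκ : DL g s qa qb 0 1 1 = -(4 + qa + qb) := by unfold DL; ring
  rw [eκ] at H
  have PU := plU_oS9 (θ := θ) (θb := θb) (k := θ - θb)
  have hH : (1 - hE (cS9 (θ - θb)) φ) = ρ2 5 := by
    rw [hE_al C (PU.a5 h2)]
    ring
  rw [hH]
  by_cases h1 : θ - θb = 1
  · exact tv9_1 H h0 hrec hθ hb2 h1 (sum_X C PU h1)
  · have hx : (1 - xE (cS9 (θ - θb)) φ) = ρ2 3 := by
      rw [xE_al C (PU.a3 h1)]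
      ring
    have hr : rE (cS9 (θ - θb)) φ = ρ2 2 := rE_al C (PU.a2 h1 h2)
    rw [hx, hr]
    exact Tp139.tv9 H h0 hrec hθ hb hb2 h1 h2

section ctx

variable {G : Geo TSet (Fin 2)} {L : ℕ → ℕ → LRay} {r : ℕ → ℝ} {g s : ℝ} {θ q : Fin 2 → ℝ}
    {Rg : ℝ} {B : Base} {I : ℕ → Finset (ℕ × ℝ)} {lev : ℕ → ℚ → ℕ} {A : ℕ → ℝ}
    {f : ℕ → ℚ → ℕ → ℤ → ℕ} {b : ℕ → ℚ → ℕ → TSet} {vm : ℕ → ℚ → ℝ} {w : Fin 2 → ℕ → ℚ → ℝ}
    {fr : ℕ → ℚ → ℕ × ℝ → LInc} {fl : ℕ → ℕ × ℝ → LInc} {sc : Fin 12 → ℕ → ℝ}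
    {w0 sa sb δ R : ℝ} {I0 I' : ℕ → Finset (ℕ × ℝ)} {ν own : (Fin 12 → ℝ) → ℝ} {c₀ : ℝ}
    {v0 : ℝ} {a b' : Fin 2} {x : ℕ → Fin 12 → ℝ} {hh : ℕ → ℝ}
    {lam : Fin 2 → (Fin 12 → ℝ) → ℝ} {T : Type*} {cm cp cP : ℝ} {ρm ρp ρP : Fin 9 → ℝ}

/-- **the side above the record of the double tie, `1 < k'`, `θb < 0`** -/
theorem eUp9_of
    (C : CtxT G L r g s θ q Rg B I lev A f b vm w fr fl sc w0 sa sb δ R I0 I' ν own c₀)
    (hs0 : 0 ≤ s) (hs1 : s < 1) (hθ : 0 < θ 0) (h1 : θ 1 < 0) (hk : 1 < 2 * θ 0 - θ 1)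
    (hv0 : 0 < v0) (hv1 : v0 < 1) (hB : TieT θ B I lev fl sc 7 ∨ TieT θ B I lev fl sc 8)
    {Bs : T → Fin 9 → ℝ} {sgs : T → ℝ}
    (O : Out9 R s a b' (VisT B I fl sc) (θ 0) (θ 1) g (q 0) (q 1) Bs sgs
      (rL (θ 0) (θ 1) w0 sa sb v0) (fo ν own) x hh lam)
    (hcm : 0 < cm) (hMm : (srf9 (θ 0) (θ 1) kD9 (-1)).LW (mw monL) cm ⊆ PP (mw monL))
    (hRm : Rates9 (θ 0) (θ 1) kD9 (-1) cm (lam 0) ρm)
    (hcp : 0 < cp) (hMp : (srf9 (θ 0) (θ 1) oS9 1).LW (mw monL) cp ⊆ PP (mw monL))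
    (hRp : Rates9 (θ 0) (θ 1) oS9 1 cp (lam 0) ρp)
    (hcP : 0 < cP) (hMP : (srf9 (θ 0) (θ 1) oP9 1).LW (mw monL) cP ⊆ PP (mw monL))
    (hRP : Rates9 (θ 0) (θ 1) oP9 1 cP (lam 0) ρP)
    (hK3 : θ 0 - θ 1 = 1 → ∀ {l α : ℝ} {h' : ℕ → ℝ} {X : ℕ → Fin 12 → ℝ} {H : ℕ → ℝ}
      {lam2 : Fin 2 → (Fin 12 → ℝ) → ℝ} {ρ2 : Fin 9 → ℝ} {φ : Fin 9 → V9 → ℝ},
      Pd9 R s a b' (VisT B I fl sc) (θ 0) (θ 1) w0 sa sb v0 (DL g s (q 0) (q 1) 0 1 1) oS9 1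
        (fo ν own) lam ρp l α h' X H lam2 ρ2 →
      Cl9 (cS9 (θ 0 - θ 1)) (dl (nat9 1 (-(θ 0)) (-(θ 1))) oS9 1) s
        (fun w => lam2 0 (RL9.vec w)) φ ρ2 → K3U (cS9 (θ 0 - θ 1)) s φ ρ2)
    {A' : Pl} (hA : A'.m = ρm 1) :
    ∃ B', EUp' (θ 0 - θ 1) (θ 0) s g (q 0) (q 1) A' B' := by
  have hkk : 0 < θ 0 - θ 1 := by linarith
  have hbe : θ 1 = θ 0 - (θ 0 - θ 1) := by ring
  have hbk : θ 1 = 2 * θ 0 - (2 * θ 0 - θ 1) := by ring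
  have hk1 : 1 < θ 0 + (θ 0 - θ 1) := by linarith
  have hvis : ∀ i, VisT B I fl sc i → i = 0 ∨ i = 1 ∨ i = 2 ∨ i = 7 ∨ i = 8 :=
    fun i hi => Fk647.vis_flag C.out i hi
  have hSo := sok_oS9 (θ := θ 0) (θb := θ 1) (by linarith) (by linarith) hθ
  have e0 : oS9 0 = 0 := rfl
  have e6 : oS9 6 = 0 := rfl
  have e7 : oS9 7 = 0 := rfl
  have e8 : oS9 8 = 0 := rfl
  obtain ⟨l, α, h', X, H, lam2, ρ2, -, -, -, P⟩ :=
    plane9 (Vis' := VisT B I fl sc) (v := 0) (c := 1) (p := 1) O hSo leg_oS9 hcp hRp (by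
        refine all9 ?_ ?_ ?_ ?_ ?_ ?_ ?_ ?_ ?_ <;> ev9 <;> norm_num) (fun i hi => by
      left
      refine ⟨hi, ?_⟩
      rcases hvis i hi with rfl | rfl | rfl | rfl | rfl
      · change oS9 0 ≤ oS9 0 * _
        rw [e0, zero_mul]
      · change oS9 8 ≤ oS9 0 * _
        rw [e0, zero_mul, e8]
      · change oS9 7 ≤ oS9 0 * _
        rw [e0, zero_mul, e7]
      · change oS9 6 ≤ oS9 0 * _
        rw [e0, zero_mul, e6]
      · change oS9 6 ≤ oS9 0 * _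
        rw [e0, zero_mul, e6]) (N := univ)
      (Eventually.of_forall fun _ => mem_univ _) (y := 1) one_pos
  obtain ⟨φ, hcl⟩ := P.cls hSo (fun i hi => hvis i hi) (hc_oS9 hθ hkk hk1 hbe)
    (hz_oS9 hθ hkk hk1 hbe) (hG_oS9 hθ hkk hk1 hbe)
  have F : Fct9 (fun w => w 6 ≤ (θ 0 - θ 1) * w 0 ∧ w 7 ≤ (2 * θ 0 - θ 1) * w 0 ∧
      w 8 ≤ (2 * θ 0 - θ 1 - 1) * w 0) s (fun w => lam2 0 (RL9.vec w)) := by
    refine Pd3x363.pd9_fctS P C hs0 hs1.le hθ hv0 hv1 fun w hw hS i hi => ?_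
    rcases hvis i hi with rfl | rfl | rfl | rfl | rfl
    · change w 0 ≤ w 0 * βL (θ 0) (θ 1) 0
      have : βL (θ 0) (θ 1) 0 = 1 := rfl
      rw [this, mul_one]
    · change w 8 ≤ w 0 * βL (θ 0) (θ 1) 1
      have e2 : βL (θ 0) (θ 1) 1 = -(θ 1) - 2 * -(θ 0) - 1 := rfl
      rw [e2]; linarith [hS.2.2]
    · change w 7 ≤ w 0 * βL (θ 0) (θ 1) 2
      have e2 : βL (θ 0) (θ 1) 2 = -(θ 1) - 2 * -(θ 0) := rfl
      rw [e2]; linarith [hS.2.1]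
    · change w 6 ≤ w 0 * βL (θ 0) (θ 1) 7
      have e2 : βL (θ 0) (θ 1) 7 = -(θ 1) - -(θ 0) := rfl
      rw [e2]; linarith [hS.1]
    · change w 6 ≤ w 0 * βL (θ 0) (θ 1) 8
      have e2 : βL (θ 0) (θ 1) 8 = -(θ 1) - -(θ 0) := rfl
      rw [e2]; linarith [hS.1]
  have PU := plU_oS9 (θ := θ 0) (θb := θ 1) (k := θ 0 - θ 1)
  have GU : RgU (θ 0 - θ 1) (2 * θ 0 - θ 1) (2 * θ 0 - θ 1 - 1)
      (fun w => w 6 ≤ (θ 0 - θ 1) * w 0 ∧ w 7 ≤ (2 * θ 0 - θ 1) * w 0 ∧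
        w 8 ≤ (2 * θ 0 - θ 1 - 1) * w 0)
      (fun w => w 7 < (2 * θ 0 - θ 1) * w 0 ∧ w 8 < (2 * θ 0 - θ 1 - 1) * w 0) :=
    { k0 := hkk
      k1 := by linarith
      k2 := by linarith
      sk := fun w h1 h2 h3 => ⟨h1.le, h2.le, h3.le⟩
      sg := fun w h2 h3 => ⟨h2, h3⟩
      h12 := fun h => absurd h (by linarith)
      h11 := fun h => ⟨by linarith, by linarith⟩ }
  have FU : θ 0 - θ 1 ≠ 1 → FctU (θ 0 - θ 1)
      (fun w => w 7 < (2 * θ 0 - θ 1) * w 0 ∧ w 8 < (2 * θ 0 - θ 1 - 1) * w 0)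
      (fun w => lam2 0 (RL9.vec w)) := fun _ =>
    Th171.fctU9 P C hθ hv0 hv1 leg_oS9 (by ev9; norm_num) (by ev9; norm_num) (by ev9; norm_num)
      (by ev9; norm_num) (by ev9; norm_num) (by rw [e0, e6, mul_zero]) hB
      (fun _ => by rw [e0, e7, mul_zero]) (fun _ => by rw [e0, e8, mul_zero])
      (fun w _ hS => ⟨fun _ => hS.1, fun _ => hS.2⟩)
  have hF := efU hcl PU GU F hs0 (Or.inl rfl) (Or.inl rfl) (Or.inl rfl) FU
    (fun h => hK3 h P hcl)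
  have hrec : lam 0 (RL9.vec (nat9 1 (-(θ 0)) (-(θ 1)))) = DL g s (q 0) (q 1) 1 (-(θ 0)) (-(θ 1)) := by
    have h2 := O.rx.rcd 1
    rw [mul_one, mul_one] at h2
    rw [← h2]
    exact congrArg (lam 0) (RL9_nat 1 (-(θ 0)) (-(θ 1)))
  have hTV := tvS9 P.half (O.zero 0) hrec hθ (by linarith) (by linarith)
    (fun h => by linarith) hcl
  have hs : SupOn (lam 0) (PP (mw monL)) := by rw [← coneL_PP]; exact O.rx.prf.sm
  have e1 : ρ2 1 = ρp 1 := P.half.eq 1 (A1_ne9 hθ)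
  refine ⟨_, hF, ?_, hTV.ver, ?_, ?_⟩
  · rw [← hbe]; exact hTV.tan
  · show ρ2 1 ≤ A'.m
    rw [hA, e1]
    exact ant_d9 (k := 2 * θ 0 - θ 1) hs hθ hcm hcp hk hbk (by linarith) hMm hMp hRm hRp
  · show q 0 ≤ ρ2 1
    rw [e1]
    have h3 := pos_e9 (k := θ 0 - θ 1) hs hθ hcp hcP hkk hk1 hbe h1 hMp hMP hRp hRP
    have h4 := posB9 (s := s) (g := g) (qa := q 0) (qb := q 1) (lam := lam 0) O.rx.prf.ab
      O.rx.prf.anti O.rx.prf.cost (O.zero 0) O.rx.dmax hcP hθ h1 (by linarith) hRP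
    exact h4.trans h3

end ctx

end Crest.Agent.R116.D3538
end

-- ▼ part R116/K3u_337

/-!
# R116, ties: (K3) at `k = 1` on the planes above the record (helper337)

* `k3_of9` : `K3C` of a plane `Pd9` on the tie plane, `E`, `D` visible or not, on their own level
* **`k3u8`** : `K3U` of the plane `oS`;  **`k3u9`** : `K3U` of the plane `oS9`
-/

set_option autoImplicit false
set_option linter.unusedVariables false
set_option linter.unusedSectionVars false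

open Set Filter Topology

namespace Crest.Agent.R116.K3u337

open Crest.Agent.R138
open Crest.Agent.R138.Ex926 (Base U IsTan)
open Crest.Agent.R136
open Crest.Agent.R136.MkA627
open Crest.Agent.R136.TD627
open Crest.Agent.R136.Net191
open Crest.Agent.R136.Lq196
open Crest.Agent.R116.EvL504
open Crest.Agent.R116.ChL222
open Crest.Agent.R116.PL504 (nb rL DN eL βL oL Shift eL_wall)
open Crest.Agent.R116.Sg337 (bx9)
open Crest.Agent.R116.Gd222 (TSet sN PDL DT)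
open Crest.Agent.R116.KI439
open Crest.Agent.R116.KF439 (PL)
open Crest.Agent.R116.CtxB468
open Crest.Agent.R116.Kst593
open Crest.Agent.R116.Rcx363 (fo fo_lip Prf)
open Crest.Agent.R116.RbM219
open Crest.Agent.R116.RbK219
open Crest.Agent.R116.SgF665 (wl wl_add wl_smul LM0)
open Crest.Agent.R116.WinG954 (LM)
open Crest.Agent.R116.Tq741
open Crest.Agent.R116.Pd363
open Crest.Agent.R116.Tw369
open Crest.Agent.R116.Tq794
open Crest.Agent.R116.Tp139 (PlU K3U oS oS9 leg_oS9)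
open Crest.Agent.R116.K3e160
open Sl741 (slice xt rs)

variable {G : Geo TSet (Fin 2)} {L : ℕ → ℕ → LRay} {r : ℕ → ℝ} {g s : ℝ} {θ q : Fin 2 → ℝ}
    {Rg : ℝ} {B : Base} {I : ℕ → Finset (ℕ × ℝ)} {lev : ℕ → ℚ → ℕ} {A : ℕ → ℝ}
    {f : ℕ → ℚ → ℕ → ℤ → ℕ} {b : ℕ → ℚ → ℕ → TSet} {vm : ℕ → ℚ → ℝ} {wt : Fin 2 → ℕ → ℚ → ℝ}
    {fr : ℕ → ℚ → ℕ × ℝ → LInc} {fl : ℕ → ℕ × ℝ → LInc} {sc : Fin 12 → ℕ → ℝ}
    {w0 sa sb δ R : ℝ} {I0 I' : ℕ → Finset (ℕ × ℝ)} {ν own : (Fin 12 → ℝ) → ℝ} {c₀ : ℝ}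
    {a b' : Fin 2} {Vis' : Fin 12 → Prop} {v0 t κ sg l α v c p : ℝ}
    {lam lam2 : Fin 2 → (Fin 12 → ℝ) → ℝ} {h' H : ℕ → ℝ} {X : ℕ → Fin 12 → ℝ}

/-- **(K3) on a plane on the tie plane, `D` live**; `E`, `D` on their own level -/
theorem k3_of9 {Bo ρ ρ2 : Fin 9 → ℝ}
    (P : Pd9 R s a b' Vis' (θ 0) (θ 1) w0 sa sb v0 κ Bo sg (fo ν own) lam ρ l α h' X H
      lam2 ρ2)
    (C : CtxT G L r g s θ q Rg B I lev A f b vm wt fr fl sc w0 sa sb δ R I0 I' ν own c₀)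
    (hθ : 0 < θ 0) (hθ1 : θ 0 < 1) (hk : θ 0 - θ 1 = 1) (hv0 : 0 < v0) (hv1 : v0 < 1)
    (hL : Leg9 Bo) (b1 : Bo 3 = Bo 0 + Bo 1) (b2 : Bo 5 = Bo 1 + Bo 3) (b3 : Bo 4 = Bo 0 + Bo 2)
    (b4 : Bo 4 = Bo 3 + Bo 6) (b5 : Bo 2 = Bo 1 + Bo 6) (b6 : Bo 6 = (θ 0 - θ 1) * Bo 0)
    (b7 : Bo 7 ≤ (2 * θ 0 - θ 1) * Bo 0) (b8 : Bo 8 ≤ (2 * θ 0 - θ 1 - 1) * Bo 0)
    (hB : TieT θ B I lev fl sc 7 ∨ TieT θ B I lev fl sc 8)
    (hvis : ∀ i, VisT B I fl sc i → i = 0 ∨ i = 1 ∨ i = 2 ∨ i = 7 ∨ i = 8)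
    (hvis' : ∀ i, Vis' i → i = 0 ∨ i = 1 ∨ i = 2 ∨ i = 7 ∨ i = 8)
    {c : Fin 9 → Fin 9} {dl : V9} {φ : Fin 9 → V9 → ℝ} {ρ' : V9}
    (Hc : Cl9 c dl s (fun w => lam2 0 (RL9.vec w)) φ ρ')
    (h1 : ∀ t, c t = c 1 → t = 1) (h4 : ∀ t, c t = c 4 → t = 4)
    (h3 : ∀ t, c t = c 3 → t = 2 ∨ t = 3)
    (hz : ∀ t t', c t = c t' → (t = 0 ∨ t = 6) → t' = 0 ∨ t' = 6 ∨ t' = 7 ∨ t' = 8) :
    K3C c s φ ρ' := by
  simp only [E9_eq] at Hc
  obtain ⟨vv, pb, hE, hD⟩ := Th171.pbU9 (ν := fo ν own 0) P rfl hv0 hv1 hL b1 b2 b3 b4 b5 b6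
  have Hp := P.prf.mono (LM_L9B (θa := θ 0) (θb := θ 1) (B := Bo) (sg := sg))
  have hP : K3P (θ 0) (θ 1) w0 sa sb v0 X vv :=
    { tb := pb.base
      lim := pb.lim
      x4 := fun m => (pb.nb.p3 m).symm
      x5 := pb.nb.x5
      x6 := fun m => by rw [pb.nb.x6 m, ← pb.nb.p3 m]
      x8 := fun m => (pb.nb.p7 m).symm
      x9 := fun m => by
        have := Th171.rL_nat (θ 0) (θ 1) w0 sa sb 0
        obtain ⟨V, E, -, -, -, hb⟩ := P.base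
        have q3 : cl9 3 = 1 := rfl
        have q5 : cl9 5 = 3 := rfl
        have q9 : cl9 9 = 5 := rfl
        rw [hb m 9, hb m 3, hb m 5, q3, q5, q9, b2]
        have r : ∀ v, rL (θ 0) (θ 1) w0 sa sb v =
            eL (w0 + v) (θ 0 * (1 - v) + sa) (θ 1 * (1 - v) + sb) := fun _ => rfl
        rw [r]
        simp [eL]; ring
      x10 := fun m => by rw [pb.nb.x10 m]; ring
      x11 := pb.nb.x11 }
  -- position `z = -1`, `G = -(3+θ)/2`, `D = -(1+θ)/2`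
  have g0 : (-(3 + θ 0) / 2 : ℝ) ≤ -1 + -(1 + θ 0) / 2 := by linarith
  have g2 : 2 * (-1 : ℝ) < -(3 + θ 0) / 2 := by linarith
  have g3 : (-1 : ℝ) < -(1 + θ 0) / 2 := by linarith
  have hκ2 : βL (θ 0) (θ 1) 2 = 1 + θ 0 := by
    rw [βL2]; linarith
  have hκ1 : βL (θ 0) (θ 1) 1 = θ 0 := by
    show -θ 1 - 2 * -θ 0 - 1 = _
    linarith
  have e1 : E9 (wG (-1) (-(3 + θ 0) / 2) (-(1 + θ 0) / 2)) 1 = -(1 + θ 0) / 2 := by
    simp [E9, bx9, wG]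
  have e2 : E9 (wG (-1) (-(3 + θ 0) / 2) (-(1 + θ 0) / 2)) 2 = -(3 + θ 0) / 2 :=
    (wG_E _ _ _).2.1
  have hvX : ∀ k, k ≠ 0 → VisT B I fl sc k → k = 7 ∨ k = 8 ∨
      Vw (θ 0) (θ 1) w0 sa sb X H vv (E9 (wG (-1) (-(3 + θ 0) / 2) (-(1 + θ 0) / 2))) (-1) k := by
    intro k hk hV
    rcases hvis k hV with rfl | rfl | rfl | rfl | rfl
    · exact absurd rfl hk
    · refine Or.inr (Or.inr (Or.inl ⟨Eventually.of_forall (hD b8), ?_⟩))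
      rw [e1, hκ1]
      linarith
    · refine Or.inr (Or.inr (Or.inl ⟨Eventually.of_forall (hE b7), ?_⟩))
      rw [e2, hκ2]
      linarith
    · exact Or.inl rfl
    · exact Or.inr (Or.inl rfl)
  have hfr : ∀ᶠ x in 𝓝[>] (0 : ℝ), ∀ y : ℝ, 0 < y → (1 - s) * y ≤
      lam2 0 (E9 (wG (-1) (-(3 + θ 0) / 2) (-(1 + θ 0) / 2) + x • dE)) -
        lam2 0 (E9 (wG (-1) (-(3 + θ 0) / 2) (-(1 + θ 0) / 2) + x • dE + y • e9 0)) := by
    have hx1 : ∀ᶠ x : ℝ in 𝓝[>] 0, x < (1 - θ 0) / 8 :=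
      mem_nhdsWithin_of_mem_nhds (gt_mem_nhds (by linarith))
    filter_upwards [hx1, self_mem_nhdsWithin] with x hx hx0 y hy
    have hx0' : (0 : ℝ) < x := hx0
    have hw : LegM 0 (wG (-1) (-(3 + θ 0) / 2) (-(1 + θ 0) / 2) + x • dE) :=
      (wG_leg g0 g2.le g3.le).add_smul leg_dE hx0'.le
    refine own_prf Hp (fun d hd => E9_mem hd) E9_add (fun _ => rfl) e9_nonneg9 hw
      (fun k hkV => ?_) hy
    have v0' : (wG (-1) (-(3 + θ 0) / 2) (-(1 + θ 0) / 2) + x • dE) 0 = -1 := by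
      simp [wG, dE]
    have v6' : (wG (-1) (-(3 + θ 0) / 2) (-(1 + θ 0) / 2) + x • dE) 6 = -1 := by
      simp [wG, dE]
    have v7' : (wG (-1) (-(3 + θ 0) / 2) (-(1 + θ 0) / 2) + x • dE) 7 =
        -(3 + θ 0) / 2 + x := by
      simp [wG, dE]
    have v8' : (wG (-1) (-(3 + θ 0) / 2) (-(1 + θ 0) / 2) + x • dE) 8 =
        -(1 + θ 0) / 2 + 2 * x := by
      simp [wG, dE]
      ring
    revert v0' v6' v7' v8'
    generalize wG (-1) (-(3 + θ 0) / 2) (-(1 + θ 0) / 2) + x • dE = w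
    intro v0' v6' v7' v8'
    rcases hvis' k hkV with rfl | rfl | rfl | rfl | rfl
    · show w 0 ≤ w 0 * βL (θ 0) (θ 1) 0
      rw [βL0, mul_one]
    · show w 8 ≤ w 0 * βL (θ 0) (θ 1) 1
      rw [v8', v0', hκ1]
      linarith
    · show w 7 ≤ w 0 * βL (θ 0) (θ 1) 2
      rw [v7', v0', hκ2]
      linarith
    · show w 6 ≤ w 0 * βL (θ 0) (θ 1) 7
      rw [v6', v0', βL7, hk]
      linarith
    · show w 6 ≤ w 0 * βL (θ 0) (θ 1) 8
      rw [v6', v0', βL8, hk]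
      linarith
  have main : ∀ j : Fin 12, (j = 7 ∨ j = 8) → TieT θ B I lev fl sc j → K3C c s φ ρ' :=
    fun j hj hT => k3c_gen C (Or.inr ⟨rfl, rfl⟩) P.pos P.lim pb.tan hP hθ hk hj hT g0 g2 g3 hvX
      Hc hfr h1 h4 h3 hz
  rcases hB with h | h
  · exact main 7 (Or.inl rfl) h
  · exact main 8 (Or.inr rfl) h


/-- **(K3) on the plane `oS9`, `k = 1`** -/
theorem k3u9 {ρ ρ2 : Fin 9 → ℝ}
    (P : Pd9 R s a b' Vis' (θ 0) (θ 1) w0 sa sb v0 κ oS9 sg (fo ν own) lam ρ l α h' X H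
      lam2 ρ2)
    (C : CtxT G L r g s θ q Rg B I lev A f b vm wt fr fl sc w0 sa sb δ R I0 I' ν own c₀)
    (hθ : 0 < θ 0) (hθ1 : θ 0 < 1) (hk : θ 0 - θ 1 = 1) (hv0 : 0 < v0) (hv1 : v0 < 1)
    (hB : TieT θ B I lev fl sc 7 ∨ TieT θ B I lev fl sc 8)
    (hvis : ∀ i, VisT B I fl sc i → i = 0 ∨ i = 1 ∨ i = 2 ∨ i = 7 ∨ i = 8)
    (hvis' : ∀ i, Vis' i → i = 0 ∨ i = 1 ∨ i = 2 ∨ i = 7 ∨ i = 8) {c : Fin 9 → Fin 9}
    {dl : V9} {φ : Fin 9 → V9 → ℝ} {ρ' : V9}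
    (Hc : Cl9 c dl s (fun w => lam2 0 (RL9.vec w)) φ ρ')
    (h1 : ∀ t, c t = c 1 → t = 1) (h4 : ∀ t, c t = c 4 → t = 4)
    (h3 : ∀ t, c t = c 3 → t = 2 ∨ t = 3)
    (hz : ∀ t t', c t = c t' → (t = 0 ∨ t = 6) → t' = 0 ∨ t' = 6 ∨ t' = 7 ∨ t' = 8) :
    K3U c s φ ρ' :=
  k3_of9 P C hθ hθ1 hk hv0 hv1 leg_oS9 (by simp [oS9]) (by simp [oS9]; norm_num) (by simp [oS9])
    (by simp [oS9]) (by simp [oS9]) (by simp [oS9]) (by simp [oS9]) (by simp [oS9]) hB hvis hvis'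
    Hc h1 h4 h3 hz

end Crest.Agent.R116.K3u337
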