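import Crest.Agent.R136.Gr2_356
import Crest.Agent.R116.Kr9_710

-- ▼ part R116/KW1_420
section

/-!
# R116, K-TEXT II-c, section 1, facts (W2), (W3), part 1: two heights of one fibre (helper420)

Over 356's `RUnif` (relative coordinates with walls).

* `two_heights` : lines `S` (at least `ρ^(-a + C ε)` of them) alive at the heights `k0`, `k1`, pairwise
  `pT`-close at `k1`; if `r`-close at `k1` implies `p'`-close at `k0`, then `a - ν p' ≤ ν pT - ν r`.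
* `pick_height` : one height which is good for a `θ`-part of the lines.
* `two_heights_R` : the same in the form of `kauf_R` / `falc_R`: one pinned fibre, good heights `Zg`.
* `thick_part` : the lines of a fibre with `|c i| ≥ ρ^δ` and one sign of `c i`.
-/

set_option autoImplicit false
set_option linter.unusedVariables false
set_option linter.unusedSectionVars false

open Filter Topology Finset

namespace Crest.Agent.R116.KW420

open Crest.Agent.R138.Ex926 (Base U)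
open Crest.Agent.R136.Gf356

variable {κ : Type} {B : Base} {G : ℕ → RCfg κ} {Leg : Set (κ → ℝ)} {ν : (κ → ℝ) → ℝ}
  {σ R D : ℝ}

/-- **two heights.** -/
theorem two_heights (H : RUnif B G Leg ν D) (k0 k1 : ℝ → ℕ → ℕ) (S : ℝ → ℕ → Finset ℕ)
    (p' pT r : κ → ℝ) (hp' : p' ∈ Leg) (hpT : pT ∈ Leg) (hr : r ∈ Leg)
    (hTr : ∀ j, pT j ≤ r j) {a C : ℝ} (hC : 0 < C)
    (hS0 : ∀ ε : ℝ, 0 < ε → ∀ᶠ n in (U : Filter ℕ), ∀ i ∈ S ε n, (i, k0 ε n) ∈ (G n).I)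
    (hS1 : ∀ ε : ℝ, 0 < ε → ∀ᶠ n in (U : Filter ℕ), ∀ i ∈ S ε n, (i, k1 ε n) ∈ (G n).I)
    (hcard : ∀ ε : ℝ, 0 < ε → ∀ᶠ n in (U : Filter ℕ),
      B.d n ^ (-a + C * ε) ≤ ((S ε n).card : ℝ))
    (hT : ∀ ε : ℝ, 0 < ε → ∀ᶠ n in (U : Filter ℕ), ∀ i ∈ S ε n, ∀ i' ∈ S ε n,
      (G n).loose pT (C * ε) (k1 ε n) i i')
    (hgeo : ∀ C2 : ℝ, 0 < C2 → ∃ C3 : ℝ, 0 < C3 ∧ ∀ ε : ℝ, 0 < ε → ∀ᶠ n in (U : Filter ℕ),
      ∀ i ∈ S ε n, ∀ i' ∈ S ε n, (G n).loose r (C2 * ε) (k1 ε n) i i' →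
        (G n).loose p' (C3 * ε) (k0 ε n) i i') :
    a - ν p' ≤ ν pT - ν r := by
  classical
  have hD := H.D1
  have hD0 : 0 < D := by linarith
  obtain ⟨C3, hC3, hg⟩ := hgeo (D ^ 5 * C) (by positivity)
  have key := le_of_ev B (-a) (-(ν pT - ν r) - ν p') ((D ^ 2 + 1) * C + D * C3 + C) 1 (by
    intro ε hε
    have hCε : 0 < C * ε := by positivity
    have hC3ε : 0 < C3 * ε := by positivity
    filter_upwards [hS0 ε hε, hS1 ε hε, hcard ε hε, hT ε hε, hg ε hε,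
      H.exists_lab_loose pT r hpT hr hTr hCε, H.up p' hp' (C3 * ε) hC3ε]
      with n h0 h1 hc hTn hgn hcells hup
    have hpow : ∀ t : ℝ, 0 < B.d n ^ t := fun t => rpos B n t
    have hSsl : S ε n ⊆ (G n).slice (k1 ε n) := fun i hi => H.memSlice.2 (h1 i hi)
    obtain ⟨lab, hlab1, hlab2⟩ := hcells (k1 ε n) (S ε n) hSsl hTn
    have hSpos : (0 : ℝ) < ((S ε n).card : ℝ) := (hpow _).trans_le hc
    have hSne : (S ε n).Nonempty := by rw [← Finset.card_pos]; exact_mod_cast hSpos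
    obtain ⟨i2, hi2, hfib⟩ := exists_fibre (S ε n) lab hSne hlab2
    have hfc : (((S ε n).filter fun i => lab i = lab i2).card : ℝ) ≤
        B.d n ^ (-ν p' - D * (C3 * ε)) := by
      refine le_trans ?_ (hup i2 (k0 ε n) (h0 i2 hi2))
      refine mod_cast Finset.card_le_card ?_
      intro i hi
      obtain ⟨b1, b2⟩ := Finset.mem_filter.1 hi
      refine RCfg.mem_box.2 ⟨H.memSlice.2 (h0 i b1), ?_⟩
      refine hgn i2 hi2 i b1 ?_
      have := hlab1 i2 hi2 i b1 b2.symm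
      have e1 : D ^ 5 * (C * ε) = D ^ 5 * C * ε := by ring
      rwa [e1] at this
    calc B.d n ^ (-a + ((D ^ 2 + 1) * C + D * C3 + C) * ε)
        ≤ B.d n ^ (-a + C * ε) := rpow_anti B n (by
          have : 0 ≤ ((D ^ 2 + 1) * C + D * C3) * ε := by positivity
          nlinarith)
      _ ≤ ((S ε n).card : ℝ) := hc
      _ ≤ _ := hfib
      _ ≤ B.d n ^ (-(ν pT - ν r) - (D ^ 2 + 1) * (C * ε)) * B.d n ^ (-ν p' - D * (C3 * ε)) :=
          mul_le_mul_of_nonneg_left hfc (hpow _).le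
      _ = B.d n ^ (-(ν pT - ν r) - ν p' - ((D ^ 2 + 1) * C + D * C3) * ε) := by
          rw [← rpow_add']; congr 1; ring
      _ ≤ B.d n ^ (-(ν pT - ν r) - ν p' - ((D ^ 2 + 1) * C + D * C3 + C) * ε) :=
          rpow_anti B n (by nlinarith)
      _ = _ := by rw [one_mul])
  linarith

/-- **one height which is good for many lines.** -/
theorem pick_height {ι : Type*} [DecidableEq ι] (S : Finset ι) (Z : Finset ℕ) (gd : ι → ℕ → Prop)
    [∀ i, DecidablePred (gd i)] {θ : ℝ} (hZ : Z.Nonempty)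
    (h : ∀ i ∈ S, θ * (Z.card : ℝ) ≤ ((Z.filter fun k => gd i k).card : ℝ)) :
    ∃ k ∈ Z, θ * (S.card : ℝ) ≤ ((S.filter fun i => gd i k).card : ℝ) := by
  classical
  by_contra hcon
  push Not at hcon
  have hZ0 : (0 : ℝ) < Z.card := by exact_mod_cast hZ.card_pos
  have h1 : ∑ i ∈ S, ((Z.filter fun k => gd i k).card : ℝ) =
      ∑ k ∈ Z, ((S.filter fun i => gd i k).card : ℝ) := by
    have : ∑ i ∈ S, (Z.filter fun k => gd i k).card = ∑ k ∈ Z, (S.filter fun i => gd i k).card := by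
      simp only [Finset.card_filter]
      exact Finset.sum_comm
    exact_mod_cast this
  have h2 : (S.card : ℝ) * (θ * (Z.card : ℝ)) ≤ ∑ i ∈ S, ((Z.filter fun k => gd i k).card : ℝ) := by
    calc (S.card : ℝ) * (θ * (Z.card : ℝ)) = ∑ i ∈ S, θ * (Z.card : ℝ) := by
          rw [Finset.sum_const, nsmul_eq_mul]
      _ ≤ _ := Finset.sum_le_sum h
  have h3 : ∑ k ∈ Z, ((S.filter fun i => gd i k).card : ℝ) < (Z.card : ℝ) * (θ * (S.card : ℝ)) := by
    calc ∑ k ∈ Z, ((S.filter fun i => gd i k).card : ℝ) < ∑ k ∈ Z, θ * (S.card : ℝ) :=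
          Finset.sum_lt_sum_of_nonempty hZ hcon
      _ = _ := by rw [Finset.sum_const, nsmul_eq_mul]
  rw [h1] at h2
  nlinarith

/-- **two heights of one pinned fibre**, form of `kauf_R` / `falc_R`.  `S0 ε n` = a `ρ^(C1 ε)`-part of
the loose box `box pS ε` around the pin `(i0 n, k0 n)`, `good ε n i k` = what is known at the second
height `k` (alive is included in `hal`). -/
theorem two_heights_R (H : RUnif B G Leg ν D) (k0 : ℕ → ℕ)
    (S0 : ℝ → ℕ → Finset ℕ) (p' pT r : κ → ℝ) (hp' : p' ∈ Leg) (hpT : pT ∈ Leg) (hr : r ∈ Leg)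
    (hTr : ∀ j, pT j ≤ r j) (Zg : ℕ → Finset ℕ)
    (hZg : ∀ᶠ n in (U : Filter ℕ), (Zg n).Nonempty) {a C1 : ℝ} (hC1 : 0 < C1)
    (hS0 : ∀ ε : ℝ, 0 < ε → ∀ᶠ n in (U : Filter ℕ), ∀ i ∈ S0 ε n, (i, k0 n) ∈ (G n).I)
    (hcard : ∀ ε : ℝ, 0 < ε → ∀ᶠ n in (U : Filter ℕ),
      B.d n ^ (-a + C1 * ε) ≤ ((S0 ε n).card : ℝ))
    (good : ℝ → ℕ → ℕ → ℕ → Prop)
    (hal : ∀ ε : ℝ, 0 < ε → ∀ᶠ n in (U : Filter ℕ), ∀ i ∈ S0 ε n,
      ∀ T ⊆ Zg n, (∀ k ∈ Zg n, (i, k) ∈ (G n).I → good ε n i k → k ∈ T) →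
      B.d n ^ (C1 * ε) * ((Zg n).card : ℝ) ≤ (T.card : ℝ))
    (hT : ∀ ε : ℝ, 0 < ε → ∀ᶠ n in (U : Filter ℕ), ∀ k ∈ Zg n,
      ∀ i ∈ S0 ε n, ∀ i' ∈ S0 ε n, (i, k) ∈ (G n).I → (i', k) ∈ (G n).I →
      (G n).loose pT (C1 * ε) k i i')
    (hgeo : ∀ C2 : ℝ, 0 < C2 → ∃ C3 : ℝ, 0 < C3 ∧ ∀ ε : ℝ, 0 < ε → ∀ᶠ n in (U : Filter ℕ),
      ∀ k ∈ Zg n, ∀ i ∈ S0 ε n, ∀ i' ∈ S0 ε n, (i, k) ∈ (G n).I → (i', k) ∈ (G n).I →
        good ε n i k → good ε n i' k → (G n).loose r (C2 * ε) k i i' →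
        (G n).loose p' (C3 * ε) (k0 n) i i') :
    a - ν p' ≤ ν pT - ν r := by
  classical
  have hex : ∀ ε : ℝ, 0 < ε → ∀ᶠ n in (U : Filter ℕ), ∃ k ∈ Zg n,
      B.d n ^ (C1 * ε) * ((S0 ε n).card : ℝ) ≤
        (((S0 ε n).filter fun i => (i, k) ∈ (G n).I ∧ good ε n i k).card : ℝ) := by
    intro ε hε
    filter_upwards [hZg, hal ε hε] with n hZn haln
    refine pick_height (S0 ε n) (Zg n) (fun i k => (i, k) ∈ (G n).I ∧ good ε n i k) hZn ?_
    intro i hi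
    refine haln i hi _ (Finset.filter_subset _ _) ?_
    intro k hk h1 h2
    exact Finset.mem_filter.2 ⟨hk, h1, h2⟩
  let k1 : ℝ → ℕ → ℕ := fun ε n => if h : ∃ k ∈ Zg n,
      B.d n ^ (C1 * ε) * ((S0 ε n).card : ℝ) ≤
        (((S0 ε n).filter fun i => (i, k) ∈ (G n).I ∧ good ε n i k).card : ℝ) then h.choose else 0
  have hk1 : ∀ ε : ℝ, 0 < ε → ∀ᶠ n in (U : Filter ℕ), k1 ε n ∈ Zg n ∧
      B.d n ^ (C1 * ε) * ((S0 ε n).card : ℝ) ≤
        (((S0 ε n).filter fun i => (i, k1 ε n) ∈ (G n).I ∧ good ε n i (k1 ε n)).card : ℝ) := by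
    intro ε hε
    filter_upwards [hex ε hε] with n hn
    have e : k1 ε n = hn.choose := dif_pos hn
    rw [e]
    exact hn.choose_spec
  set S : ℝ → ℕ → Finset ℕ := fun ε n =>
    (S0 ε n).filter fun i => (i, k1 ε n) ∈ (G n).I ∧ good ε n i (k1 ε n) with hS
  have hmem : ∀ {ε : ℝ} {n i : ℕ}, i ∈ S ε n → i ∈ S0 ε n ∧ (i, k1 ε n) ∈ (G n).I ∧
      good ε n i (k1 ε n) := fun h => by
    obtain ⟨a1, a2, a3⟩ := Finset.mem_filter.1 h
    exact ⟨a1, a2, a3⟩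
  refine two_heights H (fun _ n => k0 n) k1 S p' pT r hp' hpT hr hTr (C := C1 + C1)
    (by positivity) ?_ ?_ ?_ ?_ ?_
  · intro ε hε
    filter_upwards [hS0 ε hε] with n hn i hi
    exact hn i (hmem hi).1
  · intro ε hε
    exact Filter.Eventually.of_forall fun n i hi => (hmem hi).2.1
  · intro ε hε
    filter_upwards [hk1 ε hε, hcard ε hε] with n h1 h2
    calc B.d n ^ (-a + (C1 + C1) * ε) = B.d n ^ (C1 * ε) * B.d n ^ (-a + C1 * ε) := by
          rw [← rpow_add']; congr 1; ring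
      _ ≤ B.d n ^ (C1 * ε) * ((S0 ε n).card : ℝ) :=
          mul_le_mul_of_nonneg_left h2 (rpos B n _).le
      _ ≤ _ := h1.2
  · intro ε hε
    filter_upwards [hk1 ε hε, hT ε hε] with n h1 h2 i hi i' hi'
    exact H.loose_mono (fun _ => le_rfl) (by nlinarith)
      (h2 _ h1.1 i (hmem hi).1 i' (hmem hi').1 (hmem hi).2.1 (hmem hi').2.1)
  · intro C2 hC2
    obtain ⟨C3, hC3, hg⟩ := hgeo C2 hC2
    refine ⟨C3, hC3, fun ε hε => ?_⟩
    filter_upwards [hk1 ε hε, hg ε hε] with n h1 h2 i hi i' hi' hr'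
    exact h2 _ h1.1 i (hmem hi).1 i' (hmem hi').1 (hmem hi).2.1 (hmem hi').2.1
      (hmem hi).2.2 (hmem hi').2.2 hr'




end Crest.Agent.R116.KW420
end

-- ▼ part R116/KW2_420
section

/-!
# R116, K-TEXT II-c, section 1, facts (W2), (W3), part 2: twist inequalities (helper420)

One pinned fibre `box pS ε (i0, k0)` of an `RUnif`, a second height `k ∈ Zg`, a slot `sP` with the
evolution `rel k i l sP = rel k0 i l sP - τ k (V l - V i) + O(ρ^x)` and `|τ k| ≥ ρ^o(1)` for many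
heights of every line:

* `twist_lin` : if `|V l - V i| ≤ ρ^x` implies `p'`-close at `k0`, then `ν pS - ν p' ≤ ν pT - ν r`
  (`r sP ≥ x`).  (W3) for the e-tie: `sP = C_b`, `V = C_a`; (W2) for the e-tie: `sP = N`, `V = X_a`; for
  the G-tie `sP = N`, `V = H`.
* `twist_quad` : the same with `V = c ^ 2` (G-tie, D-tie), `c` = coordinate relative to the pin; loses
  `δ` in the exponent of `c`.
* `le_of_quad` : `δ → 0` for linear rates.
-/

set_option autoImplicit false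
set_option linter.unusedVariables false
set_option linter.unusedSectionVars false

open Filter Topology Finset

namespace Crest.Agent.R116.KW420

open Crest.Agent.R138.Ex926 (Base U)
open Crest.Agent.R136.Gf356

variable {κ : Type} {B : Base} {G : ℕ → RCfg κ} {Leg : Set (κ → ℝ)} {ν : (κ → ℝ) → ℝ}
  {σ R D : ℝ}

/-- two lines of one box are close to each other -/
theorem box_pair (H : RUnif B G Leg ν D) (i0 k0 : ℕ → ℕ)
    (h0 : ∀ᶠ n in (U : Filter ℕ), (i0 n, k0 n) ∈ (G n).I) (p : κ → ℝ) (hp : p ∈ Leg) {ε : ℝ}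
    (hε : 0 < ε) :
    ∀ᶠ n in (U : Filter ℕ), ∀ i ∈ (G n).box p ε (i0 n) (k0 n), ∀ l ∈ (G n).box p ε (i0 n) (k0 n),
      (G n).loose p (D * (D * ε)) (k0 n) i l := by
  have hD := H.D1
  have hD0 : 0 < D := by linarith
  filter_upwards [h0, H.symm p hp ε hε, H.tri p hp (D * ε) (by positivity)] with n h0n hs ht i hi l hl
  obtain ⟨i1, i2⟩ := RCfg.mem_box.1 hi
  obtain ⟨l1, l2⟩ := RCfg.mem_box.1 hl
  have a1 := H.memSlice.1 i1
  have a2 := H.memSlice.1 l1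
  have e1 := hs (k0 n) (i0 n) i h0n a1 i2
  refine ht (k0 n) i (i0 n) l a1 h0n a2 e1 ?_
  exact H.loose_mono (fun _ => le_rfl) (by nlinarith) l2





end Crest.Agent.R116.KW420
end

-- ▼ part R116/KW3_420

/-!
# R116, K-TEXT II-c, section 1, facts (W2), (W3), (W3k), part 3: light chart (helper420)

* `twist_gen` : `twist_lin` with a twist `τ n i k` of the line `i` and a separated function of pairs.
* `hal_of_tw` : thin own twist at few heights of every line ⟹ `hal` with `|τ| ≥ ρ^(C1 ε)`.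
* `evoS_1` .. `evoS_11` : the evolution slot by slot, any level slots `S`.
* `Dir` : the direction of the slab is fixed (unit vector `(u, v)`), own motion of `{7, 8}` included;
  `OwnThin` : linear modulus of the own motion of one slot; `hal_of_own`.
* `loose_pT` : which slots stay fine at the other heights.
* `w3_e`, `w2_e` : e-tie (`7, 8 ∈ S`, `1, 2 ∉ S`), over 710's `LLaw`.
* `w3_k` : kappa-tie (`2 ∈ S`, `7, 8 ∉ S`): the rate of `C` is at most the rate of `{7, 8}`.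
-/

set_option autoImplicit false
set_option linter.unusedVariables false
set_option linter.unusedSectionVars false

open Filter Topology Finset

namespace Crest.Agent.R116.KW420

open Crest.Agent.R138.Ex926 (Base U)
open Crest.Agent.R136.Gf356

section gen

variable {κ : Type} {B : Base} {G : ℕ → RCfg κ} {Leg : Set (κ → ℝ)} {ν : (κ → ℝ) → ℝ}
  {σ R D : ℝ}



end gen

/-! ### the evolution, slot by slot -/

section slots

open Crest.Agent.R116.EvL504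

variable {S : Finset (Fin 12)} (a c : Fin 12 → ℝ)

theorem evoS_1 (h1 : (1 : Fin 12) ∉ S) : evoS S a c 1 = c 1 := by
  simp [evoS, comp, LvS, LnS, hgt, h1]

theorem evoS_2 (h0 : (0 : Fin 12) ∈ S) (h1 : (1 : Fin 12) ∉ S) (h2 : (2 : Fin 12) ∉ S) :
    evoS S a c 2 = c 2 + 2 * (a 0 * c 1) := by
  simp [evoS, comp, LvS, LnS, hgt, h0, h1, h2]; ring



theorem evoS_10 (hS : S ⊆ SL) :
    evoS S a c 10 = c 10 - LvS S a 7 * c 3 - LvS S a 8 * c 4 -
      LvS S a 2 * ((c 3 ^ 2 + c 4 ^ 2) / 2) - 2 * (LvS S a 1 * (c 5 * c 3 + c 6 * c 4 - c 9)) := by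
  have h3 : (3 : Fin 12) ∉ S := fun h => absurd (hS h) (by decide)
  have h4 : (4 : Fin 12) ∉ S := fun h => absurd (hS h) (by decide)
  have h5 : (5 : Fin 12) ∉ S := fun h => absurd (hS h) (by decide)
  have h6 : (6 : Fin 12) ∉ S := fun h => absurd (hS h) (by decide)
  have h9 : (9 : Fin 12) ∉ S := fun h => absurd (hS h) (by decide)
  have h10 : (10 : Fin 12) ∉ S := fun h => absurd (hS h) (by decide)
  unfold evoS
  rw [comp_hgt _ _ (by decide)]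
  simp [comp, LvS, LnS, h3, h4, h5, h6, h9, h10]

theorem evoS_11 (hS : S ⊆ SL) (h0 : (0 : Fin 12) ∈ S) :
    evoS S a c 11 = c 11 - a 0 * c 10 - LvS S a 7 * (c 5 - a 0 * c 3) -
      LvS S a 8 * (c 6 - a 0 * c 4) -
      LvS S a 2 * (c 9 - a 0 * ((c 3 ^ 2 + c 4 ^ 2) / 2)) -
      LvS S a 1 * (c 5 ^ 2 + c 6 ^ 2 - 2 * (a 0 * (c 5 * c 3 + c 6 * c 4 - c 9))) := by
  have h3 : (3 : Fin 12) ∉ S := fun h => absurd (hS h) (by decide)
  have h4 : (4 : Fin 12) ∉ S := fun h => absurd (hS h) (by decide)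
  have h5 : (5 : Fin 12) ∉ S := fun h => absurd (hS h) (by decide)
  have h6 : (6 : Fin 12) ∉ S := fun h => absurd (hS h) (by decide)
  have h9 : (9 : Fin 12) ∉ S := fun h => absurd (hS h) (by decide)
  have h10 : (10 : Fin 12) ∉ S := fun h => absurd (hS h) (by decide)
  have h11 : (11 : Fin 12) ∉ S := fun h => absurd (hS h) (by decide)
  unfold evoS
  rw [comp_hgt _ _ (by decide)]
  simp [comp, LvS, LnS, h0, h3, h4, h5, h6, h9, h10, h11]

end slots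

/-! ### the three algebraic separations -/

section alg

/-- a thick twist separates -/
theorem div_thick {t V r β : ℝ} {m : ℕ} (hr : 0 < r) (hβ : 8 ≤ β) (ht : β⁻¹ ≤ |t|)
    (h : |t * V| ≤ r * β ^ m) : |V| ≤ r * β ^ (m + 1) := by
  have hβ0 : 0 < β := by linarith
  rw [abs_mul] at h
  have h1 : β⁻¹ * |V| ≤ r * β ^ m := (mul_le_mul_of_nonneg_right ht (abs_nonneg _)).trans h
  have h2 := mul_le_mul_of_nonneg_left h1 hβ0.le
  rw [← mul_assoc, mul_inv_cancel₀ hβ0.ne', one_mul] at h2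
  calc |V| ≤ β * (r * β ^ m) := h2
    _ = r * β ^ (m + 1) := by ring

/-- from the rotated coordinates back -/
theorem rot_back {u v c d r β : ℝ} {m : ℕ} (hr : 0 < r) (hβ : 8 ≤ β) (huv : u ^ 2 + v ^ 2 = 1)
    (h1 : |u * c + v * d| ≤ r * β) (h2 : |-v * c + u * d| ≤ r * β ^ (m + 1)) :
    |c| ≤ r * β ^ (m + 2) ∧ |d| ≤ r * β ^ (m + 2) := by
  have hβ0 : 0 < β := by linarith
  have hu : |u| ≤ 1 := abs_le.2 ⟨by nlinarith [sq_nonneg v], by nlinarith [sq_nonneg v]⟩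
  have hv : |v| ≤ 1 := abs_le.2 ⟨by nlinarith [sq_nonneg u], by nlinarith [sq_nonneg u]⟩
  have e1 : c = u * (u * c + v * d) - v * (-v * c + u * d) := by linear_combination (-c) * huv
  have e2 : d = v * (u * c + v * d) + u * (-v * c + u * d) := by linear_combination (-d) * huv
  have hm : (1 : ℝ) ≤ β ^ m := one_le_pow₀ (by linarith)
  have g1 : r * β ≤ r * β ^ (m + 1) := by
    rw [pow_succ]
    have : 0 < r * β := by positivity
    nlinarith
  have g2 : 2 * (r * β ^ (m + 1)) ≤ r * β ^ (m + 2) := by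
    have e : r * β ^ (m + 2) = β * (r * β ^ (m + 1)) := by ring
    rw [e]
    have : 0 < r * β ^ (m + 1) := by positivity
    nlinarith
  have m1 : |u * (u * c + v * d)| ≤ r * β := by
    rw [abs_mul]
    exact (mul_le_mul hu h1 (abs_nonneg _) zero_le_one).trans_eq (one_mul _)
  have m2 : |v * (-v * c + u * d)| ≤ r * β ^ (m + 1) := by
    rw [abs_mul]
    exact (mul_le_mul hv h2 (abs_nonneg _) zero_le_one).trans_eq (one_mul _)
  have m3 : |v * (u * c + v * d)| ≤ r * β := by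
    rw [abs_mul]
    exact (mul_le_mul hv h1 (abs_nonneg _) zero_le_one).trans_eq (one_mul _)
  have m4 : |u * (-v * c + u * d)| ≤ r * β ^ (m + 1) := by
    rw [abs_mul]
    exact (mul_le_mul hu h2 (abs_nonneg _) zero_le_one).trans_eq (one_mul _)
  constructor
  · rw [e1]
    refine (abs_sub _ _).trans ?_
    linarith
  · rw [e2]
    refine (abs_add_le _ _).trans ?_
    linarith

/-- the common part of `alg_w3`, `alg_w2` -/
theorem alg_dir {u v a7 a8 c d r β : ℝ} {m : ℕ} (hr : 0 < r) (hβ : 8 ≤ β) (hm : 2 ≤ m)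
    (huv : u ^ 2 + v ^ 2 = 1) (h7 : |a7| ≤ β) (h8 : |a8| ≤ β) (h1 : |u * c + v * d| ≤ r * β)
    (h2 : |a7 * c + a8 * d| ≤ 5 * (r * β ^ m)) (hτ : β⁻¹ ≤ |-v * a7 + u * a8|) :
    |c| ≤ r * β ^ (m + 3) ∧ |d| ≤ r * β ^ (m + 3) := by
  have hβ0 : 0 < β := by linarith
  have hu : |u| ≤ 1 := abs_le.2 ⟨by nlinarith [sq_nonneg v], by nlinarith [sq_nonneg v]⟩
  have hv : |v| ≤ 1 := abs_le.2 ⟨by nlinarith [sq_nonneg u], by nlinarith [sq_nonneg u]⟩
  have e : (-v * a7 + u * a8) * (-v * c + u * d) =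
      (a7 * c + a8 * d) - (u * a7 + v * a8) * (u * c + v * d) := by
    linear_combination (a7 * c + a8 * d) * huv
  have g1 : |u * a7 + v * a8| ≤ 2 * β := by
    refine (abs_add_le _ _).trans ?_
    rw [abs_mul, abs_mul]
    have t1 := mul_le_mul hu h7 (abs_nonneg _) zero_le_one
    have t2 := mul_le_mul hv h8 (abs_nonneg _) zero_le_one
    linarith
  have g2 : |(u * a7 + v * a8) * (u * c + v * d)| ≤ 2 * (r * β ^ 2) := by
    rw [abs_mul]
    refine (mul_le_mul g1 h1 (abs_nonneg _) (by linarith)).trans_eq (by ring)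
  have g3 : r * β ^ 2 ≤ r * β ^ m :=
    mul_le_mul_of_nonneg_left (pow_le_pow_right₀ (by linarith) hm) hr.le
  have g4 : |(-v * a7 + u * a8) * (-v * c + u * d)| ≤ r * β ^ (m + 1) := by
    rw [e]
    refine (abs_sub _ _).trans ?_
    have e2 : r * β ^ (m + 1) = β * (r * β ^ m) := by ring
    rw [e2]
    have : 0 < r * β ^ m := by positivity
    nlinarith
  exact rot_back (m := m + 1) hr hβ huv h1 (div_thick hr hβ hτ g4)

theorem alg_w3 {u v a7 a8 c3 c4 c10 q r β : ℝ} (hr : 0 < r) (hβ : 8 ≤ β)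
    (huv : u ^ 2 + v ^ 2 = 1) (h7 : |a7| ≤ β) (h8 : |a8| ≤ β) (h1 : |u * c3 + v * c4| ≤ r * β)
    (h10 : |c10| ≤ r * β) (hq : |q| ≤ r * β) (hE : |q - (c10 - a7 * c3 - a8 * c4)| ≤ r * β)
    (hτ : β⁻¹ ≤ |-v * a7 + u * a8|) : |c3| ≤ r * β ^ 5 ∧ |c4| ≤ r * β ^ 5 := by
  refine alg_dir (m := 2) hr hβ le_rfl huv h7 h8 h1 ?_ hτ
  have e : a7 * c3 + a8 * c4 = c10 - q + (q - (c10 - a7 * c3 - a8 * c4)) := by ring
  rw [e]
  have t1 := abs_add_le (c10 - q) (q - (c10 - a7 * c3 - a8 * c4))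
  have t2 := abs_sub c10 q
  have : 0 < r * β := mul_pos hr (by linarith)
  have e2 : r * β ^ 2 = β * (r * β) := by ring
  rw [e2]
  nlinarith


theorem alg_w3k {a1 a2 c c' b q r β : ℝ} (hr : 0 < r) (hβ : 8 ≤ β) (h1 : |a1| ≤ β)
    (hc' : |c'| ≤ r * β) (hb : |b| ≤ r * β) (hq : |q| ≤ r * β)
    (hE : |q - (b + a2 * c + 2 * (a1 * c'))| ≤ r * β) (hτ : β⁻¹ ≤ |a2|) : |c| ≤ r * β ^ 4 := by
  have hβ0 : 0 < β := by linarith
  refine div_thick (m := 3) hr hβ hτ ?_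
  have e : a2 * c = q - b - (q - (b + a2 * c + 2 * (a1 * c'))) - 2 * (a1 * c') := by ring
  have hrb : 0 < r * β := mul_pos hr hβ0
  have t3 : |2 * (a1 * c')| ≤ 2 * (r * β ^ 2) := by
    rw [abs_mul, abs_mul, abs_of_pos (two_pos : (0 : ℝ) < 2)]
    refine mul_le_mul_of_nonneg_left ?_ two_pos.le
    exact (mul_le_mul h1 hc' (abs_nonneg _) hβ0.le).trans_eq (by ring)
  have g1 : 8 * (r * β) ≤ r * β ^ 2 := by
    have e2 : r * β ^ 2 = β * (r * β) := by ring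
    rw [e2]
    exact mul_le_mul_of_nonneg_right hβ hrb.le
  have g2 : 8 * (r * β ^ 2) ≤ r * β ^ 3 := by
    have e2 : r * β ^ 3 = β * (r * β ^ 2) := by ring
    rw [e2]
    exact mul_le_mul_of_nonneg_right hβ (by positivity)
  rw [e]
  have s1 := abs_sub (q - b - (q - (b + a2 * c + 2 * (a1 * c')))) (2 * (a1 * c'))
  have s2 := abs_sub (q - b) (q - (b + a2 * c + 2 * (a1 * c')))
  have s3 := abs_sub q b
  linarith

end alg

/-! ### the facts over the laws of the light chart -/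

section inst

open Crest.Agent.R116.EvL504 (evoS LvS SL)
open Crest.Agent.R116.Kr710 (LLaw)

/-- **the direction of the slab is fixed**: `(u, v)` is orthogonal to `{3, 4}`, `{5, 6}` and to the own
motion of `{7, 8}`. -/
structure Dir (B : Base) (G : ℕ → RCfg (Fin 12)) (own : ℕ → ℕ → ℕ → ℕ → Fin 12 → ℝ)
    (u v : ℕ → ℝ) (x : ℝ) : Prop where
  unit : ∀ n, u n ^ 2 + v n ^ 2 = 1
  tc : ∀ ε : ℝ, 0 < ε → ∀ᶠ n in (U : Filter ℕ), ∀ k i l, (i, k) ∈ (G n).I → (l, k) ∈ (G n).I →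
    |u n * (G n).rel k i l 3 + v n * (G n).rel k i l 4| ≤ B.d n ^ (x - ε)
  tx : ∀ ε : ℝ, 0 < ε → ∀ᶠ n in (U : Filter ℕ), ∀ k i l, (i, k) ∈ (G n).I → (l, k) ∈ (G n).I →
    |u n * (G n).rel k i l 5 + v n * (G n).rel k i l 6| ≤ B.d n ^ (x - ε)
  tow : ∀ ε : ℝ, 0 < ε → ∀ᶠ n in (U : Filter ℕ), ∀ i k0 k, (i, k0) ∈ (G n).I →
    (i, k) ∈ (G n).I → |u n * own n i k0 k 7 + v n * own n i k0 k 8| ≤ B.d n ^ (x - ε)

/-- **linear modulus of the own motion of the slot `j`** (thresholds `ρ^t`, `t ≤ x1`) -/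
def OwnThin (B : Base) (G : ℕ → RCfg (Fin 12)) (own : ℕ → ℕ → ℕ → ℕ → Fin 12 → ℝ) (j : Fin 12)
    (γ x1 : ℝ) : Prop :=
  ∀ t : ℝ, 0 < t → t ≤ x1 → ∀ ε : ℝ, 0 < ε → ∀ᶠ n in (U : Filter ℕ), ∀ i k0, (i, k0) ∈ (G n).I →
    ∀ T ⊆ (G n).Z, (∀ k ∈ T, (i, k) ∈ (G n).I ∧ |own n i k0 k j| ≤ B.d n ^ t) →
    (T.card : ℝ) ≤ B.d n ^ (γ * t - ε) * ((G n).Z.card : ℝ)

variable {B : Base} {G : ℕ → RCfg (Fin 12)} {Leg : Set (Fin 12 → ℝ)} {ν : (Fin 12 → ℝ) → ℝ}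
  {σ R D x0 : ℝ} {S : Finset (Fin 12)} {own : ℕ → ℕ → ℕ → ℕ → Fin 12 → ℝ}

/-- **`hal` from the linear modulus** -/
theorem hal_of_own (H : RModel B G σ R Leg ν D) {j : Fin 12} {γ x1 : ℝ} (hγ : 0 < γ)
    (hx1 : 0 < x1) (hx0 : 0 < x0) (hO : OwnThin B G own j γ x1) (k0 : ℕ → ℕ)
    (τ : ℕ → ℕ → ℕ → ℝ)
    (hcmp : ∀ ε : ℝ, 0 < ε → ∀ᶠ n in (U : Filter ℕ), ∀ i k, (i, k0 n) ∈ (G n).I →
      (i, k) ∈ (G n).I → |own n i (k0 n) k j| ≤ |τ n i k| + B.d n ^ (x0 - ε)) :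
    ∃ C1 : ℝ, 2 ≤ C1 ∧ ∀ ε : ℝ, 0 < ε → ∀ᶠ n in (U : Filter ℕ), ∀ i, (i, k0 n) ∈ (G n).I →
      ∀ T ⊆ (G n).Z,
      (∀ k ∈ (G n).Z, (i, k) ∈ (G n).I → B.d n ^ (C1 * ε) ≤ |τ n i k| → k ∈ T) →
      B.d n ^ (C1 * ε) * ((G n).Z.card : ℝ) ≤ (T.card : ℝ) := by
  classical
  obtain ⟨C1, hC⟩ : ∃ C1 : ℝ, C1 = 2 + 3 / γ := ⟨_, rfl⟩
  have h3γ : 0 < 3 / γ := by positivity
  have hC2 : 2 ≤ C1 := by linarith
  have hγC : γ * (C1 - 1) = γ + 3 := by rw [hC]; field_simp; ring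
  refine ⟨C1, hC2, fun ε hε => ?_⟩
  set e' : ℝ := min ε (min x0 x1 / (2 * C1)) with he'
  have hm : 0 < min x0 x1 := lt_min hx0 hx1
  have he'0 : 0 < e' := lt_min hε (by positivity)
  have he'1 : e' ≤ ε := min_le_left _ _
  have he'2 : 2 * C1 * e' ≤ min x0 x1 := by
    have h1 : e' ≤ min x0 x1 / (2 * C1) := min_le_right _ _
    rw [le_div_iff₀ (by positivity)] at h1
    linarith
  have he3 : 2 * C1 * e' ≤ x0 := he'2.trans (min_le_left _ _)
  have he4 : 2 * C1 * e' ≤ x1 := he'2.trans (min_le_right _ _)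
  have t0 : 0 < (C1 - 1) * e' := by
    have : 0 < C1 - 1 := by linarith
    positivity
  have t1 : (C1 - 1) * e' ≤ x1 := by nlinarith
  filter_upwards [H.line e' he'0, hO _ t0 t1 e' he'0, ev_const_le B he'0 2, hcmp e' he'0]
    with n h1 h2 h3 h4 i hi T hT1 hT2
  have hiL : i ∈ (G n).L := (H.memL hi)
  have hpow : ∀ t : ℝ, 0 < B.d n ^ t := fun t => rpos B n t
  have b0 : 2 * B.d n ^ (C1 * e') ≤ B.d n ^ ((C1 - 1) * e') := by
    have e : B.d n ^ ((C1 - 1) * e') = B.d n ^ (-e') * B.d n ^ (C1 * e') := by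
      rw [← rpow_add']; congr 1; ring
    rw [e]
    exact mul_le_mul_of_nonneg_right h3 (hpow _).le
  have b1 : B.d n ^ (x0 - e') ≤ B.d n ^ (C1 * e') := rpow_anti B n (by nlinarith)
  have a1 := h1 i hiL
  have a2 := h2 i (k0 n) hi
    (((G n).Z).filter fun k => (i, k) ∈ (G n).I ∧ |τ n i k| < B.d n ^ (C1 * e'))
    (Finset.filter_subset _ _) (fun k hk => by
      obtain ⟨c1, c2, c3⟩ := Finset.mem_filter.1 hk
      refine ⟨c2, (h4 i k hi c2).trans ?_⟩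
      linarith)
  have a3 : ((G n).hts i).card ≤ T.card +
      (((G n).Z).filter fun k => (i, k) ∈ (G n).I ∧ |τ n i k| < B.d n ^ (C1 * e')).card := by
    refine le_trans (Finset.card_le_card ?_) (Finset.card_union_le _ _)
    intro k hk
    obtain ⟨b1, b2⟩ := RCfg.mem_hts.1 hk
    rcases lt_or_ge |τ n i k| (B.d n ^ (C1 * e')) with hlt | hge
    · exact Finset.mem_union_right _ (Finset.mem_filter.2 ⟨b1, b2, hlt⟩)
    · refine Finset.mem_union_left _ (hT2 k b1 b2 (le_trans ?_ hge))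
      exact rpow_anti B n (by nlinarith)
  have a3' : (((G n).hts i).card : ℝ) ≤ (T.card : ℝ) +
      (((((G n).Z).filter fun k => (i, k) ∈ (G n).I ∧ |τ n i k| < B.d n ^ (C1 * e')).card : ℕ) :
        ℝ) := by
    exact_mod_cast a3
  have hZ : (0 : ℝ) ≤ ((G n).Z.card : ℝ) := Nat.cast_nonneg _
  have a4 : B.d n ^ (γ * ((C1 - 1) * e') - e') ≤ B.d n ^ (2 * e') := rpow_anti B n (by
    rw [← mul_assoc, hγC]
    nlinarith)
  have a5 : 2 * B.d n ^ (2 * e') ≤ B.d n ^ e' := by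
    have : B.d n ^ e' = B.d n ^ (-e') * B.d n ^ (2 * e') := by
      rw [← rpow_add']; congr 1; ring
    rw [this]
    exact mul_le_mul_of_nonneg_right h3 (hpow _).le
  have a6 : B.d n ^ (C1 * ε) ≤ B.d n ^ (2 * e') := rpow_anti B n (by nlinarith)
  have m1 := mul_le_mul_of_nonneg_right a4 hZ
  have m2 := mul_le_mul_of_nonneg_right a5 hZ
  have m3 := mul_le_mul_of_nonneg_right a6 hZ
  linarith

/-- all bounds of one pair of lines at two heights: `a` = own motion, `c` = position at the pin,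
`w` = position at the other height -/
structure Ev (S : Finset (Fin 12)) (pS : Fin 12 → ℝ) (ρ x0 β : ℝ) (a c w : Fin 12 → ℝ) :
    Prop where
  β8 : 8 ≤ β
  cS : ∀ s ∈ S, c s = 0
  wS : ∀ s ∈ S, w s = 0
  a1 : ∀ s, |a s| ≤ β
  w1 : ∀ s, |w s| ≤ β
  cb : ∀ s, |c s| ≤ ρ ^ pS s * β
  e : ∀ s, s ∉ S → |w s - evoS S a c s| ≤ ρ ^ x0 * β

theorem exists_Ev (H : RUnif B G Leg ν D) (L : LLaw B G S own x0) {i0 k0 : ℕ → ℕ}
    (h0 : ∀ᶠ n in (U : Filter ℕ), (i0 n, k0 n) ∈ (G n).I) {pS : Fin 12 → ℝ} (lS : pS ∈ Leg)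
    {K : ℝ} (hK : D * D + 1 ≤ K) {ε : ℝ} (hε : 0 < ε) : ∀ᶠ n in (U : Filter ℕ), ∀ k,
      ∀ i ∈ (G n).box pS ε (i0 n) (k0 n), ∀ l ∈ (G n).box pS ε (i0 n) (k0 n),
      (i, k) ∈ (G n).I → (l, k) ∈ (G n).I →
      Ev S pS (B.d n) x0 (B.d n ^ (-(K * ε))) (own n i (k0 n) k) ((G n).rel (k0 n) i l)
        ((G n).rel k i l) := by
  have hD := H.D1
  filter_upwards [box_pair H i0 k0 h0 pS lS hε, L.bd ε hε, L.ownbd ε hε, L.evo ε hε,
    ev_const_le B hε 8] with n g1 g2 g3 g4 g8 k i hi l hl h1 h2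
  have I1 := H.memSlice.1 (RCfg.mem_box.1 hi).1
  have I2 := H.memSlice.1 (RCfg.mem_box.1 hl).1
  have hK1 : 1 ≤ K := by nlinarith
  have e1 : B.d n ^ (-ε) ≤ B.d n ^ (-(K * ε)) := rpow_anti B n (by nlinarith)
  refine ⟨g8.trans e1, fun s hs => L.relS n _ _ _ s hs, fun s hs => L.relS n _ _ _ s hs,
    fun s => (g3 i _ _ I1 h1 s).trans e1, fun s => (g2 _ _ _ h1 h2 s).trans e1, fun s => ?_,
    fun s hs => ?_⟩
  · have := g1 i hi l hl s
    rw [H.base n] at this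
    refine this.trans ?_
    rw [← rpow_add']
    exact rpow_anti B n (by nlinarith)
  · refine (g4 _ _ _ _ I1 I2 h1 h2 s hs).trans ?_
    rw [← rpow_add']
    exact rpow_anti B n (by nlinarith)

/-- **which slots are still fine at the other heights** -/
def Low (S : Finset (Fin 12)) (pS pT : Fin 12 → ℝ) (x0 : ℝ) : Prop :=
  ∀ j, j ∈ S ∨ pT j ≤ 0 ∨ (j = 1 ∧ pT j ≤ pS 1 ∧ pT j ≤ x0) ∨
    (j = 2 ∧ (1 : Fin 12) ∉ S ∧ pT j ≤ pS 2 ∧ pT j ≤ pS 1 ∧ pT j ≤ x0)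

theorem Ev.low {pS pT : Fin 12 → ℝ} {ρ β : ℝ} {a c w : Fin 12 → ℝ} (hρ : 0 < ρ) (hρ1 : ρ ≤ 1)
    (h : Ev S pS ρ x0 β a c w) (h0 : (0 : Fin 12) ∈ S) (hL : Low S pS pT x0) (j : Fin 12) :
    |w j| ≤ ρ ^ pT j * β ^ 3 := by
  have hβ := h.β8
  have hβ0 : 0 < β := by linarith
  have p := fun t : ℝ => Real.rpow_pos_of_pos hρ t
  have mono : ∀ {s t : ℝ}, s ≤ t → ρ ^ t ≤ ρ ^ s := fun hst =>
    Real.rpow_le_rpow_of_exponent_ge hρ hρ1 hst
  have q1 : β ≤ β ^ 3 := by nlinarith [sq_nonneg β, mul_pos hβ0 hβ0]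
  have q2 : 4 * β ^ 2 ≤ β ^ 3 := by nlinarith [mul_pos hβ0 hβ0]
  have q3 : β ≤ β ^ 2 := by nlinarith
  by_cases hjS : j ∈ S
  · rw [h.wS j hjS, abs_zero]
    have := p (pT j)
    positivity
  rcases hL j with h1 | h1 | ⟨rfl, h1, h2⟩ | ⟨rfl, h3, h4, h5, h6⟩
  · exact absurd h1 hjS
  · refine (h.w1 j).trans ?_
    have e1 : (1 : ℝ) ≤ ρ ^ pT j := by
      have := mono h1
      rwa [Real.rpow_zero] at this
    nlinarith
  · have e1 := h.e 1 hjS
    rw [evoS_1 _ _ hjS] at e1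
    have e2 := h.cb 1
    have e3 : |w 1| ≤ |w 1 - c 1| + |c 1| := by
      have := abs_add_le (w 1 - c 1) (c 1)
      rwa [sub_add_cancel] at this
    have e4 := mul_le_mul_of_nonneg_right (mono h1) hβ0.le
    have e5 := mul_le_mul_of_nonneg_right (mono h2) hβ0.le
    have e6 : 2 * β ≤ β ^ 3 := by nlinarith
    have e7 := mul_le_mul_of_nonneg_left e6 (p (pT 1)).le
    linarith
  · have e1 := h.e 2 hjS
    rw [evoS_2 _ _ h0 h3 hjS] at e1
    have e2 := h.cb 2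
    have e3 : |w 2| ≤ |w 2 - (c 2 + 2 * (a 0 * c 1))| + |c 2| + 2 * |a 0 * c 1| := by
      have t1 := abs_add_le (w 2 - (c 2 + 2 * (a 0 * c 1))) (c 2 + 2 * (a 0 * c 1))
      rw [sub_add_cancel] at t1
      have t2 := abs_add_le (c 2) (2 * (a 0 * c 1))
      rw [abs_mul 2, abs_of_pos (two_pos : (0 : ℝ) < 2)] at t2
      linarith
    have e4 := mul_le_mul_of_nonneg_right (mono h4) hβ0.le
    have e5 := mul_le_mul_of_nonneg_right (mono h6) hβ0.le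
    have e8 : |a 0 * c 1| ≤ ρ ^ pT 2 * β ^ 2 := by
      rw [abs_mul]
      have t1 := mul_le_mul (h.a1 0) (h.cb 1) (abs_nonneg _) hβ0.le
      have t2 := mul_le_mul_of_nonneg_right (mono h5) (sq_nonneg β)
      linarith
    have e6 : 2 * β + 2 * β ^ 2 ≤ β ^ 3 := by nlinarith
    have e7 := mul_le_mul_of_nonneg_left e6 (p (pT 2)).le
    linarith

/-- `|τ| ≥ β⁻¹` separates `p'`: the hypothesis of `twist_core` at one pair -/
def Sep (B : Base) (G : ℕ → RCfg (Fin 12)) (pS p' r : Fin 12 → ℝ) (i0 k0 : ℕ → ℕ)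
    (τ : ℕ → ℕ → ℕ → ℝ) (K0 : ℝ) (m : ℕ) : Prop :=
  ∀ K : ℝ, K0 ≤ K → ∀ ε : ℝ, 0 < ε → ∀ᶠ n in (U : Filter ℕ), ∀ k,
    ∀ i ∈ (G n).box pS ε (i0 n) (k0 n), ∀ l ∈ (G n).box pS ε (i0 n) (k0 n),
    (i, k) ∈ (G n).I → (l, k) ∈ (G n).I → (B.d n ^ (-(K * ε)))⁻¹ ≤ |τ n i k| →
    (∀ s, |(G n).rel k i l s| ≤ B.d n ^ r s * B.d n ^ (-(K * ε))) →
    ∀ s, |(G n).rel (k0 n) i l s| ≤ B.d n ^ p' s * (B.d n ^ (-(K * ε))) ^ m

theorem pow_eps (B : Base) (n : ℕ) (t K ε : ℝ) (m : ℕ) :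
    B.d n ^ t * (B.d n ^ (-(K * ε))) ^ m = B.d n ^ (t - (m : ℝ) * K * ε) := by
  rw [← Real.rpow_natCast, ← Real.rpow_mul (B.pos n).le, ← rpow_add']
  congr 1; ring


/-- the tied components against the twist -/
theorem Dir.cmp {u v : ℕ → ℝ} (T : Dir B G own u v x0) (k0 : ℕ → ℕ) {j : Fin 12}
    (hj : j = 7 ∨ j = 8) : ∀ ε : ℝ, 0 < ε → ∀ᶠ n in (U : Filter ℕ), ∀ i k, (i, k0 n) ∈ (G n).I →
      (i, k) ∈ (G n).I → |own n i (k0 n) k j| ≤
        |-v n * own n i (k0 n) k 7 + u n * own n i (k0 n) k 8| + B.d n ^ (x0 - ε) := by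
  intro ε hε
  filter_upwards [T.tow ε hε] with n hn i k h1 h2
  have huv := T.unit n
  have hu : |u n| ≤ 1 := abs_le.2 ⟨by nlinarith [sq_nonneg (v n)], by nlinarith [sq_nonneg (v n)]⟩
  have hv : |v n| ≤ 1 := abs_le.2 ⟨by nlinarith [sq_nonneg (u n)], by nlinarith [sq_nonneg (u n)]⟩
  have a1 := hn i _ _ h1 h2
  set a7 := own n i (k0 n) k 7
  set a8 := own n i (k0 n) k 8
  rcases hj with rfl | rfl
  · have e : a7 = u n * (u n * a7 + v n * a8) - v n * (-v n * a7 + u n * a8) := by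
      linear_combination (-a7) * huv
    show |a7| ≤ _
    rw [e]
    refine (abs_sub _ _).trans ?_
    rw [abs_mul, abs_mul (v n)]
    have t1 := mul_le_mul hu a1 (abs_nonneg _) zero_le_one
    have t2 := mul_le_mul_of_nonneg_right hv (abs_nonneg (-v n * a7 + u n * a8))
    rw [← e]
    linarith
  · have e : a8 = v n * (u n * a7 + v n * a8) + u n * (-v n * a7 + u n * a8) := by
      linear_combination (-a8) * huv
    show |a8| ≤ _
    rw [e]
    refine (abs_add_le _ _).trans ?_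
    rw [abs_mul, abs_mul (u n)]
    have t1 := mul_le_mul hv a1 (abs_nonneg _) zero_le_one
    have t2 := mul_le_mul_of_nonneg_right hu (abs_nonneg (-v n * a7 + u n * a8))
    rw [← e]
    linarith








end inst

end Crest.Agent.R116.KW420
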