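import Crest.Agent.R116.Kr7_710
import Crest.Agent.R116.EvL4_504
import Crest.Agent.R116.Kr8_710
import Crest.Agent.R116.ThinD_954
import Crest.Agent.R116.SgF_665
import Crest.Agent.R116.Kr13_710

-- ▼ part R116/Kf1_330
section

/-!
# R116, K side (helper330): K1, F1, K2, F2 at any legal base point, part 1: laws of the slots

For `G = W.cfg E n` with `Reg W E n`, `WL W K tp`, `ρ = B'.d n`:

* `coc3 .. coc6` (one height), `coc10`, `coc11` (one height, `C, X, H` fine);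
* `evo3 .. evo6`, `evo9`, `evo10`, `evo11` : evolution between two heights; `evo5`, `evo6` need the
  tight wall `X 5 = X 0 + X 3` (`X 6 = X 0 + X 4`), `evo11` the tight wall `X 11 = X 0 + X 10` and
  `C, X, H` fine; nothing about the flags, no slack wall.
-/

set_option autoImplicit false
set_option linter.unusedVariables false
set_option linter.unusedSectionVars false

open Filter Topology Finset

namespace Crest.Agent.R116.Kf330

open Crest.Agent.R138.Ex926 (Base U)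
open Crest.Agent.R136.Net191 Crest.Agent.R136.Qg926 Crest.Agent.R136.Gf356
open Crest.Agent.R116.ChL222 Crest.Agent.R116.PL504 Crest.Agent.R116.EvL504

variable {ι : ℕ → Type*} [∀ n, DecidableEq (ι n)]

/-- forget `C, X, H` -/
def zr (c : Fin 12 → ℝ) : Fin 12 → ℝ :=
  ![c 0, c 1, c 2, 0, 0, 0, 0, c 7, c 8, 0, c 10, c 11]

section

variable {W : Wnd 12 ι} {K tp : ℝ} (h : WL W K tp) {n : ℕ}

include h

/-- the composition law is Lipschitz in the second argument, all legal base points -/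
theorem compW_lip (g : W.Good n) {a c c' : Fin 12 → ℝ} {e : ℝ} (he : 0 ≤ e)
    (ha : ∀ k, |a k| ≤ 1) (hc : ∀ k, |c k| ≤ 1) (hc' : ∀ k, |c' k| ≤ 1)
    (h2 : ∀ k, |c k - c' k| ≤ e) (k : Fin 12) :
    |compW W n a c k - compW W n a c' k| ≤ 48 * e := by
  have hs := fun s => h.side_pos' n s
  have b : ∀ (u : Fin 12 → ℝ), (∀ k, |u k| ≤ 1) → ∀ k, |side W n k * u k| ≤ side W n k := by
    intro u hu k
    rw [abs_mul, abs_of_pos (hs k)]
    exact mul_le_of_le_one_right (hs k).le (hu k)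
  have key := comp_lipD (h.sides g) he (b a ha) (b a ha) (b c hc) (b c' hc')
    (fun k => by rw [sub_self, abs_zero]; exact mul_nonneg he (hs k).le)
    (fun k => by
      rw [← mul_sub, abs_mul, abs_of_pos (hs k), mul_comm]
      exact mul_le_mul_of_nonneg_right (h2 k) (hs k).le) k
  unfold compW
  rw [← sub_div, abs_div, abs_of_pos (hs k), div_le_iff₀ (hs k)]
  linarith

theorem compW_3 (a c : Fin 12 → ℝ) : compW W n a c 3 = a 3 + c 3 := by
  have hs := (h.side_pos' n 3).ne'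
  unfold compW
  have e : comp (fun j => side W n j * a j) (fun j => side W n j * c j) 3 =
    side W n 3 * a 3 + side W n 3 * c 3 := rfl
  rw [e]; field_simp

theorem compW_4 (a c : Fin 12 → ℝ) : compW W n a c 4 = a 4 + c 4 := by
  have hs := (h.side_pos' n 4).ne'
  unfold compW
  have e : comp (fun j => side W n j * a j) (fun j => side W n j * c j) 4 =
    side W n 4 * a 4 + side W n 4 * c 4 := rfl
  rw [e]; field_simp

theorem compW_5 (a c : Fin 12 → ℝ) : compW W n a c 5 =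
    a 5 + c 5 - side W n 0 * side W n 3 / side W n 5 * (a 0 * c 3) := by
  have hs := (h.side_pos' n 5).ne'
  unfold compW
  have e : comp (fun j => side W n j * a j) (fun j => side W n j * c j) 5 =
    side W n 5 * a 5 + side W n 5 * c 5 - side W n 0 * a 0 * (side W n 3 * c 3) := rfl
  rw [e]; field_simp

theorem compW_6 (a c : Fin 12 → ℝ) : compW W n a c 6 =
    a 6 + c 6 - side W n 0 * side W n 4 / side W n 6 * (a 0 * c 4) := by
  have hs := (h.side_pos' n 6).ne'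
  unfold compW
  have e : comp (fun j => side W n j * a j) (fun j => side W n j * c j) 6 =
    side W n 6 * a 6 + side W n 6 * c 6 - side W n 0 * a 0 * (side W n 4 * c 4) := rfl
  rw [e]; field_simp

theorem compW_10 (a c : Fin 12 → ℝ) : compW W n a (zr c) 10 = a 10 + c 10 := by
  have hs := (h.side_pos' n 10).ne'
  unfold compW
  have e : comp (fun j => side W n j * a j) (fun j => side W n j * zr c j) 10 =
    side W n 10 * a 10 + side W n 10 * c 10 - side W n 7 * a 7 * (side W n 3 * 0) -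
      side W n 8 * a 8 * (side W n 4 * 0) -
      side W n 2 * a 2 * (((side W n 3 * 0) ^ 2 + (side W n 4 * 0) ^ 2) / 2) -
      2 * (side W n 1 * a 1 * ((side W n 5 * 0) * (side W n 3 * 0) +
        (side W n 6 * 0) * (side W n 4 * 0) - side W n 9 * 0)) := rfl
  rw [e]; field_simp; ring

theorem compW_9 (a c : Fin 12 → ℝ) : compW W n a (zr c) 9 = a 9 := by
  have hs := (h.side_pos' n 9).ne'
  unfold compW
  have e : comp (fun j => side W n j * a j) (fun j => side W n j * zr c j) 9 =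
    side W n 9 * a 9 + side W n 9 * 0 - side W n 0 * a 0 *
      (((side W n 3 * 0) ^ 2 + (side W n 4 * 0) ^ 2) / 2) +
      side W n 3 * a 3 * (side W n 5 * 0 - side W n 0 * a 0 * (side W n 3 * 0)) +
      side W n 4 * a 4 * (side W n 6 * 0 - side W n 0 * a 0 * (side W n 4 * 0)) := rfl
  rw [e]; field_simp; ring

theorem compW_11 (a c : Fin 12 → ℝ) : compW W n a (zr c) 11 =
    a 11 + c 11 - side W n 0 * side W n 10 / side W n 11 * (a 0 * c 10) := by
  have hs := (h.side_pos' n 11).ne'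
  unfold compW
  have e : comp (fun j => side W n j * a j) (fun j => side W n j * zr c j) 11 =
    side W n 11 * a 11 + side W n 11 * c 11 - side W n 0 * a 0 * (side W n 10 * c 10) -
      side W n 7 * a 7 * (side W n 5 * 0 - side W n 0 * a 0 * (side W n 3 * 0)) -
      side W n 8 * a 8 * (side W n 6 * 0 - side W n 0 * a 0 * (side W n 4 * 0)) -
      side W n 2 * a 2 * (side W n 9 * 0 - side W n 0 * a 0 *
        (((side W n 3 * 0) ^ 2 + (side W n 4 * 0) ^ 2) / 2)) -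
      side W n 1 * a 1 * ((side W n 5 * 0) ^ 2 + (side W n 6 * 0) ^ 2 -
        2 * (side W n 0 * a 0 * ((side W n 5 * 0) * (side W n 3 * 0) +
          (side W n 6 * 0) * (side W n 4 * 0) - side W n 9 * 0))) := rfl
  rw [e]; field_simp; ring

theorem ratio5 (hX : W.X n 5 = W.X n 0 + W.X n 3) :
    side W n 0 * side W n 3 / side W n 5 = 1 := by
  have hs := (h.side_pos' n 5).ne'
  rw [div_eq_one_iff_eq hs]
  unfold side
  rw [h.kap, h.kap, h.kap, hX, Real.rpow_add (W.B.pos n)]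
  have e0 : wtL 0 = 1 := rfl
  have e3 : wtL 3 = 1 := rfl
  have e5 : wtL 5 = 2 := rfl
  rw [e0, e3, e5]; ring

theorem ratio6 (hX : W.X n 6 = W.X n 0 + W.X n 4) :
    side W n 0 * side W n 4 / side W n 6 = 1 := by
  have hs := (h.side_pos' n 6).ne'
  rw [div_eq_one_iff_eq hs]
  unfold side
  rw [h.kap, h.kap, h.kap, hX, Real.rpow_add (W.B.pos n)]
  have e0 : wtL 0 = 1 := rfl
  have e3 : wtL 4 = 1 := rfl
  have e5 : wtL 6 = 2 := rfl
  rw [e0, e3, e5]; ring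

theorem ratio11 (hX : W.X n 11 = W.X n 0 + W.X n 10) :
    side W n 0 * side W n 10 / side W n 11 = 1 := by
  have hs := (h.side_pos' n 11).ne'
  rw [div_eq_one_iff_eq hs]
  unfold side
  rw [h.kap, h.kap, h.kap, hX, Real.rpow_add (W.B.pos n)]
  have e0 : wtL 0 = 1 := rfl
  have e3 : wtL 10 = 4 := rfl
  have e5 : wtL 11 = 5 := rfl
  rw [e0, e3, e5]; ring

end

/-- `zr c` is within `e` of `c` -/
theorem zr_close {c : Fin 12 → ℝ} {e : ℝ} (he : 0 ≤ e) (h3 : |c 3| ≤ e) (h4 : |c 4| ≤ e)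
    (h5 : |c 5| ≤ e) (h6 : |c 6| ≤ e) (h9 : |c 9| ≤ e) (k : Fin 12) : |c k - zr c k| ≤ e := by
  fin_cases k
  · show |c 0 - c 0| ≤ e; rwa [sub_self, abs_zero]
  · show |c 1 - c 1| ≤ e; rwa [sub_self, abs_zero]
  · show |c 2 - c 2| ≤ e; rwa [sub_self, abs_zero]
  · show |c 3 - 0| ≤ e; rwa [sub_zero]
  · show |c 4 - 0| ≤ e; rwa [sub_zero]
  · show |c 5 - 0| ≤ e; rwa [sub_zero]
  · show |c 6 - 0| ≤ e; rwa [sub_zero]
  · show |c 7 - c 7| ≤ e; rwa [sub_self, abs_zero]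
  · show |c 8 - c 8| ≤ e; rwa [sub_self, abs_zero]
  · show |c 9 - 0| ≤ e; rwa [sub_zero]
  · show |c 10 - c 10| ≤ e; rwa [sub_self, abs_zero]
  · show |c 11 - c 11| ≤ e; rwa [sub_self, abs_zero]

theorem zr_le {c : Fin 12 → ℝ} (hc : ∀ k, |c k| ≤ 1) (k : Fin 12) : |zr c k| ≤ 1 := by
  fin_cases k
  · exact hc 0
  · exact hc 1
  · exact hc 2
  · show |(0 : ℝ)| ≤ 1; simp
  · show |(0 : ℝ)| ≤ 1; simp
  · show |(0 : ℝ)| ≤ 1; simp
  · show |(0 : ℝ)| ≤ 1; simp
  · exact hc 7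
  · exact hc 8
  · show |(0 : ℝ)| ≤ 1; simp
  · exact hc 10
  · exact hc 11

section

variable {W : Wnd 12 ι} {E : ∀ n, Finset (ι n)} {n : ℕ} (r : Reg W E n) {K tp : ℝ}
  (h : WL W K tp)

include r h

/-! ### one height -/

theorem coc3 {k i j l : ℕ} (hi : (i, k) ∈ (W.cfg E n).I) (hj : (j, k) ∈ (W.cfg E n).I)
    (hl : (l, k) ∈ (W.cfg E n).I) :
    |(W.cfg E n).rel k i l 3 - ((W.cfg E n).rel k i j 3 + (W.cfg E n).rel k j l 3)| ≤
      48 * W.B'.d n ^ tp := by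
  have := r.coc h hi hj hl (h.notS (s := 3) (by decide))
  rwa [compW_3 h] at this

theorem coc4 {k i j l : ℕ} (hi : (i, k) ∈ (W.cfg E n).I) (hj : (j, k) ∈ (W.cfg E n).I)
    (hl : (l, k) ∈ (W.cfg E n).I) :
    |(W.cfg E n).rel k i l 4 - ((W.cfg E n).rel k i j 4 + (W.cfg E n).rel k j l 4)| ≤
      48 * W.B'.d n ^ tp := by
  have := r.coc h hi hj hl (h.notS (s := 4) (by decide))
  rwa [compW_4 h] at this

theorem coc5 {k i j l : ℕ} (hi : (i, k) ∈ (W.cfg E n).I) (hj : (j, k) ∈ (W.cfg E n).I)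
    (hl : (l, k) ∈ (W.cfg E n).I) :
    |(W.cfg E n).rel k i l 5 - ((W.cfg E n).rel k i j 5 + (W.cfg E n).rel k j l 5)| ≤
      48 * W.B'.d n ^ tp := by
  have := r.coc h hi hj hl (h.notS (s := 5) (by decide))
  rw [compW_5 h, r.rel_S h.z0] at this
  simpa using this

theorem coc6 {k i j l : ℕ} (hi : (i, k) ∈ (W.cfg E n).I) (hj : (j, k) ∈ (W.cfg E n).I)
    (hl : (l, k) ∈ (W.cfg E n).I) :
    |(W.cfg E n).rel k i l 6 - ((W.cfg E n).rel k i j 6 + (W.cfg E n).rel k j l 6)| ≤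
      48 * W.B'.d n ^ tp := by
  have := r.coc h hi hj hl (h.notS (s := 6) (by decide))
  rw [compW_6 h, r.rel_S h.z0] at this
  simpa using this

/-- slot `10` at one height, `C, X, H` fine -/
theorem coc10 {k i j l : ℕ} (hi : (i, k) ∈ (W.cfg E n).I) (hj : (j, k) ∈ (W.cfg E n).I)
    (hl : (l, k) ∈ (W.cfg E n).I) {e : ℝ} (he : 0 ≤ e)
    (hf : ∀ s : Fin 12, s = 3 ∨ s = 4 ∨ s = 5 ∨ s = 6 ∨ s = 9 → |(W.cfg E n).rel k j l s| ≤ e) :
    |(W.cfg E n).rel k i l 10 - ((W.cfg E n).rel k i j 10 + (W.cfg E n).rel k j l 10)| ≤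
      48 * W.B'.d n ^ tp + 48 * e := by
  have h1 := r.coc h hi hj hl (h.notS (s := 10) (by decide))
  have h2 := compW_lip h r.good he (fun s => r.rel_le h hi hj s) (fun s => r.rel_le h hj hl s)
    (zr_le (fun s => r.rel_le h hj hl s))
    (zr_close he (hf 3 (by simp)) (hf 4 (by simp)) (hf 5 (by simp)) (hf 6 (by simp))
      (hf 9 (by simp))) 10
  rw [compW_10 h] at h2
  have e1 : (W.cfg E n).rel k i l 10 - ((W.cfg E n).rel k i j 10 + (W.cfg E n).rel k j l 10) =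
    ((W.cfg E n).rel k i l 10 - compW W n ((W.cfg E n).rel k i j) ((W.cfg E n).rel k j l) 10) +
    (compW W n ((W.cfg E n).rel k i j) ((W.cfg E n).rel k j l) 10 -
      ((W.cfg E n).rel k i j 10 + (W.cfg E n).rel k j l 10)) := by ring
  rw [e1]
  exact (abs_add_le _ _).trans (add_le_add h1 h2)

/-- slot `11` at one height, `C, X, H` fine -/
theorem coc11 {k i j l : ℕ} (hi : (i, k) ∈ (W.cfg E n).I) (hj : (j, k) ∈ (W.cfg E n).I)
    (hl : (l, k) ∈ (W.cfg E n).I) {e : ℝ} (he : 0 ≤ e)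
    (hf : ∀ s : Fin 12, s = 3 ∨ s = 4 ∨ s = 5 ∨ s = 6 ∨ s = 9 → |(W.cfg E n).rel k j l s| ≤ e) :
    |(W.cfg E n).rel k i l 11 - ((W.cfg E n).rel k i j 11 + (W.cfg E n).rel k j l 11)| ≤
      48 * W.B'.d n ^ tp + 48 * e := by
  have h1 := r.coc h hi hj hl (h.notS (s := 11) (by decide))
  have h2 := compW_lip h r.good he (fun s => r.rel_le h hi hj s) (fun s => r.rel_le h hj hl s)
    (zr_le (fun s => r.rel_le h hj hl s))
    (zr_close he (hf 3 (by simp)) (hf 4 (by simp)) (hf 5 (by simp)) (hf 6 (by simp))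
      (hf 9 (by simp))) 11
  rw [compW_11 h, r.rel_S h.z0 (k := k) (i := i) (l := j)] at h2
  have e1 : (W.cfg E n).rel k i l 11 - ((W.cfg E n).rel k i j 11 + (W.cfg E n).rel k j l 11) =
    ((W.cfg E n).rel k i l 11 - compW W n ((W.cfg E n).rel k i j) ((W.cfg E n).rel k j l) 11) +
    (compW W n ((W.cfg E n).rel k i j) ((W.cfg E n).rel k j l) 11 -
      ((W.cfg E n).rel k i j 11 + (W.cfg E n).rel k j l 11 - side W n 0 * side W n 10 /
        side W n 11 * (0 * (W.cfg E n).rel k j l 10))) := by ring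
  rw [e1]
  exact (abs_add_le _ _).trans (add_le_add h1 h2)

/-! ### two heights -/

/-- the height component of the own motion, old height `k`, new height `k'` -/
theorem own_zz {k k' i : ℕ} (hi : (i, k) ∈ (W.cfg E n).I) (hi' : (i, k') ∈ (W.cfg E n).I) :
    |own W n i k' k 0 + ((W.cfg E n).z k' - (W.cfg E n).z k)| ≤ 2 * W.B'.d n ^ tp := by
  have := r.own_z h hi hi'
  have e : own W n i k' k 0 + ((W.cfg E n).z k' - (W.cfg E n).z k) =
    own W n i k' k 0 - ((W.cfg E n).z k - (W.cfg E n).z k') := by ring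
  rwa [e]

theorem Lv0 (a : Fin 12 → ℝ) : LvS SL a 0 = a 0 := if_pos (by decide)



/-- combine the own height with the law -/
theorem own_mul {k k' i : ℕ} (hi : (i, k) ∈ (W.cfg E n).I) (hi' : (i, k') ∈ (W.cfg E n).I)
    {c x y C : ℝ} (hc : |c| ≤ 1) (h1 : |x - (y - own W n i k' k 0 * c)| ≤ C) :
    |x - (y + ((W.cfg E n).z k' - (W.cfg E n).z k) * c)| ≤ C + 2 * W.B'.d n ^ tp := by
  have h2 := own_zz r h hi hi'
  have e : x - (y + ((W.cfg E n).z k' - (W.cfg E n).z k) * c) =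
    (x - (y - own W n i k' k 0 * c)) -
      (own W n i k' k 0 + ((W.cfg E n).z k' - (W.cfg E n).z k)) * c := by ring
  rw [e]
  refine (abs_sub _ _).trans (add_le_add h1 ?_)
  rw [abs_mul]
  exact (mul_le_of_le_one_right (abs_nonneg _) hc).trans h2

theorem evo5 (hX : W.X n 5 = W.X n 0 + W.X n 3) {k k' i l : ℕ} (hi : (i, k) ∈ (W.cfg E n).I)
    (hl : (l, k) ∈ (W.cfg E n).I) (hi' : (i, k') ∈ (W.cfg E n).I)
    (hl' : (l, k') ∈ (W.cfg E n).I) :
    |(W.cfg E n).rel k' i l 5 - ((W.cfg E n).rel k i l 5 +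
      ((W.cfg E n).z k' - (W.cfg E n).z k) * (W.cfg E n).rel k i l 3)| ≤
      98 * W.B'.d n ^ tp := by
  have := r.evoSL h hi hl hi' hl' (s := 5) (by decide)
  rw [compW_5 h, ratio5 h hX, one_mul, Lv0 r h] at this
  have e1 : LvS SL (own W n i k' k) 5 = 0 := if_neg (by decide)
  have e2 : LnS SL ((W.cfg E n).rel k i l) 5 = (W.cfg E n).rel k i l 5 := if_neg (by decide)
  have e3 : LnS SL ((W.cfg E n).rel k i l) 3 = (W.cfg E n).rel k i l 3 := if_neg (by decide)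
  rw [e1, e2, e3, zero_add] at this
  refine (own_mul r h hi hi' (r.rel_le h hi hl 3) this).trans (le_of_eq (by ring))

theorem evo6 (hX : W.X n 6 = W.X n 0 + W.X n 4) {k k' i l : ℕ} (hi : (i, k) ∈ (W.cfg E n).I)
    (hl : (l, k) ∈ (W.cfg E n).I) (hi' : (i, k') ∈ (W.cfg E n).I)
    (hl' : (l, k') ∈ (W.cfg E n).I) :
    |(W.cfg E n).rel k' i l 6 - ((W.cfg E n).rel k i l 6 +
      ((W.cfg E n).z k' - (W.cfg E n).z k) * (W.cfg E n).rel k i l 4)| ≤
      98 * W.B'.d n ^ tp := by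
  have := r.evoSL h hi hl hi' hl' (s := 6) (by decide)
  rw [compW_6 h, ratio6 h hX, one_mul, Lv0 r h] at this
  have e1 : LvS SL (own W n i k' k) 6 = 0 := if_neg (by decide)
  have e2 : LnS SL ((W.cfg E n).rel k i l) 6 = (W.cfg E n).rel k i l 6 := if_neg (by decide)
  have e3 : LnS SL ((W.cfg E n).rel k i l) 4 = (W.cfg E n).rel k i l 4 := if_neg (by decide)
  rw [e1, e2, e3, zero_add] at this
  refine (own_mul r h hi hi' (r.rel_le h hi hl 4) this).trans (le_of_eq (by ring))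

/-- the law of the line slots with `C, X, H` forgotten -/
theorem evoz {k k' i l : ℕ} (hi : (i, k) ∈ (W.cfg E n).I)
    (hl : (l, k) ∈ (W.cfg E n).I) (hi' : (i, k') ∈ (W.cfg E n).I)
    (hl' : (l, k') ∈ (W.cfg E n).I) {e : ℝ} (he : 0 ≤ e)
    (hf : ∀ s : Fin 12, s = 3 ∨ s = 4 ∨ s = 5 ∨ s = 6 ∨ s = 9 → |(W.cfg E n).rel k i l s| ≤ e)
    {s : Fin 12} (hs : s ∉ SL) :
    |(W.cfg E n).rel k' i l s - compW W n (LvS SL (own W n i k' k))
      (zr (LnS SL ((W.cfg E n).rel k i l))) s| ≤ 96 * W.B'.d n ^ tp + 48 * e := by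
  have h1 := r.evoSL h hi hl hi' hl' hs
  have ln : ∀ s, |LnS SL ((W.cfg E n).rel k i l) s| ≤ 1 := by
    intro s; unfold LnS
    split_ifs
    · simp
    · exact r.rel_le h hi hl s
  have lv : ∀ s, |LvS SL (own W n i k' k) s| ≤ 1 := by
    intro s; unfold LvS
    split_ifs
    · exact r.own_le h hi hi' s
    · simp
  have h2 := compW_lip h r.good he lv ln (zr_le ln)
    (zr_close he
      (by rw [show LnS SL ((W.cfg E n).rel k i l) 3 = (W.cfg E n).rel k i l 3 from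
            if_neg (by decide)]; exact hf 3 (by simp))
      (by rw [show LnS SL ((W.cfg E n).rel k i l) 4 = (W.cfg E n).rel k i l 4 from
            if_neg (by decide)]; exact hf 4 (by simp))
      (by rw [show LnS SL ((W.cfg E n).rel k i l) 5 = (W.cfg E n).rel k i l 5 from
            if_neg (by decide)]; exact hf 5 (by simp))
      (by rw [show LnS SL ((W.cfg E n).rel k i l) 6 = (W.cfg E n).rel k i l 6 from
            if_neg (by decide)]; exact hf 6 (by simp))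
      (by rw [show LnS SL ((W.cfg E n).rel k i l) 9 = (W.cfg E n).rel k i l 9 from
            if_neg (by decide)]; exact hf 9 (by simp))) s
  have e1 : (W.cfg E n).rel k' i l s - compW W n (LvS SL (own W n i k' k))
      (zr (LnS SL ((W.cfg E n).rel k i l))) s =
    ((W.cfg E n).rel k' i l s - compW W n (LvS SL (own W n i k' k))
      (LnS SL ((W.cfg E n).rel k i l)) s) +
    (compW W n (LvS SL (own W n i k' k)) (LnS SL ((W.cfg E n).rel k i l)) s -
      compW W n (LvS SL (own W n i k' k)) (zr (LnS SL ((W.cfg E n).rel k i l))) s) := by ring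
  rw [e1]
  exact (abs_add_le _ _).trans (add_le_add h1 h2)

/-- `C, X, H` stay fine -/
theorem evof {k k' i l : ℕ} (hi : (i, k) ∈ (W.cfg E n).I)
    (hl : (l, k) ∈ (W.cfg E n).I) (hi' : (i, k') ∈ (W.cfg E n).I)
    (hl' : (l, k') ∈ (W.cfg E n).I) {e : ℝ} (he : 0 ≤ e)
    (hf : ∀ s : Fin 12, s = 3 ∨ s = 4 ∨ s = 5 ∨ s = 6 ∨ s = 9 → |(W.cfg E n).rel k i l s| ≤ e)
    {s : Fin 12} (hs : s = 3 ∨ s = 4 ∨ s = 5 ∨ s = 6 ∨ s = 9) :
    |(W.cfg E n).rel k' i l s| ≤ 96 * W.B'.d n ^ tp + 48 * e := by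
  have key : ∀ s : Fin 12, s ∉ SL → compW W n (LvS SL (own W n i k' k))
      (zr (LnS SL ((W.cfg E n).rel k i l))) s = 0 →
      |(W.cfg E n).rel k' i l s| ≤ 96 * W.B'.d n ^ tp + 48 * e := by
    intro s hs h0
    have := evoz r h hi hl hi' hl' he hf hs
    rwa [h0, sub_zero] at this
  have a3 : LvS SL (own W n i k' k) 3 = 0 := if_neg (by decide)
  have a4 : LvS SL (own W n i k' k) 4 = 0 := if_neg (by decide)
  have a5 : LvS SL (own W n i k' k) 5 = 0 := if_neg (by decide)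
  have a6 : LvS SL (own W n i k' k) 6 = 0 := if_neg (by decide)
  have a9 : LvS SL (own W n i k' k) 9 = 0 := if_neg (by decide)
  rcases hs with rfl | rfl | rfl | rfl | rfl
  · refine key 3 (by decide) ?_
    rw [compW_3 h, a3]
    show (0 : ℝ) + 0 = 0
    ring
  · refine key 4 (by decide) ?_
    rw [compW_4 h, a4]
    show (0 : ℝ) + 0 = 0
    ring
  · refine key 5 (by decide) ?_
    rw [compW_5 h, a5]
    show (0 : ℝ) + 0 - _ * (_ * 0) = 0
    ring
  · refine key 6 (by decide) ?_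
    rw [compW_6 h, a6]
    show (0 : ℝ) + 0 - _ * (_ * 0) = 0
    ring
  · refine key 9 (by decide) ?_
    rw [compW_9 h, a9]

/-- **slot `11` between two heights**, `C, X, H` fine, tight wall `11 = 0 + 10` -/
theorem evo11 (hX : W.X n 11 = W.X n 0 + W.X n 10) {k k' i l : ℕ}
    (hi : (i, k) ∈ (W.cfg E n).I) (hl : (l, k) ∈ (W.cfg E n).I)
    (hi' : (i, k') ∈ (W.cfg E n).I) (hl' : (l, k') ∈ (W.cfg E n).I) {e : ℝ} (he : 0 ≤ e)
    (hf : ∀ s : Fin 12, s = 3 ∨ s = 4 ∨ s = 5 ∨ s = 6 ∨ s = 9 →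
      |(W.cfg E n).rel k i l s| ≤ e) :
    |(W.cfg E n).rel k' i l 11 - ((W.cfg E n).rel k i l 11 +
      ((W.cfg E n).z k' - (W.cfg E n).z k) * (W.cfg E n).rel k i l 10)| ≤
      98 * W.B'.d n ^ tp + 48 * e := by
  have := evoz r h hi hl hi' hl' he hf (s := 11) (by decide)
  rw [compW_11 h, ratio11 h hX, one_mul, Lv0 r h] at this
  have e1 : LvS SL (own W n i k' k) 11 = 0 := if_neg (by decide)
  have e2 : LnS SL ((W.cfg E n).rel k i l) 11 = (W.cfg E n).rel k i l 11 := if_neg (by decide)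
  have e3 : LnS SL ((W.cfg E n).rel k i l) 10 = (W.cfg E n).rel k i l 10 := if_neg (by decide)
  rw [e1, e2, e3, zero_add] at this
  refine (own_mul r h hi hi' (r.rel_le h hi hl 10) this).trans (le_of_eq (by ring))

end

end Crest.Agent.R116.Kf330
end

-- ▼ part R116/Kf2_330
section

/-!
# R116, K side (helper330): K1, F1, K2, F2 at any legal base point, part 2

* `k1f1` : tight walls `5 = 0 + 3`, `6 = 0 + 4`, one dimension (`b n`): growths `g` of `{3,4}` and `f`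
  of `{5,6}` satisfy `0 < g → σ ≤ f` and `1 - σ < g → 1 ≤ f`.
* `k2f2` : tight wall `11 = 0 + 10`: the same for `{10}`, `{11}`; the fibre is fine in `C, X, H`; no
  condition on the flags and on the other walls.
* `k1f1_lin`, `k2f2_lin` : for a linear profile.
-/

set_option autoImplicit false
set_option linter.unusedVariables false
set_option linter.unusedSectionVars false

open Filter Topology Finset

namespace Crest.Agent.R116.Kf330

open Crest.Agent.R138.Ex926 (Base U)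
open Crest.Agent.R136.Net191 Crest.Agent.R136.Qg926 Crest.Agent.R136.Gf356
open Crest.Agent.R116.ChL222 Crest.Agent.R116.PL504 Crest.Agent.R116.EvL504
open Crest.Agent.R116.Kr710

variable {ι : ℕ → Type*} [∀ n, DecidableEq (ι n)]

/-- boxes: `x` on `S`, `t` on `T`, `0` elsewhere -/
def bx2 (S T : Finset (Fin 12)) (x t : ℝ) : Fin 12 → ℝ := fun j =>
  if j ∈ S then x else if j ∈ T then t else 0

/-- the fine slots of the fibre of `K2`, `F2` -/
def FCXH : Finset (Fin 12) := {3, 4, 5, 6, 9}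

theorem mem_FCXH {s : Fin 12} : s ∈ FCXH ↔ s = 3 ∨ s = 4 ∨ s = 5 ∨ s = 6 ∨ s = 9 := by
  unfold FCXH; simp

/-- from the two components back to the slots -/
theorem from_tb {b0 b1 u v A Bd : ℝ} (hb : b0 ^ 2 + b1 ^ 2 = 1) (h1 : |-b1 * u + b0 * v| ≤ A)
    (h2 : |b0 * u + b1 * v| ≤ Bd) : |u| ≤ A + Bd ∧ |v| ≤ A + Bd := by
  have c0 : |b0| ≤ 1 := by
    rw [← sq_le_one_iff_abs_le_one]; nlinarith [sq_nonneg b1]
  have c1 : |b1| ≤ 1 := by
    rw [← sq_le_one_iff_abs_le_one]; nlinarith [sq_nonneg b0]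
  have eu : u = b0 * (b0 * u + b1 * v) - b1 * (-b1 * u + b0 * v) := by
    have : b0 * (b0 * u + b1 * v) - b1 * (-b1 * u + b0 * v) = (b0 ^ 2 + b1 ^ 2) * u := by ring
    rw [this, hb, one_mul]
  have ev : v = b1 * (b0 * u + b1 * v) + b0 * (-b1 * u + b0 * v) := by
    have : b1 * (b0 * u + b1 * v) + b0 * (-b1 * u + b0 * v) = (b0 ^ 2 + b1 ^ 2) * v := by ring
    rw [this, hb, one_mul]
  have m : ∀ p q : ℝ, |p| ≤ 1 → |p * q| ≤ |q| := fun p q hp => by
    rw [abs_mul]; exact mul_le_of_le_one_left (abs_nonneg _) hp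
  constructor
  · rw [eu]
    refine (abs_sub _ _).trans ?_
    have := m b0 (b0 * u + b1 * v) c0
    have := m b1 (-b1 * u + b0 * v) c1
    linarith
  · rw [ev]
    refine (abs_add_le _ _).trans ?_
    have := m b1 (b0 * u + b1 * v) c1
    have := m b0 (-b1 * u + b0 * v) c0
    linarith

/-- a combination with a unit vector -/
theorem to_t {b0 b1 u v A : ℝ} (hb : b0 ^ 2 + b1 ^ 2 = 1) (h1 : |u| ≤ A) (h2 : |v| ≤ A) :
    |-b1 * u + b0 * v| ≤ 2 * A := by
  have c0 : |b0| ≤ 1 := by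
    rw [← sq_le_one_iff_abs_le_one]; nlinarith [sq_nonneg b1]
  have c1 : |b1| ≤ 1 := by
    rw [← sq_le_one_iff_abs_le_one]; nlinarith [sq_nonneg b0]
  refine (abs_add_le _ _).trans ?_
  rw [abs_mul, abs_mul, abs_neg]
  have := mul_le_of_le_one_left (abs_nonneg u) c1
  have := mul_le_of_le_one_left (abs_nonneg v) c0
  linarith

theorem ab_of {u w A Bd : ℝ} (h1 : |w - u| ≤ A) (h2 : |w| ≤ Bd) : |u| ≤ A + Bd := by
  have := abs_sub_abs_le_abs_sub u w
  rw [abs_sub_comm u w] at this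
  linarith

variable {W : Wnd 12 ι} {E : ∀ n, Finset (ι n)} {K tp σ R D x : ℝ} {Leg : Set (Fin 12 → ℝ)}
  {ν : (Fin 12 → ℝ) → ℝ}

/-- heights are bounded -/
theorem z_bd {n : ℕ} (r : Reg W E n) (h : WL W K tp) {k : ℕ} (hk : k ∈ (W.cfg E n).Z) :
    |(W.cfg E n).z k| ≤ 1 := by
  have hk' : ∃ l, (l, k) ∈ (W.cfg E n).I := by
    have e := r.cfg_eq
    rw [e] at hk ⊢
    obtain ⟨i, hi, rfl⟩ := Finset.mem_image.1 hk
    exact ⟨W.lc n i, Finset.mem_image.2 ⟨i, hi, rfl⟩⟩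
  rw [r.z_eq]
  exact h.crd_le r.good r.good.s0 (r.zspec hk').1 _

set_option maxHeartbeats 1600000 in
/-- **K1, F1 at any base point with the tight walls `5 = 0 + 3`, `6 = 0 + 4`** -/
theorem k1f1 (h : WL W K tp) (hR : ∀ᶠ n in (U : Filter ℕ), Reg W E n)
    (HM : RModel W.B' (W.cfg E) σ R Leg ν D) {b : ℕ → Fin 2 → ℝ}
    (hb : ∀ᶠ n in (U : Filter ℕ), b n 0 ^ 2 + b n 1 ^ 2 = 1)
    (tc : ∀ ε : ℝ, 0 < ε → ∀ᶠ n in (U : Filter ℕ), ∀ k i l, (i, k) ∈ (W.cfg E n).I →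
      (l, k) ∈ (W.cfg E n).I →
      |b n 0 * (W.cfg E n).rel k i l 3 + b n 1 * (W.cfg E n).rel k i l 4| ≤ W.B'.d n ^ (x - ε))
    (tx : ∀ ε : ℝ, 0 < ε → ∀ᶠ n in (U : Filter ℕ), ∀ k i l, (i, k) ∈ (W.cfg E n).I →
      (l, k) ∈ (W.cfg E n).I →
      |b n 0 * (W.cfg E n).rel k i l 5 + b n 1 * (W.cfg E n).rel k i l 6| ≤ W.B'.d n ^ (x - ε))
    (h5 : ∀ᶠ n in (U : Filter ℕ), W.X n 5 = W.X n 0 + W.X n 3)
    (h6 : ∀ᶠ n in (U : Filter ℕ), W.X n 6 = W.X n 0 + W.X n 4)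
    (hx : 0 < x) (hxR : x ≤ R) (hxt : x ≤ tp) (l0 : (0 : Fin 12 → ℝ) ∈ Leg)
    (lQ : ∀ t, 0 ≤ t → t ≤ x → bx2 ∅ {3, 4, 5, 6} 0 t ∈ Leg) (lr : bx2 ∅ {5, 6} 0 x ∈ Leg)
    {f g : ℝ} (hlow : ∀ t, 0 ≤ t → t ≤ x → (f + g) * t ≤ ν 0 - ν (bx2 ∅ {3, 4, 5, 6} 0 t))
    (hup : ν 0 - ν (bx2 ∅ {5, 6} 0 x) ≤ f * x) :
    (0 < g → σ ≤ f) ∧ (1 - σ < g → 1 ≤ f) := by
  classical
  have hne := HM.nonempty
  choose p0 hp0 using hne
  set G := W.cfg E with hG
  set i0 : ℕ → ℕ := fun n => (p0 n).1 with hi0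
  set k0 : ℕ → ℕ := fun n => (p0 n).2 with hk0
  have h0 : ∀ n, (i0 n, k0 n) ∈ (G n).I := hp0
  set v : ℕ → ℕ → ℝ := fun n i => -b n 1 * (G n).rel (k0 n) (i0 n) i 3 +
    b n 0 * (G n).rel (k0 n) (i0 n) i 4 with hv
  set a : ℕ → ℕ → ℝ := fun n i => -b n 1 * (G n).rel (k0 n) (i0 n) i 5 +
    b n 0 * (G n).rel (k0 n) (i0 n) i 6 with ha
  -- differences at the pin
  have dif : ∀ᶠ n in (U : Filter ℕ), ∀ i i', (i, k0 n) ∈ (G n).I → (i', k0 n) ∈ (G n).I →
      |(v n i' - v n i) - (-b n 1 * (G n).rel (k0 n) i i' 3 + b n 0 * (G n).rel (k0 n) i i' 4)| ≤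
        96 * W.B'.d n ^ x ∧
      |(a n i' - a n i) - (-b n 1 * (G n).rel (k0 n) i i' 5 + b n 0 * (G n).rel (k0 n) i i' 6)| ≤
        96 * W.B'.d n ^ x := by
    filter_upwards [hR, hb] with n r hbn i i' hi hi'
    have er : W.B'.d n ^ tp ≤ W.B'.d n ^ x := rpow_anti W.B' n hxt
    have c3 := coc3 r h (h0 n) hi hi'
    have c4 := coc4 r h (h0 n) hi hi'
    have c5 := coc5 r h (h0 n) hi hi'
    have c6 := coc6 r h (h0 n) hi hi'
    constructor
    · have := to_t hbn (c3.trans (mul_le_mul_of_nonneg_left er (by norm_num)))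
        (c4.trans (mul_le_mul_of_nonneg_left er (by norm_num)))
      refine le_of_eq_of_le ?_ (this.trans (le_of_eq (by ring)))
      congr 1
      rw [hv]; ring
    · have := to_t hbn (c5.trans (mul_le_mul_of_nonneg_left er (by norm_num)))
        (c6.trans (mul_le_mul_of_nonneg_left er (by norm_num)))
      refine le_of_eq_of_le ?_ (this.trans (le_of_eq (by ring)))
      congr 1
      rw [ha]; ring
  have one_le : ∀ (n : ℕ) {s : ℝ}, s ≤ 0 → 1 ≤ W.B'.d n ^ s := fun n s hs => by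
    calc (1 : ℝ) = W.B'.d n ^ (0 : ℝ) := (Real.rpow_zero _).symm
      _ ≤ _ := rpow_anti W.B' n hs
  have hbxI : ∀ {n i : ℕ} {p : Fin 12 → ℝ} {ε : ℝ}, i ∈ (G n).box p ε (i0 n) (k0 n) →
      (i, k0 n) ∈ (G n).I := fun hi => HM.toRUnif.memSlice.1 (RCfg.box_subset_slice hi)
  refine pin_model HM i0 k0 (Eventually.of_forall h0) 0 0 (bx2 ∅ {5, 6} 0 x) l0 l0 lr ?_ hx hxR
    a v (fun t => bx2 ∅ {3, 4, 5, 6} 0 t) lQ (C1 := 1) one_pos ?_ ?_ ?_ ?_ ?_ hlow hup
  · intro j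
    show (0 : ℝ) ≤ bx2 ∅ {5, 6} 0 x j
    unfold bx2
    split_ifs <;> linarith
  · intro ε hε
    filter_upwards [hR, ev_const_le W.B' hε 2] with n r h2 k hk
    have z1 := z_bd r h hk
    have z2 := z_bd r h (HM.toRUnif.memZ (h0 n))
    refine (abs_sub _ _).trans ?_
    rw [one_mul]
    linarith
  · intro ε hε
    filter_upwards [hR, hb, ev_const_le W.B' hε 4] with n r hbn h4 i hi i' hi'
    have q : ∀ j, (j, k0 n) ∈ (G n).I → |v n j| ≤ 2 := by
      intro j hj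
      have := to_t hbn (r.rel_le h (h0 n) hj 3) (r.rel_le h (h0 n) hj 4)
      linarith
    have q1 := q i (hbxI hi)
    have q2 := q i' (hbxI hi')
    refine (abs_sub _ _).trans ?_
    rw [one_mul]
    linarith
  · intro ε hε
    filter_upwards [hR] with n r k hk i hi i' hi' hI hI' j
    rw [HM.base n]
    refine (r.rel_le h hI hI' j).trans (one_le n ?_)
    show (0 : ℝ) - 1 * ε ≤ 0
    linarith
  · intro C2 hC2
    refine ⟨C2 + 1, by linarith, fun ε hε => ?_⟩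
    filter_upwards [hR, hb, dif, h5, h6, ev_const_le W.B' hε 500]
      with n r hbn hd e5 e6 hc k hk i hi i' hi' hI hI' hlo
    have Ii := hbxI hi
    have Ii' := hbxI hi'
    obtain ⟨d1, d2⟩ := hd i i' Ii Ii'
    have er : W.B'.d n ^ tp ≤ W.B'.d n ^ x := rpow_anti W.B' n hxt
    have v5 := evo5 r h e5 Ii Ii' hI hI'
    have v6 := evo6 r h e6 Ii Ii' hI hI'
    have z1 := z_bd r h hk
    have z2 := z_bd r h (HM.toRUnif.memZ (h0 n))
    have hφ : |(G n).z k - (G n).z (k0 n)| ≤ 2 := (abs_sub _ _).trans (by linarith)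
    have q5 : |(G n).rel k i i' 5| ≤ W.B'.d n ^ (x - C2 * ε) := by
      have := hlo 5
      rwa [HM.base n, show bx2 ∅ {5, 6} 0 x 5 = x from rfl] at this
    have q6 : |(G n).rel k i i' 6| ≤ W.B'.d n ^ (x - C2 * ε) := by
      have := hlo 6
      rwa [HM.base n, show bx2 ∅ {5, 6} 0 x 6 = x from rfl] at this
    have t1 := to_t hbn (v5.trans (mul_le_mul_of_nonneg_left er (by norm_num)))
      (v6.trans (mul_le_mul_of_nonneg_left er (by norm_num)))
    have t2 := to_t hbn q5 q6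
    have hxe : W.B'.d n ^ x ≤ W.B'.d n ^ (x - C2 * ε) := rpow_anti W.B' n (by
      have := mul_pos hC2 hε; linarith)
    set φ := (G n).z k - (G n).z (k0 n) with hφd
    set Vp := -b n 1 * (G n).rel (k0 n) i i' 3 + b n 0 * (G n).rel (k0 n) i i' 4 with hVp
    set Ap := -b n 1 * (G n).rel (k0 n) i i' 5 + b n 0 * (G n).rel (k0 n) i i' 6 with hAp
    have e1 : (a n i' - a n i) + φ * (v n i' - v n i) =
        ((a n i' - a n i) - Ap) + φ * ((v n i' - v n i) - Vp) -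
        (-b n 1 * ((G n).rel k i i' 5 - ((G n).rel (k0 n) i i' 5 + φ * (G n).rel (k0 n) i i' 3)) +
          b n 0 * ((G n).rel k i i' 6 - ((G n).rel (k0 n) i i' 6 + φ * (G n).rel (k0 n) i i' 4))) +
        (-b n 1 * (G n).rel k i i' 5 + b n 0 * (G n).rel k i i' 6) := by
      rw [hAp, hVp]; ring
    have hm : |φ * ((v n i' - v n i) - Vp)| ≤ 2 * (96 * W.B'.d n ^ x) := by
      rw [abs_mul]
      exact mul_le_mul hφ d1 (abs_nonneg _) (by norm_num)
    rw [e1]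
    refine (abs_add_le _ _).trans ?_
    refine (add_le_add ((abs_sub _ _).trans (add_le_add ((abs_add_le _ _).trans
      (add_le_add d2 hm)) t1)) t2).trans ?_
    have e2 : x - (C2 + 1) * ε = (-ε) + (x - C2 * ε) := by ring
    rw [e2, rpow_add']
    have hpos := rpos W.B' n (x - C2 * ε)
    have := mul_le_mul_of_nonneg_right hc hpos.le
    linarith
  · intro C3 hC3
    refine ⟨C3 + 2, by linarith, fun t ht0 htx ε hε => ?_⟩
    filter_upwards [hR, hb, dif, tc ε hε, tx ε hε, ev_const_le W.B' hε 98]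
      with n r hbn hd htc htx hc i hi i' hi' q1 q2 j
    have Ii := hbxI hi
    have Ii' := hbxI hi'
    obtain ⟨d1, d2⟩ := hd i i' Ii Ii'
    rw [HM.base n]
    have hCε := mul_pos hC3 hε
    have f1 : W.B'.d n ^ x ≤ W.B'.d n ^ (t - (C3 + 1) * ε) := rpow_anti W.B' n (by nlinarith)
    have f2 : W.B'.d n ^ (x - ε) ≤ W.B'.d n ^ (t - (C3 + 1) * ε) :=
      rpow_anti W.B' n (by nlinarith)
    have f3 : W.B'.d n ^ (t - C3 * ε) ≤ W.B'.d n ^ (t - (C3 + 1) * ε) :=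
      rpow_anti W.B' n (by nlinarith)
    have hpos := rpos W.B' n (t - (C3 + 1) * ε)
    have fin : 98 * W.B'.d n ^ (t - (C3 + 1) * ε) ≤ W.B'.d n ^ (t - (C3 + 2) * ε) := by
      have e2 : t - (C3 + 2) * ε = (-ε) + (t - (C3 + 1) * ε) := by ring
      rw [e2, rpow_add']
      exact mul_le_mul_of_nonneg_right hc hpos.le
    have g1 : |-b n 1 * (G n).rel (k0 n) i i' 3 + b n 0 * (G n).rel (k0 n) i i' 4| ≤
        97 * W.B'.d n ^ (t - (C3 + 1) * ε) := by
      have := ab_of d1 q1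
      linarith
    have g2 : |-b n 1 * (G n).rel (k0 n) i i' 5 + b n 0 * (G n).rel (k0 n) i i' 6| ≤
        97 * W.B'.d n ^ (t - (C3 + 1) * ε) := by
      have := ab_of d2 q2
      linarith
    obtain ⟨r3, r4⟩ := from_tb hbn g1 ((htc _ _ _ Ii Ii').trans f2)
    obtain ⟨r5, r6⟩ := from_tb hbn g2 ((htx _ _ _ Ii Ii').trans f2)
    have oth : bx2 ∅ {3, 4, 5, 6} 0 t j = 0 →
        |(G n).rel (k0 n) i i' j| ≤ W.B'.d n ^ (bx2 ∅ {3, 4, 5, 6} 0 t j - (C3 + 2) * ε) := by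
      intro hj
      rw [hj]
      exact (r.rel_le h Ii Ii' j).trans (one_le n (by nlinarith))
    by_cases j3 : j = 3
    · subst j3
      rw [show bx2 ∅ {3, 4, 5, 6} 0 t 3 = t from rfl]
      linarith
    by_cases j4 : j = 4
    · subst j4
      rw [show bx2 ∅ {3, 4, 5, 6} 0 t 4 = t from rfl]
      linarith
    by_cases j5 : j = 5
    · subst j5
      rw [show bx2 ∅ {3, 4, 5, 6} 0 t 5 = t from rfl]
      linarith
    by_cases j6 : j = 6
    · subst j6
      rw [show bx2 ∅ {3, 4, 5, 6} 0 t 6 = t from rfl]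
      linarith
    refine oth ?_
    unfold bx2
    rw [if_neg (by simp), if_neg (by simp [j3, j4, j5, j6])]

set_option maxHeartbeats 1600000 in
/-- **K2, F2 at any base point with the tight wall `11 = 0 + 10`** (fibre: `C, X, H` fine) -/
theorem k2f2 (h : WL W K tp) (hR : ∀ᶠ n in (U : Filter ℕ), Reg W E n)
    (HM : RModel W.B' (W.cfg E) σ R Leg ν D)
    (h11 : ∀ᶠ n in (U : Filter ℕ), W.X n 11 = W.X n 0 + W.X n 10)
    (hx : 0 < x) (hxR : x ≤ R) (hxt : x ≤ tp) (l0 : bx2 FCXH ∅ x 0 ∈ Leg)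
    (lQ : ∀ t, 0 ≤ t → t ≤ x → bx2 FCXH {10, 11} x t ∈ Leg) (lr : bx2 FCXH {11} x x ∈ Leg)
    {f g : ℝ} (hlow : ∀ t, 0 ≤ t → t ≤ x →
      (f + g) * t ≤ ν (bx2 FCXH ∅ x 0) - ν (bx2 FCXH {10, 11} x t))
    (hup : ν (bx2 FCXH ∅ x 0) - ν (bx2 FCXH {11} x x) ≤ f * x) :
    (0 < g → σ ≤ f) ∧ (1 - σ < g → 1 ≤ f) := by
  classical
  have hD := HM.D1
  have hD0 : 0 < D := by linarith
  have hne := HM.nonempty
  choose p0 hp0 using hne
  set G := W.cfg E with hG
  set i0 : ℕ → ℕ := fun n => (p0 n).1 with hi0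
  set k0 : ℕ → ℕ := fun n => (p0 n).2 with hk0
  have h0 : ∀ n, (i0 n, k0 n) ∈ (G n).I := hp0
  set v : ℕ → ℕ → ℝ := fun n i => (G n).rel (k0 n) (i0 n) i 10 with hv
  set a : ℕ → ℕ → ℝ := fun n i => (G n).rel (k0 n) (i0 n) i 11 with ha
  set pS : Fin 12 → ℝ := bx2 FCXH ∅ x 0 with hpS
  have pSx : ∀ s : Fin 12, s ∈ FCXH → pS s = x := fun s hs => if_pos hs
  have pSo : ∀ s : Fin 12, s ∉ FCXH → pS s = 0 := fun s hs => by
    rw [hpS]; unfold bx2; rw [if_neg hs, if_neg (by simp)]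
  have one_le : ∀ (n : ℕ) {s : ℝ}, s ≤ 0 → 1 ≤ W.B'.d n ^ s := fun n s hs => by
    calc (1 : ℝ) = W.B'.d n ^ (0 : ℝ) := (Real.rpow_zero _).symm
      _ ≤ _ := rpow_anti W.B' n hs
  have hbxI : ∀ {n i : ℕ} {p : Fin 12 → ℝ} {ε : ℝ}, i ∈ (G n).box p ε (i0 n) (k0 n) →
      (i, k0 n) ∈ (G n).I := fun hi => HM.toRUnif.memSlice.1 (RCfg.box_subset_slice hi)
  -- the fibre at the pin
  have fib : ∀ ε : ℝ, 0 < ε → ∀ᶠ n in (U : Filter ℕ), ∀ i ∈ (G n).box pS ε (i0 n) (k0 n),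
      ∀ i' ∈ (G n).box pS ε (i0 n) (k0 n),
      ∀ s : Fin 12, s = 3 ∨ s = 4 ∨ s = 5 ∨ s = 6 ∨ s = 9 →
        |(G n).rel (k0 n) i i' s| ≤ W.B'.d n ^ (x - D ^ 2 * ε) := by
    intro ε hε
    filter_upwards [near_pairs HM.toRUnif (Eventually.of_forall h0) l0 one_pos hε]
      with n hn i hi i' hi' s hs
    have := hn i (by rwa [one_mul]) i' (by rwa [one_mul]) s
    rwa [HM.base n, pSx s (mem_FCXH.2 hs), mul_one] at this
  -- differences at the pin
  have dif : ∀ ε : ℝ, 0 < ε → ∀ᶠ n in (U : Filter ℕ), ∀ i ∈ (G n).box pS ε (i0 n) (k0 n),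
      ∀ i' ∈ (G n).box pS ε (i0 n) (k0 n),
      |(v n i' - v n i) - (G n).rel (k0 n) i i' 10| ≤ 96 * W.B'.d n ^ (x - D ^ 2 * ε) ∧
      |(a n i' - a n i) - (G n).rel (k0 n) i i' 11| ≤ 96 * W.B'.d n ^ (x - D ^ 2 * ε) := by
    intro ε hε
    filter_upwards [hR, fib ε hε] with n r hf i hi i' hi'
    have Ii := hbxI hi
    have Ii' := hbxI hi'
    have hDε : 0 ≤ D ^ 2 * ε := by positivity
    have er : W.B'.d n ^ tp ≤ W.B'.d n ^ (x - D ^ 2 * ε) := rpow_anti W.B' n (by linarith)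
    have hp := (rpos W.B' n (x - D ^ 2 * ε)).le
    have c1 := coc10 r h (h0 n) Ii Ii' hp (hf i hi i' hi')
    have c2 := coc11 r h (h0 n) Ii Ii' hp (hf i hi i' hi')
    constructor
    · have e : (v n i' - v n i) - (G n).rel (k0 n) i i' 10 = (G n).rel (k0 n) (i0 n) i' 10 -
        ((G n).rel (k0 n) (i0 n) i 10 + (G n).rel (k0 n) i i' 10) := by rw [hv]; ring
      rw [e]; linarith
    · have e : (a n i' - a n i) - (G n).rel (k0 n) i i' 11 = (G n).rel (k0 n) (i0 n) i' 11 -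
        ((G n).rel (k0 n) (i0 n) i 11 + (G n).rel (k0 n) i i' 11) := by rw [ha]; ring
      rw [e]; linarith
  refine pin_model HM i0 k0 (Eventually.of_forall h0) pS pS (bx2 FCXH {11} x x) l0 l0 lr ?_ hx hxR
    a v (fun t => bx2 FCXH {10, 11} x t) lQ (C1 := D ^ 2 + 1) (by positivity) ?_ ?_ ?_ ?_ ?_
    hlow hup
  · intro j
    rw [hpS]
    unfold bx2
    split_ifs <;> simp_all <;> linarith
  · intro ε hε
    filter_upwards [hR, ev_const_le W.B' hε 2] with n r h2 k hk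
    have z1 := z_bd r h hk
    have z2 := z_bd r h (HM.toRUnif.memZ (h0 n))
    refine (abs_sub _ _).trans ?_
    have : W.B'.d n ^ (-ε) ≤ W.B'.d n ^ (-((D ^ 2 + 1) * ε)) := rpow_anti W.B' n (by
      have : 0 ≤ D ^ 2 * ε := by positivity
      linarith)
    linarith
  · intro ε hε
    filter_upwards [hR, ev_const_le W.B' hε 4] with n r h4 i hi i' hi'
    have q1 := r.rel_le h (h0 n) (hbxI hi) 10
    have q2 := r.rel_le h (h0 n) (hbxI hi') 10
    refine (abs_sub _ _).trans ?_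
    have : W.B'.d n ^ (-ε) ≤ W.B'.d n ^ (-((D ^ 2 + 1) * ε)) := rpow_anti W.B' n (by
      have : 0 ≤ D ^ 2 * ε := by positivity
      linarith)
    show |(G n).rel (k0 n) (i0 n) i 10| + |(G n).rel (k0 n) (i0 n) i' 10| ≤ _
    linarith
  · intro ε hε
    filter_upwards [hR, fib ε hε, ev_const_le W.B' hε 144] with n r hf hc k hk i hi i' hi' hI hI' j
    rw [HM.base n]
    have Ii := hbxI hi
    have Ii' := hbxI hi'
    have hDε : 0 ≤ D ^ 2 * ε := by positivity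
    by_cases hj : j ∈ FCXH
    · rw [pSx j hj]
      have hp := (rpos W.B' n (x - D ^ 2 * ε)).le
      have er : W.B'.d n ^ tp ≤ W.B'.d n ^ (x - D ^ 2 * ε) := rpow_anti W.B' n (by linarith)
      have := evof r h Ii Ii' hI hI' hp (hf i hi i' hi') (mem_FCXH.1 hj)
      have e2 : x - (D ^ 2 + 1) * ε = (-ε) + (x - D ^ 2 * ε) := by ring
      rw [e2, rpow_add']
      have := mul_le_mul_of_nonneg_right hc hp
      linarith
    · rw [pSo j hj]
      refine (r.rel_le h hI hI' j).trans (one_le n ?_)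
      nlinarith
  · intro C2 hC2
    refine ⟨C2 + D ^ 2 + 1, by positivity, fun ε hε => ?_⟩
    filter_upwards [hR, fib ε hε, dif ε hε, h11, ev_const_le W.B' hε 500]
      with n r hf hd e11 hc k hk i hi i' hi' hI hI' hlo
    have Ii := hbxI hi
    have Ii' := hbxI hi'
    obtain ⟨d1, d2⟩ := hd i hi i' hi'
    have hDε : 0 ≤ D ^ 2 * ε := by positivity
    have hC2ε : 0 ≤ C2 * ε := by positivity
    have hp := (rpos W.B' n (x - D ^ 2 * ε)).le
    have v11 := evo11 r h e11 Ii Ii' hI hI' hp (hf i hi i' hi')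
    have z1 := z_bd r h hk
    have z2 := z_bd r h (HM.toRUnif.memZ (h0 n))
    have hφ : |(G n).z k - (G n).z (k0 n)| ≤ 2 := (abs_sub _ _).trans (by linarith)
    have q11 : |(G n).rel k i i' 11| ≤ W.B'.d n ^ (x - C2 * ε) := by
      have := hlo 11
      rwa [HM.base n, show bx2 FCXH {11} x x 11 = x from rfl] at this
    set φ := (G n).z k - (G n).z (k0 n) with hφd
    have e1 : (a n i' - a n i) + φ * (v n i' - v n i) =
        ((a n i' - a n i) - (G n).rel (k0 n) i i' 11) +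
        φ * ((v n i' - v n i) - (G n).rel (k0 n) i i' 10) -
        ((G n).rel k i i' 11 - ((G n).rel (k0 n) i i' 11 + φ * (G n).rel (k0 n) i i' 10)) +
        (G n).rel k i i' 11 := by ring
    have hm : |φ * ((v n i' - v n i) - (G n).rel (k0 n) i i' 10)| ≤
        2 * (96 * W.B'.d n ^ (x - D ^ 2 * ε)) := by
      rw [abs_mul]
      exact mul_le_mul hφ d1 (abs_nonneg _) (by norm_num)
    rw [e1]
    refine (abs_add_le _ _).trans ?_
    refine (add_le_add ((abs_sub _ _).trans (add_le_add ((abs_add_le _ _).trans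
      (add_le_add d2 hm)) v11)) q11).trans ?_
    have e2 : x - (C2 + D ^ 2 + 1) * ε = (-ε) + (x - (C2 + D ^ 2) * ε) := by ring
    rw [e2, rpow_add']
    have g1 : W.B'.d n ^ tp ≤ W.B'.d n ^ (x - (C2 + D ^ 2) * ε) := rpow_anti W.B' n (by nlinarith)
    have g2 : W.B'.d n ^ (x - D ^ 2 * ε) ≤ W.B'.d n ^ (x - (C2 + D ^ 2) * ε) :=
      rpow_anti W.B' n (by nlinarith)
    have g3 : W.B'.d n ^ (x - C2 * ε) ≤ W.B'.d n ^ (x - (C2 + D ^ 2) * ε) :=
      rpow_anti W.B' n (by nlinarith)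
    have hpos := rpos W.B' n (x - (C2 + D ^ 2) * ε)
    have := mul_le_mul_of_nonneg_right hc hpos.le
    linarith
  · intro C3 hC3
    refine ⟨C3 + D ^ 2 + 1, by positivity, fun t ht0 htx ε hε => ?_⟩
    filter_upwards [hR, fib ε hε, dif ε hε, ev_const_le W.B' hε 98]
      with n r hf hd hc i hi i' hi' q1 q2 j
    have Ii := hbxI hi
    have Ii' := hbxI hi'
    obtain ⟨d1, d2⟩ := hd i hi i' hi'
    rw [HM.base n]
    have hCε := mul_pos hC3 hε
    have hDε : 0 ≤ D ^ 2 * ε := by positivity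
    have f1 : W.B'.d n ^ (x - D ^ 2 * ε) ≤ W.B'.d n ^ (t - (C3 + D ^ 2) * ε) :=
      rpow_anti W.B' n (by nlinarith)
    have f3 : W.B'.d n ^ (t - C3 * ε) ≤ W.B'.d n ^ (t - (C3 + D ^ 2) * ε) :=
      rpow_anti W.B' n (by nlinarith)
    have hpos := rpos W.B' n (t - (C3 + D ^ 2) * ε)
    have fin : 98 * W.B'.d n ^ (t - (C3 + D ^ 2) * ε) ≤ W.B'.d n ^ (t - (C3 + D ^ 2 + 1) * ε) := by
      have e2 : t - (C3 + D ^ 2 + 1) * ε = (-ε) + (t - (C3 + D ^ 2) * ε) := by ring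
      rw [e2, rpow_add']
      exact mul_le_mul_of_nonneg_right hc hpos.le
    have g1 : |(G n).rel (k0 n) i i' 10| ≤ 97 * W.B'.d n ^ (t - (C3 + D ^ 2) * ε) := by
      have := ab_of d1 q1
      linarith
    have g2 : |(G n).rel (k0 n) i i' 11| ≤ 97 * W.B'.d n ^ (t - (C3 + D ^ 2) * ε) := by
      have := ab_of d2 q2
      linarith
    by_cases hj : j ∈ FCXH
    · have e : bx2 FCXH {10, 11} x t j = x := if_pos hj
      rw [e]
      exact (hf i hi i' hi' j (mem_FCXH.1 hj)).trans (rpow_anti W.B' n (by nlinarith))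
    by_cases j10 : j = 10
    · subst j10
      rw [show bx2 FCXH {10, 11} x t 10 = t from rfl]
      linarith
    by_cases j11 : j = 11
    · subst j11
      rw [show bx2 FCXH {10, 11} x t 11 = t from rfl]
      linarith
    have e : bx2 FCXH {10, 11} x t j = 0 := by
      unfold bx2
      rw [if_neg hj, if_neg (by simp [j10, j11])]
    rw [e]
    exact (r.rel_le h Ii Ii' j).trans (one_le n (by nlinarith))

end Crest.Agent.R116.Kf330
end

-- ▼ part R116/Kg0_330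
section

/-!
# R116, K side (helper330): the facts `LinFacts` (665) from windows, part 0

* `lawU_of` : 710's `LawU` for the model of a window.
* `tight_side`, `slack_side` : products of units from the base points.
-/

set_option autoImplicit false
set_option linter.unusedVariables false
set_option linter.unusedSectionVars false

open Filter Topology Finset

namespace Crest.Agent.R116.Kg330

open Crest.Agent.R138.Ex926 (Base U IsTan)
open Crest.Agent.R136.Net191 Crest.Agent.R136.Qg926 Crest.Agent.R136.Gf356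
open Crest.Agent.R116.ChL222 Crest.Agent.R116.PL504 Crest.Agent.R116.EvL504
open Crest.Agent.R116.Kr710 Crest.Agent.R116.Kf330

section

variable {ι : ℕ → Type*} [∀ n, DecidableEq (ι n)] {W : Wnd 12 ι} {E : ∀ n, Finset (ι n)}
  {K tp x : ℝ}

theorem side4 (h : WL W K tp) {n : ℕ} (e : W.X n 4 = W.X n 3) : side W n 4 = side W n 3 := by
  unfold side
  rw [h.kap, h.kap, e]; rfl

theorem side6 (h : WL W K tp) {n : ℕ} (e : W.X n 6 = W.X n 5) : side W n 6 = side W n 5 := by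
  unfold side
  rw [h.kap, h.kap, e]; rfl

theorem side8 (h : WL W K tp) {n : ℕ} (e : W.X n 8 = W.X n 7) : side W n 8 = side W n 7 := by
  unfold side
  rw [h.kap, h.kap, e]; rfl

/-- **710's `LawU` for the model of a window** -/
theorem lawU_of (h : WL W K tp) (hR : ∀ᶠ n in (U : Filter ℕ), Reg W E n) (hx : x ≤ tp)
    (e4 : ∀ᶠ n in (U : Filter ℕ), W.X n 4 = W.X n 3)
    (e6 : ∀ᶠ n in (U : Filter ℕ), W.X n 6 = W.X n 5)
    (e8 : ∀ᶠ n in (U : Filter ℕ), W.X n 8 = W.X n 7) :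
    LawU W.B' (W.cfg E) W.S (side W) x where
  S0 := h.z0
  SSL := h.hS
  sd := hR.mono fun n r => h.sides r.good
  u4 := e4.mono fun n e => side4 h e
  u6 := e6.mono fun n e => side6 h e
  u8 := e8.mono fun n e => side8 h e
  relS := hR.mono fun n r k i l s hs => r.rel_S hs
  bd := fun ε hε => hR.mono fun n r k i l hi hl s => (r.rel_le h hi hl s).trans (by
    calc (1 : ℝ) = W.B'.d n ^ (0 : ℝ) := (Real.rpow_zero _).symm
      _ ≤ _ := rpow_anti W.B' n (by linarith))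
  coc := fun ε hε => by
    filter_upwards [hR, ev_const_le W.B' hε 48] with n r c k i j l hi hj hl s hs
    refine (r.coc h hi hj hl hs).trans ?_
    have e : W.B'.d n ^ (x - ε) = W.B'.d n ^ (-ε) * W.B'.d n ^ x := by
      rw [← Real.rpow_add (W.B'.pos n)]; congr 1; ring
    rw [e]
    exact mul_le_mul c (rpow_anti W.B' n hx) (rpos W.B' n _).le (rpos W.B' n _).le

/-- tight wall : the units multiply -/
theorem tight_side (h : WL W K tp) {n : ℕ} {i j k : Fin 12} (hw : wtL i + wtL j = wtL k)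
    (e : W.X n k = W.X n i + W.X n j) : side W n i * side W n j = side W n k := by
  unfold side
  rw [h.kap, h.kap, h.kap, e, Real.rpow_add (W.B.pos n), ← hw, pow_add]
  ring

/-- slack wall -/
theorem slack_side (h : WL W K tp) {n : ℕ} {i j k : Fin 12} (hw : wtL i + wtL j = wtL k)
    {y w : ℝ} (hb : W.B'.d n = W.B.d n ^ w) (e : W.X n k + y * w ≤ W.X n i + W.X n j) :
    side W n i * side W n j ≤ W.B'.d n ^ y * side W n k := by
  have hK : 0 < K := by linarith [h.K1]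
  unfold side
  rw [h.kap, h.kap, h.kap, hb, ← hw, pow_add, ← Real.rpow_mul (W.B.pos n).le]
  have e1 : K ^ wtL i * W.B.d n ^ W.X n i * (K ^ wtL j * W.B.d n ^ W.X n j) =
      K ^ wtL i * K ^ wtL j * W.B.d n ^ (W.X n i + W.X n j) := by
    rw [Real.rpow_add (W.B.pos n)]; ring
  have e2 : W.B.d n ^ (w * y) * (K ^ wtL i * K ^ wtL j * W.B.d n ^ W.X n k) =
      K ^ wtL i * K ^ wtL j * W.B.d n ^ (W.X n k + y * w) := by
    rw [Real.rpow_add (W.B.pos n), mul_comm w y]; ring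
  rw [e1, e2]
  exact mul_le_mul_of_nonneg_left (rpow_anti W.B n e) (by positivity)

end

end Crest.Agent.R116.Kg330
end

-- ▼ part R116/Kg1_330

/-!
# R116, K side (helper330): the facts `LinFacts` (665) from windows, part 1

* `ThinB` : all the windows at the base sequence have a dead direction (one dimension).
* `BsF` : the base sequences: equal pairs, own rate `1 - s`, `ThinB`.
* `linFacts` : **`LinFacts (Leg monL R) f j0 Bs s`**.
-/

set_option autoImplicit false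
set_option linter.unusedVariables false
set_option linter.unusedSectionVars false

open Filter Topology Finset

namespace Crest.Agent.R116.Kg330

open Crest.Agent.R138.Ex926 (Base U IsTan)
open Crest.Agent.R136.Net191 Crest.Agent.R136.Qg926 Crest.Agent.R136.Gf356
open Crest.Agent.R116.ChL222 Crest.Agent.R116.PL504 Crest.Agent.R116.EvL504
open Crest.Agent.R116.Kr710 Crest.Agent.R116.Kf330 Crest.Agent.R116.WinG954
open Crest.Agent.R116.SgF665 Crest.Agent.R116.Sg337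

/-- all the windows at the base sequence `X`, unit `h` (slot `D` frozen) have a dead direction -/
def ThinB (B : Base) (I J : ℕ → Finset (ℕ × ℝ))
    (co : ∀ n : ℕ, ℕ × ℝ → ℕ × ℝ → Fin 12 → ℝ) (C : ℝ) (ν : (Fin 12 → ℝ) → ℝ)
    (X : ℕ → Fin 12 → ℝ) (h : ℕ → ℝ) : Prop :=
  ∀ (D : Set (Fin 12 → ℝ)) (lam : (Fin 12 → ℝ) → ℝ) (k' : ℕ → ℕ) (T : ℝ)
    (W : Wnd 12 (fun _ : ℕ => ℕ × ℝ)) (E : ∀ _ : ℕ, Finset (ℕ × ℝ)), Tendsto k' U atTop →
    Tendsto h atTop (𝓝 0) →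
    WinG W B I J co C D ν lam X h k' T monD (topD T) →
    (∀ᶠ n in (U : Filter ℕ), Reg W E n) → (∀ᶠ n in (U : Filter ℕ), W.Cl n ⊆ J n) →
    ∃ b : ℕ → Fin 2 → ℝ, ThinU W.B' (W.cfg E) b T

/-- **the base sequences of the facts** -/
structure BsF (B : Base) (I J : ℕ → Finset (ℕ × ℝ))
    (co : ∀ n : ℕ, ℕ × ℝ → ℕ × ℝ → Fin 12 → ℝ) (C R : ℝ) (ν : (Fin 12 → ℝ) → ℝ) (s : ℝ)
    (X : ℕ → Fin 12 → ℝ) (h : ℕ → ℝ) : Prop where
  e4 : ∀ᶠ l in atTop, X l 4 = X l 3
  e6 : ∀ᶠ l in atTop, X l 6 = X l 5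
  e8 : ∀ᶠ l in atTop, X l 8 = X l 7
  own : ∀ (D : Set (Fin 12 → ℝ)) (g : (Fin 12 → ℝ) → ℝ), LM0 ⊆ D →
    IsTan (Leg monL R) D ν X h g → ∀ y : ℝ, 0 < y →
      (1 - s) * y ≤ -(g (bx9 y 0 0 0 0 0 0 0 0))
  thin : ThinB B I J co C ν X h

variable {B : Base} {I J : ℕ → Finset (ℕ × ℝ)}
    {co : ∀ n : ℕ, ℕ × ℝ → ℕ × ℝ → Fin 12 → ℝ} {C R : ℝ} {ν : (Fin 12 → ℝ) → ℝ} {s : ℝ}
    {X : ℕ → Fin 12 → ℝ} {h : ℕ → ℝ} {Jt : Type*} {f : Jt → (Fin 12 → ℝ) → ℝ} {j0 : Jt}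
    {rz rX rH rF gC gP gE gB : ℝ}

/-- window, model and laws at the base point of a linear tangent -/
structure WD (B : Base) (I J : ℕ → Finset (ℕ × ℝ))
    (co : ∀ n : ℕ, ℕ × ℝ → ℕ × ℝ → Fin 12 → ℝ) (C : ℝ) (ν : (Fin 12 → ℝ) → ℝ) (s : ℝ)
    (X : ℕ → Fin 12 → ℝ) (h : ℕ → ℝ) (rX rH rF gC gP gE gB : ℝ)
    (k' : ℕ → ℕ) (D : Set (Fin 12 → ℝ)) (lam : (Fin 12 → ℝ) → ℝ)
    (W : Wnd 12 (fun _ : ℕ => ℕ × ℝ)) (E : ∀ _ : ℕ, Finset (ℕ × ℝ)) (b : ℕ → Fin 2 → ℝ) :
    Prop where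
  hk : Tendsto k' U atTop
  win : WinG W B I J co C D ν lam X h k' 1 monD (topD 1)
  reg : ∀ᶠ n in (U : Filter ℕ), Reg W E n
  mod : RModel W.B' (W.cfg E) (1 - s) 1 W.legW W.nu W.Dc
  thin : ThinU W.B' (W.cfg E) b 1
  law : LawU W.B' (W.cfg E) W.S (side W) 1
  nu : ∀ z E' C' X' B' N P F : ℝ, bx9 z 0 E' C' X' B' N P F ∈ W.legW →
    W.nu (bx9 z 0 E' C' X' B' N P F) =
      rX * (1 - X') + rH * (1 - N) + rF * (1 - F) + gC * (1 - C') + gP * (1 - P) +
        gE * (1 - E') + gB * (1 - B')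

/-- **the window** -/
theorem exists_wd (hN : NProf B I J co monL C R ν) (hcoc : ∀ n, Coc (co n)) (hs0 : 0 ≤ s)
    (hs1 : s ≤ 1) (hf : f j0 = ν) (HB : BsF B I J co C R ν s X h)
    (L : LinTan (Leg monL R) f j0 X h rz rX rH rF gC gP gE gB) :
    ∃ (k' : ℕ → ℕ) (D : Set (Fin 12 → ℝ)) (lam : (Fin 12 → ℝ) → ℝ)
      (W : Wnd 12 (fun _ : ℕ => ℕ × ℝ)) (E : ∀ _ : ℕ, Finset (ℕ × ℝ)) (b : ℕ → Fin 2 → ℝ),
      WD B I J co C ν s X h rX rH rF gC gP gE gB k' D lam W E b := by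
  obtain ⟨D, lam, hD, htan, hlin⟩ := L.ex
  have ht : IsTan (Leg monL R) D ν X h (lam j0) := hf ▸ htan j0
  have hrz : 1 - s ≤ rz := by
    have h1 := HB.own D (lam j0) hD ht 1 one_pos
    rw [hlin 1 0 0 0 0 0 0 0 (bx9_mem.2 (by norm_num))] at h1
    linarith
  obtain ⟨k', W, E, a1, w, a3, a4, a5, a6, a7, a8, a9⟩ := exists_winD hN hcoc L.hpos L.h0 ht hD
    (rz := rz) (rX := rX) (rH := rH) (rF := rF) (gC := gC) (gP := gP) (gE := gE) (gB := gB)
    (fun z C P E B X H F hm => hlin z C P E B X H F hm) (σ := 1 - s) (by linarith) (by linarith)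
    hrz (t := 1) one_pos (fun _ _ => 1) (fun _ => Base.Sub.const one_pos) (fun _ => (0, 0))
  obtain ⟨b, hb⟩ := HB.thin D (lam j0) k' 1 W E a1 L.h0 w a7 a5
  refine ⟨k', D, lam j0, W, E, b, a1, w, a7, a8, hb, ?_, a9⟩
  refine lawU_of w.wl a7 le_rfl ?_ ?_ ?_
  · exact w.ev_of (P := fun c _ => c 4 = c 3) HB.e4 a1
  · exact w.ev_of (P := fun c _ => c 6 = c 5) HB.e6 a1
  · exact w.ev_of (P := fun c _ => c 8 = c 7) HB.e8 a1

/-- rates of a monotone profile are nonnegative -/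
theorem rates_nonneg (hN : NProf B I J co monL C R ν) (hf : f j0 = ν)
    (L : LinTan (Leg monL R) f j0 X h rz rX rH rF gC gP gE gB) : 0 ≤ rX ∧ 0 ≤ rH := by
  obtain ⟨D, lam, hD, htan, hlin⟩ := L.ex
  have ht : IsTan (Leg monL R) D ν X h (lam j0) := hf ▸ htan j0
  have anti := ht.anti L.hpos (fun l c c' hc => by
    refine add_le_add_right ?_ _
    exact smul_le_smul_of_nonneg_left hc (L.hpos l).le) hN.anti
  have m1 : bx9 1 0 0 0 0 0 0 0 0 ∈ LM0 := bx9_mem.2 (by norm_num)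
  have m2 : bx9 1 0 0 0 1 0 0 0 0 ∈ LM0 := bx9_mem.2 (by norm_num)
  have m3 : bx9 1 0 0 0 1 0 1 0 0 ∈ LM0 := bx9_mem.2 (by norm_num)
  have l1 : bx9 1 0 0 0 0 0 0 0 0 ≤ bx9 1 0 0 0 1 0 0 0 0 := by
    intro k; fin_cases k <;> simp [bx9]
  have l2 : bx9 1 0 0 0 1 0 0 0 0 ≤ bx9 1 0 0 0 1 0 1 0 0 := by
    intro k; fin_cases k <;> simp [bx9]
  have i1 := anti _ (hD m1) _ (hD m2) l1
  have i2 := anti _ (hD m2) _ (hD m3) l2
  rw [hlin _ _ _ _ _ _ _ _ m1, hlin _ _ _ _ _ _ _ _ m2] at i1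
  rw [hlin _ _ _ _ _ _ _ _ m2, hlin _ _ _ _ _ _ _ _ m3] at i2
  constructor <;> linarith

section facts

variable {k' : ℕ → ℕ} {D : Set (Fin 12 → ℝ)} {lam : (Fin 12 → ℝ) → ℝ}
    {W : Wnd 12 (fun _ : ℕ => ℕ × ℝ)} {E : ∀ _ : ℕ, Finset (ℕ × ℝ)} {b : ℕ → Fin 2 → ℝ}

theorem WD.tight (w : WD B I J co C ν s X h rX rH rF gC gP gE gB k' D lam W E b)
    {i j k : Fin 12} (hw : wtL i + wtL j = wtL k) (e : ∀ n, X n k = X n i + X n j) :
    ∀ᶠ n in (U : Filter ℕ), side W n i * side W n j = side W n k :=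
  Eventually.of_forall fun n => tight_side w.win.wl hw
    (w.win.X_of (P := fun c => c k = c i + c j) e n)

theorem WD.wall (w : WD B I J co C ν s X h rX rH rF gC gP gE gB k' D lam W E b)
    {i j k : Fin 12} (e : ∀ n, X n k = X n i + X n j) :
    ∀ᶠ n in (U : Filter ℕ), W.X n k = W.X n i + W.X n j :=
  Eventually.of_forall fun n => w.win.X_of (P := fun c => c k = c i + c j) e n

/-- legal boxes -/
theorem WD.mem (w : WD B I J co C ν s X h rX rH rF gC gP gE gB k' D lam W E b)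
    {E' C' X' B' N P F : ℝ} (h0 : 0 ≤ E' ∧ 0 ≤ C' ∧ 0 ≤ X' ∧ 0 ≤ B' ∧ 0 ≤ N ∧ 0 ≤ P ∧ 0 ≤ F)
    (h1 : B' ≤ E' + C' ∧ N ≤ C' + X' ∧ P ≤ C' + B' ∧ F ≤ X' + B' ∧ F ≤ E' + N)
    (h2 : E' ≤ 1 ∧ C' ≤ 1 ∧ X' ≤ 1 ∧ B' ≤ 1 ∧ N ≤ 1 ∧ P ≤ 1 ∧ F ≤ 1) :
    bx9 0 0 E' C' X' B' N P F ∈ W.legW ∧ W.nu (bx9 0 0 E' C' X' B' N P F) =
      rX * (1 - X') + rH * (1 - N) + rF * (1 - F) + gC * (1 - C') + gP * (1 - P) +
        gE * (1 - E') + gB * (1 - B') := by
  have hm := (w.win.memD zero_le_one (z := 0) (D := 0)).2 ⟨rfl, h0, h1, h2⟩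
  exact ⟨hm, w.nu _ _ _ _ _ _ _ _ hm⟩

theorem e_CX (t : ℝ) : bx2 ∅ {3, 4, 5, 6} 0 t = bx9 0 0 0 t t 0 0 0 0 := by
  funext k
  fin_cases k <;> simp [bx2, bx9]

theorem e_X (t : ℝ) : bx2 ∅ {5, 6} 0 t = bx9 0 0 0 0 t 0 0 0 0 := by
  funext k
  fin_cases k <;> simp [bx2, bx9]

theorem e_0 : (0 : Fin 12 → ℝ) = bx9 0 0 0 0 0 0 0 0 0 := by
  funext k
  fin_cases k <;> simp [bx9]

theorem e_q (x : ℝ) : bx2 FCXH ∅ x 0 = bx9 0 0 0 x x 0 x 0 0 := by
  funext k
  fin_cases k <;> simp [bx2, bx9, FCXH]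

theorem e_qPF (x t : ℝ) : bx2 FCXH {10, 11} x t = bx9 0 0 0 x x 0 x t t := by
  funext k
  fin_cases k <;> simp [bx2, bx9, FCXH]

theorem e_qF (x t : ℝ) : bx2 FCXH {11} x t = bx9 0 0 0 x x 0 x 0 t := by
  funext k
  fin_cases k <;> simp [bx2, bx9, FCXH]

theorem WD.k1 (w : WD B I J co C ν s X h rX rH rF gC gP gE gB k' D lam W E b)
    (h5 : ∀ n, X n 5 = X n 0 + X n 3) (h6 : ∀ n, X n 6 = X n 0 + X n 4) :
    (0 < gC → 1 - s ≤ rX) ∧ (s < gC → 1 ≤ rX) := by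
  have m0 := w.mem (E' := 0) (C' := 0) (X' := 0) (B' := 0) (N := 0) (P := 0) (F := 0)
    (by norm_num) (by norm_num) (by norm_num)
  have mQ : ∀ t : ℝ, 0 ≤ t → t ≤ 1 → _ := fun t h0 h1 =>
    w.mem (E' := 0) (C' := t) (X' := t) (B' := 0) (N := 0) (P := 0) (F := 0)
      ⟨le_rfl, h0, h0, le_rfl, le_rfl, le_rfl, le_rfl⟩
      ⟨by linarith, by linarith, by linarith, by linarith, by linarith⟩
      ⟨by linarith, h1, h1, by linarith, by linarith, by linarith, by linarith⟩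
  have mX := w.mem (E' := 0) (C' := 0) (X' := 1) (B' := 0) (N := 0) (P := 0) (F := 0)
    (by norm_num) (by norm_num) (by norm_num)
  have key := k1f1 w.win.wl w.reg w.mod w.thin.one w.thin.tc w.thin.tx (w.wall h5) (w.wall h6)
    one_pos le_rfl le_rfl (by rw [e_0]; exact m0.1)
    (fun t h0 h1 => by rw [e_CX]; exact (mQ t h0 h1).1) (by rw [e_X]; exact mX.1)
    (f := rX) (g := gC)
    (fun t h0 h1 => by rw [e_CX, e_0, (mQ t h0 h1).2, m0.2]; linarith)
    (by rw [e_X, e_0, mX.2, m0.2]; linarith)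
  refine ⟨key.1, fun hg => key.2 (by linarith)⟩

theorem WD.k2 (w : WD B I J co C ν s X h rX rH rF gC gP gE gB k' D lam W E b)
    (h11 : ∀ n, X n 11 = X n 0 + X n 10) :
    (0 < gP → 1 - s ≤ rF) ∧ (s < gP → 1 ≤ rF) := by
  have m0 := w.mem (E' := 0) (C' := 1) (X' := 1) (B' := 0) (N := 1) (P := 0) (F := 0)
    (by norm_num) (by norm_num) (by norm_num)
  have mQ : ∀ t : ℝ, 0 ≤ t → t ≤ 1 → _ := fun t h0 h1 =>
    w.mem (E' := 0) (C' := 1) (X' := 1) (B' := 0) (N := 1) (P := t) (F := t)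
      ⟨le_rfl, zero_le_one, zero_le_one, le_rfl, zero_le_one, h0, h0⟩
      ⟨by linarith, by linarith, by linarith, by linarith, by linarith⟩
      ⟨by linarith, le_rfl, le_rfl, by linarith, le_rfl, h1, h1⟩
  have mF := w.mem (E' := 0) (C' := 1) (X' := 1) (B' := 0) (N := 1) (P := 0) (F := 1)
    (by norm_num) (by norm_num) (by norm_num)
  have key := k2f2 w.win.wl w.reg w.mod (w.wall h11)
    one_pos le_rfl le_rfl (by rw [e_q]; exact m0.1)
    (fun t h0 h1 => by rw [e_qPF]; exact (mQ t h0 h1).1) (by rw [e_qF]; exact mF.1)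
    (f := rF) (g := gP)
    (fun t h0 h1 => by rw [e_qPF, e_q, (mQ t h0 h1).2, m0.2]; linarith)
    (by rw [e_qF, e_q, mF.2, m0.2]; linarith)
  refine ⟨key.1, fun hg => key.2 (by linarith)⟩

theorem WD.h1 (w : WD B I J co C ν s X h rX rH rF gC gP gE gB k' D lam W E b) (hX : 0 ≤ rX)
    (h9 : ∀ n, X n 9 = X n 3 + X n 5) : 0 < gC → rX ≤ rH :=
  (H1_lin w.mod.toRUnif w.law w.thin (y := 1) one_pos le_rfl (w.tight rfl h9) (d := 0) (e := 0)
    (B0 := 0) (P0 := 0) (F0 := 0) (A := rX + rH + rF + gC + gP + gE + gB) (gC := gC) hX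
    (fun C1 X1 N1 a1 a2 a3 a4 a5 a6 a7 => by
      have m := w.mem (E' := 0) (C' := C1) (X' := X1) (B' := 0) (N := N1) (P := 0) (F := 0)
        ⟨le_rfl, a1, a3, le_rfl, a5, le_rfl, le_rfl⟩
        ⟨by linarith, by linarith, by linarith, by linarith, by linarith⟩
        ⟨by linarith, a2, a4, by linarith, a6, by linarith, by linarith⟩
      exact ⟨m.1, by rw [m.2]; ring⟩)).1

theorem WD.s1 (w : WD B I J co C ν s X h rX rH rF gC gP gE gB k' D lam W E b) (hX : 0 ≤ rX)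
    (h11 : ∀ n, X n 11 = X n 7 + X n 5)
    (hsl : ∀ K : ℝ, ∀ᶠ n in atTop, X n 7 + K * h n ≤ X n 1 + X n 5) : 0 < gB → rX ≤ rF := by
  have hS : ∀ k : Fin 12, k ≠ 0 → k ∉ W.S := fun k hk hm => hk (by
    rw [w.win.hS, Finset.mem_singleton] at hm; exact hm)
  have sl : ∀ᶠ n in (U : Filter ℕ), side W n 1 * side W n 5 ≤ W.B'.d n ^ (1 : ℝ) * side W n 7 := by
    filter_upwards [w.win.ev_of (P := fun c r => c 7 + 1 * r ≤ c 1 + c 5) (hsl 1) w.hk] with n hn
    refine slack_side w.win.wl rfl (w := W.w n) ?_ hn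
    rw [w.win.base, w.win.hw, w.win.hB]
  exact (S1_lin w.mod.toRUnif w.law w.thin (y := 1) one_pos le_rfl (hS 7 (by decide))
    (hS 8 (by decide)) (w.tight rfl h11) (d := 0) (e := 1) (C0 := 0) (N0 := 0) (P0 := 0)
    (Or.inr ⟨by norm_num, by norm_num⟩) (Or.inr (Or.inr sl))
    (A := rX + rH + rF + gC + gP + gB) hX
    (fun B1 X1 F1 a1 a2 a3 a4 a5 a6 a7 => by
      have m := w.mem (E' := 1) (C' := 0) (X' := X1) (B' := B1) (N := 0) (P := 0) (F := F1)
        ⟨zero_le_one, le_rfl, a3, a1, le_rfl, le_rfl, a5⟩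
        ⟨by linarith, by linarith, by linarith, by linarith, by linarith⟩
        ⟨le_rfl, by linarith, a4, a2, by linarith, by linarith, a6⟩
      exact ⟨m.1, by rw [m.2]; ring⟩)).1

theorem WD.s2 (w : WD B I J co C ν s X h rX rH rF gC gP gE gB k' D lam W E b) (hH : 0 ≤ rH)
    (h11 : ∀ n, X n 11 = X n 2 + X n 9) : 0 < gE → rH ≤ rF :=
  (S2_lin w.mod.toRUnif w.law w.thin (y := 1) one_pos le_rfl (w.tight rfl h11) (d := 0)
    (C0 := 0) (X0 := 1) (B0 := 0) (P0 := 0) le_rfl le_rfl le_rfl le_rfl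
    (A := rH + rF + gC + gP + gE + gB) hH
    (fun E1 N1 F1 a1 a2 a3 a4 a5 a6 a7 => by
      have m := w.mem (E' := E1) (C' := 0) (X' := 1) (B' := 0) (N := N1) (P := 0) (F := F1)
        ⟨a1, le_rfl, zero_le_one, le_rfl, a3, le_rfl, a5⟩
        ⟨by linarith, by linarith, by linarith, by linarith, by linarith⟩
        ⟨a2, by linarith, le_rfl, by linarith, a4, by linarith, a6⟩
      exact ⟨m.1, by rw [m.2]; ring⟩)).1

end facts

/-- **THE FACTS OF LEMMA SIG** -/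
theorem linFacts (hN : NProf B I J co monL C R ν) (hcoc : ∀ n, Coc (co n)) (hs0 : 0 ≤ s)
    (hs1 : s ≤ 1) (hf : f j0 = ν) {Bs : (ℕ → Fin 12 → ℝ) → (ℕ → ℝ) → Prop}
    (hBs : ∀ X h, Bs X h → BsF B I J co C R ν s X h) : LinFacts (Leg monL R) f j0 Bs s where
  K1 := fun X h rz rX rH rF gC gP gE gB b L h5 h6 => by
    obtain ⟨k', D, lam, W, E, b, w⟩ := exists_wd hN hcoc hs0 hs1 hf (hBs X h b) L
    exact w.k1 h5 h6
  H1 := fun X h rz rX rH rF gC gP gE gB b L h9 _ => by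
    obtain ⟨k', D, lam, W, E, b, w⟩ := exists_wd hN hcoc hs0 hs1 hf (hBs X h b) L
    exact w.h1 (rates_nonneg hN hf L).1 h9
  K2 := fun X h rz rX rH rF gC gP gE gB b L h11 => by
    obtain ⟨k', D, lam, W, E, b, w⟩ := exists_wd hN hcoc hs0 hs1 hf (hBs X h b) L
    exact w.k2 h11
  S1 := fun X h rz rX rH rF gC gP gE gB b L h11 _ => by
    obtain ⟨k', D, lam, W, E, b, w⟩ := exists_wd hN hcoc hs0 hs1 hf (hBs X h b) L
    refine w.s1 (rates_nonneg hN hf L).1 h11 fun K => ?_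
    have h1 := L.slD 7 ![0, 1, 0, 0, 0, 1, 0, 0, 0, 0, 0, 0] (by decide) (by decide) K
    filter_upwards [h1] with n hn
    have e : wl ![0, 1, 0, 0, 0, 1, 0, 0, 0, 0, 0, 0] (X n) = X n 1 + X n 5 := by
      simp [wl, Fin.sum_univ_succ]
    rwa [e] at hn
  S2 := fun X h rz rX rH rF gC gP gE gB b L h11 => by
    obtain ⟨k', D, lam, W, E, b, w⟩ := exists_wd hN hcoc hs0 hs1 hf (hBs X h b) L
    exact w.s2 (rates_nonneg hN hf L).2 h11

end Crest.Agent.R116.Kg330
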