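import Mathlib.Tactic

/-!
# R116, K-TEXT II-c: thin tie `b ≤ 2 a + k v` with `k ≤ 1`, algebraic end (helper194)

Text: helper647 (16015 (1), (2)), re-derived with all flag rates by 194.  Natural boxes `(v; a, b)`,
record `(v; -θ v, -(2θ-k) v)`, levels `z = v`, `C_a = a`, `C_b = b`, `X = v + a`, `H = v + 2a`,
`N = v + b`, `E = b - a`, `G = b - 2a`.  In the record blow-up all rates are constant on an open half
plane bounded by the record line.  `x n h` = losses of `X N H`, `m r` = rates of `C_a C_b`,
`e` = excess of `z`, `w u` = rates of the flags `E G`.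

* `exits`  : on the tie plane below the record all of `m r x h n` are `≤ s`;
* `rowW`   : `k < θ`, half plane through the direction `(-1; 1, 1)`;
* `rowS`   : `θ ≤ k`, half plane through the direction `(0; 1, 1)`, with the exchange `NZ`.
-/

set_option autoImplicit false

namespace Crest.Agent.R116.KpT194

/-- constants of one open half plane bounded by the record line -/
structure Half where
  x : ℝ
  n : ℝ
  h : ℝ
  m : ℝ
  r : ℝ
  e : ℝ
  w : ℝ
  u : ℝ

/-- all constants are nonnegative -/
structure Half.Pos (S : Half) : Prop where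
  x0 : 0 ≤ S.x
  n0 : 0 ≤ S.n
  h0 : 0 ≤ S.h
  m0 : 0 ≤ S.m
  r0 : 0 ≤ S.r
  e0 : 0 ≤ S.e
  w0 : 0 ≤ S.w
  u0 : 0 ≤ S.u

/-- `a`-derivative of the profile at fixed `v, b` -/
def Half.Fa (S : Half) (qa : ℝ) : ℝ := S.x + 2 * S.h - S.m + S.w + 2 * S.u + qa

/-- `b`-derivative of the profile at fixed `v, a` -/
def Half.Fb (S : Half) (qb : ℝ) : ℝ := S.n - S.r - S.w - S.u + qb

/-- tangential identity along the record with slopes `-θ, -θb` -/
def Half.Tan (S : Half) (c θ θb qa qb : ℝ) : Prop :=
  c + S.e = S.x + S.h + S.n - θ * S.Fa qa - θb * S.Fb qb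

/-- facts of the fan `C_a` : Kaufman / Falconer with shading -/
structure Half.FanA (S : Half) (s : ℝ) : Prop where
  kx : 0 < S.m → S.x ≤ s
  kh : 0 < S.m → S.h ≤ s
  fx : s < S.m → S.x = 0
  fh : s < S.m → S.h = 0

/-- facts of the fan `C_b` -/
structure Half.FanB (S : Half) (s : ℝ) : Prop where
  kn : 0 < S.r → S.n ≤ s
  fn : s < S.r → S.n = 0

variable {k θ s c qa qb : ℝ} {A B : Half}





end Crest.Agent.R116.KpT194
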