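import Crest.Agent.R136.Gf3_356
import Crest.Agent.R138.Fal6_658
import Crest.Agent.R136.Gr2_356

-- ▼ part R116/Kr1_710
section

/-!
# R116, K side: Falconer on one fibre, chart free (helper710)

Twin of `kauf_ex`, `kauf_G`, `kauf_rate` (R136/Gf1-3_356), with the hypotheses verbatim.
`falc_abs` finite form, `falc_ex` exponent form, `falc_G` in a `GUnif`, `falc_rate` rate form:
a direction fan of dimension `> 1 - τ` makes the positions full.
-/

set_option autoImplicit false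
set_option linter.unusedVariables false
set_option linter.unusedSectionVars false

open Filter Topology Finset

namespace Crest.Agent.R116.Kr710

open Crest.Agent.R138.Ex926 (Base U)
open Crest.Agent.R138.Fal658 Crest.Agent.R136.Gf356

/-- **Falconer, finite form.** -/
theorem falc_abs {ι : Type*} [DecidableEq ι] (S : Finset ι) (Z : Finset ℕ) (φ : ℕ → ℝ)
    (al : ι → ℕ → Prop) [∀ i, DecidablePred (al i)] (F : ι → ℕ → ℝ) (A V : ι → ℝ)
    (r K lam E : ℝ) (hr : 0 < r) (hr1 : r ≤ 1) (hK : 0 ≤ K) (hlam : 0 ≤ lam) (hE : 0 ≤ E)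
    (hSn : S.Nonempty) (hZn : Z.Nonempty) (hφ : ∀ k ∈ Z, |φ k| ≤ 2)
    (hF : ∀ k ∈ Z, ∀ i ∈ S, ∀ i' ∈ S,
      |F i k - F i' k - ((A i - A i') + φ k * (V i - V i'))| ≤ r)
    (hcell : ∀ k ∈ Z,
      (((S.filter fun i => al i k).image fun i => ⌊F i k / r⌋).card : ℝ) ≤ K)
    (hal : lam * ((S.card : ℝ) * Z.card) ≤ ∑ i ∈ S, ((Z.filter fun k => al i k).card : ℝ))
    (hV0 : ∀ i ∈ S, ∀ i' ∈ S, |V i - V i'| ≤ 1)
    (hm : ∀ t, r ≤ t → t ≤ 1 → ∀ i ∈ S, ∀ k ∈ Z,
      ((S.filter fun i' => |V i' - V i| ≤ t ∧ |A i' - A i| ≤ 2 * t).card : ℝ) *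
        ((Z.filter fun k' => |φ k' - φ k| ≤ 2 * t).card : ℝ) ≤ E * t ^ 2) :
    lam ^ 2 * (S.card : ℝ) * (Z.card : ℝ) ≤ K * (4 * CF * r * (1 + Real.log (1 / r)) * E) := by
  classical
  obtain ⟨i0, hi0⟩ := hSn
  set Sk : ℕ → Finset ι := fun k => S.filter fun i => al i k with hSk
  have hS0 : 0 < (S.card : ℝ) := by exact_mod_cast Finset.card_pos.2 ⟨i0, hi0⟩
  have hZ0 : 0 < (Z.card : ℝ) := by exact_mod_cast hZn.card_pos
  have e1 : ∑ i ∈ S, ((Z.filter fun k => al i k).card : ℝ) = ∑ k ∈ Z, ((Sk k).card : ℝ) := by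
    have : ∑ i ∈ S, (Z.filter fun k => al i k).card = ∑ k ∈ Z, (Sk k).card := by
      simp only [hSk, Finset.card_filter]
      exact Finset.sum_comm
    exact_mod_cast this
  have e2 : (∑ k ∈ Z, ((Sk k).card : ℝ)) ^ 2 ≤ (Z.card : ℝ) * ∑ k ∈ Z, ((Sk k).card : ℝ) ^ 2 :=
    sq_sum_le_card_mul_sum_sq
  have key := falconer_sup S (fun _ => (1 : ℝ)) (fun i => A i / 2) (fun i => V i - V i0) Z
    (fun _ => (1 : ℝ)) (fun k => φ k / 2) r E hr hr1 hE (fun _ _ => zero_le_one)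
    (fun _ _ => zero_le_one) (fun i hi => hV0 i hi i0 hi0)
    (fun k hk => by
      have := hφ k hk
      rw [abs_div, abs_of_pos (show (0:ℝ) < 2 by norm_num)]
      linarith)
    (by
      intro t ht1 ht2 i hi k hk
      refine le_trans (le_of_eq ?_) (hm t ht1 ht2 i hi k hk)
      unfold mB mI
      rw [Finset.sum_const, nsmul_eq_mul, mul_one, Finset.sum_const, nsmul_eq_mul, mul_one]
      congr 3
      · refine Finset.filter_congr fun j _ => ?_
        have a1 : |A j / 2 - A i / 2| ≤ t ↔ |A j - A i| ≤ 2 * t := by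
          rw [← sub_div, abs_div, abs_of_pos (show (0:ℝ) < 2 by norm_num), div_le_iff₀ (by norm_num)]
          rw [mul_comm t 2]
        have a2 : V j - V i0 - (V i - V i0) = V j - V i := by ring
        rw [a1, a2]
        tauto
      · refine Finset.filter_congr fun j _ => ?_
        rw [← sub_div, abs_div, abs_of_pos (show (0:ℝ) < 2 by norm_num), div_le_iff₀ (by norm_num)]
        rw [mul_comm t 2])
  have e3 : ∑ k ∈ Z, ((Sk k).card : ℝ) ^ 2 ≤
      K * ∑ k ∈ Z, (1 : ℝ) * ∑ i ∈ S, ∑ j ∈ S with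
        |(A i / 2 - A j / 2) + φ k / 2 * ((V i - V i0) - (V j - V i0))| ≤ r, (1 : ℝ) * 1 := by
    rw [Finset.mul_sum]
    refine Finset.sum_le_sum fun k hk => ?_
    have h1 := sq_le_card_mul_energy S (Sk k) (Finset.filter_subset _ _) (fun _ => (1 : ℝ))
      (fun _ _ => zero_le_one) (fun i => A i / 2 + φ k / 2 * (V i - V i0)) r
      (fun i => ⌊F i k / r⌋) (by
        intro i hi j hj hij
        have a1 := Int.abs_sub_lt_one_of_floor_eq_floor hij
        rw [← sub_div, abs_div, abs_of_pos hr, div_lt_one hr] at a1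
        have a2 := hF k hk i (Finset.mem_filter.1 hi).1 j (Finset.mem_filter.1 hj).1
        have a3 : |(A i - A j) + φ k * (V i - V j)| ≤ 2 * r := by
          have e : (A i - A j) + φ k * (V i - V j) = (F i k - F j k) -
              (F i k - F j k - ((A i - A j) + φ k * (V i - V j))) := by ring
          rw [e]
          refine (abs_sub _ _).trans ?_
          linarith
        have e : A i / 2 + φ k / 2 * (V i - V i0) - (A j / 2 + φ k / 2 * (V j - V i0)) =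
            ((A i - A j) + φ k * (V i - V j)) / 2 := by ring
        rw [e, abs_div, abs_of_pos (show (0:ℝ) < 2 by norm_num)]
        linarith)
    rw [Finset.sum_const, nsmul_eq_mul, mul_one] at h1
    refine h1.trans ?_
    have h2 : ∑ i ∈ S, ∑ j ∈ S with
        |(A i / 2 + φ k / 2 * (V i - V i0)) - (A j / 2 + φ k / 2 * (V j - V i0))| ≤ r, (1 : ℝ) * 1 =
        ∑ i ∈ S, ∑ j ∈ S with
        |(A i / 2 - A j / 2) + φ k / 2 * ((V i - V i0) - (V j - V i0))| ≤ r, (1 : ℝ) * 1 := by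
      refine Finset.sum_congr rfl fun i _ => ?_
      refine Finset.sum_congr ?_ fun _ _ => rfl
      refine Finset.filter_congr fun j _ => ?_
      rw [show (A i / 2 + φ k / 2 * (V i - V i0)) - (A j / 2 + φ k / 2 * (V j - V i0)) =
        (A i / 2 - A j / 2) + φ k / 2 * ((V i - V i0) - (V j - V i0)) by ring]
    have h3 : 0 ≤ ∑ i ∈ S, ∑ j ∈ S with
        |(A i / 2 - A j / 2) + φ k / 2 * ((V i - V i0) - (V j - V i0))| ≤ r, (1 : ℝ) * 1 :=
      Finset.sum_nonneg fun i _ => Finset.sum_nonneg fun j _ => by norm_num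
    rw [h2]
    refine le_trans (mul_le_mul_of_nonneg_right (hcell k hk) h3) (le_of_eq ?_)
    ring
  have e4 : K * ∑ k ∈ Z, (1 : ℝ) * ∑ i ∈ S, ∑ j ∈ S with
        |(A i / 2 - A j / 2) + φ k / 2 * ((V i - V i0) - (V j - V i0))| ≤ r, (1 : ℝ) * 1 ≤
      K * (4 * CF * r * (1 + Real.log (1 / r)) * (S.card : ℝ) * E) := by
    refine mul_le_mul_of_nonneg_left ?_ hK
    refine key.trans (le_of_eq ?_)
    rw [Finset.sum_const, nsmul_eq_mul, mul_one]
  have h1 : (lam * ((S.card : ℝ) * Z.card)) ^ 2 ≤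
      (Z.card : ℝ) * (K * (4 * CF * r * (1 + Real.log (1 / r)) * (S.card : ℝ) * E)) := by
    refine (pow_le_pow_left₀ (by positivity) (hal.trans (le_of_eq e1)) 2).trans (e2.trans ?_)
    exact mul_le_mul_of_nonneg_left (e3.trans e4) hZ0.le
  have h2 : ((S.card : ℝ) * Z.card) * (lam ^ 2 * (S.card : ℝ) * (Z.card : ℝ)) ≤
      ((S.card : ℝ) * Z.card) * (K * (4 * CF * r * (1 + Real.log (1 / r)) * E)) := by
    refine le_trans (le_of_eq ?_) (h1.trans (le_of_eq ?_))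
    · ring
    · ring
  exact le_of_mul_le_mul_left h2 (by positivity)

/-- logarithms are absorbed -/
theorem ev_log_le (B : Base) {x t : ℝ} (ht : 0 < t) (C : ℝ) :
    ∀ᶠ n in (U : Filter ℕ), C * (1 + x * B.L n) ≤ B.d n ^ (-t) := by
  have h1 : ∀ᶠ n in (U : Filter ℕ), (|C| * (1 + |x|) + 1) * (1 + B.L n) ≤ B.d n ^ (-t) := by
    have h2 : B.PB (fun n => (|C| * (1 + |x|) + 1) * (1 + B.L n)) :=
      (Base.PB.const (by positivity)).mul Base.Sub.one_add_L.1
    have h3 : B.ex (fun n => (|C| * (1 + |x|) + 1) * (1 + B.L n)) = 0 := by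
      rw [Base.ex_mul (Base.PB.const (by positivity)) Base.Sub.one_add_L.1, Base.ex_const,
        Base.Sub.one_add_L.2]
      ring
    have h4 := Base.ex_lt_iff_dpow h2 (a := t) (by rw [h3]; exact ht)
    filter_upwards [h4] with n hn
    exact hn.le
  filter_upwards [h1] with n hn
  refine le_trans ?_ hn
  have hL := B.L_pos n
  have h2 : C * (1 + x * B.L n) ≤ |C| * |1 + x * B.L n| := by
    rw [← abs_mul]; exact le_abs_self _
  have h3 : |1 + x * B.L n| ≤ 1 + |x| * B.L n := by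
    refine (abs_add_le _ _).trans ?_
    rw [abs_one, abs_mul, abs_of_pos hL]
  have h4 : 1 + |x| * B.L n ≤ (1 + |x|) * (1 + B.L n) := by
    have := abs_nonneg x
    nlinarith
  have h5 : |C| * |1 + x * B.L n| ≤ |C| * ((1 + |x|) * (1 + B.L n)) :=
    mul_le_mul_of_nonneg_left (h3.trans h4) (abs_nonneg _)
  have h6 : (0:ℝ) < 1 + B.L n := by linarith
  nlinarith


/-! ### in a `GUnif` -/

variable {κ : Type} [Fintype κ] {B : Base} {G : ℕ → GCfg κ} {σ R : ℝ} {ν : (κ → ℝ) → ℝ}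



end Crest.Agent.R116.Kr710
end

-- ▼ part R116/Kr2_710
section

/-!
# R116, K side: Falconer on one fibre, relative coordinates with walls (helper710)

Twins of `kauf_exE` (Gr0_356), `kauf_R`, `kauf_rate_R` (Gr2_356), hypotheses verbatim:
`falc_exE`, `falc_R`, `falc_rate_R`: a pair rate `≥ f + g` with `g > 1 - τ` makes the positions full.
-/

set_option autoImplicit false
set_option linter.unusedVariables false
set_option linter.unusedSectionVars false

open Filter Topology Finset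

namespace Crest.Agent.R116.Kr710

open Crest.Agent.R138.Ex926 (Base U)
open Crest.Agent.R138.Fal658 Crest.Agent.R136.Gf356

/-- **Falconer in exponent form, with losses everywhere.** -/
theorem falc_exE (B : Base) {ι : Type*} [DecidableEq ι] (S : ℝ → ℕ → Finset ι)
    (Z : ℝ → ℕ → Finset ℕ)
    (φ : ℕ → ℕ → ℝ) (al : ℕ → ι → ℕ → Prop) [∀ n i, DecidablePred (al n i)]
    (F : ℕ → ι → ℕ → ℝ) (A V : ℕ → ι → ℝ) {x σ α κ C C2 C0 : ℝ} (hx : 0 < x) (hσ0 : 0 ≤ σ)
    (hσ1 : σ ≤ 1) (hC : 1 ≤ C) (hC2 : 1 ≤ C2) {J : ℕ} (hJ : 0 < J) (π : ℕ → ℝ)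
    (hZ : ∀ ε : ℝ, 0 < ε → ∀ᶠ n in (U : Filter ℕ), (Z ε n).Nonempty)
    (hφ : ∀ ε : ℝ, 0 < ε → ∀ᶠ n in (U : Filter ℕ), ∀ k ∈ Z ε n, |φ n k| ≤ B.d n ^ (-(C * ε)))
    (hF : ∀ ε : ℝ, 0 < ε → ∀ᶠ n in (U : Filter ℕ), ∀ k ∈ Z ε n, ∀ i ∈ S ε n, ∀ i' ∈ S ε n,
      |F n i k - F n i' k - ((A n i - A n i') + φ n k * (V n i - V n i'))|
        ≤ B.d n ^ (x - C * ε))
    (hS : ∀ ε : ℝ, 0 < ε → ∀ᶠ n in (U : Filter ℕ), B.d n ^ (-α + C * ε) ≤ ((S ε n).card : ℝ))
    (hcell : ∀ ε : ℝ, 0 < ε → ∀ᶠ n in (U : Filter ℕ), ∀ k ∈ Z ε n,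
      ((((S ε n).filter fun i => al n i k).image fun i => ⌊F n i k / B.d n ^ (x - C * ε)⌋).card : ℝ)
        ≤ C0 * B.d n ^ (-κ - C2 * ε))
    (hal : ∀ ε : ℝ, 0 < ε → ∀ᶠ n in (U : Filter ℕ), ∀ i ∈ S ε n,
      B.d n ^ (C * ε) * ((Z ε n).card : ℝ) ≤ (((Z ε n).filter fun k => al n i k).card : ℝ))
    (hV0 : ∀ ε : ℝ, 0 < ε → ∀ᶠ n in (U : Filter ℕ), ∀ i ∈ S ε n, ∀ i' ∈ S ε n,
      |V n i - V n i'| ≤ B.d n ^ (-(C * ε)))
    (hP : ∀ j ≤ J, ∀ ε : ℝ, 0 < ε → ∀ᶠ n in (U : Filter ℕ), ∀ i ∈ S ε n,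
      (((S ε n).filter fun i' => |V n i' - V n i| ≤ B.d n ^ (sc x J j - C * ε) ∧
        |A n i' - A n i| ≤ B.d n ^ (sc x J j - (2 * C + 1) * ε)).card : ℝ)
          ≤ B.d n ^ (-π j - C2 * ε))
    (hQ : ∀ y : ℝ, 0 ≤ y → y ≤ x → ∀ ε : ℝ, 0 < ε → ∀ᶠ n in (U : Filter ℕ), ∀ k ∈ Z ε n,
      (((Z ε n).filter fun k' => |φ n k' - φ n k| ≤ B.d n ^ (y - ε)).card : ℝ)
        ≤ B.d n ^ (σ * y - C2 * ε) * ((Z ε n).card : ℝ)) :
    ∃ j ≤ J, α - π j + σ * sc x J j + x - 2 * sc x J (j + 1) ≤ κ := by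
  classical
  obtain ⟨j, hj, h⟩ := exists_le_of_ev B J
    (fun j => -κ + x - π j + σ * sc x J j - 2 * sc x J (j + 1)) (-α)
    (20 * C + 3 * C2 + 12) (|C0|) (by
    intro ε hε
    have hCε : 0 ≤ C * ε := by positivity
    have hC2ε : 0 ≤ C2 * ε := by positivity
    have ev1 : ∀ᶠ n in (U : Filter ℕ), ∀ j ∈ range (J + 1), ∀ i ∈ S ε n,
        (((S ε n).filter fun i' => |V n i' - V n i| ≤ B.d n ^ (sc x J j - C * ε) ∧
          |A n i' - A n i| ≤ B.d n ^ (sc x J j - (2 * C + 1) * ε)).card : ℝ)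
            ≤ B.d n ^ (-π j - C2 * ε) := by
      rw [Filter.eventually_all_finset]
      intro j hj
      exact hP j (by simpa [Nat.lt_succ_iff] using hj) ε hε
    have ev2 : ∀ᶠ n in (U : Filter ℕ), ∀ j ∈ range (J + 1), ∀ k ∈ Z ε n,
        (((Z ε n).filter fun k' =>
          |φ n k' - φ n k| ≤ B.d n ^ (max (sc x J j - C * ε) 0 - ε)).card : ℝ)
          ≤ B.d n ^ (σ * max (sc x J j - C * ε) 0 - C2 * ε) * ((Z ε n).card : ℝ) := by
      rw [Filter.eventually_all_finset]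
      intro j hj
      have hj' : j ≤ J := by simpa [Nat.lt_succ_iff] using hj
      exact hQ (max (sc x J j - C * ε) 0) (le_max_right _ _)
        (max_le (by linarith [sc_le hx.le hJ hj']) hx.le) ε hε
    filter_upwards [ev1, ev2, hZ ε hε, hφ ε hε, hF ε hε, hS ε hε, hcell ε hε, hal ε hε, hV0 ε hε,
      ev_const_le B hε 8, ev_log_le B (x := x + C * ε) hε (4 * CF)] with
      n h1 h2 hZn hφn hFn hSn hcn haln hVn h7 hlog
    have hpow : ∀ t : ℝ, 0 < B.d n ^ t := fun t => rpos B n t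
    have hCF := CF_pos
    have hSne : (S ε n).Nonempty := by
      rw [← Finset.card_pos]
      have : (0 : ℝ) < ((S ε n).card : ℝ) := lt_of_lt_of_le (hpow _) hSn
      exact_mod_cast this
    have hZ0 : (0 : ℝ) < ((Z ε n).card : ℝ) := by exact_mod_cast hZn.card_pos
    -- rescaling
    set u := B.d n ^ (C * ε) with hu
    have hu0 : 0 < u := hpow _
    have huv : u * B.d n ^ (-(C * ε)) = 1 := by
      rw [hu, ← rpow_add', add_neg_cancel, Real.rpow_zero]
    set r := B.d n ^ (x + C * ε) with hr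
    have hr1 : r ≤ 1 := Real.rpow_le_one (B.pos n).le (B.lt n).le (by linarith)
    have hru : r = u ^ 2 * B.d n ^ (x - C * ε) := by
      rw [hr, hu, sq, ← rpow_add', ← rpow_add']; congr 1; ring
    set e : ℕ → ℝ := fun j => -π j - 2 * C2 * ε + σ * (sc x J j - C * ε) -
      2 * (sc x J (j + 1) + C * ε) with he
    set E : ℝ := ((Z ε n).card : ℝ) * ∑ j ∈ range (J + 1), B.d n ^ e j with hE
    have hsum0 : 0 ≤ ∑ j ∈ range (J + 1), B.d n ^ e j := Finset.sum_nonneg fun j _ => (hpow _).le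
    have hE0 : 0 ≤ E := mul_nonneg hZ0.le hsum0
    have key := falc_abs (S ε n) (Z ε n) (fun k => u * φ n k) (al n)
      (fun i k => u ^ 2 * F n i k) (fun i => u ^ 2 * A n i) (fun i => u * V n i) r
      (|C0| * B.d n ^ (-κ - C2 * ε)) (B.d n ^ (C * ε)) E (hpow _) hr1
      (mul_nonneg (abs_nonneg _) (hpow _).le) (hpow _).le hE0 hSne hZn
      (by
        intro k hk
        have := hφn k hk
        rw [abs_mul, abs_of_pos hu0]
        calc u * |φ n k| ≤ u * B.d n ^ (-(C * ε)) := mul_le_mul_of_nonneg_left this hu0.le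
          _ = 1 := huv
          _ ≤ 2 := by norm_num)
      (by
        intro k hk i hi i' hi'
        have := hFn k hk i hi i' hi'
        have e1 : u ^ 2 * F n i k - u ^ 2 * F n i' k -
            ((u ^ 2 * A n i - u ^ 2 * A n i') + u * φ n k * (u * V n i - u * V n i')) =
            u ^ 2 * (F n i k - F n i' k - ((A n i - A n i') + φ n k * (V n i - V n i'))) := by ring
        rw [e1, abs_mul, abs_of_pos (by positivity), hru]
        exact mul_le_mul_of_nonneg_left this (by positivity))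
      (by
        intro k hk
        refine le_trans (le_of_eq ?_) ((hcn k hk).trans
          (mul_le_mul_of_nonneg_right (le_abs_self _) (hpow _).le))
        congr 2
        refine Finset.image_congr ?_
        intro i _
        simp only
        rw [hru, mul_div_mul_left _ _ (by positivity)])
      (by
        calc B.d n ^ (C * ε) * (((S ε n).card : ℝ) * (Z ε n).card)
            = ∑ i ∈ S ε n, B.d n ^ (C * ε) * ((Z ε n).card : ℝ) := by
              rw [Finset.sum_const, nsmul_eq_mul]; ring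
          _ ≤ _ := Finset.sum_le_sum fun i hi => haln i hi)
      (by
        intro i hi i' hi'
        have := hVn i hi i' hi'
        rw [← mul_sub, abs_mul, abs_of_pos hu0]
        calc u * |V n i - V n i'| ≤ u * B.d n ^ (-(C * ε)) := mul_le_mul_of_nonneg_left this hu0.le
          _ = 1 := huv)
      (by
        intro t ht1 ht2 i hi k hk
        have ht0 : 0 < t := lt_of_lt_of_le (hpow _) ht1
        have hlρ : Real.log (B.d n) < 0 := Real.log_neg (B.pos n) (B.lt n)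
        set w : ℝ := Real.log t / Real.log (B.d n) with hw
        have hrw : t = B.d n ^ w := by
          rw [Real.rpow_def_of_pos (B.pos n), hw, mul_div_cancel₀ _ hlρ.ne, Real.exp_log ht0]
        have hw0 : 0 ≤ w := div_nonneg_of_nonpos (Real.log_nonpos ht0.le ht2) hlρ.le
        have hwx : w ≤ x + C * ε := by
          have h3 := Real.log_le_log (hpow _) ht1
          rw [Real.log_rpow (B.pos n)] at h3
          rw [hw, div_le_iff_of_neg hlρ]
          exact h3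
        have hJr : (0 : ℝ) < J := by exact_mod_cast hJ
        obtain ⟨j, hjJ, hj1, hj2⟩ : ∃ j ≤ J, sc x J j ≤ w ∧ w ≤ sc x J (j + 1) + C * ε := by
          rcases le_total w x with hle | hle
          · refine ⟨⌊w * J / x⌋₊, ?_, ?_, ?_⟩
            · have h3 : w * J / x ≤ J := by
                rw [div_le_iff₀ hx]
                nlinarith
              have h4 := Nat.floor_le_floor h3
              simpa using h4
            · have h3 := Nat.floor_le (show 0 ≤ w * J / x by positivity)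
              rw [le_div_iff₀ hx] at h3
              unfold sc
              rw [div_le_iff₀ hJr]
              linarith
            · have h3 := Nat.lt_floor_add_one (w * J / x)
              rw [div_lt_iff₀ hx] at h3
              have h4 : w ≤ sc x J (⌊w * J / x⌋₊ + 1) := by
                unfold sc
                rw [le_div_iff₀ hJr]
                push_cast
                linarith
              linarith
          · refine ⟨J, le_rfl, ?_, ?_⟩
            · rw [sc_top x hJ]; exact hle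
            · rw [sc_succ x hJ, sc_top x hJ]
              have : 0 ≤ x / J := by positivity
              linarith
        have hjr : j ∈ range (J + 1) := Finset.mem_range.2 (by omega)
        have htj : t ≤ B.d n ^ sc x J j := by rw [hrw]; exact rpow_anti B n hj1
        have hinv : u * B.d n ^ (sc x J j - C * ε) = B.d n ^ sc x J j := by
          rw [hu, ← rpow_add']; congr 1; ring
        have c1 : (((S ε n).filter fun i' => |u * V n i' - u * V n i| ≤ t ∧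
            |u ^ 2 * A n i' - u ^ 2 * A n i| ≤ 2 * t).card : ℝ) ≤ B.d n ^ (-π j - C2 * ε) := by
          refine le_trans ?_ (h1 j hjr i hi)
          exact_mod_cast Finset.card_le_card (by
            intro i' hi'
            obtain ⟨b1, b2, b3⟩ := Finset.mem_filter.1 hi'
            rw [← mul_sub, abs_mul, abs_of_pos hu0] at b2
            rw [← mul_sub, abs_mul, abs_of_pos (show 0 < u ^ 2 by positivity)] at b3
            refine Finset.mem_filter.2 ⟨b1, ?_, ?_⟩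
            · refine le_of_mul_le_mul_left (a := u) ?_ hu0
              rw [hinv]
              exact b2.trans htj
            · refine le_of_mul_le_mul_left (a := u ^ 2) ?_ (by positivity)
              have e1 : u ^ 2 * B.d n ^ (sc x J j - (2 * C + 1) * ε) =
                  B.d n ^ sc x J j * B.d n ^ (-ε) := by
                rw [hu, sq, ← rpow_add', ← rpow_add', ← rpow_add']; congr 1; ring
              rw [e1]
              refine b3.trans ?_
              nlinarith [hpow (sc x J j)])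
        have h2t : 2 * t ≤ u * B.d n ^ (sc x J j - C * ε - ε) := by
          have e3 : u * B.d n ^ (sc x J j - C * ε - ε) = B.d n ^ sc x J j * B.d n ^ (-ε) := by
            rw [hu, ← rpow_add', ← rpow_add']; congr 1; ring
          rw [e3]
          nlinarith [hpow (sc x J j)]
        have c2 : (((Z ε n).filter fun k' => |u * φ n k' - u * φ n k| ≤ 2 * t).card : ℝ)
            ≤ B.d n ^ (σ * (sc x J j - C * ε) - C2 * ε) * ((Z ε n).card : ℝ) := by
          rcases le_total (sc x J j - C * ε) 0 with hle | hle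
          · have b3 : (((Z ε n).filter fun k' => |u * φ n k' - u * φ n k| ≤ 2 * t).card : ℝ) ≤
                (Z ε n).card := by
              exact_mod_cast Finset.card_le_card (Finset.filter_subset _ _)
            refine b3.trans ?_
            have b4 : (1 : ℝ) ≤ B.d n ^ (σ * (sc x J j - C * ε) - C2 * ε) := by
              apply Real.one_le_rpow_of_pos_of_le_one_of_nonpos (B.pos n) (B.lt n).le
              have : σ * (sc x J j - C * ε) ≤ 0 := mul_nonpos_of_nonneg_of_nonpos hσ0 hle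
              linarith
            nlinarith
          · have b1 := h2 j hjr k hk
            rw [max_eq_left hle] at b1
            refine le_trans ?_ b1
            exact_mod_cast Finset.card_le_card (by
              intro k' hk'
              rw [Finset.mem_filter] at hk' ⊢
              refine ⟨hk'.1, ?_⟩
              have b5 := hk'.2
              rw [← mul_sub, abs_mul, abs_of_pos hu0] at b5
              exact le_of_mul_le_mul_left (b5.trans h2t) hu0)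
        calc _ ≤ B.d n ^ (-π j - C2 * ε) *
              (B.d n ^ (σ * (sc x J j - C * ε) - C2 * ε) * ((Z ε n).card : ℝ)) :=
              mul_le_mul c1 c2 (Nat.cast_nonneg _) (hpow _).le
          _ = ((Z ε n).card : ℝ) * (B.d n ^ e j * B.d n ^ (2 * (sc x J (j + 1) + C * ε))) := by
              rw [← mul_assoc, ← rpow_add', ← rpow_add', he]
              simp only
              rw [mul_comm]
              congr 2
              ring
          _ ≤ ((Z ε n).card : ℝ) * (B.d n ^ e j * t ^ 2) := by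
              refine mul_le_mul_of_nonneg_left ?_ hZ0.le
              refine mul_le_mul_of_nonneg_left ?_ (hpow _).le
              rw [hrw, ← Real.rpow_natCast (B.d n ^ w) 2, ← Real.rpow_mul (B.pos n).le]
              refine rpow_anti B n ?_
              push_cast
              linarith
          _ ≤ E * t ^ 2 := by
              have : B.d n ^ e j ≤ ∑ j ∈ range (J + 1), B.d n ^ e j :=
                Finset.single_le_sum (f := fun j => B.d n ^ e j) (fun i _ => (hpow _).le) hjr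
              rw [hE]
              have ht2 : 0 ≤ t ^ 2 := sq_nonneg t
              have := mul_le_mul_of_nonneg_left (mul_le_mul_of_nonneg_right this ht2) hZ0.le
              refine this.trans (le_of_eq ?_)
              ring)
    -- the logarithm
    have hl : Real.log (1 / r) = (x + C * ε) * B.L n := by
      rw [one_div, Real.log_inv, hr, Real.log_rpow (B.pos n)]
      unfold Base.L
      ring
    have hl2 : 4 * CF * (1 + Real.log (1 / r)) ≤ B.d n ^ (-ε) := by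
      rw [hl]
      exact hlog
    have k2 : (B.d n ^ (C * ε)) ^ 2 * ((S ε n).card : ℝ) ≤
        |C0| * B.d n ^ (-κ - C2 * ε) * (r * B.d n ^ (-ε) * ∑ j ∈ range (J + 1), B.d n ^ e j) := by
      have k3 : ((Z ε n).card : ℝ) * ((B.d n ^ (C * ε)) ^ 2 * ((S ε n).card : ℝ)) ≤
          ((Z ε n).card : ℝ) * (|C0| * B.d n ^ (-κ - C2 * ε) *
            (r * B.d n ^ (-ε) * ∑ j ∈ range (J + 1), B.d n ^ e j)) := by
        calc _ = (B.d n ^ (C * ε)) ^ 2 * ((S ε n).card : ℝ) * ((Z ε n).card : ℝ) := by ring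
          _ ≤ _ := key
          _ = (|C0| * B.d n ^ (-κ - C2 * ε)) * (r * E) * (4 * CF * (1 + Real.log (1 / r))) := by ring
          _ ≤ (|C0| * B.d n ^ (-κ - C2 * ε)) * (r * E) * B.d n ^ (-ε) := by
              refine mul_le_mul_of_nonneg_left hl2 ?_
              exact mul_nonneg (mul_nonneg (abs_nonneg _) (hpow _).le) (mul_nonneg (hpow _).le hE0)
          _ = _ := by rw [hE]; ring
      exact le_of_mul_le_mul_left k3 hZ0
    calc B.d n ^ (-α + (20 * C + 3 * C2 + 12) * ε) ≤ B.d n ^ (-α + 3 * C * ε) :=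
          rpow_anti B n (by nlinarith)
      _ = (B.d n ^ (C * ε)) ^ 2 * B.d n ^ (-α + C * ε) := by
          rw [sq, ← rpow_add', ← rpow_add']; congr 1; ring
      _ ≤ (B.d n ^ (C * ε)) ^ 2 * ((S ε n).card : ℝ) := mul_le_mul_of_nonneg_left hSn (by positivity)
      _ ≤ _ := k2
      _ = |C0| * ∑ j ∈ range (J + 1), B.d n ^ (-κ + x - π j + σ * sc x J j - 2 * sc x J (j + 1)
            - (3 * C2 + C + σ * C + 1) * ε) := by
          rw [mul_assoc, Finset.mul_sum, Finset.mul_sum]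
          congr 1
          refine Finset.sum_congr rfl fun j _ => ?_
          rw [hr, ← rpow_add', ← rpow_add', ← rpow_add']
          congr 1
          simp only [he]
          ring
      _ ≤ _ := by
          refine mul_le_mul_of_nonneg_left ?_ (abs_nonneg _)
          refine Finset.sum_le_sum fun j _ => rpow_anti B n ?_
          have : σ * C ≤ C := by nlinarith
          nlinarith)
  refine ⟨j, hj, ?_⟩
  linarith

variable {κ : Type} {B : Base} {G : ℕ → RCfg κ} {Leg : Set (κ → ℝ)} {ν : (κ → ℝ) → ℝ}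
  {σ R D : ℝ}


/-- elementary: from all `J` to the rate -/
theorem frate_of_forall {x τ f g : ℝ} (hx : 0 < x) (hτ0 : 0 ≤ τ) (hτ1 : τ ≤ 1) (hg : 1 - τ < g)
    {a : ℝ → ℝ} {b : ℝ}
    (h : ∀ J : ℕ, 0 < J → ∃ j ≤ J, a (sc x J j) + τ * sc x J j + x - 2 * sc x J (j + 1) ≤ b)
    (hlow : ∀ t : ℝ, 0 ≤ t → t ≤ x → (f + g) * t ≤ a t) (hup : b ≤ f * x) : 1 ≤ f := by
  by_contra hcon
  push Not at hcon
  set b' := min (1 - f) (g - (1 - τ)) with hb
  have hb0 : 0 < b' := lt_min (by linarith) (by linarith)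
  obtain ⟨J, hJ⟩ := exists_nat_gt (2 / b')
  have hJ0 : 0 < J := by
    rcases Nat.eq_zero_or_pos J with h | h
    · rw [h] at hJ
      have : 0 ≤ 2 / b' := by positivity
      simp at hJ
      linarith
    · exact h
  have hJr : (0 : ℝ) < J := by exact_mod_cast hJ0
  obtain ⟨j, hj, h⟩ := h J hJ0
  have h1 := hlow _ (sc_nonneg hx.le J j) (sc_le hx.le hJ0 hj)
  rw [sc_succ x hJ0] at h
  set t := sc x J j with ht
  have ht0 : 0 ≤ t := sc_nonneg hx.le J j
  have htx : t ≤ x := sc_le hx.le hJ0 hj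
  have h2 : (1 - f) * (x - t) + (g - (1 - τ)) * t ≤ 2 * (x / J) := by nlinarith
  have h3 : b' * x ≤ (1 - f) * (x - t) + (g - (1 - τ)) * t := by
    have e1 : b' ≤ 1 - f := min_le_left _ _
    have e2 : b' ≤ g - (1 - τ) := min_le_right _ _
    nlinarith
  have h4 : b' * x ≤ 2 * (x / J) := h3.trans h2
  have h5 : 2 < b' * J := by rwa [div_lt_iff₀ hb0, mul_comm] at hJ
  have h6 : 2 * (x / J) < b' * x := by
    rw [mul_div_assoc', div_lt_iff₀ hJr]
    nlinarith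
  linarith


end Crest.Agent.R116.Kr710
end

-- ▼ part R116/Kr3_710
section

/-!
# R116, K side: exponent forms of Kaufman and Falconer with `ε`-dependent incidence (helper710)
-/

set_option autoImplicit false
set_option linter.unusedVariables false
set_option linter.unusedSectionVars false

open Filter Topology Finset

namespace Crest.Agent.R116.Kr710

open Crest.Agent.R138.Ex926 (Base U)
open Crest.Agent.R138.Fal658 Crest.Agent.R136.Gf356

/-- Kaufman in exponent form, `alive` may depend on `ε` (copy of 356's `kauf_exE`). -/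
theorem kauf_exA (B : Base) {ι : Type*} [DecidableEq ι] (S : ℝ → ℕ → Finset ι)
    (Z : ℝ → ℕ → Finset ℕ)
    (φ : ℕ → ℕ → ℝ) (al : ℝ → ℕ → ι → ℕ → Prop)
    [∀ ε n i, DecidablePred (al ε n i)]
    (F : ℕ → ι → ℕ → ℝ) (A V : ℕ → ι → ℝ) {x σ α κ C C2 C0 : ℝ} (hx : 0 < x) (hσ0 : 0 ≤ σ)
    (hσ1 : σ ≤ 1) (hC : 1 ≤ C) (hC2 : 1 ≤ C2) {J : ℕ} (hJ : 0 < J) (π : ℕ → ℝ)
    (hZ : ∀ ε : ℝ, 0 < ε → ∀ᶠ n in (U : Filter ℕ), (Z ε n).Nonempty)
    (hφ : ∀ ε : ℝ, 0 < ε → ∀ᶠ n in (U : Filter ℕ), ∀ k ∈ Z ε n, |φ n k| ≤ B.d n ^ (-(C * ε)))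
    (hF : ∀ ε : ℝ, 0 < ε → ∀ᶠ n in (U : Filter ℕ), ∀ k ∈ Z ε n, ∀ i ∈ S ε n, ∀ i' ∈ S ε n,
      |F n i k - F n i' k - ((A n i - A n i') + φ n k * (V n i - V n i'))|
        ≤ B.d n ^ (x - C * ε))
    (hS : ∀ ε : ℝ, 0 < ε → ∀ᶠ n in (U : Filter ℕ), B.d n ^ (-α + C * ε) ≤ ((S ε n).card : ℝ))
    (hcell : ∀ ε : ℝ, 0 < ε → ∀ᶠ n in (U : Filter ℕ), ∀ k ∈ Z ε n,
      ((((S ε n).filter fun i => al ε n i k).image fun i => ⌊F n i k / B.d n ^ (x - C * ε)⌋).card : ℝ)
        ≤ C0 * B.d n ^ (-κ - C2 * ε))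
    (hal : ∀ ε : ℝ, 0 < ε → ∀ᶠ n in (U : Filter ℕ), ∀ i ∈ S ε n,
      B.d n ^ (C * ε) * ((Z ε n).card : ℝ) ≤ (((Z ε n).filter fun k => al ε n i k).card : ℝ))
    (hV0 : ∀ ε : ℝ, 0 < ε → ∀ᶠ n in (U : Filter ℕ), ∀ i ∈ S ε n, ∀ i' ∈ S ε n,
      |V n i - V n i'| ≤ B.d n ^ (-(C * ε)))
    (hP : ∀ j ≤ J, ∀ ε : ℝ, 0 < ε → ∀ᶠ n in (U : Filter ℕ), ∀ i ∈ S ε n,
      (((S ε n).filter fun i' => |V n i' - V n i| ≤ B.d n ^ (sc x J j - C * ε) ∧
        |A n i' - A n i| ≤ B.d n ^ (sc x J j - (2 * C + 1) * ε)).card : ℝ)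
          ≤ B.d n ^ (-π j - C2 * ε))
    (hQ : ∀ y : ℝ, 0 ≤ y → y ≤ x → ∀ ε : ℝ, 0 < ε → ∀ᶠ n in (U : Filter ℕ), ∀ k ∈ Z ε n,
      (((Z ε n).filter fun k' => |φ n k' - φ n k| ≤ B.d n ^ (y - ε)).card : ℝ)
        ≤ B.d n ^ (σ * y - C2 * ε) * ((Z ε n).card : ℝ)) :
    ∃ j ≤ J, α - π j + σ * (x - sc x J (j + 1)) ≤ κ := by
  classical
  obtain ⟨j, hj, h⟩ := exists_le_of_ev B J
    (fun j => -κ - π j + σ * (x - sc x J (j + 1))) (- α) (3 * C + 3 * C2) (3 * |C0| + 1) (by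
    intro ε hε
    have hCε : 0 ≤ C * ε := by positivity
    have ev1 : ∀ᶠ n in (U : Filter ℕ), ∀ j ∈ range (J + 1), ∀ i ∈ S ε n,
        (((S ε n).filter fun i' => |V n i' - V n i| ≤ B.d n ^ (sc x J j - C * ε) ∧
          |A n i' - A n i| ≤ B.d n ^ (sc x J j - (2 * C + 1) * ε)).card : ℝ)
            ≤ B.d n ^ (-π j - C2 * ε) := by
      rw [Filter.eventually_all_finset]
      intro j hj
      exact hP j (by simpa [Nat.lt_succ_iff] using hj) ε hε
    have ev2 : ∀ᶠ n in (U : Filter ℕ), ∀ j ∈ range J, ∀ k ∈ Z ε n,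
        (((Z ε n).filter fun k' =>
          |φ n k' - φ n k| ≤ B.d n ^ (x - sc x J (j + 1) - ε)).card : ℝ)
          ≤ B.d n ^ (σ * (x - sc x J (j + 1)) - C2 * ε) * ((Z ε n).card : ℝ) := by
      rw [Filter.eventually_all_finset]
      intro j hj
      have hj' : j + 1 ≤ J := by simpa using hj
      exact hQ (x - sc x J (j + 1)) (by linarith [sc_le hx.le hJ hj'])
        (by linarith [sc_nonneg hx.le J (j + 1)]) ε hε
    filter_upwards [ev1, ev2, hZ ε hε, hφ ε hε, hF ε hε, hS ε hε, hcell ε hε, hal ε hε, hV0 ε hε,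
      ev_const_le B hε 8] with n h1 h2 hZn hφn hFn hSn hcn haln hVn h7
    have hpow : ∀ t : ℝ, 0 < B.d n ^ t := fun t => rpos B n t
    have hSne : (S ε n).Nonempty := by
      rw [← Finset.card_pos]
      have : (0 : ℝ) < ((S ε n).card : ℝ) := lt_of_lt_of_le (hpow _) hSn
      exact_mod_cast this
    -- rescaled multiplier and velocity
    set u := B.d n ^ (C * ε) with hu
    have hu0 : 0 < u := hpow _
    have huv : u * B.d n ^ (-(C * ε)) = 1 := by
      rw [hu, ← rpow_add', add_neg_cancel, Real.rpow_zero]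
    set v := B.d n ^ (-(C * ε)) with hv
    have hv0 : 0 < v := hpow _
    set r := B.d n ^ (x - C * ε) with hr
    have key := Crest.Agent.R138.Tw829.kaufman_abs (S ε n) (Z ε n) (fun k => u * φ n k) (al ε n)
      (fun i k => F n i k)
      (A n) (fun i => v * V n i) 0 r r (|C0| * B.d n ^ (-κ - C2 * ε)) (B.d n ^ (C * ε)) J
      (fun j => B.d n ^ (sc x J j - 2 * (C * ε))) (fun j => B.d n ^ (-π j - C2 * ε))
      (fun j => B.d n ^ (σ * (x - sc x J (j + 1)) - C2 * ε))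
      (hpow _) (hpow _).le (mul_nonneg (abs_nonneg _) (hpow _).le) (hpow _).le hSne hZn
      (by
        intro k hk
        have := hφn k hk
        rw [sub_zero, abs_mul, abs_of_pos hu0]
        calc u * |φ n k| ≤ u * v := mul_le_mul_of_nonneg_left this hu0.le
          _ = 1 := huv
          _ ≤ 2 := by norm_num)
      (by
        intro k hk i hi i' hi'
        have := hFn k hk i hi i' hi'
        have e : (u * φ n k - 0) * (v * V n i - v * V n i') =
            φ n k * (V n i - V n i') := by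
          have : (u * φ n k - 0) * (v * V n i - v * V n i') =
            (u * v) * (φ n k * (V n i - V n i')) := by ring
          rw [this, huv, one_mul]
        simp only [e]
        exact this)
      (by
        intro k hk
        refine (hcn k hk).trans ?_
        exact mul_le_mul_of_nonneg_right (le_abs_self _) (hpow _).le)
      (by
        calc B.d n ^ (C * ε) * (((S ε n).card : ℝ) * (Z ε n).card)
            = ∑ i ∈ S ε n, B.d n ^ (C * ε) * ((Z ε n).card : ℝ) := by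
              rw [Finset.sum_const, nsmul_eq_mul]; ring
          _ ≤ _ := Finset.sum_le_sum fun i hi => haln i hi)
      (fun j => hpow _)
      (by
        intro i hi i' hi'
        have := hVn i hi i' hi'
        simp only [sc_zero]
        rw [← mul_sub, abs_mul, abs_of_pos hv0]
        have e1 : B.d n ^ (0 - 2 * (C * ε)) = v * v := by
          rw [hv, ← rpow_add']; congr 1; ring
        rw [e1]
        exact mul_le_mul_of_nonneg_left this hv0.le)
      (fun j => (hpow _).le) (fun j => (hpow _).le)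
      (by
        intro j hj i hi
        have b1 := h1 j (Finset.mem_range.2 (by omega)) i hi
        refine le_trans ?_ b1
        have : ((S ε n).filter fun i' => |v * V n i' - v * V n i| ≤
              B.d n ^ (sc x J j - 2 * (C * ε)) ∧
            |A n i' - A n i| ≤ r + r + 2 * B.d n ^ (sc x J j - 2 * (C * ε))) ⊆
            (S ε n).filter fun i' => |V n i' - V n i| ≤ B.d n ^ (sc x J j - C * ε) ∧
              |A n i' - A n i| ≤ B.d n ^ (sc x J j - (2 * C + 1) * ε) := by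
          intro i' hi'
          obtain ⟨c1, c2, c3⟩ := Finset.mem_filter.1 hi'
          refine Finset.mem_filter.2 ⟨c1, ?_, c3.trans ?_⟩
          · rw [← mul_sub, abs_mul, abs_of_pos hv0] at c2
            have e1 : B.d n ^ (sc x J j - 2 * (C * ε)) = v * B.d n ^ (sc x J j - C * ε) := by
              rw [hv, ← rpow_add']; congr 1; ring
            rw [e1] at c2
            exact le_of_mul_le_mul_left c2 hv0
          · have e1 : r ≤ B.d n ^ (sc x J j - 2 * (C * ε)) :=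
              rpow_anti B n (by linarith [sc_le hx.le hJ hj])
            have e3 : B.d n ^ (sc x J j - (2 * C + 1) * ε) =
                B.d n ^ (sc x J j - 2 * (C * ε)) * B.d n ^ (-ε) := by
              rw [← rpow_add']; congr 1; ring
            rw [e3]
            have e4 := hpow (sc x J j - 2 * (C * ε))
            nlinarith
        exact_mod_cast Finset.card_le_card this)
      (by
        intro j hj k hk
        have b1 := h2 j (Finset.mem_range.2 hj) k hk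
        refine le_trans ?_ b1
        have : ((Z ε n).filter fun k' => |u * φ n k' - u * φ n k| ≤
            2 * (r + r) / B.d n ^ (sc x J (j + 1) - 2 * (C * ε))) ⊆
            (Z ε n).filter fun k' => |φ n k' - φ n k| ≤
              B.d n ^ (x - sc x J (j + 1) - ε) := by
          intro k' hk'
          obtain ⟨c1, c2⟩ := Finset.mem_filter.1 hk'
          refine Finset.mem_filter.2 ⟨c1, ?_⟩
          rw [← mul_sub, abs_mul, abs_of_pos hu0] at c2
          have e1 : 2 * (r + r) / B.d n ^ (sc x J (j + 1) - 2 * (C * ε)) =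
              u * (4 * B.d n ^ (x - sc x J (j + 1))) := by
            have : B.d n ^ (x - C * ε) = u * B.d n ^ (x - sc x J (j + 1)) *
                B.d n ^ (sc x J (j + 1) - 2 * (C * ε)) := by
              rw [hu, ← rpow_add', ← rpow_add']; congr 1; ring
            rw [hr, this]
            have e0 := (hpow (sc x J (j + 1) - 2 * (C * ε))).ne'
            rw [div_eq_iff e0]
            ring
          rw [e1] at c2
          have c3 := le_of_mul_le_mul_left c2 hu0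
          refine c3.trans ?_
          have e3 : B.d n ^ (x - sc x J (j + 1) - ε) =
              B.d n ^ (x - sc x J (j + 1)) * B.d n ^ (-ε) := by
            rw [← rpow_add', ← sub_eq_add_neg]
          rw [e3]
          nlinarith [hpow (x - sc x J (j + 1))]
        exact_mod_cast Finset.card_le_card this)
      (by
        apply Real.one_le_rpow_of_pos_of_le_one_of_nonpos (B.pos n) (B.lt n).le
        rw [sc_succ x hJ, sc_top x hJ]
        have : 0 ≤ σ * (x / J) := by positivity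
        have : 0 ≤ C2 * ε := by positivity
        nlinarith)
    have k1 : B.d n ^ (-α + 3 * C * ε) ≤ (B.d n ^ (C * ε)) ^ 2 * ((S ε n).card : ℝ) := by
      have : B.d n ^ (-α + 3 * C * ε) = (B.d n ^ (C * ε)) ^ 2 * B.d n ^ (-α + C * ε) := by
        rw [sq, ← rpow_add', ← rpow_add']; congr 1; ring
      rw [this]
      exact mul_le_mul_of_nonneg_left hSn (by positivity)
    calc B.d n ^ (-α + (3 * C + 3 * C2) * ε) ≤ B.d n ^ (-α + 3 * C * ε) :=
          rpow_anti B n (by nlinarith)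
      _ ≤ _ := k1
      _ ≤ _ := key
      _ = |C0| * ∑ j ∈ range (J + 1), B.d n ^ (-κ - π j + σ * (x - sc x J (j + 1))
            - 3 * C2 * ε) := by
          rw [mul_assoc, Finset.mul_sum]
          congr 1
          refine Finset.sum_congr rfl fun j _ => ?_
          rw [← rpow_add', ← rpow_add']
          congr 1
          ring
      _ ≤ (3 * |C0| + 1) * ∑ j ∈ range (J + 1), B.d n ^ (-κ - π j + σ * (x - sc x J (j + 1))
            - 3 * C2 * ε) := by
          refine mul_le_mul_of_nonneg_right (by linarith [abs_nonneg C0]) ?_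
          exact Finset.sum_nonneg fun j _ => (hpow _).le
      _ ≤ _ := by
          refine mul_le_mul_of_nonneg_left ?_ (by positivity)
          refine Finset.sum_le_sum fun j _ => rpow_anti B n ?_
          nlinarith)
  refine ⟨j, hj, ?_⟩
  linarith

set_option maxHeartbeats 1600000 in
/-- Falconer in exponent form, `alive` may depend on `ε`. -/
theorem falc_exA (B : Base) {ι : Type*} [DecidableEq ι] (S : ℝ → ℕ → Finset ι)
    (Z : ℝ → ℕ → Finset ℕ)
    (φ : ℕ → ℕ → ℝ) (al : ℝ → ℕ → ι → ℕ → Prop)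
    [∀ ε n i, DecidablePred (al ε n i)]
    (F : ℕ → ι → ℕ → ℝ) (A V : ℕ → ι → ℝ) {x σ α κ C C2 C0 : ℝ} (hx : 0 < x) (hσ0 : 0 ≤ σ)
    (hσ1 : σ ≤ 1) (hC : 1 ≤ C) (hC2 : 1 ≤ C2) {J : ℕ} (hJ : 0 < J) (π : ℕ → ℝ)
    (hZ : ∀ ε : ℝ, 0 < ε → ∀ᶠ n in (U : Filter ℕ), (Z ε n).Nonempty)
    (hφ : ∀ ε : ℝ, 0 < ε → ∀ᶠ n in (U : Filter ℕ), ∀ k ∈ Z ε n, |φ n k| ≤ B.d n ^ (-(C * ε)))
    (hF : ∀ ε : ℝ, 0 < ε → ∀ᶠ n in (U : Filter ℕ), ∀ k ∈ Z ε n, ∀ i ∈ S ε n, ∀ i' ∈ S ε n,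
      |F n i k - F n i' k - ((A n i - A n i') + φ n k * (V n i - V n i'))|
        ≤ B.d n ^ (x - C * ε))
    (hS : ∀ ε : ℝ, 0 < ε → ∀ᶠ n in (U : Filter ℕ), B.d n ^ (-α + C * ε) ≤ ((S ε n).card : ℝ))
    (hcell : ∀ ε : ℝ, 0 < ε → ∀ᶠ n in (U : Filter ℕ), ∀ k ∈ Z ε n,
      ((((S ε n).filter fun i => al ε n i k).image fun i => ⌊F n i k / B.d n ^ (x - C * ε)⌋).card : ℝ)
        ≤ C0 * B.d n ^ (-κ - C2 * ε))
    (hal : ∀ ε : ℝ, 0 < ε → ∀ᶠ n in (U : Filter ℕ), ∀ i ∈ S ε n,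
      B.d n ^ (C * ε) * ((Z ε n).card : ℝ) ≤ (((Z ε n).filter fun k => al ε n i k).card : ℝ))
    (hV0 : ∀ ε : ℝ, 0 < ε → ∀ᶠ n in (U : Filter ℕ), ∀ i ∈ S ε n, ∀ i' ∈ S ε n,
      |V n i - V n i'| ≤ B.d n ^ (-(C * ε)))
    (hP : ∀ j ≤ J, ∀ ε : ℝ, 0 < ε → ∀ᶠ n in (U : Filter ℕ), ∀ i ∈ S ε n,
      (((S ε n).filter fun i' => |V n i' - V n i| ≤ B.d n ^ (sc x J j - C * ε) ∧
        |A n i' - A n i| ≤ B.d n ^ (sc x J j - (2 * C + 1) * ε)).card : ℝ)
          ≤ B.d n ^ (-π j - C2 * ε))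
    (hQ : ∀ y : ℝ, 0 ≤ y → y ≤ x → ∀ ε : ℝ, 0 < ε → ∀ᶠ n in (U : Filter ℕ), ∀ k ∈ Z ε n,
      (((Z ε n).filter fun k' => |φ n k' - φ n k| ≤ B.d n ^ (y - ε)).card : ℝ)
        ≤ B.d n ^ (σ * y - C2 * ε) * ((Z ε n).card : ℝ)) :
    ∃ j ≤ J, α - π j + σ * sc x J j + x - 2 * sc x J (j + 1) ≤ κ := by
  classical
  obtain ⟨j, hj, h⟩ := exists_le_of_ev B J
    (fun j => -κ + x - π j + σ * sc x J j - 2 * sc x J (j + 1)) (-α)
    (20 * C + 3 * C2 + 12) (|C0|) (by
    intro ε hε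
    have hCε : 0 ≤ C * ε := by positivity
    have hC2ε : 0 ≤ C2 * ε := by positivity
    have ev1 : ∀ᶠ n in (U : Filter ℕ), ∀ j ∈ range (J + 1), ∀ i ∈ S ε n,
        (((S ε n).filter fun i' => |V n i' - V n i| ≤ B.d n ^ (sc x J j - C * ε) ∧
          |A n i' - A n i| ≤ B.d n ^ (sc x J j - (2 * C + 1) * ε)).card : ℝ)
            ≤ B.d n ^ (-π j - C2 * ε) := by
      rw [Filter.eventually_all_finset]
      intro j hj
      exact hP j (by simpa [Nat.lt_succ_iff] using hj) ε hε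
    have ev2 : ∀ᶠ n in (U : Filter ℕ), ∀ j ∈ range (J + 1), ∀ k ∈ Z ε n,
        (((Z ε n).filter fun k' =>
          |φ n k' - φ n k| ≤ B.d n ^ (max (sc x J j - C * ε) 0 - ε)).card : ℝ)
          ≤ B.d n ^ (σ * max (sc x J j - C * ε) 0 - C2 * ε) * ((Z ε n).card : ℝ) := by
      rw [Filter.eventually_all_finset]
      intro j hj
      have hj' : j ≤ J := by simpa [Nat.lt_succ_iff] using hj
      exact hQ (max (sc x J j - C * ε) 0) (le_max_right _ _)
        (max_le (by linarith [sc_le hx.le hJ hj']) hx.le) ε hε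
    filter_upwards [ev1, ev2, hZ ε hε, hφ ε hε, hF ε hε, hS ε hε, hcell ε hε, hal ε hε, hV0 ε hε,
      ev_const_le B hε 8, ev_log_le B (x := x + C * ε) hε (4 * CF)] with
      n h1 h2 hZn hφn hFn hSn hcn haln hVn h7 hlog
    have hpow : ∀ t : ℝ, 0 < B.d n ^ t := fun t => rpos B n t
    have hCF := CF_pos
    have hSne : (S ε n).Nonempty := by
      rw [← Finset.card_pos]
      have : (0 : ℝ) < ((S ε n).card : ℝ) := lt_of_lt_of_le (hpow _) hSn
      exact_mod_cast this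
    have hZ0 : (0 : ℝ) < ((Z ε n).card : ℝ) := by exact_mod_cast hZn.card_pos
    -- rescaling
    set u := B.d n ^ (C * ε) with hu
    have hu0 : 0 < u := hpow _
    have huv : u * B.d n ^ (-(C * ε)) = 1 := by
      rw [hu, ← rpow_add', add_neg_cancel, Real.rpow_zero]
    set r := B.d n ^ (x + C * ε) with hr
    have hr1 : r ≤ 1 := Real.rpow_le_one (B.pos n).le (B.lt n).le (by linarith)
    have hru : r = u ^ 2 * B.d n ^ (x - C * ε) := by
      rw [hr, hu, sq, ← rpow_add', ← rpow_add']; congr 1; ring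
    set e : ℕ → ℝ := fun j => -π j - 2 * C2 * ε + σ * (sc x J j - C * ε) -
      2 * (sc x J (j + 1) + C * ε) with he
    set E : ℝ := ((Z ε n).card : ℝ) * ∑ j ∈ range (J + 1), B.d n ^ e j with hE
    have hsum0 : 0 ≤ ∑ j ∈ range (J + 1), B.d n ^ e j := Finset.sum_nonneg fun j _ => (hpow _).le
    have hE0 : 0 ≤ E := mul_nonneg hZ0.le hsum0
    have key := falc_abs (S ε n) (Z ε n) (fun k => u * φ n k) (al ε n)
      (fun i k => u ^ 2 * F n i k) (fun i => u ^ 2 * A n i) (fun i => u * V n i) r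
      (|C0| * B.d n ^ (-κ - C2 * ε)) (B.d n ^ (C * ε)) E (hpow _) hr1
      (mul_nonneg (abs_nonneg _) (hpow _).le) (hpow _).le hE0 hSne hZn
      (by
        intro k hk
        have := hφn k hk
        rw [abs_mul, abs_of_pos hu0]
        calc u * |φ n k| ≤ u * B.d n ^ (-(C * ε)) := mul_le_mul_of_nonneg_left this hu0.le
          _ = 1 := huv
          _ ≤ 2 := by norm_num)
      (by
        intro k hk i hi i' hi'
        have := hFn k hk i hi i' hi'
        have e1 : u ^ 2 * F n i k - u ^ 2 * F n i' k -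
            ((u ^ 2 * A n i - u ^ 2 * A n i') + u * φ n k * (u * V n i - u * V n i')) =
            u ^ 2 * (F n i k - F n i' k - ((A n i - A n i') + φ n k * (V n i - V n i'))) := by ring
        rw [e1, abs_mul, abs_of_pos (by positivity), hru]
        exact mul_le_mul_of_nonneg_left this (by positivity))
      (by
        intro k hk
        refine le_trans (le_of_eq ?_) ((hcn k hk).trans
          (mul_le_mul_of_nonneg_right (le_abs_self _) (hpow _).le))
        congr 2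
        refine Finset.image_congr ?_
        intro i _
        simp only
        rw [hru, mul_div_mul_left _ _ (by positivity)])
      (by
        calc B.d n ^ (C * ε) * (((S ε n).card : ℝ) * (Z ε n).card)
            = ∑ i ∈ S ε n, B.d n ^ (C * ε) * ((Z ε n).card : ℝ) := by
              rw [Finset.sum_const, nsmul_eq_mul]; ring
          _ ≤ _ := Finset.sum_le_sum fun i hi => haln i hi)
      (by
        intro i hi i' hi'
        have := hVn i hi i' hi'
        rw [← mul_sub, abs_mul, abs_of_pos hu0]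
        calc u * |V n i - V n i'| ≤ u * B.d n ^ (-(C * ε)) := mul_le_mul_of_nonneg_left this hu0.le
          _ = 1 := huv)
      (by
        intro t ht1 ht2 i hi k hk
        have ht0 : 0 < t := lt_of_lt_of_le (hpow _) ht1
        have hlρ : Real.log (B.d n) < 0 := Real.log_neg (B.pos n) (B.lt n)
        set w : ℝ := Real.log t / Real.log (B.d n) with hw
        have hrw : t = B.d n ^ w := by
          rw [Real.rpow_def_of_pos (B.pos n), hw, mul_div_cancel₀ _ hlρ.ne, Real.exp_log ht0]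
        have hw0 : 0 ≤ w := div_nonneg_of_nonpos (Real.log_nonpos ht0.le ht2) hlρ.le
        have hwx : w ≤ x + C * ε := by
          have h3 := Real.log_le_log (hpow _) ht1
          rw [Real.log_rpow (B.pos n)] at h3
          rw [hw, div_le_iff_of_neg hlρ]
          exact h3
        have hJr : (0 : ℝ) < J := by exact_mod_cast hJ
        obtain ⟨j, hjJ, hj1, hj2⟩ : ∃ j ≤ J, sc x J j ≤ w ∧ w ≤ sc x J (j + 1) + C * ε := by
          rcases le_total w x with hle | hle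
          · refine ⟨⌊w * J / x⌋₊, ?_, ?_, ?_⟩
            · have h3 : w * J / x ≤ J := by
                rw [div_le_iff₀ hx]
                nlinarith
              have h4 := Nat.floor_le_floor h3
              simpa using h4
            · have h3 := Nat.floor_le (show 0 ≤ w * J / x by positivity)
              rw [le_div_iff₀ hx] at h3
              unfold sc
              rw [div_le_iff₀ hJr]
              linarith
            · have h3 := Nat.lt_floor_add_one (w * J / x)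
              rw [div_lt_iff₀ hx] at h3
              have h4 : w ≤ sc x J (⌊w * J / x⌋₊ + 1) := by
                unfold sc
                rw [le_div_iff₀ hJr]
                push_cast
                linarith
              linarith
          · refine ⟨J, le_rfl, ?_, ?_⟩
            · rw [sc_top x hJ]; exact hle
            · rw [sc_succ x hJ, sc_top x hJ]
              have : 0 ≤ x / J := by positivity
              linarith
        have hjr : j ∈ range (J + 1) := Finset.mem_range.2 (by omega)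
        have htj : t ≤ B.d n ^ sc x J j := by rw [hrw]; exact rpow_anti B n hj1
        have hinv : u * B.d n ^ (sc x J j - C * ε) = B.d n ^ sc x J j := by
          rw [hu, ← rpow_add']; congr 1; ring
        have c1 : (((S ε n).filter fun i' => |u * V n i' - u * V n i| ≤ t ∧
            |u ^ 2 * A n i' - u ^ 2 * A n i| ≤ 2 * t).card : ℝ) ≤ B.d n ^ (-π j - C2 * ε) := by
          refine le_trans ?_ (h1 j hjr i hi)
          exact_mod_cast Finset.card_le_card (by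
            intro i' hi'
            obtain ⟨b1, b2, b3⟩ := Finset.mem_filter.1 hi'
            rw [← mul_sub, abs_mul, abs_of_pos hu0] at b2
            rw [← mul_sub, abs_mul, abs_of_pos (show 0 < u ^ 2 by positivity)] at b3
            refine Finset.mem_filter.2 ⟨b1, ?_, ?_⟩
            · refine le_of_mul_le_mul_left (a := u) ?_ hu0
              rw [hinv]
              exact b2.trans htj
            · refine le_of_mul_le_mul_left (a := u ^ 2) ?_ (by positivity)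
              have e1 : u ^ 2 * B.d n ^ (sc x J j - (2 * C + 1) * ε) =
                  B.d n ^ sc x J j * B.d n ^ (-ε) := by
                rw [hu, sq, ← rpow_add', ← rpow_add', ← rpow_add']; congr 1; ring
              rw [e1]
              refine b3.trans ?_
              nlinarith [hpow (sc x J j)])
        have h2t : 2 * t ≤ u * B.d n ^ (sc x J j - C * ε - ε) := by
          have e3 : u * B.d n ^ (sc x J j - C * ε - ε) = B.d n ^ sc x J j * B.d n ^ (-ε) := by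
            rw [hu, ← rpow_add', ← rpow_add']; congr 1; ring
          rw [e3]
          nlinarith [hpow (sc x J j)]
        have c2 : (((Z ε n).filter fun k' => |u * φ n k' - u * φ n k| ≤ 2 * t).card : ℝ)
            ≤ B.d n ^ (σ * (sc x J j - C * ε) - C2 * ε) * ((Z ε n).card : ℝ) := by
          rcases le_total (sc x J j - C * ε) 0 with hle | hle
          · have b3 : (((Z ε n).filter fun k' => |u * φ n k' - u * φ n k| ≤ 2 * t).card : ℝ) ≤
                (Z ε n).card := by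
              exact_mod_cast Finset.card_le_card (Finset.filter_subset _ _)
            refine b3.trans ?_
            have b4 : (1 : ℝ) ≤ B.d n ^ (σ * (sc x J j - C * ε) - C2 * ε) := by
              apply Real.one_le_rpow_of_pos_of_le_one_of_nonpos (B.pos n) (B.lt n).le
              have : σ * (sc x J j - C * ε) ≤ 0 := mul_nonpos_of_nonneg_of_nonpos hσ0 hle
              linarith
            nlinarith
          · have b1 := h2 j hjr k hk
            rw [max_eq_left hle] at b1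
            refine le_trans ?_ b1
            exact_mod_cast Finset.card_le_card (by
              intro k' hk'
              rw [Finset.mem_filter] at hk' ⊢
              refine ⟨hk'.1, ?_⟩
              have b5 := hk'.2
              rw [← mul_sub, abs_mul, abs_of_pos hu0] at b5
              exact le_of_mul_le_mul_left (b5.trans h2t) hu0)
        calc _ ≤ B.d n ^ (-π j - C2 * ε) *
              (B.d n ^ (σ * (sc x J j - C * ε) - C2 * ε) * ((Z ε n).card : ℝ)) :=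
              mul_le_mul c1 c2 (Nat.cast_nonneg _) (hpow _).le
          _ = ((Z ε n).card : ℝ) * (B.d n ^ e j * B.d n ^ (2 * (sc x J (j + 1) + C * ε))) := by
              rw [← mul_assoc, ← rpow_add', ← rpow_add', he]
              simp only
              rw [mul_comm]
              congr 2
              ring
          _ ≤ ((Z ε n).card : ℝ) * (B.d n ^ e j * t ^ 2) := by
              refine mul_le_mul_of_nonneg_left ?_ hZ0.le
              refine mul_le_mul_of_nonneg_left ?_ (hpow _).le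
              rw [hrw, ← Real.rpow_natCast (B.d n ^ w) 2, ← Real.rpow_mul (B.pos n).le]
              refine rpow_anti B n ?_
              push_cast
              linarith
          _ ≤ E * t ^ 2 := by
              have : B.d n ^ e j ≤ ∑ j ∈ range (J + 1), B.d n ^ e j :=
                Finset.single_le_sum (f := fun j => B.d n ^ e j) (fun i _ => (hpow _).le) hjr
              rw [hE]
              have ht2 : 0 ≤ t ^ 2 := sq_nonneg t
              have := mul_le_mul_of_nonneg_left (mul_le_mul_of_nonneg_right this ht2) hZ0.le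
              refine this.trans (le_of_eq ?_)
              ring)
    -- the logarithm
    have hl : Real.log (1 / r) = (x + C * ε) * B.L n := by
      rw [one_div, Real.log_inv, hr, Real.log_rpow (B.pos n)]
      unfold Base.L
      ring
    have hl2 : 4 * CF * (1 + Real.log (1 / r)) ≤ B.d n ^ (-ε) := by
      rw [hl]
      exact hlog
    have k2 : (B.d n ^ (C * ε)) ^ 2 * ((S ε n).card : ℝ) ≤
        |C0| * B.d n ^ (-κ - C2 * ε) * (r * B.d n ^ (-ε) * ∑ j ∈ range (J + 1), B.d n ^ e j) := by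
      have k3 : ((Z ε n).card : ℝ) * ((B.d n ^ (C * ε)) ^ 2 * ((S ε n).card : ℝ)) ≤
          ((Z ε n).card : ℝ) * (|C0| * B.d n ^ (-κ - C2 * ε) *
            (r * B.d n ^ (-ε) * ∑ j ∈ range (J + 1), B.d n ^ e j)) := by
        calc _ = (B.d n ^ (C * ε)) ^ 2 * ((S ε n).card : ℝ) * ((Z ε n).card : ℝ) := by ring
          _ ≤ _ := key
          _ = (|C0| * B.d n ^ (-κ - C2 * ε)) * (r * E) * (4 * CF * (1 + Real.log (1 / r))) := by ring
          _ ≤ (|C0| * B.d n ^ (-κ - C2 * ε)) * (r * E) * B.d n ^ (-ε) := by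
              refine mul_le_mul_of_nonneg_left hl2 ?_
              exact mul_nonneg (mul_nonneg (abs_nonneg _) (hpow _).le) (mul_nonneg (hpow _).le hE0)
          _ = _ := by rw [hE]; ring
      exact le_of_mul_le_mul_left k3 hZ0
    calc B.d n ^ (-α + (20 * C + 3 * C2 + 12) * ε) ≤ B.d n ^ (-α + 3 * C * ε) :=
          rpow_anti B n (by nlinarith)
      _ = (B.d n ^ (C * ε)) ^ 2 * B.d n ^ (-α + C * ε) := by
          rw [sq, ← rpow_add', ← rpow_add']; congr 1; ring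
      _ ≤ (B.d n ^ (C * ε)) ^ 2 * ((S ε n).card : ℝ) := mul_le_mul_of_nonneg_left hSn (by positivity)
      _ ≤ _ := k2
      _ = |C0| * ∑ j ∈ range (J + 1), B.d n ^ (-κ + x - π j + σ * sc x J j - 2 * sc x J (j + 1)
            - (3 * C2 + C + σ * C + 1) * ε) := by
          rw [mul_assoc, Finset.mul_sum, Finset.mul_sum]
          congr 1
          refine Finset.sum_congr rfl fun j _ => ?_
          rw [hr, ← rpow_add', ← rpow_add', ← rpow_add']
          congr 1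
          simp only [he]
          ring
      _ ≤ _ := by
          refine mul_le_mul_of_nonneg_left ?_ (abs_nonneg _)
          refine Finset.sum_le_sum fun j _ => rpow_anti B n ?_
          have : σ * C ≤ C := by nlinarith
          nlinarith)
  refine ⟨j, hj, ?_⟩
  linarith

end Crest.Agent.R116.Kr710
end

-- ▼ part R116/Kr4_710
section

/-!
# R116, K side: the one-slice facts for the slot `H` (helper710)

Light rays at ONE height: `H_{ll'} = ΔH - c_l ΔX`.  The lines of one slice in a box are the lines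
`P = h - c x` of the plane `(x, h)`, so Kaufman / Falconer with shading apply with NO evolution in
the height:  `hx_forall`, `hx_kauf` (`h ≤ x` as soon as the fan `C` is not empty), `hx_falc`
(`m > x ⇒ h = 0`).
-/

set_option autoImplicit false
set_option linter.unusedVariables false
set_option linter.unusedSectionVars false

open Filter Topology Finset

namespace Crest.Agent.R116.Kr710

open Crest.Agent.R138.Ex926 (Base U)
open Crest.Agent.R138.Fal658 Crest.Agent.R136.Gf356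

variable {κ : Type} [DecidableEq κ]

/-- refine the three slots `jC, jX, jH` -/
def Eb (pS : κ → ℝ) (jC jX jH : κ) (t1 t2 t3 : ℝ) : κ → ℝ := fun j =>
  if j = jC then pS j + t1 else if j = jX then pS j + t2 else if j = jH then pS j + t3 else pS j






/-- sums of three powers -/
theorem pw3 (B : Base) {n : ℕ} {ε e a1 a2 a3 x1 x2 x3 : ℝ} (h8 : 8 ≤ B.d n ^ (-ε))
    (h1 : x1 ≤ B.d n ^ a1) (h2 : x2 ≤ B.d n ^ a2) (h3 : x3 ≤ B.d n ^ a3)
    (e1 : e + ε ≤ a1) (e2 : e + ε ≤ a2) (e3 : e + ε ≤ a3) : x1 + x2 + x3 ≤ B.d n ^ e := by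
  have p1 := h1.trans (rpow_anti B n e1)
  have p2 := h2.trans (rpow_anti B n e2)
  have p3 := h3.trans (rpow_anti B n e3)
  have q : B.d n ^ e = B.d n ^ (e + ε) * B.d n ^ (-ε) := by
    rw [← rpow_add']; congr 1; ring
  have q0 := rpos B n (e + ε)
  rw [q]
  nlinarith

theorem pw2 (B : Base) {n : ℕ} {ε e a1 a2 x1 x2 : ℝ} (h8 : 8 ≤ B.d n ^ (-ε))
    (h1 : x1 ≤ B.d n ^ a1) (h2 : x2 ≤ B.d n ^ a2)
    (e1 : e + ε ≤ a1) (e2 : e + ε ≤ a2) : x1 + x2 ≤ B.d n ^ e := by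
  have p1 := h1.trans (rpow_anti B n e1)
  have p2 := h2.trans (rpow_anti B n e2)
  have q : B.d n ^ e = B.d n ^ (e + ε) * B.d n ^ (-ε) := by
    rw [← rpow_add']; congr 1; ring
  have q0 := rpos B n (e + ε)
  rw [q]
  nlinarith

/-- the data of the one-slice facts -/
structure SlabH (B : Base) (G : ℕ → RCfg κ) (i0 k0 : ℕ → ℕ) (pS : κ → ℝ) (jC jX jH : κ)
    (c x h : ℕ → ℕ → ℝ) (y : ℝ) : Prop where
  ne1 : jC ≠ jX
  ne2 : jC ≠ jH
  ne3 : jX ≠ jH
  co : ∀ C0 : ℝ, 0 < C0 → ∃ C1 : ℝ, 0 < C1 ∧ ∀ ε : ℝ, 0 < ε → ∀ᶠ n in (U : Filter ℕ),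
    ∀ l ∈ (G n).box pS (C0 * ε) (i0 n) (k0 n), |c n l| ≤ B.d n ^ (-(C1 * ε)) ∧
      |x n l| ≤ B.d n ^ (-(C1 * ε)) ∧ ∀ l' ∈ (G n).box pS (C0 * ε) (i0 n) (k0 n),
      |(G n).rel (k0 n) l l' jC| ≤ B.d n ^ (pS jC - C1 * ε) * (|c n l' - c n l| + B.d n ^ y) ∧
      |c n l' - c n l| ≤ B.d n ^ (-(C1 * ε)) *
        (B.d n ^ (-pS jC) * |(G n).rel (k0 n) l l' jC| + B.d n ^ y) ∧
      |(G n).rel (k0 n) l l' jX| ≤ B.d n ^ (pS jX - C1 * ε) * (|x n l' - x n l| + B.d n ^ y) ∧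
      |x n l' - x n l| ≤ B.d n ^ (-(C1 * ε)) *
        (B.d n ^ (-pS jX) * |(G n).rel (k0 n) l l' jX| + B.d n ^ y) ∧
      |B.d n ^ (-pS jH) * (G n).rel (k0 n) l l' jH -
        ((h n l' - h n l) - c n l * (x n l' - x n l))| ≤ B.d n ^ (y - C1 * ε)

/-- local comparison of one configuration -/
structure Loc (ρ : ℝ) (rel : ℕ → ℕ → κ → ℝ) (T0 : Finset ℕ) (pS : κ → ℝ) (jC jX jH : κ)
    (c x h : ℕ → ℝ) (y C1 ε : ℝ) : Prop where
  cbd : ∀ l ∈ T0, |c l| ≤ ρ ^ (-(C1 * ε))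
  xbd : ∀ l ∈ T0, |x l| ≤ ρ ^ (-(C1 * ε))
  ca : ∀ l ∈ T0, ∀ l' ∈ T0, ∀ s ≤ y, ∀ K : ℝ, 0 ≤ K → |rel l l' jC| ≤ ρ ^ (pS jC + s - K * ε) →
    |c l' - c l| ≤ ρ ^ (s - (C1 + K + 1) * ε)
  cb : ∀ l ∈ T0, ∀ l' ∈ T0, ∀ s ≤ y, ∀ K : ℝ, 0 ≤ K → |c l' - c l| ≤ ρ ^ (s - K * ε) →
    |rel l l' jC| ≤ ρ ^ (pS jC + s - (C1 + K + 1) * ε)
  xa : ∀ l ∈ T0, ∀ l' ∈ T0, ∀ s ≤ y, ∀ K : ℝ, 0 ≤ K → |rel l l' jX| ≤ ρ ^ (pS jX + s - K * ε) →
    |x l' - x l| ≤ ρ ^ (s - (C1 + K + 1) * ε)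
  xb : ∀ l ∈ T0, ∀ l' ∈ T0, ∀ s ≤ y, ∀ K : ℝ, 0 ≤ K → |x l' - x l| ≤ ρ ^ (s - K * ε) →
    |rel l l' jX| ≤ ρ ^ (pS jX + s - (C1 + K + 1) * ε)
  ha : ∀ l ∈ T0, ∀ l' ∈ T0, ∀ s ≤ y, ∀ K : ℝ, 0 ≤ K → |rel l l' jH| ≤ ρ ^ (pS jH + s - K * ε) →
    |(h l' - h l) - c l * (x l' - x l)| ≤ ρ ^ (s - (C1 + K + 1) * ε)
  hb : ∀ l ∈ T0, ∀ l' ∈ T0, ∀ s ≤ y, ∀ K : ℝ, 0 ≤ K →
    |(h l' - h l) - c l * (x l' - x l)| ≤ ρ ^ (s - K * ε) →
    |rel l l' jH| ≤ ρ ^ (pS jH + s - (C1 + K + 1) * ε)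

theorem SlabH.loc {B : Base} {G : ℕ → RCfg κ} {i0 k0 : ℕ → ℕ} {pS : κ → ℝ} {jC jX jH : κ}
    {c x h : ℕ → ℕ → ℝ} {y : ℝ} (S : SlabH B G i0 k0 pS jC jX jH c x h y) (C0 : ℝ) (hC0 : 0 < C0) :
    ∃ C1 : ℝ, 0 < C1 ∧ ∀ ε : ℝ, 0 < ε → ∀ᶠ n in (U : Filter ℕ),
      Loc (B.d n) ((G n).rel (k0 n)) ((G n).box pS (C0 * ε) (i0 n) (k0 n)) pS jC jX jH
        (c n) (x n) (h n) y C1 ε := by
  obtain ⟨C1, hC1, hco⟩ := S.co C0 hC0
  refine ⟨C1, hC1, ?_⟩
  intro ε hε
  filter_upwards [hco ε hε, ev_const_le B hε 8] with n hn h8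
  have hpow : ∀ t : ℝ, 0 < B.d n ^ t := fun t => rpos B n t
  have hC1ε : 0 < C1 * ε := by positivity
  -- generic: from `u ≤ ρ^p (v + ρ^y)`
  have gen : ∀ p s K u v : ℝ, s ≤ y → 0 ≤ K → u ≤ B.d n ^ p * (v + B.d n ^ y) →
      v ≤ B.d n ^ (s - K * ε) → u ≤ B.d n ^ (p + s - (K + 1) * ε) := by
    intro p s K u v hs hK hu hv
    have hKε : 0 ≤ K * ε := by positivity
    have e1 : v + B.d n ^ y ≤ B.d n ^ (s - (K + 1) * ε) :=
      pw2 B h8 hv le_rfl (by linarith) (by nlinarith)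
    calc u ≤ B.d n ^ p * (v + B.d n ^ y) := hu
      _ ≤ B.d n ^ p * B.d n ^ (s - (K + 1) * ε) := mul_le_mul_of_nonneg_left e1 (hpow _).le
      _ = _ := by rw [← rpow_add']; congr 1; ring
  have scale : ∀ p s K u : ℝ, |u| ≤ B.d n ^ (p + s - K * ε) →
      B.d n ^ (-p) * |u| ≤ B.d n ^ (s - K * ε) := by
    intro p s K u hu
    calc B.d n ^ (-p) * |u| ≤ B.d n ^ (-p) * B.d n ^ (p + s - K * ε) :=
          mul_le_mul_of_nonneg_left hu (hpow _).le
      _ = _ := by rw [← rpow_add']; congr 1; ring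
  refine ⟨fun l hl => (hn l hl).1, fun l hl => (hn l hl).2.1, ?_, ?_, ?_, ?_, ?_, ?_⟩
  · intro l hl l' hl' s hs K hK hrel
    obtain ⟨h1, h2, h3, h4, h5⟩ := (hn l hl).2.2 l' hl'
    refine (gen _ s K _ _ hs hK h2 (scale _ _ _ _ hrel)).trans (rpow_anti B n (by linarith))
  · intro l hl l' hl' s hs K hK hrel
    obtain ⟨h1, h2, h3, h4, h5⟩ := (hn l hl).2.2 l' hl'
    refine (gen _ s K _ _ hs hK h1 hrel).trans (rpow_anti B n (by linarith))
  · intro l hl l' hl' s hs K hK hrel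
    obtain ⟨h1, h2, h3, h4, h5⟩ := (hn l hl).2.2 l' hl'
    refine (gen _ s K _ _ hs hK h4 (scale _ _ _ _ hrel)).trans (rpow_anti B n (by linarith))
  · intro l hl l' hl' s hs K hK hrel
    obtain ⟨h1, h2, h3, h4, h5⟩ := (hn l hl).2.2 l' hl'
    refine (gen _ s K _ _ hs hK h3 hrel).trans (rpow_anti B n (by linarith))
  · intro l hl l' hl' s hs K hK hrel
    obtain ⟨h1, h2, h3, h4, h5⟩ := (hn l hl).2.2 l' hl'
    have e1 : |B.d n ^ (-pS jH) * (G n).rel (k0 n) l l' jH| ≤ B.d n ^ (s - K * ε) := by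
      rw [abs_mul, abs_of_pos (hpow _)]
      exact scale _ _ _ _ hrel
    have e2 : |(h n l' - h n l) - c n l * (x n l' - x n l)| ≤
        |B.d n ^ (-pS jH) * (G n).rel (k0 n) l l' jH| +
        |B.d n ^ (-pS jH) * (G n).rel (k0 n) l l' jH -
          ((h n l' - h n l) - c n l * (x n l' - x n l))| := by
      have := abs_sub_abs_le_abs_sub ((h n l' - h n l) - c n l * (x n l' - x n l))
        (B.d n ^ (-pS jH) * (G n).rel (k0 n) l l' jH)
      rw [abs_sub_comm ((h n l' - h n l) - c n l * (x n l' - x n l))] at this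
      linarith
    refine e2.trans (pw2 B h8 e1 h5 ?_ ?_)
    · have : 0 ≤ C1 * ε := hC1ε.le
      nlinarith
    · have : 0 ≤ K * ε := by positivity
      nlinarith
  · intro l hl l' hl' s hs K hK hrel
    obtain ⟨h1, h2, h3, h4, h5⟩ := (hn l hl).2.2 l' hl'
    have e2 : |B.d n ^ (-pS jH) * (G n).rel (k0 n) l l' jH| ≤
        |(h n l' - h n l) - c n l * (x n l' - x n l)| +
        |B.d n ^ (-pS jH) * (G n).rel (k0 n) l l' jH -
          ((h n l' - h n l) - c n l * (x n l' - x n l))| := by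
      have := abs_sub_abs_le_abs_sub (B.d n ^ (-pS jH) * (G n).rel (k0 n) l l' jH)
        ((h n l' - h n l) - c n l * (x n l' - x n l))
      linarith
    have e3 : |B.d n ^ (-pS jH) * (G n).rel (k0 n) l l' jH| ≤ B.d n ^ (s - (C1 + K + 1) * ε) := by
      refine e2.trans (pw2 B h8 hrel h5 ?_ ?_)
      · have : 0 ≤ C1 * ε := hC1ε.le
        nlinarith
      · have : 0 ≤ K * ε := by positivity
        nlinarith
    have e4 : |(G n).rel (k0 n) l l' jH| = B.d n ^ (pS jH) *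
        |B.d n ^ (-pS jH) * (G n).rel (k0 n) l l' jH| := by
      rw [abs_mul, abs_of_pos (hpow _), ← mul_assoc, ← rpow_add', add_neg_cancel, Real.rpow_zero,
        one_mul]
    rw [e4]
    calc B.d n ^ (pS jH) * |B.d n ^ (-pS jH) * (G n).rel (k0 n) l l' jH|
        ≤ B.d n ^ (pS jH) * B.d n ^ (s - (C1 + K + 1) * ε) :=
          mul_le_mul_of_nonneg_left e3 (hpow _).le
      _ = _ := by rw [← rpow_add']; congr 1; ring


/-- floors and labels -/
theorem floor_labels {ι : Type*} [DecidableEq ι] (S : Finset ι) (F : ι → ℝ) (lab : ι → ℕ)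
    {g : ℝ} (hg : 0 < g) (h : ∀ i ∈ S, ∀ i' ∈ S, lab i = lab i' → |F i - F i'| ≤ 4 * g) :
    ((S.image fun i => ⌊F i / g⌋).card : ℝ) ≤ 11 * ((S.image lab).card : ℝ) := by
  classical
  rcases S.eq_empty_or_nonempty with rfl | ⟨i00, _⟩
  · simp
  have : Nonempty ι := ⟨i00⟩
  -- each integer of the image has a witness
  have hw : ∀ v ∈ S.image (fun i => ⌊F i / g⌋), ∃ i ∈ S, ⌊F i / g⌋ = v := by
    intro v hv
    obtain ⟨i, hi, rfl⟩ := Finset.mem_image.1 hv
    exact ⟨i, hi, rfl⟩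
  choose! w hw1 hw2 using hw
  have key := Finset.card_le_mul_card_image (f := fun v => lab (w v))
    (S.image (fun i => ⌊F i / g⌋)) 11 (by
      intro a ha
      obtain ⟨v0, hv0, rfl⟩ := Finset.mem_image.1 ha
      have hsub : (S.image (fun i => ⌊F i / g⌋)).filter (fun v => lab (w v) = lab (w v0)) ⊆
          Finset.Icc (v0 - 5) (v0 + 5) := by
        intro v hv
        obtain ⟨hv1, hv2⟩ := Finset.mem_filter.1 hv
        have e1 := h _ (hw1 v hv1) _ (hw1 v0 hv0) hv2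
        have e2 : |F (w v) / g - F (w v0) / g| ≤ 4 := by
          rw [← sub_div, abs_div, abs_of_pos hg, div_le_iff₀ hg]
          exact e1
        have e3 := hw2 v hv1
        have e4 := hw2 v0 hv0
        have a1 := Int.floor_le (F (w v) / g)
        have a2 := Int.lt_floor_add_one (F (w v) / g)
        have a3 := Int.floor_le (F (w v0) / g)
        have a4 := Int.lt_floor_add_one (F (w v0) / g)
        rw [e3] at a1 a2
        rw [e4] at a3 a4
        obtain ⟨b1, b2⟩ := abs_le.1 e2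
        rw [Finset.mem_Icc]
        constructor
        · have : (v0 : ℝ) - 5 ≤ v := by linarith
          exact_mod_cast this
        · have : (v : ℝ) ≤ v0 + 5 := by linarith
          exact_mod_cast this
      refine (Finset.card_le_card hsub).trans ?_
      rw [Int.card_Icc]
      have : (v0 + 5 + 1 - (v0 - 5)).toNat = 11 := by
        have : v0 + 5 + 1 - (v0 - 5) = 11 := by ring
        rw [this]; rfl
      omega)
  have key2 : ((S.image (fun i => ⌊F i / g⌋)).image fun v => lab (w v)).card ≤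
      (S.image lab).card := by
    refine Finset.card_le_card ?_
    intro a ha
    obtain ⟨v, hv, rfl⟩ := Finset.mem_image.1 ha
    exact Finset.mem_image_of_mem _ (hw1 v hv)
  have : (S.image (fun i => ⌊F i / g⌋)).card ≤ 11 * (S.image lab).card :=
    key.trans (Nat.mul_le_mul_left _ key2)
  exact_mod_cast this

end Crest.Agent.R116.Kr710
end

-- ▼ part R116/Kr5_710
section

/-!
# R116, K side: the one-slice facts for the slot `H`, main part (helper710)
-/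

set_option autoImplicit false
set_option linter.unusedVariables false
set_option linter.unusedSectionVars false

open Filter Topology Finset

namespace Crest.Agent.R116.Kr710

open Crest.Agent.R138.Ex926 (Base U)
open Crest.Agent.R138.Fal658 Crest.Agent.R136.Gf356

variable {κ : Type} [DecidableEq κ]

theorem card_mul_le_of_disj {Z W : Finset ℕ} {bx : ℕ → Finset ℕ}
    (hd : ∀ z ∈ Z, ∀ z' ∈ Z, z ≠ z' → Disjoint (bx z) (bx z')) (hs : ∀ z ∈ Z, bx z ⊆ W) {m : ℝ}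
    (hm : ∀ z ∈ Z, m ≤ ((bx z).card : ℝ)) : (Z.card : ℝ) * m ≤ (W.card : ℝ) := by
  have h1 : ∑ z ∈ Z, (bx z).card ≤ W.card := by
    rw [← Finset.card_biUnion hd]
    refine Finset.card_le_card ?_
    intro l hl
    obtain ⟨z, hz, hl⟩ := Finset.mem_biUnion.1 hl
    exact hs z hz hl
  calc (Z.card : ℝ) * m = ∑ z ∈ Z, m := by rw [Finset.sum_const, nsmul_eq_mul]
    _ ≤ ∑ z ∈ Z, ((bx z).card : ℝ) := Finset.sum_le_sum hm
    _ ≤ _ := by exact_mod_cast h1

theorem card_le_of_cover {Z W : Finset ℕ} {bx : ℕ → Finset ℕ} (hc : ∀ w ∈ W, ∃ z ∈ Z, w ∈ bx z)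
    {M : ℝ} (hM : ∀ z ∈ Z, ((bx z).card : ℝ) ≤ M) : (W.card : ℝ) ≤ (Z.card : ℝ) * M := by
  have h1 : W.card ≤ ∑ z ∈ Z, (bx z).card := by
    refine (Finset.card_le_card ?_).trans Finset.card_biUnion_le
    intro w hw
    obtain ⟨z, hz, hl⟩ := hc w hw
    exact Finset.mem_biUnion.2 ⟨z, hz, hl⟩
  calc (W.card : ℝ) ≤ ∑ z ∈ Z, ((bx z).card : ℝ) := by exact_mod_cast h1
    _ ≤ ∑ z ∈ Z, M := Finset.sum_le_sum hM
    _ = _ := by rw [Finset.sum_const, nsmul_eq_mul]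

theorem anK (B : Base) (n : ℕ) {p K K' ε : ℝ} (hε : 0 < ε) (h : K' ≤ K) :
    B.d n ^ (p - K' * ε) ≤ B.d n ^ (p - K * ε) := rpow_anti B n (by nlinarith)

theorem anN (B : Base) (n : ℕ) {K K' ε : ℝ} (hε : 0 < ε) (h : K' ≤ K) :
    B.d n ^ (-(K' * ε)) ≤ B.d n ^ (-(K * ε)) := rpow_anti B n (by nlinarith)

theorem mE {u v ε : ℝ} (hε : 0 < ε) (h : u ≤ v) : u * ε ≤ v * ε :=
  mul_le_mul_of_nonneg_right h hε.le

theorem pwK2 (B : Base) {n : ℕ} {ε s K K1 K2 x1 x2 : ℝ} (hε : 0 < ε) (h8 : 8 ≤ B.d n ^ (-ε))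
    (h1 : x1 ≤ B.d n ^ (s - K1 * ε)) (h2 : x2 ≤ B.d n ^ (s - K2 * ε)) (e1 : K1 + 1 ≤ K)
    (e2 : K2 + 1 ≤ K) : x1 + x2 ≤ B.d n ^ (s - K * ε) :=
  pw2 B h8 h1 h2 (by nlinarith) (by nlinarith)

theorem pwK3 (B : Base) {n : ℕ} {ε s K K1 K2 K3 x1 x2 x3 : ℝ} (hε : 0 < ε)
    (h8 : 8 ≤ B.d n ^ (-ε)) (h1 : x1 ≤ B.d n ^ (s - K1 * ε)) (h2 : x2 ≤ B.d n ^ (s - K2 * ε))
    (h3 : x3 ≤ B.d n ^ (s - K3 * ε)) (e1 : K1 + 1 ≤ K) (e2 : K2 + 1 ≤ K) (e3 : K3 + 1 ≤ K) :
    x1 + x2 + x3 ≤ B.d n ^ (s - K * ε) :=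
  pw3 B h8 h1 h2 h3 (by nlinarith) (by nlinarith) (by nlinarith)




end Crest.Agent.R116.Kr710
end

-- ▼ part R116/Kr6_710
section

/-!
# R116, K side: the one-slice facts for the slot `H`, boxes with groups of slots (helper710)
-/

set_option autoImplicit false
set_option linter.unusedVariables false
set_option linter.unusedSectionVars false

open Filter Topology Finset

namespace Crest.Agent.R116.Kr710

open Crest.Agent.R138.Ex926 (Base U)
open Crest.Agent.R138.Fal658 Crest.Agent.R136.Gf356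

variable {κ : Type}

/-- the data of the one-slice facts, groups of slots: boxes `E t1 t2 t3` (refined by `t1` in `C`, `t2`
in `X`, `t3` in `H`) and functions `c, x, h` which describe them -/
structure SlabE (B : Base) (G : ℕ → RCfg κ) (i0 k0 : ℕ → ℕ) (pS : κ → ℝ)
    (E : ℝ → ℝ → ℝ → κ → ℝ) (c x h : ℕ → ℕ → ℝ) (y : ℝ) : Prop where
  E0 : E 0 0 0 = pS
  le : ∀ t1 t2 t3 : ℝ, 0 ≤ t1 → 0 ≤ t2 → 0 ≤ t3 → ∀ j, pS j ≤ E t1 t2 t3 j
  le1 : ∀ j, E 0 y 0 j ≤ E 0 y y j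
  bd : ∀ C0 : ℝ, 0 < C0 → ∃ K : ℝ, 0 < K ∧ ∀ ε : ℝ, 0 < ε → ∀ᶠ n in (U : Filter ℕ),
    ∀ l ∈ (G n).box pS (C0 * ε) (i0 n) (k0 n), |c n l| ≤ B.d n ^ (-(K * ε)) ∧
      |x n l| ≤ B.d n ^ (-(K * ε))
  la : ∀ C0 : ℝ, 0 < C0 → ∀ K : ℝ, 0 < K → ∃ K' : ℝ, 0 < K' ∧
    ∀ s1 s2 s3 : ℝ, 0 ≤ s1 → s1 ≤ y → 0 ≤ s2 → s2 ≤ y → 0 ≤ s3 → s3 ≤ y →
    ∀ ε : ℝ, 0 < ε → ∀ᶠ n in (U : Filter ℕ),
    ∀ l ∈ (G n).box pS (C0 * ε) (i0 n) (k0 n), ∀ l' ∈ (G n).box pS (C0 * ε) (i0 n) (k0 n),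
    (G n).loose (E s1 s2 s3) (K * ε) (k0 n) l l' →
      |c n l' - c n l| ≤ B.d n ^ (s1 - K' * ε) ∧ |x n l' - x n l| ≤ B.d n ^ (s2 - K' * ε) ∧
      |(h n l' - h n l) - c n l * (x n l' - x n l)| ≤ B.d n ^ (s3 - K' * ε)
  lb : ∀ C0 : ℝ, 0 < C0 → ∀ K : ℝ, 0 < K → ∃ K' : ℝ, 0 < K' ∧
    ∀ s1 s2 s3 : ℝ, 0 ≤ s1 → s1 ≤ y → 0 ≤ s2 → s2 ≤ y → 0 ≤ s3 → s3 ≤ y →
    ∀ ε : ℝ, 0 < ε → ∀ᶠ n in (U : Filter ℕ),
    ∀ l ∈ (G n).box pS (C0 * ε) (i0 n) (k0 n), ∀ l' ∈ (G n).box pS (C0 * ε) (i0 n) (k0 n),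
      |c n l' - c n l| ≤ B.d n ^ (s1 - K * ε) → |x n l' - x n l| ≤ B.d n ^ (s2 - K * ε) →
      |(h n l' - h n l) - c n l * (x n l' - x n l)| ≤ B.d n ^ (s3 - K * ε) →
      (G n).loose (E s1 s2 s3) (K' * ε) (k0 n) l l'

set_option maxHeartbeats 1600000 in
/-- **one-slice inequality for the slot `H`**, boxes with groups of slots -/
theorem hxE_forall {B : Base} {G : ℕ → RCfg κ} {Leg : Set (κ → ℝ)} {ν : (κ → ℝ) → ℝ} {D : ℝ}
    (H : RUnif B G Leg ν D) (i0 k0 : ℕ → ℕ)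
    (h0 : ∀ᶠ n in (U : Filter ℕ), (i0 n, k0 n) ∈ (G n).I) {pS : κ → ℝ}
    {E : ℝ → ℝ → ℝ → κ → ℝ}
    {c x h : ℕ → ℕ → ℝ} {y : ℝ} (hy : 0 < y) (S : SlabE B G i0 k0 pS E c x h y)
    (lS : pS ∈ Leg) (l1 : ∀ t, 0 ≤ t → t ≤ y → E t 0 t ∈ Leg)
    (l2 : ∀ t, 0 ≤ t → t ≤ y → E 0 t 0 ∈ Leg) (l3 : E 0 y y ∈ Leg)
    (l4 : E y y y ∈ Leg) {a : ℝ} (ha0 : 0 ≤ a) (ha1 : a ≤ 1)
    (r3 : ∀ t, 0 ≤ t → t ≤ y → a * t ≤ ν pS - ν (E 0 t 0))
    (r4 : ν pS - ν (E 0 y 0) ≤ ν (E y 0 y) - ν (E y y y))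
    {J : ℕ} (hJ : 0 < J) :
    (∃ j ≤ J, ν pS - ν (E (sc y J j) 0 (sc y J j)) + a * (y - sc y J (j + 1)) ≤
        ν (E 0 y 0) - ν (E 0 y y)) ∧
      ∃ j ≤ J, ν pS - ν (E (sc y J j) 0 (sc y J j)) + a * sc y J j + y
        - 2 * sc y J (j + 1) ≤ ν (E 0 y 0) - ν (E 0 y y) := by
  classical
  have hD := H.D1
  have hD0 : 0 < D := by linarith
  have hDD : 1 ≤ D ^ 2 := one_le_pow₀ hD
  have hD4 : 1 ≤ D ^ 4 := one_le_pow₀ hD
  have hDle2 : D ≤ D ^ 2 := by nlinarith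
  have h24 : D ^ 2 ≤ D ^ 4 := pow_le_pow_right₀ hD (by norm_num)
  have lE0y0 : E 0 y 0 ∈ Leg := l2 y hy.le le_rfl
  have lEy0y : E y 0 y ∈ Leg := l1 y hy.le le_rfl
  have leE := S.le
  have hy0 := hy.le
  -- constants
  obtain ⟨Kb, hKb, hbd⟩ := S.bd (D ^ 2) (by positivity)
  obtain ⟨L0, hL0, hla0⟩ := S.la (D ^ 2) (by positivity) (D ^ 4) (by positivity)
  obtain ⟨L1, hL1, hla1⟩ := S.la (D ^ 2) (by positivity) 1 one_pos
  obtain ⟨C3, hC3⟩ : ∃ C3 : ℝ, C3 = L1 + 1 := ⟨_, rfl⟩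
  have pC3 : 0 < C3 := by rw [hC3]; linarith
  obtain ⟨C5, pC5, hlb5⟩ := S.lb (D ^ 2) (by positivity) (C3 + L0) (by linarith)
  obtain ⟨K1, hK1⟩ : ∃ K1 : ℝ, K1 = D * C5 + 1 := ⟨_, rfl⟩
  obtain ⟨K2, hK2⟩ : ∃ K2 : ℝ, K2 = D * D ^ 2 + 1 := ⟨_, rfl⟩
  obtain ⟨C6, pC6, hlb6⟩ := S.lb (D ^ 2) (by positivity) (C3 + 1 + L0) (by linarith)
  obtain ⟨K6, pK6, hla6⟩ := S.la (D ^ 2) (by positivity) (D ^ 5 * C6) (by positivity)
  obtain ⟨C7, hC7⟩ : ∃ C7 : ℝ, C7 = Kb + C3 + K6 + L1 + 5 := ⟨_, rfl⟩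
  obtain ⟨L5, hL5, hla5⟩ := S.la (D ^ 2) (by positivity) (D ^ 2) (by positivity)
  obtain ⟨C8, pC8, hlb8⟩ := S.lb (D ^ 2) (by positivity) (L5 + C3 + 1) (by linarith)
  obtain ⟨K8, hK8⟩ : ∃ K8 : ℝ, K8 = D * C8 + 1 := ⟨_, rfl⟩
  obtain ⟨C, hC⟩ : ∃ C : ℝ, C = Kb + C7 + K2 + K8 + 1 := ⟨_, rfl⟩
  have pK1 : 1 ≤ K1 := by rw [hK1]; have : 0 < D * C5 := by positivity
                          linarith
  have pK2 : 1 ≤ K2 := by rw [hK2]; have : 0 < D * D ^ 2 := by positivity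
                          linarith
  have pC7 : 0 < C7 := by rw [hC7]; linarith
  have pK8 : 1 ≤ K8 := by rw [hK8]; have : 0 < D * C8 := by positivity
                          linarith
  have pC : 1 ≤ C := by rw [hC]; linarith
  obtain ⟨C9, pC9, hlb9⟩ := S.lb (D ^ 2) (by positivity) (2 * C + Kb + 2 + L0) (by linarith)
  obtain ⟨C10, pC10, hlb10⟩ := S.lb (D ^ 2) (by positivity) (L1 + 2 + L0) (by linarith)
  obtain ⟨C2, hC2⟩ : ∃ C2 : ℝ, C2 = (D ^ 2 + 1) * C6 + D * C9 + K1 + D * C10 + 2 := ⟨_, rfl⟩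
  have pDC9 : 0 < D * C9 := by positivity
  have pDC10 : 0 < D * C10 := by positivity
  have pDC6 : 0 < (D ^ 2 + 1) * C6 := by positivity
  have pC2 : 1 ≤ C2 := by rw [hC2]; linarith
  have f13 : (D ^ 2 + 1) * C6 ≤ C2 := by rw [hC2]; linarith
  have f14 : D * C9 ≤ C2 := by rw [hC2]; linarith
  have f15 : D * C10 + 1 + K1 ≤ C2 := by rw [hC2]; linarith
  have f16 : K8 + K2 ≤ C := by rw [hC]; linarith
  have f17 : Kb + 1 ≤ C := by rw [hC]; linarith
  have f18 : L1 + Kb + C3 + 1 + 1 ≤ C := by rw [hC, hC7]; linarith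
  have f19 : Kb + C3 + K6 + 3 + 1 ≤ C := by rw [hC, hC7]; linarith
  -- the sets
  obtain ⟨Sf, hSf⟩ : ∃ Sf : ℝ → ℕ → Finset ℕ, Sf = fun ε n => (G n).box pS ε (i0 n) (k0 n) :=
    ⟨_, rfl⟩
  obtain ⟨Tf, hTf⟩ : ∃ Tf : ℝ → ℕ → Finset ℕ, Tf = fun ε n =>
    (G n).box pS (D * ε) (i0 n) (k0 n) := ⟨_, rfl⟩
  obtain ⟨T0, hT0⟩ : ∃ T0 : ℝ → ℕ → Finset ℕ, T0 = fun ε n =>
    (G n).box pS (D ^ 2 * ε) (i0 n) (k0 n) := ⟨_, rfl⟩
  have memI : ∀ {n k i : ℕ} {p : κ → ℝ} {e : ℝ} {l : ℕ}, l ∈ (G n).box p e i k →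
      (l, k) ∈ (G n).I := fun hl => H.memSlice.1 (RCfg.box_subset_slice hl)
  have SsubT : ∀ ε : ℝ, 0 < ε → ∀ n, Sf ε n ⊆ Tf ε n := by
    intro ε hε n l hl
    rw [hSf] at hl; rw [hTf]
    obtain ⟨a1, a2⟩ := RCfg.mem_box.1 hl
    exact RCfg.mem_box.2 ⟨a1, H.loose_mono (fun _ => le_rfl) (le_mul_of_one_le_left hε.le hD) a2⟩
  have TsubT : ∀ ε : ℝ, 0 < ε → ∀ n, Tf ε n ⊆ T0 ε n := by
    intro ε hε n l hl
    rw [hTf] at hl; rw [hT0]
    obtain ⟨a1, a2⟩ := RCfg.mem_box.1 hl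
    exact RCfg.mem_box.2 ⟨a1, H.loose_mono (fun _ => le_rfl) (mE hε hDle2) a2⟩
  have T0I : ∀ {ε : ℝ} {n l : ℕ}, l ∈ T0 ε n → (l, k0 n) ∈ (G n).I := by
    intro ε n l hl; rw [hT0] at hl; exact memI hl
  have hnear : ∀ ε : ℝ, 0 < ε → ∀ᶠ n in (U : Filter ℕ), ∀ l ∈ T0 ε n, ∀ l' ∈ T0 ε n,
      (G n).loose pS (D ^ 4 * ε) (k0 n) l l' := by
    intro ε hε
    filter_upwards [h0, H.symm pS lS (D ^ 2 * ε) (by positivity),
      H.tri pS lS (D ^ 3 * ε) (by positivity)] with n g0 g1 g2 l hl l' hl'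
    have I1 := T0I hl
    have I2 := T0I hl'
    rw [hT0] at hl hl'
    have a1 := (RCfg.mem_box.1 hl).2
    have a2 := (RCfg.mem_box.1 hl').2
    have b1 := g1 (k0 n) (i0 n) l g0 I1 a1
    have e1 : D * (D ^ 2 * ε) = D ^ 3 * ε := by ring
    rw [e1] at b1
    have b2 : (G n).loose pS (D ^ 3 * ε) (k0 n) (i0 n) l' := H.loose_mono (fun _ => le_rfl) (by
      have : D ^ 2 ≤ D ^ 3 := pow_le_pow_right₀ hD (by norm_num)
      exact mul_le_mul_of_nonneg_right this hε.le) a2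
    have b3 := g2 (k0 n) l (i0 n) l' I1 g0 I2 b1 b2
    have e2 : D * (D ^ 3 * ε) = D ^ 4 * ε := by ring
    rwa [e2] at b3
  have hco0 : ∀ ε : ℝ, 0 < ε → ∀ᶠ n in (U : Filter ℕ), ∀ l ∈ T0 ε n, ∀ l' ∈ T0 ε n,
      |c n l' - c n l| ≤ B.d n ^ (0 - L0 * ε) ∧ |x n l' - x n l| ≤ B.d n ^ (0 - L0 * ε) ∧
      |(h n l' - h n l) - c n l * (x n l' - x n l)| ≤ B.d n ^ (0 - L0 * ε) := by
    intro ε hε
    filter_upwards [hnear ε hε, hla0 0 0 0 le_rfl hy0 le_rfl hy0 le_rfl hy0 ε hε]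
      with n g1 g2 l hl l' hl'
    have := g1 l hl l' hl'
    rw [← S.E0] at this
    rw [hT0] at hl hl'
    exact g2 l hl l' hl' this
  have hTT : ∀ ε : ℝ, 0 < ε → ∀ᶠ n in (U : Filter ℕ), ∀ l ∈ Tf ε n, ∀ l', (l', k0 n) ∈ (G n).I →
      (G n).loose pS (D * ε) (k0 n) l l' → l' ∈ T0 ε n := by
    intro ε hε
    filter_upwards [h0, H.tri pS lS (D * ε) (by positivity)] with n g0 g1 l hl l' I' a'
    have I1 := T0I (TsubT ε hε n hl)
    rw [hTf] at hl
    have := g1 (k0 n) (i0 n) l l' g0 I1 I' (RCfg.mem_box.1 hl).2 a'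
    have e1 : D * (D * ε) = D ^ 2 * ε := by ring
    rw [e1] at this
    rw [hT0]
    exact RCfg.mem_box.2 ⟨H.memSlice.2 I', this⟩
  have hST : ∀ ε : ℝ, 0 < ε → ∀ᶠ n in (U : Filter ℕ), ∀ l ∈ Sf ε n, ∀ l', (l', k0 n) ∈ (G n).I →
      (G n).loose pS ε (k0 n) l l' → l' ∈ Tf ε n := by
    intro ε hε
    filter_upwards [h0, H.tri pS lS ε hε] with n g0 g1 l hl l' I' a'
    have I1 := T0I (TsubT ε hε n (SsubT ε hε n hl))
    rw [hSf] at hl
    have := g1 (k0 n) (i0 n) l l' g0 I1 I' (RCfg.mem_box.1 hl).2 a'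
    rw [hTf]
    exact RCfg.mem_box.2 ⟨H.memSlice.2 I', this⟩
  -- the centres
  have hZex : ∀ (ε : ℝ) (n : ℕ), ∃ Z ⊆ Tf ε n,
      (∀ e ∈ Z, ∀ e' ∈ Z, e ≠ e' → ¬ |x n e' - x n e| ≤ B.d n ^ (y - C3 * ε)) ∧
      ∀ t ∈ Tf ε n, t ∉ Z → ∃ e ∈ Z, |x n t - x n e| ≤ B.d n ^ (y - C3 * ε) ∨
        |x n e - x n t| ≤ B.d n ^ (y - C3 * ε) := fun ε n =>
    exists_indep _ (fun e t => |x n t - x n e| ≤ B.d n ^ (y - C3 * ε))
  choose Z hZ1 hZ2 hZ3 using hZex
  have hZnear : ∀ ε : ℝ, ∀ n, ∀ t ∈ Tf ε n, ∃ e ∈ Z ε n, |x n t - x n e| ≤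
      B.d n ^ (y - C3 * ε) := by
    intro ε n t ht
    by_cases htZ : t ∈ Z ε n
    · exact ⟨t, htZ, by rw [sub_self, abs_zero]; exact (rpos B n _).le⟩
    · obtain ⟨e, he, g | g⟩ := hZ3 ε n t ht htZ
      · exact ⟨e, he, g⟩
      · exact ⟨e, he, by rw [abs_sub_comm]; exact g⟩
  -- x-distance inside a small box
  have hxbox : ∀ ε : ℝ, 0 < ε → ∀ᶠ n in (U : Filter ℕ), ∀ z ∈ Tf ε n,
      ∀ l ∈ (G n).box (E 0 y 0) ε z (k0 n), l ∈ T0 ε n ∧
        |x n l - x n z| ≤ B.d n ^ (y - L1 * ε) := by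
    intro ε hε
    filter_upwards [hTT ε hε, hla1 0 y 0 le_rfl hy0 hy0 le_rfl le_rfl hy0 ε hε]
      with n g1 g2 z hz l hl
    obtain ⟨a1, a2⟩ := RCfg.mem_box.1 hl
    have I' := H.memSlice.1 a1
    have hl0 : l ∈ T0 ε n := g1 z hz l I' (H.loose_mono (leE 0 y 0 le_rfl hy.le le_rfl)
      (le_mul_of_one_le_left hε.le hD) a2)
    refine ⟨hl0, ?_⟩
    have hz0 := TsubT ε hε n hz
    rw [hT0] at hl0 hz0
    exact (g2 z hz0 l hl0 (by rwa [one_mul])).2.1
  have hdisj : ∀ ε : ℝ, 0 < ε → ∀ᶠ n in (U : Filter ℕ), ∀ z ∈ Z ε n, ∀ z' ∈ Z ε n, z ≠ z' →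
      Disjoint ((G n).box (E 0 y 0) ε z (k0 n)) ((G n).box (E 0 y 0) ε z' (k0 n)) := by
    intro ε hε
    filter_upwards [hxbox ε hε, ev_const_le B hε 8] with n g1 h8 z hz z' hz' hne
    rw [Finset.disjoint_left]
    intro l hl hl'
    have b1 := (g1 z (hZ1 ε n hz) l hl).2
    have b2 := (g1 z' (hZ1 ε n hz') l hl').2
    refine hZ2 ε n z hz z' hz' hne ?_
    have e1 : |x n z' - x n z| ≤ |x n l - x n z| + |x n l - x n z'| := by
      have : x n z' - x n z = (x n l - x n z) - (x n l - x n z') := by ring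
      rw [this]; exact abs_sub _ _
    exact e1.trans (pwK2 B hε h8 b1 b2 (by linarith) (by linarith))
  -- lower bound for the number of centres
  have hZlow : ∀ ε : ℝ, 0 < ε → ∀ᶠ n in (U : Filter ℕ),
      B.d n ^ (-(ν pS - ν (E 0 y 0)) + K1 * ε) ≤ ((Z ε n).card : ℝ) := by
    intro ε hε
    have hC5ε : 0 < C5 * ε := by positivity
    filter_upwards [h0, hco0 ε hε, hlb5 0 y 0 le_rfl hy0 hy0 le_rfl le_rfl hy0 ε hε,
      H.low pS lS ε hε, H.up (E 0 y 0) lE0y0 (C5 * ε) hC5ε] with n g0 g1 g2 g3 g4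
    have hpow : ∀ t : ℝ, 0 < B.d n ^ t := fun t => rpos B n t
    have hcov := card_le_of_cover (Z := Z ε n) (W := Tf ε n)
      (bx := fun z => (G n).box (E 0 y 0) (C5 * ε) z (k0 n)) (by
        intro w hw
        obtain ⟨z, hz, hzw⟩ := hZnear ε n w hw
        refine ⟨z, hz, ?_⟩
        have hz0 := TsubT ε hε n (hZ1 ε n hz)
        have hw0 := TsubT ε hε n hw
        obtain ⟨q1, q2, q3⟩ := g1 z hz0 w hw0
        have Iw := T0I hw0
        rw [hT0] at hz0 hw0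
        exact RCfg.mem_box.2 ⟨H.memSlice.2 Iw, g2 z hz0 w hw0
          (q1.trans (anK B n hε (by linarith))) (hzw.trans (anK B n hε (by linarith)))
          (q3.trans (anK B n hε (by linarith)))⟩)
      (fun z hz => g4 z (k0 n) (T0I (TsubT ε hε n (hZ1 ε n hz))))
    have hS1 : B.d n ^ (-ν pS + ε) ≤ ((Tf ε n).card : ℝ) := by
      refine (g3 (i0 n) (k0 n) g0).trans ?_
      have := SsubT ε hε n
      rw [hSf] at this
      exact_mod_cast Finset.card_le_card this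
    have h1 := hS1.trans hcov
    have h2 : B.d n ^ (-ν (E 0 y 0) - D * (C5 * ε)) * B.d n ^ (ν (E 0 y 0) + D * (C5 * ε)) = 1 := by
      rw [← rpow_add']
      have : -ν (E 0 y 0) - D * (C5 * ε) + (ν (E 0 y 0) + D * (C5 * ε)) = 0 := by ring
      rw [this, Real.rpow_zero]
    calc B.d n ^ (-(ν pS - ν (E 0 y 0)) + K1 * ε)
        = B.d n ^ (-ν pS + ε) * B.d n ^ (ν (E 0 y 0) + D * (C5 * ε)) := by
          rw [← rpow_add', hK1]; congr 1; ring
      _ ≤ ((Z ε n).card * B.d n ^ (-ν (E 0 y 0) - D * (C5 * ε))) *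
          B.d n ^ (ν (E 0 y 0) + D * (C5 * ε)) := mul_le_mul_of_nonneg_right h1 (hpow _).le
      _ = _ := by rw [mul_assoc, h2, mul_one]
  -- upper bound for the number of centres
  have hZup : ∀ ε : ℝ, 0 < ε → ∀ᶠ n in (U : Filter ℕ),
      ((Z ε n).card : ℝ) ≤ B.d n ^ (-(ν pS - ν (E 0 y 0)) - K2 * ε) := by
    intro ε hε
    filter_upwards [h0, hxbox ε hε, hdisj ε hε, H.low (E 0 y 0) lE0y0 ε hε,
      H.up pS lS (D ^ 2 * ε) (by positivity)] with n g0 g1 g2 g3 g4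
    have hpow : ∀ t : ℝ, 0 < B.d n ^ t := fun t => rpos B n t
    have h1 := card_mul_le_of_disj (Z := Z ε n) (W := T0 ε n)
      (bx := fun z => (G n).box (E 0 y 0) ε z (k0 n)) g2
      (fun z hz l hl => (g1 z (hZ1 ε n hz) l hl).1)
      (fun z hz => g3 z (k0 n) (T0I (TsubT ε hε n (hZ1 ε n hz))))
    have h2 : ((T0 ε n).card : ℝ) ≤ B.d n ^ (-ν pS - D * (D ^ 2 * ε)) := by
      rw [hT0]; exact g4 (i0 n) (k0 n) g0
    have h3 := h1.trans h2
    have h4 : B.d n ^ (-ν (E 0 y 0) + ε) * B.d n ^ (ν (E 0 y 0) - ε) = 1 := by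
      rw [← rpow_add']
      have : -ν (E 0 y 0) + ε + (ν (E 0 y 0) - ε) = 0 := by ring
      rw [this, Real.rpow_zero]
    calc ((Z ε n).card : ℝ) = ((Z ε n).card * B.d n ^ (-ν (E 0 y 0) + ε)) *
          B.d n ^ (ν (E 0 y 0) - ε) := by rw [mul_assoc, h4, mul_one]
      _ ≤ B.d n ^ (-ν pS - D * (D ^ 2 * ε)) * B.d n ^ (ν (E 0 y 0) - ε) :=
          mul_le_mul_of_nonneg_right h3 (hpow _).le
      _ = _ := by rw [← rpow_add', hK2]; congr 1; ring
  have pZ : ∀ ε : ℝ, 0 < ε → ∀ᶠ n in (U : Filter ℕ), (Z ε n).Nonempty := by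
    intro ε hε
    filter_upwards [hZlow ε hε] with n g
    rw [← Finset.card_pos]
    have := lt_of_lt_of_le (rpos B n _) g
    exact_mod_cast this
  -- alive
  obtain ⟨al, hal0⟩ : ∃ al : ℝ → ℕ → ℕ → ℕ → Prop, ∀ ε n i z, al ε n i z ↔
      ∃ l' ∈ Tf ε n, (G n).loose (E y 0 y) ε (k0 n) i l' ∧
        |x n l' - x n z| ≤ B.d n ^ (y - C3 * ε) := ⟨_, fun _ _ _ _ => Iff.rfl⟩
  have hφ : ∀ ε : ℝ, 0 < ε → ∀ᶠ n in (U : Filter ℕ), ∀ k ∈ Z ε n,
      |x n k| ≤ B.d n ^ (-(C * ε)) := by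
    intro ε hε
    filter_upwards [hbd ε hε] with n g z hz
    have hz0 := TsubT ε hε n (hZ1 ε n hz)
    rw [hT0] at hz0
    exact (g z hz0).2.trans (anN B n hε (by linarith))
  have hFF : ∀ ε : ℝ, 0 < ε → ∀ᶠ n in (U : Filter ℕ), ∀ k ∈ Z ε n, ∀ i ∈ Sf ε n,
      ∀ i' ∈ Sf ε n,
      |((h n i - c n i * x n i) + x n k * c n i) - ((h n i' - c n i' * x n i') + x n k * c n i') -
        (((h n i - c n i * x n i) - (h n i' - c n i' * x n i')) + x n k * (c n i - c n i'))|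
        ≤ B.d n ^ (y - C * ε) := by
    intro ε hε
    refine Eventually.of_forall fun n k hk i hi i' hi' => ?_
    have : ((h n i - c n i * x n i) + x n k * c n i) - ((h n i' - c n i' * x n i') + x n k * c n i') -
        (((h n i - c n i * x n i) - (h n i' - c n i' * x n i')) + x n k * (c n i - c n i')) = 0 := by
      ring
    rw [this, abs_zero]
    exact (rpos B n _).le
  have hSS : ∀ ε : ℝ, 0 < ε → ∀ᶠ n in (U : Filter ℕ),
      B.d n ^ (-ν pS + C * ε) ≤ ((Sf ε n).card : ℝ) := by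
    intro ε hε
    filter_upwards [h0, H.low pS lS ε hε] with n g0 g
    rw [hSf]
    refine (rpow_anti B n ?_).trans (g (i0 n) (k0 n) g0)
    have := le_mul_of_one_le_left hε.le pC
    linarith
  have hcell : ∀ ε : ℝ, 0 < ε → ∀ᶠ n in (U : Filter ℕ), ∀ k ∈ Z ε n,
      ((((Sf ε n).filter fun i => al ε n i k).image fun i =>
        ⌊((h n i - c n i * x n i) + x n k * c n i) / B.d n ^ (y - C * ε)⌋).card : ℝ)
        ≤ 11 * B.d n ^ (-(ν (E 0 y 0) - ν (E 0 y y)) - C2 * ε) := by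
    intro ε hε
    have hC6ε : 0 < C6 * ε := by positivity
    filter_upwards [hco0 ε hε, hlb6 0 y 0 le_rfl hy0 hy0 le_rfl le_rfl hy0 ε hε,
      hla6 0 y y le_rfl hy0 hy0 le_rfl hy0 le_rfl ε hε, hla1 y 0 y hy0 le_rfl le_rfl hy0 hy0
        le_rfl ε hε, hbd ε hε,
      H.exists_lab_loose (E 0 y 0) (E 0 y y) lE0y0 l3 S.le1 hC6ε,
      ev_const_le B hε 8] with n g1 g2 ga gb gd g3 h8 z hz
    have hpow : ∀ t : ℝ, 0 < B.d n ^ t := fun t => rpos B n t
    have hz0 := TsubT ε hε n (hZ1 ε n hz)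
    set W := (Tf ε n).filter fun l => |x n l - x n z| ≤ B.d n ^ (y - C3 * ε) with hW
    have hWT : ∀ w ∈ W, w ∈ T0 ε n := fun w hw => TsubT ε hε n (Finset.mem_filter.1 hw).1
    have hxx : ∀ w ∈ W, ∀ w' ∈ W, |x n w' - x n w| ≤ B.d n ^ (y - (C3 + 1) * ε) := by
      intro w hw w' hw'
      have b1 := (Finset.mem_filter.1 hw).2
      have b2 := (Finset.mem_filter.1 hw').2
      have e1 : |x n w' - x n w| ≤ |x n w' - x n z| + |x n w - x n z| := by
        have : x n w' - x n w = (x n w' - x n z) - (x n w - x n z) := by ring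
        rw [this]; exact abs_sub _ _
      exact e1.trans (pwK2 B hε h8 b2 b1 le_rfl le_rfl)
    obtain ⟨lab, hlab1, hlab2⟩ := g3 (k0 n) W (fun w hw => H.memSlice.2 (T0I (hWT w hw))) (by
      intro w hw w' hw'
      obtain ⟨q1, q2, q3⟩ := g1 w (hWT w hw) w' (hWT w' hw')
      have hw0 := hWT w hw
      have hw0' := hWT w' hw'
      rw [hT0] at hw0 hw0'
      exact g2 w hw0 w' hw0' (q1.trans (anK B n hε (by linarith)))
        ((hxx w hw w' hw').trans (anK B n hε (by linarith)))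
        (q3.trans (anK B n hε (by linarith))))
    -- `h` on a class of labels
    have hhh : ∀ w ∈ W, ∀ w' ∈ W, lab w = lab w' → |h n w - h n w'| ≤
        B.d n ^ (y - (Kb + C3 + K6 + 3) * ε) := by
      intro w hw w' hw' hl
      have b1 := hlab1 w hw w' hw' hl
      have hw0 := hWT w hw
      have hw0' := hWT w' hw'
      rw [hT0] at hw0 hw0'
      rw [← mul_assoc] at b1
      have b2 := (ga w hw0 w' hw0' b1).2.2
      have b3 : |c n w * (x n w' - x n w)| ≤ B.d n ^ (y - (Kb + C3 + 1) * ε) := by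
        rw [abs_mul]
        calc |c n w| * |x n w' - x n w| ≤ B.d n ^ (-(Kb * ε)) * B.d n ^ (y - (C3 + 1) * ε) :=
              mul_le_mul (gd w hw0).1 (hxx w hw w' hw') (abs_nonneg _) (hpow _).le
          _ = _ := by rw [← rpow_add']; congr 1; ring
      have e1 : |h n w - h n w'| ≤ |(h n w' - h n w) - c n w * (x n w' - x n w)| +
          |c n w * (x n w' - x n w)| := by
        have : h n w' - h n w = ((h n w' - h n w) - c n w * (x n w' - x n w)) +
          c n w * (x n w' - x n w) := by ring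
        rw [abs_sub_comm, this]
        refine (abs_add_le _ _).trans (le_of_eq ?_)
        ring_nf
      exact e1.trans (pwK2 B hε h8 b2 b3 (by linarith) (by linarith))
    -- witnesses
    have hwit : ∀ i ∈ (Sf ε n).filter (fun i => al ε n i z), ∃ w ∈ W,
        |((h n i - c n i * x n i) + x n z * c n i) - h n w| ≤
          B.d n ^ (y - (L1 + Kb + C3 + 1) * ε) := by
      intro i hi
      obtain ⟨hi1, hi2⟩ := Finset.mem_filter.1 hi
      obtain ⟨w, hw1, hw2, hw3⟩ := (hal0 ε n i z).1 hi2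
      refine ⟨w, Finset.mem_filter.2 ⟨hw1, hw3⟩, ?_⟩
      have hi0 := TsubT ε hε n (SsubT ε hε n hi1)
      have hw0 := TsubT ε hε n hw1
      rw [hT0] at hi0 hw0
      have b2 := (gb i hi0 w hw0 (by rwa [one_mul])).2.2
      have b3 : |c n i * (x n w - x n z)| ≤ B.d n ^ (y - (Kb + C3) * ε) := by
        rw [abs_mul]
        calc |c n i| * |x n w - x n z| ≤ B.d n ^ (-(Kb * ε)) * B.d n ^ (y - C3 * ε) :=
              mul_le_mul (gd i hi0).1 hw3 (abs_nonneg _) (hpow _).le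
          _ = _ := by rw [← rpow_add']; congr 1; ring
      have e1 : |((h n i - c n i * x n i) + x n z * c n i) - h n w| ≤
          |(h n w - h n i) - c n i * (x n w - x n i)| + |c n i * (x n w - x n z)| := by
        have : ((h n i - c n i * x n i) + x n z * c n i) - h n w =
          -((h n w - h n i) - c n i * (x n w - x n i)) - c n i * (x n w - x n z) := by ring
        rw [this]
        refine (abs_sub _ _).trans (le_of_eq ?_)
        rw [abs_neg]
      exact e1.trans (pwK2 B hε h8 b2 b3 (by linarith) (by linarith))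
    choose! wit hwit1 hwit2 using hwit
    have key := floor_labels ((Sf ε n).filter fun i => al ε n i z)
      (fun i => (h n i - c n i * x n i) + x n z * c n i) (fun i => lab (wit i))
      (hpow (y - C * ε)) (by
        intro i hi i' hi' hl
        have b1 := hwit2 i hi
        have b2 := hwit2 i' hi'
        have b3 := hhh _ (hwit1 i hi) _ (hwit1 i' hi') hl
        have e1 : |((h n i - c n i * x n i) + x n z * c n i) -
            ((h n i' - c n i' * x n i') + x n z * c n i')| ≤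
            |((h n i - c n i * x n i) + x n z * c n i) - h n (wit i)| +
            |((h n i' - c n i' * x n i') + x n z * c n i') - h n (wit i')| +
            |h n (wit i) - h n (wit i')| := by
          have : ((h n i - c n i * x n i) + x n z * c n i) -
            ((h n i' - c n i' * x n i') + x n z * c n i') =
            (((h n i - c n i * x n i) + x n z * c n i) - h n (wit i)) -
            (((h n i' - c n i' * x n i') + x n z * c n i') - h n (wit i')) +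
            (h n (wit i) - h n (wit i')) := by ring
          rw [this]
          refine (abs_add_le _ _).trans ?_
          have := abs_sub (((h n i - c n i * x n i) + x n z * c n i) - h n (wit i))
            (((h n i' - c n i' * x n i') + x n z * c n i') - h n (wit i'))
          linarith
        have e2 : |((h n i - c n i * x n i) + x n z * c n i) -
            ((h n i' - c n i' * x n i') + x n z * c n i')| ≤ B.d n ^ (y - C * ε) := by
          exact e1.trans (pwK3 B hε h8 b1 b2 b3 f18 f18 f19)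
        have := hpow (y - C * ε)
        linarith)
    have key2 : ((((Sf ε n).filter fun i => al ε n i z).image fun i => lab (wit i)).card : ℝ) ≤
        ((W.image lab).card : ℝ) := by
      refine mod_cast Finset.card_le_card ?_
      intro v hv
      obtain ⟨i, hi, rfl⟩ := Finset.mem_image.1 hv
      exact Finset.mem_image_of_mem _ (hwit1 i hi)
    have key3 : B.d n ^ (-(ν (E 0 y 0) - ν (E 0 y y)) - (D ^ 2 + 1) * (C6 * ε)) ≤
        B.d n ^ (-(ν (E 0 y 0) - ν (E 0 y y)) - C2 * ε) := rpow_anti B n (by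
      have : (D ^ 2 + 1) * (C6 * ε) ≤ C2 * ε := by
        rw [← mul_assoc]; exact mE hε f13
      linarith)
    have key4 := key2.trans (hlab2.trans key3)
    linarith
  have hall : ∀ ε : ℝ, 0 < ε → ∀ᶠ n in (U : Filter ℕ), ∀ i ∈ Sf ε n,
      B.d n ^ (C * ε) * ((Z ε n).card : ℝ) ≤ (((Z ε n).filter fun k => al ε n i k).card : ℝ) := by
    intro ε hε
    have hC8ε : 0 < C8 * ε := by positivity
    have hDε : 0 < D * ε := by positivity
    filter_upwards [hla5 y 0 y hy0 le_rfl le_rfl hy0 hy0 le_rfl ε hε,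
      hlb8 y y y hy0 le_rfl hy0 le_rfl hy0 le_rfl ε hε, hST ε hε, H.symm (E y 0 y) lEy0y ε hε,
      H.tri (E y 0 y) lEy0y (D * ε) hDε, H.low (E y 0 y) lEy0y ε hε,
      H.up (E y y y) l4 (C8 * ε) hC8ε, hZup ε hε, ev_const_le B hε 8]
      with n ga gb g3 g4 g5 g6 g7 g8 h8 i hi
    have hpow : ∀ t : ℝ, 0 < B.d n ^ t := fun t => rpos B n t
    have hi0 := TsubT ε hε n (SsubT ε hε n hi)
    have Ii := T0I hi0
    have hBT : ∀ w ∈ (G n).box (E y 0 y) ε i (k0 n), w ∈ Tf ε n := by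
      intro w hw
      obtain ⟨a1, a2⟩ := RCfg.mem_box.1 hw
      exact g3 i hi w (H.memSlice.1 a1) (H.loose_mono (leE y 0 y hy.le le_rfl hy.le) le_rfl a2)
    have hcov := card_le_of_cover (Z := (Z ε n).filter fun k => al ε n i k)
      (W := (G n).box (E y 0 y) ε i (k0 n))
      (bx := fun z => ((G n).box (E y 0 y) ε i (k0 n)).filter
        fun w => |x n w - x n z| ≤ B.d n ^ (y - C3 * ε)) (by
        intro w hw
        obtain ⟨z, hz, hzw⟩ := hZnear ε n w (hBT w hw)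
        refine ⟨z, Finset.mem_filter.2 ⟨hz, ?_⟩, Finset.mem_filter.2 ⟨hw, hzw⟩⟩
        exact (hal0 ε n i z).2 ⟨w, hBT w hw, (RCfg.mem_box.1 hw).2, hzw⟩)
      (M := B.d n ^ (-ν (E y y y) - D * (C8 * ε))) (by
        intro z hz
        rcases (((G n).box (E y 0 y) ε i (k0 n)).filter
          fun w => |x n w - x n z| ≤ B.d n ^ (y - C3 * ε)).eq_empty_or_nonempty with he | ⟨w0, hw0⟩
        · rw [he]; simpa using (hpow _).le
        obtain ⟨hw1, hw2⟩ := Finset.mem_filter.1 hw0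
        have Iw0 := T0I (TsubT ε hε n (hBT w0 hw1))
        refine le_trans ?_ (g7 w0 (k0 n) Iw0)
        refine mod_cast Finset.card_le_card ?_
        intro w hw
        obtain ⟨hw3, hw4⟩ := Finset.mem_filter.1 hw
        have Iw := T0I (TsubT ε hε n (hBT w hw3))
        have a1 := g4 (k0 n) i w0 Ii Iw0 (RCfg.mem_box.1 hw1).2
        have a2 : (G n).loose (E y 0 y) (D * ε) (k0 n) i w :=
          H.loose_mono (fun _ => le_rfl) (le_mul_of_one_le_left hε.le hD) (RCfg.mem_box.1 hw3).2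
        have a3 := g5 (k0 n) w0 i w Iw0 Ii Iw a1 a2
        have e1 : D * (D * ε) = D ^ 2 * ε := by ring
        rw [e1] at a3
        have b0 := TsubT ε hε n (hBT w0 hw1)
        have b1 := TsubT ε hε n (hBT w hw3)
        rw [hT0] at b0 b1
        obtain ⟨q1, q2, q3⟩ := ga w0 b0 w b1 a3
        have e2 : |x n w - x n w0| ≤ B.d n ^ (y - (C3 + 1) * ε) := by
          have e3 : |x n w - x n w0| ≤ |x n w - x n z| + |x n w0 - x n z| := by
            have : x n w - x n w0 = (x n w - x n z) - (x n w0 - x n z) := by ring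
            rw [this]; exact abs_sub _ _
          exact e3.trans (pwK2 B hε h8 hw4 hw2 le_rfl le_rfl)
        exact RCfg.mem_box.2 ⟨H.memSlice.2 Iw, gb w0 b0 w b1 (q1.trans (anK B n hε (by linarith)))
          (e2.trans (anK B n hε (by linarith))) (q3.trans (anK B n hε (by linarith)))⟩)
    have h1 := (g6 i (k0 n) Ii).trans hcov
    have h2 : B.d n ^ (-ν (E y y y) - D * (C8 * ε)) * B.d n ^ (ν (E y y y) + D * (C8 * ε)) = 1 := by
      rw [← rpow_add']
      have : -ν (E y y y) - D * (C8 * ε) + (ν (E y y y) + D * (C8 * ε)) = 0 := by ring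
      rw [this, Real.rpow_zero]
    have h3 : B.d n ^ (-(ν (E y 0 y) - ν (E y y y)) + K8 * ε) ≤
        (((Z ε n).filter fun k => al ε n i k).card : ℝ) := by
      calc B.d n ^ (-(ν (E y 0 y) - ν (E y y y)) + K8 * ε)
          = B.d n ^ (-ν (E y 0 y) + ε) * B.d n ^ (ν (E y y y) + D * (C8 * ε)) := by
            rw [← rpow_add', hK8]; congr 1; ring
        _ ≤ ((((Z ε n).filter fun k => al ε n i k).card : ℝ) *
            B.d n ^ (-ν (E y y y) - D * (C8 * ε))) * B.d n ^ (ν (E y y y) + D * (C8 * ε)) :=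
              mul_le_mul_of_nonneg_right h1 (hpow _).le
        _ = _ := by rw [mul_assoc, h2, mul_one]
    refine le_trans ?_ h3
    calc B.d n ^ (C * ε) * ((Z ε n).card : ℝ)
        ≤ B.d n ^ (C * ε) * B.d n ^ (-(ν pS - ν (E 0 y 0)) - K2 * ε) :=
          mul_le_mul_of_nonneg_left g8 (hpow _).le
      _ = B.d n ^ (C * ε + (-(ν pS - ν (E 0 y 0)) - K2 * ε)) := by rw [← rpow_add']
      _ ≤ _ := rpow_anti B n (by
          have : K8 * ε + K2 * ε ≤ C * ε := by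
            rw [← add_mul]; exact mE hε f16
          linarith)
  have hV0 : ∀ ε : ℝ, 0 < ε → ∀ᶠ n in (U : Filter ℕ), ∀ i ∈ Sf ε n, ∀ i' ∈ Sf ε n,
      |c n i - c n i'| ≤ B.d n ^ (-(C * ε)) := by
    intro ε hε
    filter_upwards [hbd ε hε, ev_const_le B hε 8] with n g h8 i hi i' hi'
    have hi0 := TsubT ε hε n (SsubT ε hε n hi)
    have hi0' := TsubT ε hε n (SsubT ε hε n hi')
    rw [hT0] at hi0 hi0'
    have e1 : -(C * ε) + ε ≤ -(Kb * ε) := by
      have := mE hε f17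
      rw [add_mul, one_mul] at this
      linarith
    exact (abs_sub _ _).trans (pw2 B h8 (g i hi0).1 (g i' hi0').1 e1 e1)
  have hPP : ∀ j ≤ J, ∀ ε : ℝ, 0 < ε → ∀ᶠ n in (U : Filter ℕ), ∀ i ∈ Sf ε n,
      (((Sf ε n).filter fun i' => |c n i' - c n i| ≤ B.d n ^ (sc y J j - C * ε) ∧
        |(h n i' - c n i' * x n i') - (h n i - c n i * x n i)| ≤
          B.d n ^ (sc y J j - (2 * C + 1) * ε)).card : ℝ)
          ≤ B.d n ^ (-ν (E (sc y J j) 0 (sc y J j)) - C2 * ε) := by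
    intro j hj ε hε
    have hC9ε : 0 < C9 * ε := by positivity
    have ht0 := sc_nonneg hy.le J j
    have ht1 := sc_le hy.le hJ hj
    filter_upwards [hco0 ε hε, hlb9 _ 0 _ ht0 ht1 le_rfl hy0 ht0 ht1 ε hε, hbd ε hε,
      H.up (E (sc y J j) 0 (sc y J j)) (l1 _ ht0 ht1)
      (C9 * ε) hC9ε, ev_const_le B hε 8] with n g1 g2 gd g3 h8 i hi
    have hpow : ∀ t : ℝ, 0 < B.d n ^ t := fun t => rpos B n t
    have hi0 := TsubT ε hε n (SsubT ε hε n hi)
    have Ii := T0I hi0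
    refine le_trans ?_ ((g3 i (k0 n) Ii).trans (rpow_anti B n ?_))
    · refine mod_cast Finset.card_le_card ?_
      intro i' hi'
      obtain ⟨a1, a2, a3⟩ := Finset.mem_filter.1 hi'
      have hi0' := TsubT ε hε n (SsubT ε hε n a1)
      obtain ⟨q1, q2, q3⟩ := g1 i hi0 i' hi0'
      have Ii' := T0I hi0'
      rw [hT0] at hi0 hi0'
      refine RCfg.mem_box.2 ⟨H.memSlice.2 Ii', g2 i hi0 i' hi0'
        (a2.trans (anK B n hε (by linarith))) (q2.trans (anK B n hε (by linarith))) ?_⟩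
      · have b1 : |(h n i' - h n i) - c n i * (x n i' - x n i)| ≤
            |(h n i' - c n i' * x n i') - (h n i - c n i * x n i)| +
              |(c n i' - c n i) * x n i'| := by
          have : (h n i' - h n i) - c n i * (x n i' - x n i) =
            ((h n i' - c n i' * x n i') - (h n i - c n i * x n i)) + (c n i' - c n i) * x n i' := by
            ring
          rw [this]; exact abs_add_le _ _
        have b2 : |(c n i' - c n i) * x n i'| ≤ B.d n ^ (sc y J j - (C + Kb) * ε) := by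
          rw [abs_mul]
          calc |c n i' - c n i| * |x n i'| ≤ B.d n ^ (sc y J j - C * ε) * B.d n ^ (-(Kb * ε)) :=
                mul_le_mul a2 (gd i' hi0').2 (abs_nonneg _) (hpow _).le
            _ = _ := by rw [← rpow_add']; congr 1; ring
        have b3 : |(h n i' - h n i) - c n i * (x n i' - x n i)| ≤
            B.d n ^ (sc y J j - (2 * C + Kb + 2) * ε) := by
          exact b1.trans (pwK2 B hε h8 a3 b2 (by linarith) (by linarith))
        exact b3.trans (anK B n hε (by linarith))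
    · have : D * (C9 * ε) ≤ C2 * ε := by
        rw [← mul_assoc]; exact mE hε f14
      linarith
  have hQQ : ∀ s : ℝ, 0 ≤ s → s ≤ y → ∀ ε : ℝ, 0 < ε → ∀ᶠ n in (U : Filter ℕ), ∀ k ∈ Z ε n,
      (((Z ε n).filter fun k' => |x n k' - x n k| ≤ B.d n ^ (s - ε)).card : ℝ)
        ≤ B.d n ^ (a * s - C2 * ε) * ((Z ε n).card : ℝ) := by
    intro s hs0 hs1 ε hε
    have hC10ε : 0 < C10 * ε := by positivity
    filter_upwards [hco0 ε hε, hlb10 0 s 0 le_rfl hy0 hs0 hs1 le_rfl hy0 ε hε, hxbox ε hε,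
      hdisj ε hε, H.low (E 0 y 0) lE0y0 ε hε,
      H.up (E 0 s 0) (l2 s hs0 hs1) (C10 * ε) hC10ε, hZlow ε hε, ev_const_le B hε 8]
      with n g1 g2 g3 g4 g5 g6 g7 h8 z hz
    have hpow : ∀ t : ℝ, 0 < B.d n ^ t := fun t => rpos B n t
    have hz0 := TsubT ε hε n (hZ1 ε n hz)
    have Iz := T0I hz0
    have h1 := card_mul_le_of_disj
      (Z := (Z ε n).filter fun k' => |x n k' - x n z| ≤ B.d n ^ (s - ε))
      (W := (G n).box (E 0 s 0) (C10 * ε) z (k0 n))
      (bx := fun z' => (G n).box (E 0 y 0) ε z' (k0 n))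
      (fun z1 hz1 z2 hz2 hne => g4 z1 (Finset.mem_filter.1 hz1).1 z2 (Finset.mem_filter.1 hz2).1 hne)
      (by
        intro z' hz' l hl
        obtain ⟨c1, c2⟩ := Finset.mem_filter.1 hz'
        obtain ⟨d1, d2⟩ := g3 z' (hZ1 ε n c1) l hl
        obtain ⟨q1, q2, q3⟩ := g1 z hz0 l d1
        have Il := T0I d1
        have e1 : |x n l - x n z| ≤ B.d n ^ (s - (L1 + 2) * ε) := by
          have e2 : |x n l - x n z| ≤ |x n l - x n z'| + |x n z' - x n z| := by
            have : x n l - x n z = (x n l - x n z') + (x n z' - x n z) := by ring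
            rw [this]; exact abs_add_le _ _
          have d3 : |x n l - x n z'| ≤ B.d n ^ (s - L1 * ε) :=
            d2.trans (rpow_anti B n (by linarith))
          have c3 : |x n z' - x n z| ≤ B.d n ^ (s - 1 * ε) := by rwa [one_mul]
          exact e2.trans (pwK2 B hε h8 d3 c3 (by linarith) (by linarith))
        have hz0' := hz0
        rw [hT0] at hz0' d1
        exact RCfg.mem_box.2 ⟨H.memSlice.2 Il, g2 z hz0' l d1 (q1.trans (anK B n hε (by linarith)))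
          (e1.trans (anK B n hε (by linarith))) (q3.trans (anK B n hε (by linarith)))⟩)
      (fun z' hz' => g5 z' (k0 n) (T0I (TsubT ε hε n (hZ1 ε n (Finset.mem_filter.1 hz').1))))
    have h2 := h1.trans (g6 z (k0 n) Iz)
    have h4 : B.d n ^ (-ν (E 0 y 0) + ε) * B.d n ^ (ν (E 0 y 0) - ε) = 1 := by
      rw [← rpow_add']
      have : -ν (E 0 y 0) + ε + (ν (E 0 y 0) - ε) = 0 := by ring
      rw [this, Real.rpow_zero]
    have h5 := r3 s hs0 hs1
    calc (((Z ε n).filter fun k' => |x n k' - x n z| ≤ B.d n ^ (s - ε)).card : ℝ)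
        = ((((Z ε n).filter fun k' => |x n k' - x n z| ≤ B.d n ^ (s - ε)).card : ℝ) *
          B.d n ^ (-ν (E 0 y 0) + ε)) * B.d n ^ (ν (E 0 y 0) - ε) := by rw [mul_assoc, h4, mul_one]
      _ ≤ B.d n ^ (-ν (E 0 s 0) - D * (C10 * ε)) * B.d n ^ (ν (E 0 y 0) - ε) :=
          mul_le_mul_of_nonneg_right h2 (hpow _).le
      _ = B.d n ^ (-ν (E 0 s 0) - D * (C10 * ε) + (ν (E 0 y 0) - ε)) := by rw [← rpow_add']
      _ ≤ B.d n ^ ((a * s - C2 * ε) + (-(ν pS - ν (E 0 y 0)) + K1 * ε)) := rpow_anti B n (by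
          have : D * (C10 * ε) + ε + K1 * ε ≤ C2 * ε := by
            have := mE hε f15
            rw [add_mul, add_mul, one_mul, mul_assoc] at this
            exact this
          linarith)
      _ = B.d n ^ (a * s - C2 * ε) * B.d n ^ (-(ν pS - ν (E 0 y 0)) + K1 * ε) := by
          rw [← rpow_add']
      _ ≤ _ := mul_le_mul_of_nonneg_left g7 (hpow _).le
  exact ⟨kauf_exA B (ι := ℕ) Sf Z x al (fun n i k => (h n i - c n i * x n i) + x n k * c n i)
      (fun n i => h n i - c n i * x n i) c hy ha0 ha1 pC pC2 hJ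
      (fun j => ν (E (sc y J j) 0 (sc y J j))) pZ hφ hFF hSS hcell hall hV0 hPP hQQ,
    falc_exA B (ι := ℕ) Sf Z x al (fun n i k => (h n i - c n i * x n i) + x n k * c n i)
      (fun n i => h n i - c n i * x n i) c hy ha0 ha1 pC pC2 hJ
      (fun j => ν (E (sc y J j) 0 (sc y J j))) pZ hφ hFF hSS hcell hall hV0 hPP hQQ⟩


/-- **one-slice Kaufman for `H`**, groups of slots: `m > 0 ⇒ h ≤ x` (growths: `a` of `X`, `b` of `H`) -/
theorem hxE_kauf {B : Base} {G : ℕ → RCfg κ} {Leg : Set (κ → ℝ)} {ν : (κ → ℝ) → ℝ} {D : ℝ}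
    (H : RUnif B G Leg ν D) (i0 k0 : ℕ → ℕ)
    (h0 : ∀ᶠ n in (U : Filter ℕ), (i0 n, k0 n) ∈ (G n).I) {pS : κ → ℝ}
    {E : ℝ → ℝ → ℝ → κ → ℝ}
    {c x h : ℕ → ℕ → ℝ} {y : ℝ} (hy : 0 < y) (S : SlabE B G i0 k0 pS E c x h y)
    (lS : pS ∈ Leg) (l1 : ∀ t, 0 ≤ t → t ≤ y → E t 0 t ∈ Leg)
    (l2 : ∀ t, 0 ≤ t → t ≤ y → E 0 t 0 ∈ Leg) (l3 : E 0 y y ∈ Leg)
    (l4 : E y y y ∈ Leg) {a b m : ℝ} (ha0 : 0 ≤ a) (ha1 : a ≤ 1)
    (r3 : ∀ t, 0 ≤ t → t ≤ y → a * t ≤ ν pS - ν (E 0 t 0))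
    (r4 : ν pS - ν (E 0 y 0) ≤ ν (E y 0 y) - ν (E y y y))
    (hm : 0 < m) (r1 : ∀ t, 0 ≤ t → t ≤ y → (b + m) * t ≤ ν pS - ν (E t 0 t))
    (r2 : ν (E 0 y 0) - ν (E 0 y y) ≤ b * y) : a ≤ b :=
  rate_of_forall (a := fun t => ν pS - ν (E t 0 t)) hy ha0 hm
    (fun J hJ => (hxE_forall H i0 k0 h0 hy S lS l1 l2 l3 l4 ha0 ha1 r3 r4 hJ).1) r1 r2

/-- **one-slice Falconer for `H`**, groups of slots: `m > x ⇒ h = 0` -/
theorem hxE_falc {B : Base} {G : ℕ → RCfg κ} {Leg : Set (κ → ℝ)} {ν : (κ → ℝ) → ℝ} {D : ℝ}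
    (H : RUnif B G Leg ν D) (i0 k0 : ℕ → ℕ)
    (h0 : ∀ᶠ n in (U : Filter ℕ), (i0 n, k0 n) ∈ (G n).I) {pS : κ → ℝ}
    {E : ℝ → ℝ → ℝ → κ → ℝ}
    {c x h : ℕ → ℕ → ℝ} {y : ℝ} (hy : 0 < y) (S : SlabE B G i0 k0 pS E c x h y)
    (lS : pS ∈ Leg) (l1 : ∀ t, 0 ≤ t → t ≤ y → E t 0 t ∈ Leg)
    (l2 : ∀ t, 0 ≤ t → t ≤ y → E 0 t 0 ∈ Leg) (l3 : E 0 y y ∈ Leg)
    (l4 : E y y y ∈ Leg) {a b m : ℝ} (ha0 : 0 ≤ a) (ha1 : a ≤ 1)
    (r3 : ∀ t, 0 ≤ t → t ≤ y → a * t ≤ ν pS - ν (E 0 t 0))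
    (r4 : ν pS - ν (E 0 y 0) ≤ ν (E y 0 y) - ν (E y y y))
    (hm : 1 - a < m) (r1 : ∀ t, 0 ≤ t → t ≤ y → (b + m) * t ≤ ν pS - ν (E t 0 t))
    (r2 : ν (E 0 y 0) - ν (E 0 y y) ≤ b * y) : 1 ≤ b :=
  frate_of_forall (a := fun t => ν pS - ν (E t 0 t)) hy ha0 ha1 hm
    (fun J hJ => (hxE_forall H i0 k0 h0 hy S lS l1 l2 l3 l4 ha0 ha1 r3 r4 hJ).2) r1 r2

end Crest.Agent.R116.Kr710
end

-- ▼ part R116/Kr7_710

/-!
# R116, K side: Kaufman and Falconer over the heights, functions given AT THE PIN only (helper710)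

`pin_forall`, `pin_rates` : fibre = loose box `box pS ε` around `(i0, k0)`; `a n i`, `v n i` = position
and velocity of the line `i` in the slice of the pin; loose `r`-boxes at the other heights satisfy
`|(a i' - a i) + φ k (v i' - v i)| ≤ ρ^(x - C ε)` (`hgeo`).  No coordinate of a line at another
height is used.  `pin_model` : the same over `RModel` (heights = all heights).
-/

set_option autoImplicit false
set_option linter.unusedVariables false
set_option linter.unusedSectionVars false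

open Filter Topology Finset

namespace Crest.Agent.R116.Kr710

open Crest.Agent.R138.Ex926 (Base U)
open Crest.Agent.R138.Fal658 Crest.Agent.R136.Gf356

variable {κ : Type} {B : Base} {G : ℕ → RCfg κ} {Leg : Set (κ → ℝ)} {ν : (κ → ℝ) → ℝ}
  {σ R D : ℝ}

set_option maxHeartbeats 1600000 in
/-- **Kaufman and Falconer on one fibre, functions at the pin** -/
theorem pin_forall (H : RUnif B G Leg ν D) (i0 k0 : ℕ → ℕ)
    (h0 : ∀ᶠ n in (U : Filter ℕ), (i0 n, k0 n) ∈ (G n).I) (pS pT r : κ → ℝ)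
    (hpS : pS ∈ Leg) (hpT : pT ∈ Leg) (hr : r ∈ Leg) (hTr : ∀ j, pT j ≤ r j) {x τ : ℝ}
    (hx : 0 < x) (hτ0 : 0 ≤ τ) (hτ1 : τ ≤ 1)
    (a v : ℕ → ℕ → ℝ) (φ : ℕ → ℕ → ℝ) (Zg : ℕ → Finset ℕ)
    (hZg : ∀ᶠ n in (U : Filter ℕ), (Zg n).Nonempty) {J : ℕ} (hJ : 0 < J) (Q : ℕ → κ → ℝ)
    (hQm : ∀ j ≤ J, Q j ∈ Leg) {C1 : ℝ} (hC1 : 0 < C1)
    (hφ : ∀ ε : ℝ, 0 < ε → ∀ᶠ n in (U : Filter ℕ), ∀ k ∈ Zg n, |φ n k| ≤ B.d n ^ (-(C1 * ε)))
    (hV : ∀ ε : ℝ, 0 < ε → ∀ᶠ n in (U : Filter ℕ), ∀ i ∈ (G n).box pS ε (i0 n) (k0 n),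
      ∀ i' ∈ (G n).box pS ε (i0 n) (k0 n), |v n i - v n i'| ≤ B.d n ^ (-(C1 * ε)))
    (hT : ∀ ε : ℝ, 0 < ε → ∀ᶠ n in (U : Filter ℕ), ∀ k ∈ Zg n,
      ∀ i ∈ (G n).box pS ε (i0 n) (k0 n), ∀ i' ∈ (G n).box pS ε (i0 n) (k0 n),
      (i, k) ∈ (G n).I → (i', k) ∈ (G n).I → (G n).loose pT (C1 * ε) k i i')
    (hgeo : ∀ C2 : ℝ, 0 < C2 → ∃ C3 : ℝ, 0 < C3 ∧ ∀ ε : ℝ, 0 < ε → ∀ᶠ n in (U : Filter ℕ),
      ∀ k ∈ Zg n, ∀ i ∈ (G n).box pS ε (i0 n) (k0 n), ∀ i' ∈ (G n).box pS ε (i0 n) (k0 n),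
      (i, k) ∈ (G n).I → (i', k) ∈ (G n).I → (G n).loose r (C2 * ε) k i i' →
      |(a n i' - a n i) + φ n k * (v n i' - v n i)| ≤ B.d n ^ (x - C3 * ε))
    (hal : ∀ ε : ℝ, 0 < ε → ∀ᶠ n in (U : Filter ℕ), ∀ i ∈ (G n).box pS ε (i0 n) (k0 n),
      ∀ T ⊆ Zg n, (∀ k ∈ Zg n, (i, k) ∈ (G n).I → k ∈ T) →
      B.d n ^ (C1 * ε) * ((Zg n).card : ℝ) ≤ (T.card : ℝ))
    (hQ : ∀ C3 : ℝ, 0 < C3 → ∃ C4 : ℝ, 0 < C4 ∧ ∀ j ≤ J, ∀ ε : ℝ, 0 < ε →
      ∀ᶠ n in (U : Filter ℕ),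
      ∀ i ∈ (G n).box pS ε (i0 n) (k0 n), ∀ i' ∈ (G n).box pS ε (i0 n) (k0 n),
      |v n i' - v n i| ≤ B.d n ^ (sc x J j - C3 * ε) →
      |a n i' - a n i| ≤ B.d n ^ (sc x J j - C3 * ε) →
      (G n).loose (Q j) (C4 * ε) (k0 n) i i')
    (hfr : ∀ y : ℝ, 0 ≤ y → y ≤ x → ∀ ε : ℝ, 0 < ε → ∀ᶠ n in (U : Filter ℕ), ∀ k ∈ Zg n,
      ∀ T ⊆ Zg n, (∀ k' ∈ T, |φ n k' - φ n k| ≤ B.d n ^ y) →
      (T.card : ℝ) ≤ B.d n ^ (τ * y - ε) * ((Zg n).card : ℝ)) :
    (∃ j ≤ J, ν pS - ν (Q j) + τ * (x - sc x J (j + 1)) ≤ ν pT - ν r) ∧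
      ∃ j ≤ J, ν pS - ν (Q j) + τ * sc x J j + x - 2 * sc x J (j + 1) ≤ ν pT - ν r := by
  classical
  have hD := H.D1
  have hD0 : 0 < D := by linarith
  obtain ⟨C3, hC3, hgeo3⟩ := hgeo (D ^ 5 * C1) (by positivity)
  obtain ⟨C, hC⟩ : ∃ C : ℝ, C = C1 + C3 + 1 := ⟨_, rfl⟩
  have hCpos : 0 < C := by linarith
  have pC : 1 ≤ C := by linarith
  have f1 : C1 ≤ C := by linarith
  have f3 : C3 ≤ C := by linarith
  obtain ⟨C4, hC4, hQ'⟩ := hQ (2 * C + 1) (by positivity)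
  obtain ⟨C2, hC2⟩ : ∃ C2 : ℝ, C2 = (D ^ 2 + 1) * C1 + C + D * C4 + 3 := ⟨_, rfl⟩
  have g1 : 0 < (D ^ 2 + 1) * C1 := by positivity
  have g2 : 0 < D * C4 := by positivity
  have pC2 : 1 ≤ C2 := by linarith
  have f4 : (D ^ 2 + 1) * C1 ≤ C2 := by linarith
  have f5 : D * C4 ≤ C2 := by linarith
  have f6 : (3 : ℝ) ≤ C2 := by linarith
  have e1 : ∀ ε : ℝ, 0 < ε → ∀ᶠ n in (U : Filter ℕ), ∀ k ∈ Zg n,
      |φ n k| ≤ B.d n ^ (-(C * ε)) := by
    intro ε hε
    filter_upwards [hφ ε hε] with n hn k hk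
    exact (hn k hk).trans (anN B n hε f1)
  have e2 : ∀ ε : ℝ, 0 < ε → ∀ᶠ n in (U : Filter ℕ), ∀ k ∈ Zg n,
      ∀ i ∈ (G n).box pS ε (i0 n) (k0 n), ∀ i' ∈ (G n).box pS ε (i0 n) (k0 n),
      |(a n i + φ n k * v n i) - (a n i' + φ n k * v n i') -
        ((a n i - a n i') + φ n k * (v n i - v n i'))| ≤ B.d n ^ (x - C * ε) := by
    intro ε hε
    refine Eventually.of_forall fun n k hk i hi i' hi' => ?_
    have : (a n i + φ n k * v n i) - (a n i' + φ n k * v n i') -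
        ((a n i - a n i') + φ n k * (v n i - v n i')) = 0 := by ring
    rw [this, abs_zero]
    exact (rpos B n _).le
  have e3 : ∀ ε : ℝ, 0 < ε → ∀ᶠ n in (U : Filter ℕ),
      B.d n ^ (-ν pS + C * ε) ≤ (((G n).box pS ε (i0 n) (k0 n)).card : ℝ) := by
    intro ε hε
    filter_upwards [H.low pS hpS ε hε, h0] with n hn h0n
    refine le_trans (rpow_anti B n ?_) (hn _ _ h0n)
    have := le_mul_of_one_le_left hε.le pC
    linarith
  have e4 : ∀ ε : ℝ, 0 < ε → ∀ᶠ n in (U : Filter ℕ), ∀ k ∈ Zg n,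
      (((((G n).box pS ε (i0 n) (k0 n)).filter fun i => (i, k) ∈ (G n).I).image fun i =>
        ⌊(a n i + φ n k * v n i) / B.d n ^ (x - C * ε)⌋).card : ℝ)
        ≤ 11 * B.d n ^ (-(ν pT - ν r) - C2 * ε) := by
    intro ε hε
    have hC1ε : 0 < C1 * ε := by positivity
    filter_upwards [H.exists_lab_loose pT r hpT hr hTr hC1ε, hT ε hε, hgeo3 ε hε]
      with n h1 h2 h3 k hk
    have hpow : ∀ t : ℝ, 0 < B.d n ^ t := fun t => rpos B n t
    obtain ⟨lab, hl1, hl2⟩ := h1 k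
      (((G n).box pS ε (i0 n) (k0 n)).filter fun i => (i, k) ∈ (G n).I)
      (fun i hi => H.memSlice.2 (Finset.mem_filter.1 hi).2)
      (fun i hi i' hi' => h2 k hk i (Finset.mem_filter.1 hi).1 i' (Finset.mem_filter.1 hi').1
        (Finset.mem_filter.1 hi).2 (Finset.mem_filter.1 hi').2)
    have key := floor_labels
      (((G n).box pS ε (i0 n) (k0 n)).filter fun i => (i, k) ∈ (G n).I)
      (fun i => a n i + φ n k * v n i) lab (hpow (x - C * ε)) (by
        intro i hi i' hi' hl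
        obtain ⟨a1, a2⟩ := Finset.mem_filter.1 hi
        obtain ⟨b1, b2⟩ := Finset.mem_filter.1 hi'
        have c1 := hl1 i hi i' hi' hl
        rw [← mul_assoc] at c1
        have c2 := h3 k hk i a1 i' b1 a2 b2 c1
        have c3 : |(a n i + φ n k * v n i) - (a n i' + φ n k * v n i')| =
            |(a n i' - a n i) + φ n k * (v n i' - v n i)| := by
          rw [abs_sub_comm]; congr 1; ring
        rw [c3]
        have c4 := c2.trans (anK B n hε f3)
        have := hpow (x - C * ε)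
        linarith)
    have k2 : B.d n ^ (-(ν pT - ν r) - (D ^ 2 + 1) * (C1 * ε)) ≤
        B.d n ^ (-(ν pT - ν r) - C2 * ε) := rpow_anti B n (by
      have : (D ^ 2 + 1) * (C1 * ε) ≤ C2 * ε := by rw [← mul_assoc]; exact mE hε f4
      linarith)
    have k3 := hl2.trans k2
    linarith
  have e5 : ∀ ε : ℝ, 0 < ε → ∀ᶠ n in (U : Filter ℕ), ∀ i ∈ (G n).box pS ε (i0 n) (k0 n),
      B.d n ^ (C * ε) * ((Zg n).card : ℝ) ≤
        (((Zg n).filter fun k => (i, k) ∈ (G n).I).card : ℝ) := by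
    intro ε hε
    filter_upwards [hal ε hε] with n hn i hi
    refine le_trans ?_ (hn i hi _ (Finset.filter_subset _ _) ?_)
    · refine mul_le_mul_of_nonneg_right (rpow_anti B n (mE hε f1)) (Nat.cast_nonneg _)
    · intro k hk hI
      exact Finset.mem_filter.2 ⟨hk, hI⟩
  have e6 : ∀ ε : ℝ, 0 < ε → ∀ᶠ n in (U : Filter ℕ), ∀ i ∈ (G n).box pS ε (i0 n) (k0 n),
      ∀ i' ∈ (G n).box pS ε (i0 n) (k0 n), |v n i - v n i'| ≤ B.d n ^ (-(C * ε)) := by
    intro ε hε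
    filter_upwards [hV ε hε] with n hn i hi i' hi'
    exact (hn i hi i' hi').trans (anN B n hε f1)
  have e7 : ∀ j ≤ J, ∀ ε : ℝ, 0 < ε → ∀ᶠ n in (U : Filter ℕ),
      ∀ i ∈ (G n).box pS ε (i0 n) (k0 n),
      ((((G n).box pS ε (i0 n) (k0 n)).filter fun i' => |v n i' - v n i| ≤
        B.d n ^ (sc x J j - C * ε) ∧ |a n i' - a n i| ≤
          B.d n ^ (sc x J j - (2 * C + 1) * ε)).card : ℝ) ≤ B.d n ^ (-ν (Q j) - C2 * ε) := by
    intro j hj ε hε
    have hC4ε : 0 < C4 * ε := by positivity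
    filter_upwards [hQ' j hj ε hε, H.up (Q j) (hQm j hj) (C4 * ε) hC4ε] with n h1 h2 i hi
    have hI := H.memSlice.1 (RCfg.box_subset_slice hi)
    have hsub : (((G n).box pS ε (i0 n) (k0 n)).filter fun i' => |v n i' - v n i| ≤
        B.d n ^ (sc x J j - C * ε) ∧ |a n i' - a n i| ≤ B.d n ^ (sc x J j - (2 * C + 1) * ε)) ⊆
        (G n).box (Q j) (C4 * ε) i (k0 n) := by
      intro i' hi'
      obtain ⟨a1, a2, a3⟩ := Finset.mem_filter.1 hi'
      refine RCfg.mem_box.2 ⟨RCfg.box_subset_slice a1, h1 i hi i' a1 (a2.trans ?_) a3⟩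
      exact anK B n hε (by linarith)
    refine le_trans (mod_cast Finset.card_le_card hsub) ((h2 i (k0 n) hI).trans
      (rpow_anti B n ?_))
    have : D * (C4 * ε) ≤ C2 * ε := by rw [← mul_assoc]; exact mE hε f5
    linarith
  have e8 : ∀ y : ℝ, 0 ≤ y → y ≤ x → ∀ ε : ℝ, 0 < ε → ∀ᶠ n in (U : Filter ℕ), ∀ k ∈ Zg n,
      (((Zg n).filter fun k' => |φ n k' - φ n k| ≤ B.d n ^ (y - ε)).card : ℝ)
        ≤ B.d n ^ (τ * y - C2 * ε) * ((Zg n).card : ℝ) := by
    intro y hy0 hyx ε hε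
    have h3ε : 3 * ε ≤ C2 * ε := mE hε f6
    have hτε : τ * ε ≤ ε := mul_le_of_le_one_left hε.le hτ1
    rcases le_total (y - ε) 0 with hle | hle
    · refine Filter.Eventually.of_forall fun n k hk => ?_
      have b3 : (((Zg n).filter fun k' => |φ n k' - φ n k| ≤ B.d n ^ (y - ε)).card : ℝ) ≤
          (Zg n).card := by
        exact_mod_cast Finset.card_le_card (Finset.filter_subset _ _)
      refine b3.trans ?_
      have b4 : (1 : ℝ) ≤ B.d n ^ (τ * y - C2 * ε) := by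
        apply Real.one_le_rpow_of_pos_of_le_one_of_nonpos (B.pos n) (B.lt n).le
        have : τ * y ≤ τ * ε := mul_le_mul_of_nonneg_left (by linarith) hτ0
        linarith
      exact le_mul_of_one_le_left (Nat.cast_nonneg _) b4
    · filter_upwards [hfr (y - ε) hle (by linarith) ε hε] with n hn k hk
      refine (hn k hk _ (Finset.filter_subset _ _) ?_).trans ?_
      · intro k' hk'
        exact (Finset.mem_filter.1 hk').2
      · refine mul_le_mul_of_nonneg_right (rpow_anti B n ?_) (Nat.cast_nonneg _)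
        have : τ * (y - ε) = τ * y - τ * ε := by ring
        linarith
  refine ⟨kauf_exE B (ι := ℕ) (fun ε n => (G n).box pS ε (i0 n) (k0 n)) (fun _ n => Zg n) φ
    (fun n i k => (i, k) ∈ (G n).I) (fun n i k => a n i + φ n k * v n i)
    a v hx hτ0 hτ1 pC pC2 hJ (fun j => ν (Q j)) (fun _ _ => hZg) e1 ?_ e3 e4 e5 e6 e7 e8,
    falc_exE B (ι := ℕ) (fun ε n => (G n).box pS ε (i0 n) (k0 n)) (fun _ n => Zg n) φ
    (fun n i k => (i, k) ∈ (G n).I) (fun n i k => a n i + φ n k * v n i)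
    a v hx hτ0 hτ1 pC pC2 hJ (fun j => ν (Q j)) (fun _ _ => hZg) e1 e2 e3 e4 e5 e6 e7 e8⟩
  intro ε hε
  filter_upwards [e2 ε hε] with n hn k hk i hi i' hi' _ _
  exact hn k hk i hi i' hi'

/-- **rates, functions at the pin**: `g > 0 ⇒ τ ≤ f` and `g > 1 - τ ⇒ 1 ≤ f` -/
theorem pin_rates (H : RUnif B G Leg ν D) (i0 k0 : ℕ → ℕ)
    (h0 : ∀ᶠ n in (U : Filter ℕ), (i0 n, k0 n) ∈ (G n).I) (pS pT r : κ → ℝ)
    (hpS : pS ∈ Leg) (hpT : pT ∈ Leg) (hr : r ∈ Leg) (hTr : ∀ j, pT j ≤ r j) {x τ : ℝ}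
    (hx : 0 < x) (hτ0 : 0 ≤ τ) (hτ1 : τ ≤ 1)
    (a v : ℕ → ℕ → ℝ) (φ : ℕ → ℕ → ℝ) (Zg : ℕ → Finset ℕ)
    (hZg : ∀ᶠ n in (U : Filter ℕ), (Zg n).Nonempty) (Q : ℝ → κ → ℝ)
    (hQm : ∀ t : ℝ, 0 ≤ t → t ≤ x → Q t ∈ Leg) {C1 : ℝ} (hC1 : 0 < C1)
    (hφ : ∀ ε : ℝ, 0 < ε → ∀ᶠ n in (U : Filter ℕ), ∀ k ∈ Zg n, |φ n k| ≤ B.d n ^ (-(C1 * ε)))
    (hV : ∀ ε : ℝ, 0 < ε → ∀ᶠ n in (U : Filter ℕ), ∀ i ∈ (G n).box pS ε (i0 n) (k0 n),
      ∀ i' ∈ (G n).box pS ε (i0 n) (k0 n), |v n i - v n i'| ≤ B.d n ^ (-(C1 * ε)))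
    (hT : ∀ ε : ℝ, 0 < ε → ∀ᶠ n in (U : Filter ℕ), ∀ k ∈ Zg n,
      ∀ i ∈ (G n).box pS ε (i0 n) (k0 n), ∀ i' ∈ (G n).box pS ε (i0 n) (k0 n),
      (i, k) ∈ (G n).I → (i', k) ∈ (G n).I → (G n).loose pT (C1 * ε) k i i')
    (hgeo : ∀ C2 : ℝ, 0 < C2 → ∃ C3 : ℝ, 0 < C3 ∧ ∀ ε : ℝ, 0 < ε → ∀ᶠ n in (U : Filter ℕ),
      ∀ k ∈ Zg n, ∀ i ∈ (G n).box pS ε (i0 n) (k0 n), ∀ i' ∈ (G n).box pS ε (i0 n) (k0 n),
      (i, k) ∈ (G n).I → (i', k) ∈ (G n).I → (G n).loose r (C2 * ε) k i i' →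
      |(a n i' - a n i) + φ n k * (v n i' - v n i)| ≤ B.d n ^ (x - C3 * ε))
    (hal : ∀ ε : ℝ, 0 < ε → ∀ᶠ n in (U : Filter ℕ), ∀ i ∈ (G n).box pS ε (i0 n) (k0 n),
      ∀ T ⊆ Zg n, (∀ k ∈ Zg n, (i, k) ∈ (G n).I → k ∈ T) →
      B.d n ^ (C1 * ε) * ((Zg n).card : ℝ) ≤ (T.card : ℝ))
    (hQ : ∀ C3 : ℝ, 0 < C3 → ∃ C4 : ℝ, 0 < C4 ∧ ∀ t : ℝ, 0 ≤ t → t ≤ x → ∀ ε : ℝ, 0 < ε →
      ∀ᶠ n in (U : Filter ℕ),
      ∀ i ∈ (G n).box pS ε (i0 n) (k0 n), ∀ i' ∈ (G n).box pS ε (i0 n) (k0 n),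
      |v n i' - v n i| ≤ B.d n ^ (t - C3 * ε) → |a n i' - a n i| ≤ B.d n ^ (t - C3 * ε) →
      (G n).loose (Q t) (C4 * ε) (k0 n) i i')
    (hfr : ∀ y : ℝ, 0 ≤ y → y ≤ x → ∀ ε : ℝ, 0 < ε → ∀ᶠ n in (U : Filter ℕ), ∀ k ∈ Zg n,
      ∀ T ⊆ Zg n, (∀ k' ∈ T, |φ n k' - φ n k| ≤ B.d n ^ y) →
      (T.card : ℝ) ≤ B.d n ^ (τ * y - ε) * ((Zg n).card : ℝ))
    {f g : ℝ} (hlow : ∀ t : ℝ, 0 ≤ t → t ≤ x → (f + g) * t ≤ ν pS - ν (Q t))
    (hup : ν pT - ν r ≤ f * x) : (0 < g → τ ≤ f) ∧ (1 - τ < g → 1 ≤ f) := by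
  have hQj : ∀ J : ℕ, 0 < J → ∀ C3 : ℝ, 0 < C3 → ∃ C4 : ℝ, 0 < C4 ∧ ∀ j ≤ J, ∀ ε : ℝ, 0 < ε →
      ∀ᶠ n in (U : Filter ℕ),
      ∀ i ∈ (G n).box pS ε (i0 n) (k0 n), ∀ i' ∈ (G n).box pS ε (i0 n) (k0 n),
      |v n i' - v n i| ≤ B.d n ^ (sc x J j - C3 * ε) →
      |a n i' - a n i| ≤ B.d n ^ (sc x J j - C3 * ε) →
      (G n).loose (Q (sc x J j)) (C4 * ε) (k0 n) i i' := by
    intro J hJ C3 hC3
    obtain ⟨C4, hC4, h4⟩ := hQ C3 hC3
    exact ⟨C4, hC4, fun j hj => h4 _ (sc_nonneg hx.le J j) (sc_le hx.le hJ hj)⟩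
  have main := fun J (hJ : 0 < J) => pin_forall H i0 k0 h0 pS pT r hpS hpT hr hTr hx hτ0 hτ1 a v φ
    Zg hZg hJ (fun j => Q (sc x J j)) (fun j hj => hQm _ (sc_nonneg hx.le J j) (sc_le hx.le hJ hj))
    hC1 hφ hV hT hgeo hal (hQj J hJ) hfr
  exact ⟨fun hg => rate_of_forall (a := fun t => ν pS - ν (Q t)) hx hτ0 hg
      (fun J hJ => (main J hJ).1) hlow hup,
    fun hg => frate_of_forall (a := fun t => ν pS - ν (Q t)) hx hτ0 hτ1 hg
      (fun J hJ => (main J hJ).2) hlow hup⟩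

/-- **rates over `RModel`**: all heights are used, `φ n k = z k - z k₀`. -/
theorem pin_model (H : RModel B G σ R Leg ν D) (i0 k0 : ℕ → ℕ)
    (h0 : ∀ᶠ n in (U : Filter ℕ), (i0 n, k0 n) ∈ (G n).I) (pS pT r : κ → ℝ)
    (hpS : pS ∈ Leg) (hpT : pT ∈ Leg) (hr : r ∈ Leg) (hTr : ∀ j, pT j ≤ r j) {x : ℝ}
    (hx : 0 < x) (hxR : x ≤ R)
    (a v : ℕ → ℕ → ℝ) (Q : ℝ → κ → ℝ)
    (hQm : ∀ t : ℝ, 0 ≤ t → t ≤ x → Q t ∈ Leg) {C1 : ℝ} (hC1 : 0 < C1)
    (hφ : ∀ ε : ℝ, 0 < ε → ∀ᶠ n in (U : Filter ℕ), ∀ k ∈ (G n).Z,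
      |(G n).z k - (G n).z (k0 n)| ≤ B.d n ^ (-(C1 * ε)))
    (hV : ∀ ε : ℝ, 0 < ε → ∀ᶠ n in (U : Filter ℕ), ∀ i ∈ (G n).box pS ε (i0 n) (k0 n),
      ∀ i' ∈ (G n).box pS ε (i0 n) (k0 n), |v n i - v n i'| ≤ B.d n ^ (-(C1 * ε)))
    (hT : ∀ ε : ℝ, 0 < ε → ∀ᶠ n in (U : Filter ℕ), ∀ k ∈ (G n).Z,
      ∀ i ∈ (G n).box pS ε (i0 n) (k0 n), ∀ i' ∈ (G n).box pS ε (i0 n) (k0 n),
      (i, k) ∈ (G n).I → (i', k) ∈ (G n).I → (G n).loose pT (C1 * ε) k i i')
    (hgeo : ∀ C2 : ℝ, 0 < C2 → ∃ C3 : ℝ, 0 < C3 ∧ ∀ ε : ℝ, 0 < ε → ∀ᶠ n in (U : Filter ℕ),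
      ∀ k ∈ (G n).Z, ∀ i ∈ (G n).box pS ε (i0 n) (k0 n), ∀ i' ∈ (G n).box pS ε (i0 n) (k0 n),
      (i, k) ∈ (G n).I → (i', k) ∈ (G n).I → (G n).loose r (C2 * ε) k i i' →
      |(a n i' - a n i) + ((G n).z k - (G n).z (k0 n)) * (v n i' - v n i)| ≤
        B.d n ^ (x - C3 * ε))
    (hQ : ∀ C3 : ℝ, 0 < C3 → ∃ C4 : ℝ, 0 < C4 ∧ ∀ t : ℝ, 0 ≤ t → t ≤ x → ∀ ε : ℝ, 0 < ε →
      ∀ᶠ n in (U : Filter ℕ),
      ∀ i ∈ (G n).box pS ε (i0 n) (k0 n), ∀ i' ∈ (G n).box pS ε (i0 n) (k0 n),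
      |v n i' - v n i| ≤ B.d n ^ (t - C3 * ε) → |a n i' - a n i| ≤ B.d n ^ (t - C3 * ε) →
      (G n).loose (Q t) (C4 * ε) (k0 n) i i')
    {f g : ℝ} (hlow : ∀ t : ℝ, 0 ≤ t → t ≤ x → (f + g) * t ≤ ν pS - ν (Q t))
    (hup : ν pT - ν r ≤ f * x) : (0 < g → σ ≤ f) ∧ (1 - σ < g → 1 ≤ f) := by
  classical
  refine pin_rates H.toRUnif i0 k0 h0 pS pT r hpS hpT hr hTr hx H.σ_nonneg H.σ_le a v
    (fun n k => (G n).z k - (G n).z (k0 n)) (fun n => (G n).Z) ?_ Q hQm (C1 := C1 + 1)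
    (by linarith) ?_ ?_ ?_ hgeo ?_ hQ ?_ hlow hup
  · filter_upwards [h0] with n g0
    exact ⟨k0 n, H.toRUnif.memZ g0⟩
  · intro ε hε
    filter_upwards [hφ ε hε] with n g k hk
    exact (g k hk).trans (anN B n hε (by linarith))
  · intro ε hε
    filter_upwards [hV ε hε] with n g i hi i' hi'
    exact (g i hi i' hi').trans (anN B n hε (by linarith))
  · intro ε hε
    filter_upwards [hT ε hε] with n g k hk i hi i' hi' hI hI'
    exact H.toRUnif.loose_mono (fun _ => le_rfl) (mE hε (by linarith)) (g k hk i hi i' hi' hI hI')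
  · intro ε hε
    filter_upwards [H.line ε hε] with n g i hi T hT hTk
    have hIi := H.toRUnif.memSlice.1 (RCfg.box_subset_slice hi)
    have h1 := g i (H.toRUnif.memL hIi)
    have h2 : ((G n).hts i).card ≤ T.card := by
      refine Finset.card_le_card fun k hk => ?_
      obtain ⟨k1, k2⟩ := RCfg.mem_hts.1 hk
      exact hTk k k1 k2
    have h3 : B.d n ^ ((C1 + 1) * ε) ≤ B.d n ^ ε := rpow_anti B n (by
      have := mul_pos hC1 hε
      linarith)
    calc B.d n ^ ((C1 + 1) * ε) * ((G n).Z.card : ℝ) ≤ B.d n ^ ε * ((G n).Z.card : ℝ) :=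
          mul_le_mul_of_nonneg_right h3 (Nat.cast_nonneg _)
      _ ≤ (((G n).hts i).card : ℝ) := h1
      _ ≤ _ := by exact_mod_cast h2
  · intro y hy0 hyx ε hε
    filter_upwards [H.frost y hy0 (hyx.trans hxR) ε hε] with n g k hk T hT hTy
    refine le_trans ?_ (g k hk)
    refine mod_cast Finset.card_le_card fun k' hk' => ?_
    unfold RCfg.hbox
    refine Finset.mem_filter.2 ⟨hT hk', ?_⟩
    have := hTy k' hk'
    rw [H.base n]
    have e : (G n).z k' - (G n).z (k0 n) - ((G n).z k - (G n).z (k0 n)) =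
      (G n).z k' - (G n).z k := by ring
    rwa [e] at this

end Crest.Agent.R116.Kr710
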