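import Mathlib
import Crest.Agent.R116.Ks2_79
import Crest.Agent.R138.Ex_926
import Crest.Agent.R116.LKMDef_299

-- ▼ part R116/Ks3_79
section

/-!
# R116: discrete half of the shell of the Kakeya side, part 3 (helper79)

`LSeq` = sequence form over the free ultrafilter `U` of `Ex_926` (all uniformities up to
`N^o(1)`, base `d n = 1 / N n`).  Here: `LSeq → Reg`, hence `LSeq → GrW`.
Port of `R138/GrW3_294`.
-/

set_option autoImplicit false
set_option linter.unusedVariables false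

open Finset Filter Topology

namespace Crest.Agent.R116.Ks79

open Crest.Agent.R138
open Crest.Agent.R138.Ex926 (Base U)

variable {S : GSys}

open Classical in
/-- **LSeq**: the sequence form.  `d n = 1 / N n` is a base; distinct grid lines `s n`,
incidences `I n`, every line has `ν` up to `N^o(1)` incidences, every cell of `I n` carries
`μ` up to `N^o(1)` incidences, plank density `Δ`. -/
def LSeq (S : GSys) : Prop :=
  ∀ (B : Base) (N : ℕ → ℕ) (s : ℕ → Finset S.Lin) (I : ℕ → Finset (S.Lin × ℤ))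
    (Δ μ ν : ℕ → ℝ),
    (∀ n, 2 ≤ N n) → (∀ n, B.d n = 1 / (N n : ℝ)) →
    (∀ n, (s n).Nonempty) → (∀ n, (I n).Nonempty) → (∀ n, 1 ≤ Δ n) → (∀ n, 0 < μ n) →
    (∀ n, 0 < ν n) →
    (∀ n, ∀ l ∈ s n, S.Bd (N n) l) →
    (∀ n, ∀ x ∈ I n, x.1 ∈ s n ∧ |x.2| ≤ (N n : ℤ)) →
    (∀ n, ∀ l ∈ s n, ν n ≤ (((I n).filter (fun x => x.1 = l)).card : ℝ)) →
    (∀ n, ∀ x ∈ I n, μ n ≤ (((I n).filter (fun y => key S (N n) y = key S (N n) x)).card : ℝ)) →
    (∀ η : ℝ, 0 < η → ∀ᶠ n in (U : Filter ℕ), ∀ l ∈ s n,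
      (((I n).filter (fun x => x.1 = l)).card : ℝ) ≤ (N n : ℝ) ^ η * ν n) →
    (∀ η : ℝ, 0 < η → ∀ᶠ n in (U : Filter ℕ), ∀ x ∈ I n,
      (((I n).filter (fun y => key S (N n) y = key S (N n) x)).card : ℝ) ≤ (N n : ℝ) ^ η * μ n) →
    (∀ n, Dens (N n) (s n) (Δ n)) →
    ∀ ε : ℝ, 0 < ε → ∀ᶠ n in (U : Filter ℕ),
      μ n * ν n ^ 2 ≤ (N n : ℝ) ^ ε * Δ n * (N n : ℝ) ^ 2

open Classical in
theorem reg_of_lseq (h : LSeq S) : Reg S := by
  intro ε hε
  by_contra hcon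
  push Not at hcon
  have hK1' : (1 : ℝ) ≤ S.K := by exact_mod_cast S.hK
  have hK0' : (0 : ℝ) < S.K := by linarith
  have hcon2 : ∀ n : ℕ, ∃ (N : ℕ) (_ : 1 ≤ N) (s : Finset S.Lin) (I : Finset (S.Lin × ℤ))
      (Δ μ ν : ℝ) (_ : s.Nonempty) (_ : 0 < μ) (_ : 0 < ν)
      (_ : ∀ l ∈ s, S.Bd N l)
      (_ : ∀ x ∈ I, x.1 ∈ s ∧ |x.2| ≤ (N : ℤ))
      (_ : ∀ l ∈ s, ν ≤ ((I.filter (fun x => x.1 = l)).card : ℝ) ∧
        ((I.filter (fun x => x.1 = l)).card : ℝ) ≤ (N : ℝ) ^ (1 / ((n : ℝ) + 1)) * ν)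
      (_ : ∀ x ∈ I, μ ≤ ((I.filter (fun y => key S N y = key S N x)).card : ℝ) ∧
        ((I.filter (fun y => key S N y = key S N x)).card : ℝ) ≤ (N : ℝ) ^ (1 / ((n : ℝ) + 1)) * μ)
      (_ : Dens N s Δ),
      (27 * S.K * 2 ^ (S.k + 3) + (n : ℝ)) * (N : ℝ) ^ ε * Δ * (N : ℝ) ^ 2 < μ * ν ^ 2 := by
    intro n
    obtain ⟨N, hN, s, I, Δ, μ, ν, h1, h2, h3, h4, h5, h6, h7, h8, h9⟩ :=
      hcon (1 / ((n : ℝ) + 1)) (by positivity) (27 * S.K * 2 ^ (S.k + 3) + (n : ℝ)) (by positivity)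
    exact ⟨N, hN, s, I, Δ, μ, ν, h1, h2, h3, h4, h5, h6, h7, h8, h9⟩
  choose N hN s I Δ μ ν hs hμ hν hBd hI hreg1 hreg2 hdens hlt using hcon2
  have hΔ1 : ∀ n, 1 ≤ Δ n := fun n => one_le_of_Dens (hN n) (hdens n) (hs n) (hBd n)
  have hIne : ∀ n, (I n).Nonempty := by
    intro n
    obtain ⟨l, hl⟩ := hs n
    have h1 := (hreg1 n l hl).1
    have h2 : 0 < (((I n).filter (fun x => x.1 = l)).card : ℝ) := (hν n).trans_le h1
    have h3 : 0 < ((I n).filter (fun x => x.1 = l)).card := by exact_mod_cast h2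
    obtain ⟨x, hx⟩ := card_pos.1 h3
    exact ⟨x, (mem_filter.1 hx).1⟩
  -- `N n` tends to infinity
  have hIsub : ∀ n, I n ⊆ inc (N n) (s n) := by
    intro n x hx
    obtain ⟨h1, h2⟩ := hI n x hx
    unfold inc
    rw [mem_product, mem_Icc]
    exact ⟨h1, abs_le.1 h2⟩
  have hμle : ∀ n, μ n ≤ 3 * S.K * (N n : ℝ) ^ (S.k + 1) := by
    intro n
    obtain ⟨x, hx⟩ := hIne n
    have h1 := (hreg2 n x hx).1
    have h2 : ((I n).filter (fun y => key S (N n) y = key S (N n) x)).card ≤ Mx S (N n) :=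
      (card_le_card (filter_subset _ _)).trans
        ((card_le_card (hIsub n)).trans (card_inc_le (hN n) (hBd n)))
    unfold Mx at h2
    refine h1.trans ?_
    exact_mod_cast h2
  have hνle : ∀ n, ν n ≤ 3 * (N n : ℝ) := by
    intro n
    obtain ⟨l, hl⟩ := hs n
    have h1 := (hreg1 n l hl).1
    have h2 : ((I n).filter (fun x => x.1 = l)).card ≤ 3 * N n := by
      have h3 : ((I n).filter (fun x => x.1 = l)).card ≤ (Icc (-(N n : ℤ)) (N n)).card := by
        refine card_le_card_of_injOn (fun x => x.2) ?_ ?_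
        · intro x hx
          have hx' := (mem_filter.1 (Finset.mem_coe.1 hx)).1
          simp only [coe_Icc, Set.mem_Icc]
          exact abs_le.1 (hI n x hx').2
        · intro x hx y hy hxy
          have h4 := (mem_filter.1 (Finset.mem_coe.1 hx)).2
          have h5 := (mem_filter.1 (Finset.mem_coe.1 hy)).2
          exact Prod.ext (h4.trans h5.symm) hxy
      exact h3.trans (card_Icc_le (hN n))
    refine h1.trans ?_
    exact_mod_cast h2
  have hNlow : ∀ n : ℕ, 27 * S.K * 2 ^ (S.k + 3) + (n : ℝ) ≤ 27 * S.K * (N n : ℝ) ^ (S.k + 3) := by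
    intro n
    have hN1 : (1 : ℝ) ≤ N n := by exact_mod_cast hN n
    have h1 : μ n * ν n ^ 2 ≤ 27 * S.K * (N n : ℝ) ^ (S.k + 3) := by
      have h2 := hμle n
      have h3 := hνle n
      have h4 := (hν n).le
      have h5 := (hμ n).le
      calc μ n * ν n ^ 2 ≤ (3 * S.K * (N n : ℝ) ^ (S.k + 1)) * (3 * (N n : ℝ)) ^ 2 := by gcongr
        _ = 27 * S.K * (N n : ℝ) ^ (S.k + 3) := by ring
    have h2 := (hlt n).le.trans h1
    have h3 : 1 ≤ (N n : ℝ) ^ ε := Real.one_le_rpow hN1 hε.le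
    have h4 : (27 * S.K * 2 ^ (S.k + 3) + (n : ℝ)) * 1 * 1 * 1 ≤
        (27 * S.K * 2 ^ (S.k + 3) + (n : ℝ)) * (N n : ℝ) ^ ε * Δ n * (N n : ℝ) ^ 2 := by
      have h5 := hΔ1 n
      have h6 : (1 : ℝ) ≤ (N n : ℝ) ^ 2 := one_le_pow₀ hN1
      gcongr
    linarith
  have hN2 : ∀ n, 2 ≤ N n := by
    intro n
    by_contra hlt2
    have h1 : N n = 1 := by have := hN n; omega
    have h2 := hNlow n
    rw [h1] at h2
    have h3 : (0 : ℝ) ≤ n := Nat.cast_nonneg _
    have hK1 : (1 : ℝ) ≤ S.K := by exact_mod_cast S.hK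
    have h4 : (2 : ℝ) ≤ 2 ^ (S.k + 3) := by
      calc (2 : ℝ) = 2 ^ 1 := by norm_num
        _ ≤ 2 ^ (S.k + 3) := pow_le_pow_right₀ (by norm_num) (by omega)
    simp only [Nat.cast_one, one_pow, mul_one] at h2
    nlinarith
  have hNinf : Tendsto (fun n => (N n : ℝ)) atTop atTop := by
    have hK1 : (1 : ℝ) ≤ S.K := by exact_mod_cast S.hK
    have h1 : Tendsto (fun n => 27 * S.K * (N n : ℝ) ^ (S.k + 3)) atTop atTop := by
      refine tendsto_atTop_mono hNlow ?_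
      exact tendsto_atTop_add_const_left _ _ tendsto_natCast_atTop_atTop
    have h2 : Tendsto (fun n => (N n : ℝ) ^ (S.k + 3)) atTop atTop := by
      have := h1.const_mul_atTop (show (0 : ℝ) < 1 / (27 * S.K) by positivity)
      refine this.congr fun n => ?_
      have : (27 * (S.K : ℝ)) ≠ 0 := by positivity
      field_simp
    refine tendsto_atTop.2 fun b => ?_
    filter_upwards [tendsto_atTop.1 h2 ((max b 0) ^ (S.k + 3))] with n hn
    have h3 : max b 0 ≤ (N n : ℝ) := by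
      by_contra hc
      push Not at hc
      have : (N n : ℝ) ^ (S.k + 3) < (max b 0) ^ (S.k + 3) := by
        apply pow_lt_pow_left₀ hc (Nat.cast_nonneg _) (by omega)
      linarith
    exact (le_max_left _ _).trans h3
  let B : Base :=
    { d := fun n => 1 / (N n : ℝ)
      pos := fun n => by
        have : (0 : ℝ) < N n := by
          have := hN n
          exact_mod_cast this
        positivity
      lt := fun n => by
        have : (1 : ℝ) < N n := by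
          have := hN2 n
          exact_mod_cast this
        rw [div_lt_one (by linarith)]
        exact this
      lim0 := by
        have h1 : Tendsto (fun n => 1 / (N n : ℝ)) atTop (𝓝 0) := by
          have := tendsto_inv_atTop_zero.comp hNinf
          refine this.congr fun n => ?_
          simp
        exact h1.mono_left Ex926.U_le_atTop }
  have hev : ∀ η : ℝ, 0 < η → ∀ᶠ n : ℕ in (U : Filter ℕ), (1 / ((n : ℝ) + 1)) ≤ η := by
    intro η hη
    obtain ⟨k, hk⟩ := exists_nat_one_div_lt hη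
    filter_upwards [Ex926.ev_ge k] with n hn
    have h1 : (k : ℝ) ≤ n := by exact_mod_cast hn
    calc 1 / ((n : ℝ) + 1) ≤ 1 / ((k : ℝ) + 1) := by gcongr
      _ ≤ η := hk.le
  have hpowle : ∀ η : ℝ, 0 < η → ∀ᶠ n in (U : Filter ℕ),
      (N n : ℝ) ^ (1 / ((n : ℝ) + 1)) ≤ (N n : ℝ) ^ η := by
    intro η hη
    filter_upwards [hev η hη] with n hn
    have hN1 : (1 : ℝ) ≤ N n := by exact_mod_cast hN n
    exact Real.rpow_le_rpow_of_exponent_le hN1 hn
  have hfin := h B N s I Δ μ ν hN2 (fun n => rfl) hs hIne hΔ1 hμ hν hBd hI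
    (fun n l hl => (hreg1 n l hl).1) (fun n x hx => (hreg2 n x hx).1)
    (by
      intro η hη
      filter_upwards [hpowle η hη] with n hn l hl
      refine (hreg1 n l hl).2.trans ?_
      have := (hν n).le
      gcongr)
    (by
      intro η hη
      filter_upwards [hpowle η hη] with n hn x hx
      refine (hreg2 n x hx).2.trans ?_
      have := (hμ n).le
      gcongr)
    hdens ε hε
  obtain ⟨n, hn⟩ := hfin.exists
  have h1 := hlt n
  have hN1 : (1 : ℝ) ≤ N n := by exact_mod_cast hN n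
  have h2 : (N n : ℝ) ^ ε * Δ n * (N n : ℝ) ^ 2 ≤
      (27 * S.K * 2 ^ (S.k + 3) + (n : ℝ)) * (N n : ℝ) ^ ε * Δ n * (N n : ℝ) ^ 2 := by
    have hK1 : (1 : ℝ) ≤ S.K := by exact_mod_cast S.hK
    have h3 : 0 ≤ (N n : ℝ) ^ ε * Δ n * (N n : ℝ) ^ 2 := by
      have := hΔ1 n
      positivity
    have h4 : (1 : ℝ) ≤ 27 * S.K * 2 ^ (S.k + 3) + (n : ℝ) := by
      have : (0 : ℝ) ≤ n := Nat.cast_nonneg _
      have h5 : (1 : ℝ) ≤ 2 ^ (S.k + 3) := one_le_pow₀ (by norm_num)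
      nlinarith
    calc _ = 1 * ((N n : ℝ) ^ ε * Δ n * (N n : ℝ) ^ 2) := by ring
      _ ≤ (27 * S.K * 2 ^ (S.k + 3) + (n : ℝ)) * ((N n : ℝ) ^ ε * Δ n * (N n : ℝ) ^ 2) := by gcongr
      _ = _ := by ring
  linarith

/-- **the discrete half of the shell.** -/
theorem grW_of_lseq (h : LSeq S) : GrW S := grW_of_reg (reg_of_lseq h)

end Crest.Agent.R116.Ks79
end

-- ▼ part R116/Ks4_79

/-!
# R116: the grid of light rays and the sequence form `LKMseq` (helper79)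

A grid ray `l = ((C, X), H)` with integer coordinates, resolution `1/N`: at height `z` it is at
`(X + z C, H + z |C|²/2)` with `(C, X, H) = l / N`.  In 480's / 725's sign this is the ray
`gray N l = (-C, X, H)`.  Test sets = 725's members of length `1`, all thicknesses `≥ 1/N`.

PRODUCER of `LKMseq M`: K-TEXT I-c / II-c.  CONSUMER: `Ks8_79` (`LKMseq M → LKMtube (SSr M') V`).
-/

set_option autoImplicit false
set_option linter.unusedVariables false

open Finset Filter Topology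

namespace Crest.Agent.R116.Ks79

open Crest.Agent.R138
open Crest.Agent.R138.Defs (E2)
open Crest.Agent.R138.Ex926 (Base U)
open Crest.Agent.R116.CDef480 (E3 lat pt)
open Crest.Agent.R116.LZg725 (Cf Mem rpos rx ry)
open Crest.Agent.R116.LKMDef299 (LRay Cpt)

/-- grid rays `((C, X), H)`. -/
abbrev GRay := ((ℤ × ℤ) × (ℤ × ℤ)) × ℤ

/-- slope. -/
noncomputable def gC (N : ℕ) (l : GRay) : E2 := !₂[(l.1.1.1 : ℝ) / N, (l.1.1.2 : ℝ) / N]

/-- lateral position at height `0`. -/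
noncomputable def gX (N : ℕ) (l : GRay) : E2 := !₂[(l.1.2.1 : ℝ) / N, (l.1.2.2 : ℝ) / N]

/-- null position at height `0`. -/
noncomputable def gH (N : ℕ) (l : GRay) : ℝ := (l.2 : ℝ) / N

/-- the light ray of a grid ray, in the sign of 480 / 725 / 299. -/
noncomputable def gray (N : ℕ) (l : GRay) : LRay := (-(gC N l), gX N l, gH N l)

/-- the cell (cube of side `1/N`) containing the point of `l` at height `j/N`. -/
noncomputable def cell (N : ℕ) (l : GRay) (j : ℤ) : (ℤ × ℤ) × ℤ :=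
  ((⌊(l.1.2.1 : ℝ) + l.1.1.1 * (j : ℝ) / N⌋, ⌊(l.1.2.2 : ℝ) + l.1.1.2 * (j : ℝ) / N⌋),
    ⌊(l.2 : ℝ) + ((l.1.1.1 : ℝ) ^ 2 + (l.1.1.2 : ℝ) ^ 2) * (j : ℝ) / (2 * (N : ℝ) ^ 2)⌋)

/-- all coordinates of the grid ray are at most `N` in absolute value. -/
def Bd (N : ℕ) (l : GRay) : Prop :=
  |l.1.1.1| ≤ (N : ℤ) ∧ |l.1.1.2| ≤ (N : ℤ) ∧ |l.1.2.1| ≤ (N : ℤ) ∧ |l.1.2.2| ≤ (N : ℤ) ∧
    |l.2| ≤ (N : ℤ)

/-- test member at resolution `1/N`: length `1`, all thicknesses at least `1/N`. -/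
structure Tst (M : ℝ) (N : ℕ) (m : Mem) : Prop where
  ok : m.Ok M (1 / (N : ℝ))
  cpt : Cpt M (1 / (N : ℝ)) m
  R1 : m.R = 1
  s0 : m.s0 = 0
  thin : 1 / (N : ℝ) ≤ m.s1
  sg1 : m.sg ≤ 1

open Classical in
/-- density at most `Δ` on every test member. -/
def DensL (M : ℝ) (N : ℕ) (s : Finset GRay) (Δ : ℝ) : Prop :=
  ∀ m : Mem, Tst M N m →
    ((s.filter (fun l => gray N l ∈ m.rays (1 / (N : ℝ)))).card : ℝ) ≤
      Δ * (m.scost (1 / (N : ℝ)) * (N : ℝ) ^ 3)

/-- the cell of an incidence. -/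
noncomputable def keyL (N : ℕ) (x : GRay × ℤ) : ((ℤ × ℤ) × ℤ) × ℤ := (cell N x.1 x.2, x.2)

open Classical in
/-- **LKMseq**: the sequence form.  `d n = 1 / N n` is a base; distinct grid rays `s n`,
incidences `I n`, every ray has `ν` up to `N^o(1)` incidences, every cell of `I n` carries
`μ` up to `N^o(1)` incidences, density `Δ`. -/
def LKMseq (M : ℝ) : Prop :=
  ∀ (B : Base) (N : ℕ → ℕ) (s : ℕ → Finset GRay) (I : ℕ → Finset (GRay × ℤ))
    (Δ μ ν : ℕ → ℝ),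
    (∀ n, 2 ≤ N n) → (∀ n, B.d n = 1 / (N n : ℝ)) →
    (∀ n, (s n).Nonempty) → (∀ n, (I n).Nonempty) → (∀ n, 1 ≤ Δ n) → (∀ n, 0 < μ n) →
    (∀ n, 0 < ν n) →
    (∀ n, ∀ l ∈ s n, Bd (N n) l) →
    (∀ n, ∀ x ∈ I n, x.1 ∈ s n ∧ |x.2| ≤ (N n : ℤ)) →
    (∀ n, ∀ l ∈ s n, ν n ≤ (((I n).filter (fun x => x.1 = l)).card : ℝ)) →
    (∀ n, ∀ x ∈ I n, μ n ≤ (((I n).filter (fun y => keyL (N n) y = keyL (N n) x)).card : ℝ)) →
    (∀ η : ℝ, 0 < η → ∀ᶠ n in (U : Filter ℕ), ∀ l ∈ s n,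
      (((I n).filter (fun x => x.1 = l)).card : ℝ) ≤ (N n : ℝ) ^ η * ν n) →
    (∀ η : ℝ, 0 < η → ∀ᶠ n in (U : Filter ℕ), ∀ x ∈ I n,
      (((I n).filter (fun y => keyL (N n) y = keyL (N n) x)).card : ℝ) ≤ (N n : ℝ) ^ η * μ n) →
    (∀ n, DensL M (N n) (s n) (Δ n)) →
    ∀ ε : ℝ, 0 < ε → ∀ᶠ n in (U : Filter ℕ),
      μ n * ν n ^ 2 ≤ (N n : ℝ) ^ ε * Δ n * (N n : ℝ) ^ 2

/-! ### elementary facts -/

/-- monotonicity in the constant of the class. -/
theorem Tst.mono {M M' : ℝ} {N : ℕ} {m : Mem} (h : Tst M N m) (hM : M ≤ M') : Tst M' N m :=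
  ⟨LKMDef299.Ok.mono h.ok hM,
    LKMDef299.Cpt.mono h.cpt (mul_nonneg h.ok.hs1.le h.ok.hR.le) hM, h.R1, h.s0, h.thin, h.sg1⟩

theorem DensL.mono {M M' : ℝ} {N : ℕ} {s : Finset GRay} {Δ : ℝ} (h : DensL M' N s Δ)
    (hM : M ≤ M') : DensL M N s Δ := fun m hm => h m (hm.mono hM)

/-- a larger class gives a weaker statement. -/
theorem LKMseq.mono {M M' : ℝ} (h : LKMseq M) (hM : M ≤ M') : LKMseq M' := by
  intro B N s I Δ μ ν h1 h2 h3 h4 h5 h6 h7 h8 h9 h10 h11 h12 h13 h14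
  exact h B N s I Δ μ ν h1 h2 h3 h4 h5 h6 h7 h8 h9 h10 h11 h12 h13 fun n => (h14 n).mono hM

/-- the flat conformal function `⟨e, (x - x0) + s c⟩` with a unit vector `e`. -/
noncomputable def flat (e c x0 : E2) : Cf E2 :=
  ⟨-inner ℝ e x0, inner ℝ e c, e, 0, 0⟩

theorem flat_ev (e c x0 x : E2) (y s : ℝ) :
    (flat e c x0).ev x y s = inner ℝ e ((x - x0) + s • c) := by
  unfold flat Cf.ev
  rw [inner_add_right, inner_sub_right, real_inner_smul_right]
  ring

theorem flat_disc (e c x0 : E2) (he : ‖e‖ = 1) : (flat e c x0).disc = 1 := by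
  unfold flat Cf.disc
  simp [he]

theorem flat_ny (e c x0 : E2) (s : ℝ) : (flat e c x0).ny s = 0 := by
  unfold flat Cf.ny
  simp

theorem flat_ld (e c x0 x : E2) (y s : ℝ) : (flat e c x0).ld c x y s = 0 := by
  unfold flat Cf.ld Cf.ny
  simp

/-- a unit vector. -/
noncomputable def e1 : E2 := EuclideanSpace.single 0 1

theorem norm_e1 : ‖e1‖ = 1 := by
  unfold e1
  simp

/-- the flat member around a ray: aperture `σ`. -/
noncomputable def flatMem (σ s1 : ℝ) (r : LRay) : Mem where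
  c := r.1
  sg := σ
  s1 := s1
  R := 1
  X0 := rpos r 0
  s0 := 0
  phi := flat e1 r.1 r.2.1

theorem lat_rpos0 (r : LRay) : lat (rpos r 0) = r.2.1 := by
  rw [LZg725.lat_rpos]; unfold rx; simp

theorem rpos0_two (r : LRay) : rpos r 0 2 = r.2.2 := by
  rw [LZg725.rpos_two]; unfold ry; simp

theorem flatMem_ok {M B σ s1 : ℝ} (hM : 0 ≤ M) (hs1 : 0 < s1) (hσ : s1 ≤ σ) (r : LRay) :
    (flatMem σ s1 r).Ok M B := by
  have hσ0 : 0 ≤ σ := hs1.le.trans hσ
  refine ⟨one_pos, hs1, hσ, ?_, ?_, ?_, ?_⟩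
  · exact flat_disc _ _ _ norm_e1
  · intro s _
    show |(flat e1 r.1 r.2.1).ny s| * _ ≤ M * σ
    rw [flat_ny]; simp only [abs_zero, zero_mul]; positivity
  · show |(flat e1 r.1 r.2.1).ld r.1 _ _ _| ≤ M * σ
    rw [flat_ld]; simp only [abs_zero]; positivity
  · show |(flat e1 r.1 r.2.1).ev (lat (rpos r 0)) _ 0| ≤ M * σ * 1
    rw [flat_ev, lat_rpos0]
    simp only [sub_self, zero_smul, add_zero, inner_zero_right, abs_zero]
    positivity

/-- every ray lies in its own flat member. -/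
theorem mem_flatMem_self {B σ s1 : ℝ} (hB : 0 ≤ B) (hs1 : 0 ≤ s1) (hσ : 0 ≤ σ) (r : LRay) :
    r ∈ (flatMem σ s1 r).rays B := by
  have hT : 0 ≤ (flatMem σ s1 r).T B := le_trans (sq_nonneg _) (le_max_left _ _)
  refine ⟨?_, ?_⟩
  · show ‖r.1 - r.1‖ ≤ σ
    rw [sub_self, norm_zero]; exact hσ
  · intro s hs
    have hs' : |s - 0| ≤ 1 := hs
    refine ⟨⟨hs, ?_, ?_⟩, ?_⟩
    · show ‖lat (rpos r s) - lat (rpos r 0) + (s - 0) • r.1‖ ≤ σ * 1
      rw [LZg725.lat_rpos, lat_rpos0]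
      unfold rx
      rw [sub_zero, sub_right_comm, sub_self, zero_sub, neg_add_cancel, norm_zero]
      linarith
    · show |LZg725.nrm r.1 (lat (rpos r s)) (rpos r s 2) s -
        LZg725.nrm r.1 (lat (rpos r 0)) (rpos r 0 2) 0| ≤ (flatMem σ s1 r).T B * 1
      rw [LZg725.lat_rpos, LZg725.rpos_two, LZg725.lat_rpos, LZg725.rpos_two,
        LZg725.nrm_ray, LZg725.nrm_ray, sub_self, abs_zero]
      linarith
    · show |(flat e1 r.1 r.2.1).ev (lat (rpos r s)) _ s| ≤ s1 * 1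
      rw [flat_ev, LZg725.lat_rpos]
      unfold rx
      rw [sub_right_comm, sub_self, zero_sub, neg_add_cancel, inner_zero_right, abs_zero]
      linarith

/-- number of grid rays. -/
theorem card_le_of_Bd {N : ℕ} (hN : 1 ≤ N) {s : Finset GRay} (hs : ∀ l ∈ s, Bd N l) :
    s.card ≤ 243 * N ^ 5 := by
  have h1 : s ⊆ ((Icc (-(N : ℤ)) N ×ˢ Icc (-(N : ℤ)) N) ×ˢ
      (Icc (-(N : ℤ)) N ×ˢ Icc (-(N : ℤ)) N)) ×ˢ Icc (-(N : ℤ)) N := by
    intro l hl
    obtain ⟨h1, h2, h3, h4, h5⟩ := hs l hl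
    simp only [mem_product, mem_Icc]
    rw [abs_le] at h1 h2 h3 h4 h5
    exact ⟨⟨⟨h1, h2⟩, ⟨h3, h4⟩⟩, h5⟩
  have h3 := card_Icc_le hN
  refine (card_le_card h1).trans ?_
  rw [card_product, card_product, card_product]
  calc _ ≤ (((3 * N) * (3 * N)) * ((3 * N) * (3 * N))) * (3 * N) := by gcongr
    _ = 243 * N ^ 5 := by ring

/-- the system of grid light rays. -/
noncomputable def rsys (M : ℝ) (hM : 0 ≤ M) : GSys where
  Lin := GRay
  Q := (ℤ × ℤ) × ℤ
  T := fun N => {m : Mem // 1 ≤ N ∧ Tst M N m}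
  cell := cell
  Bd := Bd
  mem := fun N m l => gray N l ∈ m.1.rays (1 / (N : ℝ))
  V := fun N m => m.1.scost (1 / (N : ℝ)) * (N : ℝ) ^ 3
  K := 243
  k := 5
  hK := by norm_num
  hcard := fun N hN s hs => card_le_of_Bd hN hs
  hpt := by
    intro N hN l _
    have hN0 : (0 : ℝ) < N := by exact_mod_cast hN
    have hN1 : (1 : ℝ) ≤ N := by exact_mod_cast hN
    have h0 : 0 < 1 / (N : ℝ) := by positivity
    have h1 : 1 / (N : ℝ) ≤ 1 := by rw [div_le_one hN0]; exact hN1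
    refine ⟨⟨flatMem (1 / N) (1 / N) (gray N l), hN, ?_⟩, ?_, ?_⟩
    · refine ⟨flatMem_ok hM h0 le_rfl _, ?_, rfl, rfl, le_rfl, h1⟩
      intro s _
      show |(flat e1 (gray N l).1 (gray N l).2.1).ny s| * _ ≤ M * (1 / N * 1)
      rw [flat_ny]; simp only [abs_zero, zero_mul]; positivity
    · exact mem_flatMem_self h0.le h0.le h0.le _
    · show (flatMem (1 / N) (1 / N) (gray N l)).scost (1 / (N : ℝ)) * (N : ℝ) ^ 3 ≤ 1
      have hT : (flatMem (1 / N) (1 / N) (gray N l)).T (1 / (N : ℝ)) = 1 / N := by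
        unfold Mem.T
        show max ((1 / (N : ℝ)) ^ 2) (1 / (N : ℝ) / 1) = 1 / N
        rw [div_one]
        apply max_eq_right
        calc (1 / (N : ℝ)) ^ 2 = 1 / N * (1 / N) := by ring
          _ ≤ 1 / N * 1 := by gcongr
          _ = 1 / N := by ring
      unfold Mem.scost
      rw [hT]
      show 1 / (N : ℝ) * (1 / N) * (1 / N) * 1 ^ 3 * (N : ℝ) ^ 3 ≤ 1
      apply le_of_eq
      field_simp
  hV := by
    intro N m
    exact mul_nonneg m.2.2.ok.scost_pos.le (by positivity)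

theorem card_filter_inst {α : Type} (p : α → Prop) (i1 i2 : DecidablePred p) (A : Finset α) :
    (@Finset.filter α p i1 A).card = (@Finset.filter α p i2 A).card := by
  congr

/-- `LKMseq` is the sequence form of the system `rsys`. -/
theorem lseq_of_lkmseq {M : ℝ} (hM : 0 ≤ M) (h : LKMseq M) : LSeq (rsys M hM) := by
  intro B N (s : ℕ → Finset GRay) (I : ℕ → Finset (GRay × ℤ)) Δ μ ν h1 h2 h3 h4 h5 h6 h7 h8 h9
    h10 h11 h12 h13 h14
  refine h B N s I Δ μ ν h1 h2 h3 h4 h5 h6 h7 h8 h9 ?_ ?_ ?_ ?_ ?_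
  · intro n l hl
    rw [card_filter_inst _ _ (fun x => Classical.propDecidable _) (I n)]
    exact h10 n l hl
  · intro n x hx
    exact (h11 n x hx).trans_eq (congrArg (Nat.cast (R := ℝ))
      (card_filter_inst (fun y => keyL (N n) y = keyL (N n) x) _ _ (I n)))
  · intro η hη
    filter_upwards [h12 η hη] with n hn l hl
    rw [card_filter_inst _ _ (fun x => Classical.propDecidable _) (I n)]
    exact hn l hl
  · intro η hη
    filter_upwards [h13 η hη] with n hn x hx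
    exact le_trans (le_of_eq (congrArg (Nat.cast (R := ℝ))
      (card_filter_inst (fun y => keyL (N n) y = keyL (N n) x) _ _ (I n)))) (hn x hx)
  · intro n m hm
    rw [card_filter_inst _ _ (fun x => Classical.propDecidable _) (s n)]
    exact h14 n ⟨m, by have := h1 n; omega, hm⟩

/-- **the weighted grid inequality for light rays.** -/
theorem grW_of_lkmseq {M : ℝ} (hM : 0 ≤ M) (h : LKMseq M) : GrW (rsys M hM) :=
  grW_of_lseq (lseq_of_lkmseq hM h)

end Crest.Agent.R116.Ks79
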