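import Crest.Agent.R116.Ks2_79
import Crest.Agent.R116.Ks4_79
import Crest.Agent.R116.Mc1_330

-- ▼ part R116/Ks5_79
section

/-!
# R116: continuous half of the shell of the Kakeya side, abstract part (helper79)

Pointwise bound of a tube sum by cell weights of an abstract system `GSys` and the integral of the
cell weights.  Port of `R138/Gr1-4_63`.
-/

set_option autoImplicit false
set_option linter.unusedVariables false

open MeasureTheory
open scoped ENNReal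

namespace Crest.Agent.R116.Ks79

variable {S : GSys}

theorem vol_line {N : ℕ} (hN : 1 ≤ N) (j : ℤ) :
    volume {z : ℝ | ⌊(N : ℝ) * z⌋ = j} ≤ ENNReal.ofReal (1 / (N : ℝ)) := by
  have hN' : (0 : ℝ) < N := by exact_mod_cast hN
  have hsub : {z : ℝ | ⌊(N : ℝ) * z⌋ = j} ⊆ Set.Icc ((j : ℝ) / N) ((j + 1) / N) := by
    intro z hz
    simp only [Set.mem_ofPred_eq] at hz
    have h1 := Int.floor_le ((N : ℝ) * z)
    have h2 := Int.lt_floor_add_one ((N : ℝ) * z)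
    rw [hz] at h1 h2
    constructor
    · rw [div_le_iff₀ hN']; linarith
    · rw [le_div_iff₀ hN']; linarith
  refine (measure_mono hsub).trans ?_
  rw [Real.volume_Icc]
  apply ENNReal.ofReal_le_ofReal
  rw [← sub_div]; ring_nf; rfl

theorem floor_close {a b : ℝ} {m : ℤ} (h : |a - b| ≤ m) : |⌊a⌋ - ⌊b⌋| ≤ m := by
  rw [abs_le] at *
  have h1 := Int.floor_le a
  have h2 := Int.lt_floor_add_one a
  have h3 := Int.floor_le b
  have h4 := Int.lt_floor_add_one b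
  constructor
  · have : (⌊b⌋ : ℝ) < ⌊a⌋ + 1 + m := by linarith [h.1]
    have : ⌊b⌋ < ⌊a⌋ + 1 + m := by exact_mod_cast this
    omega
  · have : (⌊a⌋ : ℝ) < ⌊b⌋ + 1 + m := by linarith [h.2]
    have : ⌊a⌋ < ⌊b⌋ + 1 + m := by exact_mod_cast this
    omega

theorem cw_eq_zero {N : ℕ} {s : Finset S.Lin} {A : S.Lin → ℝ} {q : S.Q × ℤ}
    (hj : q.2 ∈ Finset.Icc (-(N : ℤ)) N) (hq : q ∉ cells N s) : cw N s A q = 0 := by
  classical
  unfold cw
  apply Finset.sum_eq_zero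
  intro l hl
  exfalso
  obtain ⟨h1, h2⟩ := Finset.mem_filter.mp hl
  apply hq
  unfold cells
  rw [Finset.mem_image]
  refine ⟨(l, q.2), Finset.mem_product.mpr ⟨h1, hj⟩, ?_⟩
  simp [h2]

open Classical in
/-- pointwise bound of the tube sum by the cell weights. -/
theorem point_bound {ι κ : Type} {N : ℕ} (s : Finset ι) (rl : ι → S.Lin) (a : ι → ℝ)
    (ha : ∀ i ∈ s, 0 ≤ a i) (E : Finset κ) (c : κ → S.Q) (j : ℤ) (P : ι → Prop)
    (hP : ∀ i ∈ s, P i → ∃ e ∈ E, S.cell N (rl i) j = c e) :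
    (∑ i ∈ s, if P i then ENNReal.ofReal (a i) else 0) ≤
      ∑ e ∈ E, ENNReal.ofReal (cw N (s.image rl)
          (fun l => ∑ i ∈ s.filter (fun i => rl i = l), a i) (c e, j)) := by
  -- value of the cell weight
  have hcw : ∀ q : S.Q × ℤ, cw N (s.image rl)
      (fun l => ∑ i ∈ s.filter (fun i => rl i = l), a i) q =
      ∑ i ∈ s.filter (fun i => S.cell N (rl i) q.2 = q.1), a i := by
    intro q
    unfold cw
    have h := Finset.sum_fiberwise_of_maps_to (s := s.filter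
      (fun i => S.cell N (rl i) q.2 = q.1))
      (t := (s.image rl).filter (fun l => S.cell N l q.2 = q.1))
      (g := rl) (f := a) ?_
    · rw [← h]
      apply Finset.sum_congr rfl
      intro l hl
      apply Finset.sum_congr _ (fun _ _ => rfl)
      ext i
      simp only [Finset.mem_filter]
      constructor
      · rintro ⟨h1, h2⟩
        refine ⟨⟨h1, ?_⟩, h2⟩
        rw [h2]; exact (Finset.mem_filter.mp hl).2
      · rintro ⟨⟨h1, _⟩, h2⟩
        exact ⟨h1, h2⟩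
    · intro i hi
      obtain ⟨h1, h2⟩ := Finset.mem_filter.mp hi
      exact Finset.mem_filter.mpr ⟨Finset.mem_image.mpr ⟨i, h1, rfl⟩, h2⟩
  have step : ∀ i ∈ s, (if P i then ENNReal.ofReal (a i) else 0) ≤
      ∑ e ∈ E, if S.cell N (rl i) j = c e then ENNReal.ofReal (a i) else 0 := by
    intro i hi
    split_ifs with h
    · obtain ⟨e, he, h2⟩ := hP i hi h
      refine le_trans ?_ (Finset.single_le_sum (f := fun e : κ =>
        if S.cell N (rl i) j = c e then ENNReal.ofReal (a i) else 0)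
        (fun _ _ => zero_le) he)
      rw [if_pos h2]
    · exact zero_le
  refine (Finset.sum_le_sum step).trans ?_
  rw [Finset.sum_comm]
  apply Finset.sum_le_sum
  intro e he
  rw [hcw, ENNReal.ofReal_sum_of_nonneg (fun i hi => ha i (Finset.mem_filter.mp hi).1),
    Finset.sum_filter]

open Classical in
/-- the integral of the cell weights. -/
theorem integral_cells {X : Type} [MeasureSpace X] {N : ℕ} (hN : 1 ≤ N) (s : Finset S.Lin)
    (A : S.Lin → ℝ) (c : X → S.Q) {v : ℝ≥0∞} (hv : v ≠ ⊤)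
    (hm : ∀ q, MeasurableSet {x | c x = q}) (hvol : ∀ q, volume {x | c x = q} ≤ v) :
    ∫⁻ z in Set.Icc (-1 : ℝ) 1, ∫⁻ x : X, ENNReal.ofReal (cw N s A
      (c x, ⌊(N : ℝ) * z⌋)) ^ (3 / 2 : ℝ) ≤
    (∑ q ∈ cells N s, ENNReal.ofReal (cw N s A q) ^ (3 / 2 : ℝ)) *
      (v * ENNReal.ofReal (1 / (N : ℝ))) := by
  have hN' : (0 : ℝ) < N := by exact_mod_cast hN
  -- pointwise domination by a finite sum of indicators
  have dom : ∀ z ∈ Set.Icc (-1 : ℝ) 1, ∀ x : X,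
      ENNReal.ofReal (cw N s A (c x, ⌊(N : ℝ) * z⌋)) ^ (3 / 2 : ℝ) ≤
      ∑ q ∈ cells N s, ENNReal.ofReal (cw N s A q) ^ (3 / 2 : ℝ) *
        ({x : X | c x = q.1}.indicator 1 x *
          {z : ℝ | ⌊(N : ℝ) * z⌋ = q.2}.indicator 1 z) := by
    intro z hz x
    set q0 : S.Q × ℤ := (c x, ⌊(N : ℝ) * z⌋) with hq0
    by_cases hq : q0 ∈ cells N s
    · refine le_trans ?_ (Finset.single_le_sum (f := fun q : S.Q × ℤ =>
        ENNReal.ofReal (cw N s A q) ^ (3 / 2 : ℝ) *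
        ({x : X | c x = q.1}.indicator 1 x *
          {z : ℝ | ⌊(N : ℝ) * z⌋ = q.2}.indicator 1 z)) (fun _ _ => zero_le) hq)
      have h1 : x ∈ {x : X | c x = q0.1} := rfl
      have h2 : z ∈ {z : ℝ | ⌊(N : ℝ) * z⌋ = q0.2} := rfl
      simp only [Set.indicator_of_mem h1, Set.indicator_of_mem h2, Pi.one_apply, mul_one, le_refl]
    · have hj : q0.2 ∈ Finset.Icc (-(N : ℤ)) N := by
        simp only [hq0, Finset.mem_Icc]
        constructor
        · rw [Int.le_floor]; push_cast; nlinarith [hz.1]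
        · have : (⌊(N : ℝ) * z⌋ : ℝ) ≤ N := (Int.floor_le _).trans (by nlinarith [hz.2])
          exact_mod_cast this
      rw [cw_eq_zero hj hq]
      simp
  calc _ ≤ ∫⁻ z in Set.Icc (-1 : ℝ) 1, ∑ q ∈ cells N s,
        ENNReal.ofReal (cw N s A q) ^ (3 / 2 : ℝ) * (v *
          {z : ℝ | ⌊(N : ℝ) * z⌋ = q.2}.indicator 1 z) := by
        apply setLIntegral_mono' measurableSet_Icc
        intro z hz
        refine (lintegral_mono (dom z hz)).trans ?_
        rw [lintegral_finsetSum']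
        · apply Finset.sum_le_sum
          intro q hq
          rw [lintegral_const_mul' _ _ (by
            apply ENNReal.rpow_ne_top_of_nonneg (by norm_num) ENNReal.ofReal_ne_top)]
          apply mul_le_mul_right
          rw [lintegral_mul_const' _ _ (by
            by_cases h : z ∈ {z : ℝ | ⌊(N : ℝ) * z⌋ = q.2}
            · simp [Set.indicator_of_mem h]
            · simp [Set.indicator_of_notMem h])]
          apply mul_le_mul_left
          refine (lintegral_indicator_one_le _).trans ?_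
          exact hvol q.1
        · intro q hq
          apply AEMeasurable.const_mul
          apply AEMeasurable.mul_const
          apply Measurable.aemeasurable
          exact Measurable.indicator measurable_one (hm q.1)
    _ ≤ ∑ q ∈ cells N s, ENNReal.ofReal (cw N s A q) ^ (3 / 2 : ℝ) *
        (v * ENNReal.ofReal (1 / (N : ℝ))) := by
        refine (setLIntegral_le_lintegral _ _).trans ?_
        rw [lintegral_finsetSum']
        · apply Finset.sum_le_sum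
          intro q hq
          rw [lintegral_const_mul' _ _ (by
            apply ENNReal.rpow_ne_top_of_nonneg (by norm_num) ENNReal.ofReal_ne_top)]
          apply mul_le_mul_right
          rw [lintegral_const_mul' _ _ hv]
          apply mul_le_mul_right
          refine (lintegral_indicator_one_le _).trans ?_
          exact vol_line hN q.2
        · intro q hq
          apply AEMeasurable.const_mul
          apply AEMeasurable.const_mul
          apply Measurable.aemeasurable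
          apply Measurable.indicator measurable_one
          exact (Int.measurable_floor.comp (by fun_prop)) (MeasurableSet.singleton _)
    _ = _ := by
        rw [Finset.sum_mul]

open Classical in
/-- **from the grid inequality to the integral of a tube sum.** -/
theorem integral_tubes {X ι κ : Type} [MeasureSpace X] {N : ℕ} (hN : 1 ≤ N) (s : Finset ι)
    (rl : ι → S.Lin) (a : ι → ℝ) (ha : ∀ i ∈ s, 0 ≤ a i) (E : Finset κ) (c : κ → X → S.Q)
    {v : ℝ} (hv : 0 ≤ v) [MeasurableSpace S.Q] [Countable S.Q] [MeasurableSingletonClass S.Q]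
    (hm : ∀ e ∈ E, Measurable (c e))
    (hvol : ∀ e ∈ E, ∀ q, volume {x | c e x = q} ≤ ENNReal.ofReal v)
    (P : ι → ℝ → X → Prop)
    (hP : ∀ z ∈ Set.Icc (-1 : ℝ) 1, ∀ x, ∀ i ∈ s, P i z x →
      ∃ e ∈ E, S.cell N (rl i) ⌊(N : ℝ) * z⌋ = c e x) :
    ∫⁻ z in Set.Icc (-1 : ℝ) 1, ∫⁻ x : X,
        (∑ i ∈ s, (if P i z x then ENNReal.ofReal (a i) else 0)) ^ (3/2 : ℝ) ≤
      ENNReal.ofReal ((E.card : ℝ) ^ 2 * ((∑ q ∈ cells N (s.image rl), cw N (s.image rl)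
        (fun l => ∑ i ∈ s.filter (fun i => rl i = l), a i) q ^ (3 / 2 : ℝ)) *
          (v * (1 / (N : ℝ))))) := by
  set s' := s.image rl with hs'
  set A : S.Lin → ℝ := fun l => ∑ i ∈ s.filter (fun i => rl i = l), a i with hA
  have hA0 : ∀ l ∈ s', 0 ≤ A l := fun l _ =>
    Finset.sum_nonneg fun i hi => ha i (Finset.mem_filter.mp hi).1
  have pb : ∀ z ∈ Set.Icc (-1 : ℝ) 1, ∀ x : X,
      (∑ i ∈ s, (if P i z x then ENNReal.ofReal (a i) else 0)) ≤
      ∑ e ∈ E, ENNReal.ofReal (cw N s' A (c e x, ⌊(N : ℝ) * z⌋)) :=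
    fun z hz x => point_bound s rl a ha E (fun e => c e x) _ (fun i => P i z x)
      (fun i hi h => hP z hz x i hi h)
  clear_value A s'
  have cE : (E.card : ℝ≥0∞) ^ (3 / 2 - 1 : ℝ) ≤ E.card := by
    rcases Nat.eq_zero_or_pos E.card with h | h
    · rw [h]
      have : ((0 : ℕ) : ℝ≥0∞) ^ (3 / 2 - 1 : ℝ) = 0 := by
        rw [Nat.cast_zero]
        exact ENNReal.zero_rpow_of_pos (by norm_num)
      rw [this]
      exact zero_le
    · refine (ENNReal.rpow_le_rpow_of_exponent_le (z := 1) (by exact_mod_cast h)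
        (by norm_num)).trans ?_
      rw [ENNReal.rpow_one]
  -- pointwise
  have pw : ∀ z ∈ Set.Icc (-1 : ℝ) 1, ∀ x : X,
      (∑ i ∈ s, (if P i z x then ENNReal.ofReal (a i) else 0)) ^ (3/2 : ℝ) ≤
      (E.card : ℝ≥0∞) * ∑ e ∈ E, ENNReal.ofReal (cw N s' A (c e x, ⌊(N : ℝ) * z⌋)) ^
        (3/2 : ℝ) := by
    intro z hz x
    refine (ENNReal.rpow_le_rpow (pb z hz x) (by norm_num)).trans ?_
    refine (ENNReal.rpow_sum_le_const_mul_sum_rpow _ _ (by norm_num)).trans ?_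
    exact mul_le_mul_left cE _
  have meas : ∀ e ∈ E, ∀ z : ℝ, Measurable (fun x : X => ENNReal.ofReal (cw N s' A
        (c e x, ⌊(N : ℝ) * z⌋)) ^ (3/2 : ℝ)) := by
    intro e he z
    exact (measurable_of_countable (fun q : S.Q => ENNReal.ofReal (cw N s' A
        (q, ⌊(N : ℝ) * z⌋)) ^ (3/2 : ℝ))).comp (hm e he)
  have meas2 : ∀ e ∈ E, Measurable (fun z : ℝ => ∫⁻ x : X, ENNReal.ofReal (cw N s' A
        (c e x, ⌊(N : ℝ) * z⌋)) ^ (3/2 : ℝ)) := by
    intro e he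
    have h0 : Measurable (fun z : ℝ => ⌊(N : ℝ) * z⌋) := Int.measurable_floor.comp (by fun_prop)
    exact (Measurable.of_discrete (f := fun y : ℤ => ∫⁻ x : X, ENNReal.ofReal (cw N s' A
        (c e x, y)) ^ (3/2 : ℝ))).comp h0
  have hcard : (E.card : ℝ≥0∞) ≠ ⊤ := ENNReal.natCast_ne_top _
  calc _ ≤ ∫⁻ z in Set.Icc (-1 : ℝ) 1, (E.card : ℝ≥0∞) * ∑ e ∈ E, ∫⁻ x : X,
        ENNReal.ofReal (cw N s' A (c e x, ⌊(N : ℝ) * z⌋)) ^ (3/2 : ℝ) := by
        apply setLIntegral_mono' measurableSet_Icc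
        intro z hz
        refine (lintegral_mono (pw z hz)).trans ?_
        rw [lintegral_const_mul' _ _ hcard, lintegral_finsetSum _ (fun e he => meas e he z)]
    _ = (E.card : ℝ≥0∞) * ∑ e ∈ E, ∫⁻ z in Set.Icc (-1 : ℝ) 1, ∫⁻ x : X,
        ENNReal.ofReal (cw N s' A (c e x, ⌊(N : ℝ) * z⌋)) ^ (3/2 : ℝ) := by
        rw [lintegral_const_mul' _ _ hcard, lintegral_finsetSum _ (fun e he => meas2 e he)]
    _ ≤ (E.card : ℝ≥0∞) * ∑ e ∈ E, (∑ q ∈ cells N s', ENNReal.ofReal (cw N s' A q) ^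
        (3 / 2 : ℝ)) * (ENNReal.ofReal v * ENNReal.ofReal (1 / (N : ℝ))) := by
        apply mul_le_mul_right
        exact Finset.sum_le_sum fun e he => integral_cells hN s' A (c e) ENNReal.ofReal_ne_top
          (fun q => hm e he (measurableSet_singleton q)) (hvol e he)
    _ = _ := by
        rw [Finset.sum_const, nsmul_eq_mul]
        have e1 : ∑ q ∈ cells N s', ENNReal.ofReal (cw N s' A q) ^ (3 / 2 : ℝ) =
            ENNReal.ofReal (∑ q ∈ cells N s', cw N s' A q ^ (3 / 2 : ℝ)) := by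
          rw [ENNReal.ofReal_sum_of_nonneg (fun q _ => Real.rpow_nonneg (cw_nonneg hA0 q) _)]
          apply Finset.sum_congr rfl
          intro q _
          rw [ENNReal.ofReal_rpow_of_nonneg (cw_nonneg hA0 q) (by norm_num)]
        rw [e1, ← ENNReal.ofReal_mul hv, ← ENNReal.ofReal_mul (Finset.sum_nonneg fun q _ =>
          Real.rpow_nonneg (cw_nonneg hA0 q) _)]
        rw [ENNReal.ofReal_mul (show (0 : ℝ) ≤ (E.card : ℝ) ^ 2 by positivity), ← mul_assoc]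
        congr 1
        rw [← ENNReal.ofReal_natCast, ← ENNReal.ofReal_mul (by positivity), sq]

end Crest.Agent.R116.Ks79
end

-- ▼ part R116/Ks6_79
section

/-!
# R116: rounding of light rays and the class of test sets (helper79)

`enlarge`: if the rounded ray lies in a test member at resolution `1/N`, the true ray lies in an
enlarged member at resolution `δ`, `18/N ≤ δ ≤ 19/N`.  `cover`: rays of a member of aperture
`≥ 1` near a given one lie in a member of aperture `1`.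
-/

set_option autoImplicit false
set_option linter.unusedVariables false

open Finset

namespace Crest.Agent.R116.Ks79

open Crest.Agent.R138.Defs (E2)
open Crest.Agent.R116.CDef480 (E3 lat pt)
open Crest.Agent.R116.LZg725 (Cf Mem rpos rx ry nrm)
open Crest.Agent.R116.LKMDef299 (LRay Cpt)

/-- two light rays at distance at most `~ e`. -/
structure Near (e : ℝ) (r r' : LRay) : Prop where
  C : ‖r.1 - r'.1‖ ≤ 2 * e
  a : ‖r.2.1 - r'.2.1‖ ≤ 2 * e
  k : |r.2.2 - r'.2.2| ≤ e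
  b : ‖r.1‖ ≤ 2
  b' : ‖r'.1‖ ≤ 2

theorem near_x {e : ℝ} {r r' : LRay} (h : Near e r r') {s : ℝ} (hs : |s| ≤ 1) :
    ‖rx r.1 r.2.1 s - rx r'.1 r'.2.1 s‖ ≤ 4 * e := by
  have he : rx r.1 r.2.1 s - rx r'.1 r'.2.1 s = (r.2.1 - r'.2.1) - s • (r.1 - r'.1) := by
    unfold rx; module
  rw [he]
  refine (norm_sub_le _ _).trans ?_
  rw [norm_smul, Real.norm_eq_abs]
  have h1 : |s| * ‖r.1 - r'.1‖ ≤ 1 * (2 * e) :=
    mul_le_mul hs h.C (norm_nonneg _) (by norm_num)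
  linarith [h.a]

theorem near_y {e : ℝ} {r r' : LRay} (h : Near e r r') {s : ℝ} (hs : |s| ≤ 1) :
    |ry r.1 r.2.2 s - ry r'.1 r'.2.2 s| ≤ 5 * e := by
  have he : ry r.1 r.2.2 s - ry r'.1 r'.2.2 s =
      (r.2.2 - r'.2.2) + s * ((‖r.1‖ + ‖r'.1‖) * (‖r.1‖ - ‖r'.1‖) / 2) := by
    unfold ry; ring
  have e0 : 0 ≤ e := (abs_nonneg _).trans h.k
  rw [he]
  refine (abs_add_le _ _).trans ?_
  rw [abs_mul, abs_div, abs_mul, abs_of_pos (two_pos : (0:ℝ) < 2),
    abs_of_nonneg (add_nonneg (norm_nonneg r.1) (norm_nonneg r'.1))]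
  have h1 : |‖r.1‖ - ‖r'.1‖| ≤ 2 * e := (abs_norm_sub_norm_le _ _).trans h.C
  have h2 : (‖r.1‖ + ‖r'.1‖) * |‖r.1‖ - ‖r'.1‖| / 2 ≤ 4 * (2 * e) / 2 := by
    have := mul_le_mul (a := ‖r.1‖ + ‖r'.1‖) (b := 4) (by linarith [h.b, h.b']) h1
      (abs_nonneg _) (by norm_num)
    linarith
  have h3 : |s| * ((‖r.1‖ + ‖r'.1‖) * |‖r.1‖ - ‖r'.1‖| / 2) ≤ 1 * (4 * (2 * e) / 2) :=
    mul_le_mul hs h2 (by positivity) (by norm_num)
  linarith [h.k]

/-- the null normal of slope `c` changes little. -/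
theorem near_nrm {e : ℝ} {r r' : LRay} (h : Near e r r') {s : ℝ} (hs : |s| ≤ 1) {c : E2} {K : ℝ}
    (hc : ‖c‖ ≤ K) :
    |nrm c (rx r.1 r.2.1 s) (ry r.1 r.2.2 s) s - nrm c (rx r'.1 r'.2.1 s) (ry r'.1 r'.2.2 s) s| ≤
      (5 + 4 * K) * e := by
  have he : nrm c (rx r.1 r.2.1 s) (ry r.1 r.2.2 s) s -
      nrm c (rx r'.1 r'.2.1 s) (ry r'.1 r'.2.2 s) s =
      (ry r.1 r.2.2 s - ry r'.1 r'.2.2 s) + inner ℝ c (rx r.1 r.2.1 s - rx r'.1 r'.2.1 s) := by
    unfold nrm; rw [inner_sub_right]; ring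
  rw [he]
  refine (abs_add_le _ _).trans ?_
  have e0 : 0 ≤ e := (abs_nonneg _).trans h.k
  have h1 : |inner ℝ c (rx r.1 r.2.1 s - rx r'.1 r'.2.1 s)| ≤ K * (4 * e) :=
    (abs_real_inner_le_norm _ _).trans (mul_le_mul hc (near_x h hs) (norm_nonneg _)
      ((norm_nonneg _).trans hc))
  linarith [near_y h hs]

/-- the slope of an affine function bounded by `w` on `[-1, 1]`. -/
theorem slope_le {A B w : ℝ} (h : ∀ s : ℝ, |s| ≤ 1 → |A + s * B| ≤ w) : |B| ≤ w := by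
  have h1 := h 1 (by norm_num)
  have h2 := h (-1) (by norm_num)
  rw [abs_le] at *
  constructor <;> linarith [h1.1, h1.2, h2.1, h2.2]

/-- **the value of the conformal function on a near ray**. -/
theorem phi_near {M B e : ℝ} (hM : 0 ≤ M) {m : Mem} (hm : m.Ok M B) (hc : Cpt M B m) (hR : m.R = 1)
    (hs0 : m.s0 = 0) (he : 0 < e) (heB : e = B) (he1 : e ≤ 1) (hes : e ≤ m.s1) {r r' : LRay}
    (h : Near e r r') (hr : r' ∈ m.rays B) {s : ℝ} (hs : |s| ≤ 1) :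
    |m.phi.val (rpos r s, s)| ≤ (5 + 37 * M) * m.s1 := by
  subst heB
  have hT := m.sq_le_T e
  have hsg := hm.sg_pos
  have hT0 := hm.T_pos
  have hray : ∀ t : ℝ, |t| ≤ 1 → |m.phi.ev (rx r'.1 r'.2.1 t) (ry r'.1 r'.2.2 t) t| ≤ m.s1 := by
    intro t ht
    have h1 := (hr.2 t (by rw [hs0, hR, sub_zero]; exact ht)).2
    rw [hR, mul_one] at h1
    unfold Cf.val at h1
    rwa [LZg725.lat_rpos, LZg725.rpos_two] at h1
  have hev := hray s hs
  have hld : |m.phi.ld r'.1 (rx r'.1 r'.2.1 s) (ry r'.1 r'.2.2 s) s| ≤ m.s1 := by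
    rw [Cf.ld_ray]
    apply slope_le (A := m.phi.rA r'.2.1 r'.2.2)
    intro t ht
    rw [← Cf.ev_ray]
    exact hray t ht
  have hny : |m.phi.ny s| * m.T e ≤ M * m.sg := hm.adm.ny s (by rw [hs0, hR, sub_zero]; exact hs)
  have hd := hm.adm.d_le hm.hR.le hT0.le
  have hgr : ‖m.phi.gr r'.1 (rx r'.1 r'.2.1 s) s‖ ≤ 1 + 2 * M := by
    have h1 := LZg725.gr_sq_near (m := 1) hm.hR hsg hT hM zero_le_one hm.adm.disc hny hd
      (hld.trans (by rw [one_mul]; exact hm.hsg))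
      (hev.trans (by rw [one_mul, hR, mul_one]; exact hm.hsg))
    rw [mul_one] at h1
    exact LZg725.norm_le_of_sq_near hM h1
  have hny2 : |m.phi.ny s| * e ≤ M * m.s1 := by
    have := hc s (by rw [hs0, hR, sub_zero]; exact hs)
    rwa [hR, mul_one] at this
  have hd2 : |m.phi.d| * e ≤ M * m.s1 := by
    have h1 := hc 1 (by rw [hs0, hR]; norm_num)
    have h2 := hc (-1) (by rw [hs0, hR]; norm_num)
    rw [hR, mul_one] at h1 h2
    have h3 : |4 * m.phi.d| ≤ |m.phi.ny (-1)| + |m.phi.ny 1| := by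
      have e3 : 4 * m.phi.d = m.phi.ny (-1) - m.phi.ny 1 := by unfold Cf.ny; ring
      rw [e3]; exact abs_sub _ _
    rw [abs_mul, abs_of_pos (by norm_num : (0:ℝ) < 4)] at h3
    have h4 := mul_le_mul_of_nonneg_right h3 he.le
    have h5 : 0 ≤ M * m.s1 := mul_nonneg hM hm.hs1.le
    nlinarith
  have hx := near_x h hs
  have hn := near_nrm h hs (c := r'.1) h.b'
  have hexp := Cf.ev_expand m.phi r'.1 (rx r'.1 r'.2.1 s) (ry r'.1 r'.2.2 s) s
    (rx r.1 r.2.1 s) (ry r.1 r.2.2 s) s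
  rw [sub_self, zero_smul, add_zero, mul_zero, add_zero, mul_zero, zero_mul, sub_zero] at hexp
  unfold Cf.val
  rw [LZg725.lat_rpos, LZg725.rpos_two, hexp]
  have t1 : |inner ℝ (m.phi.gr r'.1 (rx r'.1 r'.2.1 s) s)
      (rx r.1 r.2.1 s - rx r'.1 r'.2.1 s)| ≤ (1 + 2 * M) * (4 * e) :=
    (abs_real_inner_le_norm _ _).trans (mul_le_mul hgr hx (norm_nonneg _) (by positivity))
  have t2 : |m.phi.ny s * (nrm r'.1 (rx r.1 r.2.1 s) (ry r.1 r.2.2 s) s -
      nrm r'.1 (rx r'.1 r'.2.1 s) (ry r'.1 r'.2.2 s) s)| ≤ 13 * (M * m.s1) := by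
    rw [abs_mul]
    calc _ ≤ |m.phi.ny s| * ((5 + 4 * 2) * e) := mul_le_mul_of_nonneg_left hn (abs_nonneg _)
      _ = 13 * (|m.phi.ny s| * e) := by ring
      _ ≤ _ := by linarith
  have t3 : |m.phi.d * ‖rx r.1 r.2.1 s - rx r'.1 r'.2.1 s‖ ^ 2| ≤ 16 * (M * m.s1) := by
    rw [abs_mul, abs_of_nonneg (sq_nonneg ‖rx r.1 r.2.1 s - rx r'.1 r'.2.1 s‖)]
    have h1 : ‖rx r.1 r.2.1 s - rx r'.1 r'.2.1 s‖ ^ 2 ≤ (4 * e) ^ 2 :=
      pow_le_pow_left₀ (norm_nonneg _) hx 2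
    have h0 : 0 ≤ M * m.s1 := mul_nonneg hM hm.hs1.le
    calc _ ≤ |m.phi.d| * (4 * e) ^ 2 := mul_le_mul_of_nonneg_left h1 (abs_nonneg _)
      _ = 16 * ((|m.phi.d| * e) * e) := by ring
      _ ≤ 16 * ((M * m.s1) * 1) := by gcongr
      _ = _ := by ring
  have t1' : (1 + 2 * M) * (4 * e) ≤ (4 + 8 * M) * m.s1 := by
    have : (4 + 8 * M) * e ≤ (4 + 8 * M) * m.s1 := mul_le_mul_of_nonneg_left hes (by positivity)
    linarith
  have tri := abs_add_le (m.phi.ev (rx r'.1 r'.2.1 s) (ry r'.1 r'.2.2 s) s)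
    (inner ℝ (m.phi.gr r'.1 (rx r'.1 r'.2.1 s) s) (rx r.1 r.2.1 s - rx r'.1 r'.2.1 s))
  have tri2 := abs_add_le (m.phi.ev (rx r'.1 r'.2.1 s) (ry r'.1 r'.2.2 s) s +
    inner ℝ (m.phi.gr r'.1 (rx r'.1 r'.2.1 s) s) (rx r.1 r.2.1 s - rx r'.1 r'.2.1 s))
    (m.phi.ny s * (nrm r'.1 (rx r.1 r.2.1 s) (ry r.1 r.2.2 s) s -
      nrm r'.1 (rx r'.1 r'.2.1 s) (ry r'.1 r'.2.2 s) s))
  have tri3 := abs_add_le (m.phi.ev (rx r'.1 r'.2.1 s) (ry r'.1 r'.2.2 s) s +
    inner ℝ (m.phi.gr r'.1 (rx r'.1 r'.2.1 s) s) (rx r.1 r.2.1 s - rx r'.1 r'.2.1 s) +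
    (m.phi.ny s * (nrm r'.1 (rx r.1 r.2.1 s) (ry r.1 r.2.2 s) s -
      nrm r'.1 (rx r'.1 r'.2.1 s) (ry r'.1 r'.2.2 s) s)))
    (m.phi.d * ‖rx r.1 r.2.1 s - rx r'.1 r'.2.1 s‖ ^ 2)
  linarith

/-- the enlarged member. -/
noncomputable def big (A δ : ℝ) (m : Mem) : Mem where
  c := m.c
  sg := A * max m.sg δ
  s1 := A * max m.s1 δ
  R := 1
  X0 := m.X0
  s0 := 0
  phi := m.phi

/-- **enlargement**: a test member at resolution `e = 1/N` is enlarged to a member at resolution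
`δ ∈ [18 e, 19 e]` which contains every ray near to a ray of the member. -/
theorem enlarge {M e δ : ℝ} (hM : 1 ≤ M) (he : 0 < e) (he1 : e ≤ 1) (h1 : 18 * e ≤ δ)
    (h2 : δ ≤ 19 * e) {m : Mem} (hm : m.Ok M e) (hc : Cpt M e m) (hR : m.R = 1) (hs0 : m.s0 = 0)
    (hes : e ≤ m.s1) (hsg1 : m.sg ≤ 1) :
    (big (42 * M) δ m).Ok (15162 * M ^ 2) δ ∧ δ ≤ (big (42 * M) δ m).s1 ∧
      (big (42 * M) δ m).scost δ ≤ 130321 * (42 * M) ^ 4 * m.scost e ∧
      ∀ r r' : LRay, Near e r r' → r' ∈ m.rays e → r ∈ (big (42 * M) δ m).rays δ := by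
  have hsg := hm.sg_pos
  have hs1 := hm.hs1
  have hT0 := hm.T_pos
  have hM0 : 0 < M := by linarith
  set A : ℝ := 42 * M with hA
  have hA42 : 42 ≤ A := by rw [hA]; linarith
  have hA0 : 0 < A := by linarith
  have hδ0 : 0 < δ := by linarith
  have hTe : m.T e = max (m.sg ^ 2) e := by unfold Mem.T; rw [hR, div_one]
  have hTb : (big A δ m).T δ = max ((A * max m.sg δ) ^ 2) δ := by
    unfold Mem.T
    show max ((A * max m.sg δ) ^ 2) (δ / 1) = _
    rw [div_one]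
  have hmax : max m.sg δ ≤ 19 * m.sg := max_le (by linarith) (by linarith [hm.hsg])
  have hmax1 : max m.s1 δ ≤ 19 * m.s1 := max_le (by linarith) (by linarith)
  have hmaxp : 0 < max m.sg δ := lt_max_of_lt_left hsg
  have hTle : (big A δ m).T δ ≤ 361 * A ^ 2 * m.T e := by
    rw [hTb]
    apply max_le
    · calc (A * max m.sg δ) ^ 2 ≤ (A * (19 * m.sg)) ^ 2 := by gcongr
        _ = 361 * A ^ 2 * m.sg ^ 2 := by ring
        _ ≤ 361 * A ^ 2 * m.T e := by gcongr; exact m.sq_le_T e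
    · have h3 : e ≤ m.T e := by rw [hTe]; exact le_max_right _ _
      have h4 : (1 : ℝ) ≤ A ^ 2 := one_le_pow₀ (by linarith)
      calc δ ≤ 19 * e := h2
        _ ≤ 361 * 1 * m.T e := by nlinarith
        _ ≤ 361 * A ^ 2 * m.T e := by gcongr
  have hTb0 : 0 < (big A δ m).T δ := by
    rw [hTb]; exact lt_max_of_lt_left (by positivity)
  refine ⟨⟨one_pos, ?_, ?_, ?_⟩, ?_, ?_, ?_⟩
  · show 0 < A * max m.s1 δ
    have : 0 < max m.s1 δ := lt_max_of_lt_left hs1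
    positivity
  · show A * max m.s1 δ ≤ A * max m.sg δ
    have : max m.s1 δ ≤ max m.sg δ := max_le_max_right _ hm.hsg
    gcongr
  · have hsgle : A * m.sg ≤ A * max m.sg δ := by gcongr; exact le_max_left _ _
    have hsgle1 : m.sg ≤ A * max m.sg δ := by nlinarith
    refine ⟨hm.adm.disc, ?_, ?_, ?_⟩
    · intro s hs
      show |m.phi.ny s| * (big A δ m).T δ ≤ 15162 * M ^ 2 * (A * max m.sg δ)
      have h3 : |m.phi.ny s| * m.T e ≤ M * m.sg := hm.adm.ny s (by rw [hs0, hR]; exact hs)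
      calc |m.phi.ny s| * (big A δ m).T δ ≤ |m.phi.ny s| * (361 * A ^ 2 * m.T e) := by gcongr
        _ = 361 * A ^ 2 * (|m.phi.ny s| * m.T e) := by ring
        _ ≤ 361 * A ^ 2 * (M * m.sg) := by gcongr
        _ = 361 * A * M * (A * m.sg) := by ring
        _ ≤ 361 * A * M * (A * max m.sg δ) := by gcongr
        _ = 15162 * M ^ 2 * (A * max m.sg δ) := by rw [hA]; ring
    · show |m.phi.ld m.c (lat m.X0) (m.X0 2) 0| ≤ 15162 * M ^ 2 * (A * max m.sg δ)
      have h3 := hm.adm.ld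
      rw [hs0] at h3
      refine h3.trans ?_
      have h4 : M ≤ 15162 * M ^ 2 := by nlinarith
      calc M * m.sg ≤ (15162 * M ^ 2) * (A * max m.sg δ) := by gcongr
        _ = _ := by ring
    · show |m.phi.ev (lat m.X0) (m.X0 2) 0| ≤ 15162 * M ^ 2 * (A * max m.sg δ) * 1
      have h3 := hm.adm.ev
      rw [hs0, hR] at h3
      refine h3.trans ?_
      have h4 : M ≤ 15162 * M ^ 2 := by nlinarith
      rw [mul_one, mul_one]
      calc M * m.sg ≤ (15162 * M ^ 2) * (A * max m.sg δ) := by gcongr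
        _ = _ := by ring
  · show δ ≤ A * max m.s1 δ
    have : δ ≤ max m.s1 δ := le_max_right _ _
    nlinarith
  · unfold Mem.scost
    show (A * max m.s1 δ) * (A * max m.sg δ) * (big A δ m).T δ * 1 ^ 3 ≤ _
    rw [hR, one_pow, mul_one, mul_one]
    have hp1 : 0 ≤ max m.s1 δ := le_max_of_le_left hs1.le
    calc (A * max m.s1 δ) * (A * max m.sg δ) * (big A δ m).T δ ≤
          (A * (19 * m.s1)) * (A * (19 * m.sg)) * (361 * A ^ 2 * m.T e) := by gcongr
      _ = 130321 * A ^ 4 * (m.s1 * m.sg * m.T e) := by ring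
  · intro r r' hn hr
    have hC' : ‖r'.1 - m.c‖ ≤ m.sg := hr.1
    have hcn : ‖m.c‖ ≤ 3 := by
      have := norm_sub_norm_le m.c r'.1
      rw [norm_sub_rev] at this
      linarith [hn.b']
    have hsgb : m.sg + 4 * e ≤ A * max m.sg δ := by
      have h3 : m.sg ≤ max m.sg δ := le_max_left _ _
      have h4 : δ ≤ max m.sg δ := le_max_right _ _
      nlinarith
    refine ⟨?_, ?_⟩
    · show ‖r.1 - m.c‖ ≤ A * max m.sg δ
      have : r.1 - m.c = (r.1 - r'.1) + (r'.1 - m.c) := by abel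
      rw [this]
      refine (norm_add_le _ _).trans ?_
      linarith [hn.C]
    · intro s hs
      have hs' : |s| ≤ 1 := by
        have h3 : |s - 0| ≤ 1 := hs
        rwa [sub_zero] at h3
      obtain ⟨⟨h3, h4, h5⟩, h6⟩ := hr.2 s (by rw [hs0, hR, sub_zero]; exact hs')
      rw [hs0, LZg725.lat_rpos] at h4
      rw [hs0, LZg725.lat_rpos, LZg725.rpos_two] at h5
      rw [hR, mul_one] at h4 h5
      refine ⟨⟨hs, ?_, ?_⟩, ?_⟩
      · show ‖lat (rpos r s) - lat m.X0 + (s - 0) • m.c‖ ≤ A * max m.sg δ * 1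
        rw [LZg725.lat_rpos]
        have e2 : rx r.1 r.2.1 s - lat m.X0 + (s - 0) • m.c =
            (rx r.1 r.2.1 s - rx r'.1 r'.2.1 s) + (rx r'.1 r'.2.1 s - lat m.X0 + (s - 0) • m.c) := by
          abel
        rw [e2, mul_one]
        refine (norm_add_le _ _).trans ?_
        have := near_x hn hs'
        linarith
      · show |nrm m.c (lat (rpos r s)) (rpos r s 2) s - nrm m.c (lat m.X0) (m.X0 2) 0| ≤
          (big A δ m).T δ * 1
        rw [LZg725.lat_rpos, LZg725.rpos_two, mul_one]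
        have h7 := near_nrm hn hs' hcn
        have e2 : nrm m.c (rx r.1 r.2.1 s) (ry r.1 r.2.2 s) s - nrm m.c (lat m.X0) (m.X0 2) 0 =
            (nrm m.c (rx r.1 r.2.1 s) (ry r.1 r.2.2 s) s -
              nrm m.c (rx r'.1 r'.2.1 s) (ry r'.1 r'.2.2 s) s) +
            (nrm m.c (rx r'.1 r'.2.1 s) (ry r'.1 r'.2.2 s) s - nrm m.c (lat m.X0) (m.X0 2) 0) := by
          ring
        rw [e2]
        refine (abs_add_le _ _).trans ?_
        have h8 : 17 * e + m.T e ≤ (big A δ m).T δ := by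
          rw [hTe, hTb]
          rcases le_total (m.sg ^ 2) e with h9 | h9
          · rw [max_eq_right h9]
            exact le_max_of_le_right (by linarith)
          · rw [max_eq_left h9]
            apply le_max_of_le_left
            have h10 : m.sg ≤ max m.sg δ := le_max_left _ _
            calc 17 * e + m.sg ^ 2 ≤ 18 * m.sg ^ 2 := by linarith
              _ ≤ 42 ^ 2 * m.sg ^ 2 := by nlinarith [sq_nonneg m.sg]
              _ = (42 * m.sg) ^ 2 := by ring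
              _ ≤ (A * max m.sg δ) ^ 2 := by gcongr
        linarith
      · show |m.phi.val (rpos r s, s)| ≤ A * max m.s1 δ * 1
        have h7 := phi_near hM0.le hm hc hR hs0 he rfl he1 hes hn hr hs'
        have h8 : m.s1 ≤ max m.s1 δ := le_max_left _ _
        have h9 : (5 + 37 * M) ≤ A := by rw [hA]; linarith
        calc _ ≤ (5 + 37 * M) * m.s1 := h7
          _ ≤ A * max m.s1 δ := by gcongr
          _ = _ := by ring

/-- a member of aperture `1` around a ray of a member of aperture at least `1`. -/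
noncomputable def small (m : Mem) (l : LRay) : Mem where
  c := l.1
  sg := 1
  s1 := min m.s1 1
  R := 1
  X0 := rpos l 0
  s0 := 0
  phi := if m.s1 ≤ 1 then m.phi else flat e1 l.1 l.2.1

/-- **covering**: rays of a member of aperture at least `1` near to a given one. -/
theorem cover {M δ : ℝ} (hM : 1 ≤ M) (hδ : 0 < δ) (hδ1 : δ ≤ 1) {m : Mem} (hm : m.Ok M δ)
    (hR : m.R = 1) (hs0 : m.s0 = 0) (hs1 : δ ≤ m.s1) (hsg : 1 ≤ m.sg) {l : LRay}
    (hl : l ∈ m.rays δ) :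
    (small m l).Ok M δ ∧ δ ≤ (small m l).s1 ∧ (small m l).scost δ ≤ m.scost δ ∧
      ∀ r : LRay, Near (1 / 8) r l → r ∈ m.rays δ → r ∈ (small m l).rays δ := by
  have hT1 : 1 ≤ m.T δ := le_max_of_le_left (one_le_pow₀ hsg)
  have hTs : (small m l).T δ = 1 := by
    unfold Mem.T
    show max ((1 : ℝ) ^ 2) (δ / 1) = 1
    rw [div_one, one_pow]
    exact max_eq_left hδ1
  have hm1 : 0 < min m.s1 1 := lt_min hm.hs1 one_pos
  have hM0 : 0 ≤ M := by linarith
  have hray : ∀ r : LRay, r ∈ m.rays δ → ∀ t : ℝ, |t| ≤ 1 → |m.phi.val (rpos r t, t)| ≤ m.s1 := by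
    intro r hr t ht
    have h1 := (hr.2 t (by rw [hs0, hR, sub_zero]; exact ht)).2
    rwa [hR, mul_one] at h1
  refine ⟨⟨one_pos, hm1, min_le_right _ _, ?_⟩, ?_, ?_, ?_⟩
  · by_cases h : m.s1 ≤ 1
    · have hphi : (small m l).phi = m.phi := if_pos h
      have hmin : min m.s1 1 = m.s1 := min_eq_left h
      refine ⟨by rw [hphi]; exact hm.adm.disc, ?_, ?_, ?_⟩
      · intro s hs
        rw [hphi, hTs]
        show |m.phi.ny s| * 1 ≤ M * 1
        have h3 : |m.phi.ny s| * m.T δ ≤ M * m.sg := hm.adm.ny s (by rw [hs0, hR]; exact hs)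
        have h4 := LZg725.ny_sg_le hm.sg_pos (m.sq_le_T δ) (abs_nonneg _) hM0 h3
        have h5 : |m.phi.ny s| * 1 ≤ |m.phi.ny s| * m.sg := by gcongr
        linarith
      · rw [hphi]
        show |m.phi.ld l.1 (lat (rpos l 0)) (rpos l 0 2) 0| ≤ M * 1
        rw [LZg725.lat_rpos, LZg725.rpos_two, Cf.ld_ray]
        have : |m.phi.rB l.1 l.2.1 l.2.2| ≤ m.s1 := by
          apply slope_le (A := m.phi.rA l.2.1 l.2.2)
          intro t ht
          rw [← Cf.ev_ray]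
          have := hray l hl t ht
          unfold Cf.val at this
          rwa [LZg725.lat_rpos, LZg725.rpos_two] at this
        linarith
      · rw [hphi]
        show |m.phi.ev (lat (rpos l 0)) (rpos l 0 2) 0| ≤ M * 1 * 1
        have := hray l hl 0 (by norm_num)
        unfold Cf.val at this
        have h6 : |m.phi.ev (lat (rpos l 0)) (rpos l 0 2) 0| ≤ m.s1 := this
        linarith
    · have hphi : (small m l).phi = flat e1 l.1 l.2.1 := if_neg h
      refine ⟨by rw [hphi]; exact flat_disc _ _ _ norm_e1, ?_, ?_, ?_⟩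
      · intro s _
        rw [hphi, flat_ny, abs_zero, zero_mul]
        show 0 ≤ M * 1
        linarith
      · rw [hphi]
        show |(flat e1 l.1 l.2.1).ld l.1 _ _ _| ≤ M * 1
        rw [flat_ld, abs_zero]; linarith
      · rw [hphi]
        show |(flat e1 l.1 l.2.1).ev (lat (rpos l 0)) _ 0| ≤ M * 1 * 1
        rw [flat_ev, lat_rpos0]
        simp only [sub_self, zero_smul, add_zero, inner_zero_right, abs_zero]
        linarith
  · exact le_min hs1 hδ1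
  · unfold Mem.scost
    rw [hTs, hR]
    show min m.s1 1 * 1 * 1 * 1 ^ 3 ≤ m.s1 * m.sg * m.T δ * 1 ^ 3
    have h1 : min m.s1 1 ≤ m.s1 := min_le_left _ _
    have h0 := hm.hs1.le
    have h2 : (1 : ℝ) ≤ m.sg * m.T δ := by nlinarith
    calc min m.s1 1 * 1 * 1 * 1 ^ 3 = min m.s1 1 * 1 := by ring
      _ ≤ m.s1 * (m.sg * m.T δ) := by gcongr
      _ = _ := by ring
  · intro r hn hr
    have hcn := hn.b'
    refine ⟨?_, ?_⟩
    · show ‖r.1 - l.1‖ ≤ 1
      linarith [hn.C]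
    · intro s hs
      have hs' : |s| ≤ 1 := by
        have h3 : |s - 0| ≤ 1 := hs
        rwa [sub_zero] at h3
      have hx : rx r.1 r.2.1 s - l.2.1 + s • l.1 = (r.2.1 - l.2.1) - s • (r.1 - l.1) := by
        unfold rx; module
      have hxn : ‖rx r.1 r.2.1 s - l.2.1 + s • l.1‖ ≤ 1 / 2 := by
        rw [hx]
        refine (norm_sub_le _ _).trans ?_
        rw [norm_smul, Real.norm_eq_abs]
        have h1 : |s| * ‖r.1 - l.1‖ ≤ 1 * (2 * (1 / 8)) :=
          mul_le_mul hs' hn.C (norm_nonneg _) (by norm_num)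
        linarith [hn.a]
      refine ⟨⟨hs, ?_, ?_⟩, ?_⟩
      · show ‖lat (rpos r s) - lat (rpos l 0) + (s - 0) • l.1‖ ≤ 1 * 1
        rw [LZg725.lat_rpos, lat_rpos0, sub_zero]
        linarith
      · show |nrm l.1 (lat (rpos r s)) (rpos r s 2) s - nrm l.1 (lat (rpos l 0)) (rpos l 0 2) 0| ≤
          (small m l).T δ * 1
        rw [hTs, LZg725.lat_rpos, LZg725.rpos_two, lat_rpos0, rpos0_two, LZg725.nrm_ray']
        have e2 : r.2.2 + inner ℝ l.1 r.2.1 + s * ‖r.1 - l.1‖ ^ 2 / 2 - nrm l.1 l.2.1 l.2.2 0 =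
            (r.2.2 - l.2.2) + inner ℝ l.1 (r.2.1 - l.2.1) + s * (‖r.1 - l.1‖ ^ 2 / 2) := by
          unfold nrm; rw [inner_sub_right]; ring
        rw [e2]
        have h1 : |inner ℝ l.1 (r.2.1 - l.2.1)| ≤ 2 * (2 * (1 / 8)) :=
          (abs_real_inner_le_norm _ _).trans (mul_le_mul hcn hn.a (norm_nonneg _) (by norm_num))
        have h2 : |s * (‖r.1 - l.1‖ ^ 2 / 2)| ≤ 1 / 32 := by
          rw [abs_mul, abs_of_nonneg (a := ‖r.1 - l.1‖ ^ 2 / 2) (by positivity)]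
          have h3 : ‖r.1 - l.1‖ ^ 2 ≤ (1 / 4) ^ 2 :=
            pow_le_pow_left₀ (norm_nonneg _) (by linarith [hn.C]) 2
          calc |s| * (‖r.1 - l.1‖ ^ 2 / 2) ≤ 1 * ((1 / 4) ^ 2 / 2) := by gcongr
            _ = _ := by norm_num
        have h4 := abs_add_le (r.2.2 - l.2.2) (inner ℝ l.1 (r.2.1 - l.2.1))
        have h5 := abs_add_le (r.2.2 - l.2.2 + inner ℝ l.1 (r.2.1 - l.2.1))
          (s * (‖r.1 - l.1‖ ^ 2 / 2))
        linarith [hn.k]
      · by_cases h : m.s1 ≤ 1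
        · have hphi : (small m l).phi = m.phi := if_pos h
          rw [hphi]
          show |m.phi.val (rpos r s, s)| ≤ min m.s1 1 * 1
          rw [min_eq_left h, mul_one]
          exact hray r hr s hs'
        · have hphi : (small m l).phi = flat e1 l.1 l.2.1 := if_neg h
          rw [hphi]
          show |(flat e1 l.1 l.2.1).ev (lat (rpos r s)) _ s| ≤ min m.s1 1 * 1
          rw [flat_ev, LZg725.lat_rpos, min_eq_right (not_le.1 h).le, mul_one]
          refine (abs_real_inner_le_norm _ _).trans ?_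
          rw [norm_e1, one_mul]
          linarith

end Crest.Agent.R116.Ks79
end

-- ▼ part R116/Ks7_79
section

/-!
# R116: rounding of light rays: cells (helper79)
-/

set_option autoImplicit false
set_option linter.unusedVariables false

open Finset MeasureTheory
open scoped ENNReal

namespace Crest.Agent.R116.Ks79

open Crest.Agent.R138.Defs (E2)
open Crest.Agent.R116.CDef480 (E3 lat pt)
open Crest.Agent.R116.LZg725 (Cf Mem rpos rx ry nrm)
open Crest.Agent.R116.LKMDef299 (LRay Cpt)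

/-- the grid ray of a light ray. -/
noncomputable def rl (N : ℕ) (r : LRay) : GRay :=
  (((⌊(N : ℝ) * (-(r.1 0))⌋, ⌊(N : ℝ) * (-(r.1 1))⌋), (⌊(N : ℝ) * r.2.1 0⌋, ⌊(N : ℝ) * r.2.1 1⌋)),
    ⌊(N : ℝ) * r.2.2⌋)

/-- unit box of light rays. -/
structure Unt (r : LRay) : Prop where
  C : ∀ k, 0 ≤ -(r.1 k) ∧ -(r.1 k) < 1
  a : ∀ k, 0 ≤ r.2.1 k ∧ r.2.1 k < 1
  k : 0 ≤ r.2.2 ∧ r.2.2 < 1

theorem norm_le_abs_add (x : E2) : ‖x‖ ≤ |x 0| + |x 1| := by
  have h := CDef480.normsq2 x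
  have h1 : ‖x‖ ^ 2 ≤ (|x 0| + |x 1|) ^ 2 := by
    rw [h, add_sq, sq_abs, sq_abs]
    have : 0 ≤ 2 * |x 0| * |x 1| := by positivity
    linarith
  exact (sq_le_sq₀ (norm_nonneg _) (by positivity)).1 h1

theorem floor_div_close {N : ℕ} (hN : 1 ≤ N) (x : ℝ) :
    |x - (⌊(N : ℝ) * x⌋ : ℝ) / N| ≤ 1 / N := by
  have hN' : (0 : ℝ) < N := by exact_mod_cast hN
  have h1 := Int.floor_le ((N : ℝ) * x)
  have h2 := Int.lt_floor_add_one ((N : ℝ) * x)
  have e : x - (⌊(N : ℝ) * x⌋ : ℝ) / N = ((N : ℝ) * x - ⌊(N : ℝ) * x⌋) / N := by field_simp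
  rw [e, abs_div, abs_of_pos hN']
  gcongr
  rw [abs_le]; constructor <;> linarith

theorem rl_near {N : ℕ} (hN : 1 ≤ N) {r : LRay} (hr : Unt r) :
    Near (1 / (N : ℝ)) r (gray N (rl N r)) := by
  have hN' : (0 : ℝ) < N := by exact_mod_cast hN
  have hb : ∀ x : ℝ, 0 ≤ x ∧ x < 1 → |(⌊(N : ℝ) * x⌋ : ℝ) / N| ≤ 1 := by
    intro x hx
    have h0 : (0 : ℝ) ≤ (⌊(N : ℝ) * x⌋ : ℝ) := by
      exact_mod_cast Int.floor_nonneg.mpr (mul_nonneg hN'.le hx.1)
    rw [abs_of_nonneg (div_nonneg h0 hN'.le), div_le_one hN']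
    exact (Int.floor_le _).trans (by nlinarith [hx.2])
  refine ⟨?_, ?_, ?_, ?_, ?_⟩
  · refine (norm_le_abs_add _).trans ?_
    have h0 := floor_div_close hN (-(r.1 0))
    have h1 := floor_div_close hN (-(r.1 1))
    have e0 : |(r.1 - (gray N (rl N r)).1) 0| = |-(r.1 0) - (⌊(N : ℝ) * (-(r.1 0))⌋ : ℝ) / N| := by
      rw [← abs_neg]
      congr 1
      show -(r.1 0 - -((⌊(N : ℝ) * (-(r.1 0))⌋ : ℝ) / N)) = _
      ring
    have e1 : |(r.1 - (gray N (rl N r)).1) 1| = |-(r.1 1) - (⌊(N : ℝ) * (-(r.1 1))⌋ : ℝ) / N| := by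
      rw [← abs_neg]
      congr 1
      show -(r.1 1 - -((⌊(N : ℝ) * (-(r.1 1))⌋ : ℝ) / N)) = _
      ring
    rw [e0, e1]; linarith
  · refine (norm_le_abs_add _).trans ?_
    have h0 := floor_div_close hN (r.2.1 0)
    have h1 := floor_div_close hN (r.2.1 1)
    have e0 : |(r.2.1 - (gray N (rl N r)).2.1) 0| = |r.2.1 0 - (⌊(N : ℝ) * (r.2.1 0)⌋ : ℝ) / N| := rfl
    have e1 : |(r.2.1 - (gray N (rl N r)).2.1) 1| = |r.2.1 1 - (⌊(N : ℝ) * (r.2.1 1)⌋ : ℝ) / N| := rfl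
    rw [e0, e1]; linarith
  · exact floor_div_close hN r.2.2
  · refine (norm_le_abs_add _).trans ?_
    have h0 := hr.C 0
    have h1 := hr.C 1
    have e0 : |r.1 0| ≤ 1 := by rw [abs_le]; constructor <;> linarith
    have e1 : |r.1 1| ≤ 1 := by rw [abs_le]; constructor <;> linarith
    linarith
  · refine (norm_le_abs_add _).trans ?_
    have e0 : |(gray N (rl N r)).1 0| = |(⌊(N : ℝ) * (-(r.1 0))⌋ : ℝ) / N| := by
      rw [← abs_neg]
      congr 1
      show -(-((⌊(N : ℝ) * (-(r.1 0))⌋ : ℝ) / N)) = _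
      ring
    have e1 : |(gray N (rl N r)).1 1| = |(⌊(N : ℝ) * (-(r.1 1))⌋ : ℝ) / N| := by
      rw [← abs_neg]
      congr 1
      show -(-((⌊(N : ℝ) * (-(r.1 1))⌋ : ℝ) / N)) = _
      ring
    rw [e0, e1]
    linarith [hb _ (hr.C 0), hb _ (hr.C 1)]

theorem rl_bd {N : ℕ} (hN : 1 ≤ N) {r : LRay} (hr : Unt r) : Bd N (rl N r) := by
  have hN' : (0 : ℝ) < N := by exact_mod_cast hN
  have key : ∀ x : ℝ, 0 ≤ x ∧ x < 1 → |⌊(N : ℝ) * x⌋| ≤ (N : ℤ) := by
    intro x hx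
    rw [abs_of_nonneg (Int.floor_nonneg.mpr (mul_nonneg hN'.le hx.1))]
    have : (⌊(N : ℝ) * x⌋ : ℝ) ≤ N := (Int.floor_le _).trans (by nlinarith [hx.2])
    exact_mod_cast this
  exact ⟨key _ (hr.C 0), key _ (hr.C 1), key _ (hr.a 0), key _ (hr.a 1), key _ hr.k⟩

/-- one lateral coordinate of the rounding. -/
theorem round_x {N : ℕ} (hN : 1 ≤ N) {x p v z ρ : ℝ} {K : ℤ} (hρ : N * ρ ≤ K) (hz : |z| ≤ 1)
    (hv : 0 ≤ v ∧ v < 1) (h : |x - p - z * v| ≤ ρ) :
    |⌊(N : ℝ) * x⌋ - ⌊(⌊(N : ℝ) * p⌋ : ℝ) + ⌊(N : ℝ) * v⌋ * (⌊(N : ℝ) * z⌋ : ℝ) / N⌋| ≤ K + 3 := by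
  have hN' : (0 : ℝ) < N := by exact_mod_cast hN
  apply floor_close
  push_cast
  set a : ℝ := ((⌊(N : ℝ) * p⌋ : ℤ) : ℝ)
  set c : ℝ := ((⌊(N : ℝ) * v⌋ : ℤ) : ℝ)
  set j : ℝ := ((⌊(N : ℝ) * z⌋ : ℤ) : ℝ)
  have ha1 : a ≤ N * p := Int.floor_le _
  have ha2 : N * p < a + 1 := Int.lt_floor_add_one _
  have hc1 : c ≤ N * v := Int.floor_le _
  have hc2 : N * v < c + 1 := Int.lt_floor_add_one _
  have hj1 : j ≤ N * z := Int.floor_le _
  have hj2 : N * z < j + 1 := Int.lt_floor_add_one _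
  have hc0 : 0 ≤ c := by
    have h1 : (0 : ℤ) ≤ ⌊(N : ℝ) * v⌋ := Int.floor_nonneg.mpr (mul_nonneg hN'.le hv.1)
    have h2 : (0 : ℝ) ≤ ((⌊(N : ℝ) * v⌋ : ℤ) : ℝ) := by exact_mod_cast h1
    exact h2
  have hcN : c ≤ N := by nlinarith [hv.2]
  have e1 : |(N : ℝ) * x - N * p - N * z * v| ≤ K := by
    have : (N : ℝ) * x - N * p - N * z * v = N * (x - p - z * v) := by ring
    rw [this, abs_mul, abs_of_pos hN']
    exact (mul_le_mul_of_nonneg_left h hN'.le).trans hρ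
  have e2 : |(N : ℝ) * p - a| ≤ 1 := by rw [abs_le]; constructor <;> linarith
  have e3 : |(N : ℝ) * z * v - c * j / N| ≤ 2 := by
    have : (N : ℝ) * z * v - c * j / N = z * (N * v - c) + (c / N) * (N * z - j) := by
      field_simp; ring
    rw [this]
    have t1 : |z * (N * v - c)| ≤ 1 := by
      rw [abs_mul]
      have : |(N : ℝ) * v - c| ≤ 1 := by rw [abs_le]; constructor <;> linarith
      calc |z| * |(N : ℝ) * v - c| ≤ 1 * 1 := by
            apply mul_le_mul hz this (abs_nonneg _) (by norm_num)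
        _ = 1 := by norm_num
    have t2 : |(c / N) * (N * z - j)| ≤ 1 := by
      rw [abs_mul]
      have u1 : |(N : ℝ) * z - j| ≤ 1 := by rw [abs_le]; constructor <;> linarith
      have u2 : |c / (N : ℝ)| ≤ 1 := by
        rw [abs_of_nonneg (div_nonneg hc0 hN'.le), div_le_one hN']; exact hcN
      calc |c / (N : ℝ)| * |(N : ℝ) * z - j| ≤ 1 * 1 := by
            apply mul_le_mul u2 u1 (abs_nonneg _) (by norm_num)
        _ = 1 := by norm_num
    exact (abs_add_le _ _).trans (by linarith)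
  have : (N : ℝ) * x - (a + c * j / N) =
      (N * x - N * p - N * z * v) + (N * p - a) + (N * z * v - c * j / N) := by ring
  rw [this]
  calc _ ≤ |(N : ℝ) * x - N * p - N * z * v + (N * p - a)| + |(N : ℝ) * z * v - c * j / N| :=
        abs_add_le _ _
    _ ≤ (|(N : ℝ) * x - N * p - N * z * v| + |(N : ℝ) * p - a|) + |(N : ℝ) * z * v - c * j / N| := by
        gcongr; exact abs_add_le _ _
    _ ≤ K + 3 := by linarith

/-- one square of the rounding of the null coordinate. -/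
theorem round_sq {N : ℕ} (hN : 1 ≤ N) {v z : ℝ} (hz : |z| ≤ 1) (hv : 0 ≤ v ∧ v < 1) :
    |(N : ℝ) * (z * v ^ 2 / 2) - (⌊(N : ℝ) * v⌋ : ℝ) ^ 2 * (⌊(N : ℝ) * z⌋ : ℝ) /
      (2 * (N : ℝ) ^ 2)| ≤ 3 / 2 := by
  have hN' : (0 : ℝ) < N := by exact_mod_cast hN
  set c : ℝ := ((⌊(N : ℝ) * v⌋ : ℤ) : ℝ)
  set j : ℝ := ((⌊(N : ℝ) * z⌋ : ℤ) : ℝ)
  have hc1 : c ≤ N * v := Int.floor_le _
  have hc2 : N * v < c + 1 := Int.lt_floor_add_one _
  have hj1 : j ≤ N * z := Int.floor_le _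
  have hj2 : N * z < j + 1 := Int.lt_floor_add_one _
  have hc0 : 0 ≤ c := by
    have h1 : (0 : ℤ) ≤ ⌊(N : ℝ) * v⌋ := Int.floor_nonneg.mpr (mul_nonneg hN'.le hv.1)
    have h2 : (0 : ℝ) ≤ ((⌊(N : ℝ) * v⌋ : ℤ) : ℝ) := by exact_mod_cast h1
    exact h2
  have hcN : c ≤ N := by nlinarith [hv.2]
  have hd : |v - c / N| ≤ 1 / N := floor_div_close hN v
  have hcN1 : 0 ≤ c / N ∧ c / N ≤ 1 := ⟨div_nonneg hc0 hN'.le, by rw [div_le_one hN']; exact hcN⟩
  have e : (N : ℝ) * (z * v ^ 2 / 2) - c ^ 2 * j / (2 * (N : ℝ) ^ 2) =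
      z * ((N * (v - c / N)) * (v + c / N)) / 2 + (N * z - j) * (c / N) ^ 2 / 2 := by
    field_simp
    ring
  rw [e]
  have h1 : |(N : ℝ) * (v - c / N)| ≤ 1 := by
    rw [abs_mul, abs_of_pos hN']
    calc (N : ℝ) * |v - c / N| ≤ N * (1 / N) := by gcongr
      _ = 1 := by field_simp
  have h2 : |v + c / N| ≤ 2 := by
    rw [abs_of_nonneg (by linarith [hv.1, hcN1.1])]; linarith [hv.2, hcN1.2]
  have t1 : |z * ((N * (v - c / N)) * (v + c / N)) / 2| ≤ 1 := by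
    rw [abs_div, abs_mul, abs_mul, abs_of_pos (two_pos : (0:ℝ) < 2)]
    have h3 : |(N : ℝ) * (v - c / N)| * |v + c / N| ≤ 1 * 2 :=
      mul_le_mul h1 h2 (abs_nonneg _) (by norm_num)
    have h4 : |z| * (|(N : ℝ) * (v - c / N)| * |v + c / N|) ≤ 1 * (1 * 2) :=
      mul_le_mul hz h3 (by positivity) (by norm_num)
    linarith
  have t2 : |(N * z - j) * (c / N) ^ 2 / 2| ≤ 1 / 2 := by
    rw [abs_div, abs_mul, abs_of_pos (two_pos : (0:ℝ) < 2), abs_of_nonneg (sq_nonneg (c / (N:ℝ)))]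
    have u1 : |(N : ℝ) * z - j| ≤ 1 := by rw [abs_le]; constructor <;> linarith
    have u2 : (c / (N : ℝ)) ^ 2 ≤ 1 := pow_le_one₀ hcN1.1 hcN1.2
    have h4 : |(N : ℝ) * z - j| * (c / (N : ℝ)) ^ 2 ≤ 1 * 1 :=
      mul_le_mul u1 u2 (sq_nonneg _) (by norm_num)
    linarith
  refine (abs_add_le _ _).trans ?_
  linarith

/-- the null coordinate of the rounding. -/
theorem round_y {N : ℕ} (hN : 1 ≤ N) {y k v w z ρ : ℝ} {K : ℤ} (hρ : N * ρ ≤ K) (hz : |z| ≤ 1)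
    (hv : 0 ≤ v ∧ v < 1) (hw : 0 ≤ w ∧ w < 1) (h : |y - (k + z * (v ^ 2 + w ^ 2) / 2)| ≤ ρ) :
    |⌊(N : ℝ) * y⌋ - ⌊(⌊(N : ℝ) * k⌋ : ℝ) + ((⌊(N : ℝ) * v⌋ : ℝ) ^ 2 + (⌊(N : ℝ) * w⌋ : ℝ) ^ 2) *
      (⌊(N : ℝ) * z⌋ : ℝ) / (2 * (N : ℝ) ^ 2)⌋| ≤ K + 4 := by
  have hN' : (0 : ℝ) < N := by exact_mod_cast hN
  apply floor_close
  push_cast
  have e1 : |(N : ℝ) * (y - (k + z * (v ^ 2 + w ^ 2) / 2))| ≤ ((K : ℤ) : ℝ) := by
    rw [abs_mul, abs_of_pos hN']
    exact (mul_le_mul_of_nonneg_left h hN'.le).trans hρ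
  have e2 : |(N : ℝ) * k - (⌊(N : ℝ) * k⌋ : ℝ)| ≤ 1 := by
    have h1 := Int.floor_le ((N : ℝ) * k)
    have h2 := Int.lt_floor_add_one ((N : ℝ) * k)
    rw [abs_le]; constructor <;> linarith
  have e3 := round_sq hN hz hv
  have e4 := round_sq hN hz hw
  set kk : ℝ := ((⌊(N : ℝ) * k⌋ : ℤ) : ℝ)
  set c : ℝ := ((⌊(N : ℝ) * v⌋ : ℤ) : ℝ)
  set c' : ℝ := ((⌊(N : ℝ) * w⌋ : ℤ) : ℝ)
  set j : ℝ := ((⌊(N : ℝ) * z⌋ : ℤ) : ℝ)
  have e : (N : ℝ) * y - (kk + (c ^ 2 + c' ^ 2) * j / (2 * (N : ℝ) ^ 2)) =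
      (N : ℝ) * (y - (k + z * (v ^ 2 + w ^ 2) / 2)) + (N * k - kk) +
      (N * (z * v ^ 2 / 2) - c ^ 2 * j / (2 * (N : ℝ) ^ 2)) +
      (N * (z * w ^ 2 / 2) - c' ^ 2 * j / (2 * (N : ℝ) ^ 2)) := by
    field_simp
    ring
  rw [e]
  have a1 := abs_add_le ((N : ℝ) * (y - (k + z * (v ^ 2 + w ^ 2) / 2))) (N * k - kk)
  have a2 := abs_add_le ((N : ℝ) * (y - (k + z * (v ^ 2 + w ^ 2) / 2)) + (N * k - kk))
    (N * (z * v ^ 2 / 2) - c ^ 2 * j / (2 * (N : ℝ) ^ 2))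
  have a3 := abs_add_le ((N : ℝ) * (y - (k + z * (v ^ 2 + w ^ 2) / 2)) + (N * k - kk) +
    (N * (z * v ^ 2 / 2) - c ^ 2 * j / (2 * (N : ℝ) ^ 2)))
    (N * (z * w ^ 2 / 2) - c' ^ 2 * j / (2 * (N : ℝ) ^ 2))
  linarith

/-- shifted cell of a point. -/
noncomputable def cellX (N : ℕ) (e : (ℤ × ℤ) × ℤ) (X : E3) : (ℤ × ℤ) × ℤ :=
  ((⌊(N : ℝ) * X 0⌋ + e.1.1, ⌊(N : ℝ) * X 1⌋ + e.1.2), ⌊(N : ℝ) * X 2⌋ + e.2)

/-- the box of shifts. -/
noncomputable def shf (K : ℤ) : Finset ((ℤ × ℤ) × ℤ) :=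
  (Icc (-(K + 4)) (K + 4) ×ˢ Icc (-(K + 4)) (K + 4)) ×ˢ Icc (-(K + 4)) (K + 4)

/-- the cell of the rounded ray is near the cell of the point. -/
theorem cell_near {N : ℕ} (hN : 1 ≤ N) {r : LRay} (hr : Unt r) {s ρ : ℝ} {K : ℤ} (hρ : N * ρ ≤ K)
    (hs : |s| ≤ 1) {X : E3} (hx : ‖lat X - (r.2.1 - s • r.1)‖ ≤ ρ)
    (hy : |X 2 - (r.2.2 + s * ‖r.1‖ ^ 2 / 2)| ≤ ρ) :
    ∃ e ∈ shf K, cell N (rl N r) ⌊(N : ℝ) * s⌋ = cellX N e X := by
  have hk : ∀ k : Fin 2, |lat X k - r.2.1 k - s * (-(r.1 k))| ≤ ρ := by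
    intro k
    have := PiLp.norm_apply_le (lat X - (r.2.1 - s • r.1)) k
    simp only [PiLp.sub_apply, PiLp.smul_apply, smul_eq_mul, Real.norm_eq_abs] at this
    have e : lat X k - r.2.1 k - s * (-(r.1 k)) = lat X k - (r.2.1 k - s * r.1 k) := by ring
    rw [e]
    exact this.trans hx
  have h0 := round_x hN (p := r.2.1 0) hρ hs (hr.C 0) (hk 0)
  have h1 := round_x hN (p := r.2.1 1) hρ hs (hr.C 1) (hk 1)
  have h2 := round_y hN (y := X 2) (k := r.2.2) hρ hs (hr.C 0) (hr.C 1) (by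
    rw [CDef480.normsq2] at hy
    rw [neg_sq, neg_sq]; exact hy)
  refine ⟨(((cell N (rl N r) ⌊(N : ℝ) * s⌋).1.1 - ⌊(N : ℝ) * X 0⌋,
    (cell N (rl N r) ⌊(N : ℝ) * s⌋).1.2 - ⌊(N : ℝ) * X 1⌋),
    (cell N (rl N r) ⌊(N : ℝ) * s⌋).2 - ⌊(N : ℝ) * X 2⌋), ?_, ?_⟩
  · rw [abs_le] at h0 h1 h2
    simp only [shf, mem_product, mem_Icc]
    have h0' := h0.1
    have h0'' := h0.2
    have h1' := h1.1
    have h1'' := h1.2
    simp only [CDef480.lat_zero, CDef480.lat_one] at h0' h0'' h1' h1''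
    simp only [cell, rl]
    refine ⟨⟨⟨?_, ?_⟩, ⟨?_, ?_⟩⟩, ⟨?_, ?_⟩⟩ <;> omega
  · unfold cellX
    ext <;> simp

theorem vol_cell3 {N : ℕ} (hN : 1 ≤ N) (e q : (ℤ × ℤ) × ℤ) :
    volume {X : E3 | cellX N e X = q} ≤ ENNReal.ofReal ((1 / (N : ℝ)) ^ 3) := by
  have hN' : (0 : ℝ) < N := by exact_mod_cast hN
  set m : Fin 3 → ℤ := ![q.1.1 - e.1.1, q.1.2 - e.1.2, q.2 - e.2] with hm
  set S : Set (Fin 3 → ℝ) := Set.Icc (fun i => (m i : ℝ) / N) (fun i => ((m i : ℝ) + 1) / N)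
    with hS
  have hsub : {X : E3 | cellX N e X = q} ⊆ (MeasurableEquiv.toLp 2 (Fin 3 → ℝ)).symm ⁻¹' S := by
    intro x hx
    have hx' : cellX N e x = q := hx
    have hfl : ∀ i : Fin 3, ⌊(N : ℝ) * x i⌋ = m i := by
      intro i
      fin_cases i
      · show ⌊(N : ℝ) * x 0⌋ = q.1.1 - e.1.1
        rw [← hx']; simp [cellX]
      · show ⌊(N : ℝ) * x 1⌋ = q.1.2 - e.1.2
        rw [← hx']; simp [cellX]
      · show ⌊(N : ℝ) * x 2⌋ = q.2 - e.2
        rw [← hx']; simp [cellX]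
    simp only [Set.mem_preimage, hS, Set.mem_Icc, Pi.le_def]
    constructor
    · intro i
      show (m i : ℝ) / N ≤ x i
      have a1 := Int.floor_le ((N : ℝ) * x i)
      rw [hfl i] at a1
      rw [div_le_iff₀ hN']; linarith
    · intro i
      show x i ≤ ((m i : ℝ) + 1) / N
      have a2 := Int.lt_floor_add_one ((N : ℝ) * x i)
      rw [hfl i] at a2
      rw [le_div_iff₀ hN']; linarith
  refine (measure_mono hsub).trans ?_
  rw [(EuclideanSpace.volume_preserving_symm_measurableEquiv_toLp (Fin 3)).measure_preimage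
    (measurableSet_Icc.nullMeasurableSet)]
  rw [Real.volume_Icc_pi]
  have h1 : ∀ i : Fin 3, ENNReal.ofReal (((m i : ℝ) + 1) / N - (m i : ℝ) / N) =
      ENNReal.ofReal (1 / (N : ℝ)) := by
    intro i
    congr 1
    rw [← sub_div]; ring
  rw [Finset.prod_congr rfl (fun i _ => h1 i), Finset.prod_const, Finset.card_univ,
    Fintype.card_fin, ← ENNReal.ofReal_pow (by positivity)]

theorem meas_cellX (N : ℕ) (e : (ℤ × ℤ) × ℤ) : Measurable (cellX N e) := by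
  have h : ∀ i : Fin 3, Measurable (fun x : E3 => ⌊(N : ℝ) * x i⌋) := fun i =>
    Int.measurable_floor.comp (by fun_prop)
  exact (((h 0).add_const _).prodMk ((h 1).add_const _)).prodMk ((h 2).add_const _)

end Crest.Agent.R116.Ks79
end

-- ▼ part R116/Ks8_79
section

/-!
# R116: the unit case: from the grid inequality to tubes of rays in the unit box (helper79)
-/

set_option autoImplicit false
set_option linter.unusedVariables false

open Finset MeasureTheory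
open scoped ENNReal

namespace Crest.Agent.R116.Ks79

open Crest.Agent.R138.Defs (E2)
open Crest.Agent.R116.CDef480 (E3 lat pt)
open Crest.Agent.R116.LZg725 (Cf Mem rpos rx ry nrm)
open Crest.Agent.R116.LKMDef299 (LRay Cpt tube)

theorem abs_sub_of_floor_eq {N : ℕ} (hN : 1 ≤ N) {x y : ℝ}
    (h : ⌊(N : ℝ) * x⌋ = ⌊(N : ℝ) * y⌋) : |x - y| ≤ 1 / N := by
  have hN' : (0 : ℝ) < N := by exact_mod_cast hN
  have h1 := Int.floor_le ((N : ℝ) * x)
  have h2 := Int.lt_floor_add_one ((N : ℝ) * x)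
  have h3 := Int.floor_le ((N : ℝ) * y)
  have h4 := Int.lt_floor_add_one ((N : ℝ) * y)
  rw [h] at h1 h2
  have e : x - y = ((N : ℝ) * x - N * y) / N := by field_simp
  rw [e, abs_div, abs_of_pos hN']
  gcongr
  rw [abs_le]
  constructor <;> linarith

theorem near_of_rl_eq {N : ℕ} (hN : 1 ≤ N) {r r' : LRay} (hr : Unt r) (hr' : Unt r')
    (h : rl N r = rl N r') : Near (1 / (N : ℝ)) r r' := by
  unfold rl at h
  simp only [Prod.mk.injEq] at h
  obtain ⟨⟨⟨h1, h2⟩, h3, h4⟩, h5⟩ := h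
  have g1 := abs_sub_of_floor_eq hN h1
  have g2 := abs_sub_of_floor_eq hN h2
  have g3 := abs_sub_of_floor_eq hN h3
  have g4 := abs_sub_of_floor_eq hN h4
  have g5 := abs_sub_of_floor_eq hN h5
  have bd : ∀ {q : LRay}, Unt q → ‖q.1‖ ≤ 2 := by
    intro q hq
    refine (norm_le_abs_add _).trans ?_
    have h0 := hq.C 0
    have h1 := hq.C 1
    have e0 : |q.1 0| ≤ 1 := by rw [abs_le]; constructor <;> linarith
    have e1 : |q.1 1| ≤ 1 := by rw [abs_le]; constructor <;> linarith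
    linarith
  refine ⟨?_, ?_, g5, bd hr, bd hr'⟩
  · refine (norm_le_abs_add _).trans ?_
    have e0 : |(r.1 - r'.1) 0| = |-(r.1 0) - -(r'.1 0)| := by
      rw [← abs_neg]
      congr 1
      show -(r.1 0 - r'.1 0) = _
      ring
    have e1 : |(r.1 - r'.1) 1| = |-(r.1 1) - -(r'.1 1)| := by
      rw [← abs_neg]
      congr 1
      show -(r.1 1 - r'.1 1) = _
      ring
    rw [e0, e1]; linarith
  · refine (norm_le_abs_add _).trans ?_
    have e0 : |(r.2.1 - r'.2.1) 0| = |r.2.1 0 - r'.2.1 0| := rfl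
    have e1 : |(r.2.1 - r'.2.1) 1| = |r.2.1 1 - r'.2.1 1| := rfl
    rw [e0, e1]; linarith

open Classical in
/-- **the density on members of every aperture.** -/
theorem dens_all {M δ : ℝ} (hM : 1 ≤ M) (hδ : 0 < δ) (hδ1 : δ ≤ 1) {ι : Type} (S : Finset ι)
    (r : ι → LRay) (w : ι → ℝ) (hw : ∀ i ∈ S, 0 ≤ w i) (hr : ∀ i ∈ S, Unt (r i)) {D : ℝ}
    (hD : 0 ≤ D)
    (H : ∀ m : Mem, m.Ok M δ → m.R = 1 → m.s0 = 0 → δ ≤ m.s1 → m.sg ≤ 1 →
      (∑ i ∈ S.filter (fun i => r i ∈ m.rays δ), w i) * δ ^ 3 ≤ D * m.scost δ)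
    {m : Mem} (hm : m.Ok M δ) (hR : m.R = 1) (hs0 : m.s0 = 0) (hs1 : δ ≤ m.s1) :
    (∑ i ∈ S.filter (fun i => r i ∈ m.rays δ), w i) * δ ^ 3 ≤
      7962624 * D * m.scost δ := by
  have hc0 := hm.scost_pos.le
  rcases le_total m.sg 1 with hsg | hsg
  · refine (H m hm hR hs0 hs1 hsg).trans ?_
    have : 0 ≤ D * m.scost δ := mul_nonneg hD hc0
    nlinarith
  · set F := S.filter (fun i => r i ∈ m.rays δ) with hF
    set s' : Finset GRay := F.image (fun i => rl 8 (r i)) with hs'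
    have hFS : ∀ i ∈ F, i ∈ S := fun i hi => (Finset.mem_filter.mp hi).1
    have hFr : ∀ i ∈ F, r i ∈ m.rays δ := fun i hi => (Finset.mem_filter.mp hi).2
    have hcard : s'.card ≤ 243 * 8 ^ 5 := by
      apply card_le_of_Bd (N := 8) (by norm_num)
      intro l hl
      obtain ⟨i, hi, rfl⟩ := Finset.mem_image.mp hl
      exact rl_bd (by norm_num) (hr i (hFS i hi))
    have hsplit : ∑ i ∈ F, w i = ∑ l ∈ s', ∑ i ∈ F.filter (fun i => rl 8 (r i) = l), w i :=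
      (Finset.sum_fiberwise_of_maps_to (fun i hi => Finset.mem_image_of_mem _ hi) _).symm
    have hcls : ∀ l ∈ s', (∑ i ∈ F.filter (fun i => rl 8 (r i) = l), w i) * δ ^ 3 ≤
        D * m.scost δ := by
      intro l hl
      obtain ⟨i0, hi0, rfl⟩ := Finset.mem_image.mp hl
      obtain ⟨c1, c2, c3, c4⟩ := cover hM hδ hδ1 hm hR hs0 hs1 hsg (hFr i0 hi0)
      have h1 := H (small m (r i0)) c1 rfl rfl c2 le_rfl
      have h2 : ∑ i ∈ F.filter (fun i => rl 8 (r i) = rl 8 (r i0)), w i ≤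
          ∑ i ∈ S.filter (fun i => r i ∈ (small m (r i0)).rays δ), w i := by
        apply Finset.sum_le_sum_of_subset_of_nonneg
        · intro i hi
          obtain ⟨hi1, hi2⟩ := Finset.mem_filter.mp hi
          refine Finset.mem_filter.mpr ⟨hFS i hi1, c4 _ ?_ (hFr i hi1)⟩
          have := near_of_rl_eq (N := 8) (by norm_num) (hr i (hFS i hi1)) (hr i0 (hFS i0 hi0)) hi2
          simpa using this
        · intro i hi _
          exact hw i (Finset.mem_filter.mp hi).1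
      calc _ ≤ (∑ i ∈ S.filter (fun i => r i ∈ (small m (r i0)).rays δ), w i) * δ ^ 3 := by
            gcongr
        _ ≤ D * (small m (r i0)).scost δ := h1
        _ ≤ D * m.scost δ := by gcongr
    rw [hsplit, Finset.sum_mul]
    calc _ ≤ ∑ l ∈ s', D * m.scost δ := Finset.sum_le_sum hcls
      _ = (s'.card : ℝ) * (D * m.scost δ) := by rw [Finset.sum_const, nsmul_eq_mul]
      _ ≤ ((243 * 8 ^ 5 : ℕ) : ℝ) * (D * m.scost δ) := by
          have : (s'.card : ℝ) ≤ ((243 * 8 ^ 5 : ℕ) : ℝ) := by exact_mod_cast hcard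
          have h0 : 0 ≤ D * m.scost δ := mul_nonneg hD hc0
          gcongr
      _ = 7962624 * D * m.scost δ := by norm_num; ring

open Classical in
/-- sum over fibres above a subset of the image. -/
theorem sum_fib {G : GSys} {ι : Type} (S : Finset ι) (f : ι → G.Lin) (w : ι → ℝ)
    (p : G.Lin → Prop) :
    ∑ l ∈ (S.image f).filter p, ∑ i ∈ S.filter (fun i => f i = l), w i =
      ∑ i ∈ S.filter (fun i => p (f i)), w i := by
  have h := Finset.sum_fiberwise_of_maps_to (s := S.filter (fun i => p (f i)))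
    (t := (S.image f).filter p) (g := f) (f := w) ?_
  · rw [← h]
    apply Finset.sum_congr rfl
    intro l hl
    apply Finset.sum_congr _ (fun _ _ => rfl)
    ext i
    simp only [Finset.mem_filter]
    constructor
    · rintro ⟨h1, h2⟩
      refine ⟨⟨h1, ?_⟩, h2⟩
      rw [h2]; exact (Finset.mem_filter.mp hl).2
    · rintro ⟨⟨h1, _⟩, h2⟩
      exact ⟨h1, h2⟩
  · intro i hi
    obtain ⟨h1, h2⟩ := Finset.mem_filter.mp hi
    exact Finset.mem_filter.mpr ⟨Finset.mem_image.mpr ⟨i, h1, rfl⟩, h2⟩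

open Classical in
/-- **the density of the rounded rays.** -/
theorem dens_grid {M δ : ℝ} (hM : 1 ≤ M) (hδ : 0 < δ) (hδ1 : δ ≤ 1) {N : ℕ} (hN : 1 ≤ N)
    (hN1 : 18 ≤ N * δ) (hN2 : N * δ ≤ 19) {ι : Type} (S : Finset ι)
    (r : ι → LRay) (w : ι → ℝ) (hw : ∀ i ∈ S, 0 ≤ w i) (hr : ∀ i ∈ S, Unt (r i)) {D : ℝ}
    (hD : 0 ≤ D)
    (H : ∀ m : Mem, m.Ok (15162 * M ^ 2) δ → m.R = 1 → m.s0 = 0 → δ ≤ m.s1 → m.sg ≤ 1 →
      (∑ i ∈ S.filter (fun i => r i ∈ m.rays δ), w i) * δ ^ 3 ≤ D * m.scost δ)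
    {m : Mem} (hm : Tst M N m) :
    ∑ i ∈ S.filter (fun i => gray N (rl N (r i)) ∈ m.rays (1 / (N : ℝ))), w i ≤
      (7962624 * (130321 * (42 * M) ^ 4) * D) * (m.scost (1 / (N : ℝ)) * (N : ℝ) ^ 3) := by
  have hN' : (0 : ℝ) < N := by exact_mod_cast hN
  have hN'' : (1 : ℝ) ≤ N := by exact_mod_cast hN
  have he : 0 < 1 / (N : ℝ) := by positivity
  have he1 : 1 / (N : ℝ) ≤ 1 := by rw [div_le_one hN']; exact hN''
  have h1 : 18 * (1 / (N : ℝ)) ≤ δ := by
    rw [mul_one_div, div_le_iff₀ hN']; linarith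
  have h2 : δ ≤ 19 * (1 / (N : ℝ)) := by
    rw [mul_one_div, le_div_iff₀ hN']; linarith
  obtain ⟨b1, b2, b3, b4⟩ := enlarge hM he he1 h1 h2 hm.ok hm.cpt hm.R1 hm.s0 hm.thin hm.sg1
  have hM1 : (1 : ℝ) ≤ 15162 * M ^ 2 := by nlinarith
  have h3 := dens_all hM1 hδ hδ1 S r w hw hr hD H b1 rfl rfl b2
  have h4 : ∑ i ∈ S.filter (fun i => gray N (rl N (r i)) ∈ m.rays (1 / (N : ℝ))), w i ≤
      ∑ i ∈ S.filter (fun i => r i ∈ (big (42 * M) δ m).rays δ), w i := by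
    apply Finset.sum_le_sum_of_subset_of_nonneg
    · intro i hi
      obtain ⟨hi1, hi2⟩ := Finset.mem_filter.mp hi
      exact Finset.mem_filter.mpr ⟨hi1, b4 _ _ (rl_near hN (hr i hi1)) hi2⟩
    · intro i hi _
      exact hw i (Finset.mem_filter.mp hi).1
  have hδ3 : 0 < δ ^ 3 := by positivity
  have h5 : (1 : ℝ) ≤ (N : ℝ) ^ 3 * δ ^ 3 := by
    rw [← mul_pow]; exact one_le_pow₀ (by linarith)
  have hs0 : 0 ≤ m.scost (1 / (N : ℝ)) := hm.ok.scost_pos.le
  refine h4.trans ?_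
  set W := ∑ i ∈ S.filter (fun i => r i ∈ (big (42 * M) δ m).rays δ), w i
  have h6 : W * δ ^ 3 ≤ (7962624 * (130321 * (42 * M) ^ 4) * D) * m.scost (1 / (N : ℝ)) := by
    calc W * δ ^ 3 ≤ 7962624 * D * (big (42 * M) δ m).scost δ := h3
      _ ≤ 7962624 * D * (130321 * (42 * M) ^ 4 * m.scost (1 / (N : ℝ))) := by gcongr
      _ = _ := by ring
  have hW : 0 ≤ W := Finset.sum_nonneg fun i hi => hw i (Finset.mem_filter.mp hi).1
  calc W = W * 1 := (mul_one _).symm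
    _ ≤ W * ((N : ℝ) ^ 3 * δ ^ 3) := by gcongr
    _ = (W * δ ^ 3) * (N : ℝ) ^ 3 := by ring
    _ ≤ ((7962624 * (130321 * (42 * M) ^ 4) * D) * m.scost (1 / (N : ℝ))) * (N : ℝ) ^ 3 := by
        gcongr
    _ = _ := by ring

open Classical in
/-- **the unit case**. -/
theorem unit_case {M : ℝ} (hM : 1 ≤ M) (hM0 : 0 ≤ M) (hG : GrW (rsys M hM0)) (κ : ℝ) (hκ : 1 ≤ κ)
    (ε : ℝ) (hε : 0 < ε) : ∃ C : ℝ, 0 ≤ C ∧ ∀ δ : ℝ, 0 < δ → δ ≤ 1 →
    ∀ (ι : Type) (S : Finset ι) (r : ι → LRay) (w : ι → ℝ), (∀ i ∈ S, 0 ≤ w i) →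
      (∀ i ∈ S, Unt (r i)) → ∀ D : ℝ, 0 ≤ D →
      (∀ m : Mem, m.Ok (15162 * M ^ 2) δ → m.R = 1 → m.s0 = 0 → δ ≤ m.s1 → m.sg ≤ 1 →
        (∑ i ∈ S.filter (fun i => r i ∈ m.rays δ), w i) * δ ^ 3 ≤ D * m.scost δ) →
      ∫⁻ s in Set.Icc (-1 : ℝ) 1, ∫⁻ X : E3,
          (∑ i ∈ S, (if X ∈ tube (κ * δ) (r i) s then ENNReal.ofReal (w i) else 0)) ^
            (3/2 : ℝ) ≤
        ENNReal.ofReal (C * δ ^ (-ε) * Real.sqrt D * ((∑ i ∈ S, w i) * δ ^ 3)) := by
  obtain ⟨CG, hCG, hG'⟩ := hG ε hε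
  set K : ℤ := ⌈19 * κ⌉ with hK
  set c1 : ℝ := 7962624 * (130321 * (42 * M) ^ 4) with hc1
  have hc10 : 0 ≤ c1 := by rw [hc1]; positivity
  refine ⟨((shf K).card : ℝ) ^ 2 * (19 : ℝ) ^ ε * CG * Real.sqrt c1, by positivity, ?_⟩
  intro δ hδ0 hδ1 ι S r w hw hr D hD H
  -- choice of `N`
  obtain ⟨N, hNdef⟩ : ∃ N : ℕ, N = ⌈18 / δ⌉₊ := ⟨_, rfl⟩
  have hN1' : 18 / δ ≤ (N : ℝ) := by rw [hNdef]; exact Nat.le_ceil _
  have hN2' : (N : ℝ) < 18 / δ + 1 := by rw [hNdef]; exact Nat.ceil_lt_add_one (by positivity)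
  have hN1 : 18 ≤ N * δ := by rwa [div_le_iff₀ hδ0] at hN1'
  have hN2 : N * δ ≤ 19 := by
    have h : (N : ℝ) * δ ≤ (18 / δ + 1) * δ := by gcongr
    have e : (18 / δ + 1) * δ = 18 + δ := by field_simp
    rw [e] at h
    linarith
  have hNr : (1 : ℝ) ≤ N := by
    by_contra hcon
    push Not at hcon
    nlinarith
  have hN : 1 ≤ N := by exact_mod_cast hNr
  have hN' : (0 : ℝ) < N := by linarith
  have hsum : 0 ≤ ∑ i ∈ S, w i := Finset.sum_nonneg hw
  obtain ⟨rl', hrl'⟩ : ∃ f : ι → (rsys M hM0).Lin, f = fun i => rl N (r i) := ⟨_, rfl⟩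
  -- the grid inequality
  have main := hG' N hN (S.image rl') (fun l => ∑ i ∈ S.filter (fun i => rl' i = l), w i)
    (c1 * D) (by positivity) (by
      intro l _
      exact Finset.sum_nonneg fun i hi => hw i (Finset.mem_filter.mp hi).1) (by
      intro l hl
      obtain ⟨i, hi, rfl⟩ := Finset.mem_image.mp hl
      rw [hrl']
      exact rl_bd hN (hr i hi)) (by
      intro σ
      have h := dens_grid hM hδ0 hδ1 hN hN1 hN2 S r w hw hr hD H σ.2.2
      rw [sum_fib S rl' w (fun l => (rsys M hM0).mem N σ l)]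
      subst hrl'
      exact h)
  have sumA : ∑ l ∈ S.image rl', ∑ i ∈ S.filter (fun i => rl' i = l), w i = ∑ i ∈ S, w i :=
    Finset.sum_fiberwise_of_maps_to (fun i hi => Finset.mem_image_of_mem _ hi) _
  rw [sumA] at main
  let i1 : MeasurableSpace (rsys M hM0).Q := inferInstanceAs (MeasurableSpace ((ℤ × ℤ) × ℤ))
  have i2 : Countable (rsys M hM0).Q := inferInstanceAs (Countable ((ℤ × ℤ) × ℤ))
  have i3 : MeasurableSingletonClass (rsys M hM0).Q :=
    inferInstanceAs (MeasurableSingletonClass ((ℤ × ℤ) × ℤ))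
  have it := integral_tubes (S := rsys M hM0) (X := E3) hN S rl' w hw (shf K)
    (cellX N) (v := (1 / (N : ℝ)) ^ 3) (by positivity) (by
      intro e _
      exact meas_cellX N e)
    (fun e _ q => vol_cell3 hN e q) (fun i s X => X ∈ tube (κ * δ) (r i) s) (by
      intro z hz x i hi hx
      obtain ⟨hx1, hx2⟩ := hx
      rw [hrl']
      exact cell_near hN (hr i hi) (ρ := κ * δ) (K := K) (by
        have h1 : (N : ℝ) * (κ * δ) = κ * (N * δ) := by ring
        rw [h1]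
        have h2 : κ * (N * δ) ≤ κ * 19 := by gcongr
        have h3 : 19 * κ ≤ (K : ℝ) := Int.le_ceil _
        linarith) (abs_le.mpr ⟨hz.1, hz.2⟩) hx1 hx2)
  refine it.trans ?_
  · apply ENNReal.ofReal_le_ofReal
    have f1 : Real.sqrt (c1 * D) = Real.sqrt c1 * Real.sqrt D := Real.sqrt_mul hc10 _
    have f2 : (N : ℝ) ^ ε ≤ 19 ^ ε * δ ^ (-ε) := by
      have h19 : (N : ℝ) ≤ 19 / δ := by rw [le_div_iff₀ hδ0]; exact hN2
      calc (N : ℝ) ^ ε ≤ (19 / δ) ^ ε := Real.rpow_le_rpow hN'.le h19 hε.le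
        _ = 19 ^ ε * δ ^ (-ε) := by
            rw [Real.div_rpow (by norm_num) hδ0.le, Real.rpow_neg hδ0.le]; rfl
    have f3 : (N : ℝ) * ((1 / (N : ℝ)) ^ 3 * (1 / (N : ℝ))) ≤ δ ^ 3 := by
      have e : (N : ℝ) * ((1 / (N : ℝ)) ^ 3 * (1 / (N : ℝ))) = (1 / (N : ℝ)) ^ 3 := by
        field_simp
      rw [e]
      apply pow_le_pow_left₀ (by positivity)
      rw [div_le_iff₀ hN']; linarith
    have hδε : 0 ≤ δ ^ (-ε) := Real.rpow_nonneg hδ0.le _
    rw [f1] at main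
    calc ((shf K).card : ℝ) ^ 2 * ((∑ q ∈ cells N (S.image rl'), cw N (S.image rl')
          (fun l => ∑ i ∈ S.filter (fun i => rl' i = l), w i) q ^ (3 / 2 : ℝ)) *
          ((1 / (N : ℝ)) ^ 3 * (1 / (N : ℝ))))
        ≤ ((shf K).card : ℝ) ^ 2 * ((CG * (N : ℝ) ^ ε * (Real.sqrt c1 * Real.sqrt D) * N *
            ∑ i ∈ S, w i) * ((1 / (N : ℝ)) ^ 3 * (1 / (N : ℝ)))) := by gcongr
      _ = ((shf K).card : ℝ) ^ 2 * CG * Real.sqrt c1 * Real.sqrt D * (∑ i ∈ S, w i) *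
            (N : ℝ) ^ ε * ((N : ℝ) * ((1 / (N : ℝ)) ^ 3 * (1 / (N : ℝ)))) := by ring
      _ ≤ ((shf K).card : ℝ) ^ 2 * CG * Real.sqrt c1 * Real.sqrt D * (∑ i ∈ S, w i) *
            (19 ^ ε * δ ^ (-ε)) * δ ^ 3 := by gcongr
      _ = _ := by ring

end Crest.Agent.R116.Ks79
end

-- ▼ part R116/Ks9_79

/-!
# R116: LKMseq gives LKMtube (helper79)

CONSUMER: `LKMtube (SSr M1) V` (299's literal) for every `M1 ≥ 15162 M²` and every `V`.
PRODUCER: `LKMseq M` (`Ks4_79`).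
-/

set_option autoImplicit false
set_option linter.unusedVariables false

open Finset MeasureTheory
open scoped ENNReal

namespace Crest.Agent.R116.Ks79

open Crest.Agent.R138.Defs (E2)
open Crest.Agent.R116.CDef480 (E3 lat pt)
open Crest.Agent.R116.LZg725 (Cf Mem rpos rx ry nrm zR InK)
open Crest.Agent.R116.LKMDef299 (LRay Cpt tube LKMtube SSr LKM)
open Crest.Agent.R116.Mc330 (shC)

/-! ### the change of coordinates on rays and members -/

/-- null rotation and translation of a ray. -/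
noncomputable def mv (C0 P : E2) (h : ℝ) (r : LRay) : LRay :=
  (r.1 - C0, r.2.1 - P, r.2.2 + inner ℝ C0 r.2.1 - h)

/-- translation of a member. -/
noncomputable def trl (P : E2) (h : ℝ) (m : Mem) : Mem where
  c := m.c
  sg := m.sg
  s1 := m.s1
  R := m.R
  X0 := m.X0 + pt P h
  s0 := m.s0
  phi := Cf.tr (-P) (-h) 0 m.phi


theorem lat_X0 (P : E2) (h : ℝ) (m : Mem) : lat (trl P h m).X0 = lat m.X0 + P := by
  show lat (m.X0 + pt P h) = _
  rw [CDef480.lat_add, CDef480.lat_pt]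

theorem X0_two (P : E2) (h : ℝ) (m : Mem) : (trl P h m).X0 2 = m.X0 2 + h := rfl

theorem nrm_tr (c x P : E2) (y h s : ℝ) :
    nrm c (x + P) (y + h) s = nrm c x y s + (h + inner ℝ c P) := by
  unfold nrm
  rw [inner_add_right]
  ring

theorem trl_ok {M B : ℝ} (P : E2) (h : ℝ) {m : Mem} (hm : m.Ok M B) : (trl P h m).Ok M B := by
  refine ⟨hm.hR, hm.hs1, hm.hsg, ?_, ?_, ?_, ?_⟩
  · show (Cf.tr (-P) (-h) 0 m.phi).disc = 1
    rw [Cf.disc_tr]; exact hm.adm.disc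
  · intro s hs
    show |(Cf.tr (-P) (-h) 0 m.phi).ny s| * m.T B ≤ M * m.sg
    rw [Cf.ny_tr, add_zero]
    exact hm.adm.ny s hs
  · show |(Cf.tr (-P) (-h) 0 m.phi).ld m.c (lat (trl P h m).X0) ((trl P h m).X0 2) m.s0| ≤ M * m.sg
    rw [Cf.ld_tr, lat_X0, X0_two, add_neg_cancel_right, add_neg_cancel_right, add_zero]
    exact hm.adm.ld
  · show |(Cf.tr (-P) (-h) 0 m.phi).ev (lat (trl P h m).X0) ((trl P h m).X0 2) m.s0| ≤
      M * m.sg * m.R
    rw [Cf.ev_tr, lat_X0, X0_two, add_neg_cancel_right, add_neg_cancel_right, add_zero]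
    exact hm.adm.ev

theorem trl_rays (B : ℝ) (P : E2) (h : ℝ) (m : Mem) (r : LRay) :
    r ∈ (trl P h m).rays B ↔ ((r.1, r.2.1 - P, r.2.2 - h) : LRay) ∈ m.rays B := by
  rw [Mem.mem_rays, Mem.mem_rays]
  unfold LZg725.RayIn
  show (‖r.1 - m.c‖ ≤ m.sg ∧ ∀ s, |s - m.s0| ≤ m.R →
      InK m.c m.sg (m.T B) m.R (lat (trl P h m).X0) ((trl P h m).X0 2) m.s0 (rx r.1 r.2.1 s)
        (ry r.1 r.2.2 s) s ∧
      |(Cf.tr (-P) (-h) 0 m.phi).ev (rx r.1 r.2.1 s) (ry r.1 r.2.2 s) s| ≤ m.s1 * m.R) ↔ _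
  refine and_congr_right fun _ => forall_congr' fun s => imp_congr_right fun _ => ?_
  have e1 : rx r.1 (r.2.1 - P) s = rx r.1 r.2.1 s + -P := by unfold rx; abel
  have e2 : ry r.1 (r.2.2 - h) s = ry r.1 r.2.2 s + -h := by unfold ry; ring
  rw [Cf.ev_tr, add_zero, lat_X0, X0_two]
  refine and_congr ?_ (by rw [e1, e2])
  unfold InK
  refine and_congr_right fun _ => ?_
  have e3 : rx r.1 r.2.1 s - (lat m.X0 + P) = rx r.1 (r.2.1 - P) s - lat m.X0 := by
    rw [e1]; abel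
  have e4 : nrm m.c (rx r.1 r.2.1 s) (ry r.1 r.2.2 s) s - nrm m.c (lat m.X0 + P) (m.X0 2 + h) m.s0 =
      nrm m.c (rx r.1 (r.2.1 - P) s) (ry r.1 (r.2.2 - h) s) s -
        nrm m.c (lat m.X0) (m.X0 2) m.s0 := by
    rw [nrm_tr, e1, e2, nrm_tr, inner_neg_right]
    ring
  rw [e3, e4]

/-- the member pulled back to the old coordinates. -/
noncomputable def bk (C0 P : E2) (h : ℝ) (m : Mem) : Mem := (trl P h m).zoom (-C0) 1

theorem bk_rays (B : ℝ) (C0 P : E2) (h : ℝ) (m : Mem) (r : LRay) :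
    r ∈ (bk C0 P h m).rays B ↔ mv C0 P h r ∈ m.rays B := by
  have h1 := Mem.zoom_rays B (-C0) one_pos (trl P h m) (zR C0 1 r)
  have h2 : zR (-C0) 1 (zR C0 1 r) = r := by
    unfold zR LZg725.zC
    rw [inv_one, one_smul, one_smul, one_smul, sub_neg_eq_add, sub_add_cancel, inner_neg_left,
      one_smul, add_neg_cancel_right]
  rw [h2] at h1
  unfold bk
  rw [h1, trl_rays]
  unfold zR LZg725.zC mv
  rw [inv_one, one_smul, one_smul]

theorem bk_ok {M B : ℝ} (C0 P : E2) (h : ℝ) {m : Mem} (hm : m.Ok M B) : (bk C0 P h m).Ok M B :=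
  Mem.zoom_ok (-C0) one_pos (trl_ok P h hm)

theorem bk_scost (B : ℝ) (C0 P : E2) (h : ℝ) (m : Mem) :
    (bk C0 P h m).scost B = m.scost B := by
  unfold bk
  rw [Mem.zoom_scost B (-C0) one_pos, one_pow, one_mul]
  rfl

theorem bk_R (C0 P : E2) (h : ℝ) (m : Mem) : (bk C0 P h m).R = m.R := by
  show (1 : ℝ) ^ 2 * m.R = m.R
  rw [one_pow, one_mul]

theorem bk_s0 (C0 P : E2) (h : ℝ) (m : Mem) : (bk C0 P h m).s0 = m.s0 := by
  show (1 : ℝ) ^ 2 * m.s0 = m.s0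
  rw [one_pow, one_mul]

theorem bk_s1 (C0 P : E2) (h : ℝ) (m : Mem) : (bk C0 P h m).s1 = m.s1 := by
  show m.s1 / 1 = m.s1
  rw [div_one]

theorem bk_sg (C0 P : E2) (h : ℝ) (m : Mem) : (bk C0 P h m).sg = m.sg := by
  show m.sg / 1 = m.sg
  rw [div_one]

/-! ### the change of coordinates in space -/

theorem lat_shC (C : E2) (X : E3) : lat (shC C X) = lat X := by
  ext i
  fin_cases i
  · exact Mc330.shC_zero C X
  · exact Mc330.shC_one C X

/-- the shear preserves the measure. -/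
theorem lint_shear (C : E2) (v : E3) {G : E3 → ℝ≥0∞} (hG : Measurable G) :
    ∫⁻ X, G (shC C X + v) = ∫⁻ X, G X := by
  have hd : LinearMap.det (shC C) ≠ 0 := by rw [Mc330.det_shC]; norm_num
  have h1 := Measure.map_linearMap_addHaar_eq_smul_addHaar (volume : Measure E3) hd
  rw [Mc330.det_shC, inv_one, abs_one, ENNReal.ofReal_one, one_smul] at h1
  have hm : Measurable (shC C) := (LinearMap.continuous_of_finiteDimensional (shC C)).measurable
  have hG' : Measurable (fun Y => G (Y + v)) := hG.comp (measurable_id.add_const v)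
  have h2 : ∫⁻ X, G (shC C X + v) = ∫⁻ Y, G (Y + v) ∂(Measure.map (shC C) volume) :=
    (lintegral_map hG' hm).symm
  rw [h2, h1, lintegral_add_right_eq_self]

/-- tubes go into tubes. -/
theorem tube_mv {κ δ : ℝ} (hδ : 0 ≤ δ) {C0 : E2} (hκ : 1 + ‖C0‖ ≤ κ) (P : E2) (h : ℝ) {r : LRay}
    {s : ℝ} {X : E3} (hX : X ∈ tube δ r s) :
    shC C0 X + pt (s • C0 - P) (s * ‖C0‖ ^ 2 / 2 - h) ∈ tube (κ * δ) (mv C0 P h r) s := by
  obtain ⟨h1, h2⟩ := hX
  have hk : δ ≤ κ * δ := by nlinarith [norm_nonneg C0]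
  refine ⟨?_, ?_⟩
  · rw [CDef480.lat_add, CDef480.lat_pt, lat_shC]
    have e : lat X + (s • C0 - P) - ((mv C0 P h r).2.1 - s • (mv C0 P h r).1) =
        lat X - (r.2.1 - s • r.1) := by
      unfold mv
      simp only []
      module
    rw [e]
    exact h1.trans hk
  · have e0 : (shC C0 X + pt (s • C0 - P) (s * ‖C0‖ ^ 2 / 2 - h)) 2 =
        X 2 + inner ℝ C0 (lat X) + (s * ‖C0‖ ^ 2 / 2 - h) := by
      show shC C0 X 2 + (s * ‖C0‖ ^ 2 / 2 - h) = _
      rw [Mc330.shC_two]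
      unfold CDef480.nrm
      ring
    have e : (shC C0 X + pt (s • C0 - P) (s * ‖C0‖ ^ 2 / 2 - h)) 2 -
        ((mv C0 P h r).2.2 + s * ‖(mv C0 P h r).1‖ ^ 2 / 2) =
        (X 2 - (r.2.2 + s * ‖r.1‖ ^ 2 / 2)) + inner ℝ C0 (lat X - (r.2.1 - s • r.1)) := by
      rw [e0]
      unfold mv
      simp only []
      rw [norm_sub_sq_real, inner_sub_right, inner_sub_right, real_inner_smul_right,
        real_inner_comm C0 r.1]
      ring
    rw [e]
    refine (abs_add_le _ _).trans ?_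
    have h3 : |inner ℝ C0 (lat X - (r.2.1 - s • r.1))| ≤ ‖C0‖ * δ :=
      (abs_real_inner_le_norm _ _).trans (mul_le_mul_of_nonneg_left h1 (norm_nonneg _))
    nlinarith

/-- the tube is closed in space-time. -/
theorem closed_tube (δ : ℝ) (r : LRay) : IsClosed {q : ℝ × E3 | q.2 ∈ tube δ r q.1} := by
  have hl : Continuous (fun q : ℝ × E3 => lat q.2) := CDef480.latL.continuous.comp continuous_snd
  have h2 : Continuous (fun q : ℝ × E3 => q.2 2) := by fun_prop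
  apply IsClosed.inter
  · exact isClosed_le ((hl.sub (by fun_prop)).norm) continuous_const
  · exact isClosed_le ((h2.sub (by fun_prop)).abs) continuous_const

open Classical in
theorem meas_sum {ι : Type} (S : Finset ι) (r : ι → LRay) (w : ι → ℝ) (δ : ℝ) :
    Measurable (fun q : ℝ × E3 =>
      (∑ i ∈ S, (if q.2 ∈ tube δ (r i) q.1 then ENNReal.ofReal (w i) else 0)) ^
        (3/2 : ℝ)) := by
  apply Measurable.pow_const
  apply Finset.measurable_fun_sum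
  intro i _
  exact Measurable.ite (closed_tube δ (r i)).measurableSet measurable_const measurable_const

open Classical in
theorem meas_sum_x {ι : Type} (S : Finset ι) (r : ι → LRay) (w : ι → ℝ) (δ : ℝ) (s : ℝ) :
    Measurable (fun X : E3 =>
      (∑ i ∈ S, (if X ∈ tube δ (r i) s then ENNReal.ofReal (w i) else 0)) ^
        (3/2 : ℝ)) := by
  apply Measurable.pow_const
  apply Finset.measurable_fun_sum
  intro i _
  have hc : IsClosed {X : E3 | X ∈ tube δ (r i) s} :=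
    (closed_tube δ (r i)).preimage (continuous_const.prodMk continuous_id)
  exact Measurable.ite hc.measurableSet measurable_const measurable_const

theorem card_rpow (n : ℕ) : (n : ℝ≥0∞) ^ (3 / 2 - 1 : ℝ) ≤ n := by
  rcases Nat.eq_zero_or_pos n with h | h
  · rw [h]
    have : ((0 : ℕ) : ℝ≥0∞) ^ (3 / 2 - 1 : ℝ) = 0 := by
      rw [Nat.cast_zero]
      exact ENNReal.zero_rpow_of_pos (by norm_num)
    rw [this]
    exact zero_le
  · refine (ENNReal.rpow_le_rpow_of_exponent_le (z := 1) (by exact_mod_cast h)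
      (by norm_num)).trans ?_
    rw [ENNReal.rpow_one]

open Classical in
/-- splitting in classes. -/
theorem split_int {ι κ : Type} [DecidableEq κ] (S : Finset ι) (K : Finset κ) (g : ι → κ)
    (hg : ∀ i ∈ S, g i ∈ K) (r : ι → LRay) (w : ι → ℝ) (δ : ℝ) :
    ∫⁻ s in Set.Icc (-1 : ℝ) 1, ∫⁻ X : E3,
      (∑ i ∈ S, (if X ∈ tube δ (r i) s then ENNReal.ofReal (w i) else 0)) ^ (3/2 : ℝ) ≤
    (K.card : ℝ≥0∞) * ∑ m ∈ K, ∫⁻ s in Set.Icc (-1 : ℝ) 1, ∫⁻ X : E3,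
        (∑ i ∈ S.filter (fun i => g i = m),
        (if X ∈ tube δ (r i) s then ENNReal.ofReal (w i) else 0)) ^ (3/2 : ℝ) := by
  have pw : ∀ s : ℝ, ∀ X : E3,
      (∑ i ∈ S, (if X ∈ tube δ (r i) s then ENNReal.ofReal (w i) else 0)) ^ (3/2 : ℝ) ≤
      (K.card : ℝ≥0∞) * ∑ m ∈ K, (∑ i ∈ S.filter (fun i => g i = m),
        (if X ∈ tube δ (r i) s then ENNReal.ofReal (w i) else 0)) ^ (3/2 : ℝ) := by
    intro s X
    have h0 := Finset.sum_fiberwise_of_maps_to hg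
      (fun i => (if X ∈ tube δ (r i) s then ENNReal.ofReal (w i) else 0))
    rw [← h0]
    refine (ENNReal.rpow_sum_le_const_mul_sum_rpow _ _ (by norm_num)).trans ?_
    exact mul_le_mul_left (card_rpow _) _
  have m1 : ∀ m : κ, Measurable (fun s : ℝ => ∫⁻ X : E3,
      (∑ i ∈ S.filter (fun i => g i = m),
        (if X ∈ tube δ (r i) s then ENNReal.ofReal (w i) else 0)) ^ (3/2 : ℝ)) :=
    fun m => (meas_sum (S.filter (fun i => g i = m)) r w δ).lintegral_prod_right'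
  have m2 : ∀ (m : κ) (s : ℝ), Measurable (fun X : E3 =>
      (∑ i ∈ S.filter (fun i => g i = m),
        (if X ∈ tube δ (r i) s then ENNReal.ofReal (w i) else 0)) ^ (3/2 : ℝ)) :=
    fun m s => meas_sum_x (S.filter (fun i => g i = m)) r w δ s
  calc _ ≤ ∫⁻ s in Set.Icc (-1 : ℝ) 1, (K.card : ℝ≥0∞) * ∑ m ∈ K, ∫⁻ X : E3,
        (∑ i ∈ S.filter (fun i => g i = m),
        (if X ∈ tube δ (r i) s then ENNReal.ofReal (w i) else 0)) ^ (3/2 : ℝ) := by
        apply lintegral_mono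
        intro s
        refine (lintegral_mono (pw s)).trans ?_
        rw [lintegral_const_mul' _ _ (by simp), lintegral_finsetSum _ (fun m _ => m2 m s)]
    _ = _ := by
        rw [lintegral_const_mul' _ _ (by simp), lintegral_finsetSum _ (fun m _ => m1 m)]

/-! ### the classes -/

/-- integer vector in the plane. -/
noncomputable def iv (m : ℤ × ℤ) : E2 := !₂[(m.1 : ℝ), (m.2 : ℝ)]

theorem iv_floor (x : E2) (k : Fin 2) :
    0 ≤ x k - iv (⌊x 0⌋, ⌊x 1⌋) k ∧ x k - iv (⌊x 0⌋, ⌊x 1⌋) k < 1 := by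
  have hk : k = 0 ∨ k = 1 := by
    rcases k with ⟨j, hj⟩
    interval_cases j
    · left; rfl
    · right; rfl
  rcases hk with rfl | rfl
  · have e : iv (⌊x 0⌋, ⌊x 1⌋) 0 = (⌊x 0⌋ : ℝ) := rfl
    rw [e]
    have h1 := Int.floor_le (x 0)
    have h2 := Int.lt_floor_add_one (x 0)
    constructor <;> linarith
  · have e : iv (⌊x 0⌋, ⌊x 1⌋) 1 = (⌊x 1⌋ : ℝ) := rfl
    rw [e]
    have h1 := Int.floor_le (x 1)
    have h2 := Int.lt_floor_add_one (x 1)
    constructor <;> linarith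

theorem floor_mem {V : ℝ} {x : ℝ} (hx : |x| ≤ V) :
    ⌊x⌋ ∈ Finset.Icc (-(⌈V⌉₊ : ℤ)) ⌈V⌉₊ := by
  rw [abs_le] at hx
  have hV : V ≤ (⌈V⌉₊ : ℝ) := Nat.le_ceil _
  rw [Finset.mem_Icc]
  constructor
  · rw [Int.le_floor]; push_cast; linarith [hx.1]
  · have : (⌊x⌋ : ℝ) ≤ (⌈V⌉₊ : ℝ) := (Int.floor_le _).trans (by linarith [hx.2])
    exact_mod_cast this

/-- class of a ray. -/
noncomputable def cls (r : LRay) : ((ℤ × ℤ) × (ℤ × ℤ)) × ℤ :=
  (((⌊-(r.1 0)⌋, ⌊-(r.1 1)⌋), (⌊r.2.1 0⌋, ⌊r.2.1 1⌋)),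
    ⌊r.2.2 + inner ℝ (-(iv (⌊-(r.1 0)⌋, ⌊-(r.1 1)⌋))) r.2.1⌋)

/-- direction of the class. -/
noncomputable def c0 (m : ((ℤ × ℤ) × (ℤ × ℤ)) × ℤ) : E2 := -(iv m.1.1)

theorem unt_mv (r : LRay) : Unt (mv (c0 (cls r)) (iv (cls r).1.2) (cls r).2 r) := by
  refine ⟨fun k => ?_, fun k => ?_, ?_⟩
  · have e : -((mv (c0 (cls r)) (iv (cls r).1.2) (cls r).2 r).1 k) =
        (-r.1) k - iv (⌊(-r.1) 0⌋, ⌊(-r.1) 1⌋) k := by
      show -(r.1 k - -(iv (cls r).1.1 k)) = -(r.1 k) - iv (cls r).1.1 k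
      ring
    rw [e]
    exact iv_floor (-r.1) k
  · exact iv_floor r.2.1 k
  · have h1 := Int.floor_le (r.2.2 + inner ℝ (c0 (cls r)) r.2.1)
    have h2 := Int.lt_floor_add_one (r.2.2 + inner ℝ (c0 (cls r)) r.2.1)
    have e : (mv (c0 (cls r)) (iv (cls r).1.2) (cls r).2 r).2.2 =
        r.2.2 + inner ℝ (c0 (cls r)) r.2.1 -
          (⌊r.2.2 + inner ℝ (c0 (cls r)) r.2.1⌋ : ℝ) := rfl
    rw [e]
    constructor <;> linarith

theorem norm_c0_le {V : ℝ} {r : LRay} (h : ‖r.1‖ ≤ V) : ‖c0 (cls r)‖ ≤ V + 2 := by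
  have h1 : ‖r.1 - c0 (cls r)‖ ≤ 2 := by
    refine (norm_le_abs_add _).trans ?_
    have h0 := (unt_mv r).C 0
    have h1 := (unt_mv r).C 1
    have e0 : |(r.1 - c0 (cls r)) 0| ≤ 1 := by
      rw [abs_le]
      constructor
      · have : (mv (c0 (cls r)) (iv (cls r).1.2) (cls r).2 r).1 0 = (r.1 - c0 (cls r)) 0 := rfl
        linarith
      · have : (mv (c0 (cls r)) (iv (cls r).1.2) (cls r).2 r).1 0 = (r.1 - c0 (cls r)) 0 := rfl
        linarith
    have e1 : |(r.1 - c0 (cls r)) 1| ≤ 1 := by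
      rw [abs_le]
      constructor
      · have : (mv (c0 (cls r)) (iv (cls r).1.2) (cls r).2 r).1 1 = (r.1 - c0 (cls r)) 1 := rfl
        linarith
      · have : (mv (c0 (cls r)) (iv (cls r).1.2) (cls r).2 r).1 1 = (r.1 - c0 (cls r)) 1 := rfl
        linarith
    linarith
  have e : c0 (cls r) = r.1 - (r.1 - c0 (cls r)) := by abel
  rw [e]
  exact (norm_sub_le _ _).trans (by linarith)

/-- the box of classes. -/
noncomputable def Kb (V : ℝ) : Finset (((ℤ × ℤ) × (ℤ × ℤ)) × ℤ) :=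
  ((Icc (-(⌈V⌉₊ : ℤ)) ⌈V⌉₊ ×ˢ Icc (-(⌈V⌉₊ : ℤ)) ⌈V⌉₊) ×ˢ
    (Icc (-(⌈V⌉₊ : ℤ)) ⌈V⌉₊ ×ˢ Icc (-(⌈V⌉₊ : ℤ)) ⌈V⌉₊)) ×ˢ
    Icc (-(⌈V + (V + 2) * V⌉₊ : ℤ)) ⌈V + (V + 2) * V⌉₊

theorem abs_coord_le (x : E2) (k : Fin 2) : |x k| ≤ ‖x‖ := by
  have := PiLp.norm_apply_le x k
  rwa [Real.norm_eq_abs] at this

theorem cls_mem {V : ℝ} {r : LRay} (h1 : ‖r.1‖ ≤ V) (h2 : ‖r.2.1‖ ≤ V) (h3 : |r.2.2| ≤ V) :
    cls r ∈ Kb V := by
  have hV : 0 ≤ V := (norm_nonneg _).trans h1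
  have g : ∀ k, |-(r.1 k)| ≤ V := fun k => by rw [abs_neg]; exact (abs_coord_le _ k).trans h1
  have g2 : ∀ k, |r.2.1 k| ≤ V := fun k => (abs_coord_le _ k).trans h2
  have g3 : |r.2.2 + inner ℝ (c0 (cls r)) r.2.1| ≤ V + (V + 2) * V := by
    refine (abs_add_le _ _).trans ?_
    have : |inner ℝ (c0 (cls r)) r.2.1| ≤ (V + 2) * V :=
      (abs_real_inner_le_norm _ _).trans (mul_le_mul (norm_c0_le h1) h2 (norm_nonneg _)
        (by linarith))
    linarith
  exact mem_product.mpr ⟨mem_product.mpr ⟨mem_product.mpr ⟨floor_mem (g 0), floor_mem (g 1)⟩,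
    mem_product.mpr ⟨floor_mem (g2 0), floor_mem (g2 1)⟩⟩, floor_mem g3⟩

open Classical in
/-- **the shell of the K side**: the sequence form gives the inequality for tubes. -/
theorem lkmtube_of_lkmseq {M M1 : ℝ} (hM : 1 ≤ M) (h1 : 15162 * M ^ 2 ≤ M1) (h : LKMseq M)
    (V : ℝ) : LKMtube (SSr M1) V := by
  have hM0 : 0 ≤ M := by linarith
  apply LKMtube.mono (T := SSr (15162 * M ^ 2)) _ (fun δ ρ A v h => h.mono h1)
  intro ε hε
  have hκ : (1 : ℝ) ≤ 3 + |V| := by linarith [abs_nonneg V]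
  obtain ⟨C, hC, hU⟩ := unit_case hM hM0 (grW_of_lkmseq hM0 h) (3 + |V|) hκ ε hε
  refine ⟨(Kb V).card * C, by positivity, ?_⟩
  intro δ hδ0 hδ1 ι _ r w hw hr1 hr2 hr3 Δ hΔ H
  have hmaps : ∀ i ∈ (Finset.univ : Finset ι), cls (r i) ∈ Kb V := fun i _ =>
    cls_mem (hr1 i) (hr2 i) (hr3 i)
  have hcl : ∀ m ∈ Kb V, ∫⁻ s in Set.Icc (-1 : ℝ) 1, ∫⁻ X : E3,
      (∑ i ∈ Finset.univ.filter (fun i => cls (r i) = m),
        (if X ∈ tube δ (r i) s then ENNReal.ofReal (w i) else 0)) ^ (3/2 : ℝ) ≤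
      ENNReal.ofReal (C * δ ^ (-ε) * Real.sqrt Δ *
        ((∑ i ∈ Finset.univ.filter (fun i => cls (r i) = m), w i) * δ ^ 3)) := by
    intro m _
    rcases (Finset.univ.filter (fun i => cls (r i) = m)).eq_empty_or_nonempty with he | ⟨i0, hi0⟩
    · rw [he]
      simp
    have hm0 : cls (r i0) = m := (Finset.mem_filter.mp hi0).2
    have hn : 1 + ‖c0 m‖ ≤ 3 + |V| := by
      have := norm_c0_le (hr1 i0)
      rw [hm0] at this
      linarith [le_abs_self V]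
    set S := Finset.univ.filter (fun i => cls (r i) = m) with hS
    refine le_trans ?_ (hU δ hδ0 hδ1 ι S (fun i => mv (c0 m) (iv m.1.2) m.2 (r i)) w
      (fun i _ => hw i) (fun i hi => by
        have := unt_mv (r i)
        rwa [(Finset.mem_filter.mp hi).2] at this) Δ hΔ ?_)
    · apply lintegral_mono
      intro s
      show (∫⁻ X : E3, (∑ i ∈ S, (if X ∈ tube δ (r i) s then ENNReal.ofReal (w i) else 0)) ^
        (3/2 : ℝ)) ≤ _
      refine le_trans ?_ (lint_shear (c0 m) (pt (s • c0 m - iv m.1.2) (s * ‖c0 m‖ ^ 2 / 2 - m.2))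
        (meas_sum_x S (fun i => mv (c0 m) (iv m.1.2) m.2 (r i)) w ((3 + |V|) * δ) s)).le
      apply lintegral_mono
      intro X
      apply ENNReal.rpow_le_rpow _ (by norm_num)
      apply Finset.sum_le_sum
      intro i _
      by_cases hX : X ∈ tube δ (r i) s
      · rw [if_pos hX, if_pos (tube_mv hδ0.le hn _ _ hX)]
      · rw [if_neg hX]; exact zero_le
    · intro t ht hR hs0 hs1 hsg
      have h2 := H ((bk (c0 m) (iv m.1.2) m.2 t).rays δ) (t.scost δ)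
        ⟨bk (c0 m) (iv m.1.2) m.2 t, bk_ok _ _ _ ht, (bk_R _ _ _ _).trans hR,
          (bk_s0 _ _ _ _).trans hs0, by rw [bk_s1]; exact hs1, by rw [bk_sg]; exact hsg, rfl,
          (bk_scost _ _ _ _ _).symm⟩
      refine le_trans ?_ h2
      rw [Finset.sum_mul, ← Finset.sum_filter]
      apply Finset.sum_le_sum_of_subset_of_nonneg
      · intro i hi
        obtain ⟨_, h3⟩ := Finset.mem_filter.mp hi
        exact Finset.mem_filter.mpr ⟨Finset.mem_univ _, (bk_rays _ _ _ _ _ _).mpr h3⟩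
      · intro i _ _
        exact mul_nonneg (hw i) (by positivity)
  refine (split_int Finset.univ (Kb V) (fun i => cls (r i)) hmaps r w δ).trans ?_
  calc _ ≤ ((Kb V).card : ℝ≥0∞) * ∑ m ∈ Kb V, ENNReal.ofReal (C * δ ^ (-ε) * Real.sqrt Δ *
        ((∑ i ∈ Finset.univ.filter (fun i => cls (r i) = m), w i) * δ ^ 3)) := by
        apply mul_le_mul_right
        exact Finset.sum_le_sum hcl
    _ = _ := by
        have hsum : ∀ m, 0 ≤ ∑ i ∈ Finset.univ.filter (fun i => cls (r i) = m), w i :=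
          fun m => Finset.sum_nonneg fun i _ => hw i
        have hδε : 0 ≤ δ ^ (-ε) := Real.rpow_nonneg hδ0.le _
        rw [← ENNReal.ofReal_sum_of_nonneg (fun m _ => by
          have := hsum m
          positivity)]
        have hs : ∑ m ∈ Kb V, ∑ i ∈ Finset.univ.filter (fun i => cls (r i) = m), w i =
            ∑ i, w i := Finset.sum_fiberwise_of_maps_to hmaps _
        rw [← Finset.mul_sum, ← Finset.sum_mul, hs,
          ← ENNReal.ofReal_natCast, ← ENNReal.ofReal_mul (by positivity)]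
        congr 1
        rw [Finset.sum_mul]
        ring

/-- **the K side's output from the sequence form.** -/
theorem lkm_of_lkmseq {M : ℝ} (hM : 1 ≤ M) (h : LKMseq M) : LKM :=
  ⟨15162 * M ^ 2, by nlinarith, fun V => lkmtube_of_lkmseq hM le_rfl h V⟩

end Crest.Agent.R116.Ks79
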