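import Crest.Agent.R136.Qg7_926

-- ▼ part R116/Kst1_593
section

/-!
# R116, K side: own strips in a window (helper593), part 1

`E' ⊆ Cl` pruned with the extra partition `ex j` = real lines.  If on every real line a set `T` of
heights carries at most a `κ`-part of the incidences, then `T` is at most a `κ d'^(-o(1))`-part of
all heights (`zshare`).

* `WStrip` : the counts of the strips `|co t - c co kz| <= K d^X_t d'^τ` on single real lines.
* `HCmp` : the label function `f` of the heights is the slot `t` of every real line, up to an affine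
  function of the height.
* `WStrip.zero`, `WStrip.all` : shares of the strips of `f` in the heights of the model.
-/

set_option autoImplicit false
set_option linter.unusedSectionVars false
set_option linter.unusedVariables false

open Filter Topology

namespace Crest.Agent.R116.Kst593

open Finset Crest.Agent.R138.Ex926 Crest.Agent.R136.Net191 Crest.Agent.R136.Gf356
open Crest.Agent.R136.Qg926

/-- double counting over real lines and over heights -/
theorem share_core {α : Type*} [DecidableEq α] (E : Finset α) (rl zc : α → ℕ) {κ A : ℝ}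
    (T : Finset ℕ)
    (h1 : ∀ i ∈ E, ((E.filter fun j => rl j = rl i ∧ zc j ∈ T).card : ℝ) ≤
      κ * ((cls E rl i).card : ℝ))
    (h2 : ∀ k ∈ T, A ≤ ((E.filter fun j => zc j = k).card : ℝ)) :
    (T.card : ℝ) * A ≤ κ * (E.card : ℝ) := by
  set F := E.filter fun j => zc j ∈ T with hF
  have e1 : (T.card : ℝ) * A ≤ ∑ k ∈ T, ((E.filter fun j => zc j = k).card : ℝ) := by
    rw [← nsmul_eq_mul, ← sum_const]
    exact sum_le_sum h2
  have e2 : (F.card : ℝ) = ∑ k ∈ T, ((E.filter fun j => zc j = k).card : ℝ) := by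
    have h3 : F.card = ∑ k ∈ T, (F.filter fun j => zc j = k).card :=
      card_eq_sum_card_fiberwise fun j hj => (mem_filter.1 hj).2
    rw [h3]
    push_cast
    refine sum_congr rfl fun k hk => ?_
    congr 2
    ext j
    simp only [hF, mem_filter]
    constructor
    · rintro ⟨⟨a, _⟩, c⟩; exact ⟨a, c⟩
    · rintro ⟨a, c⟩; exact ⟨⟨a, by rw [c]; exact hk⟩, c⟩
  have e3 : (F.card : ℝ) = ∑ b ∈ E.image rl, ((F.filter fun j => rl j = b).card : ℝ) := by
    have h3 : F.card = ∑ b ∈ E.image rl, (F.filter fun j => rl j = b).card :=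
      card_eq_sum_card_fiberwise fun j hj => mem_image_of_mem _ (mem_filter.1 hj).1
    rw [h3]; push_cast; rfl
  have e4 : (E.card : ℝ) = ∑ b ∈ E.image rl, ((E.filter fun j => rl j = b).card : ℝ) := by
    rw [card_eq_sum_card_image rl E]; push_cast; rfl
  rw [← e2, e3] at e1
  refine e1.trans ?_
  rw [e4, mul_sum]
  refine sum_le_sum fun b hb => ?_
  obtain ⟨i, hi, rfl⟩ := mem_image.1 hb
  refine le_trans (le_of_eq ?_) (h1 i hi)
  congr 2
  ext j
  simp only [hF, mem_filter]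
  tauto

variable {m : ℕ} {ι : ℕ → Type*} [∀ n, DecidableEq (ι n)]

theorem rp_anti (B : Base) (n : ℕ) {a b : ℝ} (h : a ≤ b) : B.d n ^ b ≤ B.d n ^ a :=
  Real.rpow_le_rpow_of_exponent_ge (B.pos n) (B.lt n).le h

theorem rp_pos (B : Base) (n : ℕ) (a : ℝ) : 0 < B.d n ^ a := Real.rpow_pos_of_pos (B.pos n) a

theorem rp_add (B : Base) (n : ℕ) (a b : ℝ) : B.d n ^ (a + b) = B.d n ^ a * B.d n ^ b :=
  Real.rpow_add (B.pos n) a b

/-- number of heights of a pruned set, from below -/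
theorem card_z_ge {W : Wnd m ι} (h : W.Ok) {E' : ∀ n, Finset (ι n)} {g : ℕ → ℝ}
    {ex : ℕ → ∀ n, ι n → ℕ} (hP : Wnd.Pruned W W.Cl E' g ex) {ε : ℝ} (hε : 0 < ε) :
    ∀ᶠ n in (U : Filter ℕ), W.B'.d n ^ (W.lam (cut W.S 0 W.top) + ε) ≤
      (((E' n).image (W.zc n)).card : ℝ) := by
  have hε3 : 0 < ε / 3 := by positivity
  filter_upwards [h.ev_good, h.cls.csub, h.cls.big _ hε3, h.cls.near_up h.K0_one W.R' hε3,
    ev_const_le W.B' (c := 2) (by norm_num) hε3] with n g1 g2 g3 g4 g5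
  classical
  have hTn := h.cls.T0 n
  have hp := fun s => rp_pos W.B' n s
  have hsub : E' n ⊆ W.Cl n := hP.sub n
  have c1 := le_count_mul (E' n) (fun _ => (1 : ℝ)) (W.zc n)
    (m := W.T n * W.B'.d n ^ (-(W.lam (cut W.S 0 W.top) + ε / 3))) (fun i hi => by
      rw [sum_const, nsmul_eq_mul, mul_one]
      refine le_trans ?_ (g4 (cut W.S 0 W.top) (h.leg h.lev_leg)
        (Wnd.norm_le_of_Leg h.R0 h.lev_leg) i (g1.clI (hsub hi)))
      refine Nat.cast_le.2 (card_le_card fun j hj => mem_filter.2 ?_)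
      obtain ⟨hj1, hj2⟩ := mem_cls.1 hj
      exact ⟨g2 (hsub hj1), h.near_zc g1 (hsub hi) (hsub hj1) hj2.symm⟩)
  rw [sum_const, nsmul_eq_mul, mul_one] at c1
  have c2 := hP.half n
  have c3 : W.T n * W.B'.d n ^ (ε / 3) ≤ W.T n * (W.B'.d n ^ (-(ε / 3)) *
      (W.B'.d n ^ (-(W.lam (cut W.S 0 W.top) + ε / 3)) * (((E' n).image (W.zc n)).card : ℝ))) := by
    calc W.T n * W.B'.d n ^ (ε / 3) ≤ ((W.Cl n).card : ℝ) := g3
      _ ≤ 2 * (E' n).card := c2
      _ ≤ W.B'.d n ^ (-(ε / 3)) * (E' n).card :=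
          mul_le_mul_of_nonneg_right g5 (Nat.cast_nonneg _)
      _ ≤ W.B'.d n ^ (-(ε / 3)) * (W.T n * W.B'.d n ^ (-(W.lam (cut W.S 0 W.top) + ε / 3)) *
            (((E' n).image (W.zc n)).card : ℝ)) := mul_le_mul_of_nonneg_left c1 (hp _).le
      _ = _ := by ring
  have c4 := le_of_mul_le_mul_left c3 hTn
  have c5 := mul_le_mul_of_nonneg_left c4 (hp (W.lam (cut W.S 0 W.top) + 2 * (ε / 3))).le
  rw [← rp_add] at c5
  have e1 : W.lam (cut W.S 0 W.top) + 2 * (ε / 3) + ε / 3 = W.lam (cut W.S 0 W.top) + ε := by ring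
  rw [e1] at c5
  refine c5.trans (le_of_eq ?_)
  rw [← mul_assoc, ← mul_assoc, ← rp_add, ← rp_add]
  have e2 : W.lam (cut W.S 0 W.top) + 2 * (ε / 3) + -(ε / 3) +
      -(W.lam (cut W.S 0 W.top) + ε / 3) = 0 := by ring
  rw [e2, Real.rpow_zero, one_mul]

/-- **from single real lines to all heights** -/
theorem zshare {W : Wnd m ι} (h : W.Ok) {E' : ∀ n, Finset (ι n)} {g : ℕ → ℝ}
    {ex : ℕ → ∀ n, ι n → ℕ} (hP : Wnd.Pruned W W.Cl E' g ex) {j : ℕ} {A : ℕ → ℝ}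
    (hA : ∀ n, 0 < A n)
    (hnum : ∀ ε : ℝ, 0 < ε → ∀ᶠ n in (U : Filter ℕ),
      (((W.Cl n).image (ex j n)).card : ℝ) ≤ A n * W.B'.d n ^ (-ε)) (c : ℝ) {ε : ℝ}
    (hε : 0 < ε) :
    ∀ᶠ n in (U : Filter ℕ), ∀ T ⊆ (E' n).image (W.zc n),
      (∀ i ∈ E' n, (((E' n).filter fun y => ex j n y = ex j n i ∧ W.zc n y ∈ T).card : ℝ) ≤
        W.T n / A n * W.B'.d n ^ c) →
      (T.card : ℝ) ≤ W.B'.d n ^ (c - ε) * (((E' n).image (W.zc n)).card : ℝ) := by
  set δ : ℝ := ε / 5 with hδ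
  have hδ0 : 0 < δ := by positivity
  filter_upwards [hP.ex_ge (Mu := fun _ => 1) hA (fun ε hε => h.cls.big ε hε) hnum hδ0, hP.gsub δ hδ0,
    h.card_zc_le hδ0, card_z_ge h hP hδ0, h.ev_good, h.cls.big δ hδ0] with
    n h1 h2 h3 h4 hg hbig T hT hst
  have hp := fun s => rp_pos W.B' n s
  have hTn := h.cls.T0 n
  set ZE : ℝ := (((W.Cl n).image (W.zc n)).card : ℝ) with hZE
  set CE : ℝ := ((W.Cl n).card : ℝ) with hCE
  have hCE0 : 0 < CE := lt_of_lt_of_le (mul_pos hTn (hp _)) hbig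
  have hZE0 : 0 < ZE := by
    rw [hZE]
    exact_mod_cast card_pos.2 ⟨_, mem_image_of_mem _ hg.s0⟩
  have hE'c : ((E' n).card : ℝ) ≤ CE := by
    rw [hCE]; exact_mod_cast card_le_card (hP.sub n)
  have key := share_core (E' n) (ex j n) (W.zc n) (κ := W.B'.d n ^ (c - δ))
    (A := CE / (W.B'.d n ^ (-δ) * ZE)) T (fun i hi => by
      refine (hst i hi).trans ?_
      have h5 := h1 i hi
      have e1 : W.T n / A n * W.B'.d n ^ c =
          W.B'.d n ^ (c - δ) * (W.T n / A n * W.B'.d n ^ δ) := by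
        have : W.B'.d n ^ c = W.B'.d n ^ (c - δ) * W.B'.d n ^ δ := by
          rw [← rp_add]; congr 1; ring
        rw [this]; ring
      rw [e1]
      exact mul_le_mul_of_nonneg_left h5 (hp _).le)
    (fun k hk => by
      obtain ⟨i, hi, rfl⟩ := mem_image.1 (hT hk)
      rw [div_le_iff₀ (mul_pos (hp _) hZE0)]
      have h6 := hP.slices n i hi
      refine h6.trans ?_
      have h7 : (((E' n).filter fun y => W.zc n y = W.zc n i).card : ℝ) =
          ((R138.Ex926.cls (E' n) (W.zc n) i).card : ℝ) := rfl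
      rw [h7]
      have h8 : (0 : ℝ) ≤ ((R138.Ex926.cls (E' n) (W.zc n) i).card : ℝ) := Nat.cast_nonneg _
      calc g n * ZE * ((R138.Ex926.cls (E' n) (W.zc n) i).card : ℝ)
          ≤ (W.B'.d n ^ (-δ) * ZE) * ((R138.Ex926.cls (E' n) (W.zc n) i).card : ℝ) := by gcongr
        _ = _ := by ring)
  have k1 : (T.card : ℝ) * (CE / (W.B'.d n ^ (-δ) * ZE)) ≤ W.B'.d n ^ (c - δ) * CE :=
    key.trans (mul_le_mul_of_nonneg_left hE'c (hp _).le)
  have k2 : (T.card : ℝ) ≤ W.B'.d n ^ (c - δ) * (W.B'.d n ^ (-δ) * ZE) := by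
    have e1 : (T.card : ℝ) * (CE / (W.B'.d n ^ (-δ) * ZE)) =
        ((T.card : ℝ) / (W.B'.d n ^ (-δ) * ZE)) * CE := by ring
    rw [e1] at k1
    have k3 := le_of_mul_le_mul_right k1 hCE0
    rwa [div_le_iff₀ (mul_pos (hp _) hZE0)] at k3
  have k4 : ZE ≤ W.B'.d n ^ (W.lam (cut W.S 0 W.top) - δ) := h3 _ (Subset.refl _)
  calc (T.card : ℝ) ≤ W.B'.d n ^ (c - δ) * (W.B'.d n ^ (-δ) * ZE) := k2
    _ ≤ W.B'.d n ^ (c - δ) * (W.B'.d n ^ (-δ) * W.B'.d n ^ (W.lam (cut W.S 0 W.top) - δ)) := by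
        have := hp (c - δ)
        have := hp (-δ)
        gcongr
    _ = W.B'.d n ^ (c - 4 * δ) * W.B'.d n ^ (W.lam (cut W.S 0 W.top) + δ) := by
        rw [← rp_add, ← rp_add, ← rp_add]; congr 1; ring
    _ ≤ W.B'.d n ^ (c - 4 * δ) * (((E' n).image (W.zc n)).card : ℝ) :=
        mul_le_mul_of_nonneg_left h4 (hp _).le
    _ ≤ W.B'.d n ^ (c - ε) * (((E' n).image (W.zc n)).card : ℝ) := by
        refine mul_le_mul_of_nonneg_right (rp_anti _ _ ?_) (Nat.cast_nonneg _)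
        rw [hδ]; linarith

/-! ### fat lines -/

/-- number of pairs (fat line, height), from above -/
theorem card_pc_le {W : Wnd m ι} (h : W.Ok) {ε : ℝ} (hε : 0 < ε) :
    ∀ᶠ n in (U : Filter ℕ), (((W.Cl n).image (W.pc n)).card : ℝ) ≤ W.B'.d n ^ (W.lam W.top - ε) := by
  have hN := h.N_pos h.K0_one
  have hlev : cut W.S 0 W.top ≤ W.top := by
    conv_rhs => rw [← cut_self W.S W.top]
    exact cut_mono (fun s _ => h.top_leg.1.nonneg s) (fun s _ => le_rfl)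
  filter_upwards [h.card_lab_le (ε := ε / 2) (by positivity), h.ev_good,
    ev_const_le W.B' (mul_pos hN hN) (ε := ε / 2) (by positivity)] with n h1 g h2
  classical
  have hp := fun s => rp_pos W.B' n s
  have key : (((W.Cl n).image (W.pc n)).card : ℝ) ≤
      W.N W.K0 * W.N W.K0 * ((W.Cl n).image (W.lab n W.top)).card := by
    refine card_image_le_mul _ _ _ fun x hx => ?_
    set O := R138.Ex926.cls (W.Cl n) (W.lab n W.top) x with hO
    have hOC : O ⊆ W.Cl n := cls_subset _ _ _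
    have hOI : O ⊆ W.I n := hOC.trans g.clI
    have hbx : ∀ j ∈ O, W.bx n W.top W.K0 x j := fun j hj =>
      h.near_lab g h.top_leg (g.clI hx) (hOI hj) (mem_cls.1 hj).2.symm
    have c1 := h.card_lc_box g h.K0_one hOI (g.clI hx) hbx
    have c2 := h.card_zc_box g hlev h.K0_one hOI (g.clI hx) hbx
    have c3 : ((O.image (W.pc n)).card : ℝ) ≤ (O.image (W.lc n)).card * (O.image (W.zc n)).card := by
      have : O.image (W.pc n) ⊆ (O.image (W.lc n)) ×ˢ (O.image (W.zc n)) := by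
        intro q hq
        obtain ⟨i, hi, rfl⟩ := mem_image.1 hq
        exact mem_product.2 ⟨mem_image_of_mem _ hi, mem_image_of_mem _ hi⟩
      have h3 := card_le_card this
      rw [card_product] at h3
      exact_mod_cast h3
    exact c3.trans (mul_le_mul c1 c2 (Nat.cast_nonneg _) hN.le)
  calc (((W.Cl n).image (W.pc n)).card : ℝ)
      ≤ W.N W.K0 * W.N W.K0 * ((W.Cl n).image (W.lab n W.top)).card := key
    _ ≤ W.B'.d n ^ (-(ε / 2)) * W.B'.d n ^ (W.lam W.top - ε / 2) :=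
        mul_le_mul h2 (h1 _ h.top_leg _ (Subset.refl _)) (Nat.cast_nonneg _) (hp _).le
    _ = W.B'.d n ^ (W.lam W.top - ε) := by rw [← rp_add]; congr 1; ring

/-- **from single real lines to the heights of one fat line** -/
theorem lshare {W : Wnd m ι} (h : W.Ok) {E' : ∀ n, Finset (ι n)} {g : ℕ → ℝ}
    {ex : ℕ → ∀ n, ι n → ℕ} (hP : Wnd.Pruned W W.Cl E' g ex) {rl : ∀ n, ι n → ℕ} {j₁ j₂ : ℕ}
    (hex1 : ∀ᶠ n in (U : Filter ℕ), ∀ i ∈ W.Cl n, ∀ j ∈ W.Cl n,
      ex j₁ n j = ex j₁ n i → rl n j = rl n i ∧ W.lc n j = W.lc n i)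
    (hex2 : ∀ n i, ex j₂ n i = Nat.pair (W.lc n i) (W.zc n i))
    {A : ℕ → ℝ} (hA : ∀ n, 0 < A n)
    (hnum : ∀ ε : ℝ, 0 < ε → ∀ᶠ n in (U : Filter ℕ),
      (((W.Cl n).image (ex j₁ n)).card : ℝ) ≤ A n * W.B'.d n ^ (-ε)) (c : ℝ) {ε : ℝ}
    (hε : 0 < ε) :
    ∀ᶠ n in (U : Filter ℕ), ∀ l, ∀ T ⊆ (W.cfg0 n (E' n)).hts l,
      (∀ i ∈ E' n, W.lc n i = l → (((E' n).filter fun y => W.lc n y = l ∧ rl n y = rl n i ∧
        W.zc n y ∈ T).card : ℝ) ≤ W.T n / A n * W.B'.d n ^ c) →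
      (T.card : ℝ) ≤ W.B'.d n ^ (c - ε) * (((W.cfg0 n (E' n)).hts l).card : ℝ) := by
  set δ : ℝ := ε / 6 with hδ
  have hδ0 : 0 < δ := by positivity
  filter_upwards [hP.ex_ge (Mu := fun _ => 1) hA (fun ε hε => h.cls.big ε hε) hnum hδ0,
    hP.ex_ge (Mu := fun _ => 1) (j := j₂) (s := W.T) (A := fun n => W.B'.d n ^ W.lam W.top)
      (fun n => rp_pos _ _ _)
      (fun ε hε => h.cls.big ε hε) (fun ε hε => by
        filter_upwards [card_pc_le h hε] with n hn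
        refine le_trans (le_of_eq ?_) (hn.trans (le_of_eq ?_))
        · congr 1
          have : (W.Cl n).image (ex j₂ n) =
              ((W.Cl n).image (W.pc n)).image (fun q => Nat.pair q.1 q.2) := by
            rw [image_image]
            refine image_congr fun i _ => ?_
            simp only [Function.comp, Wnd.pc]
            exact hex2 n i
          rw [this, card_image_of_injective]
          rintro ⟨a, b⟩ ⟨a', b'⟩ he
          obtain ⟨h1, h2⟩ := Nat.pair_eq_pair.1 he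
          exact Prod.ext h1 h2
        · rw [← rp_add]; congr 1) hδ0,
    h.mult_le hδ0, hex1] with n h1 h2 h3 h4 l T hT hst
  have hp := fun s => rp_pos W.B' n s
  have hTn := h.cls.T0 n
  set F := (E' n).filter fun y => W.lc n y = l with hF
  have hFE : F ⊆ E' n := filter_subset _ _
  have hCl : ∀ {y}, y ∈ E' n → y ∈ W.Cl n := fun hy => hP.sub n hy
  have key := share_core F (rl n) (W.zc n) (κ := W.B'.d n ^ (c - δ))
    (A := W.T n / W.B'.d n ^ W.lam W.top * W.B'.d n ^ δ) T (fun i hi => by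
      obtain ⟨i1, i2⟩ := mem_filter.1 hi
      have e0 : (F.filter fun j => rl n j = rl n i ∧ W.zc n j ∈ T) =
          (E' n).filter fun y => W.lc n y = l ∧ rl n y = rl n i ∧ W.zc n y ∈ T := by
        rw [hF, filter_filter]
      rw [e0]
      refine (hst i i1 i2).trans ?_
      have h5 := h1 i i1
      have h6 : ((R138.Ex926.cls (E' n) (ex j₁ n) i).card : ℝ) ≤ ((cls F (rl n) i).card : ℝ) := by
        refine Nat.cast_le.2 (card_le_card fun y hy => ?_)
        obtain ⟨y1, y2⟩ := mem_cls.1 hy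
        obtain ⟨b1, b2⟩ := h4 i (hCl i1) y (hCl y1) y2
        exact mem_cls.2 ⟨mem_filter.2 ⟨y1, b2.trans i2⟩, b1⟩
      have e1 : W.T n / A n * W.B'.d n ^ c =
          W.B'.d n ^ (c - δ) * (W.T n / A n * W.B'.d n ^ δ) := by
        have : W.B'.d n ^ c = W.B'.d n ^ (c - δ) * W.B'.d n ^ δ := by
          rw [← rp_add]; congr 1; ring
        rw [this]; ring
      rw [e1]
      exact mul_le_mul_of_nonneg_left (h5.trans h6) (hp _).le)
    (fun k hk => by
      obtain ⟨x, hx, hx1, hx2⟩ := Wnd.cfg0_hts.1 (hT hk)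
      refine (h2 x hx).trans ?_
      refine Nat.cast_le.2 (card_le_card fun y hy => ?_)
      obtain ⟨y1, y2⟩ := mem_cls.1 hy
      rw [hex2, hex2] at y2
      obtain ⟨b1, b2⟩ := Nat.pair_eq_pair.1 y2
      exact mem_filter.2 ⟨mem_filter.2 ⟨y1, b1.trans hx1⟩, b2.trans hx2⟩)
  have c1 : (F.card : ℝ) ≤ W.T n * W.B'.d n ^ (-W.lam W.top) * W.B'.d n ^ (-δ) *
      (F.image (W.zc n)).card := by
    refine Wnd.card_le_mult (W := W) (fun i hi => ?_) _ (fun i hi j hj he => ?_)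
    · refine le_trans ?_ (h3 i (hCl (hFE hi)))
      exact_mod_cast card_le_card (cls_mono (hFE.trans (hP.sub n)) _ _)
    · have e1 := (mem_filter.1 hi).2.trans (mem_filter.1 hj).2.symm
      unfold Wnd.pc
      rw [e1, he]
  have c2 : ((F.image (W.zc n)).card : ℝ) ≤ (((W.cfg0 n (E' n)).hts l).card : ℝ) := by
    refine Nat.cast_le.2 (card_le_card fun k hk => ?_)
    obtain ⟨y, hy, rfl⟩ := mem_image.1 hk
    obtain ⟨hy1, hy2⟩ := mem_filter.1 hy
    exact Wnd.cfg0_hts.2 ⟨y, hy1, hy2, rfl⟩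
  set H : ℝ := (((W.cfg0 n (E' n)).hts l).card : ℝ) with hH
  have c3 : (T.card : ℝ) * (W.T n / W.B'.d n ^ W.lam W.top * W.B'.d n ^ δ) ≤
      W.B'.d n ^ (c - δ) * (W.T n * W.B'.d n ^ (-W.lam W.top) * W.B'.d n ^ (-δ) * H) :=
    key.trans (mul_le_mul_of_nonneg_left (c1.trans (mul_le_mul_of_nonneg_left c2
      (mul_pos (mul_pos hTn (hp _)) (hp _)).le)) (hp _).le)
  have e2 : (T.card : ℝ) * (W.T n / W.B'.d n ^ W.lam W.top * W.B'.d n ^ δ) =
      ((T.card : ℝ) * W.B'.d n ^ δ) * (W.T n / W.B'.d n ^ W.lam W.top) := by ring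
  have e3 : W.B'.d n ^ (c - δ) * (W.T n * W.B'.d n ^ (-W.lam W.top) * W.B'.d n ^ (-δ) * H) =
      (W.B'.d n ^ (c - 2 * δ) * H) * (W.T n / W.B'.d n ^ W.lam W.top) := by
    have a1 : W.B'.d n ^ (c - 2 * δ) = W.B'.d n ^ (c - δ) * W.B'.d n ^ (-δ) := by
      rw [← rp_add]; congr 1; ring
    rw [a1, Real.rpow_neg (W.B'.pos n).le]
    ring
  rw [e2, e3] at c3
  have c4 := le_of_mul_le_mul_right c3 (div_pos hTn (hp _))
  have c5 : (T.card : ℝ) * W.B'.d n ^ δ ≤ (W.B'.d n ^ (c - 3 * δ) * H) * W.B'.d n ^ δ := by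
    refine c4.trans (le_of_eq ?_)
    have a1 : W.B'.d n ^ (c - 2 * δ) = W.B'.d n ^ (c - 3 * δ) * W.B'.d n ^ δ := by
      rw [← rp_add]; congr 1; ring
    rw [a1]; ring
  refine (le_of_mul_le_mul_right c5 (hp _)).trans ?_
  refine mul_le_mul_of_nonneg_right (rp_anti _ _ ?_) (Nat.cast_nonneg _)
  rw [hδ]; linarith


/-! ### strips -/

/-- **strips of the slot `t` on single real lines** (cells `cw`, slopes in `Sl`): a strip of
width `d'^τ` holds `N d'^(γτ-o(1))` incidences of a real line, `N` = size of the real lines -/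
structure WStrip (W : Wnd m ι) {κ : Type*} [DecidableEq κ] (rl : ∀ n, ι n → ℕ)
    (cw : ∀ n, ι n → κ) (t : Fin m) (Sl : Set ℝ) (N : ℕ → ℝ) (x γ : ℝ) : Prop where
  N0 : ∀ n, 0 < N n
  cells : ∀ K ε : ℝ, 0 < ε → ∀ᶠ n in (U : Filter ℕ), ∀ p ∈ W.I n,
    ((((W.I n).filter fun y => |W.co n p y W.kz| ≤ K * W.B.d n ^ W.X n W.kz).image
      (cw n)).card : ℝ) ≤ W.B'.d n ^ (-ε)
  strip : ∀ τ : ℝ, 0 < τ → τ ≤ x → ∀ K ε : ℝ, 0 < ε → ∀ᶠ n in (U : Filter ℕ), ∀ p ∈ W.I n,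
    ∀ c ∈ Sl, (((W.I n).filter fun y => rl n y = rl n p ∧ cw n y = cw n p ∧
      |W.co n p y t - c * W.co n p y W.kz| ≤ K * (W.B.d n ^ W.X n t * W.B'.d n ^ τ)).card : ℝ) ≤
      N n * W.B'.d n ^ (γ * τ - ε)

/-- smaller `γ` -/
theorem WStrip.mono {W : Wnd m ι} {κ : Type*} [DecidableEq κ] {rl : ∀ n, ι n → ℕ}
    {cw : ∀ n, ι n → κ} {t : Fin m} {Sl : Set ℝ} {N : ℕ → ℝ} {x γ : ℝ}
    (H : WStrip W rl cw t Sl N x γ) {x' γ' : ℝ} (hx : x' ≤ x) (hγ : γ' ≤ γ) {Sl' : Set ℝ}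
    (hS : Sl' ⊆ Sl) : WStrip W rl cw t Sl' N x' γ' where
  N0 := H.N0
  cells := H.cells
  strip := fun τ h0 h1 K ε hε => by
    filter_upwards [H.strip τ h0 (h1.trans hx) K ε hε] with n hn p hp c hc
    refine (hn p hp c (hS hc)).trans (mul_le_mul_of_nonneg_left (rp_anti _ _ ?_) (H.N0 n).le)
    nlinarith

/-- the strip of a real line which carries the incidences of `T` -/
theorem WStrip.line {W : Wnd m ι} (h : W.Ok) {κ : Type*} [DecidableEq κ] {rl : ∀ n, ι n → ℕ}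
    {cw : ∀ n, ι n → κ} {t : Fin m} {Sl : Set ℝ} {N : ℕ → ℝ} {x γ : ℝ}
    (H : WStrip W rl cw t Sl N x γ) {τ : ℝ} (hτ : 0 < τ) (hτx : τ ≤ x) (K : ℝ) {ε : ℝ}
    (hε : 0 < ε) : ∀ᶠ n in (U : Filter ℕ), ∀ F ⊆ W.Cl n,
      (∀ i ∈ F, ∀ j ∈ F, rl n j = rl n i) →
      (∀ i ∈ F, ∃ c ∈ Sl, ∀ j ∈ F, |W.co n i j t - c * W.co n i j W.kz| ≤
        K * (W.B.d n ^ W.X n t * W.B'.d n ^ τ)) →
      (F.card : ℝ) ≤ N n * W.B'.d n ^ (γ * τ - ε) := by
  filter_upwards [h.ev_good, H.cells W.K0 (ε / 2) (by positivity),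
    H.strip τ hτ hτx K (ε / 2) (by positivity)] with n hg h1 h2 F hF hrl hst
  have hp := fun s => rp_pos W.B' n s
  have hN := H.N0 n
  rcases F.eq_empty_or_nonempty with h0 | ⟨i₀, hi₀⟩
  · rw [h0, card_empty, Nat.cast_zero]
    exact (mul_pos hN (hp _)).le
  have c1 := le_count_mul F (fun _ => (1 : ℝ)) (cw n)
    (m := N n * W.B'.d n ^ (γ * τ - ε / 2)) (fun i hi => by
      rw [sum_const, nsmul_eq_mul, mul_one]
      obtain ⟨c, hc, hcj⟩ := hst i hi
      refine le_trans ?_ (h2 i (hg.clI (hF hi)) c hc)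
      refine Nat.cast_le.2 (card_le_card fun j hj => mem_filter.2 ?_)
      obtain ⟨hj1, hj2⟩ := mem_cls.1 hj
      exact ⟨hg.clI (hF hj1), hrl i hi j hj1, hj2, hcj j hj1⟩)
  rw [sum_const, nsmul_eq_mul, mul_one] at c1
  have c2 : ((F.image (cw n)).card : ℝ) ≤ W.B'.d n ^ (-(ε / 2)) := by
    refine le_trans ?_ (h1 i₀ (hg.clI (hF hi₀)))
    refine Nat.cast_le.2 (card_le_card (image_subset_image fun j hj => mem_filter.2 ?_))
    refine ⟨hg.clI (hF hj), ?_⟩
    have h3 := h.near0 hg (hF hi₀) (hF hj) W.kz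
    simpa using h3
  calc (F.card : ℝ) ≤ N n * W.B'.d n ^ (γ * τ - ε / 2) * (F.image (cw n)).card := c1
    _ ≤ N n * W.B'.d n ^ (γ * τ - ε / 2) * W.B'.d n ^ (-(ε / 2)) :=
        mul_le_mul_of_nonneg_left c2 (mul_pos hN (hp _)).le
    _ = _ := by
        rw [mul_assoc, ← rp_add]; congr 2; ring

/-- **comparison of a function `f` of the height label with the slot `t` of the real lines**:
`f (zc j) - f (zc i)` = normalised slot `t` of `j` seen from `i`, plus a multiple of the height -/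
def HCmp (W : Wnd m ι) (rl : ∀ n, ι n → ℕ) (t : Fin m) (Sl : Set ℝ) (f : ℕ → ℕ → ℝ) (x : ℝ) :
    Prop :=
  ∀ ε : ℝ, 0 < ε → ∀ᶠ n in (U : Filter ℕ), ∀ i ∈ W.Cl n, ∃ c ∈ Sl, ∀ j ∈ W.Cl n,
    rl n j = rl n i → |(f n (W.zc n j) - f n (W.zc n i)) - W.crd n i j t -
      c * W.crd n i j W.kz| ≤ W.B'.d n ^ (x - ε)

/-- heights: labels against real heights -/
theorem z_cmp {W : Wnd m ι} (h : W.Ok) {n : ℕ} (hg : W.Good n) {i j : ι n} (hi : i ∈ W.Cl n)
    (hj : j ∈ W.Cl n) :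
    |(W.crd n (W.s₀ n) (W.zrep n (W.zc n j)) W.kz - W.crd n (W.s₀ n) (W.zrep n (W.zc n i)) W.kz) -
      W.crd n i j W.kz| ≤ 3 * (W.K0 / W.kap W.kz) * W.B'.d n ^ W.top W.kz := by
  have hk := h.kap W.kz
  have hX := rp_pos W.B n (W.X n W.kz)
  have hden : 0 < W.kap W.kz * W.B.d n ^ W.X n W.kz := mul_pos hk hX
  obtain ⟨ri1, ri2⟩ := W.zrep_spec hi
  obtain ⟨rj1, rj2⟩ := W.zrep_spec hj
  set a := W.zrep n (W.zc n i) with ha
  set b := W.zrep n (W.zc n j) with hb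
  have bi := h.near_zc hg hi ri1 ri2.symm W.kz
  have bj := h.near_zc hg rj1 hj rj2 W.kz
  rw [cut_of_mem h.kzS] at bi bj
  have a1 := h.add_kz (hg.clI hg.s0) (hg.clI hi) (hg.clI ri1)
  have a2 := h.add_kz (hg.clI hg.s0) (hg.clI rj1) (hg.clI hj)
  have a3 := h.add_kz (hg.clI hg.s0) (hg.clI hi) (hg.clI hj)
  have e1 : (W.crd n (W.s₀ n) b W.kz - W.crd n (W.s₀ n) a W.kz) - W.crd n i j W.kz =
      (-(W.co n b j W.kz) - W.co n i a W.kz) / (W.kap W.kz * W.B.d n ^ W.X n W.kz) := by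
    unfold Wnd.crd
    rw [← sub_div, ← sub_div]
    congr 1
    linarith
  rw [e1, abs_div, abs_of_pos hden, div_le_iff₀ hden]
  have hK0 : 0 ≤ W.K0 := zero_le_one.trans h.K0_one
  have h3 : |-(W.co n b j W.kz) - W.co n i a W.kz| ≤
      2 * (W.K0 * (W.B.d n ^ W.X n W.kz * W.B'.d n ^ W.top W.kz)) := by
    have := abs_sub (-(W.co n b j W.kz)) (W.co n i a W.kz)
    rw [abs_neg] at this
    linarith
  refine h3.trans ?_
  have e2 : 3 * (W.K0 / W.kap W.kz) * W.B'.d n ^ W.top W.kz *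
      (W.kap W.kz * W.B.d n ^ W.X n W.kz) =
      3 * (W.K0 * (W.B.d n ^ W.X n W.kz * W.B'.d n ^ W.top W.kz)) := by
    field_simp
  rw [e2]
  have : 0 ≤ W.K0 * (W.B.d n ^ W.X n W.kz * W.B'.d n ^ W.top W.kz) :=
    mul_nonneg hK0 (mul_nonneg hX.le (rp_pos _ _ _).le)
  linarith

section Shares

variable {W : Wnd m ι} {κ : Type*} [DecidableEq κ] {rl : ∀ n, ι n → ℕ} {cw : ∀ n, ι n → κ}
  {t : Fin m} {N : ℕ → ℝ} {x γ : ℝ} {E' : ∀ n, Finset (ι n)} {g : ℕ → ℝ}
  {ex : ℕ → ∀ n, ι n → ℕ} {j₀ : ℕ}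

/-- shares of strips, general form -/
theorem WStrip.share {Sl : Set ℝ} (h : W.Ok) (H : WStrip W rl cw t Sl N x γ)
    (hP : Wnd.Pruned W W.Cl E' g ex)
    (hex : ∀ᶠ n in (U : Filter ℕ), ∀ i ∈ W.Cl n, ∀ j ∈ W.Cl n,
      ex j₀ n j = ex j₀ n i → rl n j = rl n i)
    (hTN : ∀ n, 0 < W.T n / N n)
    (hnum : ∀ ε : ℝ, 0 < ε → ∀ᶠ n in (U : Filter ℕ),
      (((W.Cl n).image (ex j₀ n)).card : ℝ) ≤ W.T n / N n * W.B'.d n ^ (-ε))
    {τ : ℝ} (hτ : 0 < τ) (hτx : τ ≤ x) (K : ℝ) {ε : ℝ} (hε : 0 < ε) :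
    ∀ᶠ n in (U : Filter ℕ), ∀ T ⊆ (E' n).image (W.zc n),
      (∀ i ∈ E' n, W.zc n i ∈ T → ∃ c ∈ Sl, ∀ j ∈ E' n, W.zc n j ∈ T → rl n j = rl n i →
        |W.co n i j t - c * W.co n i j W.kz| ≤ K * (W.B.d n ^ W.X n t * W.B'.d n ^ τ)) →
      (T.card : ℝ) ≤ W.B'.d n ^ (γ * τ - ε) * (((E' n).image (W.zc n)).card : ℝ) := by
  filter_upwards [zshare h hP hTN hnum (γ * τ - ε / 2) (ε := ε / 2) (by positivity),
    H.line h hτ hτx K (ε := ε / 2) (by positivity), hex] with n h1 h2 h3 T hT hst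
  have e1 : γ * τ - ε / 2 - ε / 2 = γ * τ - ε := by ring
  rw [← e1]
  refine h1 T hT fun i hi => ?_
  have hN := H.N0 n
  have hTn := h.cls.T0 n
  have e2 : W.T n / (W.T n / N n) = N n := by field_simp
  rw [e2]
  have hCl : ∀ {y}, y ∈ E' n → y ∈ W.Cl n := fun hy => hP.sub n hy
  refine h2 _ (fun y hy => hCl (mem_filter.1 hy).1) (fun y hy y' hy' => ?_) (fun y hy => ?_)
  · obtain ⟨a1, a2, a3⟩ := mem_filter.1 hy
    obtain ⟨b1, b2, b3⟩ := mem_filter.1 hy'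
    exact h3 y (hCl a1) y' (hCl b1) (b2.trans a2.symm)
  · obtain ⟨a1, a2, a3⟩ := mem_filter.1 hy
    obtain ⟨c, hc, hcj⟩ := hst y a1 a3
    refine ⟨c, hc, fun y' hy' => ?_⟩
    obtain ⟨b1, b2, b3⟩ := mem_filter.1 hy'
    exact hcj y' b1 b3 (h3 y (hCl a1) y' (hCl b1) (b2.trans a2.symm))

/-- a slightly smaller width exponent -/
theorem exists_width {γ τ ε : ℝ} (hγ : 0 ≤ γ) (hτ : 0 < τ) (hε : 0 < ε) :
    ∃ τ', 0 < τ' ∧ τ' < τ ∧ γ * τ - ε ≤ γ * τ' := by
  refine ⟨max (τ / 2) (τ - ε / (γ + 1)), lt_of_lt_of_le (by linarith) (le_max_left _ _),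
    max_lt (by linarith) (by have : 0 < ε / (γ + 1) := by positivity
                             linarith), ?_⟩
  have e1 : τ - ε / (γ + 1) ≤ max (τ / 2) (τ - ε / (γ + 1)) := le_max_right _ _
  have e2 : γ * (ε / (γ + 1)) ≤ ε := by
    rw [← mul_div_assoc, div_le_iff₀ (by linarith)]
    nlinarith
  have e3 := mul_le_mul_of_nonneg_left e1 hγ
  linarith

/-- **strips of width `d'^τ` and bounded slope**: their share in the heights -/
theorem WStrip.share_f {Sl : Set ℝ} (h : W.Ok) (H : WStrip W rl cw t Sl N x γ)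
    (hP : Wnd.Pruned W W.Cl E' g ex)
    (hex : ∀ᶠ n in (U : Filter ℕ), ∀ i ∈ W.Cl n, ∀ j ∈ W.Cl n,
      ex j₀ n j = ex j₀ n i → rl n j = rl n i)
    (hTN : ∀ n, 0 < W.T n / N n)
    (hnum : ∀ ε : ℝ, 0 < ε → ∀ᶠ n in (U : Filter ℕ),
      (((W.Cl n).image (ex j₀ n)).card : ℝ) ≤ W.T n / N n * W.B'.d n ^ (-ε)) (hγ : 0 ≤ γ)
    {f : ℕ → ℕ → ℝ} (hf : HCmp W rl t Sl f x) {τ : ℝ} (hτ : 0 < τ) (hτx : τ ≤ x) {ε : ℝ}
    (hε : 0 < ε) :
    ∀ᶠ n in (U : Filter ℕ), ∀ a μ : ℝ,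
      (∀ c ∈ Sl, (μ - c) * (W.kap t * W.B.d n ^ W.X n t) / (W.kap W.kz * W.B.d n ^ W.X n W.kz) ∈ Sl) →
      |μ| * W.B'.d n ^ W.top W.kz ≤ W.B'.d n ^ τ →
      ∀ T ⊆ (E' n).image (W.zc n),
      (∀ k ∈ T, |f n k - a - μ * W.crd n (W.s₀ n) (W.zrep n k) W.kz| ≤ W.B'.d n ^ τ) →
      (T.card : ℝ) ≤ W.B'.d n ^ (γ * τ - ε) * (((E' n).image (W.zc n)).card : ℝ) := by
  obtain ⟨τ', h0, h1, h2⟩ := exists_width hγ hτ (ε := ε / 2) (by positivity)
  set K1 : ℝ := 3 * (W.K0 / W.kap W.kz) with hK1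
  have hK1p : 0 ≤ K1 := by
    have := h.kap W.kz
    have := zero_le_one.trans h.K0_one
    positivity
  filter_upwards [H.share h hP hex hTN hnum h0 (h1.le.trans hτx) ((3 + K1) * W.kap t) (ε := ε / 2)
    (by positivity), hf (τ - τ') (by linarith), h.ev_good] with n g1 g2 hg a μ hμ hμb T hT hst
  have hp := fun s => rp_pos W.B' n s
  refine (g1 T hT fun i hi hiT => ?_).trans
    (mul_le_mul_of_nonneg_right (rp_anti _ _ (by linarith)) (Nat.cast_nonneg _))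
  obtain ⟨c, hc, hcj⟩ := g2 i (hP.sub n hi)
  have hk := h.kap W.kz
  have hkt := h.kap t
  have hXz := rp_pos W.B n (W.X n W.kz)
  have hXt := rp_pos W.B n (W.X n t)
  refine ⟨_, hμ c hc, fun j hj hjT hrl => ?_⟩
  have a1 := hcj j (hP.sub n hj) hrl
  have a2 := hst _ hiT
  have a3 := hst _ hjT
  have a4 := z_cmp h hg (hP.sub n hi) (hP.sub n hj)
  set zi := W.crd n (W.s₀ n) (W.zrep n (W.zc n i)) W.kz with hzi
  set zj := W.crd n (W.s₀ n) (W.zrep n (W.zc n j)) W.kz with hzj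
  set u := W.crd n i j W.kz with hu
  set v := W.crd n i j t with hv
  have e1 : W.B'.d n ^ (x - (τ - τ')) ≤ W.B'.d n ^ τ' := rp_anti _ _ (by linarith)
  have e2 : W.B'.d n ^ τ ≤ W.B'.d n ^ τ' := rp_anti _ _ h1.le
  have e3 : |μ| * (K1 * W.B'.d n ^ W.top W.kz) ≤ K1 * W.B'.d n ^ τ' := by
    calc |μ| * (K1 * W.B'.d n ^ W.top W.kz) = K1 * (|μ| * W.B'.d n ^ W.top W.kz) := by ring
      _ ≤ K1 * W.B'.d n ^ τ := mul_le_mul_of_nonneg_left hμb hK1p
      _ ≤ _ := mul_le_mul_of_nonneg_left e2 hK1p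
  have key : |v - (μ - c) * u| ≤ (3 + K1) * W.B'.d n ^ τ' := by
    have e4 : v - (μ - c) * u = -((f n (W.zc n j) - f n (W.zc n i)) - v - c * u) +
        ((f n (W.zc n j) - a - μ * zj) - (f n (W.zc n i) - a - μ * zi)) +
        μ * ((zj - zi) - u) := by ring
    rw [e4]
    have b1 := abs_add_le (-((f n (W.zc n j) - f n (W.zc n i)) - v - c * u) +
        ((f n (W.zc n j) - a - μ * zj) - (f n (W.zc n i) - a - μ * zi))) (μ * ((zj - zi) - u))
    have b2 := abs_add_le (-((f n (W.zc n j) - f n (W.zc n i)) - v - c * u))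
        ((f n (W.zc n j) - a - μ * zj) - (f n (W.zc n i) - a - μ * zi))
    have b3 := abs_sub (f n (W.zc n j) - a - μ * zj) (f n (W.zc n i) - a - μ * zi)
    rw [abs_neg] at b2
    have b4 : |μ * ((zj - zi) - u)| ≤ |μ| * (K1 * W.B'.d n ^ W.top W.kz) := by
      rw [abs_mul]
      exact mul_le_mul_of_nonneg_left a4 (abs_nonneg _)
    linarith
  have e5 : W.co n i j t - (μ - c) * (W.kap t * W.B.d n ^ W.X n t) /
      (W.kap W.kz * W.B.d n ^ W.X n W.kz) * W.co n i j W.kz =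
      (v - (μ - c) * u) * (W.kap t * W.B.d n ^ W.X n t) := by
    rw [hv, hu]
    unfold Wnd.crd
    field_simp
  rw [e5, abs_mul, abs_of_pos (mul_pos hkt hXt)]
  calc |v - (μ - c) * u| * (W.kap t * W.B.d n ^ W.X n t)
      ≤ ((3 + K1) * W.B'.d n ^ τ') * (W.kap t * W.B.d n ^ W.X n t) :=
        mul_le_mul_of_nonneg_right key (mul_pos hkt hXt).le
    _ = _ := by ring

/-- **slope zero**: share of the heights with `|f - a| ≤ d'^τ` -/
theorem WStrip.zero (h : W.Ok) (H : WStrip W rl cw t {0} N x γ)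
    (hP : Wnd.Pruned W W.Cl E' g ex)
    (hex : ∀ᶠ n in (U : Filter ℕ), ∀ i ∈ W.Cl n, ∀ j ∈ W.Cl n,
      ex j₀ n j = ex j₀ n i → rl n j = rl n i)
    (hTN : ∀ n, 0 < W.T n / N n)
    (hnum : ∀ ε : ℝ, 0 < ε → ∀ᶠ n in (U : Filter ℕ),
      (((W.Cl n).image (ex j₀ n)).card : ℝ) ≤ W.T n / N n * W.B'.d n ^ (-ε)) (hγ : 0 ≤ γ)
    {f : ℕ → ℕ → ℝ} (hf : HCmp W rl t {0} f x) {τ : ℝ} (hτ : 0 < τ) (hτx : τ ≤ x) {ε : ℝ}
    (hε : 0 < ε) :
    ∀ᶠ n in (U : Filter ℕ), ∀ a : ℝ, ∀ T ⊆ (E' n).image (W.zc n),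
      (∀ k ∈ T, |f n k - a| ≤ W.B'.d n ^ τ) →
      (T.card : ℝ) ≤ W.B'.d n ^ (γ * τ - ε) * (((E' n).image (W.zc n)).card : ℝ) := by
  filter_upwards [H.share_f h hP hex hTN hnum hγ hf hτ hτx hε] with n hn a T hT hst
  refine hn a 0 (fun c hc => ?_) ?_ T hT fun k hk => ?_
  · rw [Set.mem_singleton_iff.1 hc]; simp
  · rw [abs_zero, zero_mul]; exact (rp_pos _ _ _).le
  · rw [zero_mul, sub_zero]; exact hst k hk

/-- **all slopes**: share of the strips of the curve `(z, f)` -/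
theorem WStrip.all (h : W.Ok) (H : WStrip W rl cw t Set.univ N x γ)
    (hP : Wnd.Pruned W W.Cl E' g ex)
    (hex : ∀ᶠ n in (U : Filter ℕ), ∀ i ∈ W.Cl n, ∀ j ∈ W.Cl n,
      ex j₀ n j = ex j₀ n i → rl n j = rl n i)
    (hTN : ∀ n, 0 < W.T n / N n)
    (hnum : ∀ ε : ℝ, 0 < ε → ∀ᶠ n in (U : Filter ℕ),
      (((W.Cl n).image (ex j₀ n)).card : ℝ) ≤ W.T n / N n * W.B'.d n ^ (-ε)) (hγ : 0 ≤ γ)
    {σ Rr : ℝ} {Leg : Set (Fin m → ℝ)} {ν : (Fin m → ℝ) → ℝ} {Dc : ℝ}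
    (hmod : RModel W.B' (W.cfg E') σ Rr Leg ν Dc)
    (hcfg : ∀ᶠ n in (U : Filter ℕ), W.cfg E' n = W.cfg0 n (E' n))
    (hxR : x ≤ Rr) (hx2 : 2 * x ≤ W.top W.kz)
    {f : ℕ → ℕ → ℝ} (hf : HCmp W rl t Set.univ f x)
    (hfb : ∀ ε : ℝ, 0 < ε → ∀ᶠ n in (U : Filter ℕ), ∀ k ∈ (W.cfg E' n).Z,
      ∀ k' ∈ (W.cfg E' n).Z, |f n k - f n k'| ≤ W.B'.d n ^ (-ε))
    {τ : ℝ} (hτ : 0 < τ) (hτx : τ ≤ x) {ε : ℝ} (hε : 0 < ε) :
    ∀ᶠ n in (U : Filter ℕ), ∀ a μ : ℝ, ∀ T ⊆ (W.cfg E' n).Z,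
      (∀ k ∈ T, |f n k - a - μ * (W.cfg E' n).z k| ≤ W.B'.d n ^ τ) →
      (T.card : ℝ) ≤ W.B'.d n ^ (min γ σ * τ - ε) * ((W.cfg E' n).Z.card : ℝ) := by
  obtain ⟨τ', h0, h1, h2⟩ := exists_width hmod.σ_nonneg hτ (ε := ε / 2) (by positivity)
  filter_upwards [H.share_f h hP hex hTN hnum hγ hf hτ hτx hε,
    hmod.frost τ' h0.le (by linarith) (ε / 2) (by positivity), hcfg,
    hfb ((τ - τ') / 2) (by linarith), ev_const_le W.B' (c := 3) (by norm_num)
      (ε := (τ - τ') / 2) (by linarith)] with n g1 g2 g3 g4 g5 a μ T hT hst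
  have hp := fun s => rp_pos W.B' n s
  by_cases hμ : |μ| * W.B'.d n ^ W.top W.kz ≤ W.B'.d n ^ τ
  · rw [g3] at hT hst ⊢
    refine (g1 a μ (fun _ _ => Set.mem_univ _) hμ T hT hst).trans ?_
    refine mul_le_mul_of_nonneg_right (rp_anti _ _ ?_) (Nat.cast_nonneg _)
    have := min_le_left γ σ
    nlinarith
  · push Not at hμ
    rcases T.eq_empty_or_nonempty with hT0 | ⟨k₁, hk₁⟩
    · rw [hT0, card_empty, Nat.cast_zero]
      exact mul_nonneg (hp _).le (Nat.cast_nonneg _)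
    have hsub : T ⊆ (W.cfg E' n).hbox τ' k₁ := by
      intro k hk
      unfold RCfg.hbox
      rw [mem_filter]
      refine ⟨hT hk, ?_⟩
      rw [hmod.base n]
      have a1 := hst k hk
      have a2 := hst k₁ hk₁
      have a3 := g4 k (hT hk) k₁ (hT hk₁)
      set z := (W.cfg E' n).z with hz
      have a4 : |μ| * |z k - z k₁| ≤ 3 * W.B'.d n ^ (-((τ - τ') / 2)) := by
        rw [← abs_mul]
        have e1 : μ * (z k - z k₁) = (f n k - f n k₁) -
            ((f n k - a - μ * z k) - (f n k₁ - a - μ * z k₁)) := by ring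
        rw [e1]
        have b1 := abs_sub (f n k - f n k₁)
          ((f n k - a - μ * z k) - (f n k₁ - a - μ * z k₁))
        have b2 := abs_sub (f n k - a - μ * z k) (f n k₁ - a - μ * z k₁)
        have b3 : W.B'.d n ^ τ ≤ W.B'.d n ^ (-((τ - τ') / 2)) := rp_anti _ _ (by linarith)
        linarith
      have a5 : W.B'.d n ^ τ * |z k - z k₁| ≤
          W.B'.d n ^ W.top W.kz * (W.B'.d n ^ (-((τ - τ') / 2)) *
            W.B'.d n ^ (-((τ - τ') / 2))) := by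
        calc W.B'.d n ^ τ * |z k - z k₁|
            ≤ (|μ| * W.B'.d n ^ W.top W.kz) * |z k - z k₁| :=
              mul_le_mul_of_nonneg_right hμ.le (abs_nonneg _)
          _ = W.B'.d n ^ W.top W.kz * (|μ| * |z k - z k₁|) := by ring
          _ ≤ W.B'.d n ^ W.top W.kz * (3 * W.B'.d n ^ (-((τ - τ') / 2))) :=
              mul_le_mul_of_nonneg_left a4 (hp _).le
          _ ≤ _ := by
              refine mul_le_mul_of_nonneg_left ?_ (hp _).le
              exact mul_le_mul_of_nonneg_right g5 (hp _).le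
      have a6 : W.B'.d n ^ W.top W.kz * (W.B'.d n ^ (-((τ - τ') / 2)) *
            W.B'.d n ^ (-((τ - τ') / 2))) ≤ W.B'.d n ^ τ * W.B'.d n ^ τ' := by
        rw [← rp_add, ← rp_add, ← rp_add]
        refine rp_anti _ _ ?_
        linarith
      exact le_of_mul_le_mul_left (a5.trans a6) (hp _)
    have h3 : (T.card : ℝ) ≤ (((W.cfg E' n).hbox τ' k₁).card : ℝ) := by
      exact_mod_cast card_le_card hsub
    refine (h3.trans (g2 k₁ (hT hk₁))).trans ?_
    refine mul_le_mul_of_nonneg_right (rp_anti _ _ ?_) (Nat.cast_nonneg _)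
    have := min_le_right γ σ
    nlinarith

/-- **strips on a fat line** (slope zero): `φ` = any function of the height which follows the slot
`t` of the real lines inside the fat line -/
theorem WStrip.fat {j₁ j₂ : ℕ} (h : W.Ok) (H : WStrip W rl cw t {0} N x γ)
    (hP : Wnd.Pruned W W.Cl E' g ex)
    (hex1 : ∀ᶠ n in (U : Filter ℕ), ∀ i ∈ W.Cl n, ∀ j ∈ W.Cl n,
      ex j₁ n j = ex j₁ n i → rl n j = rl n i ∧ W.lc n j = W.lc n i)
    (hex2 : ∀ n i, ex j₂ n i = Nat.pair (W.lc n i) (W.zc n i))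
    (hTN : ∀ n, 0 < W.T n / N n)
    (hnum : ∀ ε : ℝ, 0 < ε → ∀ᶠ n in (U : Filter ℕ),
      (((W.Cl n).image (ex j₁ n)).card : ℝ) ≤ W.T n / N n * W.B'.d n ^ (-ε))
    {τ : ℝ} (hτ : 0 < τ) (hτx : τ ≤ x) (K : ℝ) {ε : ℝ} (hε : 0 < ε) :
    ∀ᶠ n in (U : Filter ℕ), ∀ l, ∀ φ : ℕ → ℝ,
      (∀ i ∈ E' n, ∀ j ∈ E' n, W.lc n i = l → W.lc n j = l → rl n j = rl n i →
        |φ (W.zc n j) - φ (W.zc n i) - W.crd n i j t| ≤ K * W.B'.d n ^ τ) →
      ∀ a : ℝ, ∀ T ⊆ (W.cfg0 n (E' n)).hts l, (∀ k ∈ T, |φ k - a| ≤ K * W.B'.d n ^ τ) →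
      (T.card : ℝ) ≤ W.B'.d n ^ (γ * τ - ε) * (((W.cfg0 n (E' n)).hts l).card : ℝ) := by
  filter_upwards [lshare h hP hex1 hex2 hTN hnum (γ * τ - ε / 2) (ε := ε / 2) (by positivity),
    H.line h hτ hτx (3 * K * W.kap t) (ε := ε / 2) (by positivity)] with n h1 h2 l φ hφ a T hT hst
  have e1 : γ * τ - ε / 2 - ε / 2 = γ * τ - ε := by ring
  rw [← e1]
  refine h1 l T hT fun i hi hil => ?_
  have hN := H.N0 n
  have hTn := h.cls.T0 n
  have e2 : W.T n / (W.T n / N n) = N n := by field_simp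
  rw [e2]
  have hCl : ∀ {y}, y ∈ E' n → y ∈ W.Cl n := fun hy => hP.sub n hy
  refine h2 _ (fun y hy => hCl (mem_filter.1 hy).1) (fun y hy y' hy' => ?_) (fun y hy => ?_)
  · obtain ⟨a1, a2, a3, a4⟩ := mem_filter.1 hy
    obtain ⟨b1, b2, b3, b4⟩ := mem_filter.1 hy'
    exact b3.trans a3.symm
  · obtain ⟨a1, a2, a3, a4⟩ := mem_filter.1 hy
    refine ⟨0, Set.mem_singleton _, fun y' hy' => ?_⟩
    obtain ⟨b1, b2, b3, b4⟩ := mem_filter.1 hy'
    have c1 := hφ y a1 y' b1 a2 b2 (b3.trans a3.symm)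
    have c2 := hst _ a4
    have c3 := hst _ b4
    have hX : 0 < W.kap t * W.B.d n ^ W.X n t := mul_pos (h.kap t) (rp_pos _ _ _)
    have c4 : |W.crd n y y' t| ≤ 3 * K * W.B'.d n ^ τ := by
      have e3 : W.crd n y y' t = (φ (W.zc n y') - a) - (φ (W.zc n y) - a) -
          (φ (W.zc n y') - φ (W.zc n y) - W.crd n y y' t) := by ring
      rw [e3]
      have d1 := abs_sub (φ (W.zc n y') - a - (φ (W.zc n y) - a))
        (φ (W.zc n y') - φ (W.zc n y) - W.crd n y y' t)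
      have d2 := abs_sub (φ (W.zc n y') - a) (φ (W.zc n y) - a)
      linarith
    have e4 : W.co n y y' t - 0 * W.co n y y' W.kz =
        W.crd n y y' t * (W.kap t * W.B.d n ^ W.X n t) := by
      unfold Wnd.crd
      rw [zero_mul, sub_zero, div_mul_cancel₀ _ hX.ne']
    rw [e4, abs_mul, abs_of_pos hX]
    calc |W.crd n y y' t| * (W.kap t * W.B.d n ^ W.X n t)
        ≤ (3 * K * W.B'.d n ^ τ) * (W.kap t * W.B.d n ^ W.X n t) :=
          mul_le_mul_of_nonneg_right c4 hX.le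
      _ = _ := by ring

end Shares

end Crest.Agent.R116.Kst593
end

-- ▼ part R116/Kst2_593

/-!
# R116, K side: own strips in a window (helper593), part 2

* `OStrips` : absolute counts of the strips of the real lines, all levels (input, from TwP / STwL2 of
  helper899; inherited by samples).
* `OStrips.slow` : the counts at slowly moving base points.
* `ownP` : label (real line, net point); `exists_swin` : windows with models, number of real lines
  (`N`-many incidences each) and `WStrip` for all tied slots.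
-/

set_option autoImplicit false
set_option linter.unusedSectionVars false
set_option linter.unusedVariables false

open Filter Topology

namespace Crest.Agent.R116.Kst593

open Finset Crest.Agent.R138.Ex926 Crest.Agent.R136.Net191 Crest.Agent.R136.Gf356
open Crest.Agent.R136.Qg926

variable {m : ℕ} {ι : ℕ → Type*} [∀ n, DecidableEq (ι n)]

theorem fsub {α : Type*} {s : Finset α} {p q : α → Prop} [DecidablePred p] [DecidablePred q]
    (h : ∀ y, p y → q y) : s.filter p ⊆ s.filter q := fun y hy =>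
  mem_filter.2 ⟨(mem_filter.1 hy).1, h y (mem_filter.1 hy).2⟩

/-- **own strips, all levels**: slots `t ∈ Ts`, own closeness `d ^ (o0 t + β t v)` at level `v`,
linear modulus `γ t`, slopes in `Sl t` -/
structure OStrips (B : Base) (I : ∀ n, Finset (ι n)) (co : ∀ n, ι n → ι n → Fin m → ℝ)
    (rl : ∀ n, ι n → ℕ) {κ : Type*} [DecidableEq κ] (cell : ∀ n, ℚ → ι n → κ) (kz : Fin m)
    (Ts : Finset (Fin m)) (w0 s : ℝ) (γ o0 β : Fin m → ℝ) (Sl : Fin m → Set ℝ) : Prop where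
  cells : ∀ u : ℚ, 0 ≤ u → u ≤ 1 → ∀ ε : ℝ, 0 < ε → ∀ᶠ n in (U : Filter ℕ), ∀ p ∈ I n,
    ((((I n).filter fun y => |co n p y kz| ≤ B.d n ^ (w0 + (u : ℝ))).image (cell n u)).card : ℝ) ≤
      B.d n ^ (-ε)
  strip : ∀ t ∈ Ts, ∀ u r : ℚ, 0 ≤ u → u < r → r ≤ 1 → ∀ ε : ℝ, 0 < ε → ∀ᶠ n in (U : Filter ℕ),
    ∀ p ∈ I n, ∀ c ∈ Sl t, (((I n).filter fun y => rl n y = rl n p ∧ cell n u y = cell n u p ∧
      |co n p y t - c * co n p y kz| ≤ B.d n ^ (o0 t + β t * (r : ℝ))).card : ℝ) ≤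
      B.d n ^ (γ t * ((r : ℝ) - u) - (1 - s) * (1 - u) - ε)

/-- **own strips at slowly moving base points** -/
theorem OStrips.slow {B : Base} {I : ∀ n, Finset (ι n)} {co : ∀ n, ι n → ι n → Fin m → ℝ}
    {rl : ∀ n, ι n → ℕ} {κ : Type*} [DecidableEq κ] {cell : ∀ n, ℚ → ι n → κ} {kz : Fin m}
    {Ts : Finset (Fin m)} {w0 s : ℝ} {γ o0 β : Fin m → ℝ} {Sl : Fin m → Set ℝ}
    (H : OStrips B I co rl cell kz Ts w0 s γ o0 β Sl) (hγ : ∀ t ∈ Ts, 0 ≤ γ t)
    (hβ : ∀ t ∈ Ts, 0 < β t) (hs0 : 0 ≤ s) (hs1 : s ≤ 1) {x : ℕ → Fin m → ℝ} {h : ℕ → ℝ}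
    (hpos : ∀ l, 0 < h l) {v : ℕ → ℝ} (hxz : ∀ l, x l kz = w0 + v l) (hv0 : ∀ l, 0 < v l)
    (hv1 : ∀ l, v l ≤ 1) {xs : ℝ}
    (hxs : 0 < xs) (hr1 : ∀ t ∈ Ts, ∀ l, v l + h l * (xs / β t) ≤ 1)
    (hxt : ∀ t ∈ Ts, ∀ l, x l t = o0 t + β t * v l) :
    ∃ (uq : ℕ → ℚ) (k : ℕ → ℕ), Tendsto k U atTop ∧ ∀ k' : ℕ → ℕ, Tendsto k' U atTop →
      (∀ᶠ n in (U : Filter ℕ), k' n ≤ k n) → ∀ B' : Base, (∀ n, B'.d n = B.d n ^ h (k' n)) →
      (∀ K ε : ℝ, 0 < ε → ∀ᶠ n in (U : Filter ℕ), ∀ p ∈ I n,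
        ((((I n).filter fun y => |co n p y kz| ≤ K * B.d n ^ x (k' n) kz).image
          (cell n (uq (k' n)))).card : ℝ) ≤ B'.d n ^ (-ε)) ∧
      ∀ t ∈ Ts, ∀ τ : ℝ, 0 < τ → τ ≤ xs → ∀ K ε : ℝ, 0 < ε → ∀ᶠ n in (U : Filter ℕ), ∀ p ∈ I n,
        ∀ c ∈ Sl t, (((I n).filter fun y => rl n y = rl n p ∧
          cell n (uq (k' n)) y = cell n (uq (k' n)) p ∧
          |co n p y t - c * co n p y kz| ≤ K * (B.d n ^ x (k' n) t * B'.d n ^ τ)).card : ℝ) ≤
          B.d n ^ (-((1 - s) * (1 - v (k' n)))) * B'.d n ^ (γ t / β t * τ - ε) := by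
  classical
  set bs : ℝ := ∑ t ∈ Ts, β t + 1 with hbs
  have hbs1 : 1 ≤ bs := by
    have : 0 ≤ ∑ t ∈ Ts, β t := sum_nonneg fun t ht => (hβ t ht).le
    linarith
  have hβbs : ∀ t ∈ Ts, β t ≤ bs := fun t ht => by
    have := single_le_sum (f := β) (fun i hi => (hβ i hi).le) ht
    linarith
  set δ : ℕ → ℝ := fun l => min (min (xs / (bs * ((l : ℝ) + 1))) (1 / ((l : ℝ) + 1)))
    (v l / h l) with hδ
  have hl1 : ∀ l : ℕ, (0 : ℝ) < (l : ℝ) + 1 := fun l => by positivity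
  have hδ0 : ∀ l, 0 < δ l := fun l => by
    have h1 := hv0 l
    have h2 := hpos l
    have h3 := hl1 l
    exact lt_min (lt_min (by positivity) (by positivity)) (div_pos h1 h2)
  have hδ1 : ∀ l, δ l ≤ 1 / ((l : ℝ) + 1) := fun l => (min_le_left _ _).trans (min_le_right _ _)
  have hδ2 : ∀ l, δ l * h l ≤ v l := fun l => by
    have h1 : δ l ≤ v l / h l := min_le_right _ _
    rwa [le_div_iff₀ (hpos l)] at h1
  have hδ3 : ∀ l, δ l ≤ xs / (bs * ((l : ℝ) + 1)) := fun l =>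
    (min_le_left _ _).trans (min_le_left _ _)
  -- the level of the cells
  have hu : ∀ l, ∃ u : ℚ, v l - δ l * h l < u ∧ (u : ℝ) < v l - δ l * h l / 2 := fun l =>
    exists_rat_btwn (by have := mul_pos (hδ0 l) (hpos l); linarith)
  choose uq hu1 hu2 using hu
  have hu0 : ∀ l, (0 : ℝ) ≤ uq l := fun l => by have := hu1 l; have := hδ2 l; linarith
  have huv : ∀ l, (uq l : ℝ) < v l := fun l => by
    have := hu2 l; have := mul_pos (hδ0 l) (hpos l); linarith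
  set P : ℕ → ℕ → Prop := fun l n =>
    (∀ p ∈ I n, ((((I n).filter fun y => |co n p y kz| ≤ ((l : ℝ) + 1) * B.d n ^ x l kz).image
      (cell n (uq l))).card : ℝ) ≤ B.d n ^ (-(h l * (1 / ((l : ℝ) + 1))))) ∧
    ∀ t ∈ Ts, ∀ i ∈ range (l + 1), ∀ p ∈ I n, ∀ c ∈ Sl t, (((I n).filter fun y =>
      rl n y = rl n p ∧ cell n (uq l) y = cell n (uq l) p ∧
      |co n p y t - c * co n p y kz| ≤
        ((l : ℝ) + 1) * B.d n ^ (x l t + h l * (xs * ((i : ℝ) + 1) / ((l : ℝ) + 1)))).card : ℝ) ≤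
      B.d n ^ (-((1 - s) * (1 - v l)) + h l * (γ t / β t * (xs * ((i : ℝ) + 1) / ((l : ℝ) + 1)) -
        (γ t + 2) * δ l)) with hP
  obtain ⟨k, hk, hk2⟩ := exists_diag P (by
    intro l
    have hhl := hpos l
    have hdh : 0 < δ l * h l := mul_pos (hδ0 l) hhl
    have hll := hl1 l
    refine (Filter.Eventually.and ?_ ?_)
    · filter_upwards [H.cells (uq l) (by exact_mod_cast hu0 l)
        (by have := (huv l).le.trans (hv1 l); exact_mod_cast this) (h l * (1 / ((l : ℝ) + 1)))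
        (by positivity), ev_const_le B hll (ε := δ l * h l / 2) (by positivity)] with n g1 g2 p hp
      refine le_trans ?_ (g1 p hp)
      refine Nat.cast_le.2 (card_le_card (image_subset_image (fsub ?_)))
      intro y hy
      refine hy.trans ?_
      rw [hxz l]
      calc ((l : ℝ) + 1) * B.d n ^ (w0 + v l) ≤ B.d n ^ (-(δ l * h l / 2)) * B.d n ^ (w0 + v l) :=
            mul_le_mul_of_nonneg_right g2 (rp_pos _ _ _).le
        _ = B.d n ^ (w0 + v l - δ l * h l / 2) := by rw [← rp_add]; congr 1; ring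
        _ ≤ _ := rp_anti _ _ (by have := hu2 l; linarith)
    · rw [Filter.eventually_all_finset]
      intro t ht
      rw [Filter.eventually_all_finset]
      intro i hi
      have hil : (i : ℝ) + 1 ≤ (l : ℝ) + 1 := by
        have : i ≤ l := Nat.lt_succ_iff.1 (mem_range.1 hi)
        have : (i : ℝ) ≤ l := by exact_mod_cast this
        linarith
      set τ : ℝ := xs * ((i : ℝ) + 1) / ((l : ℝ) + 1) with hτ
      have hτ1 : xs / ((l : ℝ) + 1) ≤ τ := by
        rw [hτ]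
        refine div_le_div_of_nonneg_right ?_ hll.le
        have : (0 : ℝ) ≤ i := Nat.cast_nonneg i
        nlinarith
      have hτ2 : τ ≤ xs := by
        rw [hτ, div_le_iff₀ hll]
        exact mul_le_mul_of_nonneg_left hil hxs.le
      have hb := hβ t ht
      have hγt := hγ t ht
      have hδτ : δ l ≤ τ / β t := by
        rw [le_div_iff₀ hb]
        have h1 := hδ3 l
        have h2 := hβbs t ht
        have h3 : δ l * β t ≤ δ l * bs := mul_le_mul_of_nonneg_left h2 (hδ0 l).le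
        have h4 : δ l * bs ≤ xs / (bs * ((l : ℝ) + 1)) * bs :=
          mul_le_mul_of_nonneg_right h1 (by linarith)
        have h5 : xs / (bs * ((l : ℝ) + 1)) * bs = xs / ((l : ℝ) + 1) := by
          have : bs ≠ 0 := by linarith
          field_simp
        linarith
      obtain ⟨r, hr1', hr2⟩ : ∃ r : ℚ, v l + h l * (τ / β t) - δ l * h l < r ∧
          (r : ℝ) < v l + h l * (τ / β t) - δ l * h l / 2 := exists_rat_btwn (by linarith)
      have hur : (uq l : ℝ) < r := by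
        have h1 : h l * δ l ≤ h l * (τ / β t) := mul_le_mul_of_nonneg_left hδτ hhl.le
        have := huv l
        linarith
      have hrle : (r : ℝ) ≤ 1 := by
        have h1 := hr1 t ht l
        have h2 : h l * (τ / β t) ≤ h l * (xs / β t) :=
          mul_le_mul_of_nonneg_left (div_le_div_of_nonneg_right hτ2 hb.le) hhl.le
        linarith
      filter_upwards [H.strip t ht (uq l) r (by exact_mod_cast hu0 l) (by exact_mod_cast hur)
        (by exact_mod_cast hrle) (δ l * h l) hdh,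
        ev_const_le B hll (ε := β t * (δ l * h l / 2)) (by positivity)] with n g1 g2 p hp c hc
      refine le_trans ?_ ((g1 p hp c hc).trans (rp_anti _ _ ?_))
      · refine Nat.cast_le.2 (card_le_card (fsub ?_))
        rintro y ⟨y1, y2, y3⟩
        refine ⟨y1, y2, y3.trans ?_⟩
        rw [hxt t ht l]
        calc ((l : ℝ) + 1) * B.d n ^ (o0 t + β t * v l + h l * τ)
            ≤ B.d n ^ (-(β t * (δ l * h l / 2))) * B.d n ^ (o0 t + β t * v l + h l * τ) :=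
              mul_le_mul_of_nonneg_right g2 (rp_pos _ _ _).le
          _ = B.d n ^ (o0 t + β t * v l + h l * τ - β t * (δ l * h l / 2)) := by
              rw [← rp_add]; congr 1; ring
          _ ≤ _ := rp_anti _ _ (by
              have h1 : β t * (r : ℝ) ≤ β t * (v l + h l * (τ / β t) - δ l * h l / 2) :=
                mul_le_mul_of_nonneg_left hr2.le hb.le
              have h2 : β t * (v l + h l * (τ / β t) - δ l * h l / 2) =
                  β t * v l + h l * τ - β t * (δ l * h l / 2) := by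
                field_simp
              linarith)
      · have h1 : h l * (τ / β t) - δ l * h l / 2 ≤ (r : ℝ) - uq l := by
          have := hu2 l
          linarith
        have h2 := mul_le_mul_of_nonneg_left h1 hγt
        have h3 : (1 - s) * (1 - (uq l : ℝ)) ≤ (1 - s) * (1 - v l) + δ l * h l := by
          have h4 := hu1 l
          have h5 : (1 - s) * (v l - uq l) ≤ 1 * (δ l * h l) := by
            refine mul_le_mul (by linarith) (by linarith) (by linarith [huv l]) (by norm_num)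
          linarith
        have h6 : h l * (γ t / β t * τ - (γ t + 2) * δ l) =
            γ t * (h l * (τ / β t)) - (γ t + 2) * (δ l * h l) := by
          field_simp
        have h7 : 0 ≤ γ t * (δ l * h l) := mul_nonneg hγt hdh.le
        rw [h6]
        nlinarith)
  refine ⟨uq, k, hk, fun k' hk' hle B' hB' => ⟨fun K ε hε => ?_, fun t ht τ hτ hτx K ε hε => ?_⟩⟩
  · obtain ⟨N0, hN0⟩ := exists_nat_gt (max K (1 / ε))
    filter_upwards [hk2, hle, hk'.eventually_ge_atTop N0] with n g1 g2 g3 p hp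
    set l := k' n with hl
    have hlN : (N0 : ℝ) ≤ l := by exact_mod_cast g3
    have hK : K ≤ (l : ℝ) + 1 := by have := le_max_left K (1 / ε); linarith
    have hε' : 1 / ((l : ℝ) + 1) ≤ ε := by
      have h1 := le_max_right K (1 / ε)
      rw [div_le_iff₀ (hl1 l)]
      have h2 : 1 / ε < (l : ℝ) + 1 := by linarith
      rw [div_lt_iff₀ hε] at h2
      linarith
    refine le_trans ?_ (((g1 l g2).1 p hp).trans ?_)
    · refine Nat.cast_le.2 (card_le_card (image_subset_image (fsub ?_)))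
      intro y hy
      exact hy.trans (mul_le_mul_of_nonneg_right hK (rp_pos _ _ _).le)
    · rw [hB' n, ← Real.rpow_mul (B.pos n).le]
      refine rp_anti _ _ ?_
      have := hpos l
      nlinarith
  · have hb := hβ t ht
    have hγt := hγ t ht
    obtain ⟨N0, hN0⟩ := exists_nat_gt (max (max K (xs / τ)) ((γ t / β t * xs + (γ t + 2)) / ε))
    filter_upwards [hk2, hle, hk'.eventually_ge_atTop N0] with n g1 g2 g3 p hp c hc
    set l := k' n with hl
    have hll := hl1 l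
    have hlN : (N0 : ℝ) ≤ l := by exact_mod_cast g3
    have m1 : max (max K (xs / τ)) ((γ t / β t * xs + (γ t + 2)) / ε) < (l : ℝ) + 1 := by linarith
    have hK : K ≤ (l : ℝ) + 1 := ((le_max_left _ _).trans (le_max_left _ _)).trans m1.le
    have hτl : xs / τ < (l : ℝ) + 1 := lt_of_le_of_lt ((le_max_right _ _).trans (le_max_left _ _)) m1
    have hεl : (γ t / β t * xs + (γ t + 2)) / ε < (l : ℝ) + 1 :=
      lt_of_le_of_lt (le_max_right _ _) m1
    rw [div_lt_iff₀ hτ] at hτl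
    rw [div_lt_iff₀ hε] at hεl
    -- the grid point below `τ`
    set q : ℝ := τ * ((l : ℝ) + 1) / xs with hq
    have hq1 : 1 ≤ q := by rw [hq, le_div_iff₀ hxs]; linarith
    have hqle : q ≤ (l : ℝ) + 1 := by
      rw [hq, div_le_iff₀ hxs]
      nlinarith
    obtain ⟨i, hi⟩ : ∃ i : ℕ, ⌊q⌋₊ = i + 1 := by
      refine Nat.exists_eq_succ_of_ne_zero ?_
      have : 1 ≤ ⌊q⌋₊ := Nat.le_floor (by simpa using hq1)
      omega
    have hf1 : ((i : ℝ) + 1) ≤ q := by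
      have := Nat.floor_le (zero_le_one.trans hq1)
      rw [hi] at this
      push_cast at this
      exact this
    have hf2 : q < ((i : ℝ) + 1) + 1 := by
      have := Nat.lt_floor_add_one q
      rw [hi] at this
      push_cast at this
      exact this
    have hil : i ∈ range (l + 1) := by
      rw [mem_range]
      have : (i : ℝ) + 1 ≤ (l : ℝ) + 1 := hf1.trans hqle
      have : (i : ℝ) ≤ l := by linarith
      have : i ≤ l := by exact_mod_cast this
      omega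
    set τi : ℝ := xs * ((i : ℝ) + 1) / ((l : ℝ) + 1) with hτi
    have hτi1 : τi ≤ τ := by
      rw [hτi, div_le_iff₀ hll]
      rw [hq, le_div_iff₀ hxs] at hf1
      linarith
    have hτi2 : τ - τi ≤ xs / ((l : ℝ) + 1) := by
      rw [hq, div_lt_iff₀ hxs] at hf2
      have h1 : τ ≤ xs * (((i : ℝ) + 1) + 1) / ((l : ℝ) + 1) := by
        rw [le_div_iff₀ hll]; linarith
      have h2 : xs * (((i : ℝ) + 1) + 1) / ((l : ℝ) + 1) = τi + xs / ((l : ℝ) + 1) := by
        rw [hτi]; ring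
      linarith
    have hdB : ∀ a : ℝ, B'.d n ^ a = B.d n ^ (h l * a) := fun a => by
      rw [hB' n, ← Real.rpow_mul (B.pos n).le]
    refine le_trans ?_ (((g1 l g2).2 t ht i hil p hp c hc).trans ?_)
    · refine Nat.cast_le.2 (card_le_card (fsub ?_))
      rintro y ⟨y1, y2, y3⟩
      refine ⟨y1, y2, y3.trans ?_⟩
      rw [hdB, ← rp_add]
      calc K * B.d n ^ (x l t + h l * τ) ≤ ((l : ℝ) + 1) * B.d n ^ (x l t + h l * τ) :=
            mul_le_mul_of_nonneg_right hK (rp_pos _ _ _).le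
        _ ≤ ((l : ℝ) + 1) * B.d n ^ (x l t + h l * τi) := by
            refine mul_le_mul_of_nonneg_left (rp_anti _ _ ?_) hll.le
            have := mul_le_mul_of_nonneg_left hτi1 (hpos l).le
            linarith
    · rw [hdB, ← rp_add]
      refine rp_anti _ _ ?_
      have h1 : γ t / β t * τ - ε ≤ γ t / β t * τi - (γ t + 2) * δ l := by
        have c1 : 0 ≤ γ t / β t := div_nonneg hγt hb.le
        have c2 : γ t / β t * (τ - τi) ≤ γ t / β t * (xs / ((l : ℝ) + 1)) :=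
          mul_le_mul_of_nonneg_left hτi2 c1
        have c3 : (γ t + 2) * δ l ≤ (γ t + 2) * (1 / ((l : ℝ) + 1)) :=
          mul_le_mul_of_nonneg_left (hδ1 l) (by linarith)
        have c4 : γ t / β t * (xs / ((l : ℝ) + 1)) + (γ t + 2) * (1 / ((l : ℝ) + 1)) ≤ ε := by
          have e1 : γ t / β t * (xs / ((l : ℝ) + 1)) + (γ t + 2) * (1 / ((l : ℝ) + 1)) =
              (γ t / β t * xs + (γ t + 2)) / ((l : ℝ) + 1) := by
            field_simp
          rw [e1, div_le_iff₀ hll]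
          linarith
        linarith
      have := mul_le_mul_of_nonneg_left h1 (hpos l).le
      linarith

/-! ### real lines in a window -/

/-- label (real line, net point) -/
noncomputable def olab (B : Base) (I : ∀ n, Finset (ι n)) (co : ∀ n, ι n → ι n → Fin m → ℝ)
    (M : Mons m) (C : ℝ) (rl : ∀ n, ι n → ℕ) (n : ℕ) (p : Fin m → ℝ) (i : ι n) : ℕ × ι n :=
  (rl n i, nlab B I co M C n p i)

/-- **real lines of a window**: `N n` = number of incidences of a real line in the class; few real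
lines, few pairs (real line, fat line) -/
structure RLines (W : Wnd m ι) (rl : ∀ n, ι n → ℕ) (N : ℕ → ℝ) : Prop where
  N0 : ∀ n, 0 < N n
  lines : ∀ ε : ℝ, 0 < ε → ∀ᶠ n in (U : Filter ℕ),
    (((W.Cl n).image (rl n)).card : ℝ) ≤ W.T n / N n * W.B'.d n ^ (-ε)
  fat : ∀ ε : ℝ, 0 < ε → ∀ᶠ n in (U : Filter ℕ),
    (((W.Cl n).image fun i => Nat.pair (rl n i) (W.lc n i)).card : ℝ) ≤
      W.T n / N n * W.B'.d n ^ (-ε)

section

variable {B B' : Base} {I J : ∀ n, Finset (ι n)} {co : ∀ n, ι n → ι n → Fin m → ℝ}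
  {M : Mons m} {C : ℝ} {X : ℕ → Fin m → ℝ} {w : ℕ → ℝ} {D : Set (Fin m → ℝ)} {T : ℕ → ℝ}
  {lam : (Fin m → ℝ) → ℝ} {rl : ∀ n, ι n → ℕ} {N : ℕ → ℝ}

/-- code of (real line, label at the base point) -/
noncomputable def hx0 (B : Base) (I : ∀ n, Finset (ι n)) (co : ∀ n, ι n → ι n → Fin m → ℝ)
    (M : Mons m) (C : ℝ) (X : ℕ → Fin m → ℝ) (w : ℕ → ℝ) (rl : ∀ n, ι n → ℕ) (n : ℕ) (i : ι n) : ℕ :=
  Nat.pair (rl n i) (enc (I n) (zlab B I co M C X w n 0 i))

/-- code of (real line, label at the base point, label at `c`) -/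
noncomputable def hx1 (B : Base) (I : ∀ n, Finset (ι n)) (co : ∀ n, ι n → ι n → Fin m → ℝ)
    (M : Mons m) (C : ℝ) (X : ℕ → Fin m → ℝ) (w : ℕ → ℝ) (rl : ∀ n, ι n → ℕ) (c : Fin m → ℝ)
    (n : ℕ) (i : ι n) : ℕ :=
  Nat.pair (hx0 B I co M C X w rl n i) (enc (I n) (zlab B I co M C X w n c i))

theorem zlab_mem (h : ZWin B B' I J co M C X w D T lam) {n : ℕ} {c : Fin m → ℝ}
    (hc : Legal M (X n + w n • c)) {i : ι n} (hi : i ∈ I n) : zlab B I co M C X w n c i ∈ I n :=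
  net_sub (Crest.Agent.R136.Net191.lab_mem (h.chart n) hc (B.pos n) (B.lt n).le hi)

/-- same code ⟹ same label at the base point -/
theorem few0 (h : ZWin B B' I J co M C X w D T lam) {κ : Type*} [DecidableEq κ]
    {g : ∀ n, ι n → κ} (hg : ∀ n, ∀ i j, g n i = g n j →
      hx0 B I co M C X w rl n i = hx0 B I co M C X w rl n j) {ε : ℝ} (hε : 0 < ε) :
    ∀ᶠ n in (U : Filter ℕ), ∀ i ∈ J n,
      (((cls (J n) (g n) i).image (zlab B I co M C X w n 0)).card : ℝ) ≤ B'.d n ^ (-ε) := by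
  filter_upwards [h.sub, h.legal 0] with n h1 h2 i hi
  have hleg := h2 0 h.zero (by rw [norm_zero])
  have h3 : ((cls (J n) (g n) i).image (zlab B I co M C X w n 0)).card ≤ 1 := by
    rw [card_le_one]
    intro a ha b hb
    obtain ⟨y, hy, rfl⟩ := mem_image.1 ha
    obtain ⟨y', hy', rfl⟩ := mem_image.1 hb
    obtain ⟨y1, y2⟩ := mem_cls.1 hy
    obtain ⟨z1, z2⟩ := mem_cls.1 hy'
    have h4 := hg n y y' (y2.trans z2.symm)
    exact enc_inj (zlab_mem h hleg (h1 y1)) (zlab_mem h hleg (h1 z1)) (Nat.pair_eq_pair.1 h4).2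
  have h4 : (1 : ℝ) ≤ B'.d n ^ (-ε) :=
    Real.one_le_rpow_of_pos_of_le_one_of_nonpos (B'.pos n) (B'.lt n).le (by linarith)
  exact le_trans (by exact_mod_cast h3) h4

/-- number of codes -/
theorem num0 {Do : Set (Fin m → ℝ)} {lo : (Fin m → ℝ) → ℝ} (hN : ∀ n, 0 < N n)
    (hZ : ZProf B' J (fun n c => olab B I co M C rl n (X n + w n • c)) Do N lo)
    (h0 : (0 : Fin m → ℝ) ∈ Do) (hlo : lo 0 = 0) {ε : ℝ} (hε : 0 < ε) :
    ∀ᶠ n in (U : Filter ℕ), (((J n).image (olab B I co M C rl n (X n + w n • 0))).card : ℝ) ≤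
      (J n).card * (1 / N n) * B'.d n ^ (-ε) := by
  filter_upwards [hZ.root 0 ε hε] with n h1
  have h2 := h1 0 h0 (by rw [norm_zero])
  rw [hlo, zero_sub] at h2
  have h3 := hN n
  have e : ((J n).card : ℝ) * (1 / N n) * B'.d n ^ (-ε) = (J n).card * B'.d n ^ (-ε) / N n := by
    ring
  rw [e, le_div_iff₀ h3]
  exact h2

theorem num_hx0 {Do : Set (Fin m → ℝ)} {lo : (Fin m → ℝ) → ℝ} (hN : ∀ n, 0 < N n)
    (hZ : ZProf B' J (fun n c => olab B I co M C rl n (X n + w n • c)) Do N lo)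
    (h0 : (0 : Fin m → ℝ) ∈ Do) (hlo : lo 0 = 0) {ε : ℝ} (hε : 0 < ε) :
    ∀ᶠ n in (U : Filter ℕ), (((J n).image (hx0 B I co M C X w rl n)).card : ℝ) ≤
      (J n).card * (1 / N n) * B'.d n ^ (-ε) := by
  filter_upwards [num0 hN hZ h0 hlo hε] with n h1
  refine le_trans ?_ h1
  have : (J n).image (hx0 B I co M C X w rl n) =
      ((J n).image (olab B I co M C rl n (X n + w n • 0))).image
        fun q => Nat.pair q.1 (enc (I n) q.2) := by
    rw [image_image]; rfl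
  rw [this]
  exact_mod_cast card_image_le

theorem num_hx1 {Do : Set (Fin m → ℝ)} {lo : (Fin m → ℝ) → ℝ} (hN : ∀ n, 0 < N n)
    (hZ : ZProf B' J (fun n c => olab B I co M C rl n (X n + w n • c)) Do N lo)
    (h0 : (0 : Fin m → ℝ) ∈ Do) (hlo : lo 0 = 0) {c : Fin m → ℝ} (hc : c ∈ Do) (hc0 : 0 ≤ c)
    (hloc : lo c = 0) {ε : ℝ} (hε : 0 < ε) :
    ∀ᶠ n in (U : Filter ℕ), (((J n).image (hx1 B I co M C X w rl c n)).card : ℝ) ≤
      (J n).card * (1 / N n) * B'.d n ^ (-ε) := by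
  filter_upwards [num0 hN hZ h0 hlo (ε := ε / 2) (by positivity),
    hZ.num ‖c‖ (ε / 2) (by positivity)] with n h1 h2
  have hp := fun s => rp_pos B' n s
  have h3 : (((J n).image (hx1 B I co M C X w rl c n)).card : ℝ) ≤
      B'.d n ^ (-(ε / 2)) * ((J n).image (olab B I co M C rl n (X n + w n • 0))).card := by
    refine card_image_le_mul _ _ _ fun x hx => ?_
    have h4 := h2 0 h0 (by rw [norm_zero]; exact norm_nonneg _) c hc le_rfl hc0 x hx
    rw [hlo, hloc] at h4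
    refine le_trans ?_ (h4.trans (le_of_eq (by congr 1; ring)))
    have e1 : (cls (J n) (olab B I co M C rl n (X n + w n • 0)) x).image
        (hx1 B I co M C X w rl c n) =
        ((cls (J n) (olab B I co M C rl n (X n + w n • 0)) x).image
          (olab B I co M C rl n (X n + w n • c))).image
          fun q => Nat.pair (hx0 B I co M C X w rl n x) (enc (I n) q.2) := by
      rw [image_image]
      refine image_congr fun y hy => ?_
      have h5 := (mem_cls.1 (Finset.mem_coe.1 hy)).2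
      have h6 : hx0 B I co M C X w rl n y = hx0 B I co M C X w rl n x := by
        have a1 : rl n y = rl n x := congrArg Prod.fst h5
        have a2 : nlab B I co M C n (X n + w n • 0) y = nlab B I co M C n (X n + w n • 0) x :=
          congrArg Prod.snd h5
        unfold hx0 zlab
        rw [a1, a2]
      simp only [hx1, Function.comp, h6]
      rfl
    rw [e1]
    exact_mod_cast card_image_le
  calc (((J n).image (hx1 B I co M C X w rl c n)).card : ℝ)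
      ≤ B'.d n ^ (-(ε / 2)) * ((J n).image (olab B I co M C rl n (X n + w n • 0))).card := h3
    _ ≤ B'.d n ^ (-(ε / 2)) * ((J n).card * (1 / N n) * B'.d n ^ (-(ε / 2))) :=
        mul_le_mul_of_nonneg_left h1 (hp _).le
    _ = (J n).card * (1 / N n) * (B'.d n ^ (-(ε / 2)) * B'.d n ^ (-(ε / 2))) := by ring
    _ = (J n).card * (1 / N n) * B'.d n ^ (-ε) := by rw [← rp_add]; congr 2; ring

variable {Cl : ∀ n, Finset (ι n)} {s₀ : ∀ n, ι n} {st : WSt m}

/-- **windows with real lines**; `hx`, `a` = further extra partitions of the user -/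
theorem exists_rlines (h : ZWin B B' I J co M C X w D T lam) (hst : st.Ok M D)
    (i₀ : ∀ n, ι n) {Gd E : ∀ n, Finset (ι n)}
    (hGd : ∀ᶠ n in (U : Filter ℕ), Gd n ⊆ J n) (hE : ∀ᶠ n in (U : Filter ℕ), E n ⊆ Gd n)
    {Sd : ℕ → ℝ} (hS : B'.Sub Sd)
    (hd : ∀ᶠ n in (U : Filter ℕ), ((J n).card : ℝ) ≤ Sd n * (E n).card)
    {Do : Set (Fin m → ℝ)} {lo : (Fin m → ℝ) → ℝ} (hN : ∀ n, 0 < N n)
    (hZ : ZProf B' J (fun n c => olab B I co M C rl n (X n + w n • c)) Do N lo)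
    (h0 : (0 : Fin m → ℝ) ∈ Do) (hlo : lo 0 = 0) (hc : cut st.S st.top 0 ∈ Do)
    (hloc : lo (cut st.S st.top 0) = 0)
    (hx : ℕ → ∀ n, ι n → ℕ) (a : ℕ → ℕ → ℝ) (ha : ∀ j n, 0 < a j n)
    (hfew : ∀ j, ∀ ε : ℝ, 0 < ε → ∀ᶠ n in (U : Filter ℕ), ∀ i ∈ J n,
      (((cls (J n) (hx j n) i).image (zlab B I co M C X w n 0)).card : ℝ) ≤ B'.d n ^ (-ε))
    (hnum : ∀ j, ∀ ε : ℝ, 0 < ε → ∀ᶠ n in (U : Filter ℕ),
      (((J n).image (hx j n)).card : ℝ) ≤ (J n).card * a j n * B'.d n ^ (-ε)) :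
    ∃ s₀ : ∀ n, ι n, (∀ᶠ n in (U : Filter ℕ), s₀ n ∈ E n) ∧
      (st.wnd B B' I J co M C X w D T lam
        (fun n => cls (Gd n) (zlab B I co M C X w n 0) (s₀ n)) s₀).Ok ∧
      RLines (st.wnd B B' I J co M C X w D T lam
        (fun n => cls (Gd n) (zlab B I co M C X w n 0) (s₀ n)) s₀) rl N ∧
      ∀ j, ∀ ε : ℝ, 0 < ε → ∀ᶠ n in (U : Filter ℕ),
        (((cls (Gd n) (zlab B I co M C X w n 0) (s₀ n)).image (hx j n)).card : ℝ) ≤
          T n * a j n * B'.d n ^ (-ε) := by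
  set hxx : ℕ → ∀ n, ι n → ℕ := fun j => match j with
    | 0 => hx0 B I co M C X w rl
    | 1 => hx1 B I co M C X w rl (cut st.S st.top 0)
    | (j + 2) => hx j with hhxx
  set aa : ℕ → ℕ → ℝ := fun j => match j with
    | 0 => fun n => 1 / N n
    | 1 => fun n => 1 / N n
    | (j + 2) => a j with haa
  have hc0 : (0 : Fin m → ℝ) ≤ cut st.S st.top 0 := fun s => hst.lin_leg.1.nonneg s
  have ha' : ∀ j n, 0 < aa j n := by
    intro j n
    rcases j with _ | _ | j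
    · exact one_div_pos.2 (hN n)
    · exact one_div_pos.2 (hN n)
    · exact ha j n
  have hfew' : ∀ j, ∀ ε : ℝ, 0 < ε → ∀ᶠ n in (U : Filter ℕ), ∀ i ∈ J n,
      (((cls (J n) (hxx j n) i).image (zlab B I co M C X w n 0)).card : ℝ) ≤ B'.d n ^ (-ε) := by
    intro j ε hε
    rcases j with _ | _ | j
    · exact few0 h (rl := rl) (g := hx0 B I co M C X w rl) (fun n i j hij => hij) hε
    · exact few0 h (rl := rl) (g := hx1 B I co M C X w rl (cut st.S st.top 0))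
        (fun n i j hij => (Nat.pair_eq_pair.1 hij).1) hε
    · exact hfew j ε hε
  have hnum' : ∀ j, ∀ ε : ℝ, 0 < ε → ∀ᶠ n in (U : Filter ℕ),
      (((J n).image (hxx j n)).card : ℝ) ≤ (J n).card * aa j n * B'.d n ^ (-ε) := by
    intro j ε hε
    rcases j with _ | _ | j
    · exact num_hx0 hN hZ h0 hlo hε
    · exact num_hx1 hN hZ h0 hlo hc hc0 hloc hε
    · exact hnum j ε hε
  obtain ⟨s₀, g1, g2, g3⟩ := h.exists_zcls_ex i₀ hGd hE hS hd hxx aa ha' hfew' hnum'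
  refine ⟨s₀, g1, hst.wnd_ok g2, ⟨hN, fun ε hε => ?_, fun ε hε => ?_⟩, fun j => g3 (j + 2)⟩
  · filter_upwards [g3 0 ε hε] with n hn
    have e1 : ((st.wnd B B' I J co M C X w D T lam
        (fun n => cls (Gd n) (zlab B I co M C X w n 0) (s₀ n)) s₀).Cl n).image (rl n) =
        ((cls (Gd n) (zlab B I co M C X w n 0) (s₀ n)).image (hxx 0 n)).image
          fun q => (Nat.unpair q).1 := by
      rw [image_image]
      refine image_congr fun y _ => ?_
      show rl n y = (Nat.unpair (hx0 B I co M C X w rl n y)).1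
      unfold hx0
      rw [Nat.unpair_pair]
    rw [e1]
    refine le_trans (by exact_mod_cast card_image_le) (hn.trans (le_of_eq ?_))
    show T n * (1 / N n) * B'.d n ^ (-ε) = T n / N n * B'.d n ^ (-ε)
    ring
  · filter_upwards [g3 1 ε hε] with n hn
    have e1 : (((st.wnd B B' I J co M C X w D T lam
        (fun n => cls (Gd n) (zlab B I co M C X w n 0) (s₀ n)) s₀).Cl n).image fun i =>
          Nat.pair (rl n i) ((st.wnd B B' I J co M C X w D T lam
        (fun n => cls (Gd n) (zlab B I co M C X w n 0) (s₀ n)) s₀).lc n i)) =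
        ((cls (Gd n) (zlab B I co M C X w n 0) (s₀ n)).image (hxx 1 n)).image
          fun q => Nat.pair (Nat.unpair (Nat.unpair q).1).1 (Nat.unpair q).2 := by
      rw [image_image]
      refine image_congr fun y _ => ?_
      show _ = Nat.pair (Nat.unpair (Nat.unpair (hx1 B I co M C X w rl (cut st.S st.top 0) n y)).1).1
        (Nat.unpair (hx1 B I co M C X w rl (cut st.S st.top 0) n y)).2
      unfold hx1 hx0
      rw [Nat.unpair_pair, Nat.unpair_pair]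
      rfl
    rw [e1]
    refine le_trans (by exact_mod_cast card_image_le) (hn.trans (le_of_eq ?_))
    show T n * (1 / N n) * B'.d n ^ (-ε) = T n / N n * B'.d n ^ (-ε)
    ring

end

/-- **zoom windows with the own profile and the own strips** -/
theorem exists_zwin_own {B : Base} {I J : ∀ n, Finset (ι n)} {co : ∀ n, ι n → ι n → Fin m → ℝ}
    {M : Mons m} {C R : ℝ} {ν : (Fin m → ℝ) → ℝ} (hN : NProf B I J co M C R ν)
    {x : ℕ → Fin m → ℝ} {h : ℕ → ℝ} (hpos : ∀ l, 0 < h l) {D : Set (Fin m → ℝ)}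
    (h0 : (0 : Fin m → ℝ) ∈ D) {lam : (Fin m → ℝ) → ℝ} (htan : IsTan (Leg M R) D ν x h lam)
    {rl : ∀ n, ι n → ℕ} {own : (Fin m → ℝ) → ℝ}
    (hO : QProf B J (olab B I co M C rl) (Leg M R) own) {cS : Fin m → ℝ} (hcS : cS ∈ D)
    (hown : ∀ᶠ l in (atTop : Filter ℕ), own (x l + h l • cS) = own (x l))
    {κ : Type*} [DecidableEq κ] {cell : ∀ n, ℚ → ι n → κ} {kz : Fin m}
    {Ts : Finset (Fin m)} {w0 s : ℝ} {γ o0 β : Fin m → ℝ} {Sl : Fin m → Set ℝ}
    (H : OStrips B I co rl cell kz Ts w0 s γ o0 β Sl) (hγ : ∀ t ∈ Ts, 0 ≤ γ t)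
    (hβ : ∀ t ∈ Ts, 0 < β t) (hs0 : 0 ≤ s) (hs1 : s ≤ 1) {v : ℕ → ℝ}
    (hxz : ∀ l, x l kz = w0 + v l) (hv0 : ∀ l, 0 < v l) (hv1 : ∀ l, v l ≤ 1) {xs : ℝ}
    (hxs : 0 < xs) (hr1 : ∀ t ∈ Ts, ∀ l, v l + h l * (xs / β t) ≤ 1)
    (hxt : ∀ t ∈ Ts, ∀ l, x l t = o0 t + β t * v l)
    (hov : ∀ l, own (x l) = (1 - s) * (1 - v l))
    (sS : ℕ → ℕ → ℝ) (hs : ∀ i, B.Sub (sS i)) :
    ∃ (uq : ℕ → ℚ) (k : ℕ → ℕ), Tendsto k U atTop ∧ ∀ k' : ℕ → ℕ, Tendsto k' U atTop →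
      (∀ᶠ n in (U : Filter ℕ), k' n ≤ k n) → ∃ B' : Base,
        (∀ n, B'.d n = B.d n ^ h (k' n)) ∧ (∀ n, B'.L n = h (k' n) * B.L n) ∧
        (∀ i, B'.Sub (sS i)) ∧
        ZWin B B' I J co M C (fun n => x (k' n)) (fun n => h (k' n)) D
          (fun n => B.d n ^ (-(ν (x (k' n))))) lam ∧
        ZProf B' J (fun n c => olab B I co M C rl n (x (k' n) + h (k' n) • c)) {0, cS}
          (fun n => B.d n ^ (-(own (x (k' n))))) (fun _ => 0) ∧
        ∀ (st : WSt m) (Cl : ∀ n, Finset (ι n)) (s₀ : ∀ n, ι n), st.kz = kz → ∀ t ∈ Ts,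
          WStrip (st.wnd B B' I J co M C (fun n => x (k' n)) (fun n => h (k' n)) D
            (fun n => B.d n ^ (-(ν (x (k' n))))) lam Cl s₀) rl (fun n => cell n (uq (k' n))) t
            (Sl t) (fun n => B.d n ^ (-(own (x (k' n))))) xs (γ t / β t) := by
  have htano : IsTan (Leg M R) ({0, cS} : Set (Fin m → ℝ)) own x h (fun _ => 0) := by
    intro K ε hε
    filter_upwards [htan (max K 0) 1 one_pos, hown] with l h1 h2 c hc hcK
    have hcD : c ∈ D := by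
      rcases hc with rfl | hc
      · exact h0
      · rw [Set.mem_singleton_iff.1 hc]; exact hcS
    refine ⟨(h1 c hcD (hcK.trans (le_max_left _ _))).1, ?_⟩
    have h3 : own (x l + h l • c) = own (x l) := by
      rcases hc with rfl | hc
      · rw [smul_zero, add_zero]
      · rw [Set.mem_singleton_iff.1 hc]; exact h2
    rw [h3, sub_self, mul_zero, sub_self, abs_zero]
    exact (mul_pos hε (hpos l)).le
  obtain ⟨k₁, hk₁, hz⟩ := exists_zwin_ex hN hpos h0 htan hO (Set.mem_insert _ _) htano sS hs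
  obtain ⟨uq, k₂, hk₂, hstr⟩ := H.slow hγ hβ hs0 hs1 hpos hxz hv0 hv1 hxs hr1 hxt
  refine ⟨uq, fun n => min (k₁ n) (k₂ n), ?_, fun k' hk' hle => ?_⟩
  · rw [tendsto_atTop] at hk₁ hk₂ ⊢
    intro b
    filter_upwards [hk₁ b, hk₂ b] with n h1 h2 using le_min h1 h2
  · obtain ⟨B', b1, b2, b3, b4, b5⟩ := hz k' hk' (hle.mono fun n hn => hn.trans (min_le_left _ _))
    obtain ⟨c1, c2⟩ := hstr k' hk' (hle.mono fun n hn => hn.trans (min_le_right _ _)) B' b1
    refine ⟨B', b1, b2, b3, b4, b5, fun st Cl s₀ hkz t ht => ?_⟩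
    exact
      { N0 := fun n => rp_pos _ _ _
        cells := fun K ε hε => by
          filter_upwards [c1 K ε hε] with n hn p hp
          show ((((I n).filter fun y => |co n p y st.kz| ≤ K * B.d n ^ x (k' n) st.kz).image
            (cell n (uq (k' n)))).card : ℝ) ≤ _
          rw [hkz]
          exact hn p hp
        strip := fun τ h1 h2 K ε hε => by
          filter_upwards [c2 t ht τ h1 h2 K ε hε] with n hn p hp c hc
          show (((I n).filter fun y => rl n y = rl n p ∧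
            cell n (uq (k' n)) y = cell n (uq (k' n)) p ∧
            |co n p y t - c * co n p y st.kz| ≤ K * (B.d n ^ x (k' n) t * B'.d n ^ τ)).card : ℝ) ≤
            B.d n ^ (-(own (x (k' n)))) * _
          rw [hkz, hov]
          exact hn p hp c hc }

/-- **windows with real lines and own strips**, one theorem -/
theorem exists_swin {B : Base} {I J : ∀ n, Finset (ι n)} {co : ∀ n, ι n → ι n → Fin m → ℝ}
    {M : Mons m} {C R : ℝ} {ν : (Fin m → ℝ) → ℝ} (hN : NProf B I J co M C R ν)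
    {x : ℕ → Fin m → ℝ} {h : ℕ → ℝ} (hpos : ∀ l, 0 < h l) {D : Set (Fin m → ℝ)}
    (h0 : (0 : Fin m → ℝ) ∈ D) {lam : (Fin m → ℝ) → ℝ} (htan : IsTan (Leg M R) D ν x h lam)
    {st : WSt m} (hst : st.Ok M D)
    {rl : ∀ n, ι n → ℕ} {own : (Fin m → ℝ) → ℝ}
    (hO : QProf B J (olab B I co M C rl) (Leg M R) own)
    (hown : ∀ᶠ l in (atTop : Filter ℕ), own (x l + h l • cut st.S st.top 0) = own (x l))
    {κ : Type*} [DecidableEq κ] {cell : ∀ n, ℚ → ι n → κ}
    {Ts : Finset (Fin m)} {w0 s : ℝ} {γ o0 β : Fin m → ℝ} {Sl : Fin m → Set ℝ}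
    (H : OStrips B I co rl cell st.kz Ts w0 s γ o0 β Sl) (hγ : ∀ t ∈ Ts, 0 ≤ γ t)
    (hβ : ∀ t ∈ Ts, 0 < β t) (hs0 : 0 ≤ s) (hs1 : s ≤ 1) {v : ℕ → ℝ}
    (hxz : ∀ l, x l st.kz = w0 + v l) (hv0 : ∀ l, 0 < v l) (hv1 : ∀ l, v l ≤ 1) {xs : ℝ}
    (hxs : 0 < xs) (hr1 : ∀ t ∈ Ts, ∀ l, v l + h l * (xs / β t) ≤ 1)
    (hxt : ∀ t ∈ Ts, ∀ l, x l t = o0 t + β t * v l)
    (hov : ∀ l, own (x l) = (1 - s) * (1 - v l))
    (sS : ℕ → ℕ → ℝ) (hs : ∀ i, B.Sub (sS i)) (i₀ : ∀ n, ι n)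
    {Gd E : ∀ n, Finset (ι n)}
    (hGd : ∀ᶠ n in (U : Filter ℕ), Gd n ⊆ J n) (hE : ∀ᶠ n in (U : Filter ℕ), E n ⊆ Gd n)
    {Sd : ℕ → ℝ} (hS : B.Sub Sd)
    (hd : ∀ᶠ n in (U : Filter ℕ), ((J n).card : ℝ) ≤ Sd n * (E n).card) :
    ∃ (uq : ℕ → ℚ) (k : ℕ → ℕ), Tendsto k U atTop ∧ ∀ k' : ℕ → ℕ, Tendsto k' U atTop →
      (∀ᶠ n in (U : Filter ℕ), k' n ≤ k n) → ∃ (B' : Base) (s₀ : ∀ n, ι n) (W : Wnd m ι),
        W = st.wnd B B' I J co M C (fun n => x (k' n)) (fun n => h (k' n)) D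
          (fun n => B.d n ^ (-(ν (x (k' n))))) lam
          (fun n => cls (Gd n) (zlab B I co M C (fun n => x (k' n)) (fun n => h (k' n)) n 0)
            (s₀ n)) s₀ ∧
        (∀ n, B'.d n = B.d n ^ h (k' n)) ∧ (∀ n, B'.L n = h (k' n) * B.L n) ∧
        (∀ i, B'.Sub (sS i)) ∧ (∀ᶠ n in (U : Filter ℕ), s₀ n ∈ E n) ∧ W.Ok ∧
        RLines W rl (fun n => B.d n ^ (-(own (x (k' n))))) ∧
        ∀ t ∈ Ts, WStrip W rl (fun n => cell n (uq (k' n))) t (Sl t)
          (fun n => B.d n ^ (-(own (x (k' n))))) xs (γ t / β t) := by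
  obtain ⟨uq, k, hk, hk2⟩ := exists_zwin_own hN hpos h0 htan hO (hst.leg hst.lin_leg) hown H hγ hβ
    hs0 hs1 hxz hv0 hv1 hxs hr1 hxt hov (fun i => Nat.casesOn i Sd sS) (fun i => by
      cases i with
      | zero => exact hS
      | succ i => exact hs i)
  refine ⟨uq, k, hk, fun k' hk' hle => ?_⟩
  obtain ⟨B', b1, b2, b3, b4, b5, b6⟩ := hk2 k' hk' hle
  obtain ⟨s₀, c1, c2, c3, -⟩ := exists_rlines b4 hst i₀ hGd hE (b3 0) hd (fun n => rp_pos _ _ _) b5
    (Set.mem_insert _ _) rfl (Set.mem_insert_of_mem _ rfl) rfl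
    (fun _ n i => hx0 B I co M C (fun n => x (k' n)) (fun n => h (k' n)) rl n i)
    (fun _ n => 1 / B.d n ^ (-(own (x (k' n)))))
    (fun _ n => one_div_pos.2 (rp_pos _ _ _))
    (fun _ ε hε => few0 b4 (rl := rl) (fun n i j hij => hij) hε)
    (fun _ ε hε => num_hx0 (fun n => rp_pos _ _ _) b5 (Set.mem_insert _ _) rfl hε)
  exact ⟨B', s₀, _, rfl, b1, b2, fun i => b3 (i + 1), c1, c2, c3,
    fun t ht => b6 st _ s₀ rfl t ht⟩

end Crest.Agent.R116.Kst593
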