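import Crest.Agent.R116.CWd3_480
import Crest.Agent.R116.UpC1_192
import Crest.Agent.R116.AlB1_888
import Crest.Agent.R116.PDf1_299
import Crest.Agent.R116.Ckm1_538

-- ▼ part R116/Mwc1_748
section

/-!
# R116 (S0155), wave side: MIS for the cone, wave half, part 1 (helper748)

`pt_leC`: pointwise bound of a child packet of `trc z (selc η0 κ ρ g S)` by the density of the
selected parent packets.
-/

set_option autoImplicit false
set_option linter.unusedVariables false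
set_option linter.unusedSectionVars false

open MeasureTheory FourierTransform
open scoped ContDiff ENNReal

namespace Crest.Agent.R116.Mwc748

open Crest.Agent.R138.Wf448
open Crest.Agent.R138.Defs (E2 ee)
open Crest.Agent.R138.Wpk685 (win fat cen caps)
open Crest.Agent.R138.Loc878 (nearL nearS mem_nearL mem_nearS Near)
open Crest.Agent.R116.CWp480 Crest.Agent.R116.CDef480 Crest.Agent.R116.CWc480
open Crest.Agent.R116.CWd480 Crest.Agent.R116.Up192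
open Crest.Agent.R116.Cad538 (frc wt frc_le_frc wt_frame)
open Crest.Agent.R116.AlB888 (Adc)

/-! ### frames -/

theorem Pl_eq_frc {ρ κ : ℝ} (hρ : 0 < ρ) (hκ : 0 < κ) (C : E2) (X : E3) :
    Pl ρ κ hρ hκ C X = frc ρ κ C X := by
  rw [Pl_apply, Cad538.frc_apply, Ckm538.nrm_zero]

theorem adet_Pl {ρ κ : ℝ} (hρ : 0 < ρ) (hκ : 0 < κ) (C : E2) :
    adet (Pl ρ κ hρ hκ C : E3 →L[ℝ] E3) = ρ ^ 2 * κ := by
  unfold adet
  have e : ((Pl ρ κ hρ hκ C : E3 →L[ℝ] E3) : E3 →ₗ[ℝ] E3) = (frc ρ κ C : E3 →ₗ[ℝ] E3) := by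
    ext X : 1
    exact Pl_eq_frc hρ hκ C X
  rw [e, Cad538.det_frc, abs_of_pos (by positivity)]

theorem Pl_mono {ρ ρ' κ : ℝ} (hρ : 0 < ρ) (hρ' : 0 < ρ') (hκ : 0 < κ) (h : ρ ≤ ρ') (C : E2)
    (X : E3) : ‖Pl ρ κ hρ hκ C X‖ ≤ ‖Pl ρ' κ hρ' hκ C X‖ := by
  rw [Pl_eq_frc, Pl_eq_frc]
  refine abs_le_of_sq_le_sq' ?_ (norm_nonneg _) |>.2
  rw [Cad538.norm_frc_sq, Cad538.norm_frc_sq]
  have : (ρ * ‖lat X‖) ^ 2 ≤ (ρ' * ‖lat X‖) ^ 2 := by gcongr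
  linarith

/-- comparison of the frames of two normals. -/
theorem Pl_near {ρ κ σ : ℝ} (hρ : 0 < ρ) (hκ : 0 < κ) {C C' : E2} (h : ‖C' - C‖ ≤ σ)
    (hσ : κ * σ ≤ 3 * ρ) (X : E3) : ‖frc ρ κ C' X‖ ≤ 5 * ‖frc ρ κ C X‖ := by
  have h1 := frc_le_frc (th := ρ) (kp := κ) hρ.le hκ.le (K := 3) (by norm_num) (C := C) (C' := C')
    ((mul_le_mul_of_nonneg_left h hκ.le).trans hσ) X
  calc _ ≤ _ := h1
    _ = _ := by norm_num

/-! ### the wide window -/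

/-- window in the scalar frequency, one on the slice of width `2 κ`. -/
noncomputable def b2 (x : ℝ) : ℂ := bt (x / 2)

theorem ew_b2 {a : ℝ} (ha : 1 ≤ a) :
    EW (4 * a) 4 b2 (Set.Icc (7 / 8 * a⁻¹) (2 * a) ×ˢ Set.Icc 0 (8 * a)⁻¹) := by
  have ha0 : 0 < a := by linarith
  have hi : 0 < a⁻¹ := inv_pos.2 ha0
  have hi1 : a⁻¹ ≤ 1 := inv_le_one_of_one_le₀ ha
  have hsp : ∀ x, b2 x ≠ 0 → |x| ≤ 4 := by
    intro x hx
    by_contra hc
    push Not at hc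
    apply hx
    unfold b2
    apply bt_zero
    rw [abs_div, abs_of_pos (by norm_num : (0:ℝ) < 2)]
    linarith
  refine ⟨by linarith, by norm_num, ?_, hsp, fun x => norm_bt_le _, isCompact_Icc.prod isCompact_Icc,
    ?_⟩
  · exact bt_smooth.comp (contDiff_id.div_const 2)
  · rintro ⟨η0, κ⟩ ⟨⟨h1, h2⟩, h3, h4⟩ x hx
    simp only at h1 h2 h3 h4 ⊢
    have e1 : (8 * a)⁻¹ = a⁻¹ / 8 := by rw [mul_inv]; ring
    have e2 : (4 * a)⁻¹ = a⁻¹ / 4 := by rw [mul_inv]; ring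
    have h5 := hsp x hx
    have h6 : |κ * x| ≤ a⁻¹ / 2 := by
      rw [abs_mul, abs_of_nonneg h3]
      calc κ * |x| ≤ (8 * a)⁻¹ * 4 := by gcongr
        _ = a⁻¹ / 2 := by rw [e1]; ring
    obtain ⟨h7, h8⟩ := abs_le.1 h6
    rw [e2]
    constructor <;> linarith

theorem b2_one {η0 κ : ℝ} (hκ : 0 < κ) {ζ : E3} (h : |ζ 2 - η0| ≤ 2 * κ) :
    b2 ((ζ 2 - η0) / κ) = 1 := by
  unfold b2
  apply bt_one
  rw [div_div, abs_div, abs_of_pos (by positivity : 0 < κ * 2), div_le_iff₀ (by positivity)]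
  linarith

/-- the centre of a slice which meets the support. -/
theorem ctr_range' {a η0 κ : ℝ} (ha : 1 ≤ a) (hκ : 8 * a * κ ≤ 1) {g : E3 → ℂ}
    (hs : Slc η0 κ g) {ζ : E3} (hζ : g ζ ≠ 0) (h1 : a⁻¹ ≤ ζ 2) (h2 : ζ 2 ≤ a) :
    7 / 8 * a⁻¹ ≤ η0 ∧ η0 ≤ 2 * a := by
  have ha0 : 0 < a := by linarith
  have h3 := abs_le.1 (hs ζ hζ)
  have h4 : κ ≤ a⁻¹ / 8 := by
    rw [le_div_iff₀ (by norm_num), ← one_div, le_div_iff₀ ha0]
    linarith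
  have hi : 0 < a⁻¹ := inv_pos.2 ha0
  have hi1 : a⁻¹ ≤ 1 := inv_le_one_of_one_le₀ ha
  constructor <;> linarith [h3.1, h3.2]

/-- one child window. -/
theorem win_mult (n : ℕ) {a : ℝ} (ha : 1 ≤ a) :
    ∃ C : ℝ, 0 ≤ C ∧ ∀ (η0 κ ρ ρ' : ℝ) (hρ : 0 < ρ) (hκ : 0 < κ), ρ ≤ ρ' → 8 * a * κ ≤ 1 →
      7 / 8 * a⁻¹ ≤ η0 → η0 ≤ 2 * a → ∀ (m' : ℤ × ℤ) (K : ℝ) (w : E3 → ℝ),
      SV (Pl ρ κ hρ hκ (cen ρ' m')) K n w → ∀ G : E3 → ℂ, Integrable G → MemLp G 2 →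
      (∀ ζ, G ζ ≠ 0 → |ζ 2 - η0| ≤ 2 * κ) →
      WE w (fun ζ => capc ρ' m' ζ * G ζ) ≤ ENNReal.ofReal (C * K ^ 2) * WE w G ∧
      ∀ x, ‖𝓕⁻ (fun ζ => capc ρ' m' ζ * G ζ) x‖ₑ ^ 2 ≤ ENNReal.ofReal (C * (ρ' ^ 2 * κ)) *
        WE (fun y => pa n (Pl ρ κ hρ hκ (cen ρ' m')) (y - x)) (fun ζ => capc ρ' m' ζ * G ζ) := by
  have ha4 : (1:ℝ) ≤ 4 * a := by linarith
  have hl := lam_pos (M := 4) ha4 (by norm_num)
  obtain ⟨Q, hQ, hpk⟩ := exists_pk (ew_b2 ha) (n + dd E3) 0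
  obtain ⟨C1, hC1, h1⟩ := sv_mult E3 n
  obtain ⟨C2, hC2, h2⟩ := lc_pt (V := E3) n
  refine ⟨C1 * Q ^ 2 + C2 * 5 ^ 3 * (lam (4 * a) 4) ^ 3 * 2 ^ n, by positivity, ?_⟩
  intro η0 κ ρ ρ' hρ hκ hρρ hκa hη1 hη2 m' K w hw G hG hG2 hGs
  have hρ' : 0 < ρ' := lt_of_lt_of_le hρ hρρ
  have hκ' : κ ≤ (8 * a)⁻¹ := by
    rw [← one_div, le_div_iff₀ (by linarith)]
    linarith
  have hP := hpk (η0, κ) ⟨⟨hη1, hη2⟩, hκ.le, hκ'⟩ hκ ρ' hρ' (cen ρ' m')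
  simp only at hP
  set C' := cen ρ' m' with hC'
  set B := Fr (lam (4 * a) 4) ρ' κ (lam_pos ha4 (by norm_num)) hρ' hκ C' with hB
  obtain ⟨b, hb, hbc⟩ := hP.wn
  have hAB : ∀ x, ‖Pl ρ κ hρ hκ C' x‖ ≤ 1 * ‖B x‖ := by
    intro x
    rw [one_mul, hB, norm_Fr]
    have h3 := Pl_mono hρ hρ' hκ hρρ C' x
    have h4 : 1 ≤ lam (4 * a) 4 := by unfold lam; linarith
    have h5 := norm_nonneg (Pl ρ' κ hρ' hκ C' x)
    nlinarith
  have hcap : (fun ζ => capc ρ' m' ζ * G ζ) = fun ζ => CWp480.cap b (ctr η0 C') B ζ * G ζ := by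
    funext ζ
    by_cases h0 : G ζ = 0
    · rw [h0, mul_zero, mul_zero]
    · rw [hbc, b2_one hκ (hGs ζ h0), mul_one]
      rfl
  have hK := hw.one_le
  constructor
  · rw [hcap]
    refine (h1 _ K w hw (CWp480.cap b (ctr η0 C') B) G Q hQ (temperate_cap hb _ _) ?_ hG hG2).trans
      ?_
    · intro j hj ξ
      refine (Nn_le_of_le zero_le_one hAB j _ ξ).trans ?_
      rw [one_pow, one_mul]
      exact cap_Nn hb _ _ hj ξ
    · refine mul_le_mul' (ENNReal.ofReal_le_ofReal ?_) le_rfl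
      have h6 : 0 ≤ C2 * 5 ^ 3 * (lam (4 * a) 4) ^ 3 * 2 ^ n * K ^ 2 := by positivity
      calc C1 * K ^ 2 * Q ^ 2 = C1 * Q ^ 2 * K ^ 2 := by ring
        _ ≤ C1 * Q ^ 2 * K ^ 2 + C2 * 5 ^ 3 * (lam (4 * a) 4) ^ 3 * 2 ^ n * K ^ 2 := by linarith
        _ = _ := by ring
  · intro x
    have hint : Integrable (fun ζ => capc ρ' m' ζ * G ζ) := CWd480.capc_int hG ρ' m'
    have h3 := h2 B 5 (by norm_num) (ctr η0 C') (fun ζ => capc ρ' m' ζ * G ζ) hint (by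
      intro ξ hξ
      have h4 : ξ ∈ Sd (4 * a) 4 η0 κ ρ' C' := by
        refine hP.sw ξ ?_
        rw [b2_one hκ (hGs ξ (right_ne_zero_of_mul hξ)), mul_one]
        exact left_ne_zero_of_mul hξ
      refine ⟨(adjE B).symm (ξ - ctr η0 C'), Sd_coord ha4 (by norm_num) hρ' hκ h4, ?_⟩
      rw [← adjE_apply, ContinuousLinearEquiv.apply_symm_apply]
      abel) x
    refine h3.trans ?_
    have hdet : adet (B : E3 →L[ℝ] E3) = (lam (4 * a) 4) ^ 3 * (ρ' ^ 2 * κ) := by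
      rw [hB]
      unfold Fr
      rw [adet_Pl]
      ring
    have hfr : Module.finrank ℝ E3 = 3 := finrank_euclideanSpace_fin
    have h5 : wE n (B : E3 →L[ℝ] E3) x (fun ζ => capc ρ' m' ζ * G ζ) ≤ ENNReal.ofReal (2 ^ n) *
        WE (fun y => pa n (Pl ρ κ hρ hκ C') (y - x)) (fun ζ => capc ρ' m' ζ * G ζ) := by
      rw [CWp480.wE_eq, ← WE_const_mul (by positivity)]
      refine WE_mono (fun y => ?_) _
      refine (dw_le_pa n B (y - x)).trans ?_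
      refine mul_le_mul_of_nonneg_left ?_ (by positivity)
      unfold pa
      have h7 := hAB (y - x)
      rw [one_mul] at h7
      have h8 := norm_nonneg (Pl ρ κ hρ hκ C' (y - x))
      exact inv_anti₀ (by positivity) (pow_le_pow_left₀ (by positivity) (by linarith) n)
    refine (mul_le_mul' le_rfl h5).trans ?_
    rw [hdet, hfr, ← mul_assoc, ← ENNReal.ofReal_mul (by positivity)]
    refine mul_le_mul' (ENNReal.ofReal_le_ofReal ?_) le_rfl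
    have h6 : 0 ≤ C1 * Q ^ 2 * (ρ' ^ 2 * κ) := by positivity
    calc C2 * (5 ^ 3 * ((lam (4 * a) 4) ^ 3 * (ρ' ^ 2 * κ))) * 2 ^ n
        = C2 * 5 ^ 3 * (lam (4 * a) 4) ^ 3 * 2 ^ n * (ρ' ^ 2 * κ) := by ring
      _ ≤ C1 * Q ^ 2 * (ρ' ^ 2 * κ) + C2 * 5 ^ 3 * (lam (4 * a) 4) ^ 3 * 2 ^ n * (ρ' ^ 2 * κ) := by
        linarith
      _ = _ := by ring

/-! ### selected waves -/

theorem sel_zero {η0 κ ρ : ℝ} {g : E3 → ℂ} (h : ∀ ζ, g ζ = 0) (S : ℤ × ℤ → Set E3) (ζ : E3) :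
    selc η0 κ ρ g S ζ = 0 := by
  unfold selc piecec
  refine Finset.sum_eq_zero fun m _ => ?_
  have e : (S m).indicator (umc ρ g m) = fun _ => 0 := by
    funext y
    by_cases hy : y ∈ S m
    · rw [Set.indicator_of_mem hy, umc_zero h]
    · rw [Set.indicator_of_notMem hy]
  rw [e, fourier_eq_int]
  simp

theorem etw_supp {η0 κ : ℝ} (hκ : 0 < κ) {ζ : E3} (h : etw η0 κ ζ ≠ 0) : |ζ 2 - η0| ≤ 2 * κ := by
  by_contra hc
  push Not at hc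
  apply h
  rw [etw_eq]
  apply bt_zero
  rw [abs_div, abs_of_pos hκ, le_div_iff₀ hκ]
  exact hc.le

theorem piece_supp {η0 κ ρ : ℝ} (hκ : 0 < κ) {g : E3 → ℂ} {m : ℤ × ℤ} {S : Set E3} {ζ : E3}
    (h : piecec η0 κ ρ g m S ζ ≠ 0) : fatc ρ m ζ ≠ 0 ∧ |ζ 2 - η0| ≤ 2 * κ := by
  unfold piecec at h
  have h1 := left_ne_zero_of_mul h
  exact ⟨left_ne_zero_of_mul h1, etw_supp hκ (right_ne_zero_of_mul h1)⟩

/-- integrability of the pieces. -/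
theorem piece_int {a η0 κ ρ : ℝ} (ha : 1 ≤ a) (hρ : 0 < ρ) (hκ : 0 < κ) (h1 : a⁻¹ ≤ η0)
    (h2 : η0 ≤ a) (h3 : κ ≤ (4 * a)⁻¹) {g : E3 → ℂ} (hg : Integrable g) {m : ℤ × ℤ} {S : Set E3}
    (hS : MeasurableSet S) (hb : Bornology.IsBounded S) :
    Integrable (piecec η0 κ ρ g m S) ∧ MemLp (piecec η0 κ ρ g m S) 2 := by
  obtain ⟨Q, hQ, hF⟩ := pkF_sliced ha 0 0
  obtain ⟨h5, h6⟩ := ind_int (umc_cont hg ρ m).aestronglyMeasurable (umc_le ρ m) hS hb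
  have h7 := (hF η0 κ h1 h2 hκ h3 ρ hρ (cen ρ m)).rep_piece h5 h6
  exact ⟨h7.int, h7.l2⟩

/-- a child cap only sees the near parent pieces. -/
theorem cap_piece_zero {η0 κ ρ ρ' : ℝ} (hρ : 0 < ρ) (hρρ : ρ ≤ ρ') {g : E3 → ℂ} {m m' : ℤ × ℤ}
    (hm : m ∈ caps ρ) (hn : m ∉ nearL ρ ρ' m') (S : Set E3) (ζ : E3) :
    capc ρ' m' ζ * piecec η0 κ ρ g m S ζ = 0 := by
  by_contra hc
  have h1 := left_ne_zero_of_mul hc
  have h2 : fatc ρ m ζ ≠ 0 := by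
    have h3 := right_ne_zero_of_mul hc
    unfold piecec at h3
    exact left_ne_zero_of_mul (left_ne_zero_of_mul h3)
  have hρ' : 0 < ρ' := lt_of_lt_of_le hρ hρρ
  have h4 : ‖ρ'⁻¹ • (slp ζ - cen ρ' m')‖ ≤ 71 / 50 := by
    by_contra hh
    exact h1 (Crest.Agent.R138.Wpk685.win_zero' (not_le.1 hh))
  have h5 : ‖ρ⁻¹ • (slp ζ - cen ρ m)‖ < 3 / 2 := by
    by_contra hh
    exact h2 (Crest.Agent.R138.Wpk685.fat_zero (not_lt.1 hh))
  rw [norm_smul, Real.norm_eq_abs, abs_of_pos (inv_pos.2 hρ'), inv_mul_le_iff₀ hρ'] at h4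
  rw [norm_smul, Real.norm_eq_abs, abs_of_pos (inv_pos.2 hρ), inv_mul_lt_iff₀ hρ] at h5
  apply hn
  rw [mem_nearL]
  refine ⟨hm, ?_⟩
  unfold Near
  have e : cen ρ m - cen ρ' m' = (slp ζ - cen ρ' m') - (slp ζ - cen ρ m) := by abel
  rw [e]
  refine lt_of_le_of_lt (norm_sub_le _ _) ?_
  linarith

/-- **pointwise bound** of a child packet of a selected wave. -/
theorem pt_leC (n : ℕ) {a : ℝ} (ha : 1 ≤ a) (T : ℝ) :
    ∃ C : ℝ, 0 ≤ C ∧ ∀ (η0 κ ρ ρ' : ℝ), 0 < ρ → ρ ≤ ρ' → 0 < κ → 8 * a * κ ≤ 1 → κ * ρ' ≤ ρ →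
    ∀ g : E3 → ℂ, Integrable g → Rng a g → Slc η0 κ g →
    ∀ S : ℤ × ℤ → Set E3, (∀ m ∈ caps ρ, MeasurableSet (S m)) →
    (∀ m ∈ caps ρ, Bornology.IsBounded (S m)) → ∀ z : E3 × ℝ, |z.2| * ρ ^ 2 ≤ T →
    ∀ (m' : ℤ × ℤ) (x : E3),
    ‖umc ρ' (trc z (selc η0 κ ρ g S)) m' x‖ₑ ^ 2 ≤
      ENNReal.ofReal (C * (ρ' / ρ) ^ 2) * Adc n ρ κ ρ' g S m' (z.1 + x) z.2 := by
  obtain ⟨C1, hC1, h1⟩ := win_mult n ha
  obtain ⟨C2, hC2, h2⟩ := A_sel (a := 2 * a) (by linarith) n T (L := 5) (by norm_num)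
  refine ⟨C1 * C1 * C2 * 5 ^ n, by positivity, ?_⟩
  intro η0 κ ρ ρ' hρ hρρ hκ hκa hκρ g hg hr hs S hS hSb z hz m' x
  have hρ' : 0 < ρ' := lt_of_lt_of_le hρ hρρ
  by_cases h0 : ∀ ζ, g ζ = 0
  · have e : umc ρ' (trc z (selc η0 κ ρ g S)) m' x = 0 := by
      refine umc_zero (fun ζ => ?_) m' x
      unfold trc
      rw [sel_zero h0, zero_mul]
    rw [e]
    simp
  · push Not at h0
    obtain ⟨ζ0, hζ0⟩ := h0
    obtain ⟨r1, r2⟩ := hr ζ0 hζ0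
    obtain ⟨c1, c2⟩ := ctr_range' ha hκa hs hζ0 r1 r2
    obtain ⟨c3, c4⟩ := ctr_range ha hκa hs hζ0 r1 r2
    obtain ⟨c5, c6⟩ := kap_range ha hκa
    set s : Finset (ℤ × ℤ) := nearL ρ ρ' m' with hsdef
    have hsub : ∀ m ∈ s, m ∈ caps ρ := fun m hm => (mem_nearL.1 hm).1
    set G0 : E3 → ℂ := fun ζ => ∑ m ∈ s, piecec η0 κ ρ g m (S m) ζ with hG0
    have hrep : ∀ m ∈ s, Integrable (piecec η0 κ ρ g m (S m)) ∧
        MemLp (piecec η0 κ ρ g m (S m)) 2 := fun m hm =>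
      piece_int (by linarith) hρ hκ c3 c4 c5 hg (hS m (hsub m hm)) (hSb m (hsub m hm))
    have hGi : Integrable G0 := integrable_finsetSum s fun m hm => (hrep m hm).1
    have hG2 : MemLp G0 2 := memLp_finsetSum s fun m hm => (hrep m hm).2
    have hcut : (fun ζ => capc ρ' m' ζ * trc z (selc η0 κ ρ g S) ζ) =
        fun ζ => capc ρ' m' ζ * trc z G0 ζ := by
      funext ζ
      unfold trc
      rw [← mul_assoc, ← mul_assoc]
      congr 1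
      unfold selc
      rw [hG0]
      simp only
      rw [Finset.mul_sum, Finset.mul_sum]
      refine (Finset.sum_subset (fun m hm => hsub m hm) fun m hm hn => ?_).symm
      exact cap_piece_zero hρ hρρ hm hn (S m) ζ
    have hGs : ∀ ζ, trc z G0 ζ ≠ 0 → |ζ 2 - η0| ≤ 2 * κ := by
      intro ζ hζ
      have h3 := trc_ne hζ
      obtain ⟨m, _, hne⟩ := Finset.exists_ne_zero_of_sum_ne_zero h3
      exact (piece_supp hκ hne).2
    set A := Pl ρ κ hρ hκ (cen ρ' m') with hA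
    have hW := h1 η0 κ ρ ρ' hρ hκ hρρ hκa c1 c2 m' 1 (fun y => pa n A (y - x)) (SV_pa A n x)
      (trc z G0) (trc_int' hGi z) (trc_l2' hG2 z) hGs
    obtain ⟨w1, w2⟩ := hW
    have w3 := w2 x
    have e0 : umc ρ' (trc z (selc η0 κ ρ g S)) m' x =
        𝓕⁻ (fun ζ => capc ρ' m' ζ * trc z G0 ζ) x := by
      unfold umc
      rw [hcut]
    rw [e0]
    have hnear : ∀ m ∈ s, ‖cen ρ m - cen ρ' m'‖ ≤ 3 * ρ' := fun m hm => (mem_nearL.1 hm).2.le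
    have hA1 : ∀ m ∈ s, ∀ X, ‖A X‖ ≤ 5 * ‖Pl ρ κ hρ hκ (cen ρ m) X‖ := by
      intro m hm X
      rw [hA, Pl_eq_frc, Pl_eq_frc]
      refine Pl_near hρ hκ (σ := 3 * ρ') ?_ (by linarith) X
      rw [norm_sub_rev]
      exact hnear m hm
    have hA2 : ∀ m ∈ s, ∀ X, ‖frc ρ κ (cen ρ m) X‖ ≤ 5 * ‖A X‖ := by
      intro m hm X
      rw [hA, Pl_eq_frc]
      exact Pl_near hρ hκ (σ := 3 * ρ') (hnear m hm) (by linarith) X
    have w4 := h2 ρ κ η0 hρ hκ c3 c4 c5 A 1 (fun y => pa n A (y - z.1 - x))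
      (by
        have := (SV_pa A n x).comp_sub z.1
        exact this) s hA1 z.2 hz g S hg (fun m hm => hS m (hsub m hm))
      (fun m hm => hSb m (hsub m hm))
    have w5 : WE (fun y => pa n A (y - x)) (trc z G0) =
        WE (fun y => pa n A (y - z.1 - x)) (slc G0 z.2) := by
      have := WE_trc (fun y => pa n A (y - x)) z G0 0
      have e1 : slc (trc z G0) 0 = trc z G0 := by
        funext ζ
        unfold slc
        rw [zero_mul, ee_zero, mul_one]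
      rw [e1, zero_add] at this
      exact this
    rw [← w5] at w4
    simp only [one_pow, mul_one] at w1 w4
    have w6 : ∑ m ∈ s, ∫⁻ y in S m, ENNReal.ofReal (pa n A (y - z.2 • vel (cen ρ m) - z.1 - x)) *
        ‖umc ρ g m y‖ₑ ^ 2 ≤ ENNReal.ofReal (5 ^ n) * ∑ m ∈ s, ∫⁻ y in S m,
          ENNReal.ofReal (wt (frc ρ κ (cen ρ m)) n (y - (z.1 + x) - z.2 • vel (cen ρ m))) *
            ‖umc ρ g m y‖ₑ ^ 2 := by
      rw [Finset.mul_sum]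
      refine Finset.sum_le_sum fun m hm => ?_
      rw [← lintegral_const_mul' _ _ ENNReal.ofReal_ne_top]
      refine lintegral_mono fun y => ?_
      rw [← mul_assoc, ← ENNReal.ofReal_mul (by positivity)]
      refine mul_le_mul' (ENNReal.ofReal_le_ofReal ?_) le_rfl
      have e2 : y - z.2 • vel (cen ρ m) - z.1 - x = y - (z.1 + x) - z.2 • vel (cen ρ m) := by abel
      rw [e2]
      exact wt_frame (frc ρ κ (cen ρ m)) (A : E3 →L[ℝ] E3) (K := 5) (by norm_num) n (hA2 m hm _)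
    have e3 : ENNReal.ofReal (C1 * C1 * C2 * 5 ^ n * (ρ' / ρ) ^ 2) *
        Adc n ρ κ ρ' g S m' (z.1 + x) z.2 = ENNReal.ofReal (C1 * (ρ' ^ 2 * κ)) *
          (ENNReal.ofReal C1 * (ENNReal.ofReal C2 * (ENNReal.ofReal (5 ^ n) *
            ∑ m ∈ s, ∫⁻ y in S m,
          ENNReal.ofReal (wt (frc ρ κ (cen ρ m)) n (y - (z.1 + x) - z.2 • vel (cen ρ m))) *
            ‖umc ρ g m y‖ₑ ^ 2))) := by
      unfold Adc Cad538.Acc Cad538.Den
      rw [← mul_assoc, ← mul_assoc, ← mul_assoc, ← mul_assoc, ← ENNReal.ofReal_mul (by positivity),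
        ← ENNReal.ofReal_mul (by positivity), ← ENNReal.ofReal_mul (by positivity),
        ← ENNReal.ofReal_mul (by positivity)]
      congr 2
      field_simp
    rw [e3]
    refine w3.trans (mul_le_mul' le_rfl (w1.trans (mul_le_mul' le_rfl (w4.trans
      (mul_le_mul' le_rfl w6)))))

end Crest.Agent.R116.Mwc748
end

-- ▼ part R116/Mwc2_748

/-!
# R116 (S0155), wave side: MIS for the cone, wave half, part 2 (helper748): cells

Index `T = (i, (m, k))`: plate `i`, cap `m`, cell `k` of the frame of the slope `cen th m`, sizes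
`w = th⁻¹`, `B = κ⁻¹`.  `slT`, `ptT`, `TS`, `muE`, `muT`, `Ic`; (B1)-(B4).
-/

set_option autoImplicit false
set_option linter.unusedVariables false
set_option linter.unusedSectionVars false

open MeasureTheory
open scoped ENNReal

namespace Crest.Agent.R116.Mwc748

open Crest.Agent.R138.Defs (E2)
open Crest.Agent.R138.Wpk685 (cen caps)
open Crest.Agent.R116.CDef480
open Crest.Agent.R116.Ckm538 (cix cpt near_cpt measurable_cix)
open Crest.Agent.R116.WC188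

/-- index of a cell. -/
abbrev Idx := ℕ × ((ℤ × ℤ) × (ℤ × ℤ × ℤ))

/-- slope. -/
noncomputable def slT (th : ℝ) (T : Idx) : E2 := cen th T.2.1

/-- reference point. -/
noncomputable def ptT (th κ : ℝ) (T : Idx) : E3 := cpt th⁻¹ κ⁻¹ (cen th T.2.1) T.2.2

/-- the part of the selection of the plate in the cell. -/
def TS (th κ : ℝ) (P1 : ℕ → Plate) (T : Idx) : Set E3 :=
  (P1 T.1).S T.2.1 ∩ {y | cix th⁻¹ κ⁻¹ (cen th T.2.1) y = T.2.2}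

/-- energy of the cell. -/
noncomputable def muE (th κ : ℝ) (g : E3 → ℂ) (P1 : ℕ → Plate) (T : Idx) : ℝ≥0∞ :=
  ∫⁻ y in TS th κ P1 T, ‖umc th g T.2.1 y‖ₑ ^ 2

/-- real version. -/
noncomputable def muT (th κ : ℝ) (g : E3 → ℂ) (P1 : ℕ → Plate) (T : Idx) : ℝ :=
  (muE th κ g P1 T).toReal

theorem muT_nonneg (th κ : ℝ) (g : E3 → ℂ) (P1 : ℕ → Plate) (T : Idx) : 0 ≤ muT th κ g P1 T :=
  ENNReal.toReal_nonneg

/-- box of indices. -/
noncomputable def kb (N : ℕ) : Finset (ℤ × ℤ × ℤ) :=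
  Finset.Icc (-(N : ℤ)) N ×ˢ (Finset.Icc (-(N : ℤ)) N ×ˢ Finset.Icc (-(N : ℤ)) N)

/-- number of cells in one direction. -/
noncomputable def Nc (K th κ : ℝ) : ℕ := ⌈9 * K * (th + κ)⌉₊ + 1

theorem caps_norm {ρ : ℝ} (hρ : 0 < ρ) (hρ1 : ρ ≤ 1) {m : ℤ × ℤ} (hm : m ∈ caps ρ) :
    ‖cen ρ m‖ ≤ 8 := by
  unfold caps at hm
  rw [Finset.mem_product, Finset.mem_Icc, Finset.mem_Icc] at hm
  obtain ⟨⟨a1, a2⟩, ⟨b1, b2⟩⟩ := hm
  have hc : (⌈2 / ρ⌉ : ℝ) < 2 / ρ + 1 := Int.ceil_lt_add_one _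
  have key : ∀ k : ℤ, -⌈2 / ρ⌉ - 1 ≤ k → k ≤ ⌈2 / ρ⌉ + 1 → |ρ * (k:ℝ)| ≤ 4 := by
    intro k h1 h2
    have h1' : (-(⌈2 / ρ⌉ : ℝ)) - 1 ≤ k := by exact_mod_cast h1
    have h2' : (k:ℝ) ≤ (⌈2 / ρ⌉ : ℝ) + 1 := by exact_mod_cast h2
    have h3 : ρ * (2 / ρ) = 2 := by field_simp
    rw [abs_le]
    constructor
    · have := mul_le_mul_of_nonneg_left (show -(2 / ρ + 2) ≤ (k:ℝ) by linarith) hρ.le
      nlinarith
    · have := mul_le_mul_of_nonneg_left (show (k:ℝ) ≤ 2 / ρ + 2 by linarith) hρ.le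
      nlinarith
  have h1 := key m.1 a1 a2
  have h2 := key m.2 b1 b2
  unfold cen
  rw [EuclideanSpace.norm_eq, Fin.sum_univ_two]
  refine Real.sqrt_le_iff.2 ⟨by norm_num, ?_⟩
  simp only [Real.norm_eq_abs, sq_abs]
  have e1 := sq_le_sq' (abs_le.1 h1).1 (abs_le.1 h1).2
  have e2 := sq_le_sq' (abs_le.1 h2).1 (abs_le.1 h2).2
  show (ρ * (m.1:ℝ)) ^ 2 + (ρ * (m.2:ℝ)) ^ 2 ≤ 8 ^ 2
  linarith

theorem cix_mem {th κ K : ℝ} (hth : 0 < th) (hκ : 0 < κ) (hK : 0 ≤ K) {C : E2} (hC : ‖C‖ ≤ 8)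
    {y : E3} (hy : ‖y‖ ≤ K) : cix th⁻¹ κ⁻¹ C y ∈ kb (Nc K th κ) := by
  have hN : 9 * K * (th + κ) + 1 ≤ (Nc K th κ : ℝ) := by
    unfold Nc
    push_cast
    have := Nat.le_ceil (9 * K * (th + κ))
    linarith
  have key : ∀ t : ℝ, |t| ≤ 9 * K * (th + κ) → ⌊t⌋ ∈ Finset.Icc (-(Nc K th κ : ℤ)) (Nc K th κ) := by
    intro t ht
    obtain ⟨h3, h4⟩ := abs_le.1 ht
    have h5 := Int.floor_le t
    have h6 := Int.lt_floor_add_one t
    rw [Finset.mem_Icc]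
    constructor
    · have : (-(Nc K th κ : ℝ)) ≤ ⌊t⌋ := by linarith
      exact_mod_cast this
    · have : ((⌊t⌋ : ℤ) : ℝ) ≤ Nc K th κ := by linarith
      exact_mod_cast this
  have hc : ∀ i : Fin 3, |y i| ≤ K := fun i => by
    have := PiLp.norm_apply_le y i
    rw [Real.norm_eq_abs] at this
    exact this.trans hy
  have hn : |nrm C y 0| ≤ 9 * K := by
    have h1 := Ckm538.nrm0_le C y
    have h2 := hc 2
    have h3 := (Ckm538.lat_norm_le y).trans hy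
    have h4 : ‖C‖ * ‖lat y‖ ≤ 8 * K := mul_le_mul hC h3 (norm_nonneg _) (by norm_num)
    linarith
  unfold cix kb
  rw [Finset.mem_product, Finset.mem_product]
  refine ⟨key _ ?_, key _ ?_, key _ ?_⟩
  · rw [div_inv_eq_mul, abs_mul, abs_of_pos hth]
    have := mul_le_mul_of_nonneg_right (hc 0) hth.le
    nlinarith [mul_nonneg hK hth.le, mul_nonneg hK hκ.le]
  · rw [div_inv_eq_mul, abs_mul, abs_of_pos hth]
    have := mul_le_mul_of_nonneg_right (hc 1) hth.le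
    nlinarith [mul_nonneg hK hth.le, mul_nonneg hK hκ.le]
  · rw [div_inv_eq_mul, abs_mul, abs_of_pos hκ]
    have := mul_le_mul_of_nonneg_right hn hκ.le
    nlinarith [mul_nonneg hK hth.le, mul_nonneg hK hκ.le]

open Classical in
/-- the nonempty cells. -/
noncomputable def Ic (K th κ : ℝ) (I1 : Finset ℕ) (P1 : ℕ → Plate) : Finset Idx :=
  (I1 ×ˢ (caps th ×ˢ kb (Nc K th κ))).filter fun T => (TS th κ P1 T).Nonempty

theorem mem_Ic {K th κ : ℝ} {I1 : Finset ℕ} {P1 : ℕ → Plate} {T : Idx} :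
    T ∈ Ic K th κ I1 P1 ↔ T.1 ∈ I1 ∧ T.2.1 ∈ caps th ∧ T.2.2 ∈ kb (Nc K th κ) ∧
      (TS th κ P1 T).Nonempty := by
  classical
  unfold Ic
  rw [Finset.mem_filter, Finset.mem_product, Finset.mem_product]
  tauto

/-- (B4) -/
theorem Ic_pt {K th κ : ℝ} (hth : 0 < th) (hκ : 0 < κ) {I1 : Finset ℕ} {P1 : ℕ → Plate} {T : Idx}
    {y : E3} (hy : y ∈ TS th κ P1 T) :
    y ∈ (P1 T.1).S T.2.1 ∧ ‖lat (y - ptT th κ T)‖ ≤ 2 * th⁻¹ ∧
      |nrm (slT th T) (y - ptT th κ T) 0| ≤ κ⁻¹ := by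
  have h := near_cpt (w := th⁻¹) (ρ := κ⁻¹) (inv_pos.2 hth) (inv_pos.2 hκ) (cen th T.2.1) y
  have h1 : cix th⁻¹ κ⁻¹ (cen th T.2.1) y = T.2.2 := hy.2
  rw [h1] at h
  exact ⟨hy.1, h.1, h.2⟩

/-- two points of a cell. -/
theorem cell_frc {th κ : ℝ} (hth : 0 < th) (hκ : 0 < κ) {P1 : ℕ → Plate} {T : Idx}
    {y : E3} (hy : y ∈ TS th κ P1 T) : ‖Cad538.frc th κ (slT th T) (y - ptT th κ T)‖ ≤ 3 := by
  obtain ⟨-, h1, h2⟩ := Ic_pt (I1 := ∅) (K := 0) hth hκ hy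
  refine (Cad538.norm_frc_le hth.le hκ.le _ _).trans ?_
  have h3 := mul_le_mul_of_nonneg_left h1 hth.le
  have h4 := mul_le_mul_of_nonneg_left h2 hκ.le
  have e1 : th * (2 * th⁻¹) = 2 := by field_simp
  have e2 : κ * κ⁻¹ = 1 := by field_simp
  rw [e1] at h3
  rw [e2] at h4
  linarith

theorem TS_meas {th κ : ℝ} {P1 : ℕ → Plate} {T : Idx} (h : MeasurableSet ((P1 T.1).S T.2.1)) :
    MeasurableSet (TS th κ P1 T) :=
  h.inter ((measurable_cix th⁻¹ κ⁻¹ (cen th T.2.1)) (measurableSet_singleton T.2.2))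

/-- finiteness. -/
theorem muE_fin {K th κ : ℝ} {g : E3 → ℂ} (hg : Integrable g) {P1 : ℕ → Plate} {T : Idx}
    (hb : ∀ y ∈ (P1 T.1).S T.2.1, ‖y‖ ≤ K) : muE th κ g P1 T ≠ ⊤ := by
  unfold muE
  have h1 : TS th κ P1 T ⊆ Metric.closedBall 0 K := by
    intro y hy
    rw [mem_closedBall_zero_iff]
    exact hb y hy.1
  set M : ℝ := ∫ ζ, ‖capc th T.2.1 ζ * g ζ‖ with hM
  refine ne_top_of_le_ne_top (b := ENNReal.ofReal (M ^ 2) * volume (Metric.closedBall (0 : E3) K))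
    ?_ ?_
  · exact ENNReal.mul_ne_top ENNReal.ofReal_ne_top measure_closedBall_lt_top.ne
  · refine (lintegral_mono_set h1).trans ?_
    rw [← setLIntegral_const]
    refine lintegral_mono fun y => ?_
    rw [← ofReal_norm, ← ENNReal.ofReal_pow (norm_nonneg _)]
    exact ENNReal.ofReal_le_ofReal (pow_le_pow_left₀ (norm_nonneg _) (CWd480.umc_le th T.2.1 y) 2)

section sums

variable {K th κ : ℝ} {g : E3 → ℂ} {I1 : Finset ℕ} {P1 : ℕ → Plate}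

theorem ofReal_muT (hg : Integrable g) {T : Idx} (hb : ∀ y ∈ (P1 T.1).S T.2.1, ‖y‖ ≤ K) :
    ENNReal.ofReal (muT th κ g P1 T) = muE th κ g P1 T :=
  ENNReal.ofReal_toReal (muE_fin hg hb)

/-- mass of a family of cells, upper bound. -/
theorem sum_le_enc (hm : ∀ i ∈ I1, ∀ m, MeasurableSet ((P1 i).S m))
    (hd : ∀ i ∈ I1, ∀ j ∈ I1, i ≠ j → ∀ m, Disjoint ((P1 i).S m) ((P1 j).S m))
    (F : Finset Idx) (hF : ∀ T ∈ F, T.1 ∈ I1 ∧ T.2.1 ∈ caps th) (U : ℤ × ℤ → Set E3)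
    (hU : ∀ T ∈ F, TS th κ P1 T ⊆ U T.2.1) :
    ∑ T ∈ F, muE th κ g P1 T ≤ enc th g U := by
  classical
  unfold enc
  rw [← Finset.sum_fiberwise_of_maps_to (t := caps th) (g := fun T : Idx => T.2.1)
    (fun T hT => (hF T hT).2)]
  refine Finset.sum_le_sum fun m _ => ?_
  have e1 : ∑ T ∈ F with T.2.1 = m, muE th κ g P1 T =
      ∫⁻ y in ⋃ T ∈ F.filter (fun T => T.2.1 = m), TS th κ P1 T, ‖umc th g m y‖ₑ ^ 2 := by
    rw [lintegral_biUnion_finset]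
    · refine Finset.sum_congr rfl fun T hT => ?_
      have h1 := (Finset.mem_filter.1 hT).2
      unfold muE
      rw [h1]
    · intro T hT T' hT' hne
      rw [Function.onFun, Set.disjoint_left]
      rintro y ⟨h1, h2⟩ ⟨h3, h4⟩
      obtain ⟨a1, a2⟩ := Finset.mem_filter.1 (Finset.mem_coe.1 hT)
      obtain ⟨b1, b2⟩ := Finset.mem_filter.1 (Finset.mem_coe.1 hT')
      have h2' : cix th⁻¹ κ⁻¹ (cen th T.2.1) y = T.2.2 := h2
      have h4' : cix th⁻¹ κ⁻¹ (cen th T'.2.1) y = T'.2.2 := h4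
      have hmm : T.2.1 = T'.2.1 := a2.trans b2.symm
      by_cases hab : T.1 = T'.1
      · apply hne
        refine Prod.ext hab (Prod.ext hmm ?_)
        rw [← h2', ← h4', hmm]
      · refine Set.disjoint_left.1 (hd _ (hF T a1).1 _ (hF T' b1).1 hab T.2.1) h1 ?_
        rw [hmm]
        exact h3
    · intro T hT
      obtain ⟨a1, a2⟩ := Finset.mem_filter.1 hT
      exact TS_meas (hm _ (hF T a1).1 _)
  rw [e1]
  refine lintegral_mono_set ?_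
  intro y hy
  simp only [Set.mem_iUnion, exists_prop] at hy
  obtain ⟨T, hT, hyT⟩ := hy
  obtain ⟨a1, a2⟩ := Finset.mem_filter.1 hT
  have := hU T a1 hyT
  rwa [a2] at this

/-- finite subadditivity over a cover of the domain. -/
theorem lint_cover3 {ι : Type*} (J : Finset ι) (U : Set E3) (V : ι → Set E3)
    (h : ∀ y ∈ U, ∃ j ∈ J, y ∈ V j) (f : E3 → ℝ≥0∞) :
    ∫⁻ y in U, f y ≤ ∑ j ∈ J, ∫⁻ y in V j, f y := by
  classical
  have h1 : U ⊆ ⋃ j : {j // j ∈ J}, V j.1 := by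
    intro y hy
    obtain ⟨j, hj, hyj⟩ := h y hy
    exact Set.mem_iUnion.2 ⟨⟨j, hj⟩, hyj⟩
  refine (lintegral_mono_set h1).trans ((lintegral_iUnion_le _ _).trans ?_)
  rw [tsum_fintype, ← Finset.sum_coe_sort J (fun j => ∫⁻ y in V j, f y)]

/-- mass of a family of cells, lower bound. -/
theorem enc_le_sum (F : Finset Idx) (U : ℤ × ℤ → Set E3)
    (hU : ∀ m ∈ caps th, ∀ y ∈ U m, ∃ T ∈ F, T.2.1 = m ∧ y ∈ TS th κ P1 T) :
    enc th g U ≤ ∑ T ∈ F, muE th κ g P1 T := by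
  classical
  unfold enc
  have h1 : ∀ m ∈ caps th, ∫⁻ y in U m, ‖umc th g m y‖ₑ ^ 2 ≤
      ∑ T ∈ F with T.2.1 = m, muE th κ g P1 T := by
    intro m hm
    refine (lint_cover3 (F.filter fun T => T.2.1 = m) (U m) (fun T => TS th κ P1 T) ?_ _).trans
      (le_of_eq ?_)
    · intro y hy
      obtain ⟨T, hT, h2, h3⟩ := hU m hm y hy
      exact ⟨T, Finset.mem_filter.2 ⟨hT, h2⟩, h3⟩
    · refine Finset.sum_congr rfl fun T hT => ?_
      have h2 := (Finset.mem_filter.1 hT).2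
      unfold muE
      rw [h2]
  refine (Finset.sum_le_sum h1).trans ?_
  have h2 : ∑ m ∈ caps th, ∑ T ∈ F with T.2.1 = m, muE th κ g P1 T =
      ∑ T ∈ F with T.2.1 ∈ caps th, muE th κ g P1 T := by
    rw [← Finset.sum_fiberwise_of_maps_to (t := caps th) (g := fun T : Idx => T.2.1)
      (s := F.filter fun T => T.2.1 ∈ caps th) (fun T hT => (Finset.mem_filter.1 hT).2)]
    refine Finset.sum_congr rfl fun m hm => ?_
    refine Finset.sum_congr ?_ fun _ _ => rfl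
    ext T
    simp only [Finset.mem_filter]
    constructor
    · rintro ⟨a, b⟩
      exact ⟨⟨a, b ▸ hm⟩, b⟩
    · rintro ⟨⟨a, _⟩, b⟩
      exact ⟨a, b⟩
  rw [h2]
  exact Finset.sum_le_sum_of_subset (Finset.filter_subset _ _)

theorem exists_cell (hth : 0 < th) (hth1 : th ≤ 1) (hκ : 0 < κ) (hK : 0 ≤ K)
    (hb : ∀ i ∈ I1, ∀ m, ∀ y ∈ (P1 i).S m, ‖y‖ ≤ K) {i : ℕ} (hi : i ∈ I1) {m : ℤ × ℤ}
    (hm : m ∈ caps th) {y : E3} (hy : y ∈ (P1 i).S m) :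
    ∃ T ∈ Ic K th κ I1 P1, T.1 = i ∧ T.2.1 = m ∧ y ∈ TS th κ P1 T := by
  have h1 : y ∈ TS th κ P1 (i, (m, cix th⁻¹ κ⁻¹ (cen th m) y)) := ⟨hy, rfl⟩
  exact ⟨(i, (m, cix th⁻¹ κ⁻¹ (cen th m) y)),
    mem_Ic.2 ⟨hi, hm, cix_mem hth hκ hK (caps_norm hth hth1 hm) (hb i hi m y hy), y, h1⟩,
    rfl, rfl, h1⟩

/-- (B1) in `muE` form. -/
theorem tot_muE (hth : 0 < th) (hth1 : th ≤ 1) (hκ : 0 < κ) (hK : 0 ≤ K)
    (hm : ∀ i ∈ I1, ∀ m, MeasurableSet ((P1 i).S m))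
    (hd : ∀ i ∈ I1, ∀ j ∈ I1, i ≠ j → ∀ m, Disjoint ((P1 i).S m) ((P1 j).S m))
    (hb : ∀ i ∈ I1, ∀ m, ∀ y ∈ (P1 i).S m, ‖y‖ ≤ K) :
    ∑ T ∈ Ic K th κ I1 P1, muE th κ g P1 T = enc th g (uS I1 P1) := by
  refine le_antisymm (sum_le_enc hm hd _ (fun T hT => ⟨(mem_Ic.1 hT).1, (mem_Ic.1 hT).2.1⟩) _ ?_)
    (enc_le_sum _ _ ?_)
  · intro T hT y hy
    exact Set.mem_biUnion (mem_Ic.1 hT).1 hy.1
  · intro m hmm y hy
    unfold uS at hy
    rw [Set.mem_iUnion₂] at hy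
    obtain ⟨i, hi, hyi⟩ := hy
    obtain ⟨T, hT, h1, h2, h3⟩ := exists_cell hth hth1 hκ hK hb hi hmm hyi
    exact ⟨T, hT, h2, h3⟩

/-- (B2) in `muE` form. -/
theorem plate_muE (hth : 0 < th) (hth1 : th ≤ 1) (hκ : 0 < κ) (hK : 0 ≤ K)
    (hm : ∀ i ∈ I1, ∀ m, MeasurableSet ((P1 i).S m))
    (hd : ∀ i ∈ I1, ∀ j ∈ I1, i ≠ j → ∀ m, Disjoint ((P1 i).S m) ((P1 j).S m))
    (hb : ∀ i ∈ I1, ∀ m, ∀ y ∈ (P1 i).S m, ‖y‖ ≤ K) {i : ℕ} (hi : i ∈ I1)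
    [DecidablePred fun T : Idx => T.1 = i] :
    ∑ T ∈ (Ic K th κ I1 P1).filter (fun T => T.1 = i), muE th κ g P1 T = enc th g (P1 i).S := by
  refine le_antisymm (sum_le_enc hm hd _ (fun T hT => ?_) _ ?_) (enc_le_sum _ _ ?_)
  · have h := mem_Ic.1 (Finset.mem_filter.1 hT).1
    exact ⟨h.1, h.2.1⟩
  · intro T hT y hy
    have h1 := (Finset.mem_filter.1 hT).2
    have := hy.1
    rwa [h1] at this
  · intro m hmm y hy
    obtain ⟨T, hT, h1, h2, h3⟩ := exists_cell hth hth1 hκ hK hb hi hmm hy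
    exact ⟨T, Finset.mem_filter.2 ⟨hT, h1⟩, h2, h3⟩


/-- sums of `muT`. -/
theorem sum_muT (hg : Integrable g) (hb : ∀ i ∈ I1, ∀ m, ∀ y ∈ (P1 i).S m, ‖y‖ ≤ K)
    (F : Finset Idx) (hF : F ⊆ Ic K th κ I1 P1) :
    ENNReal.ofReal (∑ T ∈ F, muT th κ g P1 T) = ∑ T ∈ F, muE th κ g P1 T := by
  rw [ENNReal.ofReal_sum_of_nonneg fun T _ => muT_nonneg _ _ _ _ _]
  exact Finset.sum_congr rfl fun T hT => ofReal_muT hg (hb _ (mem_Ic.1 (hF hT)).1 _)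

end sums

end Crest.Agent.R116.Mwc748
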