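import Crest.Agent.R116.Gc3_192
import Crest.Agent.R116.Ma2_448
import Crest.Agent.R116.LZg4_725
import Crest.Agent.R116.Ma1_448
import Crest.Agent.R116.PDf1_299
import Crest.Agent.R116.Bas1_367
import Crest.Agent.R116.DeG1_295
import Crest.Agent.R116.LZv2_725
import Crest.Agent.R116.Ckm3_538
import Crest.Agent.R116.Mwc2_748
import Crest.Agent.R116.KMRDef_890

-- ▼ part R116/Mc2_330
section

/-!
# R116: MIS on the cone, part 2 (helper330): arcs (cells of slopes) and conformal functions on planks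

* `cel φ C` = cell of the slope `C`, `cel_close`, `card_cel` (slopes in two balls meet `≤ 18` cells).
* `plank_ld`, `plank_gr`, `plank_ev` : variation of a conformal function between a ray and the points
  of its plank `PL r w B`.
* `arcs_le` : at one point the slopes common to two strips with transversal normals meet `≤ 18` cells.
-/

set_option autoImplicit false

open MeasureTheory

namespace Crest.Agent.R116.Mc330

open Crest.Agent.R138.Defs (E2)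
open Crest.Agent.R116.CDef480 (E3 lat pt vel)
open Crest.Agent.R116.LZg725 (Cf)
open Crest.Agent.R116.Ma448 (PL)
open Crest.Agent.R116.Gc192 (un crs)

/-- cell of a slope. -/
noncomputable def cel (φ : ℝ) (C : E2) : ℤ × ℤ := (⌊C 0 / φ⌋, ⌊C 1 / φ⌋)

theorem norm2_le' {x : E2} {a : ℝ} (ha : 0 ≤ a) (h0 : |x 0| ≤ a) (h1 : |x 1| ≤ a) : ‖x‖ ≤ 2 * a := by
  rw [EuclideanSpace.norm_eq, Real.sqrt_le_left (by positivity)]
  simp only [Fin.sum_univ_two, Real.norm_eq_abs, sq_abs]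
  have h0' := sq_le_sq' (by linarith [abs_le.mp h0]) (abs_le.mp h0).2
  have h1' := sq_le_sq' (by linarith [abs_le.mp h1]) (abs_le.mp h1).2
  nlinarith

theorem floor_close {φ x y : ℝ} (hφ : 0 < φ) (h : ⌊x / φ⌋ = ⌊y / φ⌋) : |x - y| ≤ φ := by
  have h1 := Int.abs_sub_lt_one_of_floor_eq_floor h
  rw [← sub_div, abs_div, abs_of_pos hφ, div_lt_one hφ] at h1
  exact h1.le

theorem cel_close {φ : ℝ} (hφ : 0 < φ) {C C' : E2} (h : cel φ C = cel φ C') : ‖C - C'‖ ≤ 2 * φ := by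
  unfold cel at h
  obtain ⟨h0, h1⟩ := Prod.mk.inj h
  exact norm2_le' hφ.le (by simpa using floor_close hφ h0) (by simpa using floor_close hφ h1)

theorem floor_near {φ x y : ℝ} (hφ : 0 < φ) (h : |x - y| ≤ φ) :
    ⌊x / φ⌋ ∈ Finset.Icc (⌊y / φ⌋ - 1) (⌊y / φ⌋ + 1) := by
  have h1 := abs_le.1 h
  have h2 : x / φ ≤ y / φ + 1 := by
    rw [div_add_one hφ.ne']
    exact div_le_div_of_nonneg_right (by linarith) hφ.le
  have h3 : y / φ ≤ x / φ + 1 := by
    rw [div_add_one hφ.ne']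
    exact div_le_div_of_nonneg_right (by linarith) hφ.le
  have h4 : ⌊x / φ⌋ ≤ ⌊y / φ⌋ + 1 := by
    rw [← Int.floor_add_one]; exact Int.floor_le_floor h2
  have h5 : ⌊y / φ⌋ ≤ ⌊x / φ⌋ + 1 := by
    rw [← Int.floor_add_one]; exact Int.floor_le_floor h3
  rw [Finset.mem_Icc]
  constructor <;> omega

/-- slopes in two balls of radius `φ` meet at most `18` cells of size `φ`. -/
theorem card_cel {φ : ℝ} (hφ : 0 < φ) (S T : Finset E2) (hT : T.card ≤ 2)
    (h : ∀ C ∈ S, ∃ C' ∈ T, ‖C - C'‖ ≤ φ) : (S.image (cel φ)).card ≤ 18 := by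
  classical
  set bx : E2 → Finset (ℤ × ℤ) := fun C' =>
    Finset.Icc (⌊C' 0 / φ⌋ - 1) (⌊C' 0 / φ⌋ + 1) ×ˢ Finset.Icc (⌊C' 1 / φ⌋ - 1) (⌊C' 1 / φ⌋ + 1)
    with hbx
  have hc : ∀ C', (bx C').card = 9 := by
    intro C'
    rw [hbx, Finset.card_product, Int.card_Icc, Int.card_Icc]
    have e1 : ∀ a : ℤ, (a + 1 + 1 - (a - 1)).toNat = 3 := fun a => by
      have : a + 1 + 1 - (a - 1) = 3 := by ring
      rw [this]; rfl
    rw [e1, e1]
  have hsub : S.image (cel φ) ⊆ T.biUnion bx := by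
    intro k hk
    obtain ⟨C, hC, rfl⟩ := Finset.mem_image.1 hk
    obtain ⟨C', hC', hd⟩ := h C hC
    rw [Finset.mem_biUnion]
    refine ⟨C', hC', ?_⟩
    have h0 : |C 0 - C' 0| ≤ φ := by
      have := (PiLp.norm_apply_le (C - C') 0).trans hd
      simpa using this
    have h1 : |C 1 - C' 1| ≤ φ := by
      have := (PiLp.norm_apply_le (C - C') 1).trans hd
      simpa using this
    rw [hbx, Finset.mem_product]
    exact ⟨floor_near hφ h0, floor_near hφ h1⟩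
  calc (S.image (cel φ)).card ≤ (T.biUnion bx).card := Finset.card_le_card hsub
    _ ≤ ∑ C' ∈ T, (bx C').card := Finset.card_biUnion_le
    _ = T.card * 9 := by rw [Finset.sum_congr rfl fun C' _ => hc C', Finset.sum_const, smul_eq_mul]
    _ ≤ 2 * 9 := Nat.mul_le_mul_right 9 hT
    _ = 18 := rfl

/-! ### conformal functions on planks -/

section plank

variable {r w B : ℝ} {C : E2} {y X : E3} {t : ℝ}

theorem plank_time (h : (X, t) ∈ PL r w B C (lat y) (CDef480.nrm C y 0)) : |t| ≤ r := h.1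

/-- the ray derivative. -/
theorem plank_ld (f : Cf E2) (h : (X, t) ∈ PL r w B C (lat y) (CDef480.nrm C y 0)) :
    |f.ld C (lat X) (X 2) t - f.ld C (lat y) (y 2) 0| ≤ 2 * |f.d| * B := by
  obtain ⟨-, -, h3⟩ := h
  simp only at h3
  rw [f.ld_move C (lat y) (lat X) (y 2) (X 2) 0 t]
  have e : f.ld C (lat y) (y 2) 0 - 2 * f.d * (LZg725.nrm C (lat X) (X 2) t -
      LZg725.nrm C (lat y) (y 2) 0) - f.ld C (lat y) (y 2) 0 =
      -(2 * f.d * (CDef480.nrm C X t - CDef480.nrm C y 0)) := by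
    rw [LZg725.nrm_eq, LZg725.nrm_eq]; ring
  rw [e, abs_neg, abs_mul, abs_mul, abs_two]
  exact mul_le_mul_of_nonneg_left h3 (by positivity)

/-- the lateral gradient. -/
theorem plank_gr (f : Cf E2) (h : (X, t) ∈ PL r w B C (lat y) (CDef480.nrm C y 0)) :
    ‖f.gr C (lat X) t - f.gr C (lat y) 0‖ ≤ 2 * |f.d| * w := by
  obtain ⟨-, h2, -⟩ := h
  simp only at h2
  rw [f.gr_move C (lat y) (lat X) 0 t, add_sub_cancel_left, norm_smul, Real.norm_eq_abs, abs_mul,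
    abs_two]
  refine mul_le_mul_of_nonneg_left ?_ (by positivity)
  have e : lat X - lat y + (t - 0) • C = lat X - (lat y - t • C) := by
    rw [sub_zero]; abel
  rw [e]; exact h2

/-- the value. -/
theorem plank_ev (f : Cf E2) (h : (X, t) ∈ PL r w B C (lat y) (CDef480.nrm C y 0)) {G : ℝ}
    (hG : ‖f.gr C (lat y) 0‖ ≤ G) {η : ℝ} (hη : |f.ny t| ≤ η) :
    |f.ev (lat X) (X 2) t| ≤ |f.ev (lat y) (y 2) 0| + r * |f.ld C (lat y) (y 2) 0| +
      (G * w + η * B + |f.d| * w ^ 2) := by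
  obtain ⟨h1, h2, h3⟩ := h
  simp only at h1 h2 h3
  have hr : 0 ≤ r := (abs_nonneg _).trans h1
  have hw : 0 ≤ w := (norm_nonneg _).trans h2
  have hB : 0 ≤ B := (abs_nonneg _).trans h3
  set x1 : E2 := lat y - t • C with hx1
  set y1 : ℝ := y 2 + t * ‖C‖ ^ 2 / 2 with hy1
  have e1 : f.ev x1 y1 t = f.ev (lat y) (y 2) 0 + t * f.ld C (lat y) (y 2) 0 := by
    have := f.ev_along C (lat y) (y 2) 0 t
    rw [zero_add] at this
    exact this
  have hgr : f.gr C x1 t = f.gr C (lat y) 0 := by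
    rw [f.gr_move C (lat y) x1 0 t, hx1]
    simp
  have hn1 : LZg725.nrm C x1 y1 t = CDef480.nrm C y 0 := by
    rw [LZg725.nrm_eq, hx1, hy1]
    unfold LZg725.nrm
    rw [inner_sub_right, real_inner_smul_right, real_inner_self_eq_norm_sq]
    ring
  have e2 : f.ev (lat X) (X 2) t = f.ev x1 y1 t + inner ℝ (f.gr C x1 t) (lat X - x1) +
      f.ny t * (CDef480.nrm C X t - CDef480.nrm C y 0) + f.d * ‖lat X - x1‖ ^ 2 := by
    rw [← hn1, LZg725.nrm_eq]
    unfold Cf.ev Cf.gr Cf.ny LZg725.nrm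
    simp only [norm_sub_sq_real, inner_sub_right, inner_sub_left, inner_add_left,
      real_inner_smul_left, real_inner_self_eq_norm_sq]
    rw [real_inner_comm x1 (lat X)]
    ring
  rw [e2, e1, hgr]
  have k1 : |inner ℝ (f.gr C (lat y) 0) (lat X - x1)| ≤ G * w :=
    (abs_real_inner_le_norm _ _).trans (mul_le_mul hG h2 (norm_nonneg _) ((norm_nonneg _).trans hG))
  have k2 : |f.ny t * (CDef480.nrm C X t - CDef480.nrm C y 0)| ≤ η * B := by
    rw [abs_mul]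
    exact mul_le_mul hη h3 (abs_nonneg _) ((abs_nonneg _).trans hη)
  have k3 : |f.d * ‖lat X - x1‖ ^ 2| ≤ |f.d| * w ^ 2 := by
    rw [abs_mul, abs_of_nonneg (sq_nonneg ‖lat X - x1‖)]
    exact mul_le_mul_of_nonneg_left (pow_le_pow_left₀ (norm_nonneg _) h2 2) (abs_nonneg _)
  have k4 : |t * f.ld C (lat y) (y 2) 0| ≤ r * |f.ld C (lat y) (y 2) 0| := by
    rw [abs_mul]
    exact mul_le_mul_of_nonneg_right h1 (abs_nonneg _)
  have t1 := abs_add_le (f.ev (lat y) (y 2) 0 + t * f.ld C (lat y) (y 2) 0 +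
    inner ℝ (f.gr C (lat y) 0) (lat X - x1) +
      f.ny t * (CDef480.nrm C X t - CDef480.nrm C y 0)) (f.d * ‖lat X - x1‖ ^ 2)
  have t2 := abs_add_le (f.ev (lat y) (y 2) 0 + t * f.ld C (lat y) (y 2) 0 +
    inner ℝ (f.gr C (lat y) 0) (lat X - x1))
      (f.ny t * (CDef480.nrm C X t - CDef480.nrm C y 0))
  have t3 := abs_add_le (f.ev (lat y) (y 2) 0 + t * f.ld C (lat y) (y 2) 0)
    (inner ℝ (f.gr C (lat y) 0) (lat X - x1))
  have t4 := abs_add_le (f.ev (lat y) (y 2) 0) (t * f.ld C (lat y) (y 2) 0)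
  linarith

/-- the lateral gradient of a ray inside a slab. -/
theorem gr_of_small (f : Cf E2) (hd : f.disc = 1) {C x : E2} {y s e : ℝ}
    (h : |2 * f.ny s * f.ld C x y s| + |4 * f.d * f.ev x y s| ≤ e) :
    |‖f.gr C x s‖ ^ 2 - 1| ≤ e := by
  have e1 := f.norm_gr_sq C x y s
  rw [hd] at e1
  rw [e1]
  have : 1 + 2 * f.ny s * f.ld C x y s + 4 * f.d * f.ev x y s - 1 =
      2 * f.ny s * f.ld C x y s + 4 * f.d * f.ev x y s := by ring
  rw [this]
  exact (abs_add_le _ _).trans h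

end plank

/-! ### arcs at one point -/

/-- **at one point the slopes common to two strips with transversal normals meet at most `18`
cells**. -/
theorem arcs_le {p q : Cf E2} {x : E2} {y s h k M δ φ : ℝ} (hk : 0 < k) (hδ : 0 < δ) (hh : 0 ≤ h)
    (hφ : 0 < φ) (hφ1 : 4 * M * h / (k ^ 2 * δ) ≤ φ) (S : Finset E2)
    (h1 : ∀ C ∈ S, |p.ld C x y s| ≤ h) (h2 : ∀ C ∈ S, |q.ld C x y s| ≤ h)
    (m1 : ∀ C ∈ S, ‖p.gr C x s‖ ≤ M) (m2 : ∀ C ∈ S, ‖q.gr C x s‖ ≤ M)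
    (k1 : ∀ C ∈ S, k ≤ ‖p.gr C x s‖) (k2 : ∀ C ∈ S, k ≤ ‖q.gr C x s‖)
    (hs : ∀ C ∈ S, δ ≤ |crs (un p C x s) (un q C x s)|) : (S.image (cel φ)).card ≤ 18 := by
  obtain ⟨T, -, hT, hcl⟩ := Gc192.mis_two hk hδ hh S h1 h2 m1 m2 k1 k2 hs
  refine card_cel hφ S T hT fun C hC => ?_
  obtain ⟨C', hC', hd⟩ := hcl C hC
  exact ⟨C', hC', hd.trans hφ1⟩

end Crest.Agent.R116.Mc330
end

-- ▼ part R116/Mc3_330
section

/-!
# R116: MIS on the cone, part 3 (helper330): the finite form `mis_fin`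

Weighted packets (planks `PL r w B` of the rays `(C i, y i)`, masses `μ i`), partitioned into own
plates `pl i` (regions `X p`) and fractionally distributed to test plates `a` (regions `Z a`).
Hypotheses: isotropic D-max (`hiso`), dense own plates, rich test plates, arcs (`hN`), Kakeya for the
slope caps (`hKM`).  Conclusion: the total mass of the test plates is small.
-/

set_option autoImplicit false

open MeasureTheory
open scoped ENNReal

namespace Crest.Agent.R116.Mc330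

open Crest.Agent.R138.Defs (E2)
open Crest.Agent.R116.CDef480 (E3 lat pt vel)
open Crest.Agent.R116.Ma448 (PL BX pv)

/-- the packet of the ray `(C, y)` of mass `ν`. -/
noncomputable def pkc (r w B : ℝ) (C : E2) (y : E3) (ν : ℝ) : E3 × ℝ → ℝ≥0∞ :=
  Ma448.pk r w B C (lat y) (CDef480.nrm C y 0) ν

/-- plank of the ray `(C, y)`. -/
def PLc (r w B : ℝ) (C : E2) (y : E3) : Set (E3 × ℝ) := PL r w B C (lat y) (CDef480.nrm C y 0)

theorem measurable_pkc (r w B : ℝ) (C : E2) (y : E3) (ν : ℝ) : Measurable (pkc r w B C y ν) :=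
  Ma448.measurable_pk _ _ _ _ _ _ _

theorem pkc_zero {r w B : ℝ} {C : E2} {y : E3} {ν : ℝ} {x : E3 × ℝ} (h : x ∉ PLc r w B C y) :
    pkc r w B C y ν x = 0 :=
  Set.indicator_of_notMem (s := PLc r w B C y) h (fun _ => ENNReal.ofReal ν)

theorem mem_of_pkc {r w B : ℝ} {C : E2} {y : E3} {ν : ℝ} {x : E3 × ℝ}
    (h : pkc r w B C y ν x ≠ 0) : x ∈ PLc r w B C y := by
  by_contra hn
  exact h (pkc_zero hn)

theorem pkc_ne_top (r w B : ℝ) (C : E2) (y : E3) (ν : ℝ) (x : E3 × ℝ) : pkc r w B C y ν x ≠ ∞ := by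
  unfold pkc Ma448.pk
  by_cases h : x ∈ PL r w B C (lat y) (CDef480.nrm C y 0)
  · rw [Set.indicator_of_mem h]; exact ENNReal.ofReal_ne_top
  · rw [Set.indicator_of_notMem h]; exact ENNReal.zero_ne_top

/-- volume of a plank, real form. -/
noncomputable def v0 (r w B : ℝ) : ℝ := (ENNReal.ofReal (2 * r) * pv w B).toReal

theorem ofReal_v0 (r w B : ℝ) : ENNReal.ofReal (v0 r w B) = ENNReal.ofReal (2 * r) * pv w B := by
  unfold v0
  rw [ENNReal.ofReal_toReal]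
  exact (ENNReal.mul_lt_top ENNReal.ofReal_lt_top (Ma448.pv_lt_top w B)).ne

theorem lint_pkc (r w B : ℝ) (C : E2) (y : E3) (ν : ℝ) :
    ∫⁻ p, pkc r w B C y ν p = ENNReal.ofReal ν * ENNReal.ofReal (v0 r w B) := by
  rw [ofReal_v0]
  exact Ma448.lint_pk _ _ _ _ _ _ _


/-! ### grid of slopes -/

/-- lattice point. -/
noncomputable def ltp (s : ℝ) (k : ℤ × ℤ) : E2 := !₂[s * k.1, s * k.2]

theorem ltp_close {s : ℝ} (hs : 0 < s) (c : E2) : ‖c - ltp s (cel s c)‖ ≤ 2 * s := by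
  have key : ∀ t : ℝ, |t - s * (⌊t / s⌋ : ℤ)| ≤ s := by
    intro t
    have h1 := Int.floor_le (t / s)
    have h2 := Int.lt_floor_add_one (t / s)
    rw [le_div_iff₀ hs] at h1
    rw [div_lt_iff₀ hs] at h2
    rw [abs_le]
    constructor <;> nlinarith
  refine norm2_le' hs.le ?_ ?_
  · simpa [ltp, cel] using key (c 0)
  · simpa [ltp, cel] using key (c 1)

theorem card_ltp {s : ℝ} (hs : 0 < s) (K : Finset (ℤ × ℤ)) (c : E2) :
    (K.filter fun k => ‖c - ltp s k‖ ≤ 7 * s).card ≤ 225 := by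
  have hsub : (K.filter fun k => ‖c - ltp s k‖ ≤ 7 * s) ⊆
      Finset.Icc (⌊c 0 / s⌋ - 7) (⌊c 0 / s⌋ + 7) ×ˢ Finset.Icc (⌊c 1 / s⌋ - 7) (⌊c 1 / s⌋ + 7) := by
    intro k hk
    have h := (Finset.mem_filter.1 hk).2
    have key : ∀ (t : ℝ) (a : ℤ), |t - s * a| ≤ 7 * s →
        a ∈ Finset.Icc (⌊t / s⌋ - 7) (⌊t / s⌋ + 7) := by
      intro t a ht
      obtain ⟨h1, h2⟩ := abs_le.1 ht
      have h3 : t / s ≤ a + 7 := by
        rw [div_le_iff₀ hs]; nlinarith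
      have h4 : (a : ℝ) ≤ t / s + 7 := by
        have : (a : ℝ) - 7 ≤ t / s := by
          rw [le_div_iff₀ hs]; nlinarith
        linarith
      have h5 := Int.floor_le (t / s)
      have h6 := Int.lt_floor_add_one (t / s)
      rw [Finset.mem_Icc]
      constructor
      · have : (⌊t / s⌋ : ℝ) ≤ ((a + 7 : ℤ) : ℝ) := by push_cast; linarith
        have := Int.cast_le.1 this
        omega
      · have : (a : ℝ) < ((⌊t / s⌋ + 8 : ℤ) : ℝ) := by push_cast; linarith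
        have := Int.cast_lt.1 this
        omega
    have h0 : |c 0 - s * k.1| ≤ 7 * s := by
      have := (PiLp.norm_apply_le (c - ltp s k) 0).trans h
      simpa [ltp] using this
    have h1 : |c 1 - s * k.2| ≤ 7 * s := by
      have := (PiLp.norm_apply_le (c - ltp s k) 1).trans h
      simpa [ltp] using this
    rw [Finset.mem_product]
    exact ⟨key _ _ h0, key _ _ h1⟩
  refine (Finset.card_le_card hsub).trans ?_
  rw [Finset.card_product, Int.card_Icc, Int.card_Icc]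
  have e : ∀ a : ℤ, (a + 7 + 1 - (a - 7)).toNat = 15 := fun a => by
    have : a + 7 + 1 - (a - 7) = 15 := by ring
    rw [this]; rfl
  rw [e, e]

theorem card_img {ι : Type*} {S T : Finset ι} (g : ι → ℤ × ℤ) (h : S ⊆ T)
    (d : DecidableEq (ℤ × ℤ)) : (@Finset.image _ _ d g S).card ≤
      (@Finset.image _ _ instDecidableEqProd g T).card := by
  have hd : d = instDecidableEqProd := Subsingleton.elim _ _
  subst hd
  exact Finset.card_le_card (Finset.image_subset_image h)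

/-- the Cordoba constant. -/
noncomputable def K0c (r w B φ q D : ℝ) : ℝ :=
  4 * (w / r) * (D * (2 * φ) * (B * r ^ 2)) * (2 * φ) ^ q * (1 - 2 ^ (-q))⁻¹

theorem one_sub_pos {q : ℝ} (hq : 0 < q) : 0 < (1 : ℝ) - 2 ^ (-q) := by
  have : (2 : ℝ) ^ (-q) < 1 := Real.rpow_lt_one_of_one_lt_of_neg (by norm_num) (by linarith)
  linarith

theorem K0c_pos {r w B φ q D : ℝ} (hr : 0 < r) (hw : 0 < w) (hB : 0 < B) (hφ : 0 < φ) (hq : 0 < q)
    (hD : 0 < D) : 0 < K0c r w B φ q D := by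
  have := one_sub_pos hq
  unfold K0c
  positivity

/-- the number of own plates through a typical point of a test plate, times the density. -/
noncomputable def tt (r w B φ q D MX MZ VX VZ κ1 : ℝ) : ℝ :=
  (MZ * v0 r w B / VZ) * (κ1 * (MX * v0 r w B / VX)) / (256 * 18 * K0c r w B φ q D)

open Classical in
/-- sum over the caps. -/
theorem sum_caps {ι β : Type*} (K : Finset β) (Ik : β → Finset ι) (I : Finset ι) {N : ℕ}
    (hsub : ∀ k ∈ K, Ik k ⊆ I) (hN : ∀ i ∈ I, (K.filter fun k => i ∈ Ik k).card ≤ N)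
    (g : ι → ℝ≥0∞) : ∑ k ∈ K, ∑ i ∈ Ik k, g i ≤ N * ∑ i ∈ I, g i := by
  have h1 : ∀ k ∈ K, ∑ i ∈ Ik k, g i = ∑ i ∈ I, if i ∈ Ik k then g i else 0 := by
    intro k hk
    rw [← Finset.sum_filter]
    congr 1
    ext i
    rw [Finset.mem_filter]
    exact ⟨fun h => ⟨hsub k hk h, h⟩, fun h => h.2⟩
  rw [Finset.sum_congr rfl h1, Finset.sum_comm, Finset.mul_sum]
  refine Finset.sum_le_sum fun i hi => ?_
  rw [← Finset.sum_filter, Finset.sum_const, nsmul_eq_mul]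
  exact mul_le_mul' (by exact_mod_cast hN i hi) le_rfl

set_option maxHeartbeats 1000000 in
open Classical in
/-- **MIS, finite form**. -/
theorem mis_fin {ι κ' α : Type*} {r w B φ q D s mult MX MZ VX VZ K1 κ1 : ℝ}
    (hr : 0 < r) (hw : 0 < w) (hB : 0 < B) (hφ : 0 < φ) (hwφ : w ≤ r * (2 * φ))
    (h1 : w * (2 * φ) ≤ B) (h2 : r * (2 * φ) ^ 2 ≤ B) (hq : 0 < q) (hD : 0 < D) (hs : 0 < s)
    (hmult0 : 0 ≤ mult) (hMX : 0 < MX) (hMZ : 0 < MZ) (hVX : 0 < VX) (hVZ : 0 < VZ) (hK1 : 0 ≤ K1)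
    (hκ1 : 0 < κ1) (hv0 : 0 < v0 r w B)
    (I : Finset ι) (C : ι → E2) (y : ι → E3) (μ : ι → ℝ) (hμ : ∀ i, 0 ≤ μ i)
    (pl : ι → κ') (J : Finset α) (om : α → ι → ℝ) (hom0 : ∀ a i, 0 ≤ om a i)
    (hom1 : ∀ a i, om a i ≤ 1) (cA : α → E2)
    (hiso : ∀ i ∈ I, ∀ ψ : ℝ, w ≤ r * ψ → ψ ≤ 2 * φ →
      ∑ i' ∈ I with BX r B ψ (C i) (lat (y i)) (CDef480.nrm (C i) (y i) 0) (C i') (lat (y i'))
        (CDef480.nrm (C i') (y i') 0), μ i' ≤ D * ψ ^ q * (ψ ^ 2 * (B * r ^ 2)))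
    (hown : ∀ i ∈ I, ∀ i' ∈ I, pl i = pl i' → ‖C i - C i'‖ ≤ 4 * s)
    (htest : ∀ a ∈ J, ∀ i ∈ I, om a i ≠ 0 → ‖C i - cA a‖ ≤ s)
    (X : κ' → Set (E3 × ℝ)) (hX : ∀ i ∈ I, PLc r w B (C i) (y i) ⊆ X (pl i))
    (hXv : ∀ i ∈ I, volume (X (pl i)) ≤ ENNReal.ofReal VX)
    (Z : α → Set (E3 × ℝ)) (hZ : ∀ a ∈ J, ∀ i ∈ I, om a i ≠ 0 → PLc r w B (C i) (y i) ⊆ Z a)
    (hZv : ∀ a ∈ J, volume (Z a) ≤ ENNReal.ofReal VZ)
    (hdens : ∀ i ∈ I, MX ≤ ∑ i' ∈ I with pl i' = pl i, μ i')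
    (hmass : ∀ a ∈ J, MZ ≤ ∑ i ∈ I, om a i * μ i)
    (hN : ∀ a ∈ J, ∀ x p, ((I.filter fun i => pl i = p ∧ om a i ≠ 0 ∧
      x ∈ PLc r w B (C i) (y i)).image (fun i => cel φ (C i))).card ≤ 18)
    (hmult : ∀ i ∈ I, ∑ a ∈ J, om a i ≤ mult)
    (hKM : ∀ (C0 : E2) (I' : Finset ι), I' ⊆ I → (∀ i ∈ I', ‖C i - C0‖ ≤ 8 * s) →
      ∫⁻ x, (∑ i ∈ I', pkc r w B (C i) (y i) (μ i) x) ^ (3/2 : ℝ) ≤
        ENNReal.ofReal (K1 * ∑ i ∈ I', μ i)) :
    (∑ a ∈ J, ∑ i ∈ I, om a i * μ i) * v0 r w B ≤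
      225 * mult * (4 * ((tt r w B φ q D MX MZ VX VZ κ1) ^ (-(1/2) : ℝ) * K1) +
        16 * κ1 * v0 r w B) * ∑ i ∈ I, μ i := by
  set K0 : ℝ := K0c r w B φ q D with hK0
  have pK0 : 0 < K0 := K0c_pos hr hw hB hφ hq hD
  set v : ℝ := v0 r w B with hv
  set t : ℝ := tt r w B φ q D MX MZ VX VZ κ1 with ht
  have pt : 0 < t := by
    rw [ht]; unfold tt
    have := hv0
    have := pK0
    positivity
  set f : ι → E3 × ℝ → ℝ≥0∞ := fun i => pkc r w B (C i) (y i) (μ i) with hf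
  have hfm : ∀ i, Measurable (f i) := fun i => measurable_pkc _ _ _ _ _ _
  have hfi : ∀ i, ∫⁻ x, f i x = ENNReal.ofReal (μ i) * ENNReal.ofReal v := fun i =>
    lint_pkc _ _ _ _ _ _
  have hfi' : ∀ i, ∫⁻ x, f i x ≠ ∞ := fun i => by
    rw [hfi]; exact ENNReal.mul_ne_top ENNReal.ofReal_ne_top ENNReal.ofReal_ne_top
  set om' : α → ι → ℝ≥0∞ := fun a i => ENNReal.ofReal (om a i) with hom'
  have hom1' : ∀ a i, om' a i ≤ 1 := fun a i => by
    rw [hom', ← ENNReal.ofReal_one]; exact ENNReal.ofReal_le_ofReal (hom1 a i)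
  have homne : ∀ {a i}, om' a i ≠ 0 → om a i ≠ 0 := fun {a i} h h0 => h (by
    simp only [hom', h0, ENNReal.ofReal_zero])
  -- caps
  set K : Finset (ℤ × ℤ) := J.image (fun a => cel s (cA a)) with hK
  set Ik : ℤ × ℤ → Finset ι := fun k =>
    I.filter (fun i => ∃ i' ∈ I, pl i' = pl i ∧ ‖C i' - ltp s k‖ ≤ 3 * s) with hIk
  have hIkI : ∀ k, Ik k ⊆ I := fun k => Finset.filter_subset _ _
  have hIkc : ∀ k, ∀ i ∈ Ik k, ‖C i - ltp s k‖ ≤ 7 * s := by
    intro k i hi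
    obtain ⟨hiI, i', hi', hpl, hc⟩ := Finset.mem_filter.1 hi
    have h3 := hown i hiI i' hi' hpl.symm
    have e : C i - ltp s k = (C i - C i') + (C i' - ltp s k) := by abel
    rw [e]
    refine (norm_add_le _ _).trans ?_
    linarith
  set Jk : ℤ × ℤ → Finset α := fun k => J.filter (fun a => cel s (cA a) = k) with hJk
  have hin : ∀ k, ∀ a ∈ Jk k, ∀ i ∈ I, om a i ≠ 0 → i ∈ Ik k := by
    intro k a ha i hi h0
    obtain ⟨haJ, hak⟩ := Finset.mem_filter.1 ha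
    rw [hIk, Finset.mem_filter]
    refine ⟨hi, i, hi, rfl, ?_⟩
    have h3 := htest a haJ i hi h0
    have h4 := ltp_close hs (cA a)
    rw [hak] at h4
    have e : C i - ltp s k = (C i - cA a) + (cA a - ltp s k) := by abel
    rw [e]
    refine (norm_add_le _ _).trans ?_
    linarith
  have hsumk : ∀ k, ∀ a ∈ Jk k, ∑ i ∈ I, om' a i * ∫⁻ x, f i x =
      ∑ i ∈ Ik k, om' a i * ∫⁻ x, f i x := by
    intro k a ha
    symm
    apply Finset.sum_subset (hIkI k)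
    intro i hi hni
    by_cases h0 : om' a i = 0
    · rw [h0, zero_mul]
    · exact absurd (hin k a ha i hi (homne h0)) hni
  -- one cap
  have hone : ∀ k ∈ K, ∑ a ∈ Jk k, ∑ i ∈ I, om' a i * ∫⁻ x, f i x ≤
      4 * ENNReal.ofReal mult * (ENNReal.ofReal t ^ (-(1/2) : ℝ) *
        ENNReal.ofReal (K1 * ∑ i ∈ Ik k, μ i)) +
      16 * ENNReal.ofReal mult * (ENNReal.ofReal κ1 / 1) * ∑ i ∈ Ik k, ∫⁻ x, f i x := by
    intro k hk
    rw [Finset.sum_congr rfl (hsumk k)]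
    refine Ma448.mis_abs (ν := volume) (Ik k) f pl (Jk k) om' (fun _ i => cel φ (C i)) hfm
      (fun i _ x => pkc_ne_top _ _ _ _ _ _ _) (fun i _ => hfi' i) hom1'
      (ENNReal.ofReal (MX * v / VX)) (ENNReal.ofReal (MZ * v / VZ)) (ENNReal.ofReal K0)
      (ENNReal.ofReal κ1) 1 (ENNReal.ofReal mult) _ (ENNReal.ofReal t) 18 (by norm_num)
      (ENNReal.ofReal_ne_zero_iff.2 pK0) ENNReal.ofReal_ne_top one_ne_zero ENNReal.one_ne_top
      X ?_ ?_ Z ?_ ?_ ?_ ?_ ?_ ?_ (ENNReal.ofReal_ne_zero_iff.2 pt) ENNReal.ofReal_ne_top ?_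
    · intro i hi x hx
      exact pkc_zero fun h => hx (hX i (hIkI k hi) h)
    · intro i hi
      have e1 : (Ik k).filter (fun i' => pl i' = pl i) = I.filter (fun i' => pl i' = pl i) := by
        ext i'
        simp only [Finset.mem_filter, hIk]
        constructor
        · rintro ⟨⟨h3, -⟩, h4⟩
          exact ⟨h3, h4⟩
        · rintro ⟨h3, h4⟩
          obtain ⟨-, i2, h5, h6, h7⟩ := Finset.mem_filter.1 hi
          exact ⟨⟨h3, i2, h5, h6.trans h4.symm, h7⟩, h4⟩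
      rw [e1, one_mul]
      have e2 : ∑ i' ∈ I with pl i' = pl i, ∫⁻ x, f i' x =
          ENNReal.ofReal ((∑ i' ∈ I with pl i' = pl i, μ i') * v) := by
        rw [Finset.sum_congr rfl fun i' _ => hfi i', ← Finset.sum_mul,
          ← ENNReal.ofReal_sum_of_nonneg fun i' _ => hμ i', ← ENNReal.ofReal_mul
          (Finset.sum_nonneg fun i' _ => hμ i')]
      rw [e2]
      refine (mul_le_mul' le_rfl (hXv i (hIkI k hi))).trans ?_
      rw [← ENNReal.ofReal_mul (by positivity)]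
      refine ENNReal.ofReal_le_ofReal ?_
      rw [div_mul_cancel₀ _ hVX.ne']
      exact mul_le_mul_of_nonneg_right (hdens i (hIkI k hi)) hv0.le
    · intro a ha i hi h0 x hx
      exact pkc_zero fun h => hx (hZ a (Finset.mem_filter.1 ha).1 i (hIkI k hi) (homne h0) h)
    · intro a ha
      have haJ := (Finset.mem_filter.1 ha).1
      rw [← hsumk k a ha]
      have e2 : ∑ i ∈ I, om' a i * ∫⁻ x, f i x =
          ENNReal.ofReal ((∑ i ∈ I, om a i * μ i) * v) := by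
        have e3 : ∀ i ∈ I, om' a i * ∫⁻ x, f i x =
            ENNReal.ofReal (om a i * μ i) * ENNReal.ofReal v := fun i _ => by
          rw [hfi, ENNReal.ofReal_mul (hom0 a i)]; ring
        rw [Finset.sum_congr rfl e3, ← Finset.sum_mul,
          ← ENNReal.ofReal_sum_of_nonneg fun i _ => mul_nonneg (hom0 a i) (hμ i),
          ← ENNReal.ofReal_mul (Finset.sum_nonneg fun i _ => mul_nonneg (hom0 a i) (hμ i))]
      rw [e2]
      refine (mul_le_mul' le_rfl (hZv a haJ)).trans ?_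
      rw [← ENNReal.ofReal_mul (by positivity)]
      refine ENNReal.ofReal_le_ofReal ?_
      rw [div_mul_cancel₀ _ hVZ.ne']
      exact mul_le_mul_of_nonneg_right (hmass a haJ) hv0.le
    · -- Cordoba
      intro a ha i hi h0
      have hiI := hIkI k hi
      set Jc : Finset ι := I.filter (fun i' => ‖C i' - C i‖ ≤ 2 * φ) with hJc
      have hΛ : 0 ≤ D * (2 * φ) * (B * r ^ 2) := by positivity
      have hcd := Ma448.cord Jc C (fun i => lat (y i)) (fun i => CDef480.nrm (C i) (y i) 0) μ hμ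
        hr hw hwφ h1 h2 hq hΛ i (fun i' hi' => (Finset.mem_filter.1 hi').2) (fun ψ hψ1 hψ2 => by
          have hψ0 : 0 < ψ := by
            by_contra hn
            have := mul_nonpos_of_nonneg_of_nonpos hr.le (not_lt.1 hn)
            linarith
          refine le_trans ?_ ((hiso i hiI ψ hψ1 hψ2).trans ?_)
          · refine Finset.sum_le_sum_of_subset_of_nonneg ?_ fun i' _ _ => hμ i'
            intro i' hi'
            rw [Finset.mem_filter] at hi' ⊢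
            exact ⟨(Finset.mem_filter.1 hi'.1).1, hi'.2⟩
          · have e : D * (2 * φ) * (B * r ^ 2) * (ψ * ψ ^ q) =
              D * ψ ^ q * ((ψ * (2 * φ)) * (B * r ^ 2)) := by ring
            rw [e]
            have hq0 : 0 ≤ ψ ^ q := Real.rpow_nonneg hψ0.le _
            refine mul_le_mul_of_nonneg_left (mul_le_mul_of_nonneg_right ?_ (by positivity))
              (by positivity)
            nlinarith)
      refine le_trans (lintegral_mono fun x => mul_le_mul' le_rfl ?_) hcd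
      unfold Ma448.ba
      refine (Finset.sum_le_sum (g := fun i' => f i' x) fun i' _ => ?_).trans
        (Finset.sum_le_sum_of_subset fun i' hi' => ?_)
      · calc om' a i' * f i' x ≤ 1 * f i' x := mul_le_mul' (hom1' a i') le_rfl
          _ = f i' x := one_mul _
      · simp only [Finset.mem_filter] at hi'
        obtain ⟨h3, -, h5⟩ := hi'
        rw [hJc, Finset.mem_filter]
        exact ⟨hIkI k h3, cel_close hφ h5⟩
    · intro a ha x p
      refine le_trans (card_img (fun i => cel φ (C i)) ?_ _) (hN a (Finset.mem_filter.1 ha).1 x p)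
      intro i hi
      obtain ⟨h3, h4, h5, h6⟩ := Finset.mem_filter.1 hi
      rw [Finset.mem_filter]
      exact ⟨hIkI k h3, h4, homne h5, mem_of_pkc h6⟩
    · intro i hi
      rw [← ENNReal.ofReal_sum_of_nonneg fun a _ => hom0 a i]
      refine ENNReal.ofReal_le_ofReal (le_trans ?_ (hmult i (hIkI k hi)))
      exact Finset.sum_le_sum_of_subset_of_nonneg (Finset.filter_subset _ _) fun a _ _ => hom0 a i
    · refine hKM (ltp s k) (Ik k) (hIkI k) fun i hi => (hIkc k i hi).trans ?_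
      linarith
    · have e : (256 : ℝ≥0∞) * ((18 : ℕ) : ℝ≥0∞) * ENNReal.ofReal K0 =
          ENNReal.ofReal (256 * 18 * K0) := by
        rw [ENNReal.ofReal_mul (by norm_num), ENNReal.ofReal_mul (by norm_num)]
        norm_num
      rw [e, ← ENNReal.ofReal_mul pt.le, ← ENNReal.ofReal_mul hκ1.le,
        ← ENNReal.ofReal_mul (by positivity)]
      refine ENNReal.ofReal_le_ofReal (le_of_eq ?_)
      rw [ht]; unfold tt
      rw [← hK0, ← hv]
      field_simp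
  -- sum over the caps
  have hfib : ∑ a ∈ J, ∑ i ∈ I, om' a i * ∫⁻ x, f i x =
      ∑ k ∈ K, ∑ a ∈ Jk k, ∑ i ∈ I, om' a i * ∫⁻ x, f i x :=
    (Finset.sum_fiberwise_of_maps_to (fun a ha => Finset.mem_image_of_mem _ ha) _).symm
  have hcard : ∀ i ∈ I, (K.filter fun k => i ∈ Ik k).card ≤ 225 := by
    intro i _
    refine (Finset.card_le_card ?_).trans (card_ltp hs K (C i))
    intro k hk
    rw [Finset.mem_filter] at hk ⊢
    exact ⟨hk.1, hIkc k i hk.2⟩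
  have hcap := sum_caps K Ik I (fun k _ => hIkI k) hcard (fun i => ENNReal.ofReal (μ i))
  set m : ℝ := ∑ i ∈ I, μ i with hm
  have hm0 : 0 ≤ m := Finset.sum_nonneg fun i _ => hμ i
  have hmE : ∑ i ∈ I, ENNReal.ofReal (μ i) = ENNReal.ofReal m := by
    rw [hm, ENNReal.ofReal_sum_of_nonneg fun i _ => hμ i]
  have htot : ENNReal.ofReal ((∑ a ∈ J, ∑ i ∈ I, om a i * μ i) * v) ≤
      ENNReal.ofReal (225 * mult * (4 * (t ^ (-(1/2) : ℝ) * K1) + 16 * κ1 * v) * m) := by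
    have e1 : ENNReal.ofReal ((∑ a ∈ J, ∑ i ∈ I, om a i * μ i) * v) =
        ∑ a ∈ J, ∑ i ∈ I, om' a i * ∫⁻ x, f i x := by
      have h3 : ∀ a ∈ J, 0 ≤ ∑ i ∈ I, om a i * μ i := fun a _ =>
        Finset.sum_nonneg fun i _ => mul_nonneg (hom0 a i) (hμ i)
      rw [ENNReal.ofReal_mul (Finset.sum_nonneg h3), ENNReal.ofReal_sum_of_nonneg h3,
        Finset.sum_mul]
      refine Finset.sum_congr rfl fun a _ => ?_
      rw [ENNReal.ofReal_sum_of_nonneg fun i _ => mul_nonneg (hom0 a i) (hμ i), Finset.sum_mul]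
      refine Finset.sum_congr rfl fun i _ => ?_
      rw [hfi, ENNReal.ofReal_mul (hom0 a i)]
      ring
    rw [e1, hfib]
    refine (Finset.sum_le_sum hone).trans ?_
    have e2 : ∀ k ∈ K, 4 * ENNReal.ofReal mult * (ENNReal.ofReal t ^ (-(1/2) : ℝ) *
        ENNReal.ofReal (K1 * ∑ i ∈ Ik k, μ i)) +
      16 * ENNReal.ofReal mult * (ENNReal.ofReal κ1 / 1) * ∑ i ∈ Ik k, ∫⁻ x, f i x =
      ENNReal.ofReal (mult * (4 * (t ^ (-(1/2) : ℝ) * K1) + 16 * κ1 * v)) *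
        ∑ i ∈ Ik k, ENNReal.ofReal (μ i) := by
      intro k _
      have e3 : ∑ i ∈ Ik k, ∫⁻ x, f i x =
          ENNReal.ofReal v * ∑ i ∈ Ik k, ENNReal.ofReal (μ i) := by
        rw [Finset.sum_congr rfl fun i _ => hfi i, ← Finset.sum_mul, mul_comm]
      have e4 : ENNReal.ofReal t ^ (-(1/2) : ℝ) = ENNReal.ofReal (t ^ (-(1/2) : ℝ)) :=
        ENNReal.ofReal_rpow_of_pos pt
      have pt' : 0 ≤ t ^ (-(1/2) : ℝ) := Real.rpow_nonneg pt.le _
      rw [e3, e4, ENNReal.ofReal_mul hK1, ENNReal.ofReal_sum_of_nonneg fun i _ => hμ i, div_one,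
        ENNReal.ofReal_mul hmult0, ENNReal.ofReal_add (by positivity) (by positivity),
        ENNReal.ofReal_mul (by norm_num : (0:ℝ) ≤ 4), ENNReal.ofReal_mul pt',
        ENNReal.ofReal_mul (by positivity), ENNReal.ofReal_mul (by norm_num : (0:ℝ) ≤ 16)]
      simp only [ENNReal.ofReal_ofNat]
      ring
    rw [Finset.sum_congr rfl e2, ← Finset.mul_sum]
    refine (mul_le_mul' le_rfl hcap).trans (le_of_eq ?_)
    have pt' : 0 ≤ t ^ (-(1/2) : ℝ) := Real.rpow_nonneg pt.le _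
    rw [hmE]
    have e5 : 225 * mult * (4 * (t ^ (-(1/2) : ℝ) * K1) + 16 * κ1 * v) * m =
        (mult * (4 * (t ^ (-(1/2) : ℝ) * K1) + 16 * κ1 * v)) * (225 * m) := by ring
    rw [e5, ENNReal.ofReal_mul (p := mult * (4 * (t ^ (-(1/2) : ℝ) * K1) + 16 * κ1 * v))
      (by positivity), ENNReal.ofReal_mul (p := (225 : ℝ)) (by norm_num)]
    norm_num
  have pt' : 0 ≤ t ^ (-(1/2) : ℝ) := Real.rpow_nonneg pt.le _
  exact (ENNReal.ofReal_le_ofReal_iff (by positivity)).1 htot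

end Crest.Agent.R116.Mc330
end

-- ▼ part R116/Mc4_330
section

/-!
# R116 (S0155), misaligned step: crude cover of a set of phase points by members (helper330)

`ccov`: a set `G` of phase points `(C, y)` seen by one conformal function `f` (`|f| ≤ u1 r`,
`|L_f(C)| ≤ u1`) in a box of extents `(Γ, Λ, N)` is covered by a polynomial number of members of
aperture `σ`, thin side `u1`, based at points of `G`.  `enc_cov`: the energy bound which follows.
-/

set_option autoImplicit false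

open MeasureTheory
open scoped ENNReal

namespace Crest.Agent.R116.Mc330

open Crest.Agent.R138.Defs (E2)
open Crest.Agent.R138.Wpk685 (cen caps)
open Crest.Agent.R116.CDef480 (E3 lat pt vel umc enc)
open Crest.Agent.R116.LZg725 (Cf)
open Crest.Agent.R116.WC188 (TT Adm mset scost pbx Sd)

theorem TT_pos' {κ sg R : ℝ} (hsg : 0 < sg) : 0 < TT κ sg R :=
  lt_of_lt_of_le (pow_pos hsg 2) (le_max_left _ _)

/-! ### counting keys -/

/-- number of mesh points of an interval. -/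
theorem card_Icc_floor {a L m : ℝ} (hm : 0 < m) (hL : 0 ≤ L) :
    ((Finset.Icc ⌊(a - L) / m⌋ ⌊(a + L) / m⌋).card : ℝ) ≤ 2 * L / m + 2 := by
  rw [Int.card_Icc]
  have h1 : ⌊(a - L) / m⌋ ≤ ⌊(a + L) / m⌋ :=
    Int.floor_le_floor (div_le_div_of_nonneg_right (by linarith) hm.le)
  have h2 : ((⌊(a + L) / m⌋ + 1 - ⌊(a - L) / m⌋).toNat : ℤ) =
      ⌊(a + L) / m⌋ + 1 - ⌊(a - L) / m⌋ := Int.toNat_of_nonneg (by omega)
  have h3 : (((⌊(a + L) / m⌋ + 1 - ⌊(a - L) / m⌋).toNat : ℕ) : ℝ) =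
      (⌊(a + L) / m⌋ : ℝ) + 1 - ⌊(a - L) / m⌋ := by
    rw [← Int.cast_natCast (R := ℝ), h2]; push_cast; ring
  rw [h3]
  have h4 := Int.floor_le ((a + L) / m)
  have h5 := Int.lt_floor_add_one ((a - L) / m)
  have h6 : (a + L) / m - (a - L) / m = 2 * L / m := by ring
  linarith

theorem floor_mem_Icc {a L m x : ℝ} (hm : 0 < m) (h : |x - a| ≤ L) :
    ⌊x / m⌋ ∈ Finset.Icc ⌊(a - L) / m⌋ ⌊(a + L) / m⌋ := by
  obtain ⟨h1, h2⟩ := abs_le.1 h
  rw [Finset.mem_Icc]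
  exact ⟨Int.floor_le_floor (div_le_div_of_nonneg_right (by linarith) hm.le),
    Int.floor_le_floor (div_le_div_of_nonneg_right (by linarith) hm.le)⟩

/-- box of cells of a ball. -/
noncomputable def cbx (m L : ℝ) (c : E2) : Finset (ℤ × ℤ) :=
  Finset.Icc ⌊(c 0 - L) / m⌋ ⌊(c 0 + L) / m⌋ ×ˢ Finset.Icc ⌊(c 1 - L) / m⌋ ⌊(c 1 + L) / m⌋

theorem cel_mem_cbx {m L : ℝ} {c C : E2} (hm : 0 < m) (h : ‖C - c‖ ≤ L) : cel m C ∈ cbx m L c := by
  unfold cbx cel
  rw [Finset.mem_product]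
  have h0 : |C 0 - c 0| ≤ L := by
    have := PC299.abs_coord_le (C - c) 0
    simp only [PiLp.sub_apply] at this
    exact this.trans h
  have h1 : |C 1 - c 1| ≤ L := by
    have := PC299.abs_coord_le (C - c) 1
    simp only [PiLp.sub_apply] at this
    exact this.trans h
  exact ⟨floor_mem_Icc hm h0, floor_mem_Icc hm h1⟩

theorem card_cbx {m L : ℝ} (c : E2) (hm : 0 < m) (hL : 0 ≤ L) :
    ((cbx m L c).card : ℝ) ≤ (2 * L / m + 2) ^ 2 := by
  unfold cbx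
  rw [Finset.card_product, Nat.cast_mul, sq]
  have h0 := card_Icc_floor (a := c 0) hm hL
  have h1 := card_Icc_floor (a := c 1) hm hL
  exact mul_le_mul h0 h1 (Nat.cast_nonneg _) ((Nat.cast_nonneg _).trans h0)

/-- key of a phase point. -/
noncomputable def key (σ l ν : ℝ) (c0 : E2) (p : E2 × E3) : (ℤ × ℤ) × (ℤ × ℤ) × ℤ :=
  (cel (σ / 2) p.1, cel (l / 2) (lat p.2), ⌊CDef480.nrm c0 p.2 0 / ν⌋)

/-- number of members in the crude cover. -/
noncomputable def NC (κ r σ l Γ Λ N : ℝ) : ℝ :=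
  (4 * Γ / σ + 2) ^ 2 * ((4 * Λ / l + 2) ^ 2 * (4 * N / (TT κ σ r * r) + 2))


/-- **crude cover**. -/
theorem ccov {M κ r σ u1 l Γ Λ N : ℝ} (hM : 1 ≤ M) (hr : 0 < r) (hσ : 0 < σ)
    (hu : u1 ≤ σ) (hl : 0 < l) (hlσ : l ≤ σ * r) (hΓ : 0 ≤ Γ) (hΛ : 0 ≤ Λ) (hN : 0 ≤ N)
    (hΓl : Γ * l ≤ TT κ σ r * r / 2) {f : Cf E2} (hdisc : f.disc = 1)
    (hny : ∀ s : ℝ, |s| ≤ r → |f.ny s| ≤ M * σ / TT κ σ r)
    (hcmp : ∀ s : ℝ, |s| ≤ r → |f.ny s| ≤ M * (κ * u1 * r)) (c0 : E2) (X0 : E3)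
    (G : Set (E2 × E3)) (hG : ∀ p ∈ G, ‖p.1 - c0‖ ≤ Γ ∧ ‖lat p.2 - lat X0‖ ≤ Λ ∧
      |CDef480.nrm c0 p.2 0 - CDef480.nrm c0 X0 0| ≤ N ∧ |f.ev (lat p.2) (p.2 2) 0| ≤ u1 * r ∧
      |f.ld p.1 (lat p.2) (p.2 2) 0| ≤ u1) :
    ∃ Ks : Finset (E2 × E3), (∀ k ∈ Ks, k ∈ G) ∧ (Ks.card : ℝ) ≤ NC κ r σ l Γ Λ N ∧
      (∀ k ∈ Ks, Adm M κ u1 σ (TT κ σ r) r k.1 k.2 f) ∧
      (∀ p ∈ G, ∃ k ∈ Ks, p.2 ∈ mset σ (TT κ σ r) r u1 k.1 k.2 f p.1) := by
  classical
  have hT : 0 < TT κ σ r := TT_pos' hσ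
  set ν : ℝ := TT κ σ r * r / 2 with hν
  have hν0 : 0 < ν := by positivity
  set Bx : Finset ((ℤ × ℤ) × (ℤ × ℤ) × ℤ) := cbx (σ / 2) Γ c0 ×ˢ (cbx (l / 2) Λ (lat X0) ×ˢ
    Finset.Icc ⌊(CDef480.nrm c0 X0 0 - N) / ν⌋ ⌊(CDef480.nrm c0 X0 0 + N) / ν⌋) with hBx
  have hmem : ∀ p ∈ G, key σ l ν c0 p ∈ Bx := by
    intro p hp
    obtain ⟨h1, h2, h3, -, -⟩ := hG p hp
    rw [hBx, Finset.mem_product, Finset.mem_product]
    exact ⟨cel_mem_cbx (by positivity) h1, cel_mem_cbx (by positivity) h2,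
      floor_mem_Icc hν0 h3⟩
  set Kk := Bx.filter (fun k => ∃ p ∈ G, key σ l ν c0 p = k) with hKk
  have hch : ∀ k ∈ Kk, ∃ p ∈ G, key σ l ν c0 p = k := fun k hk => (Finset.mem_filter.1 hk).2
  choose! rep hrepG hrepk using hch
  refine ⟨Kk.image rep, ?_, ?_, ?_, ?_⟩
  · intro k hk
    obtain ⟨k', hk', rfl⟩ := Finset.mem_image.1 hk
    exact hrepG k' hk'
  · have h1 : ((Kk.image rep).card : ℝ) ≤ (Bx.card : ℝ) := by
      exact_mod_cast Finset.card_image_le.trans (Finset.card_filter_le _ _)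
    refine h1.trans ?_
    rw [hBx, Finset.card_product, Finset.card_product, Nat.cast_mul, Nat.cast_mul]
    unfold NC
    have e1 : 2 * Γ / (σ / 2) = 4 * Γ / σ := by field_simp; ring
    have e2 : 2 * Λ / (l / 2) = 4 * Λ / l := by field_simp; ring
    have e3 : 2 * N / ν = 4 * N / (TT κ σ r * r) := by rw [hν]; field_simp; ring
    have c1 := card_cbx (m := σ / 2) c0 (by positivity) hΓ
    have c2 := card_cbx (m := l / 2) (lat X0) (by positivity) hΛ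
    have c3 := card_Icc_floor (a := CDef480.nrm c0 X0 0) hν0 hN
    rw [e1] at c1
    rw [e2] at c2
    rw [e3] at c3
    exact mul_le_mul c1 (mul_le_mul c2 c3 (Nat.cast_nonneg _) (sq_nonneg _))
      (mul_nonneg (Nat.cast_nonneg _) (Nat.cast_nonneg _)) (sq_nonneg _)
  · intro k hk
    obtain ⟨k', hk', rfl⟩ := Finset.mem_image.1 hk
    obtain ⟨-, -, -, h4, h5⟩ := hG _ (hrepG k' hk')
    refine ⟨hdisc, hny, hcmp, h5.trans (hu.trans ?_), h4.trans ?_⟩
    · nlinarith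
    · have : u1 * r ≤ σ * r := mul_le_mul_of_nonneg_right hu hr.le
      have h6 : 0 ≤ σ * r := by positivity
      nlinarith
  · intro p hp
    have hk : key σ l ν c0 p ∈ Kk := Finset.mem_filter.2 ⟨hmem p hp, p, hp, rfl⟩
    refine ⟨rep (key σ l ν c0 p), Finset.mem_image_of_mem _ hk, ?_⟩
    set k := rep (key σ l ν c0 p) with hkdef
    have hkG : k ∈ G := hrepG _ hk
    have hkk : key σ l ν c0 k = key σ l ν c0 p := hrepk _ hk
    obtain ⟨h1, h2, h3, h4, h5⟩ := hG p hp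
    obtain ⟨g1, -, -, -, -⟩ := hG k hkG
    have hk1 : cel (σ / 2) p.1 = cel (σ / 2) k.1 := (congrArg Prod.fst hkk).symm
    have hk2 : cel (l / 2) (lat p.2) = cel (l / 2) (lat k.2) :=
      (congrArg (fun t => t.2.1) hkk).symm
    have hk3 : ⌊CDef480.nrm c0 p.2 0 / ν⌋ = ⌊CDef480.nrm c0 k.2 0 / ν⌋ :=
      (congrArg (fun t => t.2.2) hkk).symm
    have d1 := cel_close (by positivity) hk1
    have d2 := cel_close (by positivity) hk2
    have d3 := floor_close hν0 hk3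
    have e1 : 2 * (σ / 2) = σ := by ring
    have e2 : 2 * (l / 2) = l := by ring
    rw [e1] at d1
    rw [e2] at d2
    refine ⟨d1, d2.trans hlσ, ?_, h4, h5⟩
    have e : CDef480.nrm k.1 p.2 0 - CDef480.nrm k.1 k.2 0 =
        (CDef480.nrm c0 p.2 0 - CDef480.nrm c0 k.2 0) +
          inner ℝ (k.1 - c0) (lat p.2 - lat k.2) := by
      simp only [Ckm538.nrm_zero, inner_sub_left, inner_sub_right]
      ring
    rw [e]
    refine (abs_add_le _ _).trans ?_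
    have h7 : |inner ℝ (k.1 - c0) (lat p.2 - lat k.2)| ≤ Γ * l :=
      (abs_real_inner_le_norm _ _).trans (mul_le_mul g1 d2 (norm_nonneg _) hΓ)
    linarith

/-- **energy of a covered selection**. -/
theorem enc_cov {M κ r σ u1 D q : ℝ} {th : ℝ} {g : E3 → ℂ} {S W : ℤ × ℤ → Set E3} {f : Cf E2}
    (hth : th = r ^ (-(1/2) : ℝ))
    (dens : ∀ (c : E2) (X0 : E3) (f : Cf E2) (v1 v2 : ℝ), Sd r v1 v2 →
      Adm M κ v1 v2 (TT κ v2 r) r c X0 f →
      enc th g (fun m => S m ∩ pbx κ 1 r v1 v2 c X0 f m) ≤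
        ENNReal.ofReal (D * v2 ^ q * scost κ v1 v2 r))
    (hsd : Sd r u1 σ) (Ks : Finset (E2 × E3))
    (ha : ∀ k ∈ Ks, Adm M κ u1 σ (TT κ σ r) r k.1 k.2 f)
    (hc : ∀ m ∈ caps th, ∀ y ∈ S m ∩ W m, ∃ k ∈ Ks,
      y ∈ mset σ (TT κ σ r) r u1 k.1 k.2 f (cen th m)) :
    enc th g (fun m => S m ∩ W m) ≤
      ENNReal.ofReal (Ks.card * (D * σ ^ q * scost κ u1 σ r)) := by
  refine (Bas367.enc_mono g (T := fun m => ⋃ k ∈ Ks, S m ∩ pbx κ 1 r u1 σ k.1 k.2 f m)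
    fun m hm y hy => ?_).trans ((Bas367.enc_biUnion_le th g Ks _).trans ?_)
  · obtain ⟨k, hk, hy'⟩ := hc m hm y hy
    refine Set.mem_biUnion hk ⟨hy.1, ?_⟩
    unfold pbx
    rw [one_mul, one_mul, one_mul, ← hth]
    exact hy'
  · refine (Finset.sum_le_sum fun k hk => dens k.1 k.2 f u1 σ hsd (ha k hk)).trans ?_
    rw [Finset.sum_const, nsmul_eq_mul, ENNReal.ofReal_mul (Nat.cast_nonneg _),
      ENNReal.ofReal_natCast]

end Crest.Agent.R116.Mc330
end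

-- ▼ part R116/Mc5_330
section

/-!
# R116 (S0155), misaligned step: geometry of one child plate in the frame of the parent (helper330)

`ChN` = numerical data of a thin and wide member of length `rj = δ² r`; `Gd` = phase point `(C, x)` of
the parent frame which is seen by the phase point `(C', y)` of the member.  `Ft z f` = conformal
function of the member in the frame of the parent.
-/

set_option autoImplicit false

open MeasureTheory
open scoped ENNReal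

namespace Crest.Agent.R116.Mc330

open Crest.Agent.R138.Defs (E2)
open Crest.Agent.R116.CDef480 (E3 lat pt vel umc enc)
open Crest.Agent.R116.LZg725 (Cf)
open Crest.Agent.R116.WC188 (TT Adm mset scost pbx Sd)
open Crest.Agent.R116.De295 (SF FF)
open Crest.Agent.R116.Gc192 (un crs)

/-! ### transport -/

/-- the conformal function in the frame of the parent. -/
noncomputable def Ft (z : E3 × ℝ) (f : Cf E2) : Cf E2 := Cf.tr (-(lat z.1)) (-(z.1 2)) (-z.2) f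

/-- the position in the frame of the child. -/
noncomputable def vv (z : E3 × ℝ) (C : E2) (x : E3) : E3 := x - z.1 - z.2 • vel C

theorem lat_vv (z : E3 × ℝ) (C : E2) (x : E3) : lat (vv z C x) = lat x - lat z.1 - z.2 • C := by
  unfold vv vel
  rw [CDef480.lat_sub, CDef480.lat_sub, CDef480.lat_smul, CDef480.lat_pt]

theorem two_vv (z : E3 × ℝ) (C : E2) (x : E3) :
    (vv z C x) 2 = x 2 - z.1 2 + z.2 * ‖C‖ ^ 2 / 2 := by
  unfold vv vel
  simp only [PiLp.sub_apply, PiLp.smul_apply, CDef480.pt_two, smul_eq_mul]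
  ring

theorem Ft_disc (z : E3 × ℝ) (f : Cf E2) : (Ft z f).disc = f.disc := by
  unfold Ft; rw [Cf.disc_tr]

theorem Ft_d (z : E3 × ℝ) (f : Cf E2) : (Ft z f).d = f.d := rfl

theorem Ft_ny (z : E3 × ℝ) (f : Cf E2) (s : ℝ) : (Ft z f).ny s = f.ny (s - z.2) := by
  unfold Ft; rw [Cf.ny_tr, sub_eq_add_neg]

theorem Ft_gr (z : E3 × ℝ) (f : Cf E2) (C : E2) (x : E3) :
    (Ft z f).gr C (lat x) 0 = f.gr C (lat (vv z C x)) 0 := by
  rw [lat_vv]
  unfold Ft Cf.gr Cf.ny Cf.tr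
  module

theorem Ft_ld (z : E3 × ℝ) (f : Cf E2) (C : E2) (x : E3) :
    (Ft z f).ld C (lat x) (x 2) 0 = f.ld C (lat (vv z C x)) ((vv z C x) 2) 0 := by
  unfold Ft
  rw [Cf.ld_tr, f.ld_move C (lat (vv z C x)) (lat x + -(lat z.1)) ((vv z C x) 2)
    (x 2 + -(z.1 2)) 0 (0 + -z.2), lat_vv, two_vv]
  have : LZg725.nrm C (lat x + -(lat z.1)) (x 2 + -(z.1 2)) (0 + -z.2) -
      LZg725.nrm C (lat x - lat z.1 - z.2 • C) (x 2 - z.1 2 + z.2 * ‖C‖ ^ 2 / 2) 0 = 0 := by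
    unfold LZg725.nrm
    rw [inner_sub_right, inner_sub_right, inner_add_right, inner_neg_right,
      real_inner_smul_right, real_inner_self_eq_norm_sq]
    ring
  rw [this, mul_zero, sub_zero]

theorem Ft_ev (z : E3 × ℝ) (f : Cf E2) (C : E2) (x : E3) :
    (Ft z f).ev (lat x) (x 2) 0 = f.ev (lat (vv z C x)) ((vv z C x) 2) 0 -
      z.2 * f.ld C (lat (vv z C x)) ((vv z C x) 2) 0 := by
  unfold Ft
  rw [Cf.ev_tr]
  have h := f.ev_along C (lat (vv z C x)) ((vv z C x) 2) 0 (-z.2)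
  have e1 : lat (vv z C x) - (-z.2) • C = lat x + -(lat z.1) := by rw [lat_vv]; module
  have e2 : (vv z C x) 2 + -z.2 * ‖C‖ ^ 2 / 2 = x 2 + -(z.1 2) := by rw [two_vv]; ring
  rw [e1, e2] at h
  rw [h]
  ring

theorem Ft_zero (f : Cf E2) : Ft 0 f = f := by
  have h : lat (0 : E3) = 0 := by ext i; fin_cases i <;> rfl
  unfold Ft Cf.tr
  cases f
  simp [h]

/-! ### numerical data -/

/-- numerical data of a thin and wide member of length `rj = δ² r`. -/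
structure ChN (M κ A s1 s2 T rj θj w δ Y Gm c3 ι η r : ℝ) (f : Cf E2) : Prop where
  S : SF κ s1 s2 T rj
  F : FF M κ s1 s2 T rj f
  M1 : 1 ≤ M
  A1 : 1 ≤ A
  Y1 : 1 ≤ Y
  Gm1 : 1 ≤ Gm
  c31 : 1 ≤ c3
  δ0 : 0 < δ
  δ1 : δ ≤ 1
  θ0 : 0 < θj
  hrj : rj = δ ^ 2 * r
  hw : θj * rj = δ * w
  hθ : θj ^ 2 * rj = 1
  hs1 : s1 ≤ Gm * θj
  s1θ : θj ≤ s1
  hι : θj ≤ ι * s2
  ι0 : 0 < ι
  η0 : 0 < η
  η1 : η ≤ 1 / 64
  sm : 16 * (M ^ 2 * A * Gm * Y * c3 ^ 2) * ι ≤ η * δ ^ 2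

namespace ChN

variable {M κ A s1 s2 T rj θj w δ Y Gm c3 ι η r : ℝ} {f : Cf E2}

/-- the product of the large constants. -/
noncomputable def Kp (M A Y Gm c3 : ℝ) : ℝ := M * A * Y * c3 * Gm

theorem smX (h : ChN M κ A s1 s2 T rj θj w δ Y Gm c3 ι η r f) {X : ℝ}
    (hX : X ≤ M ^ 2 * A * Gm * Y * c3 ^ 2) : X * ι ≤ η * δ ^ 2 / 16 := by
  have h1 := h.sm
  have h2 := mul_le_mul_of_nonneg_right hX h.ι0.le
  linarith

theorem one_le_Kp (h : ChN M κ A s1 s2 T rj θj w δ Y Gm c3 ι η r f) : 1 ≤ Kp M A Y Gm c3 := by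
  unfold Kp
  have h1 := one_le_mul_of_one_le_of_one_le h.M1 h.A1
  have h2 := one_le_mul_of_one_le_of_one_le h1 h.Y1
  have h3 := one_le_mul_of_one_le_of_one_le h2 h.c31
  exact one_le_mul_of_one_le_of_one_le h3 h.Gm1

/-- partial products. -/
theorem prods (h : ChN M κ A s1 s2 T rj θj w δ Y Gm c3 ι η r f) :
    M * A * Gm * ι ≤ η * δ ^ 2 / 16 ∧ M * Y * ι ≤ η * δ ^ 2 / 16 ∧ M * c3 * ι ≤ η * δ ^ 2 / 16 ∧
      M * Kp M A Y Gm c3 * ι ≤ η * δ ^ 2 / 16 ∧ c3 * ι ≤ η * δ ^ 2 / 16 ∧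
      A * Y * ι ≤ η * δ ^ 2 / 16 ∧ Kp M A Y Gm c3 * ι ≤ η * δ ^ 2 / 16 ∧
      M * Gm * ι ≤ η * δ ^ 2 / 16 ∧ M * ι ≤ η * δ ^ 2 / 16 ∧ Y * ι ≤ η * δ ^ 2 / 16 := by
  have hM := h.M1
  have hA := h.A1
  have hY := h.Y1
  have hG := h.Gm1
  have hc := h.c31
  have hM0 : 0 ≤ M := by linarith
  have hA0 : 0 ≤ A := by linarith
  have hY0 : 0 ≤ Y := by linarith
  have hG0 : 0 ≤ Gm := by linarith
  have hc0 : 0 ≤ c3 := by linarith
  -- the largest product
  have a1 : M * Kp M A Y Gm c3 ≤ M ^ 2 * A * Gm * Y * c3 ^ 2 := by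
    unfold Kp
    have : M * (M * A * Y * c3 * Gm) = (M ^ 2 * A * Gm * Y * c3) * 1 := by ring
    rw [this]
    have e : M ^ 2 * A * Gm * Y * c3 ^ 2 = (M ^ 2 * A * Gm * Y * c3) * c3 := by ring
    rw [e]
    exact mul_le_mul_of_nonneg_left hc (by positivity)
  have hK1 := h.one_le_Kp
  have hK0 : 0 ≤ Kp M A Y Gm c3 := by linarith
  have a2 : Kp M A Y Gm c3 ≤ M * Kp M A Y Gm c3 := le_mul_of_one_le_left hK0 hM
  have b : ∀ {P Q : ℝ}, 0 ≤ P → 1 ≤ Q → P * Q = Kp M A Y Gm c3 → P ≤ Kp M A Y Gm c3 := by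
    intro P Q hP hQ e
    rw [← e]; exact le_mul_of_one_le_right hP hQ
  have o2 : ∀ {P Q : ℝ}, 1 ≤ P → 1 ≤ Q → 1 ≤ P * Q :=
    fun hP hQ => one_le_mul_of_one_le_of_one_le hP hQ
  refine ⟨h.smX ((b (Q := Y * c3) (by positivity) (o2 hY hc) (by unfold Kp; ring)).trans
      (a2.trans a1)),
    h.smX ((b (Q := A * c3 * Gm) (by positivity) (o2 (o2 hA hc) hG) (by unfold Kp; ring)).trans
      (a2.trans a1)),
    h.smX ((b (Q := A * Y * Gm) (by positivity) (o2 (o2 hA hY) hG) (by unfold Kp; ring)).trans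
      (a2.trans a1)), h.smX a1,
    h.smX ((b (Q := M * A * Y * Gm) (by positivity) (o2 (o2 (o2 hM hA) hY) hG)
      (by unfold Kp; ring)).trans (a2.trans a1)),
    h.smX ((b (Q := M * c3 * Gm) (by positivity) (o2 (o2 hM hc) hG) (by unfold Kp; ring)).trans
      (a2.trans a1)), h.smX (a2.trans a1),
    h.smX ((b (Q := A * Y * c3) (by positivity) (o2 (o2 hA hY) hc) (by unfold Kp; ring)).trans
      (a2.trans a1)),
    h.smX ((b (Q := A * Y * c3 * Gm) (by positivity) (o2 (o2 (o2 hA hY) hc) hG)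
      (by unfold Kp; ring)).trans (a2.trans a1)),
    h.smX ((b (Q := M * A * c3 * Gm) (by positivity) (o2 (o2 (o2 hM hA) hc) hG)
      (by unfold Kp; ring)).trans (a2.trans a1))⟩

theorem r0 (h : ChN M κ A s1 s2 T rj θj w δ Y Gm c3 ι η r f) : 0 < r := by
  have h1 := h.S.r0
  rw [h.hrj] at h1
  exact (mul_pos_iff_of_pos_left (pow_pos h.δ0 2)).1 h1

theorem w0 (h : ChN M κ A s1 s2 T rj θj w δ Y Gm c3 ι η r f) : 0 < w := by
  have h1 := mul_pos h.θ0 h.S.r0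
  rw [h.hw] at h1
  exact (mul_pos_iff_of_pos_left h.δ0).1 h1

/-- `w = δ θj r`. -/
theorem w_eq (h : ChN M κ A s1 s2 T rj θj w δ Y Gm c3 ι η r f) : w = δ * θj * r := by
  have h1 := h.hw
  rw [h.hrj] at h1
  have h2 : δ * (δ * θj * r) = δ * w := by rw [← h1]; ring
  exact (mul_left_cancel₀ h.δ0.ne' h2).symm

theorem w_le (h : ChN M κ A s1 s2 T rj θj w δ Y Gm c3 ι η r f) : w ≤ θj * r := by
  rw [h.w_eq, mul_assoc]
  exact mul_le_of_le_one_left (mul_nonneg h.θ0.le h.r0.le) h.δ1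

/-- `s1 rj ≤ Gm w`. -/
theorem s1rj (h : ChN M κ A s1 s2 T rj θj w δ Y Gm c3 ι η r f) : s1 * rj ≤ Gm * w := by
  have h1 : s1 * rj ≤ Gm * θj * rj := mul_le_mul_of_nonneg_right h.hs1 h.S.r0.le
  have h2 : Gm * θj * rj = Gm * (δ * w) := by rw [← h.hw]; ring
  rw [h2] at h1
  refine h1.trans (mul_le_mul_of_nonneg_left ?_ (by have := h.Gm1; linarith))
  exact mul_le_of_le_one_left h.w0.le h.δ1

/-- `|d| rj s2 ≤ M / 2`. -/
theorem d_s2 (h : ChN M κ A s1 s2 T rj θj w δ Y Gm c3 ι η r f) : |f.d| * rj * s2 ≤ M / 2 := by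
  have h1 := h.F.d_le h.S
  have hs2 := h.S.s20
  have hrj := h.S.r0
  have h2 : |f.d| * (s2 ^ 2 * rj) ≤ M * s2 / 2 :=
    (mul_le_mul_of_nonneg_left (mul_le_mul_of_nonneg_right h.S.T1 hrj.le) (abs_nonneg _)).trans h1
  have h3 : (|f.d| * rj * s2) * s2 ≤ (M / 2) * s2 := by
    calc (|f.d| * rj * s2) * s2 = |f.d| * (s2 ^ 2 * rj) := by ring
      _ ≤ M * s2 / 2 := h2
      _ = (M / 2) * s2 := by ring
  exact le_of_mul_le_mul_right h3 hs2

/-- `|d| rj θj ≤ M ι / 2`. -/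
theorem d_θ (h : ChN M κ A s1 s2 T rj θj w δ Y Gm c3 ι η r f) : |f.d| * rj * θj ≤ M * ι / 2 := by
  have h1 := h.d_s2
  have h2 : |f.d| * rj * θj ≤ |f.d| * rj * (ι * s2) :=
    mul_le_mul_of_nonneg_left h.hι (mul_nonneg (abs_nonneg _) h.S.r0.le)
  have h3 := mul_le_mul_of_nonneg_left h1 h.ι0.le
  calc _ ≤ _ := h2
    _ = ι * (|f.d| * rj * s2) := by ring
    _ ≤ ι * (M / 2) := h3
    _ = M * ι / 2 := by ring

/-- `|d| w ≤ M ι / (2 δ)`. -/
theorem d_w (h : ChN M κ A s1 s2 T rj θj w δ Y Gm c3 ι η r f) : |f.d| * w * δ ≤ M * ι / 2 := by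
  have h1 := h.d_θ
  calc |f.d| * w * δ = |f.d| * (δ * w) := by ring
    _ = |f.d| * rj * θj := by rw [← h.hw]; ring
    _ ≤ _ := h1

/-- `|d| Y w ≤ η δ / 32`. -/
theorem d_Yw (h : ChN M κ A s1 s2 T rj θj w δ Y Gm c3 ι η r f) :
    |f.d| * (Y * w) ≤ η * δ / 32 := by
  have h1 := h.d_w
  have hY := h.Y1
  have h2 := h.prods.2.1
  have h3 : (|f.d| * (Y * w)) * δ ≤ (η * δ / 32) * δ := by
    calc (|f.d| * (Y * w)) * δ = Y * (|f.d| * w * δ) := by ring
      _ ≤ Y * (M * ι / 2) := mul_le_mul_of_nonneg_left h1 (by linarith)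
      _ = (M * Y * ι) / 2 := by ring
      _ ≤ (η * δ ^ 2 / 16) / 2 := by linarith
      _ = (η * δ / 32) * δ := by ring
  exact le_of_mul_le_mul_right h3 h.δ0

theorem d_w' (h : ChN M κ A s1 s2 T rj θj w δ Y Gm c3 ι η r f) : |f.d| * w ≤ η * δ / 32 := by
  refine le_trans ?_ h.d_Yw
  have h1 : |f.d| * (Y * w) = (|f.d| * w) * Y := by ring
  rw [h1]
  exact le_mul_of_one_le_right (mul_nonneg (abs_nonneg _) h.w0.le) h.Y1

/-- `|ny 0| θj ≤ M ι`. -/
theorem ny_θ (h : ChN M κ A s1 s2 T rj θj w δ Y Gm c3 ι η r f) : |f.ny 0| * θj ≤ M * ι := by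
  have h1 := h.F.ny_le h.S
  have h2 : |f.ny 0| * θj ≤ |f.ny 0| * (ι * s2) := mul_le_mul_of_nonneg_left h.hι (abs_nonneg _)
  have h3 := mul_le_mul_of_nonneg_left h1 h.ι0.le
  linarith

/-- `|ny 0| κ⁻¹ ≤ M s1 rj`. -/
theorem ny_κ (h : ChN M κ A s1 s2 T rj θj w δ Y Gm c3 ι η r f) :
    |f.ny 0| * κ⁻¹ ≤ M * (s1 * rj) := by
  have h1 := h.F.cmp 0 (by rw [abs_zero]; exact h.S.r0.le)
  have hk := h.S.k0
  calc |f.ny 0| * κ⁻¹ ≤ M * (κ * s1 * rj) * κ⁻¹ :=
        mul_le_mul_of_nonneg_right h1 (inv_nonneg.2 hk.le)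
    _ = M * (s1 * rj) := by field_simp

/-- `|d| κ⁻¹ ≤ M s1 / 2`. -/
theorem d_κ (h : ChN M κ A s1 s2 T rj θj w δ Y Gm c3 ι η r f) : |f.d| * κ⁻¹ ≤ M * s1 / 2 := by
  have h1 := h.F.d_le' h.S
  have hk := h.S.k0
  calc |f.d| * κ⁻¹ ≤ M * (κ * s1) / 2 * κ⁻¹ :=
        mul_le_mul_of_nonneg_right h1 (inv_nonneg.2 hk.le)
    _ = M * s1 / 2 := by field_simp

end ChN

/-- the phase point `(C, x)` of the parent frame is seen by the phase point `(C', y)` of the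
member. -/
structure Gd (κ A s1 s2 T rj θj w Y c3 r : ℝ) (c : E2) (X0 : E3) (f : Cf E2) (z : E3 × ℝ)
    (C' : E2) (y : E3) (C : E2) (x : E3) : Prop where
  yC : ‖C' - c‖ ≤ A * s2
  yl : ‖lat y - lat X0‖ ≤ A * s2 * rj
  yn : |CDef480.nrm c y 0 - CDef480.nrm c X0 0| ≤ A * T * rj
  yev : |f.ev (lat y) (y 2) 0| ≤ A * s1 * rj
  yld : |f.ld C' (lat y) (y 2) 0| ≤ A * s1
  zr : |z.2| ≤ r
  CC : ‖C - C'‖ ≤ c3 * θj
  vl : ‖lat (vv z C x) - lat y‖ ≤ Y * w
  vn : |CDef480.nrm C (vv z C x) 0 - CDef480.nrm C y 0| ≤ Y * κ⁻¹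

section gd

variable {M κ A s1 s2 T rj θj w δ Y Gm c3 ι η r : ℝ} {f : Cf E2} {c : E2} {X0 : E3} {z : E3 × ℝ}
  {C' C : E2} {y x : E3}

open ChN

/-- gradient at the phase point of the member. -/
theorem gy_sq (h : ChN M κ A s1 s2 T rj θj w δ Y Gm c3 ι η r f)
    (g : Gd κ A s1 s2 T rj θj w Y c3 r c X0 f z C' y C x) :
    |‖f.gr C' (lat y) 0‖ ^ 2 - 1| ≤ η * δ ^ 2 / 4 := by
  refine gr_of_small f h.F.disc (y := y 2) ?_
  have hA0 : 0 ≤ A := by have := h.A1; linarith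
  have hG0 : 0 ≤ Gm := by have := h.Gm1; linarith
  have h1 := h.ny_θ
  have h2 := h.d_θ
  have h3 := h.prods.1
  have hld : |f.ld C' (lat y) (y 2) 0| ≤ A * (Gm * θj) :=
    g.yld.trans (mul_le_mul_of_nonneg_left h.hs1 hA0)
  have hev : |f.ev (lat y) (y 2) 0| ≤ A * (Gm * θj) * rj :=
    g.yev.trans (mul_le_mul_of_nonneg_right (mul_le_mul_of_nonneg_left h.hs1 hA0) h.S.r0.le)
  have k1 : |2 * f.ny 0 * f.ld C' (lat y) (y 2) 0| ≤ 2 * (M * A * Gm * ι) := by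
    rw [abs_mul, abs_mul, abs_two]
    calc 2 * |f.ny 0| * |f.ld C' (lat y) (y 2) 0| ≤ 2 * |f.ny 0| * (A * (Gm * θj)) :=
          mul_le_mul_of_nonneg_left hld (by positivity)
      _ = 2 * (A * Gm) * (|f.ny 0| * θj) := by ring
      _ ≤ 2 * (A * Gm) * (M * ι) := mul_le_mul_of_nonneg_left h1 (by positivity)
      _ = _ := by ring
  have k2 : |4 * f.d * f.ev (lat y) (y 2) 0| ≤ 2 * (M * A * Gm * ι) := by
    rw [abs_mul, abs_mul, abs_of_pos (by norm_num : (0:ℝ) < 4)]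
    calc 4 * |f.d| * |f.ev (lat y) (y 2) 0| ≤ 4 * |f.d| * (A * (Gm * θj) * rj) :=
          mul_le_mul_of_nonneg_left hev (by positivity)
      _ = 4 * (A * Gm) * (|f.d| * rj * θj) := by ring
      _ ≤ 4 * (A * Gm) * (M * ι / 2) := mul_le_mul_of_nonneg_left h2 (by positivity)
      _ = _ := by ring
  linarith

theorem sq_small {t e : ℝ} (ht : 0 ≤ t) (he : e ≤ 1 / 4) (h : |t ^ 2 - 1| ≤ e) :
    3 / 4 ≤ t ∧ t ≤ 5 / 4 := by
  obtain ⟨h1, h2⟩ := abs_le.1 h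
  constructor
  · by_contra hn
    push Not at hn
    nlinarith
  · by_contra hn
    push Not at hn
    nlinarith

theorem ηδ_le (h : ChN M κ A s1 s2 T rj θj w δ Y Gm c3 ι η r f) :
    η * δ ^ 2 ≤ 1 / 64 ∧ η * δ ≤ 1 / 64 ∧ η * δ ^ 2 ≤ η * δ := by
  have h1 := h.δ0
  have h2 := h.δ1
  have h3 := h.η0
  have h4 := h.η1
  have h5 : δ ^ 2 ≤ 1 := pow_le_one₀ h1.le h2
  have h6 : δ ^ 2 ≤ δ := by nlinarith
  refine ⟨?_, ?_, mul_le_mul_of_nonneg_left h6 h3.le⟩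
  · calc η * δ ^ 2 ≤ η * 1 := mul_le_mul_of_nonneg_left h5 h3.le
      _ ≤ 1 / 64 := by linarith
  · calc η * δ ≤ η * 1 := mul_le_mul_of_nonneg_left h2 h3.le
      _ ≤ 1 / 64 := by linarith

theorem gy_bd (h : ChN M κ A s1 s2 T rj θj w δ Y Gm c3 ι η r f)
    (g : Gd κ A s1 s2 T rj θj w Y c3 r c X0 f z C' y C x) :
    3 / 4 ≤ ‖f.gr C' (lat y) 0‖ ∧ ‖f.gr C' (lat y) 0‖ ≤ 5 / 4 := by
  refine sq_small (norm_nonneg _) ?_ (gy_sq h g)
  have := (ηδ_le h).1
  linarith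

/-- `|ny 0| ‖C - C'‖ ≤ η δ² / 16`. -/
theorem ny_CC (h : ChN M κ A s1 s2 T rj θj w δ Y Gm c3 ι η r f)
    (g : Gd κ A s1 s2 T rj θj w Y c3 r c X0 f z C' y C x) :
    |f.ny 0| * ‖C - C'‖ ≤ η * δ ^ 2 / 16 := by
  have h1 := h.ny_θ
  have hc : 0 ≤ c3 := by have := h.c31; linarith
  calc |f.ny 0| * ‖C - C'‖ ≤ |f.ny 0| * (c3 * θj) :=
        mul_le_mul_of_nonneg_left g.CC (abs_nonneg _)
    _ = c3 * (|f.ny 0| * θj) := by ring
    _ ≤ c3 * (M * ι) := mul_le_mul_of_nonneg_left h1 hc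
    _ = M * c3 * ι := by ring
    _ ≤ _ := h.prods.2.2.1

/-- gradient at the phase point of the parent, at the base time of the child. -/
theorem gv_sub (h : ChN M κ A s1 s2 T rj θj w δ Y Gm c3 ι η r f)
    (g : Gd κ A s1 s2 T rj θj w Y c3 r c X0 f z C' y C x) :
    ‖f.gr C (lat (vv z C x)) 0 - f.gr C' (lat y) 0‖ ≤ η * δ / 8 := by
  have e : f.gr C (lat (vv z C x)) 0 - f.gr C' (lat y) 0 =
      (2 * f.d) • (lat (vv z C x) - lat y) - (f.ny 0) • (C - C') := by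
    rw [f.gr_move C (lat y) (lat (vv z C x)) 0 0, f.gr_dir C' C (lat y) 0]
    rw [sub_self, zero_smul, add_zero]
    abel
  rw [e]
  refine (norm_sub_le _ _).trans ?_
  rw [norm_smul, norm_smul, Real.norm_eq_abs, Real.norm_eq_abs, abs_mul, abs_two]
  have h1 := ny_CC h g
  have h2 : 2 * |f.d| * ‖lat (vv z C x) - lat y‖ ≤ 2 * (|f.d| * (Y * w)) := by
    rw [mul_assoc]
    exact mul_le_mul_of_nonneg_left (mul_le_mul_of_nonneg_left g.vl (abs_nonneg _)) (by norm_num)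
  have h3 := h.d_Yw
  have h4 := (ηδ_le h).2.2
  linarith

theorem gv_bd (h : ChN M κ A s1 s2 T rj θj w δ Y Gm c3 ι η r f)
    (g : Gd κ A s1 s2 T rj θj w Y c3 r c X0 f z C' y C x) :
    ‖f.gr C (lat (vv z C x)) 0‖ ≤ 2 := by
  have h1 := gv_sub h g
  have h2 := (gy_bd h g).2
  have h3 := (ηδ_le h).2.1
  have h4 : f.gr C (lat (vv z C x)) 0 = (f.gr C (lat (vv z C x)) 0 - f.gr C' (lat y) 0) +
    f.gr C' (lat y) 0 := by abel
  rw [h4]
  refine (norm_add_le _ _).trans ?_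
  linarith

/-- ray derivative at the phase point of the parent. -/
theorem ldv_le (h : ChN M κ A s1 s2 T rj θj w δ Y Gm c3 ι η r f)
    (g : Gd κ A s1 s2 T rj θj w Y c3 r c X0 f z C' y C x) :
    |f.ld C (lat (vv z C x)) ((vv z C x) 2) 0| ≤ 5 * Kp M A Y Gm c3 * θj := by
  have e1 := f.ld_move C (lat y) (lat (vv z C x)) (y 2) ((vv z C x) 2) 0 0
  have e2 := f.ld_dir C' C (lat y) (y 2) 0
  rw [e1, e2]
  have hM := h.M1
  have hA := h.A1
  have hY := h.Y1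
  have hG := h.Gm1
  have hc := h.c31
  have hθ := h.θ0
  have k1 : |f.ld C' (lat y) (y 2) 0| ≤ A * (Gm * θj) :=
    g.yld.trans (mul_le_mul_of_nonneg_left h.hs1 (by linarith))
  have k2 : |inner ℝ (f.gr C' (lat y) 0) (C - C')| ≤ 5 / 4 * (c3 * θj) :=
    (abs_real_inner_le_norm _ _).trans (mul_le_mul (gy_bd h g).2 g.CC (norm_nonneg _) (by norm_num))
  have k3 : |f.ny 0 * ‖C - C'‖ ^ 2 / 2| ≤ c3 * θj := by
    rw [abs_div, abs_mul, abs_two, abs_of_nonneg (sq_nonneg ‖C - C'‖)]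
    have a1 := ny_CC h g
    have a2 := (ηδ_le h).1
    have a3 : |f.ny 0| * ‖C - C'‖ ^ 2 = (|f.ny 0| * ‖C - C'‖) * ‖C - C'‖ := by ring
    rw [a3]
    have a4 : (|f.ny 0| * ‖C - C'‖) * ‖C - C'‖ ≤ 1 * (c3 * θj) :=
      mul_le_mul (by linarith) g.CC (norm_nonneg _) (by norm_num)
    have a5 : 0 ≤ c3 * θj := by positivity
    linarith
  have k4 : |2 * f.d * (LZg725.nrm C (lat (vv z C x)) ((vv z C x) 2) 0 -
      LZg725.nrm C (lat y) (y 2) 0)| ≤ M * Y * (Gm * θj) := by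
    rw [abs_mul, abs_mul, abs_two]
    have b1 : |LZg725.nrm C (lat (vv z C x)) ((vv z C x) 2) 0 -
      LZg725.nrm C (lat y) (y 2) 0| ≤ Y * κ⁻¹ := g.vn
    have b2 := h.d_κ
    calc 2 * |f.d| * _ ≤ 2 * |f.d| * (Y * κ⁻¹) := mul_le_mul_of_nonneg_left b1 (by positivity)
      _ = 2 * Y * (|f.d| * κ⁻¹) := by ring
      _ ≤ 2 * Y * (M * s1 / 2) := mul_le_mul_of_nonneg_left b2 (by positivity)
      _ = M * Y * s1 := by ring
      _ ≤ M * Y * (Gm * θj) := mul_le_mul_of_nonneg_left h.hs1 (by positivity)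
  have t1 := abs_sub (f.ld C' (lat y) (y 2) 0 - inner ℝ (f.gr C' (lat y) 0) (C - C') +
    f.ny 0 * ‖C - C'‖ ^ 2 / 2) (2 * f.d * (LZg725.nrm C (lat (vv z C x)) ((vv z C x) 2) 0 -
      LZg725.nrm C (lat y) (y 2) 0))
  have t2 := abs_add_le (f.ld C' (lat y) (y 2) 0 - inner ℝ (f.gr C' (lat y) 0) (C - C'))
    (f.ny 0 * ‖C - C'‖ ^ 2 / 2)
  have t3 := abs_sub (f.ld C' (lat y) (y 2) 0) (inner ℝ (f.gr C' (lat y) 0) (C - C'))
  refine t1.trans ?_
  have f1 : A * (Gm * θj) ≤ Kp M A Y Gm c3 * θj := by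
    unfold Kp
    have : M * A * Y * c3 * Gm * θj = (A * (Gm * θj)) * (M * Y * c3) := by ring
    rw [this]
    exact le_mul_of_one_le_right (by positivity)
      (one_le_mul_of_one_le_of_one_le (one_le_mul_of_one_le_of_one_le hM hY) hc)
  have f2 : c3 * θj ≤ Kp M A Y Gm c3 * θj := by
    unfold Kp
    have : M * A * Y * c3 * Gm * θj = (c3 * θj) * (M * A * Y * Gm) := by ring
    rw [this]
    exact le_mul_of_one_le_right (by positivity) (one_le_mul_of_one_le_of_one_le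
      (one_le_mul_of_one_le_of_one_le (one_le_mul_of_one_le_of_one_le hM hA) hY) hG)
  have f3 : M * Y * (Gm * θj) ≤ Kp M A Y Gm c3 * θj := by
    unfold Kp
    have : M * A * Y * c3 * Gm * θj = (M * Y * (Gm * θj)) * (A * c3) := by ring
    rw [this]
    exact le_mul_of_one_le_right (by positivity) (one_le_mul_of_one_le_of_one_le hA hc)
  have f0 : 0 ≤ c3 * θj := by positivity
  linarith

/-- value at the phase point of the parent. -/
theorem evv_le (h : ChN M κ A s1 s2 T rj θj w δ Y Gm c3 ι η r f)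
    (g : Gd κ A s1 s2 T rj θj w Y c3 r c X0 f z C' y C x) :
    |f.ev (lat (vv z C x)) ((vv z C x) 2) 0| ≤ 5 * Kp M A Y Gm c3 * w := by
  have e1 := f.ev_expand C (lat y) (y 2) 0 (lat (vv z C x)) ((vv z C x) 2) 0
  simp only [sub_self, mul_zero, zero_smul, add_zero, zero_mul, sub_zero] at e1
  rw [e1]
  have hM := h.M1
  have hA := h.A1
  have hY := h.Y1
  have hG := h.Gm1
  have hc := h.c31
  have hw := h.w0
  have k1 : |f.ev (lat y) (y 2) 0| ≤ A * (Gm * w) := by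
    refine g.yev.trans ?_
    rw [mul_assoc]
    exact mul_le_mul_of_nonneg_left h.s1rj (by linarith)
  have hgr : ‖f.gr C (lat y) 0‖ ≤ 2 := by
    rw [f.gr_dir C' C (lat y) 0]
    refine (norm_sub_le _ _).trans ?_
    rw [norm_smul, Real.norm_eq_abs]
    have a1 := ny_CC h g
    have a2 := (ηδ_le h).1
    have a3 := (gy_bd h g).2
    linarith
  have k2 : |inner ℝ (f.gr C (lat y) 0) (lat (vv z C x) - lat y)| ≤ 2 * (Y * w) :=
    (abs_real_inner_le_norm _ _).trans (mul_le_mul hgr g.vl (norm_nonneg _) (by norm_num))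
  have k3 : |f.ny 0 * (LZg725.nrm C (lat (vv z C x)) ((vv z C x) 2) 0 -
      LZg725.nrm C (lat y) (y 2) 0)| ≤ M * Y * (Gm * w) := by
    rw [abs_mul]
    have b1 : |LZg725.nrm C (lat (vv z C x)) ((vv z C x) 2) 0 -
      LZg725.nrm C (lat y) (y 2) 0| ≤ Y * κ⁻¹ := g.vn
    calc |f.ny 0| * _ ≤ |f.ny 0| * (Y * κ⁻¹) := mul_le_mul_of_nonneg_left b1 (abs_nonneg _)
      _ = Y * (|f.ny 0| * κ⁻¹) := by ring
      _ ≤ Y * (M * (s1 * rj)) := mul_le_mul_of_nonneg_left h.ny_κ (by linarith)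
      _ = M * Y * (s1 * rj) := by ring
      _ ≤ M * Y * (Gm * w) := mul_le_mul_of_nonneg_left h.s1rj (by positivity)
  have k4 : |f.d * ‖lat (vv z C x) - lat y‖ ^ 2| ≤ Y * w := by
    rw [abs_mul, abs_of_nonneg (sq_nonneg ‖lat (vv z C x) - lat y‖)]
    have hYw : 0 ≤ Y * w := by positivity
    calc |f.d| * ‖lat (vv z C x) - lat y‖ ^ 2 ≤ |f.d| * (Y * w) ^ 2 :=
          mul_le_mul_of_nonneg_left (pow_le_pow_left₀ (norm_nonneg _) g.vl 2) (abs_nonneg _)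
      _ = (|f.d| * (Y * w)) * (Y * w) := by ring
      _ ≤ 1 * (Y * w) := mul_le_mul_of_nonneg_right (h.d_Yw.trans
          (by have := (ηδ_le h).2.1; linarith)) hYw
      _ = Y * w := one_mul _
  have t1 := abs_add_le (f.ev (lat y) (y 2) 0 + inner ℝ (f.gr C (lat y) 0)
    (lat (vv z C x) - lat y) + f.ny 0 * (LZg725.nrm C (lat (vv z C x)) ((vv z C x) 2) 0 -
      LZg725.nrm C (lat y) (y 2) 0)) (f.d * ‖lat (vv z C x) - lat y‖ ^ 2)
  have t2 := abs_add_le (f.ev (lat y) (y 2) 0 + inner ℝ (f.gr C (lat y) 0)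
    (lat (vv z C x) - lat y)) (f.ny 0 * (LZg725.nrm C (lat (vv z C x)) ((vv z C x) 2) 0 -
      LZg725.nrm C (lat y) (y 2) 0))
  have t3 := abs_add_le (f.ev (lat y) (y 2) 0) (inner ℝ (f.gr C (lat y) 0)
    (lat (vv z C x) - lat y))
  have f1 : A * (Gm * w) ≤ Kp M A Y Gm c3 * w := by
    unfold Kp
    have : M * A * Y * c3 * Gm * w = (A * (Gm * w)) * (M * Y * c3) := by ring
    rw [this]
    exact le_mul_of_one_le_right (by positivity)
      (one_le_mul_of_one_le_of_one_le (one_le_mul_of_one_le_of_one_le hM hY) hc)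
  have f2 : Y * w ≤ Kp M A Y Gm c3 * w := by
    unfold Kp
    have : M * A * Y * c3 * Gm * w = (Y * w) * (M * A * c3 * Gm) := by ring
    rw [this]
    exact le_mul_of_one_le_right (by positivity) (one_le_mul_of_one_le_of_one_le
      (one_le_mul_of_one_le_of_one_le (one_le_mul_of_one_le_of_one_le hM hA) hc) hG)
  have f3 : M * Y * (Gm * w) ≤ Kp M A Y Gm c3 * w := by
    unfold Kp
    have : M * A * Y * c3 * Gm * w = (M * Y * (Gm * w)) * (A * c3) := by ring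
    rw [this]
    exact le_mul_of_one_le_right (by positivity) (one_le_mul_of_one_le_of_one_le hA hc)
  linarith

/-- **ray derivative in the frame of the parent**. -/
theorem Fld_le (h : ChN M κ A s1 s2 T rj θj w δ Y Gm c3 ι η r f)
    (g : Gd κ A s1 s2 T rj θj w Y c3 r c X0 f z C' y C x) :
    |(Ft z f).ld C (lat x) (x 2) 0| ≤ 5 * Kp M A Y Gm c3 * θj := by
  rw [Ft_ld]; exact ldv_le h g

/-- **value in the frame of the parent**. -/
theorem Fev_le (h : ChN M κ A s1 s2 T rj θj w δ Y Gm c3 ι η r f)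
    (g : Gd κ A s1 s2 T rj θj w Y c3 r c X0 f z C' y C x) :
    |(Ft z f).ev (lat x) (x 2) 0| ≤ 10 * Kp M A Y Gm c3 * θj * r := by
  rw [Ft_ev]
  have hK := h.one_le_Kp
  refine (abs_sub _ _).trans ?_
  rw [abs_mul]
  have h1 := evv_le h g
  have h2 := mul_le_mul g.zr (ldv_le h g) (abs_nonneg _) h.r0.le
  have h3 : 5 * Kp M A Y Gm c3 * w ≤ 5 * Kp M A Y Gm c3 * (θj * r) :=
    mul_le_mul_of_nonneg_left h.w_le (by linarith)
  linarith

/-- **gradient in the frame of the parent**. -/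
theorem Fgr_sub (h : ChN M κ A s1 s2 T rj θj w δ Y Gm c3 ι η r f)
    (g : Gd κ A s1 s2 T rj θj w Y c3 r c X0 f z C' y C x) :
    ‖(Ft z f).gr C (lat x) 0 - f.gr C' (lat y) 0‖ ≤ η * δ / 8 := by
  rw [Ft_gr]; exact gv_sub h g

theorem Fgr_le (h : ChN M κ A s1 s2 T rj θj w δ Y Gm c3 ι η r f)
    (g : Gd κ A s1 s2 T rj θj w Y c3 r c X0 f z C' y C x) :
    ‖(Ft z f).gr C (lat x) 0‖ ≤ 2 := by
  rw [Ft_gr]; exact gv_bd h g

/-- **null component of the gradient in the frame of the parent**. -/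
theorem Fny_le (h : ChN M κ A s1 s2 T rj θj w δ Y Gm c3 ι η r f) (hz : |z.2| ≤ r) {s : ℝ}
    (hs : |s| ≤ r) : |(Ft z f).ny s| * (T * δ ^ 2) ≤ 3 * M * s2 ∧
      |(Ft z f).ny s| ≤ 3 * M * (κ * s1 * r) := by
  rw [Ft_ny]
  have hr := h.r0
  have hT := h.S.T0
  have hδ := h.δ0
  have hk := h.S.k0
  have hs1 := h.S.s10
  have hM : 0 ≤ M := by have := h.M1; linarith
  have e : f.ny (s - z.2) = f.ny 0 - 2 * f.d * (s - z.2) := by unfold Cf.ny; ring
  have h1 : |s - z.2| ≤ 2 * r := (abs_sub _ _).trans (by linarith)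
  have h2 : |f.ny (s - z.2)| ≤ |f.ny 0| + 4 * (|f.d| * r) := by
    rw [e]
    refine (abs_sub _ _).trans ?_
    rw [abs_mul, abs_mul, abs_two]
    have := mul_le_mul_of_nonneg_left h1 (by positivity : (0:ℝ) ≤ 2 * |f.d|)
    linarith
  have n1 := h.F.ny 0 (by rw [abs_zero]; exact h.S.r0.le)
  have n2 := h.F.cmp 0 (by rw [abs_zero]; exact h.S.r0.le)
  have d1 := h.F.d_le h.S
  have d2 := h.F.d_le' h.S
  rw [h.hrj] at d1 n2
  constructor
  · have hTδ : 0 < T * δ ^ 2 := by positivity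
    have n3 : |f.ny 0| * T ≤ M * s2 := by
      calc |f.ny 0| * T ≤ M * s2 / T * T := mul_le_mul_of_nonneg_right n1 hT.le
        _ = M * s2 := by field_simp
    have n4 : |f.ny 0| * (T * δ ^ 2) ≤ M * s2 := by
      have a : |f.ny 0| * (T * δ ^ 2) = (|f.ny 0| * T) * δ ^ 2 := by ring
      rw [a]
      have b : δ ^ 2 ≤ 1 := pow_le_one₀ hδ.le h.δ1
      exact (mul_le_of_le_one_right (by positivity) b).trans n3
    calc |f.ny (s - z.2)| * (T * δ ^ 2) ≤ (|f.ny 0| + 4 * (|f.d| * r)) * (T * δ ^ 2) :=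
          mul_le_mul_of_nonneg_right h2 hTδ.le
      _ = |f.ny 0| * (T * δ ^ 2) + 4 * (|f.d| * (T * (δ ^ 2 * r))) := by ring
      _ ≤ 3 * M * s2 := by linarith
  · have b : δ ^ 2 ≤ 1 := pow_le_one₀ hδ.le h.δ1
    have n5 : M * (κ * s1 * (δ ^ 2 * r)) ≤ M * (κ * s1 * r) := by
      have : κ * s1 * (δ ^ 2 * r) ≤ κ * s1 * r :=
        mul_le_mul_of_nonneg_left (mul_le_of_le_one_left hr.le b) (by positivity)
      exact mul_le_mul_of_nonneg_left this hM
    have d3 := mul_le_mul_of_nonneg_right d2 hr.le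
    calc |f.ny (s - z.2)| ≤ |f.ny 0| + 4 * (|f.d| * r) := h2
      _ ≤ M * (κ * s1 * r) + 4 * (M * (κ * s1) / 2 * r) := by linarith
      _ = 3 * M * (κ * s1 * r) := by ring

/-! ### extents -/

/-- centre of the member in the frame of the parent. -/
noncomputable def Xt (z : E3 × ℝ) (c : E2) (X0 : E3) : E3 := X0 + z.1 + z.2 • vel c

theorem ext_C (h : ChN M κ A s1 s2 T rj θj w δ Y Gm c3 ι η r f)
    (g : Gd κ A s1 s2 T rj θj w Y c3 r c X0 f z C' y C x) : ‖C - c‖ ≤ 2 * A * s2 := by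
  have e : C - c = (C - C') + (C' - c) := by abel
  rw [e]
  refine (norm_add_le _ _).trans ?_
  have hs2 := h.S.s20
  have h1 : c3 * θj ≤ A * s2 := by
    have a1 := h.prods.2.2.2.2.1
    have a2 := (ηδ_le h).1
    have hc := h.c31
    calc c3 * θj ≤ c3 * (ι * s2) := mul_le_mul_of_nonneg_left h.hι (by linarith)
      _ = (c3 * ι) * s2 := by ring
      _ ≤ A * s2 := mul_le_mul_of_nonneg_right (by have := h.A1; linarith) hs2.le
  have h2 := g.CC
  have h3 := g.yC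
  linarith

/-- `w ≤ ι s2 r`. -/
theorem w_s2 (h : ChN M κ A s1 s2 T rj θj w δ Y Gm c3 ι η r f) : w ≤ ι * (s2 * r) := by
  refine h.w_le.trans ?_
  have := mul_le_mul_of_nonneg_right h.hι h.r0.le
  linarith

theorem rj_le (h : ChN M κ A s1 s2 T rj θj w δ Y Gm c3 ι η r f) : rj ≤ r := by
  rw [h.hrj]
  exact mul_le_of_le_one_left h.r0.le (pow_le_one₀ h.δ0.le h.δ1)

theorem ext_l (h : ChN M κ A s1 s2 T rj θj w δ Y Gm c3 ι η r f)
    (g : Gd κ A s1 s2 T rj θj w Y c3 r c X0 f z C' y C x) :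
    ‖lat x - lat (Xt z c X0)‖ ≤ 4 * A * s2 * r := by
  have e : lat x - lat (Xt z c X0) =
      (lat (vv z C x) - lat y) + (lat y - lat X0) + z.2 • (C - c) := by
    unfold Xt vel
    rw [lat_vv, CDef480.lat_add, CDef480.lat_add, CDef480.lat_smul, CDef480.lat_pt]
    module
  rw [e]
  refine (norm_add_le _ _).trans ?_
  have h0 := norm_add_le (lat (vv z C x) - lat y) (lat y - lat X0)
  rw [norm_smul, Real.norm_eq_abs]
  have hs2 := h.S.s20
  have hr := h.r0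
  have hA := h.A1
  have h1 : Y * w ≤ A * s2 * r := by
    have a1 := h.prods.2.2.2.2.2.2.2.2.2
    have a2 := (ηδ_le h).1
    calc Y * w ≤ Y * (ι * (s2 * r)) := mul_le_mul_of_nonneg_left (w_s2 h) (by
          have := h.Y1; linarith)
      _ = (Y * ι) * (s2 * r) := by ring
      _ ≤ A * (s2 * r) := mul_le_mul_of_nonneg_right (by linarith) (by positivity)
      _ = _ := by ring
  have h2 : A * s2 * rj ≤ A * s2 * r := mul_le_mul_of_nonneg_left (rj_le h) (by positivity)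
  have h3 := mul_le_mul g.zr (ext_C h g) (norm_nonneg _) hr.le
  have h4 := g.vl
  have h5 := g.yl
  linarith

theorem ext_n (h : ChN M κ A s1 s2 T rj θj w δ Y Gm c3 ι η r f)
    (g : Gd κ A s1 s2 T rj θj w Y c3 r c X0 f z C' y C x) :
    |CDef480.nrm c x 0 - CDef480.nrm c (Xt z c X0) 0| ≤ 5 * A ^ 2 * Y * T * r := by
  have e : CDef480.nrm c x 0 - CDef480.nrm c (Xt z c X0) 0 =
      (CDef480.nrm C (vv z C x) 0 - CDef480.nrm C y 0) -
        inner ℝ (C - c) (lat (vv z C x) - lat y) +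
        (CDef480.nrm c y 0 - CDef480.nrm c X0 0) - z.2 * ‖C - c‖ ^ 2 / 2 := by
    simp only [Ckm538.nrm_zero, two_vv, lat_vv]
    unfold Xt vel
    simp only [PiLp.add_apply, PiLp.smul_apply, CDef480.pt_two, smul_eq_mul, CDef480.lat_add,
      CDef480.lat_smul, CDef480.lat_pt, inner_add_right, inner_sub_right, inner_sub_left,
      real_inner_smul_right, norm_sub_sq_real, real_inner_self_eq_norm_sq]
    rw [real_inner_comm c C]
    ring
  rw [e]
  have hs2 := h.S.s20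
  have hr := h.r0
  have hA := h.A1
  have hY := h.Y1
  have hT := h.S.T0
  have hT1 := h.S.T1
  have k1 : Y * κ⁻¹ ≤ Y * (T * r) := by
    refine mul_le_mul_of_nonneg_left (h.S.T2.trans ?_) (by linarith)
    exact mul_le_mul_of_nonneg_left (rj_le h) hT.le
  have k2 : |inner ℝ (C - c) (lat (vv z C x) - lat y)| ≤ T * r := by
    refine (abs_real_inner_le_norm _ _).trans ?_
    have a0 : ‖C - c‖ * ‖lat (vv z C x) - lat y‖ ≤ (2 * A * s2) * (Y * w) :=
      mul_le_mul (ext_C h g) g.vl (norm_nonneg _) (by positivity)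
    have a1 := h.prods.2.2.2.2.2.1
    have a2 := (ηδ_le h).1
    calc _ ≤ _ := a0
      _ ≤ (2 * A * s2) * (Y * (ι * (s2 * r))) :=
          mul_le_mul_of_nonneg_left (mul_le_mul_of_nonneg_left (w_s2 h) (by linarith))
            (by positivity)
      _ = (2 * (A * Y * ι)) * (s2 ^ 2 * r) := by ring
      _ ≤ 1 * (T * r) := mul_le_mul (by linarith) (mul_le_mul_of_nonneg_right hT1 hr.le)
          (by positivity) (by norm_num)
      _ = T * r := one_mul _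
  have k3 : A * T * rj ≤ A * (T * r) := by
    rw [mul_assoc]
    exact mul_le_mul_of_nonneg_left (mul_le_mul_of_nonneg_left (rj_le h) hT.le) (by linarith)
  have k4 : |z.2 * ‖C - c‖ ^ 2 / 2| ≤ 2 * A ^ 2 * (T * r) := by
    rw [abs_div, abs_mul, abs_two, abs_of_nonneg (sq_nonneg ‖C - c‖)]
    have b1 : ‖C - c‖ ^ 2 ≤ (2 * A * s2) ^ 2 := pow_le_pow_left₀ (norm_nonneg _) (ext_C h g) 2
    have b2 := mul_le_mul g.zr b1 (sq_nonneg _) hr.le
    have b3 : r * (2 * A * s2) ^ 2 ≤ r * (4 * A ^ 2 * T) := by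
      refine mul_le_mul_of_nonneg_left ?_ hr.le
      calc (2 * A * s2) ^ 2 = 4 * A ^ 2 * s2 ^ 2 := by ring
        _ ≤ 4 * A ^ 2 * T := mul_le_mul_of_nonneg_left hT1 (by positivity)
    linarith
  have t1 := abs_sub ((CDef480.nrm C (vv z C x) 0 - CDef480.nrm C y 0) -
        inner ℝ (C - c) (lat (vv z C x) - lat y) +
        (CDef480.nrm c y 0 - CDef480.nrm c X0 0)) (z.2 * ‖C - c‖ ^ 2 / 2)
  have t2 := abs_add_le ((CDef480.nrm C (vv z C x) 0 - CDef480.nrm C y 0) -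
        inner ℝ (C - c) (lat (vv z C x) - lat y)) (CDef480.nrm c y 0 - CDef480.nrm c X0 0)
  have t3 := abs_sub (CDef480.nrm C (vv z C x) 0 - CDef480.nrm C y 0)
        (inner ℝ (C - c) (lat (vv z C x) - lat y))
  have t4 := g.vn
  have t5 := g.yn
  have hTr : 0 ≤ T * r := by positivity
  have f1 : Y * (T * r) ≤ (A ^ 2 * Y) * (T * r) :=
    mul_le_mul_of_nonneg_right (le_mul_of_one_le_left (by linarith) (one_le_pow₀ hA)) hTr
  have f2 : A * (T * r) ≤ (A ^ 2 * Y) * (T * r) := by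
    refine mul_le_mul_of_nonneg_right ?_ hTr
    have : A ^ 2 * Y = A * (A * Y) := by ring
    rw [this]
    exact le_mul_of_one_le_right (by linarith) (one_le_mul_of_one_le_of_one_le hA hY)
  have f3 : A ^ 2 * (T * r) ≤ (A ^ 2 * Y) * (T * r) :=
    mul_le_mul_of_nonneg_right (le_mul_of_one_le_right (by positivity) hY) hTr
  have f4 : T * r ≤ A ^ 2 * (T * r) := le_mul_of_one_le_left hTr (one_le_pow₀ hA)
  have e2 : 5 * A ^ 2 * Y * T * r = 5 * ((A ^ 2 * Y) * (T * r)) := by ring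
  rw [e2]
  linarith

end gd

end Crest.Agent.R116.Mc330
end

-- ▼ part R116/Mc6_330
section

/-!
# R116 (S0155), misaligned step: the member on a plank of the parent frame (helper330)

`pl_ld`, `pl_ev`, `pl_gr`, `pl_lat`, `pl_nrm`: bounds at the points of the plank `PL r (4 w) (2 B)` of a
phase point `(C, x)` seen by the member; `Zs` = the space-time region of the member, `Zs_vol` its
volume; `mem_Zs`; `cross_pl`: transversality at a common point of two planks.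
-/

set_option autoImplicit false

open MeasureTheory
open scoped ENNReal

namespace Crest.Agent.R116.Mc330

open Crest.Agent.R138.Defs (E2)
open Crest.Agent.R116.CDef480 (E3 lat pt vel umc enc)
open Crest.Agent.R116.LZg725 (Cf)
open Crest.Agent.R116.WC188 (TT Adm mset scost pbx Sd)
open Crest.Agent.R116.De295 (SF FF)
open Crest.Agent.R116.Gc192 (un crs)
open Crest.Agent.R116.Ma448 (PL)
open ChN

section pl

variable {M κ A s1 s2 T rj θj w δ Y Gm c3 ι η r : ℝ} {f : Cf E2} {c : E2} {X0 : E3} {z : E3 × ℝ}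
  {C' C : E2} {y x X : E3} {t : ℝ}

theorem pl_ld (h : ChN M κ A s1 s2 T rj θj w δ Y Gm c3 ι η r f)
    (g : Gd κ A s1 s2 T rj θj w Y c3 r c X0 f z C' y C x)
    (hp : (X, t) ∈ PL r (4 * w) (2 * κ⁻¹) C (lat x) (CDef480.nrm C x 0)) :
    |(Ft z f).ld C (lat X) (X 2) t| ≤ 7 * Kp M A Y Gm c3 * θj := by
  have h1 := plank_ld (Ft z f) hp
  have h2 := Fld_le h g
  rw [Ft_d] at h1
  have h3 := h.d_κ
  have h4 : M * s1 ≤ Kp M A Y Gm c3 * θj := by
    have hM := h.M1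
    have hA := h.A1
    have hY := h.Y1
    have hG := h.Gm1
    have hc := h.c31
    have hθ := h.θ0
    have a1 : M * s1 ≤ M * (Gm * θj) := mul_le_mul_of_nonneg_left h.hs1 (by linarith)
    refine a1.trans ?_
    unfold Kp
    have : M * A * Y * c3 * Gm * θj = (M * (Gm * θj)) * (A * Y * c3) := by ring
    rw [this]
    exact le_mul_of_one_le_right (by positivity)
      (one_le_mul_of_one_le_of_one_le (one_le_mul_of_one_le_of_one_le hA hY) hc)
  have e : (Ft z f).ld C (lat X) (X 2) t = ((Ft z f).ld C (lat X) (X 2) t -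
    (Ft z f).ld C (lat x) (x 2) 0) + (Ft z f).ld C (lat x) (x 2) 0 := by ring
  rw [e]
  refine (abs_add_le _ _).trans ?_
  have h5 : 2 * |f.d| * (2 * κ⁻¹) = 4 * (|f.d| * κ⁻¹) := by ring
  rw [h5] at h1
  linarith

/-- `w` in terms of `Kp θj r`. -/
theorem w_Kp (h : ChN M κ A s1 s2 T rj θj w δ Y Gm c3 ι η r f) :
    w ≤ Kp M A Y Gm c3 * θj * r := by
  refine h.w_le.trans ?_
  rw [mul_assoc]
  exact le_mul_of_one_le_left (mul_nonneg h.θ0.le h.r0.le) h.one_le_Kp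

theorem pl_ev (h : ChN M κ A s1 s2 T rj θj w δ Y Gm c3 ι η r f)
    (g : Gd κ A s1 s2 T rj θj w Y c3 r c X0 f z C' y C x)
    (hp : (X, t) ∈ PL r (4 * w) (2 * κ⁻¹) C (lat x) (CDef480.nrm C x 0)) :
    |(Ft z f).ev (lat X) (X 2) t| ≤ 30 * Kp M A Y Gm c3 * θj * r := by
  have ht : |t| ≤ r := plank_time hp
  have h1 := plank_ev (Ft z f) hp (Fgr_le h g) (Fny_le h g.zr ht).2
  rw [Ft_d] at h1
  have h2 := Fev_le h g
  have h3 := Fld_le h g
  have hr := h.r0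
  have h3' := mul_le_mul_of_nonneg_left h3 hr.le
  have hw := w_Kp h
  have hw0 := h.w0
  have hk := h.S.k0
  have h4 : 3 * M * (κ * s1 * r) * (2 * κ⁻¹) ≤ 6 * (Kp M A Y Gm c3 * θj * r) := by
    have hM := h.M1
    have hA := h.A1
    have hY := h.Y1
    have hG := h.Gm1
    have hc := h.c31
    have hθ := h.θ0
    have e : 3 * M * (κ * s1 * r) * (2 * κ⁻¹) = 6 * (M * s1 * r) := by field_simp; ring
    rw [e]
    have a1 : M * s1 * r ≤ M * (Gm * θj) * r :=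
      mul_le_mul_of_nonneg_right (mul_le_mul_of_nonneg_left h.hs1 (by linarith)) hr.le
    have a2 : M * (Gm * θj) * r ≤ Kp M A Y Gm c3 * θj * r := by
      unfold Kp
      have : M * A * Y * c3 * Gm * θj * r = (M * (Gm * θj) * r) * (A * Y * c3) := by ring
      rw [this]
      exact le_mul_of_one_le_right (by positivity)
        (one_le_mul_of_one_le_of_one_le (one_le_mul_of_one_le_of_one_le hA hY) hc)
    linarith
  have h5 : |f.d| * (4 * w) ^ 2 ≤ w := by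
    have a1 := h.d_w'
    have a2 := (ηδ_le h).2.1
    calc |f.d| * (4 * w) ^ 2 = 16 * (|f.d| * w) * w := by ring
      _ ≤ 1 * w := mul_le_mul_of_nonneg_right (by linarith) hw0.le
      _ = w := one_mul _
  linarith

theorem pl_gr (h : ChN M κ A s1 s2 T rj θj w δ Y Gm c3 ι η r f)
    (g : Gd κ A s1 s2 T rj θj w Y c3 r c X0 f z C' y C x)
    (hp : (X, t) ∈ PL r (4 * w) (2 * κ⁻¹) C (lat x) (CDef480.nrm C x 0)) :
    ‖(Ft z f).gr C (lat X) t - f.gr C' (lat y) 0‖ ≤ η * δ / 2 := by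
  have h1 := plank_gr (Ft z f) hp
  rw [Ft_d] at h1
  have h2 := Fgr_sub h g
  have h3 := h.d_w'
  have e : (Ft z f).gr C (lat X) t - f.gr C' (lat y) 0 = ((Ft z f).gr C (lat X) t -
    (Ft z f).gr C (lat x) 0) + ((Ft z f).gr C (lat x) 0 - f.gr C' (lat y) 0) := by abel
  rw [e]
  refine (norm_add_le _ _).trans ?_
  have h4 : 2 * |f.d| * (4 * w) = 8 * (|f.d| * w) := by ring
  rw [h4] at h1
  have hη := h.η0
  have hδ := h.δ0
  have : 0 ≤ η * δ := by positivity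
  linarith

theorem pl_gr_bd (h : ChN M κ A s1 s2 T rj θj w δ Y Gm c3 ι η r f)
    (g : Gd κ A s1 s2 T rj θj w Y c3 r c X0 f z C' y C x)
    (hp : (X, t) ∈ PL r (4 * w) (2 * κ⁻¹) C (lat x) (CDef480.nrm C x 0)) :
    1 / 2 ≤ ‖(Ft z f).gr C (lat X) t‖ ∧ ‖(Ft z f).gr C (lat X) t‖ ≤ 2 := by
  have h1 := pl_gr h g hp
  have h2 := gy_bd h g
  have h3 := (ηδ_le h).2.1
  have h4 := norm_sub_norm_le (f.gr C' (lat y) 0) ((Ft z f).gr C (lat X) t)
  have h5 := norm_sub_norm_le ((Ft z f).gr C (lat X) t) (f.gr C' (lat y) 0)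
  rw [norm_sub_rev] at h4
  constructor <;> linarith [h2.1, h2.2]

theorem pl_un (h : ChN M κ A s1 s2 T rj θj w δ Y Gm c3 ι η r f)
    (g : Gd κ A s1 s2 T rj θj w Y c3 r c X0 f z C' y C x)
    (hp : (X, t) ∈ PL r (4 * w) (2 * κ⁻¹) C (lat x) (CDef480.nrm C x 0)) :
    ‖un (Ft z f) C (lat X) t - un f C' (lat y) 0‖ ≤ 2 * (η * δ) := by
  have h1 := pl_gr h g hp
  have h2 := (gy_bd h g).1
  have h3 := (pl_gr_bd h g hp).1
  have h4 := Gc192.unit_sub_le (k := 1 / 2) (by norm_num) h3 (by linarith) h1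
  unfold un
  refine h4.trans (le_of_eq (by ring))

theorem pl_lat (h : ChN M κ A s1 s2 T rj θj w δ Y Gm c3 ι η r f)
    (g : Gd κ A s1 s2 T rj θj w Y c3 r c X0 f z C' y C x)
    (hp : (X, t) ∈ PL r (4 * w) (2 * κ⁻¹) C (lat x) (CDef480.nrm C x 0)) :
    ‖(lat X - lat (Xt z c X0)) + t • c‖ ≤ 7 * A * s2 * r := by
  have ht : |t| ≤ r := plank_time hp
  obtain ⟨-, h2, -⟩ := hp
  simp only at h2
  have e : (lat X - lat (Xt z c X0)) + t • c = (lat X - (lat x - t • C)) +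
      (lat x - lat (Xt z c X0)) - t • (C - c) := by module
  rw [e]
  refine (norm_sub_le _ _).trans ?_
  have h0 := norm_add_le (lat X - (lat x - t • C)) (lat x - lat (Xt z c X0))
  rw [norm_smul, Real.norm_eq_abs]
  have h3 := ext_l h g
  have h4 := mul_le_mul ht (ext_C h g) (norm_nonneg _) h.r0.le
  have h5 : 4 * w ≤ A * s2 * r := by
    have a1 := w_s2 h
    have a2 := h.prods.2.2.2.2.2.2.2.2.1
    have a3 := (ηδ_le h).1
    have hM := h.M1
    have hA := h.A1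
    have hι := h.ι0
    have hs := mul_pos h.S.s20 h.r0
    have a4 : ι ≤ M * ι := le_mul_of_one_le_left hι.le hM
    have a5 : ι * (s2 * r) ≤ (1 / 4) * (s2 * r) := mul_le_mul_of_nonneg_right (by linarith) hs.le
    have a6 : s2 * r ≤ A * (s2 * r) := le_mul_of_one_le_left hs.le hA
    linarith
  linarith

theorem pl_nrm (h : ChN M κ A s1 s2 T rj θj w δ Y Gm c3 ι η r f)
    (g : Gd κ A s1 s2 T rj θj w Y c3 r c X0 f z C' y C x)
    (hp : (X, t) ∈ PL r (4 * w) (2 * κ⁻¹) C (lat x) (CDef480.nrm C x 0)) :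
    |CDef480.nrm c X t - CDef480.nrm c (Xt z c X0) 0| ≤ 10 * A ^ 2 * Y * T * r := by
  have ht : |t| ≤ r := plank_time hp
  obtain ⟨-, h2, h3⟩ := hp
  simp only at h2 h3
  have e : CDef480.nrm c X t - CDef480.nrm c (Xt z c X0) 0 =
      (CDef480.nrm C X t - CDef480.nrm C x 0) + t * ‖C - c‖ ^ 2 / 2 -
        inner ℝ (C - c) (lat X - (lat x - t • C)) +
        (CDef480.nrm c x 0 - CDef480.nrm c (Xt z c X0) 0) := by
    unfold CDef480.nrm
    simp only [inner_sub_left, inner_sub_right, real_inner_smul_right, norm_sub_sq_real,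
      real_inner_self_eq_norm_sq]
    rw [real_inner_comm c C]
    ring
  rw [e]
  have hs2 := h.S.s20
  have hr := h.r0
  have hA := h.A1
  have hY := h.Y1
  have hT := h.S.T0
  have hT1 := h.S.T1
  have hTr : 0 ≤ T * r := by positivity
  have k1 : 2 * κ⁻¹ ≤ 2 * (T * r) := by
    refine mul_le_mul_of_nonneg_left (h.S.T2.trans ?_) (by norm_num)
    exact mul_le_mul_of_nonneg_left (rj_le h) hT.le
  have k2 : |inner ℝ (C - c) (lat X - (lat x - t • C))| ≤ T * r := by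
    refine (abs_real_inner_le_norm _ _).trans ?_
    have a0 : ‖C - c‖ * ‖lat X - (lat x - t • C)‖ ≤ (2 * A * s2) * (4 * w) :=
      mul_le_mul (ext_C h g) h2 (norm_nonneg _) (by positivity)
    have a1 := h.prods.2.2.2.2.2.1
    have a2 := (ηδ_le h).1
    have hι := h.ι0
    have a3 : A * ι ≤ A * Y * ι := by
      have : A * Y * ι = (A * ι) * Y := by ring
      rw [this]
      exact le_mul_of_one_le_right (by positivity) hY
    calc _ ≤ _ := a0
      _ ≤ (2 * A * s2) * (4 * (ι * (s2 * r))) :=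
          mul_le_mul_of_nonneg_left (by linarith [w_s2 h]) (by positivity)
      _ = (8 * (A * ι)) * (s2 ^ 2 * r) := by ring
      _ ≤ 1 * (T * r) := mul_le_mul (by linarith) (mul_le_mul_of_nonneg_right hT1 hr.le)
          (by positivity) (by norm_num)
      _ = T * r := one_mul _
  have k4 : |t * ‖C - c‖ ^ 2 / 2| ≤ 2 * A ^ 2 * (T * r) := by
    rw [abs_div, abs_mul, abs_two, abs_of_nonneg (sq_nonneg ‖C - c‖)]
    have b1 : ‖C - c‖ ^ 2 ≤ (2 * A * s2) ^ 2 := pow_le_pow_left₀ (norm_nonneg _) (ext_C h g) 2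
    have b2 := mul_le_mul ht b1 (sq_nonneg _) hr.le
    have b3 : r * (2 * A * s2) ^ 2 ≤ r * (4 * A ^ 2 * T) := by
      refine mul_le_mul_of_nonneg_left ?_ hr.le
      calc (2 * A * s2) ^ 2 = 4 * A ^ 2 * s2 ^ 2 := by ring
        _ ≤ 4 * A ^ 2 * T := mul_le_mul_of_nonneg_left hT1 (by positivity)
    linarith
  have t1 := abs_add_le ((CDef480.nrm C X t - CDef480.nrm C x 0) + t * ‖C - c‖ ^ 2 / 2 -
        inner ℝ (C - c) (lat X - (lat x - t • C)))
        (CDef480.nrm c x 0 - CDef480.nrm c (Xt z c X0) 0)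
  have t2 := abs_sub ((CDef480.nrm C X t - CDef480.nrm C x 0) + t * ‖C - c‖ ^ 2 / 2)
        (inner ℝ (C - c) (lat X - (lat x - t • C)))
  have t3 := abs_add_le (CDef480.nrm C X t - CDef480.nrm C x 0) (t * ‖C - c‖ ^ 2 / 2)
  have t4 := ext_n h g
  have f1 : T * r ≤ (A ^ 2 * Y) * (T * r) :=
    le_mul_of_one_le_left hTr (one_le_mul_of_one_le_of_one_le (one_le_pow₀ hA) hY)
  have f3 : A ^ 2 * (T * r) ≤ (A ^ 2 * Y) * (T * r) :=
    mul_le_mul_of_nonneg_right (le_mul_of_one_le_right (by positivity) hY) hTr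
  have e2 : 10 * A ^ 2 * Y * T * r = 10 * ((A ^ 2 * Y) * (T * r)) := by ring
  have e3 : 5 * A ^ 2 * Y * T * r = 5 * ((A ^ 2 * Y) * (T * r)) := by ring
  rw [e3] at t4
  rw [e2]
  linarith

/-! ### the space-time region -/

/-- the space-time region of the member in the frame of the parent. -/
def Zs (M A Y Gm c3 θj s2 T r : ℝ) (c : E2) (X0 : E3) (f : Cf E2) (z : E3 × ℝ) :
    Set (E3 × ℝ) :=
  {q : E3 × ℝ | |q.2 - 0| ≤ r ∧
    ‖(lat q.1 - lat (Xt z c X0)) + (q.2 - 0) • c‖ ≤ (10 * A ^ 2 * Y) * s2 * r ∧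
    |LZg725.nrm c (lat q.1) (q.1 2) q.2 - LZg725.nrm c (lat (Xt z c X0)) ((Xt z c X0) 2) 0| ≤
      (10 * A ^ 2 * Y) * T * r ∧ |(Ft z f).val q| ≤ 30 * Kp M A Y Gm c3 * θj * r ∧
    ∃ C : E2, ‖C - c‖ ≤ (10 * A ^ 2 * Y) * s2 ∧
      |(Ft z f).ld C (lat q.1) (q.1 2) q.2| ≤ 7 * Kp M A Y Gm c3 * θj}

theorem mem_Zs (h : ChN M κ A s1 s2 T rj θj w δ Y Gm c3 ι η r f)
    (g : Gd κ A s1 s2 T rj θj w Y c3 r c X0 f z C' y C x)
    (hp : (X, t) ∈ PL r (4 * w) (2 * κ⁻¹) C (lat x) (CDef480.nrm C x 0)) :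
    (X, t) ∈ Zs M A Y Gm c3 θj s2 T r c X0 f z := by
  have hA := h.A1
  have hY := h.Y1
  have hA2 : A ≤ A ^ 2 * Y := by
    have : A ^ 2 * Y = A * (A * Y) := by ring
    rw [this]
    exact le_mul_of_one_le_right (by linarith) (one_le_mul_of_one_le_of_one_le hA hY)
  have hs2 := h.S.s20
  have hr := h.r0
  refine ⟨?_, ?_, ?_, ?_, C, ?_, ?_⟩
  · rw [sub_zero]; exact plank_time hp
  · rw [sub_zero]
    refine (pl_lat h g hp).trans ?_
    have : 7 * A * s2 * r = (7 * A) * (s2 * r) := by ring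
    rw [this]
    have e2 : (10 * A ^ 2 * Y) * s2 * r = (10 * (A ^ 2 * Y)) * (s2 * r) := by ring
    rw [e2]
    exact mul_le_mul_of_nonneg_right (by linarith) (by positivity)
  · exact (pl_nrm h g hp).trans (le_of_eq (by ring))
  · exact pl_ev h g hp
  · refine (ext_C h g).trans (mul_le_mul_of_nonneg_right ?_ hs2.le)
    have e2 : 10 * A ^ 2 * Y = 10 * (A ^ 2 * Y) := by ring
    rw [e2]; linarith
  · exact pl_ld h g hp

/-- **volume of the region**. -/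
theorem Zs_vol (h : ChN M κ A s1 s2 T rj θj w δ Y Gm c3 ι η r f) (hz : |z.2| ≤ r) :
    volume (Zs M A Y Gm c3 θj s2 T r c X0 f z) ≤
      ENNReal.ofReal (512 * (10 * A ^ 2 * Y) ^ 3 *
        ((30 * Kp M A Y Gm c3 * θj * r) * (s2 * r) * (T * r) * r)) := by
  have hA := h.A1
  have hY := h.Y1
  have hM := h.M1
  have hr := h.r0
  have hs2 := h.S.s20
  have hT := h.S.T0
  have hδ := h.δ0
  have hθ := h.θ0
  have hK := h.one_le_Kp
  have hAY : 1 ≤ A ^ 2 * Y := one_le_mul_of_one_le_of_one_le (one_le_pow₀ hA) hY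
  have hsm := h.prods.2.2.2.1
  have hη := h.η1
  have hη0 := h.η0
  have hbase : (M * Kp M A Y Gm c3 * θj) / δ ^ 2 ≤ s2 / 1024 := by
    rw [div_le_iff₀ (by positivity)]
    have a1 : M * Kp M A Y Gm c3 * θj ≤ M * Kp M A Y Gm c3 * (ι * s2) :=
      mul_le_mul_of_nonneg_left h.hι (by positivity)
    have a2 : M * Kp M A Y Gm c3 * (ι * s2) ≤ (η * δ ^ 2 / 16) * s2 := by
      have : M * Kp M A Y Gm c3 * (ι * s2) = (M * Kp M A Y Gm c3 * ι) * s2 := by ring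
      rw [this]
      exact mul_le_mul_of_nonneg_right hsm hs2.le
    have a3 : (η * δ ^ 2 / 16) * s2 ≤ s2 / 1024 * δ ^ 2 := by
      have : (η * δ ^ 2 / 16) * s2 = η * (δ ^ 2 * s2 / 16) := by ring
      rw [this]
      have b : 0 ≤ δ ^ 2 * s2 / 16 := by positivity
      have := mul_le_mul_of_nonneg_right hη b
      linarith
    linarith
  refine LZg725.vol_pp (M := 3 * M / δ ^ 2) hr hs2 h.S.T1 (by linarith) (by positivity)
    (by positivity) (by rw [Ft_disc]; exact h.F.disc) ?_ ?_ ?_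
  · intro s hs
    rw [sub_zero] at hs
    have h1 := (Fny_le h hz hs).1
    rw [div_mul_eq_mul_div, le_div_iff₀ (by positivity)]
    calc |(Ft z f).ny s| * T * δ ^ 2 = |(Ft z f).ny s| * (T * δ ^ 2) := by ring
      _ ≤ 3 * M * s2 := h1
  · have e : 8 * (3 * M / δ ^ 2) * (30 * Kp M A Y Gm c3 * θj * r) =
      720 * (((M * Kp M A Y Gm c3 * θj) / δ ^ 2) * r) := by ring
    rw [e]
    have := mul_le_mul_of_nonneg_right hbase hr.le
    have h0 : 0 ≤ s2 * r := by positivity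
    linarith
  · have e : 8 * (3 * M / δ ^ 2) * (7 * Kp M A Y Gm c3 * θj) =
      168 * ((M * Kp M A Y Gm c3 * θj) / δ ^ 2) := by ring
    rw [e]
    linarith

end pl

/-- **transversality at a common point**: `u`, `v` unit normals at the phase points, `e` the rounded
one. -/
theorem cross_of {u v e u' v' : E2} {δ a b : ℝ} (hδ : 0 ≤ δ) (hu : ‖u‖ ≤ 1) (hv' : ‖v'‖ ≤ 1)
    (hre : |crs u e - crs u v| ≤ δ / 8) (hc : δ < |crs u e|) (h1 : ‖u' - u‖ ≤ a)
    (h2 : ‖v' - v‖ ≤ b) (hab : a + b ≤ δ / 4) : δ / 2 ≤ |crs u' v'| := by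
  have e1 : crs u' v' - crs u v = crs (u' - u) v' + crs u (v' - v) := by
    rw [PC299.crs_sub_left, PC299.crs_sub_right]; ring
  have h3 : |crs u' v' - crs u v| ≤ a + b := by
    rw [e1]
    refine (abs_add_le _ _).trans ?_
    have k1 := (PC299.abs_crs_le (u' - u) v').trans
      (mul_le_mul h1 hv' (norm_nonneg _) ((norm_nonneg _).trans h1))
    have k2 := (PC299.abs_crs_le u (v' - v)).trans
      (mul_le_mul hu h2 (norm_nonneg _) zero_le_one)
    linarith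
  have h4 := abs_sub_abs_le_abs_sub (crs u e) (crs u v)
  have h5 := abs_sub_abs_le_abs_sub (crs u v) (crs u' v')
  rw [abs_sub_comm] at h5
  linarith

end Crest.Agent.R116.Mc330
end

-- ▼ part R116/Mc7_330
section

/-!
# R116 (S0155), misaligned step: mass of the extension of a child member (helper330)

`Pt` = phase points of the parent frame near the rays seen by the member; `mass_ext` = their energy,
`≤ C A^c Y^c Gm^c δ^(-22) D s2^q scost`.
-/

set_option autoImplicit false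

open MeasureTheory
open scoped ENNReal

namespace Crest.Agent.R116.Mc330

open Crest.Agent.R138.Defs (E2)
open Crest.Agent.R138.Wpk685 (cen caps)
open Crest.Agent.R116.CDef480 (E3 lat pt vel umc enc)
open Crest.Agent.R116.LZg725 (Cf)
open Crest.Agent.R116.WC188 (TT Adm mset scost pbx Sd)
open Crest.Agent.R116.De295 (SF FF)
open Crest.Agent.R116.Gc192 (un crs)
open Crest.Agent.R116.Ma448 (PL)
open ChN

/-- phase points of the parent frame near a ray seen by the member. -/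
def Pt (κ A s1 s2 T rj θj w Y c3 r : ℝ) (c : E2) (X0 : E3) (f : Cf E2) (z : E3 × ℝ) (C : E2)
    (y : E3) : Prop :=
  ∃ (C' : E2) (y' x : E3), Gd κ A s1 s2 T rj θj w Y c3 r c X0 f z C' y' C x ∧
    (y, (0 : ℝ)) ∈ PL r (4 * w) (2 * κ⁻¹) C (lat x) (CDef480.nrm C x 0)

/-- constant of the extension. -/
noncomputable def Kx (M A Y Gm c3 δ : ℝ) : ℝ :=
  ((34 * A / δ ^ 2) ^ 2 * ((1794 * A ^ 2 / δ ^ 4) ^ 2 * (642 * (A ^ 2 * Y) / δ ^ 4))) *
    (30 * Kp M A Y Gm c3 / δ ^ 6)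

section mass

variable {M κ A s1 s2 T rj θj w δ Y Gm c3 ι η r : ℝ} {f : Cf E2} {c : E2} {X0 : E3} {z : E3 × ℝ}

/-- aperture of the sub-members. -/
noncomputable def sgx (δ s2 : ℝ) : ℝ := δ ^ 2 * s2 / 4

theorem sgx_pos (h : ChN M κ A s1 s2 T rj θj w δ Y Gm c3 ι η r f) : 0 < sgx δ s2 := by
  unfold sgx
  have := h.δ0
  have := h.S.s20
  positivity

theorem u1_le (h : ChN M κ A s1 s2 T rj θj w δ Y Gm c3 ι η r f) :
    30 * Kp M A Y Gm c3 * θj ≤ sgx δ s2 := by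
  have hs2 := h.S.s20
  have hK := h.one_le_Kp
  have h1 := h.prods.2.2.2.2.2.2.1
  have hη := h.η1
  have hδ := h.δ0
  unfold sgx
  calc 30 * Kp M A Y Gm c3 * θj ≤ 30 * Kp M A Y Gm c3 * (ι * s2) :=
        mul_le_mul_of_nonneg_left h.hι (by linarith)
    _ = 30 * (Kp M A Y Gm c3 * ι) * s2 := by ring
    _ ≤ 30 * (η * δ ^ 2 / 16) * s2 :=
        mul_le_mul_of_nonneg_right (by linarith) hs2.le
    _ = η * (30 / 16 * (δ ^ 2 * s2)) := by ring
    _ ≤ (1 / 64) * (30 / 16 * (δ ^ 2 * s2)) := mul_le_mul_of_nonneg_right hη (by positivity)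
    _ ≤ δ ^ 2 * s2 / 4 := by
        have : 0 ≤ δ ^ 2 * s2 := by positivity
        linarith

theorem s1_le (h : ChN M κ A s1 s2 T rj θj w δ Y Gm c3 ι η r f) : 3 * s1 ≤ sgx δ s2 ∧
    3 * s1 ≤ 30 * Kp M A Y Gm c3 * θj := by
  have hG := h.Gm1
  have hθ := h.θ0
  have h2 : 3 * s1 ≤ 30 * Kp M A Y Gm c3 * θj := by
    have h1 := h.hs1
    have hM := h.M1
    have hA := h.A1
    have hY := h.Y1
    have hc := h.c31
    have h3 : Gm * θj ≤ Kp M A Y Gm c3 * θj := by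
      unfold Kp
      have : M * A * Y * c3 * Gm * θj = (Gm * θj) * (M * A * Y * c3) := by ring
      rw [this]
      exact le_mul_of_one_le_right (by positivity) (one_le_mul_of_one_le_of_one_le
        (one_le_mul_of_one_le_of_one_le (one_le_mul_of_one_le_of_one_le hM hA) hY) hc)
    have h4 : 0 ≤ Kp M A Y Gm c3 * θj := by
      have := h.one_le_Kp; positivity
    linarith
  exact ⟨h2.trans (u1_le h), h2⟩

theorem sgx_le (h : ChN M κ A s1 s2 T rj θj w δ Y Gm c3 ι η r f) : sgx δ s2 ≤ s2 := by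
  unfold sgx
  have h1 : δ ^ 2 ≤ 1 := pow_le_one₀ h.δ0.le h.δ1
  have hs2 := h.S.s20
  have : δ ^ 2 * s2 ≤ 1 * s2 := mul_le_mul_of_nonneg_right h1 hs2.le
  linarith

theorem TT_x (h : ChN M κ A s1 s2 T rj θj w δ Y Gm c3 ι η r f) (hTT : T = TT κ s2 rj) :
    TT κ (sgx δ s2) r ≤ T ∧ δ ^ 4 / 16 * T ≤ TT κ (sgx δ s2) r := by
  have hδ := h.δ0
  have hδ1 := h.δ1
  have hs2 := h.S.s20
  have hk := h.S.k0
  have hr := h.r0
  have hrj := h.S.r0
  have hd2 : δ ^ 2 ≤ 1 := pow_le_one₀ hδ.le hδ1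
  have hd4 : δ ^ 4 ≤ δ ^ 2 := pow_le_pow_of_le_one hδ.le hδ1 (by norm_num)
  have e1 : (κ * rj)⁻¹ = (δ ^ 2)⁻¹ * (κ * r)⁻¹ := by
    rw [h.hrj, ← mul_inv]; congr 1; ring
  have e2 : (κ * r)⁻¹ = δ ^ 2 * (κ * rj)⁻¹ := by
    rw [e1]; field_simp
  have hk0 : 0 < (κ * rj)⁻¹ := by positivity
  rw [hTT]
  unfold TT
  constructor
  · refine max_le_max (pow_le_pow_left₀ (sgx_pos h).le (sgx_le h) 2) ?_
    rw [e2]
    exact mul_le_of_le_one_left hk0.le hd2
  · rcases le_total ((κ * rj)⁻¹) (s2 ^ 2) with h1 | h1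
    · rw [max_eq_left h1]
      refine le_trans (le_of_eq ?_) (le_max_left _ _)
      unfold sgx; ring
    · rw [max_eq_right h1]
      refine le_trans ?_ (le_max_right _ _)
      rw [e2]
      refine mul_le_mul_of_nonneg_right ?_ hk0.le
      have : 0 ≤ δ ^ 4 := by positivity
      linarith

/-- lateral mesh. -/
noncomputable def lx (A δ s2 r : ℝ) : ℝ := δ ^ 4 * s2 * r / (64 * A)

theorem sc_bd (h : ChN M κ A s1 s2 T rj θj w δ Y Gm c3 ι η r f) (hTT : T = TT κ s2 rj) :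
    scost κ (30 * Kp M A Y Gm c3 * θj) (sgx δ s2) r ≤
      (30 * Kp M A Y Gm c3 / δ ^ 6) * scost κ s1 s2 rj := by
  have hr := h.r0
  have hs2 := h.S.s20
  have hs1 := h.S.s10
  have hT := h.S.T0
  have hδ := h.δ0
  have hK := h.one_le_Kp
  have hσ := sgx_pos h
  obtain ⟨hTx1, hTx2⟩ := TT_x h hTT
  have hTx : 0 < TT κ (sgx δ s2) r := TT_pos' hσ
  unfold scost
  rw [← hTT, h.hrj]
  have a1 : 30 * Kp M A Y Gm c3 * θj ≤ 30 * Kp M A Y Gm c3 * s1 :=
    mul_le_mul_of_nonneg_left h.s1θ (by linarith)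
  calc 30 * Kp M A Y Gm c3 * θj * sgx δ s2 * TT κ (sgx δ s2) r * r ^ 3 ≤
        (30 * Kp M A Y Gm c3 * s1) * s2 * T * r ^ 3 := by
        refine mul_le_mul_of_nonneg_right ?_ (by positivity)
        exact mul_le_mul (mul_le_mul a1 (sgx_le h) hσ.le (by positivity)) hTx1 hTx.le
          (by positivity)
    _ = 30 * Kp M A Y Gm c3 / δ ^ 6 * (s1 * s2 * T * (δ ^ 2 * r) ^ 3) := by
        field_simp

theorem NC_bd (h : ChN M κ A s1 s2 T rj θj w δ Y Gm c3 ι η r f) (hTT : T = TT κ s2 rj) :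
    NC κ r (sgx δ s2) (lx A δ s2 r) (2 * A * s2) (7 * A * s2 * r) (10 * A ^ 2 * Y * T * r) ≤
      (34 * A / δ ^ 2) ^ 2 * ((1794 * A ^ 2 / δ ^ 4) ^ 2 * (642 * (A ^ 2 * Y) / δ ^ 4)) := by
  have hA := h.A1
  have hY := h.Y1
  have hr := h.r0
  have hs2 := h.S.s20
  have hT := h.S.T0
  have hδ := h.δ0
  have hδ1 := h.δ1
  have hσ := sgx_pos h
  obtain ⟨hTx1, hTx2⟩ := TT_x h hTT
  have hTx : 0 < TT κ (sgx δ s2) r := TT_pos' hσ
  unfold NC
  have hd2 : δ ^ 2 ≤ 1 := pow_le_one₀ hδ.le hδ1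
  have hd4 : δ ^ 4 ≤ 1 := pow_le_one₀ hδ.le hδ1
  have hAA : 1 ≤ A ^ 2 := one_le_pow₀ hA
  have hAY : 1 ≤ A ^ 2 * Y := one_le_mul_of_one_le_of_one_le hAA hY
  have b1 : 4 * (2 * A * s2) / sgx δ s2 + 2 ≤ 34 * A / δ ^ 2 := by
    have e : 4 * (2 * A * s2) / sgx δ s2 = 32 * A / δ ^ 2 := by
      unfold sgx; field_simp; ring
    rw [e]
    have : (2:ℝ) ≤ 2 * A / δ ^ 2 := by
      rw [le_div_iff₀ (by positivity)]; nlinarith
    have e2 : 34 * A / δ ^ 2 = 32 * A / δ ^ 2 + 2 * A / δ ^ 2 := by ring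
    linarith
  have b2 : 4 * (7 * A * s2 * r) / lx A δ s2 r + 2 ≤ 1794 * A ^ 2 / δ ^ 4 := by
    have e : 4 * (7 * A * s2 * r) / lx A δ s2 r = 1792 * A ^ 2 / δ ^ 4 := by
      unfold lx; field_simp; ring
    rw [e]
    have : (2:ℝ) ≤ 2 * A ^ 2 / δ ^ 4 := by
      rw [le_div_iff₀ (by positivity)]; nlinarith
    have e2 : 1794 * A ^ 2 / δ ^ 4 = 1792 * A ^ 2 / δ ^ 4 + 2 * A ^ 2 / δ ^ 4 := by ring
    linarith
  have b3 : 4 * (10 * A ^ 2 * Y * T * r) / (TT κ (sgx δ s2) r * r) + 2 ≤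
      642 * (A ^ 2 * Y) / δ ^ 4 := by
    have e : 4 * (10 * A ^ 2 * Y * T * r) / (TT κ (sgx δ s2) r * r) ≤
        640 * (A ^ 2 * Y) / δ ^ 4 := by
      rw [div_le_div_iff₀ (by positivity) (by positivity)]
      have c1 : δ ^ 4 * T ≤ 16 * TT κ (sgx δ s2) r := by linarith
      have c2 := mul_le_mul_of_nonneg_left c1 (by positivity : 0 ≤ 40 * (A ^ 2 * Y) * r)
      calc 4 * (10 * A ^ 2 * Y * T * r) * δ ^ 4 = 40 * (A ^ 2 * Y) * r * (δ ^ 4 * T) := by ring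
        _ ≤ _ := c2
        _ = 640 * (A ^ 2 * Y) * (TT κ (sgx δ s2) r * r) := by ring
    have : (2:ℝ) ≤ 2 * (A ^ 2 * Y) / δ ^ 4 := by
      rw [le_div_iff₀ (by positivity)]; nlinarith
    have e2 : 642 * (A ^ 2 * Y) / δ ^ 4 = 640 * (A ^ 2 * Y) / δ ^ 4 +
      2 * (A ^ 2 * Y) / δ ^ 4 := by ring
    linarith
  have p1 : 0 ≤ 4 * (2 * A * s2) / sgx δ s2 + 2 := by positivity
  have p2 : 0 ≤ 4 * (7 * A * s2 * r) / lx A δ s2 r + 2 := by unfold lx; positivity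
  have p3 : 0 ≤ 4 * (10 * A ^ 2 * Y * T * r) / (TT κ (sgx δ s2) r * r) + 2 := by positivity
  exact mul_le_mul (pow_le_pow_left₀ p1 b1 2)
    (mul_le_mul (pow_le_pow_left₀ p2 b2 2) b3 p3 (by positivity))
    (mul_nonneg (sq_nonneg _) p3) (by positivity)

/-- **energy of the phase points near the rays seen by the member**. -/
theorem mass_ext (h : ChN M κ A s1 s2 T rj θj w δ Y Gm c3 ι η r f) (hTT : T = TT κ s2 rj)
    (hs21 : s2 ≤ 1) (hz : |z.2| ≤ r) {th : ℝ} (hth : th = r ^ (-(1/2) : ℝ)) (hthj : th ≤ θj)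
    {D q : ℝ} (hD : 0 ≤ D) (hq : 0 ≤ q) {g : E3 → ℂ} {S W : ℤ × ℤ → Set E3}
    (dens : ∀ (c : E2) (X0 : E3) (f : Cf E2) (v1 v2 : ℝ), Sd r v1 v2 →
      Adm M κ v1 v2 (TT κ v2 r) r c X0 f →
      enc th g (fun m => S m ∩ pbx κ 1 r v1 v2 c X0 f m) ≤
        ENNReal.ofReal (D * v2 ^ q * scost κ v1 v2 r))
    (hW : ∀ m ∈ caps th, ∀ y ∈ S m ∩ W m,
      Pt κ A s1 s2 T rj θj w Y c3 r c X0 f z (cen th m) y) :
    enc th g (fun m => S m ∩ W m) ≤
      ENNReal.ofReal (Kx M A Y Gm c3 δ * (D * s2 ^ q * scost κ s1 s2 rj)) := by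
  have hA := h.A1
  have hY := h.Y1
  have hM := h.M1
  have hr := h.r0
  have hs2 := h.S.s20
  have hs1 := h.S.s10
  have hT := h.S.T0
  have hδ := h.δ0
  have hδ1 := h.δ1
  have hθ := h.θ0
  have hK := h.one_le_Kp
  have hκ := h.S.k0
  have hσ := sgx_pos h
  obtain ⟨hTx1, hTx2⟩ := TT_x h hTT
  have hTx : 0 < TT κ (sgx δ s2) r := TT_pos' hσ
  have hu1 := u1_le h
  obtain ⟨hs1σ, hs1u⟩ := s1_le h
  set σ := sgx δ s2 with hσdef
  set u1 := 30 * Kp M A Y Gm c3 * θj with hu1def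
  have hl : lx A δ s2 r = δ ^ 4 * s2 * r / (64 * A) := rfl
  set l : ℝ := lx A δ s2 r with hldef
  have hl0 : 0 < l := by rw [hl]; positivity
  -- the cover
  have hlσ : l ≤ σ * r := by
    rw [hl, hσdef]; unfold sgx
    rw [div_le_iff₀ (by positivity)]
    have a1 : δ ^ 4 ≤ δ ^ 2 := pow_le_pow_of_le_one hδ.le hδ1 (by norm_num)
    have a2 : δ ^ 4 * (s2 * r) ≤ δ ^ 2 * (s2 * r) := mul_le_mul_of_nonneg_right a1 (by positivity)
    have a3 : δ ^ 2 * (s2 * r) ≤ δ ^ 2 * (s2 * r) * (16 * A) :=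
      le_mul_of_one_le_right (by positivity) (by linarith)
    calc δ ^ 4 * s2 * r = δ ^ 4 * (s2 * r) := by ring
      _ ≤ δ ^ 2 * (s2 * r) * (16 * A) := a2.trans a3
      _ = δ ^ 2 * s2 / 4 * r * (64 * A) := by ring
  have hΓl : 2 * A * s2 * l ≤ TT κ σ r * r / 2 := by
    have a1 : σ ^ 2 ≤ TT κ σ r := le_max_left _ _
    have a2 : 2 * A * s2 * l = σ ^ 2 * r / 2 := by
      rw [hl, hσdef]; unfold sgx; field_simp; ring
    rw [a2]
    have := mul_le_mul_of_nonneg_right a1 hr.le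
    linarith
  have hny : ∀ s : ℝ, |s| ≤ r → |(Ft z f).ny s| ≤ M * σ / TT κ σ r := by
    intro s hs
    obtain ⟨n1, n2⟩ := Fny_le h hz hs
    rw [le_div_iff₀ hTx]
    have hn0 := abs_nonneg ((Ft z f).ny s)
    have m1 : |(Ft z f).ny s| * σ ^ 2 ≤ M * σ := by
      have a1 : |(Ft z f).ny s| * (s2 ^ 2 * δ ^ 2) ≤ 3 * M * s2 :=
        (mul_le_mul_of_nonneg_left (mul_le_mul_of_nonneg_right h.S.T1 (by positivity)) hn0).trans n1
      have a2 : |(Ft z f).ny s| * σ ^ 2 = (|(Ft z f).ny s| * (s2 ^ 2 * δ ^ 2)) * (δ ^ 2 / 16) := by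
        rw [hσdef]; unfold sgx; ring
      rw [a2]
      have a3 := mul_le_mul_of_nonneg_right a1 (by positivity : 0 ≤ δ ^ 2 / 16)
      refine a3.trans ?_
      rw [hσdef]; unfold sgx
      have a4 : 0 ≤ M * (δ ^ 2 * s2) := by positivity
      have a5 : 3 * M * s2 * (δ ^ 2 / 16) = 3 / 16 * (M * (δ ^ 2 * s2)) := by ring
      have a6 : M * (δ ^ 2 * s2 / 4) = 1 / 4 * (M * (δ ^ 2 * s2)) := by ring
      rw [a5, a6]; linarith
    have m2 : |(Ft z f).ny s| * (κ * r)⁻¹ ≤ M * σ := by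
      have a1 := mul_le_mul_of_nonneg_right n2 (by positivity : 0 ≤ (κ * r)⁻¹)
      have a2 : 3 * M * (κ * s1 * r) * (κ * r)⁻¹ = M * (3 * s1) := by field_simp
      rw [a2] at a1
      exact a1.trans (mul_le_mul_of_nonneg_left hs1σ (by linarith))
    have : TT κ σ r = max (σ ^ 2) ((κ * r)⁻¹) := rfl
    rw [this, mul_max_of_nonneg _ _ hn0]
    exact max_le m1 m2
  have hcmp : ∀ s : ℝ, |s| ≤ r → |(Ft z f).ny s| ≤ M * (κ * u1 * r) := by
    intro s hs
    obtain ⟨-, n2⟩ := Fny_le h hz hs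
    refine n2.trans ?_
    have : M * (κ * (3 * s1) * r) ≤ M * (κ * u1 * r) :=
      mul_le_mul_of_nonneg_left (mul_le_mul_of_nonneg_right
        (mul_le_mul_of_nonneg_left hs1u hκ.le) hr.le) (by linarith)
    linarith
  obtain ⟨Ks, -, hcard, hadm, hcov⟩ := ccov (M := M) (κ := κ) (r := r) (σ := σ) (u1 := u1) (l := l)
    (Γ := 2 * A * s2) (Λ := 7 * A * s2 * r) (N := 10 * A ^ 2 * Y * T * r) hM hr hσ hu1 hl0 hlσ
    (by positivity) (by positivity) (by positivity) hΓl (f := Ft z f)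
    (by rw [Ft_disc]; exact h.F.disc) hny hcmp c (Xt z c X0)
    {p | Pt κ A s1 s2 T rj θj w Y c3 r c X0 f z p.1 p.2} (by
      rintro ⟨C, y⟩ ⟨C', y', x, g1, g2⟩
      have b1 := pl_lat h g1 g2
      have b2 := pl_nrm h g1 g2
      have b3 := pl_ev h g1 g2
      have b4 := pl_ld h g1 g2
      rw [zero_smul, add_zero] at b1
      refine ⟨ext_C h g1, b1, b2, b3, b4.trans ?_⟩
      rw [hu1def]
      have : 0 ≤ Kp M A Y Gm c3 * θj := by positivity
      linarith)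
  -- energy
  have hsd : Sd r u1 σ := by
    refine ⟨?_, hu1, (sgx_le h).trans hs21⟩
    rw [← hth]
    refine hthj.trans ?_
    rw [hu1def]
    have : θj ≤ Kp M A Y Gm c3 * θj := le_mul_of_one_le_left hθ.le hK
    have h0 : 0 ≤ Kp M A Y Gm c3 * θj := by positivity
    linarith
  refine (enc_cov hth dens hsd Ks hadm ?_).trans (ENNReal.ofReal_le_ofReal ?_)
  · intro m hm y hy
    exact hcov (cen th m, y) (hW m hm y hy)
  -- numbers
  have hq1 : σ ^ q ≤ s2 ^ q := Real.rpow_le_rpow hσ.le (sgx_le h) hq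
  have hσq : 0 ≤ σ ^ q := Real.rpow_nonneg hσ.le _
  have hs2q : 0 ≤ s2 ^ q := Real.rpow_nonneg hs2.le _
  have hsc := sc_bd h hTT
  have hNC := NC_bd h hTT
  have hsc0 : 0 ≤ scost κ u1 σ r := by unfold scost; positivity
  have hscj : 0 ≤ scost κ s1 s2 rj := by
    unfold scost
    rw [← hTT]
    have := h.S.r0
    positivity
  unfold Kx
  set NB := (34 * A / δ ^ 2) ^ 2 * ((1794 * A ^ 2 / δ ^ 4) ^ 2 * (642 * (A ^ 2 * Y) / δ ^ 4)) with hNB
  have hNB0 : 0 ≤ NB := by positivity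
  have c1 : D * σ ^ q * scost κ u1 σ r ≤
      D * s2 ^ q * ((30 * Kp M A Y Gm c3 / δ ^ 6) * scost κ s1 s2 rj) :=
    mul_le_mul (mul_le_mul_of_nonneg_left hq1 hD) hsc hsc0 (by positivity)
  calc (Ks.card : ℝ) * (D * σ ^ q * scost κ u1 σ r) ≤
        NB * (D * s2 ^ q * ((30 * Kp M A Y Gm c3 / δ ^ 6) * scost κ s1 s2 rj)) :=
        mul_le_mul (hcard.trans hNC) c1 (by positivity) hNB0
    _ = _ := by ring

end mass

end Crest.Agent.R116.Mc330
end

-- ▼ part R116/Mc8_330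
section

/-!
# R116 (S0155), misaligned step: light boxes and cells (helper330)

`iso_mass` = energy of the phase points of a light box of aperture `ψ` (from the box bound with the
linear conformal function); `iso_cells` = the same for the cells of helper748.
-/

set_option autoImplicit false

open MeasureTheory
open scoped ENNReal

namespace Crest.Agent.R116.Mc330

open Crest.Agent.R138.Defs (E2)
open Crest.Agent.R138.Wpk685 (cen caps)
open Crest.Agent.R116.CDef480 (E3 lat pt vel umc enc)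
open Crest.Agent.R116.LZg725 (Cf)
open Crest.Agent.R116.WC188 (TT Adm mset scost pbx Sd Plate uS)
open Crest.Agent.R116.Gc192 (un crs)
open Crest.Agent.R116.Ma448 (PL BX)
open Crest.Agent.R116.Ckm538 (linf linf_ev linf_ny linf_disc linf_ld e0 norm_e0)

/-- energy of a light box. -/
theorem iso_mass {M κ r ψ w D q : ℝ} (hM : 1 ≤ M) (hκ : 0 < κ) (hr : 0 < r) (hψ : 0 < ψ)
    (hψ1 : 8 * ψ ≤ 1) (hψr : r * ψ ^ 2 ≤ κ⁻¹) {th : ℝ} (hth : th = r ^ (-(1/2) : ℝ))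
    (hthψ : th ≤ ψ) (hD : 0 ≤ D) (hq : 0 ≤ q) (hq1 : q ≤ 1) {g : E3 → ℂ} {S W : ℤ × ℤ → Set E3}
    (dens : ∀ (c : E2) (X0 : E3) (f : Cf E2) (v1 v2 : ℝ), Sd r v1 v2 →
      Adm M κ v1 v2 (TT κ v2 r) r c X0 f →
      enc th g (fun m => S m ∩ pbx κ 1 r v1 v2 c X0 f m) ≤
        ENNReal.ofReal (D * v2 ^ q * scost κ v1 v2 r)) (c : E2) (X0 : E3)
    (hW : ∀ m ∈ caps th, ∀ y ∈ S m ∩ W m, ‖cen th m - c‖ ≤ ψ ∧ ‖lat y - lat X0‖ ≤ 5 * r * ψ ∧
      |CDef480.nrm c y 0 - CDef480.nrm c X0 0| ≤ 7 * κ⁻¹) :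
    enc th g (fun m => S m ∩ W m) ≤
      ENNReal.ofReal (124420096 * D * ψ ^ q * (ψ ^ 2 * (κ⁻¹ * r ^ 2))) := by
  have hσ : (0:ℝ) < 8 * ψ := by positivity
  have hTx : 0 < TT κ (8 * ψ) r := TT_pos' hσ
  have hTr : TT κ (8 * ψ) r * r = max (64 * (r * ψ ^ 2)) κ⁻¹ := by
    unfold TT
    rw [max_mul_of_nonneg _ _ hr.le]
    congr 1
    · ring
    · field_simp
  have hTr1 : κ⁻¹ ≤ TT κ (8 * ψ) r * r := by rw [hTr]; exact le_max_right _ _
  have hB : 0 < κ⁻¹ := inv_pos.2 hκ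
  have hTr2 : TT κ (8 * ψ) r * r ≤ 64 * κ⁻¹ := by
    rw [hTr]
    exact max_le (by linarith) (by linarith)
  have hTr3 : 64 * (r * ψ ^ 2) ≤ TT κ (8 * ψ) r * r := by rw [hTr]; exact le_max_left _ _
  set f : Cf E2 := linf c (lat X0) with hf
  have hfny : ∀ s, f.ny s = 0 := fun s => linf_ny c (lat X0) s
  obtain ⟨Ks, -, hcard, hadm, hcov⟩ := ccov (M := M) (κ := κ) (r := r) (σ := 8 * ψ) (u1 := 8 * ψ)
    (l := 8 * ψ * r) (Γ := ψ) (Λ := 5 * r * ψ) (N := 7 * κ⁻¹) hM hr hσ le_rfl (by positivity) le_rfl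
    hψ.le (by positivity) (by positivity) (by nlinarith) (f := f)
    (linf_disc c (lat X0))
    (fun s _ => by rw [hfny, abs_zero]; positivity) (fun s _ => by rw [hfny, abs_zero]; positivity)
    c X0
    {p | ‖p.1 - c‖ ≤ ψ ∧ ‖lat p.2 - lat X0‖ ≤ 5 * r * ψ ∧
      |CDef480.nrm c p.2 0 - CDef480.nrm c X0 0| ≤ 7 * κ⁻¹} (by
      rintro ⟨C, y⟩ ⟨h1, h2, h3⟩
      simp only at h1 h2 h3
      refine ⟨h1, h2, h3, ?_, ?_⟩
      · simp only
        rw [hf, linf_ev, zero_smul, add_zero]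
        refine (abs_real_inner_le_norm _ _).trans ?_
        rw [norm_e0, one_mul]
        refine h2.trans ?_
        have : 0 ≤ r * ψ := by positivity
        linarith
      · simp only
        have e : f.ld C (lat y) (y 2) 0 = - inner ℝ e0 (C - c) := by
          have h4 := f.ld_dir c C (lat y) (y 2) 0
          rw [h4, hfny, hf, linf_ld]
          unfold Cf.gr linf Cf.ny
          simp
        rw [e, abs_neg]
        refine (abs_real_inner_le_norm _ _).trans ?_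
        rw [norm_e0, one_mul]
        linarith)
  have hsd : Sd r (8 * ψ) (8 * ψ) := by
    refine ⟨?_, le_rfl, hψ1⟩
    rw [← hth]; linarith
  refine (enc_cov hth dens hsd Ks hadm ?_).trans (ENNReal.ofReal_le_ofReal ?_)
  · intro m hm y hy
    exact hcov (cen th m, y) (hW m hm y hy)
  have hNC : NC κ r (8 * ψ) (8 * ψ * r) ψ (5 * r * ψ) (7 * κ⁻¹) ≤ 3797 := by
    unfold NC
    have b1 : 4 * ψ / (8 * ψ) + 2 = 5 / 2 := by field_simp; norm_num
    have b2 : 4 * (5 * r * ψ) / (8 * ψ * r) + 2 = 9 / 2 := by field_simp; norm_num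
    have b3 : 4 * (7 * κ⁻¹) / (TT κ (8 * ψ) r * r) ≤ 28 := by
      rw [div_le_iff₀ (by positivity)]; linarith
    rw [b1, b2]
    nlinarith
  have h8 : (8 * ψ) ^ q ≤ 8 * ψ ^ q := by
    rw [Real.mul_rpow (by norm_num) hψ.le]
    refine mul_le_mul_of_nonneg_right ?_ (Real.rpow_nonneg hψ.le _)
    calc (8:ℝ) ^ q ≤ (8:ℝ) ^ (1:ℝ) := Real.rpow_le_rpow_of_exponent_le (by norm_num) hq1
      _ = 8 := Real.rpow_one _
  have hψq : 0 ≤ ψ ^ q := Real.rpow_nonneg hψ.le _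
  have hsc : scost κ (8 * ψ) (8 * ψ) r ≤ 4096 * (ψ ^ 2 * (κ⁻¹ * r ^ 2)) := by
    unfold scost
    calc 8 * ψ * (8 * ψ) * TT κ (8 * ψ) r * r ^ 3 = (64 * ψ ^ 2 * r ^ 2) *
          (TT κ (8 * ψ) r * r) := by ring
      _ ≤ (64 * ψ ^ 2 * r ^ 2) * (64 * κ⁻¹) := mul_le_mul_of_nonneg_left hTr2 (by positivity)
      _ = _ := by ring
  have hsc0 : 0 ≤ scost κ (8 * ψ) (8 * ψ) r := by unfold scost; positivity
  have h8q : 0 ≤ (8 * ψ) ^ q := Real.rpow_nonneg hσ.le _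
  calc (Ks.card : ℝ) * (D * (8 * ψ) ^ q * scost κ (8 * ψ) (8 * ψ) r) ≤
        3797 * (D * (8 * ψ ^ q) * (4096 * (ψ ^ 2 * (κ⁻¹ * r ^ 2)))) :=
        mul_le_mul (hcard.trans hNC) (mul_le_mul (mul_le_mul_of_nonneg_left h8 hD) hsc hsc0
          (by positivity)) (by positivity) (by norm_num)
    _ = _ := by ring

/-! ### cells -/

open Mwc748

/-- two points of one cell. -/
theorem cell_pts {th κ : ℝ} (hth : 0 < th) (hκ : 0 < κ) {P1 : ℕ → Plate} {T : Idx} {y y' : E3}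
    (h : y ∈ TS th κ P1 T) (h' : y' ∈ TS th κ P1 T) :
    ‖lat y' - lat y‖ ≤ 4 * th⁻¹ ∧ |CDef480.nrm (slT th T) y' 0 - CDef480.nrm (slT th T) y 0| ≤
      2 * κ⁻¹ := by
  obtain ⟨-, h1, h2⟩ := Ic_pt (I1 := ∅) (K := 0) hth hκ h
  obtain ⟨-, h1', h2'⟩ := Ic_pt (I1 := ∅) (K := 0) hth hκ h'
  rw [CDef480.lat_sub] at h1 h1'
  rw [Ckm538.nrm_sub0] at h2 h2'
  constructor
  · have e : lat y' - lat y = (lat y' - lat (ptT th κ T)) - (lat y - lat (ptT th κ T)) := by abel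
    rw [e]
    refine (norm_sub_le _ _).trans ?_
    linarith
  · have e : CDef480.nrm (slT th T) y' 0 - CDef480.nrm (slT th T) y 0 =
      (CDef480.nrm (slT th T) y' 0 - CDef480.nrm (slT th T) (ptT th κ T) 0) -
        (CDef480.nrm (slT th T) y 0 - CDef480.nrm (slT th T) (ptT th κ T) 0) := by ring
    rw [e]
    refine (abs_sub _ _).trans ?_
    linarith

/-- the plank of the reference point is inside the large plank of any point of the cell. -/
theorem PLc_sub {th κ r : ℝ} (hth : 0 < th) (hκ : 0 < κ) {P1 : ℕ → Plate} {T : Idx} {x : E3}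
    (h : x ∈ TS th κ P1 T) {p : E3 × ℝ} (hp : p ∈ PLc r th⁻¹ κ⁻¹ (slT th T) (ptT th κ T)) :
    (p.1, p.2) ∈ PL r (4 * th⁻¹) (2 * κ⁻¹) (slT th T) (lat x)
      (CDef480.nrm (slT th T) x 0) := by
  obtain ⟨-, h1, h2⟩ := Ic_pt (I1 := ∅) (K := 0) hth hκ h
  rw [CDef480.lat_sub] at h1
  rw [Ckm538.nrm_sub0] at h2
  obtain ⟨p1, p2, p3⟩ := hp
  have hw : 0 < th⁻¹ := inv_pos.2 hth
  refine ⟨p1, ?_, ?_⟩
  · simp only
    have e : lat p.1 - (lat x - p.2 • slT th T) = (lat p.1 - (lat (ptT th κ T) -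
      p.2 • slT th T)) - (lat x - lat (ptT th κ T)) := by abel
    rw [e]
    refine (norm_sub_le _ _).trans ?_
    linarith
  · simp only
    have e : CDef480.nrm (slT th T) p.1 p.2 - CDef480.nrm (slT th T) x 0 =
      (CDef480.nrm (slT th T) p.1 p.2 - CDef480.nrm (slT th T) (ptT th κ T) 0) -
        (CDef480.nrm (slT th T) x 0 - CDef480.nrm (slT th T) (ptT th κ T) 0) := by ring
    rw [e]
    refine (abs_sub _ _).trans ?_
    linarith

/-- a point of the cell as a point of the large plank of another point, at time `0`. -/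
theorem mem_PL0 {th κ r : ℝ} (hr : 0 ≤ r) (hth : 0 < th) (hκ : 0 < κ) {P1 : ℕ → Plate} {T : Idx}
    {x y : E3} (h : x ∈ TS th κ P1 T) (h' : y ∈ TS th κ P1 T) :
    (y, (0 : ℝ)) ∈ PL r (4 * th⁻¹) (2 * κ⁻¹) (slT th T) (lat x)
      (CDef480.nrm (slT th T) x 0) := by
  obtain ⟨h1, h2⟩ := cell_pts hth hκ h h'
  refine ⟨?_, ?_, h2⟩
  · simpa using hr
  · simp only
    rw [zero_smul, sub_zero]; exact h1

/-- **light boxes, cells**. -/
theorem iso_cells {M κ r th φ D q K : ℝ} (hM : 1 ≤ M) (hκ : 0 < κ) (hr : 0 < r)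
    (hth : th = r ^ (-(1/2) : ℝ)) (hφ1 : 16 * φ ≤ 1)
    (h1 : th⁻¹ * (2 * φ) ≤ κ⁻¹) (h2 : r * (2 * φ) ^ 2 ≤ κ⁻¹)
    (hD : 0 ≤ D) (hq : 0 ≤ q) (hq1 : q ≤ 1) {g : E3 → ℂ} (hg : Integrable g)
    {I1 : Finset ℕ} {P1 : ℕ → Plate}
    (dens : ∀ (c : E2) (X0 : E3) (f : Cf E2) (v1 v2 : ℝ), Sd r v1 v2 →
      Adm M κ v1 v2 (TT κ v2 r) r c X0 f →
      enc th g (fun m => uS I1 P1 m ∩ pbx κ 1 r v1 v2 c X0 f m) ≤
        ENNReal.ofReal (D * v2 ^ q * scost κ v1 v2 r))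
    (hm : ∀ i ∈ I1, ∀ m, MeasurableSet ((P1 i).S m))
    (hd : ∀ i ∈ I1, ∀ j ∈ I1, i ≠ j → ∀ m, Disjoint ((P1 i).S m) ((P1 j).S m))
    (hb : ∀ i ∈ I1, ∀ m, ∀ y ∈ (P1 i).S m, ‖y‖ ≤ K) (i : Idx) (ψ : ℝ) (hψw : th⁻¹ ≤ r * ψ)
    (hψφ : ψ ≤ 2 * φ) (F : Finset Idx) (hF : F ⊆ Ic K th κ I1 P1)
    (hBX : ∀ i' ∈ F, BX r κ⁻¹ ψ (slT th i) (lat (ptT th κ i))
      (CDef480.nrm (slT th i) (ptT th κ i) 0) (slT th i') (lat (ptT th κ i'))
      (CDef480.nrm (slT th i') (ptT th κ i') 0)) :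
    ∑ i' ∈ F, muT th κ g P1 i' ≤ (124420096 * D) * ψ ^ q * (ψ ^ 2 * (κ⁻¹ * r ^ 2)) := by
  have hth0 : 0 < th := by rw [hth]; exact Real.rpow_pos_of_pos hr _
  have hB : 0 < κ⁻¹ := inv_pos.2 hκ
  have hw : 0 < th⁻¹ := inv_pos.2 hth0
  have hψ : 0 < ψ := by
    have : 0 < r * ψ := hw.trans_le hψw
    exact (mul_pos_iff_of_pos_left hr).1 this
  have hthr : th⁻¹ = th * r := by
    rw [hth, ← Real.rpow_neg hr.le]
    conv_rhs => rw [← Real.rpow_one r, ← Real.rpow_mul hr.le]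
    rw [← Real.rpow_add hr]
    norm_num
  have hthψ : th ≤ ψ := by
    rw [hthr, mul_comm] at hψw
    exact le_of_mul_le_mul_left hψw hr
  have hψ2 : r * ψ ^ 2 ≤ κ⁻¹ :=
    (mul_le_mul_of_nonneg_left (pow_le_pow_left₀ hψ.le hψφ 2) hr.le).trans h2
  have hwψ : th⁻¹ * ψ ≤ κ⁻¹ := (mul_le_mul_of_nonneg_left hψφ hw.le).trans h1
  set W : ℤ × ℤ → Set E3 := fun m => {y | ∃ i' ∈ F, i'.2.1 = m ∧ y ∈ TS th κ P1 i'} with hW
  have hmass := iso_mass (w := th⁻¹) (S := uS I1 P1) (W := W) hM hκ hr hψ (by linarith) hψ2 hth hthψ hD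
    hq hq1 dens (slT th i) (ptT th κ i) (by
      rintro m - y ⟨-, i', hi', rfl, hy⟩
      obtain ⟨b1, b2, b3⟩ := hBX i' hi'
      obtain ⟨-, c1, c2⟩ := Ic_pt (I1 := I1) (K := K) hth0 hκ hy
      rw [CDef480.lat_sub] at c1
      rw [Ckm538.nrm_sub0] at c2
      refine ⟨b1, ?_, ?_⟩
      · have e : lat y - lat (ptT th κ i) = (lat y - lat (ptT th κ i')) +
          (lat (ptT th κ i') - lat (ptT th κ i)) := by abel
        rw [e]
        refine (norm_add_le _ _).trans ?_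
        linarith
      · have e : CDef480.nrm (slT th i) y 0 - CDef480.nrm (slT th i) (ptT th κ i) 0 =
            (CDef480.nrm (slT th i') y 0 - CDef480.nrm (slT th i') (ptT th κ i') 0) -
            inner ℝ (slT th i' - slT th i) (lat y - lat (ptT th κ i')) +
            (CDef480.nrm (slT th i') (ptT th κ i') 0 -
              inner ℝ (slT th i' - slT th i) (lat (ptT th κ i')) -
              CDef480.nrm (slT th i) (ptT th κ i) 0) := by
          simp only [Ckm538.nrm_zero, inner_sub_left, inner_sub_right]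
          ring
        rw [e]
        have t1 := abs_add_le ((CDef480.nrm (slT th i') y 0 -
            CDef480.nrm (slT th i') (ptT th κ i') 0) -
            inner ℝ (slT th i' - slT th i) (lat y - lat (ptT th κ i')))
            (CDef480.nrm (slT th i') (ptT th κ i') 0 -
              inner ℝ (slT th i' - slT th i) (lat (ptT th κ i')) -
              CDef480.nrm (slT th i) (ptT th κ i) 0)
        have t2 := abs_sub (CDef480.nrm (slT th i') y 0 -
            CDef480.nrm (slT th i') (ptT th κ i') 0)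
            (inner ℝ (slT th i' - slT th i) (lat y - lat (ptT th κ i')))
        have t3 : |inner ℝ (slT th i' - slT th i) (lat y - lat (ptT th κ i'))| ≤
            ψ * (2 * th⁻¹) :=
          (abs_real_inner_le_norm _ _).trans (mul_le_mul b1 c1 (norm_nonneg _) hψ.le)
        linarith)
  have hle : ∑ i' ∈ F, muE th κ g P1 i' ≤ enc th g (fun m => uS I1 P1 m ∩ W m) := by
    refine sum_le_enc hm hd F (fun T hT => ?_) _ ?_
    · have h := mem_Ic.1 (hF hT)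
      exact ⟨h.1, h.2.1⟩
    · intro T hT y hy
      refine ⟨Set.mem_biUnion (mem_Ic.1 (hF hT)).1 hy.1, T, hT, rfl, hy⟩
  have hsum := sum_muT (th := th) (κ := κ) (I1 := I1) hg hb F hF
  rw [← ENNReal.ofReal_le_ofReal_iff (by
    have := Real.rpow_nonneg hψ.le q
    positivity), hsum]
  exact hle.trans hmass

end Crest.Agent.R116.Mc330
end

-- ▼ part R116/Mc9_330

/-!
# R116 (S0155), misaligned step: Kakeya on caps for the cells (helper330)

`pkc_sum_le`: the sum of the planks of the cells is bounded by the coefficient density `Acc`;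
`kmc_cells`: from `KMR`, the hypothesis `hKM` of `mis_fin`.
-/

set_option autoImplicit false

open MeasureTheory
open scoped ENNReal

namespace Crest.Agent.R116.Mc330

open Crest.Agent.R138.Defs (E2)
open Crest.Agent.R138.Wpk685 (cen caps)
open Crest.Agent.R116.CDef480 (E3 lat pt vel umc enc)
open Crest.Agent.R116.LZg725 (Cf)
open Crest.Agent.R116.WC188 (TT Adm mset scost pbx Sd Plate uS)
open Crest.Agent.R116.Cad538 (frc wt Acc Den)
open Mwc748

/-- the union of the cells of a family, at the cap `m`. -/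
def SFm (th κ : ℝ) (P1 : ℕ → Plate) (F : Finset Idx) (m : ℤ × ℤ) : Set E3 :=
  ⋃ T ∈ F.filter (fun T => T.2.1 = m), TS th κ P1 T

section fam

variable {th κ K : ℝ} {g : E3 → ℂ} {I1 : Finset ℕ} {P1 : ℕ → Plate}

theorem mem_SFm {F : Finset Idx} {m : ℤ × ℤ} {y : E3} :
    y ∈ SFm th κ P1 F m ↔ ∃ T ∈ F, T.2.1 = m ∧ y ∈ TS th κ P1 T := by
  unfold SFm
  simp only [Set.mem_iUnion, exists_prop, Finset.mem_filter]
  constructor
  · rintro ⟨T, ⟨h1, h2⟩, h3⟩; exact ⟨T, h1, h2, h3⟩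
  · rintro ⟨T, h1, h2, h3⟩; exact ⟨T, ⟨h1, h2⟩, h3⟩

theorem SFm_meas (hm : ∀ i ∈ I1, ∀ m, MeasurableSet ((P1 i).S m)) {F : Finset Idx}
    (hF : F ⊆ Ic K th κ I1 P1) (m : ℤ × ℤ) : MeasurableSet (SFm th κ P1 F m) := by
  unfold SFm
  refine Finset.measurableSet_biUnion _ fun T hT => ?_
  exact TS_meas (hm _ (mem_Ic.1 (hF (Finset.mem_filter.1 hT).1)).1 _)

/-- weighted sums over the cells. -/
theorem sum_lint_le (hm : ∀ i ∈ I1, ∀ m, MeasurableSet ((P1 i).S m))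
    (hd : ∀ i ∈ I1, ∀ j ∈ I1, i ≠ j → ∀ m, Disjoint ((P1 i).S m) ((P1 j).S m))
    (F : Finset Idx) (hF : F ⊆ Ic K th κ I1 P1) (u : ℤ × ℤ → E3 → ℝ≥0∞) :
    ∑ T ∈ F, ∫⁻ y in TS th κ P1 T, u T.2.1 y ≤
      ∑ m ∈ F.image (fun T => T.2.1), ∫⁻ y in SFm th κ P1 F m, u m y := by
  classical
  rw [← Finset.sum_fiberwise_of_maps_to (t := F.image (fun T => T.2.1))
    (g := fun T : Idx => T.2.1) (fun T hT => Finset.mem_image_of_mem _ hT)]
  refine Finset.sum_le_sum fun m _ => ?_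
  refine le_of_eq ?_
  unfold SFm
  rw [lintegral_biUnion_finset]
  · refine Finset.sum_congr rfl fun T hT => ?_
    have h1 := (Finset.mem_filter.1 hT).2
    rw [h1]
  · intro T hT T' hT' hne
    rw [Function.onFun, Set.disjoint_left]
    rintro y ⟨h1, h2⟩ ⟨h3, h4⟩
    obtain ⟨a1, a2⟩ := Finset.mem_filter.1 (Finset.mem_coe.1 hT)
    obtain ⟨b1, b2⟩ := Finset.mem_filter.1 (Finset.mem_coe.1 hT')
    have h2' : Ckm538.cix th⁻¹ κ⁻¹ (cen th T.2.1) y = T.2.2 := h2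
    have h4' : Ckm538.cix th⁻¹ κ⁻¹ (cen th T'.2.1) y = T'.2.2 := h4
    have hmm : T.2.1 = T'.2.1 := a2.trans b2.symm
    by_cases hab : T.1 = T'.1
    · apply hne
      refine Prod.ext hab (Prod.ext hmm ?_)
      rw [← h2', ← h4', hmm]
    · refine Set.disjoint_left.1 (hd _ (mem_Ic.1 (hF a1)).1 _ (mem_Ic.1 (hF b1)).1 hab T.2.1) h1 ?_
      rw [hmm]
      exact h3
  · intro T hT
    obtain ⟨a1, a2⟩ := Finset.mem_filter.1 hT
    exact TS_meas (hm _ (mem_Ic.1 (hF a1)).1 _)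

/-- on the plank of the cell the weight is bounded below. -/
theorem wt_ge (hth : 0 < th) (hκ : 0 < κ) {r : ℝ} {T : Idx} {y : E3} (hy : y ∈ TS th κ P1 T)
    {p : E3 × ℝ} (hp : p ∈ PLc r th⁻¹ κ⁻¹ (slT th T) (ptT th κ T)) (n : ℕ) :
    1 ≤ (6:ℝ) ^ n * wt (frc th κ (cen th T.2.1)) n (y - p.1 - p.2 • vel (cen th T.2.1)) := by
  obtain ⟨-, h1, h2⟩ := Ic_pt (I1 := ∅) (K := 0) hth hκ hy
  rw [CDef480.lat_sub] at h1
  rw [Ckm538.nrm_sub0] at h2
  obtain ⟨p1, p2, p3⟩ := hp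
  have hn : ‖frc th κ (cen th T.2.1) (y - p.1 - p.2 • vel (cen th T.2.1))‖ ≤ 5 := by
    refine (Cad538.norm_frc_le hth.le hκ.le _ _).trans ?_
    have k1 : ‖lat (y - p.1 - p.2 • vel (cen th T.2.1))‖ ≤ 3 * th⁻¹ := by
      have e : lat (y - p.1 - p.2 • vel (cen th T.2.1)) = (lat y - lat (ptT th κ T)) -
          (lat p.1 - (lat (ptT th κ T) - p.2 • slT th T)) := by
        unfold vel slT
        rw [CDef480.lat_sub, CDef480.lat_sub, CDef480.lat_smul, CDef480.lat_pt]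
        abel
      rw [e]
      refine (norm_sub_le _ _).trans ?_
      linarith
    have k2 : |CDef480.nrm (cen th T.2.1) (y - p.1 - p.2 • vel (cen th T.2.1)) 0| ≤ 2 * κ⁻¹ := by
      have e : CDef480.nrm (cen th T.2.1) (y - p.1 - p.2 • vel (cen th T.2.1)) 0 =
          (CDef480.nrm (slT th T) y 0 - CDef480.nrm (slT th T) (ptT th κ T) 0) -
          (CDef480.nrm (slT th T) p.1 p.2 - CDef480.nrm (slT th T) (ptT th κ T) 0) := by
        unfold slT
        rw [Ckm538.nrm_zero, Ckm538.nrm_zero]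
        unfold CDef480.nrm vel
        simp only [PiLp.sub_apply, PiLp.smul_apply, CDef480.pt_two, smul_eq_mul,
          CDef480.lat_sub, CDef480.lat_smul, CDef480.lat_pt, inner_sub_right,
          real_inner_smul_right, real_inner_self_eq_norm_sq]
        ring
      rw [e]
      refine (abs_sub _ _).trans ?_
      linarith
    have e1 : th * (3 * th⁻¹) = 3 := by field_simp
    have e2 : κ * (2 * κ⁻¹) = 2 := by field_simp
    have k3 := mul_le_mul_of_nonneg_left k1 hth.le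
    have k4 := mul_le_mul_of_nonneg_left k2 hκ.le
    linarith
  unfold wt
  have h6 : (1 + ‖frc th κ (cen th T.2.1) (y - p.1 - p.2 • vel (cen th T.2.1))‖) ^ n ≤ 6 ^ n :=
    pow_le_pow_left₀ (by positivity) (by linarith) n
  have h0 : 0 < (1 + ‖frc th κ (cen th T.2.1) (y - p.1 - p.2 • vel (cen th T.2.1))‖) ^ n := by
    positivity
  rw [← div_eq_mul_inv, le_div_iff₀ h0, one_mul]
  exact h6

/-- **the sum of the planks is bounded by the density**. -/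
theorem pkc_sum_le (hth : 0 < th) (hκ : 0 < κ) (hg : Integrable g)
    (hm : ∀ i ∈ I1, ∀ m, MeasurableSet ((P1 i).S m))
    (hd : ∀ i ∈ I1, ∀ j ∈ I1, i ≠ j → ∀ m, Disjoint ((P1 i).S m) ((P1 j).S m))
    (hb : ∀ i ∈ I1, ∀ m, ∀ y ∈ (P1 i).S m, ‖y‖ ≤ K) (F : Finset Idx)
    (hF : F ⊆ Ic K th κ I1 P1) (n : ℕ) (r : ℝ) (p : E3 × ℝ) :
    ∑ T ∈ F, pkc r th⁻¹ κ⁻¹ (slT th T) (ptT th κ T) (muT th κ g P1 T) p ≤
      ENNReal.ofReal (6 ^ n * (th ^ 2 * κ)⁻¹) *
        Acc n th κ th g (SFm th κ P1 F) (F.image fun T => T.2.1) p.1 p.2 := by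
  classical
  set u : ℤ × ℤ → E3 → ℝ≥0∞ := fun m y =>
    ENNReal.ofReal (wt (frc th κ (cen th m)) n (y - p.1 - p.2 • vel (cen th m))) *
      ‖umc th g m y‖ₑ ^ 2 with hu
  have h1 : ∀ T ∈ F, pkc r th⁻¹ κ⁻¹ (slT th T) (ptT th κ T) (muT th κ g P1 T) p ≤
      ENNReal.ofReal (6 ^ n) * ∫⁻ y in TS th κ P1 T, u T.2.1 y := by
    intro T hT
    by_cases hp : p ∈ PLc r th⁻¹ κ⁻¹ (slT th T) (ptT th κ T)
    · have e1 : pkc r th⁻¹ κ⁻¹ (slT th T) (ptT th κ T) (muT th κ g P1 T) p =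
          muE th κ g P1 T := by
        rw [← ofReal_muT hg (hb _ (mem_Ic.1 (hF hT)).1 _)]
        exact Set.indicator_of_mem (s := PLc r th⁻¹ κ⁻¹ (slT th T) (ptT th κ T)) hp
          (fun _ => ENNReal.ofReal (muT th κ g P1 T))
      rw [e1, ← lintegral_const_mul' _ _ ENNReal.ofReal_ne_top]
      unfold muE
      refine setLIntegral_mono' (TS_meas (hm _ (mem_Ic.1 (hF hT)).1 _)) fun y hy => ?_
      have h2 := wt_ge hth hκ hy hp n
      rw [hu]
      simp only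
      rw [← mul_assoc, ← ENNReal.ofReal_mul (by positivity)]
      calc ‖umc th g T.2.1 y‖ₑ ^ 2 = ENNReal.ofReal 1 * ‖umc th g T.2.1 y‖ₑ ^ 2 := by
            rw [ENNReal.ofReal_one, one_mul]
        _ ≤ _ := mul_le_mul' (ENNReal.ofReal_le_ofReal h2) le_rfl
    · rw [pkc_zero hp]; exact bot_le
  refine (Finset.sum_le_sum h1).trans ?_
  rw [← Finset.mul_sum]
  have h3 := sum_lint_le hm hd F hF u
  refine (mul_le_mul' le_rfl h3).trans (le_of_eq ?_)
  unfold Cad538.Acc Cad538.Den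
  rw [← mul_assoc, ← ENNReal.ofReal_mul (by positivity)]
  congr 2
  have : th ^ 2 * κ ≠ 0 := by positivity
  field_simp

theorem exists_cen {s : ℝ} (hs : 0 < s) (c : E2) : ∃ k : ℤ × ℤ, ‖c - cen s k‖ ≤ 2 * s := by
  refine ⟨cel s c, ?_⟩
  have h := ltp_close hs c
  exact h

/-- **Kakeya on caps for the cells**. -/
theorem kmc_cells {M q A : ℝ} (hKMR : KMR890.KMR M q) (hA : 1 ≤ A) {ε : ℝ} (hε : 0 < ε) :
    ∃ C : ℝ, 0 ≤ C ∧ ∀ κ r : ℝ, 0 < κ → κ ≤ 1 → 1 ≤ r → r ^ (-(1/2) : ℝ) ≤ κ →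
    ∀ (g : E3 → ℂ), Integrable g → MemLp g 2 → ∀ (I1 : Finset ℕ) (P1 : ℕ → Plate) (K : ℝ),
    (∀ i ∈ I1, ∀ m, MeasurableSet ((P1 i).S m)) →
    (∀ i ∈ I1, ∀ j ∈ I1, i ≠ j → ∀ m, Disjoint ((P1 i).S m) ((P1 j).S m)) →
    (∀ i ∈ I1, ∀ m, ∀ y ∈ (P1 i).S m, ‖y‖ ≤ A * r) → K = A * r → ∀ D : ℝ, 0 ≤ D →
    (∀ (c : E2) (X0 : E3) (f : Cf E2) (v1 v2 : ℝ), Sd r v1 v2 →
      Adm M κ v1 v2 (TT κ v2 r) r c X0 f →
      enc (r ^ (-(1/2) : ℝ)) g (fun m => uS I1 P1 m ∩ pbx κ 1 r v1 v2 c X0 f m) ≤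
        ENNReal.ofReal (D * v2 ^ q * scost κ v1 v2 r)) →
    ∀ s : ℝ, r ^ (-(1/2) : ℝ) ≤ s → s ≤ 1 → ∀ (C0 : E2) (F : Finset Idx),
      F ⊆ Ic K (r ^ (-(1/2) : ℝ)) κ I1 P1 →
      (∀ i ∈ F, ‖slT (r ^ (-(1/2) : ℝ)) i - C0‖ ≤ 16 * A * s) →
      ∫⁻ x, (∑ T ∈ F, pkc r (r ^ (-(1/2) : ℝ))⁻¹ κ⁻¹ (slT (r ^ (-(1/2) : ℝ)) T)
        (ptT (r ^ (-(1/2) : ℝ)) κ T) (muT (r ^ (-(1/2) : ℝ)) κ g P1 T) x) ^ (3/2 : ℝ) ≤
        ENNReal.ofReal ((r * κ⁻¹) ^ (3/2 : ℝ) * (C * r ^ ε * s ^ (q / 2) * Real.sqrt D * r) *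
          ∑ T ∈ F, muT (r ^ (-(1/2) : ℝ)) κ g P1 T) := by
  obtain ⟨n, hn⟩ := hKMR ε hε
  obtain ⟨C, hC, hmain⟩ := hn n le_rfl A 1 (18 * A) (by linarith) zero_le_one (by linarith)
  refine ⟨(6 ^ n) ^ (3/2 : ℝ) * C, by positivity, ?_⟩
  intro κ r hκ hκ1 hr hrκ g hg hg2 I1 P1 K hm hd hb hK D hD hdens s hs hs1 C0 F hF hFC
  classical
  set th : ℝ := r ^ (-(1/2) : ℝ) with hth
  have hr0 : 0 < r := by linarith
  have hth0 : 0 < th := Real.rpow_pos_of_pos hr0 _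
  have hs0 : 0 < s := hth0.trans_le hs
  have hth2 : th ^ 2 * r = 1 := by
    rw [hth, ← Real.rpow_natCast, ← Real.rpow_mul hr0.le]
    norm_num
    rw [Real.rpow_neg_one]
    exact inv_mul_cancel₀ hr0.ne'
  have hthκ : (th ^ 2 * κ)⁻¹ = r * κ⁻¹ := by
    rw [mul_inv]
    congr 1
    exact inv_eq_of_mul_eq_one_right hth2
  obtain ⟨k0, hk0⟩ := exists_cen hs0 C0
  set S' : ℤ × ℤ → Set E3 := SFm th κ P1 F with hS'
  have hS'm : ∀ m, MeasurableSet (S' m) := fun m => SFm_meas hm hF m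
  have hS'u : ∀ m, S' m ⊆ uS I1 P1 m := by
    intro m y hy
    obtain ⟨T, hT, h1, h2⟩ := mem_SFm.1 hy
    rw [← h1]
    exact Set.mem_biUnion (mem_Ic.1 (hF hT)).1 h2.1
  have hS'b : ∀ m, S' m ⊆ Metric.closedBall 0 (A * r) := by
    intro m y hy
    obtain ⟨T, hT, h1, h2⟩ := mem_SFm.1 hy
    rw [mem_closedBall_zero_iff]
    exact hb _ (mem_Ic.1 (hF hT)).1 _ y h2.1
  have hsub : F.image (fun T => T.2.1) ⊆ caps th := by
    intro m hmm
    obtain ⟨T, hT, rfl⟩ := Finset.mem_image.1 hmm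
    exact (mem_Ic.1 (hF hT)).2.1
  have hk := hmain κ r hκ hκ1 hr hrκ g hg hg2 S' hS'm hS'b D hD (by
      intro c X0 f s1 s2 h1 h2
      exact (Bas367.enc_mono g fun m _ => Set.inter_subset_inter_left _ (hS'u m)).trans
        (hdens c X0 f s1 s2 h1 h2)) s hs hs1 {k0} (fun _ => F.image (fun T => T.2.1)) (by
      intro k hk
      rw [Finset.mem_singleton] at hk
      subst hk
      refine ⟨hsub, ?_⟩
      intro m hmm
      obtain ⟨T, hT, rfl⟩ := Finset.mem_image.1 hmm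
      have e : cen th T.2.1 - cen s k = (slT th T - C0) + (C0 - cen s k) := by
        unfold slT; abel
      rw [e]
      refine (norm_add_le _ _).trans ?_
      have h1 := hFC T hT
      nlinarith)
  rw [Finset.sum_singleton, one_mul] at hk
  -- Tonelli
  set f : E3 × ℝ → ℝ≥0∞ := fun x => (∑ T ∈ F, pkc r th⁻¹ κ⁻¹ (slT th T) (ptT th κ T)
    (muT th κ g P1 T) x) ^ (3/2 : ℝ) with hf
  have hfm : Measurable f := by
    rw [hf]
    exact (Finset.measurable_sum _ fun T _ => measurable_pkc _ _ _ _ _ _).pow_const _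
  have hT1 : ∫⁻ x, f x = ∫⁻ t, ∫⁻ X, f (X, t) := by
    rw [Measure.volume_eq_prod, lintegral_prod_symm' _ hfm]
  have hT2 : ∫⁻ t, ∫⁻ X, f (X, t) = ∫⁻ t in Set.Icc (-r) r, ∫⁻ X, f (X, t) := by
    symm
    refine setLIntegral_eq_of_support_subset ?_
    intro t ht
    rw [Function.mem_support] at ht
    by_contra hn
    apply ht
    have : ∀ X, f (X, t) = 0 := by
      intro X
      rw [hf]
      simp only
      rw [Finset.sum_eq_zero, ENNReal.zero_rpow_of_pos (by norm_num)]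
      intro T _
      refine pkc_zero fun h => hn ?_
      have := h.1
      simp only at this
      exact abs_le.1 this
    simp [this]
  have hpt : ∀ t X, f (X, t) ≤ ENNReal.ofReal ((6 ^ n * (r * κ⁻¹)) ^ (3/2 : ℝ)) *
      (Acc n th κ th g S' (F.image fun T => T.2.1) X t) ^ (3/2 : ℝ) := by
    intro t X
    rw [hf]
    simp only
    have h1 := pkc_sum_le (g := g) hth0 hκ hg hm hd (by rw [hK]; exact hb) F hF n r (X, t)
    rw [hthκ] at h1
    calc _ ≤ _ := ENNReal.rpow_le_rpow h1 (by norm_num)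
      _ = _ := by
        rw [ENNReal.mul_rpow_of_nonneg _ _ (by norm_num : (0:ℝ) ≤ 3/2),
          ENNReal.ofReal_rpow_of_nonneg (by positivity) (by norm_num)]
  have hE : enc th g S' ≤ ENNReal.ofReal (∑ T ∈ F, muT th κ g P1 T) := by
    rw [sum_muT (K := K) (I1 := I1) hg (by rw [hK]; exact hb) F hF]
    refine enc_le_sum F S' ?_
    intro m _ y hy
    obtain ⟨T, hT, h1, h2⟩ := mem_SFm.1 hy
    exact ⟨T, hT, h1, h2⟩
  have hmu0 : 0 ≤ ∑ T ∈ F, muT th κ g P1 T := Finset.sum_nonneg fun T _ => muT_nonneg _ _ _ _ _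
  calc ∫⁻ x, f x = ∫⁻ t in Set.Icc (-r) r, ∫⁻ X, f (X, t) := by rw [hT1, hT2]
    _ ≤ ∫⁻ t in Set.Icc (-r) r, ∫⁻ X, ENNReal.ofReal ((6 ^ n * (r * κ⁻¹)) ^ (3/2 : ℝ)) *
        (Acc n th κ th g S' (F.image fun T => T.2.1) X t) ^ (3/2 : ℝ) :=
        lintegral_mono fun t => lintegral_mono fun X => hpt t X
    _ = ENNReal.ofReal ((6 ^ n * (r * κ⁻¹)) ^ (3/2 : ℝ)) * ∫⁻ t in Set.Icc (-r) r, ∫⁻ X,
        (Acc n th κ th g S' (F.image fun T => T.2.1) X t) ^ (3/2 : ℝ) := by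
        rw [← lintegral_const_mul' _ _ ENNReal.ofReal_ne_top]
        refine lintegral_congr fun t => ?_
        rw [lintegral_const_mul' _ _ ENNReal.ofReal_ne_top]
    _ ≤ ENNReal.ofReal ((6 ^ n * (r * κ⁻¹)) ^ (3/2 : ℝ)) *
        (ENNReal.ofReal (C * r ^ ε * s ^ (q / 2) * Real.sqrt D * r) *
          ENNReal.ofReal (∑ T ∈ F, muT th κ g P1 T)) :=
        mul_le_mul' le_rfl (hk.trans (mul_le_mul' le_rfl hE))
    _ = _ := by
        rw [← ENNReal.ofReal_mul (by positivity), ← ENNReal.ofReal_mul (by positivity)]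
        congr 1
        rw [Real.mul_rpow (by positivity) (by positivity)]
        ring

end fam

end Crest.Agent.R116.Mc330
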