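import Crest.Agent.R116.ShDefs_927
import Crest.Agent.R138.Fq3_665
import Crest.Agent.R138.Sh11_200
import Crest.Agent.R116.Gw3_665

-- ▼ part R116/Sp1_927
section

/-!
R116, the front piece (S): `(C3w) ⇐ (GlobW)`.  Part 1: the partition of the shell.
-/

set_option autoImplicit false

open MeasureTheory Filter Topology
open scoped ENNReal FourierTransform ContDiff

noncomputable section

namespace Crest.Agent.R116.Sh927

/-- the radial cut-off is smooth. -/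
theorem contDiff_rad {φ : ℝ → ℝ} (hφ : ContDiff ℝ ∞ φ) (lo : ∀ r, r < 1 / 2 → φ r = 0) :
    ContDiff ℝ ∞ (fun ξ : V => φ ‖ξ‖) := by
  rw [contDiff_iff_contDiffAt]
  intro ξ
  by_cases h : ‖ξ‖ < 1 / 2
  · have h1 : (fun ξ : V => φ ‖ξ‖) =ᶠ[𝓝 ξ] fun _ => 0 := by
      have : ∀ᶠ η in 𝓝 ξ, ‖η‖ < 1 / 2 := continuous_norm.continuousAt.eventually_lt_const h
      filter_upwards [this] with η hη
      exact lo _ hη
    exact contDiffAt_const.congr_of_eventuallyEq h1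
  · have h0 : ξ ≠ 0 := by
      rintro rfl
      exact h (by rw [norm_zero]; norm_num)
    exact hφ.contDiffAt.comp ξ (contDiffAt_norm ℝ h0)

/-- the shell. -/
def shell : Set V := {ξ | 1 / 2 ≤ ‖ξ‖ ∧ ‖ξ‖ ≤ 2}

theorem isCompact_shell : IsCompact shell := by
  have : shell = Metric.closedBall (0 : V) 2 ∩ {ξ | 1 / 2 ≤ ‖ξ‖} := by
    ext ξ
    simp [shell, and_comm]
  rw [this]
  exact (isCompact_closedBall _ _).inter_right (isClosed_le continuous_const continuous_norm)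

/-- finite decomposition of a radial cut-off in small pieces. -/
theorem exists_pieces {φ : ℝ → ℝ} (hφ : ContDiff ℝ ∞ φ) (lo : ∀ r, r < 1 / 2 → φ r = 0)
    (hi : ∀ r, 2 < r → φ r = 0) {r : ℝ} (hr : 0 < r) :
    ∃ (s : Finset V) (b : V → V → ℂ), (∀ v ∈ s, 1 / 2 ≤ ‖v‖ ∧ ‖v‖ ≤ 2) ∧
      (∀ v, ContDiff ℝ ∞ (b v)) ∧ (∀ v ξ, b v ξ ≠ 0 → ‖ξ - v‖ ≤ r) ∧
      ∀ ξ, ((φ ‖ξ‖ : ℝ) : ℂ) = ∑ v ∈ s, b v ξ := by
  obtain ⟨t, hts, htf, htc⟩ := isCompact_shell.finite_cover_balls (e := r / 2) (by positivity)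
  let f : (v : V) → ContDiffBump v := fun v => ⟨r / 2, r, by positivity, by linarith⟩
  let S : V → ℝ := fun ξ => ∑ v ∈ htf.toFinset, f v ξ
  have hSc : ContDiff ℝ ∞ S := ContDiff.sum fun v _ => (f v).contDiff
  have hS1 : ∀ ξ ∈ shell, 1 ≤ S ξ := by
    intro ξ hξ
    obtain ⟨v, hv⟩ := Set.mem_iUnion.1 (htc hξ)
    obtain ⟨hvt, hvb⟩ := Set.mem_iUnion.1 hv
    have h1 : f v ξ = 1 := (f v).one_of_mem_closedBall (Metric.ball_subset_closedBall hvb)
    rw [← h1]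
    exact Finset.single_le_sum (f := fun v => f v ξ) (fun v _ => (f v).nonneg)
      (htf.mem_toFinset.2 hvt)
  have hout : ∀ ξ, ξ ∉ shell → φ ‖ξ‖ = 0 := by
    intro ξ hξ
    by_cases h : ‖ξ‖ < 1 / 2
    · exact lo _ h
    · exact hi _ (not_le.1 fun h2 => hξ ⟨not_lt.1 h, h2⟩)
  have hg := contDiff_rad hφ lo
  let b : V → V → ℝ := fun v ξ => φ ‖ξ‖ * f v ξ / S ξ
  have hbc : ∀ v, ContDiff ℝ ∞ (b v) := by
    intro v
    rw [contDiff_iff_contDiffAt]
    intro ξ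
    by_cases h : ξ ∈ shell
    · exact (hg.contDiffAt.mul (f v).contDiff.contDiffAt).div hSc.contDiffAt
        (by have := hS1 ξ h; positivity)
    · have h1 : b v =ᶠ[𝓝 ξ] fun _ => 0 := by
        have : ∀ᶠ η in 𝓝 ξ, η ∈ shellᶜ := isCompact_shell.isClosed.isOpen_compl.mem_nhds h
        filter_upwards [this] with η hη
        simp only [b, hout η hη, zero_mul, zero_div]
      exact contDiffAt_const.congr_of_eventuallyEq h1
  refine ⟨htf.toFinset, fun v ξ => (b v ξ : ℂ), fun v hv => hts (htf.mem_toFinset.1 hv),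
    fun v => Complex.ofRealCLM.contDiff.comp (hbc v), fun v ξ h => ?_, fun ξ => ?_⟩
  · by_contra hlt
    apply h
    have h1 : f v ξ = 0 := (f v).zero_of_le_dist (by rw [dist_eq_norm]; exact (not_le.1 hlt).le)
    simp [b, h1]
  · rw [← Complex.ofReal_sum]
    congr 1
    simp only [b]
    rw [← Finset.sum_div, ← Finset.mul_sum]
    by_cases h : ξ ∈ shell
    · have := hS1 ξ h
      rw [eq_div_iff (by positivity)]
    · rw [hout ξ h]; simp

end Crest.Agent.R116.Sh927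
end
end

-- ▼ part R116/Wk1_927
section

/-!
R116, outer shell (1): radial symbols `ξ ↦ c (‖ξ‖²)` as Schwartz functions, their Laplacian and the
weighted kernel identity.
-/

set_option autoImplicit false

open MeasureTheory FourierTransform LineDeriv Set
open scoped ContDiff Real SchwartzMap ENNReal

namespace Crest.Agent.R116.Sh927




/-- radial symbol. -/
noncomputable def rs (c : ℝ → ℂ) (ξ : V) : ℂ := c (‖ξ‖ ^ 2)

theorem contDiff_rs {c : ℝ → ℂ} (hc : ContDiff ℝ ∞ c) : ContDiff ℝ ∞ (rs c) := by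
  unfold rs
  exact hc.comp (contDiff_norm_sq ℝ)

theorem hasCompactSupport_rs {c : ℝ → ℂ} (hc : HasCompactSupport c) :
    HasCompactSupport (rs c) := by
  obtain ⟨M, hM⟩ := hc.isCompact.isBounded.subset_closedBall 0
  refine HasCompactSupport.intro (isCompact_closedBall (0:V) (Real.sqrt (max M 0))) fun ξ hξ => ?_
  rw [mem_closedBall_zero_iff, not_le] at hξ
  unfold rs
  by_contra h
  have h1 := hM (subset_tsupport _ h)
  rw [mem_closedBall_zero_iff, Real.norm_of_nonneg (by positivity)] at h1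
  have h2 : ‖ξ‖ ≤ Real.sqrt (max M 0) := Real.le_sqrt_of_sq_le (h1.trans (le_max_left _ _))
  linarith

/-- radial Schwartz function. -/
noncomputable def rS {c : ℝ → ℂ} (hc : ContDiff ℝ ∞ c) (hc' : HasCompactSupport c) : 𝓢(V, ℂ) :=
  (hasCompactSupport_rs hc').toSchwartzMap (contDiff_rs hc)

theorem rS_apply {c : ℝ → ℂ} (hc : ContDiff ℝ ∞ c) (hc' : HasCompactSupport c) (ξ : V) :
    rS hc hc' ξ = c (‖ξ‖ ^ 2) := rfl

theorem hasDerivAt_nsq (y e : V) (t : ℝ) :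
    HasDerivAt (fun t : ℝ => ‖y + t • e‖ ^ 2) (2 * inner ℝ (y + t • e) e) t := by
  have h1 : HasDerivAt (fun t : ℝ => y + t • e) e t := by
    simpa using ((hasDerivAt_id t).smul_const e).const_add y
  exact h1.norm_sq

theorem lineDeriv_rS {c : ℝ → ℂ} (hc : ContDiff ℝ ∞ c) (hc' : HasCompactSupport c) (e y : V) :
    (∂_{e} (rS hc hc')) y = deriv c (‖y‖ ^ 2) * ((2 * inner ℝ y e : ℝ) : ℂ) := by
  rw [SchwartzMap.lineDerivOp_apply]
  unfold lineDeriv
  have h1 := hasDerivAt_nsq y e 0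
  have hd : HasDerivAt c (deriv c (‖y + (0:ℝ) • e‖ ^ 2)) (‖y + (0:ℝ) • e‖ ^ 2) :=
    ((hc.differentiable (by simp)) _).hasDerivAt
  have h2 := HasDerivAt.scomp (0:ℝ) hd h1
  have h3 : (fun t : ℝ => (rS hc hc') (y + t • e)) = c ∘ fun t : ℝ => ‖y + t • e‖ ^ 2 := by
    funext t; rfl
  rw [h3, h2.deriv]
  simp
  ring

theorem lineDeriv2_rS {c : ℝ → ℂ} (hc : ContDiff ℝ ∞ c) (hc' : HasCompactSupport c) (e y : V) :
    (∂_{e} (∂_{e} (rS hc hc'))) y = deriv (deriv c) (‖y‖ ^ 2) * ((4 * (inner ℝ y e) ^ 2 : ℝ) : ℂ)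
      + deriv c (‖y‖ ^ 2) * ((2 * inner ℝ e e : ℝ) : ℂ) := by
  rw [SchwartzMap.lineDerivOp_apply]
  unfold lineDeriv
  have h1 := hasDerivAt_nsq y e 0
  have hc1 : ContDiff ℝ ∞ (deriv c) := (contDiff_infty_iff_deriv.mp hc).2
  have hd : HasDerivAt (deriv c) (deriv (deriv c) (‖y + (0:ℝ) • e‖ ^ 2)) (‖y + (0:ℝ) • e‖ ^ 2) :=
    ((hc1.differentiable (by simp)) _).hasDerivAt
  have h2 := HasDerivAt.scomp (0:ℝ) hd h1
  have h4 : HasDerivAt (fun t : ℝ => 2 * inner ℝ (y + t • e) e) (2 * inner ℝ e e) 0 := by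
    have h5 : HasDerivAt (fun t : ℝ => y + t • e) e 0 := by
      simpa using ((hasDerivAt_id (0:ℝ)).smul_const e).const_add y
    have h6 := (h5.inner ℝ (hasDerivAt_const (0:ℝ) e)).const_mul 2
    simpa using h6
  have h7 := h2.mul h4.ofReal_comp
  have h3 : (fun t : ℝ => (∂_{e} (rS hc hc')) (y + t • e))
      = (deriv c ∘ fun t : ℝ => ‖y + t • e‖ ^ 2) *
          fun t : ℝ => ((2 * inner ℝ (y + t • e) e : ℝ) : ℂ) := by
    funext t
    rw [lineDeriv_rS]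
    rfl
  rw [h3, h7.deriv]
  simp
  ring

/-- the Laplacian of the radial function, as a Schwartz function. -/
noncomputable def lS {c : ℝ → ℂ} (hc : ContDiff ℝ ∞ c) (hc' : HasCompactSupport c) : 𝓢(V, ℂ) :=
  ∑ i : Fin 3, ∂_{EuclideanSpace.basisFun (Fin 3) ℝ i} (∂_{EuclideanSpace.basisFun (Fin 3) ℝ i}
      (rS hc hc'))

theorem lS_apply {c : ℝ → ℂ} (hc : ContDiff ℝ ∞ c) (hc' : HasCompactSupport c) (ξ : V) :
    lS hc hc' ξ = 4 * ((‖ξ‖ ^ 2 : ℝ) : ℂ) * deriv (deriv c) (‖ξ‖ ^ 2) + 6 * deriv c (‖ξ‖ ^ 2) := by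
  unfold lS
  rw [sum_apply]
  simp_rw [lineDeriv2_rS]
  have h2 : ∀ i : Fin 3, inner ℝ (EuclideanSpace.basisFun (Fin 3) ℝ i)
      (EuclideanSpace.basisFun (Fin 3) ℝ i) = (1:ℝ) := by
    intro i
    rw [real_inner_self_eq_norm_sq]
    simp
  have h1 : ‖ξ‖ ^ 2 = ∑ i : Fin 3, (inner ℝ ξ (EuclideanSpace.basisFun (Fin 3) ℝ i)) ^ 2 := by
    rw [OrthonormalBasis.sum_sq_inner_left]
  simp_rw [h2]
  rw [Finset.sum_add_distrib]
  have h3 : ∑ i : Fin 3, deriv (deriv c) (‖ξ‖ ^ 2) *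
      ((4 * (inner ℝ ξ (EuclideanSpace.basisFun (Fin 3) ℝ i)) ^ 2 : ℝ) : ℂ)
      = 4 * ((‖ξ‖ ^ 2 : ℝ) : ℂ) * deriv (deriv c) (‖ξ‖ ^ 2) := by
    generalize deriv (deriv c) (‖ξ‖ ^ 2) = D
    rw [h1, Complex.ofReal_sum, Finset.mul_sum, Finset.sum_mul]
    refine Finset.sum_congr rfl fun i _ => ?_
    push_cast
    ring
  rw [h3, Finset.sum_const, Finset.card_univ, Fintype.card_fin]
  simp only [nsmul_eq_mul]
  push_cast
  ring

theorem fourierInv_lS {c : ℝ → ℂ} (hc : ContDiff ℝ ∞ c) (hc' : HasCompactSupport c) (x : V) :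
    (𝓕⁻ (lS hc hc')) x = ((-(4 * π ^ 2) * ‖x‖ ^ 2 : ℝ) : ℂ) * (𝓕⁻ (rS hc hc')) x := by
  have h1 : ∀ e : V, (𝓕⁻ (∂_{e} (∂_{e} (rS hc hc')))) x
      = ((-(4 * π ^ 2) * (inner ℝ x e) ^ 2 : ℝ) : ℂ) * (𝓕⁻ (rS hc hc')) x := by
    intro e
    have ht : (inner ℝ · e : V → ℝ).HasTemperateGrowth := by fun_prop
    rw [SchwartzMap.fourierInv_lineDerivOp_eq, SchwartzMap.fourierInv_lineDerivOp_eq,
      smul_apply, SchwartzMap.smulLeftCLM_apply_apply ht, smul_apply,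
      SchwartzMap.smulLeftCLM_apply_apply ht]
    simp only [smul_eq_mul, Complex.real_smul]
    push_cast
    ring_nf
    rw [Complex.I_sq]
    ring
  unfold lS
  rw [FourierTransform.fourierInv_sum, sum_apply]
  simp_rw [h1]
  have h3 : ‖x‖ ^ 2 = ∑ i : Fin 3, (inner ℝ x (EuclideanSpace.basisFun (Fin 3) ℝ i)) ^ 2 := by
    rw [OrthonormalBasis.sum_sq_inner_left]
  rw [← Finset.sum_mul, ← Complex.ofReal_sum, ← Finset.mul_sum, ← h3]

/-- the Schwartz function whose inverse transform is `(1 + i (|x|²-T²)/(1+T)) K`. -/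
noncomputable def wS {c : ℝ → ℂ} (hc : ContDiff ℝ ∞ c) (hc' : HasCompactSupport c) (T : ℝ) :
    𝓢(V, ℂ) :=
  (1 - Complex.I * ((T ^ 2 / (1 + T) : ℝ) : ℂ)) • rS hc hc' +
    (Complex.I * ((-(1 / (4 * π ^ 2 * (1 + T))) : ℝ) : ℂ)) • lS hc hc'

theorem fourierInv_wS {c : ℝ → ℂ} (hc : ContDiff ℝ ∞ c) (hc' : HasCompactSupport c) (T : ℝ)
    (x : V) : (𝓕⁻ (wS hc hc' T)) x =
      (1 + (((‖x‖ ^ 2 - T ^ 2) / (1 + T) : ℝ) : ℂ) * Complex.I) * (𝓕⁻ (rS hc hc')) x := by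
  unfold wS
  rw [FourierTransform.fourierInv_add, FourierTransform.fourierInv_smul,
    FourierTransform.fourierInv_smul, add_apply, smul_apply, smul_apply, fourierInv_lS,
    smul_eq_mul, smul_eq_mul, ← mul_assoc, ← add_mul]
  congr 1
  have h4 : (-(1 / (4 * π ^ 2 * (1 + T)))) * (-(4 * π ^ 2) * ‖x‖ ^ 2) = ‖x‖ ^ 2 / (1 + T) := by
    have := Real.pi_ne_zero
    by_cases hT : 1 + T = 0
    · rw [hT]; simp
    field_simp
  have h5 : (Complex.I * ((-(1 / (4 * π ^ 2 * (1 + T))) : ℝ) : ℂ)) *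
      ((-(4 * π ^ 2) * ‖x‖ ^ 2 : ℝ) : ℂ) = Complex.I * ((‖x‖ ^ 2 / (1 + T) : ℝ) : ℂ) := by
    rw [mul_assoc, ← Complex.ofReal_mul, h4]
  rw [h5, sub_div]
  push_cast
  ring

theorem wS_apply {c : ℝ → ℂ} (hc : ContDiff ℝ ∞ c) (hc' : HasCompactSupport c) (T : ℝ) (ξ : V) :
    wS hc hc' T ξ = c (‖ξ‖ ^ 2) + Complex.I * (((1 + T)⁻¹ : ℝ) : ℂ) *
      (-(((4 * π ^ 2)⁻¹ : ℝ) : ℂ) * (4 * ((‖ξ‖ ^ 2 : ℝ) : ℂ) * deriv (deriv c) (‖ξ‖ ^ 2)
        + 6 * deriv c (‖ξ‖ ^ 2)) - ((T ^ 2 : ℝ) : ℂ) * c (‖ξ‖ ^ 2)) := by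
  unfold wS
  rw [add_apply, smul_apply, smul_apply, lS_apply, rS_apply, smul_eq_mul, smul_eq_mul]
  rw [one_div, mul_inv, div_eq_mul_inv]
  push_cast
  ring

end Crest.Agent.R116.Sh927
end

-- ▼ part R116/Wk2_927
section

/-!
R116, outer shell (2): the weight `(1 + (|x|²-T²)²/(1+T)²)⁻¹` and the `L¹` bound of a radial kernel.
-/

set_option autoImplicit false

open MeasureTheory FourierTransform LineDeriv Set
open scoped ContDiff Real SchwartzMap ENNReal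

namespace Crest.Agent.R116.Sh927

/-- the weight as a function of the radius. -/
noncomputable def wt (T r : ℝ) : ℝ := (1 + ((r ^ 2 - T ^ 2) / (1 + T)) ^ 2)⁻¹

theorem wt_pos (T r : ℝ) : 0 < wt T r := by unfold wt; positivity

theorem continuous_wt (T : ℝ) : Continuous (wt T) := by
  unfold wt
  refine Continuous.inv₀ (by fun_prop) fun x => ?_
  positivity

theorem wt_le {T : ℝ} (hT : 0 ≤ T) {r : ℝ} (hr : 0 ≤ r) :
    r ^ 2 * wt T r ≤ 2 * (1 + T) ^ 2 * (1 + (r - T) ^ 2)⁻¹ := by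
  unfold wt
  have h1 : 0 < 1 + T := by linarith
  rw [← div_eq_mul_inv, ← div_eq_mul_inv, div_le_div_iff₀ (by positivity) (by positivity)]
  have e : 2 * (1 + T) ^ 2 * (1 + ((r ^ 2 - T ^ 2) / (1 + T)) ^ 2)
      = 2 * ((1 + T) ^ 2 + (r - T) ^ 2 * (r + T) ^ 2) := by
    field_simp
    ring
  rw [e]
  have h2 : r ^ 2 * (r - T) ^ 2 ≤ (r - T) ^ 2 * (r + T) ^ 2 := by
    have : r ^ 2 ≤ (r + T) ^ 2 := by nlinarith
    nlinarith [sq_nonneg (r - T)]
  have h3 : r ^ 2 ≤ 2 * (1 + T) ^ 2 + (r - T) ^ 2 * (r + T) ^ 2 := by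
    by_cases h : (r - T) ^ 2 ≤ 1
    · have h4 : r ^ 2 ≤ 2 * (r - T) ^ 2 + 2 * T ^ 2 := by nlinarith [sq_nonneg (r - 2 * T)]
      nlinarith [sq_nonneg ((r - T) * (r + T))]
    · push Not at h
      have : r ^ 2 ≤ (r + T) ^ 2 := by nlinarith
      nlinarith [sq_nonneg (r + T)]
  nlinarith

theorem lint_wt {T : ℝ} (hT : 0 ≤ T) :
    ∫⁻ x : V, ENNReal.ofReal (wt T ‖x‖) ≤ ENNReal.ofReal (8 * π ^ 2 * (1 + T) ^ 2) := by
  have hI : Integrable (fun r : ℝ => 2 * (1 + T) ^ 2 * (1 + (r - T) ^ 2)⁻¹) := by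
    have := (integrable_inv_one_add_sq.comp_sub_right T).const_mul (2 * (1 + T) ^ 2)
    exact this
  have hfr : Module.finrank ℝ V = 3 := finrank_euclideanSpace_fin
  have hion : IntegrableOn (fun y : ℝ => y ^ (Module.finrank ℝ V - 1) • wt T y) (Ioi 0) := by
    refine Integrable.mono' hI.integrableOn ?_ ?_
    · exact (((continuous_id.pow _).smul (continuous_wt T)).aestronglyMeasurable).restrict
    · filter_upwards [ae_restrict_mem measurableSet_Ioi] with r hr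
      have hr0 : 0 ≤ r := le_of_lt hr
      rw [hfr, smul_eq_mul, Real.norm_of_nonneg (mul_nonneg (by positivity) (wt_pos T r).le)]
      exact wt_le hT hr0
  have hint : Integrable (fun x : V => wt T ‖x‖) :=
    (integrable_fun_norm_addHaar (volume : Measure V)).mpr hion
  rw [← ofReal_integral_eq_lintegral_ofReal hint
    (Filter.Eventually.of_forall fun x => (wt_pos T _).le)]
  apply ENNReal.ofReal_le_ofReal
  rw [integral_fun_norm_addHaar (volume : Measure V) (wt T), hfr]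
  have hb : (volume : Measure V).real (Metric.ball 0 1) = π * 4 / 3 := by
    rw [Measure.real, EuclideanSpace.volume_ball_fin_three]
    rw [ENNReal.ofReal_one, one_pow, one_mul, ENNReal.toReal_ofReal (by positivity)]
  rw [hb]
  have h1 : ∫ y in Ioi (0:ℝ), y ^ (3 - 1) • wt T y ≤ 2 * (1 + T) ^ 2 * π := by
    calc ∫ y in Ioi (0:ℝ), y ^ (3 - 1) • wt T y
        ≤ ∫ y in Ioi (0:ℝ), 2 * (1 + T) ^ 2 * (1 + (y - T) ^ 2)⁻¹ := by
          rw [hfr] at hion
          refine setIntegral_mono_on hion hI.integrableOn measurableSet_Ioi fun r hr => ?_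
          rw [smul_eq_mul]
          exact wt_le hT (le_of_lt hr)
      _ ≤ ∫ y : ℝ, 2 * (1 + T) ^ 2 * (1 + (y - T) ^ 2)⁻¹ :=
          setIntegral_le_integral hI (Filter.Eventually.of_forall fun r => by positivity)
      _ = 2 * (1 + T) ^ 2 * π := by
          rw [integral_const_mul, integral_sub_right_eq_self (fun y : ℝ => (1 + y ^ 2)⁻¹) T,
            integral_univ_inv_one_add_sq]
  have hpi := Real.pi_pos
  rw [nsmul_eq_mul, smul_eq_mul]
  calc ((3:ℕ):ℝ) * (π * 4 / 3 * ∫ y in Ioi (0:ℝ), y ^ (3 - 1) • wt T y)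
      ≤ ((3:ℕ):ℝ) * (π * 4 / 3 * (2 * (1 + T) ^ 2 * π)) := by gcongr
    _ = 8 * π ^ 2 * (1 + T) ^ 2 := by push_cast; ring

/-- `L¹` bound of the kernel from the bound of `wS`. -/
theorem L1_of_wS {c : ℝ → ℂ} (hc : ContDiff ℝ ∞ c) (hc' : HasCompactSupport c) {T : ℝ}
    (hT : 0 ≤ T) {M : ℝ} (hM : 0 ≤ M) (h : ∀ ξ, ‖wS hc hc' T ξ‖ ≤ M)
    (hs : ∀ ξ : V, 64 < ‖ξ‖ ^ 2 → wS hc hc' T ξ = 0) :
    ∫⁻ x, ‖𝓕⁻ (rs c) x‖ₑ ≤ ENNReal.ofReal (1000 * (1 + T) * M) := by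
  have hball : ∀ ξ : V, ‖wS hc hc' T ξ‖ ≤ (Metric.closedBall (0:V) 8).indicator (fun _ => M) ξ := by
    intro ξ
    by_cases hξ : ξ ∈ Metric.closedBall (0:V) 8
    · rw [indicator_of_mem hξ]; exact h ξ
    · rw [indicator_of_notMem hξ]
      rw [mem_closedBall_zero_iff, not_le] at hξ
      rw [hs ξ (by nlinarith), norm_zero]
  have h1 : ∫⁻ x, ENNReal.ofReal (‖wS hc hc' T x‖ ^ 2)
      ≤ ENNReal.ofReal (M ^ 2 * (8 ^ 3 * (π * 4 / 3))) := by
    calc ∫⁻ x, ENNReal.ofReal (‖wS hc hc' T x‖ ^ 2)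
        ≤ ∫⁻ x, (Metric.closedBall (0:V) 8).indicator (fun _ => ENNReal.ofReal (M ^ 2)) x := by
          refine lintegral_mono fun x => ?_
          have := hball x
          by_cases hx : x ∈ Metric.closedBall (0:V) 8
          · rw [indicator_of_mem hx] at this ⊢
            exact ENNReal.ofReal_le_ofReal (by gcongr)
          · rw [indicator_of_notMem hx] at this ⊢
            have h0 : ‖wS hc hc' T x‖ = 0 := le_antisymm this (norm_nonneg _)
            rw [h0]; simp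
      _ = ENNReal.ofReal (M ^ 2) * volume (Metric.closedBall (0:V) 8) := by
          rw [lintegral_indicator measurableSet_closedBall, setLIntegral_const]
      _ = _ := by
          rw [EuclideanSpace.volume_closedBall_fin_three, ← ENNReal.ofReal_pow (by norm_num),
            ← ENNReal.ofReal_mul (by norm_num), ← ENNReal.ofReal_mul (by positivity)]
  have h2 : ∫⁻ x, ENNReal.ofReal ‖(𝓕⁻ (wS hc hc' T)) x‖ ^ (2:ℝ)
      ≤ ENNReal.ofReal (M ^ 2 * (8 ^ 3 * (π * 4 / 3))) := by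
    refine le_trans (le_of_eq ?_) h1
    rw [← Crest.Agent.R138.Sh200.lint_sq_fourierInv]
    refine lintegral_congr fun x => ?_
    rw [ENNReal.ofReal_rpow_of_nonneg (norm_nonneg _) (by norm_num)]
    norm_num
  have hwm : Measurable fun x : V => ENNReal.ofReal (Real.sqrt (wt T ‖x‖)) :=
    ((continuous_wt T).comp continuous_norm).sqrt.measurable.ennreal_ofReal
  have h3 := ENNReal.lintegral_mul_le_Lp_mul_Lq (volume : Measure V) Real.HolderConjugate.two_two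
    (f := fun x => ENNReal.ofReal (Real.sqrt (wt T ‖x‖)))
    (g := fun x => ENNReal.ofReal ‖(𝓕⁻ (wS hc hc' T)) x‖)
    hwm.aemeasurable (by
      have := (𝓕⁻ (wS hc hc' T)).continuous.norm.measurable.ennreal_ofReal
      exact this.aemeasurable)
  simp only [Pi.mul_apply] at h3
  have h4 : ∫⁻ x, ‖𝓕⁻ (rs c) x‖ₑ = ∫⁻ x : V, ENNReal.ofReal (Real.sqrt (wt T ‖x‖)) *
      ENNReal.ofReal ‖(𝓕⁻ (wS hc hc' T)) x‖ := by
    refine lintegral_congr fun x => ?_
    rw [← ENNReal.ofReal_mul (Real.sqrt_nonneg _), fourierInv_wS, norm_mul]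
    have e1 : ‖(1:ℂ) + (((‖x‖ ^ 2 - T ^ 2) / (1 + T) : ℝ) : ℂ) * Complex.I‖
        = Real.sqrt (1 + ((‖x‖ ^ 2 - T ^ 2) / (1 + T)) ^ 2) := by
      have := Complex.norm_add_mul_I 1 ((‖x‖ ^ 2 - T ^ 2) / (1 + T))
      simpa using this
    rw [e1, ← mul_assoc, ← Real.sqrt_mul (wt_pos T _).le]
    have e2 : wt T ‖x‖ * (1 + ((‖x‖ ^ 2 - T ^ 2) / (1 + T)) ^ 2) = 1 := by
      unfold wt
      exact inv_mul_cancel₀ (by positivity)
    rw [e2, Real.sqrt_one, one_mul, ofReal_norm, SchwartzMap.fourierInv_coe]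
    rfl
  have h5 : ∫⁻ x : V, ENNReal.ofReal (Real.sqrt (wt T ‖x‖)) ^ (2:ℝ)
      ≤ ENNReal.ofReal (8 * π ^ 2 * (1 + T) ^ 2) := by
    refine le_trans (le_of_eq ?_) (lint_wt hT)
    refine lintegral_congr fun x => ?_
    rw [ENNReal.ofReal_rpow_of_nonneg (Real.sqrt_nonneg _) (by norm_num)]
    congr 1
    have := Real.sq_sqrt (wt_pos T ‖x‖).le
    exact_mod_cast this
  rw [h4]
  refine h3.trans ?_
  calc (∫⁻ x : V, ENNReal.ofReal (Real.sqrt (wt T ‖x‖)) ^ (2:ℝ)) ^ (1 / (2:ℝ)) *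
        (∫⁻ x, ENNReal.ofReal ‖(𝓕⁻ (wS hc hc' T)) x‖ ^ (2:ℝ)) ^ (1 / (2:ℝ))
      ≤ ENNReal.ofReal (8 * π ^ 2 * (1 + T) ^ 2) ^ (1 / (2:ℝ)) *
        (ENNReal.ofReal (M ^ 2 * (8 ^ 3 * (π * 4 / 3)))) ^ (1 / (2:ℝ)) := by
        gcongr
    _ = ENNReal.ofReal (Real.sqrt (8 * π ^ 2 * (1 + T) ^ 2 * (M ^ 2 * (8 ^ 3 * (π * 4 / 3))))) := by
        rw [← ENNReal.mul_rpow_of_nonneg _ _ (by norm_num), ← ENNReal.ofReal_mul (by positivity),
          ENNReal.ofReal_rpow_of_nonneg (by positivity) (by norm_num)]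
        congr 1
        exact (Real.sqrt_eq_rpow _).symm
    _ ≤ _ := by
        apply ENNReal.ofReal_le_ofReal
        apply Real.sqrt_le_iff.mpr
        refine ⟨by positivity, ?_⟩
        have hp : π < 3.15 := Real.pi_lt_d2
        have hp0 := Real.pi_pos
        have e : 8 * π ^ 2 * (1 + T) ^ 2 * (M ^ 2 * (8 ^ 3 * (π * 4 / 3)))
            = (8 * 8 ^ 3 * 4 / 3 * π ^ 3) * ((1 + T) * M) ^ 2 := by ring
        rw [e]
        have h6 : 8 * 8 ^ 3 * 4 / 3 * π ^ 3 ≤ 1000 ^ 2 := by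
          have : π ^ 3 ≤ 3.15 ^ 3 := by gcongr
          nlinarith
        calc (8 * 8 ^ 3 * 4 / 3 * π ^ 3) * ((1 + T) * M) ^ 2 ≤ 1000 ^ 2 * ((1 + T) * M) ^ 2 := by
              gcongr
          _ = _ := by ring

end Crest.Agent.R116.Sh927
end

-- ▼ part R116/Wk3_927
section

/-!
R116, outer shell (3): oscillating radial profiles `A (‖ξ‖²) e^{2πiT‖ξ‖}` and the `L¹` bound
`≤ C (1+T) M`.
-/

set_option autoImplicit false

open MeasureTheory FourierTransform LineDeriv Set Filter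
open scoped ContDiff Real SchwartzMap ENNReal Topology

namespace Crest.Agent.R116.Sh927

/-- the oscillation as a function of `u = ‖ξ‖²`. -/
noncomputable def EE (T u : ℝ) : ℂ := Complex.exp (((2 * π * T * Real.sqrt u : ℝ) : ℂ) * Complex.I)

theorem norm_EE (T u : ℝ) : ‖EE T u‖ = 1 := Complex.norm_exp_ofReal_mul_I _

/-- smooth profiles supported in `[1/64, 64]` with bound `M`. -/
structure Pf (A : ℝ → ℂ) (M : ℝ) : Prop where
  sm : ContDiff ℝ ∞ A
  lo : ∀ u, u < 1 / 64 → A u = 0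
  hi : ∀ u, 64 < u → A u = 0
  b0 : ∀ u, ‖A u‖ ≤ M
  b1 : ∀ u, ‖deriv A u‖ ≤ M
  b2 : ∀ u, ‖deriv (deriv A) u‖ ≤ M

theorem Pf.nonneg {A : ℝ → ℂ} {M : ℝ} (h : Pf A M) : 0 ≤ M := (norm_nonneg _).trans (h.b0 0)

/-- the oscillating profile. -/
noncomputable def osc (T : ℝ) (A : ℝ → ℂ) (u : ℝ) : ℂ := A u * EE T u

theorem hasDerivAt_EE (T : ℝ) {u : ℝ} (hu : 0 < u) :
    HasDerivAt (EE T) (EE T u * (((π * T / Real.sqrt u : ℝ) : ℂ) * Complex.I)) u := by
  have h1 : HasDerivAt (fun u => 2 * π * T * Real.sqrt u) (π * T / Real.sqrt u) u := by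
    have := (Real.hasDerivAt_sqrt hu.ne').const_mul (2 * π * T)
    refine this.congr_deriv ?_
    field_simp
  exact (h1.ofReal_comp.mul_const Complex.I).cexp

theorem contDiffAt_EE (T : ℝ) {u : ℝ} (hu : 0 < u) : ContDiffAt ℝ ∞ (EE T) u := by
  have h1 : ContDiffAt ℝ ∞ Real.sqrt u := Real.contDiffAt_sqrt hu.ne'
  have h2 : ContDiffAt ℝ ∞ (fun u => 2 * π * T * Real.sqrt u) u := contDiffAt_const.mul h1
  have h3 : ContDiffAt ℝ ∞ (fun u => ((2 * π * T * Real.sqrt u : ℝ) : ℂ)) u :=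
    Complex.ofRealCLM.contDiff.contDiffAt.comp u h2
  exact (h3.mul contDiffAt_const).cexp

theorem contDiff_osc {A : ℝ → ℂ} (hA : ContDiff ℝ ∞ A) {a : ℝ} (ha : 0 < a)
    (lo : ∀ u, u < a → A u = 0) (T : ℝ) : ContDiff ℝ ∞ (osc T A) := by
  rw [contDiff_iff_contDiffAt]
  intro u
  by_cases hu : u < a
  · have : osc T A =ᶠ[𝓝 u] fun _ => 0 := by
      filter_upwards [Iio_mem_nhds hu] with v hv
      unfold osc
      rw [lo v hv, zero_mul]
    exact contDiffAt_const.congr_of_eventuallyEq this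
  · push Not at hu
    exact hA.contDiffAt.mul (contDiffAt_EE T (by linarith))

theorem hasCompactSupport_osc {A : ℝ → ℂ} (hA : HasCompactSupport A) (T : ℝ) :
    HasCompactSupport (osc T A) := hA.mul_right

theorem Pf.comp {A : ℝ → ℂ} {M : ℝ} (h : Pf A M) : HasCompactSupport A := by
  refine HasCompactSupport.intro (isCompact_Icc (a := (1/64:ℝ)) (b := 64)) fun u hu => ?_
  rw [mem_Icc, not_and_or, not_le, not_le] at hu
  rcases hu with hu | hu
  · exact h.lo u hu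
  · exact h.hi u hu

theorem Pf.osc_sm {A : ℝ → ℂ} {M : ℝ} (h : Pf A M) (T : ℝ) : ContDiff ℝ ∞ (osc T A) :=
  contDiff_osc h.sm (by norm_num : (0:ℝ) < 1/64) h.lo T

theorem Pf.osc_comp {A : ℝ → ℂ} {M : ℝ} (h : Pf A M) (T : ℝ) : HasCompactSupport (osc T A) :=
  hasCompactSupport_osc h.comp T

/-- first derivative of the oscillating profile. -/
theorem deriv_osc {A : ℝ → ℂ} (hA : ContDiff ℝ ∞ A) (T : ℝ) {u : ℝ} (hu : 0 < u) :
    deriv (osc T A) u = osc T (fun u => deriv A u +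
      A u * (((π * T / Real.sqrt u : ℝ) : ℂ) * Complex.I)) u := by
  have h1 : HasDerivAt A (deriv A u) u := ((hA.differentiable (by simp)) _).hasDerivAt
  have h2 := h1.mul (hasDerivAt_EE T hu)
  have h3 : osc T A = A * EE T := rfl
  rw [h3, h2.deriv]
  unfold osc
  ring

theorem deriv2_osc {A : ℝ → ℂ} (hA : ContDiff ℝ ∞ A) (T : ℝ) {u : ℝ} (hu : 0 < u) :
    deriv (deriv (osc T A)) u = EE T u * (deriv (deriv A) u
      + 2 * deriv A u * (((π * T / Real.sqrt u : ℝ) : ℂ) * Complex.I)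
      - A u * (((π * T / Real.sqrt u) ^ 2 : ℝ) : ℂ)
      - A u * (((π * T / Real.sqrt u / (2 * u) : ℝ) : ℂ) * Complex.I)) := by
  have h0 : deriv (osc T A) =ᶠ[𝓝 u] osc T (fun u => deriv A u +
      A u * (((π * T / Real.sqrt u : ℝ) : ℂ) * Complex.I)) := by
    filter_upwards [Ioi_mem_nhds hu] with v hv
    exact deriv_osc hA T hv
  rw [h0.deriv_eq]
  have hA1 : ContDiff ℝ ∞ (deriv A) := (contDiff_infty_iff_deriv.mp hA).2
  have h1 : HasDerivAt A (deriv A u) u := ((hA.differentiable (by simp)) _).hasDerivAt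
  have h1' : HasDerivAt (deriv A) (deriv (deriv A) u) u :=
    ((hA1.differentiable (by simp)) _).hasDerivAt
  have hs : 0 < Real.sqrt u := Real.sqrt_pos.mpr hu
  have hw : HasDerivAt (fun u => π * T / Real.sqrt u) (-(π * T / Real.sqrt u / (2 * u))) u := by
    have := (Real.hasDerivAt_sqrt hu.ne').inv hs.ne' |>.const_mul (π * T)
    have e : (fun u => π * T / Real.sqrt u) = fun u => π * T * (Real.sqrt u)⁻¹ := by
      funext u; rw [div_eq_mul_inv]
    rw [e]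
    refine this.congr_deriv ?_
    have e2 : Real.sqrt u ^ 2 = u := Real.sq_sqrt hu.le
    field_simp
    rw [e2]
  have h2 := h1'.add (h1.mul (hw.ofReal_comp.mul_const Complex.I))
  have h3 := h2.mul (hasDerivAt_EE T hu)
  have h4 : osc T (fun u => deriv A u + A u * (((π * T / Real.sqrt u : ℝ) : ℂ) * Complex.I))
      = (deriv A + A * fun u => (((π * T / Real.sqrt u : ℝ) : ℂ) * Complex.I)) * EE T := rfl
  have h3d := h3.deriv
  rw [h4]
  refine Eq.trans ?_ (Eq.trans h3d ?_)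
  · rfl
  · simp only [Pi.add_apply, Pi.mul_apply]
    have e1 : ((((π * T / Real.sqrt u) ^ 2 : ℝ) : ℂ))
        = ((π * T / Real.sqrt u : ℝ) : ℂ) * ((π * T / Real.sqrt u : ℝ) : ℂ) := by
      push_cast; ring
    rw [e1]
    set w : ℂ := ((π * T / Real.sqrt u : ℝ) : ℂ)
    push_cast
    have hI : Complex.I * Complex.I = -1 := Complex.I_mul_I
    linear_combination (A u * w * w * EE T u) * hI

/-- bound of the weighted symbol. -/
theorem Pf.wS_le {A : ℝ → ℂ} {M : ℝ} (h : Pf A M) {T : ℝ} (hT : 0 ≤ T) (ξ : V) :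
    ‖wS (h.osc_sm T) (h.osc_comp T) T ξ‖ ≤ 10 * M := by
  have hM := h.nonneg
  have hzero : ∀ u : ℝ, (u < 1 / 64 ∨ 64 < u) → osc T A u = 0 ∧ deriv (osc T A) u = 0 ∧
      deriv (deriv (osc T A)) u = 0 := by
    intro u hu
    have hev : osc T A =ᶠ[𝓝 u] fun _ => 0 := by
      rcases hu with hu | hu
      · filter_upwards [Iio_mem_nhds hu] with v hv
        unfold osc; rw [h.lo v hv, zero_mul]
      · filter_upwards [Ioi_mem_nhds hu] with v hv
        unfold osc; rw [h.hi v hv, zero_mul]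
    have hev1 : deriv (osc T A) =ᶠ[𝓝 u] fun _ => 0 := by
      have := hev.deriv
      simpa using this
    refine ⟨hev.eq_of_nhds, hev1.eq_of_nhds, ?_⟩
    have := hev1.deriv.eq_of_nhds
    simpa using this
  rw [wS_apply]
  by_cases hu : ‖ξ‖ ^ 2 < 1 / 64 ∨ 64 < ‖ξ‖ ^ 2
  · obtain ⟨h0, h1, h2⟩ := hzero _ hu
    rw [h0, h1, h2]
    simp
    exact hM
  · push Not at hu
    obtain ⟨hu1, hu2⟩ := hu
    set u := ‖ξ‖ ^ 2 with hu
    have hu0 : 0 < u := by linarith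
    have hs : 0 < Real.sqrt u := Real.sqrt_pos.mpr hu0
    rw [deriv_osc h.sm T hu0, deriv2_osc h.sm T hu0]
    unfold osc
    set w : ℝ := π * T / Real.sqrt u with hw
    have hw0 : 0 ≤ w := by positivity
    have huw2 : u * w ^ 2 = π ^ 2 * T ^ 2 := by
      rw [hw, div_pow, Real.sq_sqrt hu0.le]; field_simp
    have hsq1 : 1 / 8 ≤ Real.sqrt u := by
      apply Real.le_sqrt_of_sq_le; norm_num; linarith
    have hsq2 : Real.sqrt u ≤ 8 := by
      rw [Real.sqrt_le_left (by norm_num)]; norm_num; exact hu2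
    have hwle : w ≤ 8 * π * T := by
      rw [hw, div_le_iff₀ hs]
      have hpi := Real.pi_pos
      have : 0 ≤ π * T := by positivity
      nlinarith
    have huw : u * w ≤ 8 * π * T := by
      have e : u * w = π * T * Real.sqrt u := by
        rw [hw]
        have := Real.mul_self_sqrt hu0.le
        field_simp
        rw [sq, this]
        ring
      rw [e]
      have : 0 ≤ π * T := by positivity
      nlinarith
    have huw0 : 0 ≤ u * w := by positivity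
    have key : A u * EE T u + Complex.I * (((1 + T)⁻¹ : ℝ) : ℂ) *
      (-(((4 * π ^ 2)⁻¹ : ℝ) : ℂ) * (4 * ((u : ℝ) : ℂ) * (EE T u * (deriv (deriv A) u
      + 2 * deriv A u * (((w : ℝ) : ℂ) * Complex.I)
      - A u * (((w) ^ 2 : ℝ) : ℂ)
      - A u * (((w / (2 * u) : ℝ) : ℂ) * Complex.I)))
        + 6 * ((deriv A u + A u * (((w : ℝ) : ℂ) * Complex.I)) * EE T u))
        - ((T ^ 2 : ℝ) : ℂ) * (A u * EE T u))
      = EE T u * (A u - Complex.I * (((1 + T)⁻¹ * (4 * π ^ 2)⁻¹ : ℝ) : ℂ) *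
        (((4 * u : ℝ) : ℂ) * deriv (deriv A) u + ((8 * (u * w) : ℝ) : ℂ) * Complex.I * deriv A u
          + 6 * deriv A u + ((4 * w : ℝ) : ℂ) * Complex.I * A u)) := by
      have e1 : ((u * w ^ 2 : ℝ) : ℂ) = ((π ^ 2 * T ^ 2 : ℝ) : ℂ) := by rw [huw2]
      have e2 : (((4 * π ^ 2)⁻¹ : ℝ) : ℂ) * ((π ^ 2 : ℝ) : ℂ) * 4 = 1 := by
        rw [← Complex.ofReal_mul]
        have : ((4 * π ^ 2)⁻¹ * π ^ 2 : ℝ) = 1 / 4 := by
          have := Real.pi_ne_zero
          field_simp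
        rw [this]; norm_num
      have e3 : (((w / (2 * u) : ℝ) : ℂ)) * ((u : ℝ) : ℂ) = ((w : ℝ) : ℂ) / 2 := by
        rw [← Complex.ofReal_mul]
        have : w / (2 * u) * u = w / 2 := by field_simp
        rw [this]; push_cast; ring
      push_cast at e1 e2 e3 ⊢
      set P : ℂ := (4 * (π:ℂ) ^ 2)⁻¹
      set Q : ℂ := (1 + (T:ℂ))⁻¹
      linear_combination (4 * A u * EE T u * Complex.I * Q * P) * e1 +
        (Complex.I * Q * (T:ℂ) ^ 2 * A u * EE T u) * e2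
        + (4 * EE T u * A u * Complex.I * Q * P * Complex.I) * e3
    refine (le_of_eq (congrArg _ key)).trans ?_
    rw [norm_mul, norm_EE, one_mul]
    have h0 := h.b0 u
    have h1 := h.b1 u
    have h2 := h.b2 u
    have hpi : (9:ℝ) ≤ π ^ 2 := by nlinarith [Real.pi_gt_three]
    have hpi2 : π < 3.15 := Real.pi_lt_d2
    have hpi0 := Real.pi_pos
    have t1 : ‖((4 * u : ℝ) : ℂ) * deriv (deriv A) u‖ ≤ 256 * M := by
      rw [norm_mul, Complex.norm_real, Real.norm_of_nonneg (by positivity)]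
      calc 4 * u * ‖deriv (deriv A) u‖ ≤ 4 * 64 * M := by gcongr
        _ = _ := by ring
    have t2 : ‖((8 * (u * w) : ℝ) : ℂ) * Complex.I * deriv A u‖ ≤ 64 * π * T * M := by
      rw [norm_mul, norm_mul, Complex.norm_real, Real.norm_of_nonneg (by positivity),
        Complex.norm_I, mul_one]
      calc 8 * (u * w) * ‖deriv A u‖ ≤ 8 * (8 * π * T) * M := by gcongr
        _ = _ := by ring
    have t3 : ‖6 * deriv A u‖ ≤ 6 * M := by
      rw [norm_mul]
      simp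
      exact h1
    have t4 : ‖((4 * w : ℝ) : ℂ) * Complex.I * A u‖ ≤ 32 * π * T * M := by
      rw [norm_mul, norm_mul, Complex.norm_real, Real.norm_of_nonneg (by positivity),
        Complex.norm_I, mul_one]
      calc 4 * w * ‖A u‖ ≤ 4 * (8 * π * T) * M := by gcongr
        _ = _ := by ring
    have t5 : ‖((4 * u : ℝ) : ℂ) * deriv (deriv A) u + ((8 * (u * w) : ℝ) : ℂ) * Complex.I *
        deriv A u + 6 * deriv A u + ((4 * w : ℝ) : ℂ) * Complex.I * A u‖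
        ≤ 324 * (1 + T) * M := by
      refine (norm_add_le _ _).trans ?_
      refine (add_le_add_left (norm_add_le _ _) _).trans ?_
      refine (add_le_add_left (add_le_add_left (norm_add_le _ _) _) _).trans ?_
      have hTM : 0 ≤ T * M := by positivity
      nlinarith
    have t6 : ‖Complex.I * (((1 + T)⁻¹ * (4 * π ^ 2)⁻¹ : ℝ) : ℂ) *
        (((4 * u : ℝ) : ℂ) * deriv (deriv A) u + ((8 * (u * w) : ℝ) : ℂ) * Complex.I * deriv A u
          + 6 * deriv A u + ((4 * w : ℝ) : ℂ) * Complex.I * A u)‖ ≤ 9 * M := by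
      rw [norm_mul, norm_mul, Complex.norm_I, one_mul, Complex.norm_real,
        Real.norm_of_nonneg (by positivity)]
      calc (1 + T)⁻¹ * (4 * π ^ 2)⁻¹ * ‖((4 * u : ℝ) : ℂ) * deriv (deriv A) u +
            ((8 * (u * w) : ℝ) : ℂ) * Complex.I * deriv A u
            + 6 * deriv A u + ((4 * w : ℝ) : ℂ) * Complex.I * A u‖
          ≤ (1 + T)⁻¹ * (4 * 9)⁻¹ * (324 * (1 + T) * M) := by gcongr
        _ = 9 * M := by field_simp; norm_num
    refine (norm_sub_le _ _).trans ?_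
    linarith

/-- **radial kernel bound**. -/
theorem Pf.L1 {A : ℝ → ℂ} {M : ℝ} (h : Pf A M) {T : ℝ} (hT : 0 ≤ T) :
    ∫⁻ x, ‖𝓕⁻ (rs (osc T A)) x‖ₑ ≤ ENNReal.ofReal (10000 * (1 + T) * M) := by
  have hM := h.nonneg
  have := L1_of_wS (h.osc_sm T) (h.osc_comp T) hT (by positivity : 0 ≤ 10 * M)
    (fun ξ => h.wS_le hT ξ) (by
      intro ξ hξ
      have hev : osc T A =ᶠ[𝓝 (‖ξ‖ ^ 2)] fun _ => 0 := by
        filter_upwards [Ioi_mem_nhds hξ] with v hv
        unfold osc; rw [h.hi v hv, zero_mul]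
      have hev1 : deriv (osc T A) =ᶠ[𝓝 (‖ξ‖ ^ 2)] fun _ => 0 := by
        have := hev.deriv
        simpa using this
      have hev2 := hev1.deriv.eq_of_nhds
      rw [wS_apply, hev.eq_of_nhds, hev1.eq_of_nhds, hev2]
      simp)
  refine this.trans (le_of_eq ?_)
  congr 1
  ring

end Crest.Agent.R116.Sh927
end

-- ▼ part R116/Wk4_927
section

/-!
R116, outer shell (4): scaling of kernels and the `L²` bound of convolution with the inverse
transform of a Schwartz symbol, on bounded functions.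
-/

set_option autoImplicit false

open MeasureTheory FourierTransform LineDeriv Set Filter
open scoped ContDiff Real SchwartzMap ENNReal Convolution Topology

namespace Crest.Agent.R116.Sh927

open Crest.Agent.R138.Fr665 (cv)
open Crest.Agent.R138.Sh200

theorem fourierInv_dil (m : V → ℂ) {R : ℝ} (hR : 0 < R) (x : V) :
    𝓕⁻ (fun ξ : V => m (R⁻¹ • ξ)) x = ((R ^ 3 : ℝ) : ℂ) * 𝓕⁻ m (R • x) := by
  rw [Real.fourierInv_eq, Real.fourierInv_eq]
  have h := Measure.integral_comp_inv_smul_of_nonneg (volume : Measure V)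
    (fun η : V => (𝐞 (inner ℝ η (R • x))) • m η) hR.le
  rw [finrank_euclideanSpace_fin] at h
  have e : (∫ ξ : V, (𝐞 (inner ℝ ξ x)) • m (R⁻¹ • ξ))
      = ∫ ξ : V, (𝐞 (inner ℝ (R⁻¹ • ξ) (R • x))) • m (R⁻¹ • ξ) := by
    congr 1
    funext ξ
    rw [inner_smul_left, inner_smul_right]
    simp only [RCLike.conj_to_real]
    rw [← mul_assoc, inv_mul_cancel₀ hR.ne', one_mul]
  rw [e, h, Complex.real_smul]

theorem lint_dil (m : V → ℂ) {R : ℝ} (hR : 0 < R) :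
    ∫⁻ x, ‖𝓕⁻ (fun ξ : V => m (R⁻¹ • ξ)) x‖ₑ = ∫⁻ x, ‖𝓕⁻ m x‖ₑ := by
  simp_rw [fourierInv_dil m hR, enorm_mul]
  rw [lintegral_const_mul' _ _ (by simp)]
  have h1 : ∫⁻ x : V, ‖𝓕⁻ m (R • x)‖ₑ = ENNReal.ofReal (R ^ 3)⁻¹ * ∫⁻ x, ‖𝓕⁻ m x‖ₑ := by
    have h2 := Measure.map_addHaar_smul (volume : Measure V) hR.ne'
    rw [finrank_euclideanSpace_fin, abs_of_pos (by positivity)] at h2
    have h3 : ∫⁻ x, ‖𝓕⁻ m x‖ₑ ∂(Measure.map (R • · : V → V) volume)
        = ∫⁻ x : V, ‖𝓕⁻ m (R • x)‖ₑ := by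
      have := lintegral_map_equiv (μ := (volume : Measure V)) (fun x => ‖𝓕⁻ m x‖ₑ)
        (Homeomorph.smulOfNeZero R hR.ne').toMeasurableEquiv
      simpa using this
    rw [← h3, h2, lintegral_smul_measure, smul_eq_mul]
  rw [h1, ← mul_assoc]
  have h4 : ‖((R ^ 3 : ℝ) : ℂ)‖ₑ = ENNReal.ofReal (R ^ 3) := by
    rw [← ofReal_norm, Complex.norm_real, Real.norm_of_nonneg (by positivity)]
  rw [h4, ← ENNReal.ofReal_mul (by positivity), mul_inv_cancel₀ (by positivity),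
    ENNReal.ofReal_one, one_mul]

section symbol

variable (m : 𝓢(V, ℂ))

/-- the kernel of a Schwartz symbol. -/
noncomputable def ker : V → ℂ := 𝓕⁻ (m : V → ℂ)

theorem ker_coe : ker m = ((𝓕⁻ m : 𝓢(V, ℂ)) : V → ℂ) := by
  unfold ker
  rw [SchwartzMap.fourierInv_coe]

theorem integrable_ker : Integrable (ker m) := by
  rw [ker_coe]; exact (𝓕⁻ m).integrable

theorem continuous_ker : Continuous (ker m) := by
  rw [ker_coe]; exact (𝓕⁻ m).continuous

theorem measurable_ker : Measurable (ker m) := (continuous_ker m).measurable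

theorem cv_ker_schwartz (g : 𝓢(V, ℂ)) (x : V) :
    cv (ker m) g x = (𝓕⁻ (SchwartzMap.pairing (ContinuousLinearMap.mul ℂ ℂ) m (𝓕 g))) x := by
  have h0 : SchwartzMap.convolution (ContinuousLinearMap.mul ℂ ℂ) (𝓕⁻ m) g x
      = cv (ker m) g x := by
    rw [SchwartzMap.convolution_apply, convolution_eq_swap]
    unfold Crest.Agent.R138.Fr665.cv
    rw [ker_coe]
    rfl
  rw [← h0]
  have h1 : SchwartzMap.convolution (ContinuousLinearMap.mul ℂ ℂ) (𝓕⁻ m) g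
      = 𝓕⁻ (SchwartzMap.pairing (ContinuousLinearMap.mul ℂ ℂ) m (𝓕 g)) := by
    have h2 : 𝓕 (𝓕⁻ m) = m := FourierTransform.fourier_fourierInv_eq _
    nth_rw 2 [← h2]
    rfl
  rw [h1]


variable {m}

theorem l2_ker_schwartz {C : ℝ} (hC0 : 0 ≤ C) (hC : ∀ ξ, ‖m ξ‖ ≤ C) (g : 𝓢(V, ℂ)) :
    ∫⁻ x, ENNReal.ofReal (‖cv (ker m) g x‖ ^ 2)
      ≤ ENNReal.ofReal (C ^ 2) * ∫⁻ x, ENNReal.ofReal (‖g x‖ ^ 2) := by
  set P := SchwartzMap.pairing (ContinuousLinearMap.mul ℂ ℂ) m (𝓕 g) with hP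
  have h1 : ∀ x, cv (ker m) g x = (𝓕⁻ P) x := fun x => cv_ker_schwartz m g x
  simp_rw [h1]
  rw [lint_sq_fourierInv]
  have h2 : ∫⁻ x, ENNReal.ofReal (‖(𝓕 g) x‖ ^ 2) = ∫⁻ x, ENNReal.ofReal (‖g x‖ ^ 2) := by
    rw [← lint_sq_fourierInv, FourierTransform.fourierInv_fourier_eq]
  rw [← h2, ← lintegral_const_mul' _ _ ENNReal.ofReal_ne_top]
  refine lintegral_mono fun x => ?_
  rw [← ENNReal.ofReal_mul (by positivity)]
  apply ENNReal.ofReal_le_ofReal
  have h3 : P x = m x * (𝓕 g) x := rfl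
  rw [h3, norm_mul, mul_pow]
  gcongr
  exact hC _

theorem l2_ker_schwartz' {C : ℝ} (hC0 : 0 ≤ C) (hC : ∀ ξ, ‖m ξ‖ ≤ C) (g : 𝓢(V, ℂ)) :
    eLpNorm (cv (ker m) g) 2 volume ≤ ENNReal.ofReal C * eLpNorm g 2 volume := by
  have h1 := l2_ker_schwartz hC0 hC g
  have e : ∀ h : V → ℂ, ∫⁻ x, ENNReal.ofReal (‖h x‖ ^ 2) = (eLpNorm h 2 volume) ^ (2:ℝ) := by
    intro h
    have := lint_eq_eLpNorm (p := 2) two_pos h
    rw [ENNReal.ofReal_ofNat] at this
    rw [← this]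
    refine lintegral_congr fun x => ?_
    norm_num
  rw [e, e, show ENNReal.ofReal (C ^ 2) = (ENNReal.ofReal C) ^ (2:ℝ) by
    rw [ENNReal.ofReal_rpow_of_nonneg hC0 (by norm_num)]; norm_num,
    ← ENNReal.mul_rpow_of_nonneg _ _ (by norm_num)] at h1
  exact (ENNReal.rpow_le_rpow_iff (by norm_num : (0:ℝ) < 2)).mp h1

/-- `L²` bound on bounded square integrable functions. -/
theorem l2_ker {C : ℝ} (hC0 : 0 ≤ C) (hC : ∀ ξ, ‖m ξ‖ ≤ C) {f : V → ℂ} (hf : BM f)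
    (hf2 : MemLp f 2 volume) :
    eLpNorm (cv (ker m) f) 2 volume ≤ ENNReal.ofReal C * eLpNorm f 2 volume := by
  have hKi := integrable_ker m
  have hKm : Measurable (ker m) := measurable_ker m
  have hK2 : eLpNorm (ker m) 2 volume ≠ ⊤ := by
    rw [ker_coe]
    exact ((𝓕⁻ m).eLpNorm_lt_top 2 volume).ne
  have hex : ∀ n : ℕ, ∃ G : V → ℂ, BM G ∧ eLpNorm (f - G) 2 volume
      ≤ ENNReal.ofReal (1 / ((n:ℝ) + 1)) ∧
      eLpNorm (cv (ker m) G) 2 volume ≤ ENNReal.ofReal C * eLpNorm G 2 volume := by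
    intro n
    obtain ⟨g, hg1, hg2, hg3⟩ := MemLp.exist_eLpNorm_sub_le (p := 2) (by norm_num) (by norm_num) hf2
      (ε := 1 / ((n:ℝ) + 1)) (by positivity)
    obtain ⟨B, hB⟩ := hg2.continuous.bounded_above_of_compact_support hg1
    exact ⟨g, ⟨hg2.continuous.measurable, B, hB⟩, hg3,
      l2_ker_schwartz' hC0 hC (hg1.toSchwartzMap hg2)⟩
  choose g hbg hg hg2 using hex
  have hlim0 : Tendsto (fun n : ℕ => ENNReal.ofReal (1 / ((n:ℝ) + 1))) atTop (𝓝 0) := by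
    have := ENNReal.tendsto_ofReal tendsto_one_div_add_atTop_nhds_zero_nat
    simpa using this
  have hpt : ∀ x, Tendsto (fun n => cv (ker m) (g n) x) atTop (𝓝 (cv (ker m) f x)) := by
    intro x
    rw [tendsto_iff_edist_tendsto_0]
    have h1 : Tendsto (fun n : ℕ => eLpNorm (ker m) 2 volume * ENNReal.ofReal (1 / ((n:ℝ) + 1)))
        atTop (𝓝 0) := by
      have := ENNReal.Tendsto.const_mul hlim0 (Or.inr hK2)
      simpa using this
    refine tendsto_of_tendsto_of_tendsto_of_le_of_le tendsto_const_nhds h1 (fun n => bot_le)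
      (fun n => ?_)
    rw [edist_comm, edist_eq_enorm_sub]
    refine (enorm_cv_sub_le hKm hf.meas (hbg n).meas (fun x => integrable_cv hKi hf x)
      (fun x => integrable_cv hKi (hbg n) x) x).trans ?_
    gcongr
    exact hg n
  have h1 := Lp.eLpNorm_lim_le_liminf_eLpNorm (μ := (volume : Measure V)) (p := 2)
    (f := fun n => cv (ker m) (g n))
    (fun n => (measurable_cv hKm (hbg n).meas).aestronglyMeasurable) (cv (ker m) f)
    (Filter.Eventually.of_forall hpt)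
  refine h1.trans ?_
  have h2 : ∀ n, eLpNorm (cv (ker m) (g n)) 2 volume
      ≤ ENNReal.ofReal C * (eLpNorm f 2 volume + ENNReal.ofReal (1 / ((n:ℝ) + 1))) := by
    intro n
    refine (hg2 n).trans ?_
    gcongr
    calc eLpNorm (g n) 2 volume = eLpNorm (f - (f - g n)) 2 volume := by
          congr 1; funext x; simp
      _ ≤ eLpNorm f 2 volume + eLpNorm (f - g n) 2 volume :=
          eLpNorm_sub_le hf.meas.aestronglyMeasurable
            (hf.meas.sub (hbg n).meas).aestronglyMeasurable (by norm_num)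
      _ ≤ _ := by gcongr; exact hg n
  have h3 : Tendsto (fun n : ℕ => ENNReal.ofReal C *
      (eLpNorm f 2 volume + ENNReal.ofReal (1 / ((n:ℝ) + 1)))) atTop
      (𝓝 (ENNReal.ofReal C * eLpNorm f 2 volume)) := by
    have h4 := (tendsto_const_nhds (x := eLpNorm f 2 (volume : Measure V))).add hlim0
    rw [add_zero] at h4
    exact ENNReal.Tendsto.const_mul h4 (Or.inr ENNReal.ofReal_ne_top)
  rw [← h3.liminf_eq]
  exact liminf_le_liminf (Filter.Eventually.of_forall h2)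

theorem lint2_ker {C : ℝ} (hC0 : 0 < C) (hC : ∀ ξ, ‖m ξ‖ ≤ C) {f : V → ℂ} (hf : BM f) :
    ∫⁻ x, ENNReal.ofReal (‖cv (ker m) f x‖ ^ (2:ℝ))
      ≤ ENNReal.ofReal (C ^ (2:ℝ)) * ∫⁻ x, ENNReal.ofReal (‖f x‖ ^ (2:ℝ)) := by
  have e : ∀ h : V → ℂ, ∫⁻ x, ENNReal.ofReal (‖h x‖ ^ (2:ℝ)) = (eLpNorm h 2 volume) ^ (2:ℝ) := by
    intro h
    have := lint_eq_eLpNorm (p := 2) two_pos h
    rwa [ENNReal.ofReal_ofNat] at this
  rw [e, e]
  by_cases htop : eLpNorm f 2 volume = ⊤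
  · rw [htop, ENNReal.top_rpow_of_pos (by norm_num), ENNReal.mul_top]
    · exact le_top
    · rw [Ne, ENNReal.ofReal_eq_zero, not_le]; positivity
  · have h1 := l2_ker hC0.le hC hf ⟨hf.meas.aestronglyMeasurable, lt_top_iff_ne_top.mpr htop⟩
    rw [← ENNReal.ofReal_rpow_of_nonneg hC0.le (by norm_num),
      ← ENNReal.mul_rpow_of_nonneg _ _ (by norm_num)]
    exact ENNReal.rpow_le_rpow h1 (by norm_num)

end symbol

end Crest.Agent.R116.Sh927
end

-- ▼ part R116/Wk5_927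
section

/-!
R116, outer shell (5): the cut-off, the half-wave kernel at scale `R`, its `L¹` bound and joint
continuity.
-/

set_option autoImplicit false

open MeasureTheory FourierTransform LineDeriv Set Filter
open scoped ContDiff Real SchwartzMap ENNReal Convolution Topology

namespace Crest.Agent.R116.Sh927

open Crest.Agent.R138.Fr665 (cv)
open Crest.Agent.R138.Sh200

/-- the dyadic cut-off as a function of `u = r²`, supported in `[1/4, 2]`. -/
noncomputable def chi (u : ℝ) : ℝ := bet u - bet (4 * u)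

theorem contDiff_chi : ContDiff ℝ ∞ chi := by
  unfold chi
  exact contDiff_bet.sub (contDiff_bet.comp (contDiff_const.mul contDiff_id))

theorem chi_lo {u : ℝ} (h : u < 1 / 4) : chi u = 0 := by
  unfold chi; rw [bet_one (by linarith), bet_one (by linarith), sub_self]

theorem chi_hi {u : ℝ} (h : 2 < u) : chi u = 0 := by
  unfold chi; rw [bet_zero (by linarith), bet_zero (by linarith), sub_self]

theorem abs_chi_le (u : ℝ) : |chi u| ≤ 1 := by
  unfold chi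
  have h1 := bet_nonneg u
  have h2 := bet_le_one u
  have h3 := bet_nonneg (4 * u)
  have h4 := bet_le_one (4 * u)
  rw [abs_le]; constructor <;> linarith

/-- the cut-off as a function of `r`. -/
noncomputable def phi0 (r : ℝ) : ℝ := if r < 0 then 0 else chi (r ^ 2)

theorem phi0_of_nonneg {r : ℝ} (h : 0 ≤ r) : phi0 r = chi (r ^ 2) := if_neg (not_lt.mpr h)

theorem phi0_lo (r : ℝ) (h : r < 1 / 2) : phi0 r = 0 := by
  unfold phi0
  split_ifs with h0
  · rfl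
  · push Not at h0
    exact chi_lo (by nlinarith)

theorem phi0_hi (r : ℝ) (h : 2 < r) : phi0 r = 0 := by
  unfold phi0
  split_ifs with h0
  · rfl
  · exact chi_hi (by nlinarith)

theorem contDiff_phi0 : ContDiff ℝ ∞ phi0 := by
  rw [contDiff_iff_contDiffAt]
  intro r
  by_cases h : r < 1 / 2
  · have : phi0 =ᶠ[𝓝 r] fun _ => 0 := by
      filter_upwards [Iio_mem_nhds h] with v hv
      exact phi0_lo v hv
    exact contDiffAt_const.congr_of_eventuallyEq this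
  · push Not at h
    have : phi0 =ᶠ[𝓝 r] fun r => chi (r ^ 2) := by
      filter_upwards [Ioi_mem_nhds (show (0:ℝ) < r by linarith)] with v hv
      exact phi0_of_nonneg (le_of_lt hv)
    exact (contDiff_chi.comp (contDiff_id.pow 2)).contDiffAt.congr_of_eventuallyEq this

/-- the complex cut-off at scale `R`. -/
noncomputable def AR (R : ℝ) (u : ℝ) : ℂ := ((chi (u / R ^ 2) : ℝ) : ℂ)

theorem contDiff_AR (R : ℝ) : ContDiff ℝ ∞ (AR R) := by
  unfold AR
  exact Complex.ofRealCLM.contDiff.comp (contDiff_chi.comp (contDiff_id.div_const _))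

theorem AR_lo {R : ℝ} (hR : 0 < R) (u : ℝ) (h : u < R ^ 2 / 4) : AR R u = 0 := by
  unfold AR
  rw [chi_lo]; · simp
  rw [div_lt_iff₀ (by positivity)]; linarith

theorem AR_hi {R : ℝ} (hR : 0 < R) (u : ℝ) (h : 2 * R ^ 2 < u) : AR R u = 0 := by
  unfold AR
  rw [chi_hi]; · simp
  rw [lt_div_iff₀ (by positivity)]; linarith

theorem comp_AR {R : ℝ} (hR : 0 < R) : HasCompactSupport (AR R) := by
  refine HasCompactSupport.intro (isCompact_Icc (a := R ^ 2 / 4) (b := 2 * R ^ 2)) fun u hu => ?_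
  rw [mem_Icc, not_and_or, not_le, not_le] at hu
  rcases hu with hu | hu
  · exact AR_lo hR u hu
  · exact AR_hi hR u hu

/-- a smooth profile with the right support is a `Pf`. -/
theorem exists_Pf {A : ℝ → ℂ} (hA : ContDiff ℝ ∞ A) (lo : ∀ u, u < 1 / 64 → A u = 0)
    (hi : ∀ u, 64 < u → A u = 0) : ∃ M : ℝ, Pf A M := by
  have hc : HasCompactSupport A := by
    refine HasCompactSupport.intro (isCompact_Icc (a := (1/64:ℝ)) (b := 64)) fun u hu => ?_
    rw [mem_Icc, not_and_or, not_le, not_le] at hu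
    rcases hu with hu | hu
    · exact lo u hu
    · exact hi u hu
  have hA1 : ContDiff ℝ ∞ (deriv A) := (contDiff_infty_iff_deriv.mp hA).2
  have hA2 : ContDiff ℝ ∞ (deriv (deriv A)) := (contDiff_infty_iff_deriv.mp hA1).2
  obtain ⟨C0, h0⟩ := hA.continuous.bounded_above_of_compact_support hc
  obtain ⟨C1, h1⟩ := hA1.continuous.bounded_above_of_compact_support hc.deriv
  obtain ⟨C2, h2⟩ := hA2.continuous.bounded_above_of_compact_support hc.deriv.deriv
  exact ⟨max C0 (max C1 C2), hA, lo, hi, fun u => (h0 u).trans (le_max_left _ _),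
    fun u => (h1 u).trans ((le_max_left _ _).trans (le_max_right _ _)),
    fun u => (h2 u).trans ((le_max_right _ _).trans (le_max_right _ _))⟩

/-- the half-wave symbol as a Schwartz function. -/
noncomputable def mT {R : ℝ} (hR : 0 < R) (t : ℝ) : 𝓢(V, ℂ) :=
  rS (contDiff_osc (contDiff_AR R) (by positivity : 0 < R ^ 2 / 4) (AR_lo hR) t)
    (hasCompactSupport_osc (comp_AR hR) t)

theorem mT_apply {R : ℝ} (hR : 0 < R) (t : ℝ) (ξ : V) : mT hR t ξ = mW phi0 R t ξ := by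
  unfold mT
  rw [rS_apply]
  unfold osc AR EE mW
  rw [phi0_of_nonneg (by positivity), Real.sqrt_sq (norm_nonneg _), div_pow]

theorem mT_coe {R : ℝ} (hR : 0 < R) (t : ℝ) : (mT hR t : V → ℂ) = mW phi0 R t :=
  funext fun ξ => mT_apply hR t ξ

theorem ker_mT {R : ℝ} (hR : 0 < R) (t : ℝ) : ker (mT hR t) = KW phi0 R t := by
  unfold ker KW
  rw [mT_coe]

theorem norm_mT_le {R : ℝ} (hR : 0 < R) (t : ℝ) (ξ : V) : ‖mT hR t ξ‖ ≤ 1 := by
  unfold mT
  rw [rS_apply]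
  unfold osc AR
  rw [norm_mul, norm_EE, mul_one, Complex.norm_real]
  exact abs_chi_le _

/-- `‖KW‖₁ ≤ C R`. -/
theorem kernel_L1 : ∃ A : ℝ, 0 < A ∧ ∀ R t : ℝ, 1 ≤ R → 0 ≤ t → t ≤ 2 →
    ∫⁻ x, ‖KW phi0 R t x‖ₑ ≤ ENNReal.ofReal (A * R) := by
  obtain ⟨M, hM⟩ := exists_Pf (contDiff_AR 1)
    (fun u hu => AR_lo one_pos u (by norm_num; linarith))
    (fun u hu => AR_hi one_pos u (by norm_num; linarith))
  refine ⟨30000 * M + 1, by have := hM.nonneg; positivity, fun R t hR ht0 ht2 => ?_⟩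
  have hR0 : 0 < R := by linarith
  have e : mW phi0 R t = fun ξ : V => rs (osc (t * R) (AR 1)) (R⁻¹ • ξ) := by
    funext ξ
    unfold rs osc AR EE mW
    rw [phi0_of_nonneg (by positivity), norm_smul, norm_inv, Real.norm_of_nonneg hR0.le,
      Real.sqrt_sq (by positivity)]
    congr 3
    · congr 1
      field_simp
    · field_simp
  unfold KW
  rw [e, lint_dil _ hR0]
  refine (hM.L1 (by positivity)).trans (ENNReal.ofReal_le_ofReal ?_)
  have hM0 := hM.nonneg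
  have : 1 + t * R ≤ 3 * R := by nlinarith
  calc 10000 * (1 + t * R) * M ≤ 10000 * (3 * R) * M := by gcongr
    _ ≤ _ := by nlinarith

/-- joint continuity of the inverse transform of a family of symbols. -/
theorem continuous_fam {σ : ℝ → V → ℂ} {b : V → ℝ} (hb : Integrable b)
    (hm : ∀ t, AEStronglyMeasurable (σ t) volume) (hle : ∀ t ξ, ‖σ t ξ‖ ≤ b ξ)
    (hc : ∀ ξ, Continuous fun t => σ t ξ) :
    Continuous fun z : V × ℝ => 𝓕⁻ (σ z.2) z.1 := by
  simp_rw [Real.fourierInv_eq]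
  refine continuous_of_dominated (bound := b) ?_ ?_ hb ?_
  · intro z
    have h2 : Continuous fun ξ : V => (𝐞 (inner ℝ ξ z.1)) := by
      have := Real.continuous_fourierChar
      fun_prop
    exact h2.aestronglyMeasurable.smul (hm z.2)
  · intro z
    refine Filter.Eventually.of_forall fun ξ => ?_
    rw [Circle.norm_smul]
    exact hle _ _
  · refine Filter.Eventually.of_forall fun ξ => ?_
    have h2 : Continuous fun z : V × ℝ => (𝐞 (inner ℝ ξ z.1)) := by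
      have := Real.continuous_fourierChar
      fun_prop
    exact h2.smul ((hc ξ).comp continuous_snd)

theorem continuous_mW (R t : ℝ) : Continuous (mW phi0 R t) := by
  unfold mW
  have h1 := contDiff_phi0.continuous
  fun_prop

theorem continuous_KW {R : ℝ} (hR : 0 < R) : Continuous fun z : V × ℝ => KW phi0 R z.2 z.1 := by
  unfold KW
  have hI : Integrable fun ξ : V => ‖mT hR 0 ξ‖ := (mT hR 0).integrable.norm
  refine continuous_fam hI (fun t => (continuous_mW R t).aestronglyMeasurable) (fun t ξ => ?_)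
    (fun ξ => ?_)
  · rw [mT_apply]
    unfold mW
    rw [norm_mul, norm_mul, Complex.norm_exp_ofReal_mul_I, Complex.norm_exp_ofReal_mul_I]
  · unfold mW
    fun_prop

end Crest.Agent.R116.Sh927
end

-- ▼ part R116/Wk6_927
section

/-!
R116, outer shell (6): the space-time operator and the interpolated bound for `2 ≤ p < ∞` from
`(C3w)`.
-/

set_option autoImplicit false

open MeasureTheory FourierTransform LineDeriv Set Filter
open scoped ContDiff Real SchwartzMap ENNReal Convolution Topology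

namespace Crest.Agent.R116.Sh927

open Crest.Agent.R138.Fr665 (cv)
open Crest.Agent.R138.Sh200

/-- the measure of the slab. -/
noncomputable def nu : Measure (V × ℝ) := (volume : Measure V).prod (volume.restrict (Icc (1:ℝ) 2))

instance : SFinite nu := by unfold nu; infer_instance

/-- the auxiliary measure on the disjoint union. -/
noncomputable def mu : Measure (V ⊕ (V × ℝ)) :=
  (volume : Measure V).map Sum.inl + nu.map Sum.inr

instance : SFinite mu := by unfold mu; infer_instance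

theorem me_inl : MeasurableEmbedding (Sum.inl : V → V ⊕ (V × ℝ)) :=
  ⟨Sum.inl_injective, measurable_inl, fun _ hs => measurableSet_inl_image.mpr hs⟩

theorem me_inr : MeasurableEmbedding (Sum.inr : V × ℝ → V ⊕ (V × ℝ)) :=
  ⟨Sum.inr_injective, measurable_inr, fun _ hs => measurableSet_inr_image.mpr hs⟩

theorem lint_mu (F : V ⊕ (V × ℝ) → ℝ≥0∞) :
    ∫⁻ a, F a ∂mu = (∫⁻ x, F (Sum.inl x)) + ∫⁻ z, F (Sum.inr z) ∂nu := by
  unfold mu
  rw [lintegral_add_measure, me_inl.lintegral_map, me_inr.lintegral_map]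

theorem vol_le_mu {Ω : Set (V ⊕ (V × ℝ))} (hΩ : MeasurableSet Ω) :
    volume (Sum.inl ⁻¹' Ω : Set V) ≤ mu Ω := by
  unfold mu
  rw [Measure.add_apply, Measure.map_apply measurable_inl hΩ]
  exact le_self_add

/-- clipping to `[1,2]`. -/
noncomputable def cl (t : ℝ) : ℝ := max 1 (min t 2)

theorem cl_ge (t : ℝ) : 1 ≤ cl t := le_max_left _ _

theorem cl_le (t : ℝ) : cl t ≤ 2 := max_le (by norm_num) (min_le_right _ _)

theorem cl_eq {t : ℝ} (h : t ∈ Icc (1:ℝ) 2) : cl t = t := by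
  unfold cl
  rw [min_eq_left h.2, max_eq_right h.1]

theorem continuous_cl : Continuous cl := by unfold cl; fun_prop

/-- the operator on the disjoint union. -/
noncomputable def TT (R : ℝ) (f : V ⊕ (V × ℝ) → ℂ) : V ⊕ (V × ℝ) → ℂ :=
  Sum.elim (fun _ => 0) (fun z => cv (KW phi0 R (cl z.2)) (fun x => f (Sum.inl x)) z.1)

theorem bm_inl {f : V ⊕ (V × ℝ) → ℂ} (hf : BM f) : BM (fun x : V => f (Sum.inl x)) := by
  obtain ⟨C, hC⟩ := hf.bdd
  exact ⟨hf.meas.comp measurable_inl, C, fun x => hC _⟩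

theorem measurable_conv_gen {G : V × ℝ → ℂ} (hG : Continuous G) {g : ℝ → ℝ} (hg : Continuous g)
    {f : V → ℂ} (hf : Measurable f) :
    Measurable fun z : V × ℝ => ∫ y, G (z.1 - y, g z.2) * f y := by
  have hc : Continuous fun p : (V × ℝ) × V => G (p.1.1 - p.2, g p.1.2) := by fun_prop
  have h1 : StronglyMeasurable (fun p : (V × ℝ) × V => G (p.1.1 - p.2, g p.1.2) * f p.2) := by
    apply Measurable.stronglyMeasurable
    exact hc.measurable.mul (hf.comp measurable_snd)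
  exact (StronglyMeasurable.integral_prod_right' h1).measurable

theorem measurable_stcv {R : ℝ} (hR : 0 < R) {g : ℝ → ℝ} (hg : Continuous g) {f : V → ℂ}
    (hf : Measurable f) :
    Measurable fun z : V × ℝ => cv (KW phi0 R (g z.2)) f z.1 :=
  measurable_conv_gen (G := fun z => KW phi0 R z.2 z.1) (continuous_KW hR) hg hf

theorem measurable_TT {R : ℝ} (hR : 0 < R) {f : V ⊕ (V × ℝ) → ℂ} (hf : BM f) :
    Measurable (TT R f) := by
  unfold TT
  exact measurable_const.sumElim (measurable_stcv hR continuous_cl (bm_inl hf).meas)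

/-- integral over the slab as an iterated integral. -/
theorem lint_nu {F : V × ℝ → ℝ≥0∞} (hF : Measurable F) :
    ∫⁻ z, F z ∂nu = ∫⁻ t in Icc (1:ℝ) 2, ∫⁻ x, F (x, t) := by
  unfold nu
  rw [lintegral_prod_symm' _ hF]

theorem lint_nu_le {F : V × ℝ → ℝ≥0∞} (hF : Measurable F) {B : ℝ≥0∞}
    (h : ∀ t ∈ Icc (1:ℝ) 2, ∫⁻ x, F (x, t) ≤ B) : ∫⁻ z, F z ∂nu ≤ B := by
  rw [lint_nu hF]
  calc ∫⁻ t in Icc (1:ℝ) 2, ∫⁻ x, F (x, t) ≤ ∫⁻ _ in Icc (1:ℝ) 2, B :=
        setLIntegral_mono' measurableSet_Icc h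
    _ = B := by
        rw [setLIntegral_const, Real.volume_Icc]
        norm_num

theorem strong2_TT {R : ℝ} (hR : 0 < R) : Strong mu (TT R) 2 1 := by
  intro f hf
  rw [lint_mu, lint_mu]
  have hb := bm_inl hf
  have h0 : ∫⁻ x : V, ENNReal.ofReal (‖TT R f (Sum.inl x)‖ ^ (2:ℝ)) = 0 := by
    unfold TT
    simp
  rw [h0, zero_add, ENNReal.ofReal_one, one_mul]
  refine le_trans ?_ le_self_add
  have hmeas : Measurable fun z : V × ℝ => ENNReal.ofReal (‖TT R f (Sum.inr z)‖ ^ (2:ℝ)) :=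
    (((measurable_TT hR hf).comp measurable_inr).norm.pow_const _).ennreal_ofReal
  refine lint_nu_le hmeas fun t ht => ?_
  have h1 := lint2_ker (m := mT hR (cl t)) one_pos (norm_mT_le hR (cl t)) hb
  rw [ker_mT] at h1
  simpa [TT] using h1

theorem op_TT (h3 : C3p phi0) : ∃ A : ℝ, 0 < A ∧ ∀ ε : ℝ, 0 < ε → ∃ B : ℝ, 0 < B ∧ ∀ R : ℝ, 1 ≤ R →
    Op mu (TT R) (A * R) (B * R ^ ε) := by
  obtain ⟨A, hA, hKA⟩ := kernel_L1
  refine ⟨A, hA, fun ε hε => ?_⟩
  obtain ⟨B, hB⟩ := h3 ε hε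
  refine ⟨max B 1, by positivity, fun R hR => ?_⟩
  have hR0 : 0 < R := by linarith
  have hKi : ∀ t, Integrable (KW phi0 R t) := fun t => by
    rw [← ker_mT hR0]; exact integrable_ker _
  have hKm : ∀ t, Measurable (KW phi0 R t) := fun t => by
    rw [← ker_mT hR0]; exact measurable_ker _
  refine ⟨?_, ?_, fun f hf => measurable_TT hR0 hf, ?_, ?_⟩
  · intro f g hf hg x
    cases x with
    | inl x => simp [TT]
    | inr z => exact cv_add (hKi _) (bm_inl hf) (bm_inl hg) z.1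
  · intro c f _ x
    cases x with
    | inl x => simp [TT]
    | inr z => exact cv_smul _ c (fun x => f (Sum.inl x)) z.1
  · intro f C _ hC x
    cases x with
    | inl x =>
      have hC0 : 0 ≤ C := (norm_nonneg _).trans (hC (Sum.inl x))
      simp only [TT, Sum.elim_inl, norm_zero]
      positivity
    | inr z =>
      exact norm_cv_le (hKm _) (hKA R (cl z.2) hR (by linarith [cl_ge z.2]) (cl_le _))
        (by positivity) (fun x => hC (Sum.inl x)) z.1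
  · intro Ω hΩ hfin f hf hle
    rw [lint_mu]
    have h0 : ∫⁻ x : V, ENNReal.ofReal (‖TT R f (Sum.inl x)‖ ^ (3:ℝ)) = 0 := by
      unfold TT
      simp
    rw [h0, zero_add]
    have hbm : BM f := ⟨hf, 1, fun x => (hle x).trans (by
      by_cases hx : x ∈ Ω
      · rw [indicator_of_mem hx]
      · rw [indicator_of_notMem hx]; norm_num)⟩
    have hmeas : Measurable fun z : V × ℝ => ENNReal.ofReal (‖TT R f (Sum.inr z)‖ ^ (3:ℝ)) :=
      (((measurable_TT hR0 hbm).comp measurable_inr).norm.pow_const _).ennreal_ofReal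
    rw [lint_nu hmeas]
    have hv := vol_le_mu hΩ
    have h1 := hB R hR (Sum.inl ⁻¹' Ω) (hΩ.preimage measurable_inl)
      (ne_top_of_le_ne_top hfin hv) (fun x => f (Sum.inl x)) (hf.comp measurable_inl)
      (fun x => by
        have := hle (Sum.inl x)
        exact this)
    have h2 : ∫⁻ t in Icc (1:ℝ) 2, ∫⁻ x, ENNReal.ofReal (‖TT R f (Sum.inr (x, t))‖ ^ (3:ℝ))
        = ∫⁻ t in Icc (1:ℝ) 2, ∫⁻ x, ENNReal.ofReal
          (‖cv (KW phi0 R t) (fun x => f (Sum.inl x)) x‖ ^ (3:ℝ)) := by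
      refine setLIntegral_congr_fun measurableSet_Icc fun t ht => ?_
      simp only [TT, Sum.elim_inr]
      rw [cl_eq ht]
    rw [h2]
    refine h1.trans ?_
    gcongr
    exact le_max_left _ _

/-- **interpolated bound**, `2 ≤ p < ∞`. -/
theorem family_st (h3 : C3p phi0) {p : ℝ} (hp : 2 ≤ p) {ε : ℝ} (hε : 0 < ε) :
    ∃ C : ℝ, 0 < C ∧ ∀ R : ℝ, 1 ≤ R → ∀ f : V → ℂ, BM f →
      ∫⁻ z, ENNReal.ofReal (‖cv (KW phi0 R z.2) f z.1‖ ^ p) ∂nu
        ≤ ENNReal.ofReal (C * R ^ (max (p - 3) 0 + ε)) * ∫⁻ x, ENNReal.ofReal (‖f x‖ ^ p) := by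
  obtain ⟨A, hA, hop⟩ := op_TT h3
  obtain ⟨C, hC, h⟩ := interp_family (μ := mu) TT (M := 1) (A := A) zero_le_one hA
    (fun R hR => strong2_TT (by linarith)) hop hp hε
  refine ⟨C, hC, fun R hR f hf => ?_⟩
  have hR0 : 0 < R := by linarith
  have hp0 : p ≠ 0 := by linarith
  set g : V ⊕ (V × ℝ) → ℂ := Sum.elim f (fun _ => 0) with hg
  have hgb : BM g := by
    obtain ⟨D, hD⟩ := hf.bdd
    refine ⟨hf.meas.sumElim measurable_const, D, fun a => ?_⟩
    cases a with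
    | inl x => exact hD x
    | inr z => simpa [hg] using (norm_nonneg _).trans (hD 0)
  have h1 := h R hR g hgb
  rw [lint_mu, lint_mu] at h1
  have e1 : ∫⁻ x : V, ENNReal.ofReal (‖TT R g (Sum.inl x)‖ ^ p) = 0 := by
    unfold TT
    simp [Real.zero_rpow hp0]
  have e2 : ∫⁻ z, ENNReal.ofReal (‖g (Sum.inr z)‖ ^ p) ∂nu = 0 := by
    simp [hg, Real.zero_rpow hp0]
  rw [e1, e2, zero_add, add_zero] at h1
  have hmeas : Measurable fun z : V × ℝ => ENNReal.ofReal (‖TT R g (Sum.inr z)‖ ^ p) :=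
    (((measurable_TT hR0 hgb).comp measurable_inr).norm.pow_const _).ennreal_ofReal
  have hmeas2 : Measurable fun z : V × ℝ => ENNReal.ofReal (‖cv (KW phi0 R z.2) f z.1‖ ^ p) :=
    ((measurable_stcv hR0 continuous_id hf.meas).norm.pow_const _).ennreal_ofReal
  refine le_trans (le_of_eq ?_) h1
  rw [lint_nu hmeas, lint_nu hmeas2]
  refine setLIntegral_congr_fun measurableSet_Icc fun t ht => ?_
  simp only [TT, Sum.elim_inr, hg]
  rw [cl_eq ht]
  rfl

end Crest.Agent.R116.Sh927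
end

-- ▼ part R116/Sp2_927
section

/-!
R116, the front piece (S): `(C3w) ⇐ (GlobW)`.  Part 2: scaling and the end theorem.
-/

set_option autoImplicit false

open MeasureTheory Filter Topology
open scoped ENNReal FourierTransform ContDiff

noncomputable section

namespace Crest.Agent.R116.Sh927

open Crest.Agent.R138.Defs (E2 ee)
open Crest.Agent.R138.Fr665 (cv)
open Crest.Agent.R138.Fq665 (PR up exists_up_eq)
open Crest.Agent.R116.EB665 (Kt GlobW norm_Kt_le continuous_Kt contDiff_ee norm_ee)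

/-- dilation of a convolution. -/
theorem cv_dil (K f : V → ℂ) {L : ℝ} (hL : 0 < L) (x : V) :
    cv (fun v => ((L ^ 3 : ℝ) : ℂ) * K (L • v)) f x = cv K (fun y => f (L⁻¹ • y)) (L • x) := by
  unfold cv
  have h := Measure.integral_comp_smul_of_nonneg (volume : Measure V)
    (fun y : V => K (L • x - y) * f (L⁻¹ • y)) L (hR := hL.le)
  rw [finrank_euclideanSpace_fin] at h
  have h1 : ∫ y : V, K (L • x - y) * f (L⁻¹ • y) = (L ^ 3) • ∫ y : V, K (L • x - L • y) * f (L⁻¹ • L • y) := by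
    rw [h, smul_smul, mul_inv_cancel₀ (by positivity), one_smul]
  rw [h1, Complex.real_smul, ← integral_const_mul]
  refine integral_congr_ae (Eventually.of_forall fun y => ?_)
  simp only
  rw [smul_smul, inv_mul_cancel₀ hL.ne', one_smul, smul_sub, mul_assoc]

/-- dilation of a lower integral on `V`. -/
theorem lint_smul (F : V → ℝ≥0∞) {L : ℝ} (hL : 0 < L) :
    ∫⁻ x, F (L • x) = ENNReal.ofReal (L ^ 3)⁻¹ * ∫⁻ x, F x := by
  have h2 := Measure.map_addHaar_smul (volume : Measure V) hL.ne'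
  rw [finrank_euclideanSpace_fin, abs_of_pos (by positivity)] at h2
  have h3 : ∫⁻ x, F x ∂(Measure.map (L • · : V → V) volume) = ∫⁻ x : V, F (L • x) := by
    have := lintegral_map_equiv (μ := (volume : Measure V)) F
      (Homeomorph.smulOfNeZero L hL.ne').toMeasurableEquiv
    simpa using this
  rw [← h3, h2, lintegral_smul_measure, smul_eq_mul]

/-- dilation of a lower integral on `ℝ`. -/
theorem lint_mul (F : ℝ → ℝ≥0∞) {L : ℝ} (hL : 0 < L) :
    ∫⁻ t, F (L * t) = ENNReal.ofReal L⁻¹ * ∫⁻ t, F t := by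
  have h2 := Measure.map_addHaar_smul (volume : Measure ℝ) hL.ne'
  rw [Module.finrank_self, pow_one, abs_of_pos (by positivity)] at h2
  have h3 : ∫⁻ x, F x ∂(Measure.map (L • · : ℝ → ℝ) volume) = ∫⁻ x : ℝ, F (L • x) := by
    have := lintegral_map_equiv (μ := (volume : Measure ℝ)) F
      (Homeomorph.smulOfNeZero L hL.ne').toMeasurableEquiv
    simpa using this
  simp only [smul_eq_mul] at h3
  rw [← h3]
  simp only [smul_eq_mul] at h2
  rw [h2, lintegral_smul_measure, smul_eq_mul]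

/-- the window. -/
theorem lint_window (F : ℝ → ℝ≥0∞) {L : ℝ} (hL : 0 < L) :
    ∫⁻ t in Set.Icc (1 : ℝ) 2, F (L * t) ≤
      ENNReal.ofReal L⁻¹ * ∫⁻ s in Set.Icc (0 : ℝ) (2 * max L 1), F s := by
  rw [← lintegral_indicator measurableSet_Icc, ← lintegral_indicator measurableSet_Icc,
    ← lint_mul _ hL]
  refine lintegral_mono fun t => ?_
  by_cases ht : t ∈ Set.Icc (1 : ℝ) 2
  · rw [Set.indicator_of_mem ht, Set.indicator_of_mem]
    constructor
    · have := ht.1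
      positivity
    · have := ht.2
      have h2 := le_max_left L 1
      nlinarith
  · rw [Set.indicator_of_notMem ht]
    exact zero_le

/-- one piece after scaling. -/
theorem piece_le {a : V → ℂ} {L : ℝ} (hL : 0 < L) {B : ℝ≥0∞} {f : V → ℂ}
    (h : ∫⁻ s in Set.Icc (0 : ℝ) (2 * max L 1), ∫⁻ v, ‖cv (Kt a s) (fun y => f (L⁻¹ • y)) v‖ₑ ^ 3
      ≤ B) :
    ∫⁻ t in Set.Icc (1 : ℝ) 2, ∫⁻ x,
      ‖cv (fun v => ((L ^ 3 : ℝ) : ℂ) * Kt a (L * t) (L • v)) f x‖ₑ ^ 3 ≤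
        ENNReal.ofReal (L ^ 4)⁻¹ * B := by
  simp_rw [cv_dil _ _ hL]
  have h1 : ∀ t : ℝ, ∫⁻ x, ‖cv (Kt a (L * t)) (fun y => f (L⁻¹ • y)) (L • x)‖ₑ ^ 3 =
      ENNReal.ofReal (L ^ 3)⁻¹ * ∫⁻ v, ‖cv (Kt a (L * t)) (fun y => f (L⁻¹ • y)) v‖ₑ ^ 3 :=
    fun t => lint_smul (fun v => ‖cv (Kt a (L * t)) (fun y => f (L⁻¹ • y)) v‖ₑ ^ 3) hL
  simp_rw [h1]
  rw [lintegral_const_mul' _ _ ENNReal.ofReal_ne_top]
  have h2 := (lint_window (fun s => ∫⁻ v, ‖cv (Kt a s) (fun y => f (L⁻¹ • y)) v‖ₑ ^ 3) hL).trans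
    (mul_le_mul_right h _)
  refine (mul_le_mul_right h2 _).trans (le_of_eq ?_)
  rw [← mul_assoc, ← ENNReal.ofReal_mul (by positivity)]
  congr 2
  rw [← mul_inv]
  congr 1

/-- volume of a dilated set. -/
theorem vol_dil (Ω : Set V) {L : ℝ} (hL : 0 < L) :
    volume ((fun y : V => L⁻¹ • y) ⁻¹' Ω) = ENNReal.ofReal (L ^ 3) * volume Ω := by
  have := Measure.addHaar_preimage_smul (volume : Measure V) (inv_ne_zero hL.ne') Ω
  rw [finrank_euclideanSpace_fin] at this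
  rw [show (fun y : V => L⁻¹ • y) ⁻¹' Ω = (L⁻¹ • ·) ⁻¹' Ω from rfl, this]
  congr 2
  rw [inv_pow, inv_inv, abs_of_pos (by positivity)]

/-- the scaled kernel. -/
def Ks (a : V → ℂ) (L t : ℝ) (w : V) : ℂ := ((L ^ 3 : ℝ) : ℂ) * Kt a (L * t) (L • w)

theorem continuous_Ks {a : V → ℂ} (hac : Continuous a) (has : HasCompactSupport a) (L : ℝ) :
    Continuous (fun z : V × ℝ => Ks a L z.2 z.1) := by
  have h3 : Continuous (fun z : V × ℝ => ((L * z.2, L • z.1) : ℝ × V)) := by fun_prop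
  have h4 := (continuous_Kt hac has).comp h3
  unfold Ks
  exact continuous_const.mul h4

theorem continuous_Ks1 {a : V → ℂ} (hac : Continuous a) (has : HasCompactSupport a) (L t : ℝ) :
    Continuous (Ks a L t) := by
  have h3 : Continuous (fun w : V => ((w, t) : V × ℝ)) := by fun_prop
  have h4 := (continuous_Ks hac has L).comp h3
  simp only [Function.comp_def] at h4
  exact h4

theorem norm_Ks_le (a : V → ℂ) {L : ℝ} (hL : 0 < L) (t : ℝ) (w : V) :
    ‖Ks a L t w‖ ≤ L ^ 3 * ∫ ξ, ‖a ξ‖ := by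
  unfold Ks
  rw [norm_mul, Complex.norm_real, Real.norm_of_nonneg (by positivity)]
  gcongr
  exact norm_Kt_le _ _ _

theorem int_Ks {a : V → ℂ} (hac : Continuous a) (has : HasCompactSupport a) {L : ℝ} (hL : 0 < L)
    (t : ℝ) {f : V → ℂ} (hf : Integrable f) (x : V) :
    Integrable fun y => Ks a L t (x - y) * f y :=
  Crest.Agent.R138.Fq665.int_cv (continuous_Ks1 hac has L t).measurable
    (fun w => norm_Ks_le a hL t w) hf x

theorem meas_Ks {a : V → ℂ} (hac : Continuous a) (has : HasCompactSupport a) (L : ℝ)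
    {f : V → ℂ} (hf : Measurable f) :
    Measurable (fun z : V × ℝ => ‖cv (Ks a L z.2) f z.1‖ₑ ^ 3) := by
  have h1 := measurable_conv_gen (G := fun z : V × ℝ => Ks a L z.2 z.1) (continuous_Ks hac has L)
    (g := id) continuous_id hf
  exact h1.enorm.pow_const 3

theorem fourierInv_sum {ι : Type*} (s : Finset ι) {F : ι → V → ℂ}
    (hF : ∀ i ∈ s, Integrable (F i)) (x : V) :
    𝓕⁻ (fun ξ => ∑ i ∈ s, F i ξ) x = ∑ i ∈ s, 𝓕⁻ (F i) x := by
  simp only [Real.fourierInv_eq, Finset.smul_sum]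
  rw [integral_finsetSum]
  intro i hi
  have h3 : Continuous fun ξ : V => (Real.fourierChar (inner ℝ ξ x)) := by
    have := Real.continuous_fourierChar
    fun_prop
  refine (hF i hi).mono (h3.aestronglyMeasurable.smul (hF i hi).1) (Eventually.of_forall fun ξ => ?_)
  rw [Circle.norm_smul]

theorem cv_sum {ι : Type*} (s : Finset ι) {K : ι → V → ℂ} {f : V → ℂ} (x : V)
    (h : ∀ i ∈ s, Integrable fun y => K i (x - y) * f y) :
    cv (fun w => ∑ i ∈ s, K i w) f x = ∑ i ∈ s, cv (K i) f x := by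
  unfold cv
  rw [← integral_finsetSum _ h]
  refine integral_congr_ae (Eventually.of_forall fun y => ?_)
  simp only
  rw [Finset.sum_mul]

/-- the constants. -/
theorem const_le {C R L ε : ℝ} (hC : 0 ≤ C) (hR : 1 ≤ R) (hε : 0 < ε) (h1 : 2 / 3 * R ≤ L)
    (h2 : L ≤ 8 / 3 * R) :
    (L ^ 4)⁻¹ * (C * (max L 1) ^ (1 + ε) * L ^ 3) ≤ 3 / 2 * (8 / 3) ^ (1 + ε) * C * R ^ ε := by
  have hR0 : 0 < R := by linarith
  have hL : 0 < L := by linarith
  have h3 : max L 1 ≤ 8 / 3 * R := max_le h2 (by linarith)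
  have h4 : (max L 1) ^ (1 + ε) ≤ (8 / 3 * R) ^ (1 + ε) :=
    Real.rpow_le_rpow (le_max_of_le_left hL.le) h3 (by linarith)
  rw [Real.mul_rpow (by norm_num) hR0.le, Real.rpow_add hR0 1 ε, Real.rpow_one] at h4
  have h5 : (L ^ 4)⁻¹ * (C * (max L 1) ^ (1 + ε) * L ^ 3) = C * (max L 1) ^ (1 + ε) * L⁻¹ := by
    field_simp
  rw [h5]
  have h6 : L⁻¹ ≤ 3 / 2 * R⁻¹ := by
    calc L⁻¹ ≤ (2 / 3 * R)⁻¹ := inv_anti₀ (by positivity) h1
      _ = _ := by rw [mul_inv]; norm_num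
  have h7 : 0 ≤ (max L 1) ^ (1 + ε) := by positivity
  calc C * (max L 1) ^ (1 + ε) * L⁻¹ ≤ C * ((8 / 3) ^ (1 + ε) * (R * R ^ ε)) * (3 / 2 * R⁻¹) := by
        gcongr
    _ = 3 / 2 * (8 / 3) ^ (1 + ε) * C * R ^ ε * (R * R⁻¹) := by ring
    _ = _ := by rw [mul_inv_cancel₀ hR0.ne', mul_one]

/-- decomposition of the kernel. -/
theorem KW_eq {φ : ℝ → ℝ} {s : Finset V} {b : V → V → ℂ} {lam : V → ℝ}
    (hlam : ∀ v ∈ s, 0 < lam v) (hbc : ∀ v ∈ s, Continuous fun η => b v (lam v • η))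
    (hcs : ∀ v ∈ s, HasCompactSupport fun η => b v (lam v • η))
    (hsum : ∀ ξ, ((φ ‖ξ‖ : ℝ) : ℂ) = ∑ v ∈ s, b v ξ) {R : ℝ} (hR0 : 0 < R) (t : ℝ) (x : V) :
    KW φ R t x = ∑ v ∈ s, Ks (fun η => b v (lam v • η)) (R * lam v) t x := by
  have hLp : ∀ v ∈ s, 0 < R * lam v := fun v hv => mul_pos hR0 (hlam v hv)
  have e1 : mW φ R t = fun ξ => ∑ v ∈ s,
      (fun η => b v (lam v • η) * ee (R * lam v * t * ‖η‖)) ((R * lam v)⁻¹ • ξ) := by
    funext ξ
    have h1 : ((φ (‖ξ‖ / R) : ℝ) : ℂ) = ∑ v ∈ s, b v (R⁻¹ • ξ) := by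
      rw [← hsum, norm_smul, norm_inv, Real.norm_of_nonneg hR0.le, inv_mul_eq_div]
    unfold mW
    rw [h1, Finset.sum_mul]
    refine Finset.sum_congr rfl fun v hv => ?_
    have hl : 0 < lam v := hlam v hv
    have h2 : lam v • (R * lam v)⁻¹ • ξ = R⁻¹ • ξ := by
      rw [smul_smul]
      congr 1
      field_simp
    have h3 : R * lam v * t * ‖(R * lam v)⁻¹ • ξ‖ = t * ‖ξ‖ := by
      rw [norm_smul, norm_inv, Real.norm_of_nonneg (hLp v hv).le]
      field_simp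
    simp only
    rw [h2, h3]
    unfold ee
    congr 3
    push_cast
    ring
  have hi : ∀ v ∈ s, Integrable
      (fun ξ : V => (fun η => b v (lam v • η) * ee (R * lam v * t * ‖η‖)) ((R * lam v)⁻¹ • ξ)) := by
    intro v hv
    have h1 : Integrable (fun η : V => b v (lam v • η) * ee (R * lam v * t * ‖η‖)) := by
      apply Continuous.integrable_of_hasCompactSupport
      · exact (hbc v hv).mul
          (contDiff_ee.continuous.comp (continuous_const.mul continuous_norm))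
      · exact (hcs v hv).mul_right
    exact h1.comp_smul (inv_ne_zero (hLp v hv).ne')
  unfold KW
  rw [e1, fourierInv_sum s hi]
  exact Finset.sum_congr rfl fun v hv =>
    fourierInv_dil (fun η => b v (lam v • η) * ee (R * lam v * t * ‖η‖)) (hLp v hv) x

end Crest.Agent.R116.Sh927
end
end

-- ▼ part R116/Sp3_927
section

/-!
R116, the front piece (S): `(C3w) ⇐ (GlobW)`.  Part 3: the end theorem `C3w_of_GlobW`.
-/

set_option autoImplicit false

open MeasureTheory Filter Topology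
open scoped ENNReal FourierTransform ContDiff

noncomputable section

namespace Crest.Agent.R116.Sh927

open Crest.Agent.R138.Defs (E2 ee)
open Crest.Agent.R138.Fr665 (cv)
open Crest.Agent.R138.Fq665 (PR up exists_up_eq)
open Crest.Agent.R116.EB665 (Kt GlobW norm_Kt_le continuous_Kt contDiff_ee norm_ee)

/-- the support of a normalised piece. -/
theorem supp_piece {ρ : ℝ} {v : V} (hv0 : 1 / 2 ≤ ‖v‖) {b : V → ℂ}
    (hb : ∀ ξ, b ξ ≠ 0 → ‖ξ - v‖ ≤ 2 / 3 * ρ) : ∃ J : PR ≃ₗᵢ[ℝ] V,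
      ∀ w, b ((4 / 3 * ‖v‖) • w) ≠ 0 → ‖w - up J 0 (3 / 4)‖ ≤ ρ := by
  have hv : 0 < ‖v‖ := by linarith
  obtain ⟨J, hJ⟩ := exists_up_eq (‖v‖⁻¹ • v) (by
    rw [norm_smul, norm_inv, norm_norm, inv_mul_cancel₀ hv.ne'])
  have hJ34 : up J 0 (3 / 4) = (3 / 4 : ℝ) • (‖v‖⁻¹ • v) := by
    have h0 : (WithLp.toLp 2 ((0 : E2), (3 / 4 : ℝ)) : PR) =
        (3 / 4 : ℝ) • WithLp.toLp 2 ((0 : E2), (1 : ℝ)) := by
      rw [← WithLp.toLp_smul]; simp
    rw [← hJ]
    unfold up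
    rw [← map_smul, ← h0]
  refine ⟨J, fun w hw => ?_⟩
  have h1 := hb _ hw
  have hl : 0 < 4 / 3 * ‖v‖ := by positivity
  have h2 : w - up J 0 (3 / 4) = (4 / 3 * ‖v‖)⁻¹ • ((4 / 3 * ‖v‖) • w - v) := by
    rw [hJ34, smul_sub, smul_smul, smul_smul, inv_mul_cancel₀ hl.ne', one_smul]
    congr 2
    rw [mul_inv]; norm_num
  rw [h2, norm_smul, norm_inv, Real.norm_of_nonneg hl.le]
  calc (4 / 3 * ‖v‖)⁻¹ * ‖(4 / 3 * ‖v‖) • w - v‖ ≤ (2 / 3)⁻¹ * (2 / 3 * ρ) := by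
        gcongr
        linarith
    _ = ρ := by ring

/-- from `ofReal` of a real cube. -/
theorem cube_sum_le {ι : Type*} (s : Finset ι) (z : ι → ℂ) :
    ENNReal.ofReal (‖∑ i ∈ s, z i‖ ^ (3:ℝ)) ≤ (s.card : ℝ≥0∞) ^ 2 * ∑ i ∈ s, ‖z i‖ₑ ^ 3 := by
  have e1 : ENNReal.ofReal (‖∑ i ∈ s, z i‖ ^ (3:ℝ)) = ‖∑ i ∈ s, z i‖ₑ ^ 3 := by
    rw [show (3:ℝ) = ((3:ℕ):ℝ) by norm_num, Real.rpow_natCast,
      ENNReal.ofReal_pow (norm_nonneg _), ofReal_norm]
  rw [e1]
  calc ‖∑ i ∈ s, z i‖ₑ ^ 3 ≤ (∑ i ∈ s, ‖z i‖ₑ) ^ 3 := by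
        gcongr
        exact enorm_sum_le _ _
    _ ≤ _ := by
        have := ENNReal.rpow_sum_le_const_mul_sum_rpow s (fun i => ‖z i‖ₑ)
          (p := 3) (by norm_num)
        norm_num at this
        exact_mod_cast this

theorem meas_x {F : V × ℝ → ℝ≥0∞} (hF : Measurable F) (t : ℝ) :
    Measurable (fun x : V => F (x, t)) := by
  have h3 : Measurable (fun w : V => ((w, t) : V × ℝ)) := by fun_prop
  exact hF.comp h3

theorem meas_t {F : V × ℝ → ℝ≥0∞} (hF : Measurable F) :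
    Measurable (fun t : ℝ => ∫⁻ x : V, F (x, t)) := hF.lintegral_prod_left'

theorem lint_sum {ι : Type*} (s : Finset ι) {F : ι → V × ℝ → ℝ≥0∞} (hF : ∀ i ∈ s, Measurable (F i))
    {c : ℝ≥0∞} (hc : c ≠ ⊤) :
    ∫⁻ t in Set.Icc (1:ℝ) 2, ∫⁻ x : V, c * ∑ i ∈ s, F i (x, t) =
      c * ∑ i ∈ s, ∫⁻ t in Set.Icc (1:ℝ) 2, ∫⁻ x : V, F i (x, t) := by
  have h1 : ∀ t : ℝ, ∫⁻ x : V, c * ∑ i ∈ s, F i (x, t) = c * ∑ i ∈ s, ∫⁻ x : V, F i (x, t) := by
    intro t
    rw [lintegral_const_mul' _ _ hc, lintegral_finsetSum s fun i hi => meas_x (hF i hi) t]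
  simp_rw [h1]
  rw [lintegral_const_mul' _ _ hc, lintegral_finsetSum s fun i hi => meas_t (hF i hi)]

/-- the sum over the pieces. -/
theorem sum_le {ι : Type*} (s : Finset ι) {a : ι → V → ℂ} {L D : ι → ℝ}
    (hac : ∀ i ∈ s, Continuous (a i)) (has : ∀ i ∈ s, HasCompactSupport (a i))
    (hL : ∀ i ∈ s, 0 < L i) (hD : ∀ i ∈ s, 0 ≤ D i)
    {f : V → ℂ} (hf : Measurable f) (hfi : Integrable f) {W : ℝ≥0∞}
    (h : ∀ i ∈ s, ∫⁻ t in Set.Icc (1 : ℝ) 2, ∫⁻ x, ‖cv (Ks (a i) (L i) t) f x‖ₑ ^ 3 ≤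
      ENNReal.ofReal (D i) * W) :
    ∫⁻ t in Set.Icc (1:ℝ) 2, ∫⁻ x, ENNReal.ofReal
      (‖cv (fun w => ∑ i ∈ s, Ks (a i) (L i) t w) f x‖ ^ (3:ℝ)) ≤
        ENNReal.ofReal ((s.card : ℝ) ^ 2 * ∑ i ∈ s, D i) * W := by
  have hmeas : ∀ i ∈ s, Measurable (fun z : V × ℝ => ‖cv (Ks (a i) (L i) z.2) f z.1‖ₑ ^ 3) :=
    fun i hi => meas_Ks (hac i hi) (has i hi) (L i) hf
  have h1 : ∀ t : ℝ, ∀ x : V, ENNReal.ofReal
      (‖cv (fun w => ∑ i ∈ s, Ks (a i) (L i) t w) f x‖ ^ (3:ℝ)) ≤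
        (s.card : ℝ≥0∞) ^ 2 * ∑ i ∈ s, ‖cv (Ks (a i) (L i) t) f x‖ₑ ^ 3 := by
    intro t x
    rw [cv_sum s x fun i hi => int_Ks (hac i hi) (has i hi) (hL i hi) t hfi x]
    exact cube_sum_le s _
  have h2 := lint_sum s hmeas (c := (s.card : ℝ≥0∞) ^ 2) (by simp)
  simp only at h2
  have h3 : ∫⁻ t in Set.Icc (1:ℝ) 2, ∫⁻ x, ENNReal.ofReal
        (‖cv (fun w => ∑ i ∈ s, Ks (a i) (L i) t w) f x‖ ^ (3:ℝ)) ≤
      ∫⁻ t in Set.Icc (1:ℝ) 2, ∫⁻ x,
          (s.card : ℝ≥0∞) ^ 2 * ∑ i ∈ s, ‖cv (Ks (a i) (L i) t) f x‖ₑ ^ 3 :=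
    lintegral_mono fun t => lintegral_mono fun x => h1 t x
  refine h3.trans ?_
  rw [h2]
  have h4 : (s.card : ℝ≥0∞) ^ 2 * ∑ i ∈ s,
      ∫⁻ t in Set.Icc (1:ℝ) 2, ∫⁻ x, ‖cv (Ks (a i) (L i) t) f x‖ₑ ^ 3 ≤
      (s.card : ℝ≥0∞) ^ 2 * ∑ i ∈ s, ENNReal.ofReal (D i) * W :=
    mul_le_mul_right (Finset.sum_le_sum h) _
  refine h4.trans (le_of_eq ?_)
  rw [← Finset.sum_mul, ← ENNReal.ofReal_sum_of_nonneg hD, ← mul_assoc]
  congr 1
  rw [show ((s.card : ℝ≥0∞)) = ENNReal.ofReal (s.card : ℝ) by simp,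
    ← ENNReal.ofReal_pow (by positivity), ← ENNReal.ofReal_mul (by positivity)]

/-- **(S)**: `C3p φ ⇐ GlobW`. -/
theorem C3p_of_GlobW (h : GlobW) {φ : ℝ → ℝ} (hφ : ContDiff ℝ ∞ φ)
    (lo : ∀ r, r < 1 / 2 → φ r = 0) (hi : ∀ r, 2 < r → φ r = 0) : C3p φ := by
  obtain ⟨ρ, hρ, hρ1, H⟩ := h
  obtain ⟨s, b, hs, hbc, hbs, hsum⟩ := exists_pieces hφ lo hi (r := 2 / 3 * ρ) (by positivity)
  intro ε hε
  set lam : V → ℝ := fun v => 4 / 3 * ‖v‖ with hlamdef
  have hlam : ∀ v ∈ s, 2 / 3 ≤ lam v ∧ lam v ≤ 8 / 3 := by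
    intro v hv
    have := hs v hv
    constructor <;> simp only [lam] <;> linarith [this.1, this.2]
  have hlp : ∀ v ∈ s, 0 < lam v := fun v hv => by linarith [(hlam v hv).1]
  have hac : ∀ v, ContDiff ℝ ∞ (fun η => b v (lam v • η)) :=
    fun v => (hbc v).comp (contDiff_const_smul (lam v))
  have key : ∀ v ∈ s, HasCompactSupport (fun η => b v (lam v • η)) ∧ ∃ C : ℝ, 0 ≤ C ∧
      ∀ R : ℝ, 1 ≤ R → ∀ Ω : Set V, MeasurableSet Ω → volume Ω ≠ ⊤ →
      ∀ f : V → ℂ, Measurable f → (∀ v, ‖f v‖ ≤ Ω.indicator (fun _ => (1:ℝ)) v) →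
        ∫⁻ t in Set.Icc (0 : ℝ) (2 * R), ∫⁻ w,
          ‖cv (Kt (fun η => b v (lam v • η)) t) f w‖ₑ ^ 3 ≤
          ENNReal.ofReal (C * R ^ (1 + ε)) * volume Ω := by
    intro v hv
    obtain ⟨J, hsupp⟩ := supp_piece (hs v hv).1 (hbs v)
    exact ⟨EB665.hcs_of_piece (EB665.piece_norm hρ1 hsupp), H J _ (hac v) hsupp ε hε⟩
  choose! hcs C hC0 hC using key
  refine ⟨(s.card : ℝ) ^ 2 * ∑ v ∈ s, 3 / 2 * (8 / 3) ^ (1 + ε) * C v, ?_⟩
  intro R hR Ω hΩ hΩf f hf hfΩ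
  have hR0 : 0 < R := by linarith
  have hfi : Integrable f := by
    have h1 : Integrable (Ω.indicator (fun _ => (1:ℝ))) :=
      (integrable_indicator_iff hΩ).2 (integrableOn_const hΩf)
    exact h1.mono' hf.aestronglyMeasurable (Eventually.of_forall hfΩ)
  have hL : ∀ v ∈ s, 2 / 3 * R ≤ R * lam v ∧ R * lam v ≤ 8 / 3 * R := by
    intro v hv
    have := hlam v hv
    constructor <;> nlinarith [this.1, this.2]
  have hLp : ∀ v ∈ s, 0 < R * lam v := fun v hv => mul_pos hR0 (hlp v hv)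
  have hpiece : ∀ v ∈ s, ∫⁻ t in Set.Icc (1 : ℝ) 2, ∫⁻ x,
      ‖cv (Ks (fun η => b v (lam v • η)) (R * lam v) t) f x‖ₑ ^ 3 ≤
      ENNReal.ofReal (3 / 2 * (8 / 3) ^ (1 + ε) * C v * R ^ ε) * volume Ω := by
    intro v hv
    have hLv := hLp v hv
    have h1 := hC v hv (max (R * lam v) 1) (le_max_right _ _)
      ((fun y : V => (R * lam v)⁻¹ • y) ⁻¹' Ω)
      (hΩ.preimage (by fun_prop)) (by
        rw [vol_dil _ hLv]
        exact ENNReal.mul_ne_top ENNReal.ofReal_ne_top hΩf)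
      (fun y => f ((R * lam v)⁻¹ • y)) (hf.comp (by fun_prop)) (fun y => hfΩ _)
    have h2 := piece_le hLv h1
    refine h2.trans ?_
    rw [vol_dil _ hLv, ← mul_assoc, ← mul_assoc]
    refine mul_le_mul_left ?_ _
    have := hC0 v hv
    rw [← ENNReal.ofReal_mul (by positivity), ← ENNReal.ofReal_mul (by positivity)]
    apply ENNReal.ofReal_le_ofReal
    rw [mul_assoc]
    exact const_le (hC0 v hv) hR hε (hL v hv).1 (hL v hv).2
  have hKW : ∀ t, KW φ R t = fun w => ∑ v ∈ s, Ks (fun η => b v (lam v • η)) (R * lam v) t w :=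
    fun t => funext fun x => KW_eq hlp (fun v _ => (hac v).continuous) hcs hsum hR0 t x
  simp only [hKW]
  refine (sum_le s (fun v _ => (hac v).continuous) hcs hLp (fun v hv => ?_) hf hfi hpiece).trans
    (le_of_eq ?_)
  · have := hC0 v hv
    positivity
  · congr 2
    rw [← Finset.sum_mul]
    ring

/-- **(S)**: `C3w ⇐ GlobW`. -/
theorem C3w_of_GlobW (h : GlobW) : C3w := fun _ hφ lo hi => C3p_of_GlobW h hφ lo hi

end Crest.Agent.R116.Sh927
end
end

-- ▼ part R116/Wk7_927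
section

/-!
R116, outer shell (7): products of profiles, the Bessel–Littlewood–Paley profiles and the low
frequency profiles.
-/

set_option autoImplicit false

open MeasureTheory FourierTransform LineDeriv Set Filter
open scoped ContDiff Real SchwartzMap ENNReal Convolution Topology

namespace Crest.Agent.R116.Sh927

open Crest.Agent.R138.Fr665 (cv)
open Crest.Agent.R138.Sh200

/-- product of a profile with a function that is smooth on `(0, ∞)`. -/
theorem Pf.mul {A : ℝ → ℂ} {M : ℝ} (hA : Pf A M) {g : ℝ → ℂ}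
    (hg : ∀ u, 0 < u → ContDiffAt ℝ ∞ g u) {N : ℝ}
    (h0 : ∀ u, 1 / 64 ≤ u → u ≤ 64 → ‖g u‖ ≤ N)
    (h1 : ∀ u, 1 / 64 ≤ u → u ≤ 64 → ‖deriv g u‖ ≤ N)
    (h2 : ∀ u, 1 / 64 ≤ u → u ≤ 64 → ‖deriv (deriv g) u‖ ≤ N) :
    Pf (fun u => A u * g u) (4 * M * N) := by
  have hM := hA.nonneg
  have hN : 0 ≤ N := (norm_nonneg _).trans (h0 1 (by norm_num) (by norm_num))
  have hA1 : ContDiff ℝ ∞ (deriv A) := (contDiff_infty_iff_deriv.mp hA.sm).2
  have ev0 : ∀ u : ℝ, (u < 1 / 64 ∨ 64 < u) → (fun u => A u * g u) =ᶠ[𝓝 u] fun _ => 0 := by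
    intro u hu
    rcases hu with hu | hu
    · filter_upwards [Iio_mem_nhds hu] with v hv
      rw [hA.lo v hv, zero_mul]
    · filter_upwards [Ioi_mem_nhds hu] with v hv
      rw [hA.hi v hv, zero_mul]
  have ev1 : ∀ u : ℝ, (u < 1 / 64 ∨ 64 < u) → deriv (fun u => A u * g u) =ᶠ[𝓝 u] fun _ => 0 := by
    intro u hu
    simpa using (ev0 u hu).deriv
  have d1 : ∀ u : ℝ, 0 < u → deriv (fun u => A u * g u) u = deriv A u * g u + A u * deriv g u := by
    intro u hu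
    have e1 : HasDerivAt A (deriv A u) u := ((hA.sm.differentiable (by simp)) _).hasDerivAt
    have e2 : HasDerivAt g (deriv g u) u := ((hg u hu).differentiableAt (by simp)).hasDerivAt
    exact (e1.mul e2).deriv
  have d2 : ∀ u : ℝ, 0 < u → deriv (deriv (fun u => A u * g u)) u =
      deriv (deriv A) u * g u + deriv A u * deriv g u
        + (deriv A u * deriv g u + A u * deriv (deriv g) u) := by
    intro u hu
    have hev : deriv (fun u => A u * g u) =ᶠ[𝓝 u] fun u => deriv A u * g u + A u * deriv g u := by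
      filter_upwards [Ioi_mem_nhds hu] with v hv
      exact d1 v hv
    rw [hev.deriv_eq]
    have e1 : HasDerivAt A (deriv A u) u := ((hA.sm.differentiable (by simp)) _).hasDerivAt
    have e1' : HasDerivAt (deriv A) (deriv (deriv A) u) u :=
      ((hA1.differentiable (by simp)) _).hasDerivAt
    have e2 : HasDerivAt g (deriv g u) u := ((hg u hu).differentiableAt (by simp)).hasDerivAt
    have e2' : HasDerivAt (deriv g) (deriv (deriv g) u) u := by
      have h3 : ContDiffAt ℝ 1 (deriv g) u :=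
        (hg u hu).derivWithin (m := 1) (by norm_cast)
      exact (h3.differentiableAt (by simp)).hasDerivAt
    exact ((e1'.mul e2).add (e1.mul e2')).deriv
  refine ⟨?_, ?_, ?_, ?_, ?_, ?_⟩
  · rw [contDiff_iff_contDiffAt]
    intro u
    by_cases hu : u < 1 / 64
    · exact contDiffAt_const.congr_of_eventuallyEq (ev0 u (Or.inl hu))
    · push Not at hu
      exact hA.sm.contDiffAt.mul (hg u (by linarith))
  · intro u hu; rw [hA.lo u hu, zero_mul]
  · intro u hu; rw [hA.hi u hu, zero_mul]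
  · intro u
    by_cases hu : u < 1 / 64 ∨ 64 < u
    · rw [(ev0 u hu).eq_of_nhds]; simp; positivity
    · push Not at hu
      rw [norm_mul]
      calc ‖A u‖ * ‖g u‖ ≤ M * N := by
            gcongr
            · exact hA.b0 u
            · exact h0 u hu.1 hu.2
        _ ≤ _ := by nlinarith [mul_nonneg hM hN]
  · intro u
    by_cases hu : u < 1 / 64 ∨ 64 < u
    · rw [(ev1 u hu).eq_of_nhds]; simp; positivity
    · push Not at hu
      rw [d1 u (by linarith)]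
      have e1 : ‖deriv A u * g u‖ ≤ M * N := by
        rw [norm_mul]
        gcongr
        · exact hA.b1 u
        · exact h0 u hu.1 hu.2
      have e2 : ‖A u * deriv g u‖ ≤ M * N := by
        rw [norm_mul]
        gcongr
        · exact hA.b0 u
        · exact h1 u hu.1 hu.2
      refine (norm_add_le _ _).trans ?_
      nlinarith [mul_nonneg hM hN]
  · intro u
    by_cases hu : u < 1 / 64 ∨ 64 < u
    · have := (ev1 u hu).deriv.eq_of_nhds
      rw [this]; simp; positivity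
    · push Not at hu
      rw [d2 u (by linarith)]
      have e1 : ‖deriv (deriv A) u * g u‖ ≤ M * N := by
        rw [norm_mul]
        gcongr
        · exact hA.b2 u
        · exact h0 u hu.1 hu.2
      have e2 : ‖deriv A u * deriv g u‖ ≤ M * N := by
        rw [norm_mul]
        gcongr
        · exact hA.b1 u
        · exact h1 u hu.1 hu.2
      have e3 : ‖A u * deriv (deriv g) u‖ ≤ M * N := by
        rw [norm_mul]
        gcongr
        · exact hA.b0 u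
        · exact h2 u hu.1 hu.2
      refine (norm_add_le _ _).trans ((add_le_add (norm_add_le _ _) (norm_add_le _ _)).trans ?_)
      linarith

/-- the Bessel factor. -/
noncomputable def gB (β s : ℝ) (u : ℝ) : ℂ := (((s + 4 * π ^ 2 * u) ^ (-β) : ℝ) : ℂ)

theorem base_lb {s u : ℝ} (hs : 0 ≤ s) (hu : 1 / 64 ≤ u) : 1 / 2 ≤ s + 4 * π ^ 2 * u := by
  have h9 : (9:ℝ) ≤ π ^ 2 := by nlinarith [Real.pi_gt_three]
  nlinarith

theorem norm_gB_le {β s u : ℝ} (hβ : 0 ≤ β) (hs : 0 ≤ s) (hu : 1 / 64 ≤ u) :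
    ‖gB β s u‖ ≤ 2 ^ β := by
  have hb := base_lb hs hu
  unfold gB
  rw [Complex.norm_real, Real.norm_of_nonneg (Real.rpow_nonneg (by linarith) _)]
  calc (s + 4 * π ^ 2 * u) ^ (-β) ≤ (1 / 2 : ℝ) ^ (-β) :=
        Real.rpow_le_rpow_of_nonpos (by norm_num) hb (by linarith)
    _ = 2 ^ β := by
        rw [one_div, Real.inv_rpow (by norm_num), Real.rpow_neg (by norm_num), inv_inv]

theorem hasDerivAt_gB (β : ℝ) {s u : ℝ} (hs : 0 ≤ s) (hu : 0 < u) :
    HasDerivAt (gB β s) (((-β * (4 * π ^ 2) : ℝ) : ℂ) * gB (β + 1) s u) u := by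
  have hpos : 0 < s + 4 * π ^ 2 * u := by positivity
  have h1 : HasDerivAt (fun u => s + 4 * π ^ 2 * u) (4 * π ^ 2) u := by
    simpa using ((hasDerivAt_id u).const_mul (4 * π ^ 2)).const_add s
  have h2 := (h1.rpow_const (p := -β) (Or.inl hpos.ne')).ofReal_comp
  refine h2.congr_deriv ?_
  unfold gB
  rw [show -(β + 1) = -β - 1 by ring]
  push_cast
  ring

theorem deriv_gB (β : ℝ) {s u : ℝ} (hs : 0 ≤ s) (hu : 0 < u) :
    deriv (gB β s) u = ((-β * (4 * π ^ 2) : ℝ) : ℂ) * gB (β + 1) s u :=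
  (hasDerivAt_gB β hs hu).deriv

theorem deriv2_gB (β : ℝ) {s u : ℝ} (hs : 0 ≤ s) (hu : 0 < u) :
    deriv (deriv (gB β s)) u = ((-β * (4 * π ^ 2) : ℝ) : ℂ) *
      (((-(β + 1) * (4 * π ^ 2) : ℝ) : ℂ) * gB (β + 1 + 1) s u) := by
  have hev : deriv (gB β s) =ᶠ[𝓝 u] fun u => ((-β * (4 * π ^ 2) : ℝ) : ℂ) * gB (β + 1) s u := by
    filter_upwards [Ioi_mem_nhds hu] with v hv
    exact deriv_gB β hs hv
  rw [hev.deriv_eq]
  exact ((hasDerivAt_gB (β + 1) hs hu).const_mul _).deriv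

theorem contDiffAt_gB (β : ℝ) {s u : ℝ} (hs : 0 ≤ s) (hu : 0 < u) : ContDiffAt ℝ ∞ (gB β s) u := by
  have hpos : 0 < s + 4 * π ^ 2 * u := by positivity
  have h1 : ContDiffAt ℝ ∞ (fun u => s + 4 * π ^ 2 * u) u := by fun_prop
  exact Complex.ofRealCLM.contDiff.contDiffAt.comp u (h1.rpow_const_of_ne hpos.ne')

/-- the Littlewood–Paley cut-off that is `1` on the support of `chi`. -/
noncomputable def chit (u : ℝ) : ℝ := bet (u / 4) - bet (16 * u)

theorem contDiff_chit : ContDiff ℝ ∞ chit := by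
  unfold chit
  exact (contDiff_bet.comp (contDiff_id.div_const _)).sub
    (contDiff_bet.comp (contDiff_const.mul contDiff_id))

theorem chit_lo {u : ℝ} (h : u < 1 / 16) : chit u = 0 := by
  unfold chit; rw [bet_one (by linarith), bet_one (by linarith), sub_self]

theorem chit_hi {u : ℝ} (h : 8 < u) : chit u = 0 := by
  unfold chit; rw [bet_zero (by linarith), bet_zero (by linarith), sub_self]

theorem chi_mul_chit (u : ℝ) : chi u * chit u = chi u := by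
  by_cases h1 : u < 1 / 4
  · rw [chi_lo h1, zero_mul]
  by_cases h2 : 2 < u
  · rw [chi_hi h2, zero_mul]
  push Not at h1 h2
  have : chit u = 1 := by
    unfold chit
    rw [bet_one (by linarith), bet_zero (by linarith), sub_zero]
  rw [this, mul_one]

/-- uniform bound of the Bessel profiles. -/
theorem exists_Pf_bessel {β : ℝ} (hβ : 0 ≤ β) : ∃ M : ℝ, ∀ s : ℝ, 0 ≤ s →
    Pf (fun u => ((chit u : ℝ) : ℂ) * gB β s u) M := by
  obtain ⟨M, hM⟩ := exists_Pf (A := fun u => ((chit u : ℝ) : ℂ))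
    (Complex.ofRealCLM.contDiff.comp contDiff_chit)
    (fun u hu => by rw [chit_lo (by linarith)]; simp)
    (fun u hu => by rw [chit_hi (by linarith)]; simp)
  have hp : π ^ 2 ≤ 10 := by nlinarith [Real.pi_lt_d2, Real.pi_pos]
  have hp0 : 0 ≤ π ^ 2 := by positivity
  have h2 : (1:ℝ) ≤ 2 ^ (β + 1 + 1) := Real.one_le_rpow (by norm_num) (by linarith)
  have hb0 : (2:ℝ) ^ β ≤ 2 ^ (β + 1 + 1) :=
    Real.rpow_le_rpow_of_exponent_le (by norm_num) (by linarith)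
  have hb1 : (2:ℝ) ^ (β + 1) ≤ 2 ^ (β + 1 + 1) :=
    Real.rpow_le_rpow_of_exponent_le (by norm_num) (by linarith)
  refine ⟨4 * M * ((1 + 40 * (β + 1)) ^ 2 * 2 ^ (β + 1 + 1)), fun s hs => ?_⟩
  refine hM.mul (fun u hu => contDiffAt_gB β hs hu) (fun u hu _ => ?_) (fun u hu _ => ?_)
    (fun u hu _ => ?_)
  · refine (norm_gB_le hβ hs hu).trans (hb0.trans ?_)
    have : 1 ≤ (1 + 40 * (β + 1)) ^ 2 := by nlinarith
    nlinarith
  · have n1 : ‖((-β * (4 * π ^ 2) : ℝ) : ℂ)‖ = β * (4 * π ^ 2) := by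
      rw [Complex.norm_real, Real.norm_eq_abs, neg_mul, abs_neg, abs_of_nonneg (by positivity)]
    rw [deriv_gB β hs (by linarith), norm_mul, n1]
    have h3 := norm_gB_le (β := β + 1) (by linarith) hs hu
    calc β * (4 * π ^ 2) * ‖gB (β + 1) s u‖ ≤ β * (4 * 10) * 2 ^ (β + 1 + 1) := by
          gcongr
          exact h3.trans hb1
      _ ≤ _ := by
          gcongr
          nlinarith
  · have n1 : ‖((-β * (4 * π ^ 2) : ℝ) : ℂ)‖ = β * (4 * π ^ 2) := by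
      rw [Complex.norm_real, Real.norm_eq_abs, neg_mul, abs_neg, abs_of_nonneg (by positivity)]
    have n2 : ‖((-(β + 1) * (4 * π ^ 2) : ℝ) : ℂ)‖ = (β + 1) * (4 * π ^ 2) := by
      rw [Complex.norm_real, Real.norm_eq_abs, neg_mul, abs_neg, abs_of_nonneg (by positivity)]
    rw [deriv2_gB β hs (by linarith), norm_mul, norm_mul, n1, n2]
    have h3 := norm_gB_le (β := β + 1 + 1) (by linarith) hs hu
    calc β * (4 * π ^ 2) * ((β + 1) * (4 * π ^ 2) * ‖gB (β + 1 + 1) s u‖)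
        ≤ β * (4 * 10) * ((β + 1) * (4 * 10) * 2 ^ (β + 1 + 1)) := by gcongr
      _ = (β * (4 * 10) * ((β + 1) * (4 * 10))) * 2 ^ (β + 1 + 1) := by ring
      _ ≤ _ := by
          gcongr
          nlinarith

/-- the low frequency factor. -/
noncomputable def gL (τ u : ℝ) : ℂ := EE τ u - 1

theorem exists_Pf_low : ∃ M : ℝ, ∀ τ : ℝ, 0 ≤ τ → τ ≤ 2 →
    Pf (fun u => ((chi u : ℝ) : ℂ) * gL τ u) (M * τ) := by
  obtain ⟨M, hM⟩ := exists_Pf (A := fun u => ((chi u : ℝ) : ℂ))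
    (Complex.ofRealCLM.contDiff.comp contDiff_chi)
    (fun u hu => by rw [chi_lo (by linarith)]; simp)
    (fun u hu => by rw [chi_hi (by linarith)]; simp)
  refine ⟨4 * M * 4000, fun τ h0 h2 => ?_⟩
  have hpi0 := Real.pi_pos
  have hpi : π < 3.15 := Real.pi_lt_d2
  have hw : ∀ u : ℝ, 1 / 64 ≤ u → u ≤ 64 → 0 ≤ π * τ / Real.sqrt u ∧
      π * τ / Real.sqrt u ≤ 26 * τ ∧ Real.sqrt u ≤ 8 := by
    intro u hu1 hu2
    have hsq1 : 1 / 8 ≤ Real.sqrt u := by
      apply Real.le_sqrt_of_sq_le; norm_num; linarith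
    have hsq2 : Real.sqrt u ≤ 8 := by
      rw [Real.sqrt_le_left (by norm_num)]; norm_num; exact hu2
    refine ⟨by positivity, ?_, hsq2⟩
    rw [div_le_iff₀ (by linarith)]
    nlinarith [mul_nonneg h0 hpi0.le]
  have e1 : osc τ (fun _ => 1) = EE τ := by funext u; simp [osc]
  have dL : ∀ u : ℝ, 0 < u → deriv (gL τ) u = EE τ u *
      (((π * τ / Real.sqrt u : ℝ) : ℂ) * Complex.I) := by
    intro u hu
    exact ((hasDerivAt_EE τ hu).sub_const 1).deriv
  have dL2 : ∀ u : ℝ, 0 < u → deriv (deriv (gL τ)) u = EE τ u *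
      (-(((π * τ / Real.sqrt u) ^ 2 : ℝ) : ℂ) -
        (((π * τ / Real.sqrt u / (2 * u) : ℝ) : ℂ) * Complex.I)) := by
    intro u hu
    have hev : deriv (gL τ) = deriv (osc τ (fun _ => 1)) := by
      rw [e1]; unfold gL; funext v; rw [deriv_sub_const]
    rw [hev, deriv2_osc contDiff_const τ hu]
    simp
  have key : Pf (fun u => ((chi u : ℝ) : ℂ) * gL τ u) (4 * M * (4000 * τ)) := by
    refine hM.mul (fun u hu => (contDiffAt_EE τ hu).sub contDiffAt_const) (fun u hu1 hu2 => ?_)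
      (fun u hu1 hu2 => ?_) (fun u hu1 hu2 => ?_)
    · obtain ⟨w0, w1, w2⟩ := hw u hu1 hu2
      have h3 := Real.norm_exp_I_mul_ofReal_sub_one_le (x := 2 * π * τ * Real.sqrt u)
      show ‖gL τ u‖ ≤ _
      unfold gL EE
      rw [mul_comm _ Complex.I]
      refine h3.trans ?_
      rw [Real.norm_of_nonneg (by positivity)]
      calc 2 * π * τ * Real.sqrt u ≤ 2 * 3.15 * τ * 8 := by gcongr
        _ ≤ _ := by nlinarith
    · obtain ⟨w0, w1, w2⟩ := hw u hu1 hu2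
      show ‖deriv (gL τ) u‖ ≤ _
      rw [dL u (by linarith), norm_mul, norm_EE, one_mul, norm_mul, Complex.norm_I, mul_one,
        Complex.norm_real, Real.norm_of_nonneg w0]
      linarith
    · obtain ⟨w0, w1, w2⟩ := hw u hu1 hu2
      show ‖deriv (deriv (gL τ)) u‖ ≤ _
      rw [dL2 u (by linarith), norm_mul, norm_EE, one_mul]
      refine (norm_sub_le _ _).trans ?_
      have hu0 : 0 < u := by linarith
      rw [norm_neg, Complex.norm_real, norm_mul, Complex.norm_I, mul_one, Complex.norm_real,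
        Real.norm_of_nonneg (by positivity), Real.norm_of_nonneg (by positivity)]
      have t1 : (π * τ / Real.sqrt u) ^ 2 ≤ 1352 * τ := by nlinarith
      have t2 : π * τ / Real.sqrt u / (2 * u) ≤ 832 * τ := by
        rw [div_le_iff₀ (by positivity)]
        nlinarith
      linarith
  have e2 : 4 * M * (4000 * τ) = 4 * M * 4000 * τ := by ring
  rwa [e2] at key

end Crest.Agent.R116.Sh927
end

-- ▼ part R116/Wk8_927
section

/-!
R116, outer shell (8): the Bessel pieces, the low frequency pieces, and the Bessel potential of a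
Schwartz function.
-/

set_option autoImplicit false

open MeasureTheory FourierTransform LineDeriv Set Filter
open scoped ContDiff Real SchwartzMap ENNReal Convolution Topology

namespace Crest.Agent.R116.Sh927

open Crest.Agent.R138.Fr665 (cv)
open Crest.Agent.R138.Sh200

theorem osc_zero (A : ℝ → ℂ) : osc 0 A = A := by
  funext u
  simp [osc, EE]

/-- the base of the Bessel weight. -/
noncomputable def Bb (ξ : V) : ℝ := 1 + 4 * π ^ 2 * ‖ξ‖ ^ 2

theorem Bb_pos (ξ : V) : 0 < Bb ξ := by unfold Bb; positivity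

theorem contDiff_Bb : ContDiff ℝ ∞ Bb := by
  unfold Bb
  exact contDiff_const.add (contDiff_const.mul (contDiff_norm_sq ℝ))

/-- Bessel multiplier on a ball, as a Schwartz function. -/
theorem exists_bz (β lam : ℝ) (hlam : 0 < lam) : ∃ m : 𝓢(V, ℂ), ∀ ξ : V,
    m ξ = ((bet (‖ξ‖ ^ 2 / lam) * Bb ξ ^ (-β) : ℝ) : ℂ) := by
  have h1 : ContDiff ℝ ∞ fun ξ : V => ((bet (‖ξ‖ ^ 2 / lam) * Bb ξ ^ (-β) : ℝ) : ℂ) := by
    apply Complex.ofRealCLM.contDiff.comp
    apply ContDiff.mul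
    · exact contDiff_bet.comp ((contDiff_norm_sq ℝ).div_const _)
    · exact contDiff_Bb.rpow_const_of_ne fun ξ => (Bb_pos ξ).ne'
  have h2 : HasCompactSupport fun ξ : V => ((bet (‖ξ‖ ^ 2 / lam) * Bb ξ ^ (-β) : ℝ) : ℂ) := by
    refine HasCompactSupport.intro (isCompact_closedBall (0:V) (2 * lam + 1)) fun ξ hξ => ?_
    rw [mem_closedBall_zero_iff, not_le] at hξ
    rw [bet_zero]
    · simp
    · rw [le_div_iff₀ hlam]
      nlinarith
  exact ⟨h2.toSchwartzMap h1, fun ξ => rfl⟩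

/-- the annular Bessel profile at scale `R`. -/
noncomputable def cB (β R : ℝ) (u : ℝ) : ℂ := ((chit (u / R ^ 2) : ℝ) : ℂ) * gB β 1 u

theorem cB_lo {β R : ℝ} (hR : 0 < R) (u : ℝ) (h : u < R ^ 2 / 16) : cB β R u = 0 := by
  unfold cB
  rw [chit_lo]; · simp
  rw [div_lt_iff₀ (by positivity)]; linarith

theorem cB_hi {β R : ℝ} (hR : 0 < R) (u : ℝ) (h : 8 * R ^ 2 < u) : cB β R u = 0 := by
  unfold cB
  rw [chit_hi]; · simp
  rw [lt_div_iff₀ (by positivity)]; linarith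

theorem contDiff_cB {β R : ℝ} (hR : 0 < R) : ContDiff ℝ ∞ (cB β R) := by
  rw [contDiff_iff_contDiffAt]
  intro u
  have hR2 : 0 < R ^ 2 := by positivity
  by_cases h : u < R ^ 2 / 16
  · have : cB β R =ᶠ[𝓝 u] fun _ => 0 := by
      filter_upwards [Iio_mem_nhds h] with v hv
      exact cB_lo hR v hv
    exact contDiffAt_const.congr_of_eventuallyEq this
  · push Not at h
    have hu : 0 < u := by linarith
    have h1 : ContDiff ℝ ∞ fun u : ℝ => ((chit (u / R ^ 2) : ℝ) : ℂ) :=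
      Complex.ofRealCLM.contDiff.comp (contDiff_chit.comp (contDiff_id.div_const _))
    exact h1.contDiffAt.mul (contDiffAt_gB β zero_le_one hu)

theorem comp_cB {β R : ℝ} (hR : 0 < R) : HasCompactSupport (cB β R) := by
  refine HasCompactSupport.intro (isCompact_Icc (a := R ^ 2 / 16) (b := 8 * R ^ 2)) fun u hu => ?_
  rw [mem_Icc, not_and_or, not_le, not_le] at hu
  rcases hu with hu | hu
  · exact cB_lo hR u hu
  · exact cB_hi hR u hu

/-- the annular Bessel symbol. -/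
noncomputable def bT (β : ℝ) {R : ℝ} (hR : 0 < R) : 𝓢(V, ℂ) := rS (contDiff_cB (β := β) hR) (comp_cB hR)

theorem bT_apply (β : ℝ) {R : ℝ} (hR : 0 < R) (ξ : V) :
    bT β hR ξ = ((chit (‖ξ‖ ^ 2 / R ^ 2) * Bb ξ ^ (-β) : ℝ) : ℂ) := by
  unfold bT
  rw [rS_apply]
  unfold cB gB Bb
  push_cast
  rfl

theorem L1_bT {β : ℝ} (hβ : 0 ≤ β) : ∃ A : ℝ, 0 < A ∧ ∀ (R : ℝ) (hR : 0 < R),
    ∫⁻ x, ‖ker (bT β hR) x‖ₑ ≤ ENNReal.ofReal (A * R ^ (-(2 * β))) := by
  obtain ⟨M, hM⟩ := exists_Pf_bessel hβ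
  have hM0 := (hM 1 zero_le_one).nonneg
  refine ⟨10000 * M + 1, by positivity, fun R hR => ?_⟩
  set s : ℝ := (R ^ 2)⁻¹ with hs
  have hs0 : 0 ≤ s := by positivity
  set A : ℝ → ℂ := fun u => ((chit u : ℝ) : ℂ) * gB β s u with hA
  have e : (bT β hR : V → ℂ) = fun ξ : V => ((R ^ (-(2 * β)) : ℝ) : ℂ) * rs (osc 0 A) (R⁻¹ • ξ) := by
    funext ξ
    rw [bT_apply, osc_zero]
    unfold rs
    rw [hA]
    unfold gB
    have e1 : ‖R⁻¹ • ξ‖ ^ 2 = ‖ξ‖ ^ 2 / R ^ 2 := by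
      rw [norm_smul, norm_inv, Real.norm_of_nonneg hR.le]
      field_simp
    have e2 : Bb ξ = R ^ 2 * (s + 4 * π ^ 2 * (‖ξ‖ ^ 2 / R ^ 2)) := by
      unfold Bb
      rw [hs]
      field_simp
    have e3 : (R ^ 2 : ℝ) ^ (-β) = R ^ (-(2 * β)) := by
      rw [← Real.rpow_natCast R 2, ← Real.rpow_mul hR.le]
      congr 1
      push_cast
      ring
    simp only [e1]
    rw [e2, Real.mul_rpow (by positivity) (by positivity), e3]
    push_cast
    ring
  unfold ker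
  rw [e]
  have e4 : ∀ x : V, 𝓕⁻ (fun ξ : V => ((R ^ (-(2 * β)) : ℝ) : ℂ) * rs (osc 0 A) (R⁻¹ • ξ)) x
      = ((R ^ (-(2 * β)) : ℝ) : ℂ) * 𝓕⁻ (fun ξ : V => rs (osc 0 A) (R⁻¹ • ξ)) x := by
    intro x
    rw [Real.fourierInv_eq, Real.fourierInv_eq, ← integral_const_mul]
    congr 1
    funext ξ
    rw [mul_smul_comm]
  simp_rw [e4, enorm_mul]
  rw [lintegral_const_mul' _ _ (by simp), lint_dil _ hR]
  have h4 : ‖((R ^ (-(2 * β)) : ℝ) : ℂ)‖ₑ = ENNReal.ofReal (R ^ (-(2 * β))) := by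
    rw [← ofReal_norm, Complex.norm_real, Real.norm_of_nonneg (by positivity)]
  rw [h4]
  calc ENNReal.ofReal (R ^ (-(2 * β))) * ∫⁻ x, ‖𝓕⁻ (rs (osc 0 A)) x‖ₑ
      ≤ ENNReal.ofReal (R ^ (-(2 * β))) * ENNReal.ofReal (10000 * (1 + 0) * M) := by
        gcongr
        exact (hM s hs0).L1 le_rfl
    _ = ENNReal.ofReal (R ^ (-(2 * β)) * (10000 * (1 + 0) * M)) := by
        rw [← ENNReal.ofReal_mul (by positivity)]
    _ ≤ _ := by
        apply ENNReal.ofReal_le_ofReal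
        have : 0 < R ^ (-(2 * β)) := by positivity
        nlinarith

/-- the low frequency symbol. -/
noncomputable def lT {R : ℝ} (hR : 0 < R) (t : ℝ) : 𝓢(V, ℂ) := mT hR t - mT hR 0

theorem lT_apply {R : ℝ} (hR : 0 < R) (t : ℝ) (ξ : V) :
    lT hR t ξ = ((chi (‖ξ‖ ^ 2 / R ^ 2) : ℝ) : ℂ) *
      (Complex.exp (((2 * π * t * ‖ξ‖ : ℝ) : ℂ) * Complex.I) - 1) := by
  unfold lT
  rw [sub_apply, mT_apply, mT_apply]
  unfold mW
  rw [phi0_of_nonneg (by positivity), div_pow]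
  simp
  ring

theorem L1_lT : ∃ A : ℝ, 0 < A ∧ ∀ (R : ℝ) (hR : 0 < R) (t : ℝ), R ≤ 1 → 0 ≤ t → t ≤ 2 →
    ∫⁻ x, ‖ker (lT hR t) x‖ₑ ≤ ENNReal.ofReal (A * R) := by
  obtain ⟨M, hM⟩ := exists_Pf_low
  have hM0 : 0 ≤ M := by
    have := (hM 1 (by norm_num) (by norm_num)).nonneg
    linarith
  refine ⟨20000 * M + 1, by positivity, fun R hR t hR1 ht0 ht2 => ?_⟩
  set A : ℝ → ℂ := fun u => ((chi u : ℝ) : ℂ) * gL (t * R) u with hA
  have e : (lT hR t : V → ℂ) = fun ξ : V => rs (osc 0 A) (R⁻¹ • ξ) := by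
    funext ξ
    rw [lT_apply, osc_zero]
    unfold rs
    rw [hA]
    unfold gL EE
    have e1 : ‖R⁻¹ • ξ‖ ^ 2 = ‖ξ‖ ^ 2 / R ^ 2 := by
      rw [norm_smul, norm_inv, Real.norm_of_nonneg hR.le]
      field_simp
    have e2 : Real.sqrt (‖ξ‖ ^ 2 / R ^ 2) = ‖ξ‖ / R := by
      rw [← div_pow, Real.sqrt_sq (by positivity)]
    simp only [e1, e2]
    have e3 : 2 * π * (t * R) * (‖ξ‖ / R) = 2 * π * t * ‖ξ‖ := by field_simp
    rw [e3]
  unfold ker
  rw [e, lint_dil _ hR]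
  refine ((hM (t * R) (by positivity) (by nlinarith)).L1 le_rfl).trans
    (ENNReal.ofReal_le_ofReal ?_)
  have h5 : t * R ≤ 2 * R := by nlinarith
  have h6 : M * (t * R) ≤ M * (2 * R) := mul_le_mul_of_nonneg_left h5 hM0
  nlinarith

theorem ker_lT {R : ℝ} (hR : 0 < R) (t : ℝ) (x : V) :
    ker (lT hR t) x = KW phi0 R t x - KW phi0 R 0 x := by
  rw [← ker_mT hR, ← ker_mT hR, ker_coe, ker_coe, ker_coe]
  unfold lT
  have : 𝓕⁻ (mT hR t - mT hR 0) = 𝓕⁻ (mT hR t) - 𝓕⁻ (mT hR 0) :=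
    map_sub (FourierTransform.fourierCLE ℂ 𝓢(V, ℂ)).symm _ _
  rw [this, sub_apply]

theorem continuous_ker_lT {R : ℝ} (hR : 0 < R) :
    Continuous fun z : V × ℝ => ker (lT hR z.2) z.1 := by
  simp_rw [ker_lT]
  refine (continuous_KW hR).sub ?_
  exact (continuous_KW hR).comp (continuous_fst.prodMk continuous_const)

/-- the Bessel potential of order `2 β` of a Schwartz function. -/
theorem exists_bessel (β : ℝ) (f : 𝓢(V, ℂ)) : ∃ g : 𝓢(V, ℂ),
    (∀ ξ, (𝓕 g) ξ = ((Bb ξ ^ β : ℝ) : ℂ) * (𝓕 f) ξ) ∧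
    (g : V → ℂ) = 𝓕⁻ (fun ξ : V => ((Bb ξ ^ β : ℝ)) • 𝓕 (f : V → ℂ) ξ) := by
  have hT : (fun ξ : V => ((Bb ξ ^ β : ℝ) : ℂ)).HasTemperateGrowth := by
    have h0 := Function.hasTemperateGrowth_one_add_norm_sq_rpow V β
    have h1 : (fun ξ : V => (2 * π) • ξ).HasTemperateGrowth := by fun_prop
    have h2 := h0.comp h1
    have h3 : (fun ξ : V => (Bb ξ ^ β : ℝ)).HasTemperateGrowth := by
      have e : (fun ξ : V => (Bb ξ ^ β : ℝ))
          = (fun x : V => (1 + ‖x‖ ^ 2) ^ β) ∘ (fun ξ : V => (2 * π) • ξ) := by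
        funext ξ
        simp only [Function.comp]
        rw [norm_smul, Real.norm_of_nonneg (by positivity)]
        unfold Bb
        congr 1
        ring
      rw [e]
      exact h2
    fun_prop
  refine ⟨𝓕⁻ (SchwartzMap.smulLeftCLM ℂ (fun ξ : V => ((Bb ξ ^ β : ℝ) : ℂ)) (𝓕 f)), fun ξ => ?_, ?_⟩
  · rw [FourierTransform.fourier_fourierInv_eq, SchwartzMap.smulLeftCLM_apply_apply hT, smul_eq_mul]
  · rw [SchwartzMap.fourierInv_coe, SchwartzMap.smulLeftCLM_apply hT]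
    refine congrArg (fun h : V → ℂ => 𝓕⁻ h) ?_
    funext ξ
    rw [smul_eq_mul, Complex.real_smul]
    rfl

end Crest.Agent.R116.Sh927
end

-- ▼ part R116/Wk9_927
section

/-!
R116, outer shell (9): the Littlewood–Paley sum and the outer shell theorem `S0155_of_C3w`.
-/

set_option autoImplicit false

open MeasureTheory FourierTransform LineDeriv Set Filter
open scoped ContDiff Real SchwartzMap ENNReal Convolution Topology

namespace Crest.Agent.R116.Sh927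

open Crest.Agent.R138.Fr665 (cv)
open Crest.Agent.R138.Sh200

/-! ### norm forms of the estimates -/

theorem lint_eq_eLpNorm' {α : Type*} [MeasurableSpace α] (μ : Measure α) {p : ℝ} (hp : 0 < p)
    (g : α → ℂ) :
    ∫⁻ x, ENNReal.ofReal (‖g x‖ ^ p) ∂μ = (eLpNorm g (ENNReal.ofReal p) μ) ^ p := by
  rw [eLpNorm_eq_lintegral_rpow_enorm_toReal (by simpa using hp) ENNReal.ofReal_ne_top,
    ENNReal.toReal_ofReal hp.le, ← ENNReal.rpow_mul, one_div_mul_cancel hp.ne', ENNReal.rpow_one]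
  refine lintegral_congr fun x => ?_
  rw [← ofReal_norm, ENNReal.ofReal_rpow_of_nonneg (norm_nonneg _) hp.le]

/-- Young. -/
theorem young {K g : V → ℂ} (hK : Measurable K) (hg : Measurable g) {p : ℝ} (hp : 1 ≤ p) {B : ℝ≥0∞}
    (hB : ∫⁻ y, ‖K y‖ₑ ≤ B) :
    eLpNorm (cv K g) (ENNReal.ofReal p) volume ≤ B * eLpNorm g (ENNReal.ofReal p) volume := by
  have hp0 : 0 < p := by linarith
  have h1 := Crest.Agent.R138.Fr665.lint_cv_rpow hK hg hp
  have e : ∀ h : V → ℂ, ∫⁻ x, ‖h x‖ₑ ^ p = (eLpNorm h (ENNReal.ofReal p) volume) ^ p := by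
    intro h
    rw [← lint_eq_eLpNorm' volume hp0]
    refine lintegral_congr fun x => ?_
    rw [← ofReal_norm, ENNReal.ofReal_rpow_of_nonneg (norm_nonneg _) hp0.le]
  rw [e, e, ← ENNReal.mul_rpow_of_nonneg _ _ hp0.le] at h1
  have h2 := (ENNReal.rpow_le_rpow_iff hp0).mp h1
  exact h2.trans (by gcongr)

/-- from fixed time to the slab. -/
theorem slab_le {F : V × ℝ → ℂ} (hF : Measurable F) {p : ℝ} (hp : 0 < p) {B : ℝ≥0∞}
    (h : ∀ t ∈ Icc (1:ℝ) 2, eLpNorm (fun x => F (x, t)) (ENNReal.ofReal p) volume ≤ B) :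
    eLpNorm F (ENNReal.ofReal p) nu ≤ B := by
  have h1 : ∫⁻ z, ENNReal.ofReal (‖F z‖ ^ p) ∂nu ≤ B ^ p := by
    refine lint_nu_le (hF.norm.pow_const _).ennreal_ofReal fun t ht => ?_
    rw [lint_eq_eLpNorm' volume hp]
    exact ENNReal.rpow_le_rpow (h t ht) hp.le
  rw [lint_eq_eLpNorm' nu hp] at h1
  exact (ENNReal.rpow_le_rpow_iff hp).mp h1

/-- the high frequency estimate in norm form. -/
theorem high_le (h3 : C3p phi0) {p : ℝ} (hp : 2 ≤ p) {ε : ℝ} (hε : 0 < ε) :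
    ∃ C : ℝ, 0 < C ∧ ∀ R : ℝ, 1 ≤ R → ∀ f : V → ℂ, BM f →
      eLpNorm (fun z : V × ℝ => cv (KW phi0 R z.2) f z.1) (ENNReal.ofReal p) nu
        ≤ ENNReal.ofReal (C * R ^ (max 0 (1 - 3 / p) + ε)) *
          eLpNorm f (ENNReal.ofReal p) volume := by
  have hp0 : 0 < p := by linarith
  obtain ⟨C, hC, h⟩ := family_st h3 hp (mul_pos hp0 hε)
  refine ⟨C ^ (1 / p), by positivity, fun R hR f hf => ?_⟩
  have hR0 : 0 < R := by linarith
  have h1 := h R hR f hf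
  rw [lint_eq_eLpNorm' nu hp0 (fun z : V × ℝ => cv (KW phi0 R z.2) f z.1),
    lint_eq_eLpNorm' volume hp0] at h1
  have h2 := ENNReal.rpow_le_rpow h1 (by positivity : 0 ≤ 1 / p)
  rw [ENNReal.mul_rpow_of_nonneg _ _ (by positivity), ← ENNReal.rpow_mul, ← ENNReal.rpow_mul,
    mul_one_div_cancel hp0.ne', ENNReal.rpow_one, ENNReal.rpow_one,
    ENNReal.ofReal_rpow_of_nonneg (by positivity) (by positivity)] at h2
  refine h2.trans (le_of_eq ?_)
  congr 2
  rw [Real.mul_rpow hC.le (by positivity), ← Real.rpow_mul hR0.le]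
  congr 2
  rw [add_mul, max_mul_of_nonneg _ _ (by positivity : 0 ≤ 1 / p), zero_mul, max_comm]
  congr 1
  · congr 1
    field_simp
  · field_simp

/-! ### the pieces -/

/-- the frequency-side action of a symbol. -/
noncomputable def opS (m g : 𝓢(V, ℂ)) : 𝓢(V, ℂ) :=
  𝓕⁻ (SchwartzMap.pairing (ContinuousLinearMap.mul ℂ ℂ) m (𝓕 g))

theorem opS_coe (m g : 𝓢(V, ℂ)) : (opS m g : V → ℂ) = cv (ker m) g := by
  funext x
  rw [cv_ker_schwartz]
  rfl

theorem fourier_opS (m g : 𝓢(V, ℂ)) (ξ : V) : (𝓕 (opS m g)) ξ = m ξ * (𝓕 g) ξ := by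
  unfold opS
  rw [FourierTransform.fourier_fourierInv_eq]
  rfl

theorem young_opS (m g : 𝓢(V, ℂ)) {p : ℝ} (hp : 1 ≤ p) {B : ℝ≥0∞} (hB : ∫⁻ y, ‖ker m y‖ₑ ≤ B) :
    eLpNorm (opS m g) (ENNReal.ofReal p) volume ≤ B * eLpNorm g (ENNReal.ofReal p) volume := by
  rw [opS_coe]
  exact young (measurable_ker m) g.continuous.measurable hp hB

theorem pw_pos (k : ℕ) : (0:ℝ) < 2 ^ k := by positivity

theorem pwi_pos (k : ℕ) : (0:ℝ) < (2 ^ k)⁻¹ := by positivity

/-- the partial sums, on the frequency side. -/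
noncomputable def PN (mz m0 : 𝓢(V, ℂ)) (β : ℝ) (g : 𝓢(V, ℂ)) (N : ℕ) (t : ℝ) : 𝓢(V, ℂ) :=
  opS mz g + ∑ j ∈ Finset.range N, opS (lT (pwi_pos j) t) (opS m0 g)
    + ∑ k ∈ Finset.range N, opS (mT (pw_pos (k + 1)) t) (opS (bT β (pw_pos (k + 1))) g)

theorem sum_lo (N : ℕ) (u : ℝ) :
    ∑ j ∈ Finset.range N, chi (u / ((2 ^ j)⁻¹) ^ 2) = bet u - bet (4 ^ N * u) := by
  induction N with
  | zero => simp
  | succ n ih =>
    rw [Finset.sum_range_succ, ih]
    have e : u / ((2 ^ n)⁻¹ : ℝ) ^ 2 = 4 ^ n * u := by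
      rw [inv_pow, div_inv_eq_mul, ← pow_mul, mul_comm n 2, pow_mul]
      norm_num
      ring
    rw [e]
    unfold chi
    rw [show 4 * (4 ^ n * u) = 4 ^ (n + 1) * u by ring]
    ring

theorem sum_hi (N : ℕ) (u : ℝ) :
    ∑ k ∈ Finset.range N, chi (u / (2 ^ (k + 1)) ^ 2) = bet (u / 4 ^ N) - bet u := by
  induction N with
  | zero => simp
  | succ n ih =>
    rw [Finset.sum_range_succ, ih]
    have e : u / ((2:ℝ) ^ (n + 1)) ^ 2 = u / 4 ^ (n + 1) := by
      rw [← pow_mul, mul_comm (n + 1) 2, pow_mul]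
      norm_num
    rw [e]
    unfold chi
    rw [show 4 * (u / 4 ^ (n + 1)) = u / 4 ^ n by rw [pow_succ]; field_simp]
    ring

theorem PN_fourier {mz m0 : 𝓢(V, ℂ)} {β : ℝ}
    (hz : ∀ ξ : V, mz ξ = ((bet (‖ξ‖ ^ 2 / 1) * Bb ξ ^ (-β) : ℝ) : ℂ))
    (h0 : ∀ ξ : V, m0 ξ = ((bet (‖ξ‖ ^ 2 / 4) * Bb ξ ^ (-β) : ℝ) : ℂ))
    {f g : 𝓢(V, ℂ)} (hg : ∀ ξ, (𝓕 g) ξ = ((Bb ξ ^ β : ℝ) : ℂ) * (𝓕 f) ξ)
    (N : ℕ) (t : ℝ) (ξ : V) :
    (𝓕 (PN mz m0 β g N t)) ξ =
      (((bet (‖ξ‖ ^ 2) : ℝ) : ℂ)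
        + (Complex.exp (((2 * π * t * ‖ξ‖ : ℝ) : ℂ) * Complex.I) - 1) *
          ((bet (‖ξ‖ ^ 2) - bet (4 ^ N * ‖ξ‖ ^ 2) : ℝ) : ℂ)
        + Complex.exp (((2 * π * t * ‖ξ‖ : ℝ) : ℂ) * Complex.I) *
          ((bet (‖ξ‖ ^ 2 / 4 ^ N) - bet (‖ξ‖ ^ 2) : ℝ) : ℂ)) * (𝓕 f) ξ := by
  have hB : ((Bb ξ ^ (-β) : ℝ) : ℂ) * ((Bb ξ ^ β : ℝ) : ℂ) = 1 := by
    rw [← Complex.ofReal_mul, ← Real.rpow_add (Bb_pos ξ), neg_add_cancel, Real.rpow_zero,
      Complex.ofReal_one]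
  unfold PN
  rw [FourierTransform.fourier_add, FourierTransform.fourier_add, FourierTransform.fourier_sum,
    FourierTransform.fourier_sum, add_apply, add_apply, sum_apply, sum_apply]
  have e1 : ∀ j ∈ Finset.range N, (𝓕 (opS (lT (pwi_pos j) t) (opS m0 g))) ξ
      = (Complex.exp (((2 * π * t * ‖ξ‖ : ℝ) : ℂ) * Complex.I) - 1) *
        ((chi (‖ξ‖ ^ 2 / ((2 ^ j)⁻¹) ^ 2) : ℝ) : ℂ) * (𝓕 f) ξ := by
    intro j _
    rw [fourier_opS, fourier_opS, lT_apply, h0, hg]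
    have hc : ((chi (‖ξ‖ ^ 2 / ((2 ^ j)⁻¹) ^ 2) : ℝ) : ℂ) * ((bet (‖ξ‖ ^ 2 / 4) : ℝ) : ℂ)
        = ((chi (‖ξ‖ ^ 2 / ((2 ^ j)⁻¹) ^ 2) : ℝ) : ℂ) := by
      by_cases h : 2 < ‖ξ‖ ^ 2 / ((2 ^ j)⁻¹) ^ 2
      · rw [chi_hi h]; simp
      · push Not at h
        have h1 : (((2:ℝ) ^ j)⁻¹) ^ 2 ≤ 1 := by
          have : ((2:ℝ) ^ j)⁻¹ ≤ 1 := inv_le_one_of_one_le₀ (one_le_pow₀ (by norm_num))
          nlinarith [pwi_pos j]
        rw [div_le_iff₀ (by positivity)] at h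
        rw [bet_one (by linarith)]
        simp
    calc _ = (((chi (‖ξ‖ ^ 2 / ((2 ^ j)⁻¹) ^ 2) : ℝ) : ℂ) * ((bet (‖ξ‖ ^ 2 / 4) : ℝ) : ℂ)) *
          (Complex.exp (((2 * π * t * ‖ξ‖ : ℝ) : ℂ) * Complex.I) - 1) *
          (((Bb ξ ^ (-β) : ℝ) : ℂ) * ((Bb ξ ^ β : ℝ) : ℂ)) * (𝓕 f) ξ := by
            push_cast; ring
      _ = _ := by rw [hc, hB]; ring
  have e2 : ∀ k ∈ Finset.range N,
      (𝓕 (opS (mT (pw_pos (k + 1)) t) (opS (bT β (pw_pos (k + 1))) g))) ξ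
      = Complex.exp (((2 * π * t * ‖ξ‖ : ℝ) : ℂ) * Complex.I) *
        ((chi (‖ξ‖ ^ 2 / (2 ^ (k + 1)) ^ 2) : ℝ) : ℂ) * (𝓕 f) ξ := by
    intro k _
    rw [fourier_opS, fourier_opS, mT_apply, bT_apply, hg]
    unfold mW
    rw [phi0_of_nonneg (by positivity), div_pow]
    have hc : ((chi (‖ξ‖ ^ 2 / (2 ^ (k + 1)) ^ 2) : ℝ) : ℂ) *
        ((chit (‖ξ‖ ^ 2 / (2 ^ (k + 1)) ^ 2) : ℝ) : ℂ)
        = ((chi (‖ξ‖ ^ 2 / (2 ^ (k + 1)) ^ 2) : ℝ) : ℂ) := by
      rw [← Complex.ofReal_mul, chi_mul_chit]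
    calc _ = (((chi (‖ξ‖ ^ 2 / (2 ^ (k + 1)) ^ 2) : ℝ) : ℂ) *
        ((chit (‖ξ‖ ^ 2 / (2 ^ (k + 1)) ^ 2) : ℝ) : ℂ)) *
          Complex.exp (((2 * π * t * ‖ξ‖ : ℝ) : ℂ) * Complex.I) *
          (((Bb ξ ^ (-β) : ℝ) : ℂ) * ((Bb ξ ^ β : ℝ) : ℂ)) * (𝓕 f) ξ := by
            push_cast; ring
      _ = _ := by rw [hc, hB]; ring
  rw [Finset.sum_congr rfl e1, Finset.sum_congr rfl e2, ← Finset.sum_mul, ← Finset.sum_mul,
    ← Finset.mul_sum, ← Finset.mul_sum, ← Complex.ofReal_sum, ← Complex.ofReal_sum, sum_lo, sum_hi,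
    fourier_opS, hz, hg, div_one]
  have e3 : (((bet (‖ξ‖ ^ 2) * Bb ξ ^ (-β) : ℝ) : ℂ)) * (((Bb ξ ^ β : ℝ) : ℂ) * (𝓕 f) ξ)
      = ((bet (‖ξ‖ ^ 2) : ℝ) : ℂ) * (𝓕 f) ξ := by
    calc _ = ((bet (‖ξ‖ ^ 2) : ℝ) : ℂ) * (((Bb ξ ^ (-β) : ℝ) : ℂ) * ((Bb ξ ^ β : ℝ) : ℂ)) *
          (𝓕 f) ξ := by push_cast; ring
      _ = _ := by rw [hB, mul_one]
  rw [e3]
  ring

end Crest.Agent.R116.Sh927
end

-- ▼ part R116/Wk10_927

/-!
R116, outer shell (10): the outer shell theorem `S0155_of_C3w`.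
-/

set_option autoImplicit false

open MeasureTheory FourierTransform LineDeriv Set Filter
open scoped ContDiff Real SchwartzMap ENNReal Convolution Topology

namespace Crest.Agent.R116.Sh927

open Crest.Agent.R138.Fr665 (cv)
open Crest.Agent.R138.Sh200

/-- the partial-sum multiplier. -/
noncomputable def sg (N : ℕ) (t : ℝ) (ξ : V) : ℂ :=
  ((bet (‖ξ‖ ^ 2) : ℝ) : ℂ)
    + (Complex.exp (((2 * π * t * ‖ξ‖ : ℝ) : ℂ) * Complex.I) - 1) *
      ((bet (‖ξ‖ ^ 2) - bet (4 ^ N * ‖ξ‖ ^ 2) : ℝ) : ℂ)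
    + Complex.exp (((2 * π * t * ‖ξ‖ : ℝ) : ℂ) * Complex.I) *
      ((bet (‖ξ‖ ^ 2 / 4 ^ N) - bet (‖ξ‖ ^ 2) : ℝ) : ℂ)

theorem continuous_sg (N : ℕ) (t : ℝ) : Continuous (sg N t) := by
  unfold sg
  have := contDiff_bet.continuous
  fun_prop

theorem norm_sg_le (N : ℕ) (t : ℝ) (ξ : V) : ‖sg N t ξ‖ ≤ 4 := by
  unfold sg
  have hb : ∀ a b : ℝ, ‖((bet a - bet b : ℝ) : ℂ)‖ ≤ 1 := by
    intro a b
    rw [Complex.norm_real, Real.norm_eq_abs, abs_le]
    have h1 := bet_nonneg a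
    have h2 := bet_le_one a
    have h3 := bet_nonneg b
    have h4 := bet_le_one b
    constructor <;> linarith
  have he : ‖Complex.exp (((2 * π * t * ‖ξ‖ : ℝ) : ℂ) * Complex.I)‖ = 1 :=
    Complex.norm_exp_ofReal_mul_I _
  have h1 : ‖((bet (‖ξ‖ ^ 2) : ℝ) : ℂ)‖ ≤ 1 := by
    rw [Complex.norm_real, Real.norm_of_nonneg (bet_nonneg _)]
    exact bet_le_one _
  have h2 : ‖Complex.exp (((2 * π * t * ‖ξ‖ : ℝ) : ℂ) * Complex.I) - 1‖ ≤ 2 := by
    refine (norm_sub_le _ _).trans ?_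
    rw [he, norm_one]; norm_num
  refine (norm_add_le _ _).trans ?_
  refine (add_le_add (norm_add_le _ _) le_rfl).trans ?_
  rw [norm_mul, norm_mul, he]
  have h3 := hb (‖ξ‖ ^ 2) (4 ^ N * ‖ξ‖ ^ 2)
  have h4 := hb (‖ξ‖ ^ 2 / 4 ^ N) (‖ξ‖ ^ 2)
  have h5 : ‖Complex.exp (((2 * π * t * ‖ξ‖ : ℝ) : ℂ) * Complex.I) - 1‖ *
      ‖((bet (‖ξ‖ ^ 2) - bet (4 ^ N * ‖ξ‖ ^ 2) : ℝ) : ℂ)‖ ≤ 2 * 1 := by gcongr
  linarith

theorem tendsto_sg (t : ℝ) (ξ : V) : Tendsto (fun N => sg N t ξ) atTop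
    (𝓝 (Complex.exp (((2 * π * t * ‖ξ‖ : ℝ) : ℂ) * Complex.I))) := by
  have hhi : ∀ᶠ N : ℕ in atTop, bet (‖ξ‖ ^ 2 / 4 ^ N) = 1 := by
    have h2 : Tendsto (fun N : ℕ => (4:ℝ) ^ N) atTop atTop :=
      tendsto_pow_atTop_atTop_of_one_lt (by norm_num)
    filter_upwards [h2.eventually_ge_atTop (‖ξ‖ ^ 2)] with N hN
    apply bet_one
    rw [div_le_one (by positivity)]
    exact hN
  rcases eq_or_ne ξ 0 with rfl | hξ
  · have : ∀ N, sg N t 0 = 1 := by
      intro N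
      unfold sg
      simp
      rw [bet_one (by norm_num)]
    simp_rw [this]
    simp
  · have hpos : 0 < ‖ξ‖ ^ 2 := by positivity
    have hlo : ∀ᶠ N : ℕ in atTop, bet (4 ^ N * ‖ξ‖ ^ 2) = 0 := by
      have h2 : Tendsto (fun N : ℕ => (4:ℝ) ^ N * ‖ξ‖ ^ 2) atTop atTop :=
        (tendsto_pow_atTop_atTop_of_one_lt (by norm_num)).atTop_mul_const hpos
      filter_upwards [h2.eventually_ge_atTop 2] with N hN
      exact bet_zero hN
    have hev : ∀ᶠ N : ℕ in atTop,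
        Complex.exp (((2 * π * t * ‖ξ‖ : ℝ) : ℂ) * Complex.I) = sg N t ξ := by
      filter_upwards [hhi, hlo] with N h1 h2
      unfold sg
      rw [h1, h2]
      push_cast
      ring
    exact tendsto_const_nhds.congr' hev

section limit

variable {mz m0 : 𝓢(V, ℂ)} {β : ℝ}
    (hz : ∀ ξ : V, mz ξ = ((bet (‖ξ‖ ^ 2 / 1) * Bb ξ ^ (-β) : ℝ) : ℂ))
    (h0 : ∀ ξ : V, m0 ξ = ((bet (‖ξ‖ ^ 2 / 4) * Bb ξ ^ (-β) : ℝ) : ℂ))
    {f g : 𝓢(V, ℂ)} (hg : ∀ ξ, (𝓕 g) ξ = ((Bb ξ ^ β : ℝ) : ℂ) * (𝓕 f) ξ)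

include hz h0 hg

theorem PN_apply (N : ℕ) (t : ℝ) (x : V) :
    PN mz m0 β g N t x = 𝓕⁻ (fun ξ : V => sg N t ξ * 𝓕 (f : V → ℂ) ξ) x := by
  have h1 : PN mz m0 β g N t = 𝓕⁻ (𝓕 (PN mz m0 β g N t)) :=
    (FourierTransform.fourierInv_fourier_eq _).symm
  rw [h1, SchwartzMap.fourierInv_coe]
  refine congrArg (fun h : V → ℂ => 𝓕⁻ h x) ?_
  funext ξ
  rw [PN_fourier hz h0 hg]
  rfl

theorem tendsto_PN (t : ℝ) (x : V) :
    Tendsto (fun N => PN mz m0 β g N t x) atTop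
      (𝓝 (𝓕⁻ (fun ξ : V => Complex.exp (((2 * π * t * ‖ξ‖ : ℝ) : ℂ) * Complex.I)
        • 𝓕 (f : V → ℂ) ξ) x)) := by
  simp_rw [PN_apply hz h0 hg, Real.fourierInv_eq]
  refine tendsto_integral_of_dominated_convergence (fun ξ => 4 * ‖𝓕 (f : V → ℂ) ξ‖) ?_ ?_ ?_ ?_
  · intro N
    apply Continuous.aestronglyMeasurable
    have h1 : Continuous fun ξ : V => 𝓕 (f : V → ℂ) ξ := by
      have := (𝓕 f).continuous
      exact this
    have h2 : Continuous fun ξ : V => (𝐞 (inner ℝ ξ x) : ℂ) := by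
      have := Real.continuous_fourierChar
      fun_prop
    exact h2.mul ((continuous_sg N t).mul h1)
  · exact (𝓕 f).integrable.norm.const_mul 4
  · intro N
    refine Filter.Eventually.of_forall fun ξ => ?_
    rw [Circle.norm_smul, norm_mul]
    gcongr
    exact norm_sg_le N t ξ
  · refine Filter.Eventually.of_forall fun ξ => ?_
    exact ((tendsto_sg t ξ).mul_const (𝓕 (f : V → ℂ) ξ)).const_smul (𝐞 (inner ℝ ξ x))

end limit

/-- the space-time pieces. -/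
noncomputable def pc0 (mz g : 𝓢(V, ℂ)) (z : V × ℝ) : ℂ := opS mz g z.1

/-- low frequency piece. -/
noncomputable def pc1 (m0 g : 𝓢(V, ℂ)) (j : ℕ) (z : V × ℝ) : ℂ :=
  opS (lT (pwi_pos j) z.2) (opS m0 g) z.1

/-- high frequency piece. -/
noncomputable def pc2 (β : ℝ) (g : 𝓢(V, ℂ)) (k : ℕ) (z : V × ℝ) : ℂ :=
  opS (mT (pw_pos (k + 1)) z.2) (opS (bT β (pw_pos (k + 1))) g) z.1

theorem PN_eq (mz m0 : 𝓢(V, ℂ)) (β : ℝ) (g : 𝓢(V, ℂ)) (N : ℕ) :
    (fun z : V × ℝ => PN mz m0 β g N z.2 z.1)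
      = pc0 mz g + ∑ j ∈ Finset.range N, pc1 m0 g j + ∑ k ∈ Finset.range N, pc2 β g k := by
  funext z
  unfold PN
  rw [add_apply, add_apply, sum_apply, sum_apply]
  simp only [Pi.add_apply, Finset.sum_apply]
  rfl

theorem measurable_pc0 (mz g : 𝓢(V, ℂ)) : Measurable (pc0 mz g) :=
  ((opS mz g).continuous.comp continuous_fst).measurable

theorem measurable_pc1 (m0 g : 𝓢(V, ℂ)) (j : ℕ) : Measurable (pc1 m0 g j) := by
  unfold pc1
  simp_rw [opS_coe (lT _ _)]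
  exact measurable_conv_gen (G := fun z : V × ℝ => ker (lT (pwi_pos j) z.2) z.1)
    (continuous_ker_lT (pwi_pos j)) continuous_id (opS m0 g).continuous.measurable

theorem pc2_eq (β : ℝ) (g : 𝓢(V, ℂ)) (k : ℕ) : pc2 β g k = fun z : V × ℝ =>
    cv (KW phi0 (2 ^ (k + 1)) z.2) (opS (bT β (pw_pos (k + 1))) g) z.1 := by
  unfold pc2
  funext z
  rw [opS_coe (mT _ _), ker_mT]

theorem measurable_pc2 (β : ℝ) (g : 𝓢(V, ℂ)) (k : ℕ) : Measurable (pc2 β g k) := by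
  rw [pc2_eq]
  exact measurable_stcv (pw_pos (k + 1)) continuous_id
    (opS (bT β (pw_pos (k + 1))) g).continuous.measurable

/-- **the outer shell**: `(C3p phi0)` implies the statement. -/
theorem S0155_of_C3p (h3 : C3p phi0) (p : ℝ) (hp : 2 < p) (α : ℝ)
    (hα : max 0 (1 - 3 / p) < α) :
    ∃ C : ℝ, ∀ f : SchwartzMap (EuclideanSpace ℝ (Fin 3)) ℂ,
      MeasureTheory.eLpNorm
          (fun z : (EuclideanSpace ℝ (Fin 3)) × ℝ =>
            𝓕⁻ (fun ξ : EuclideanSpace ℝ (Fin 3) =>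
              Complex.exp (2 * Real.pi * z.2 * ‖ξ‖ * Complex.I) • 𝓕 (⇑f) ξ) z.1)
          (ENNReal.ofReal p)
          ((MeasureTheory.volume : MeasureTheory.Measure (EuclideanSpace ℝ (Fin 3))).prod
            (MeasureTheory.volume.restrict (Set.Icc (1 : ℝ) 2))) ≤
        ENNReal.ofReal C *
          MeasureTheory.eLpNorm
            (𝓕⁻ (fun ξ : EuclideanSpace ℝ (Fin 3) =>
              ((1 + 4 * Real.pi ^ 2 * ‖ξ‖ ^ 2) ^ (α / 2) : ℝ) • 𝓕 (⇑f) ξ))
            (ENNReal.ofReal p) MeasureTheory.volume := by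
  set γ : ℝ := max 0 (1 - 3 / p) with hγ
  have hγ0 : 0 ≤ γ := le_max_left _ _
  have hα0 : 0 < α := lt_of_le_of_lt hγ0 hα
  have hp0 : 0 < p := by linarith
  have hp1 : 1 ≤ p := by linarith
  set θ : ℝ := (α - γ) / 2 with hθ
  have hθ0 : 0 < θ := by rw [hθ]; linarith
  obtain ⟨Ch, hCh, hHi⟩ := high_le h3 hp.le hθ0
  obtain ⟨Cb, hCb, hBe⟩ := L1_bT (β := α / 2) (by linarith)
  obtain ⟨Cl, hCl, hLo⟩ := L1_lT
  obtain ⟨mz, hmz⟩ := exists_bz (α / 2) 1 one_pos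
  obtain ⟨m0, hm0⟩ := exists_bz (α / 2) 4 (by norm_num)
  -- kernel norms of the fixed pieces
  have hKz : ∫⁻ y, ‖ker mz y‖ₑ ≤ ENNReal.ofReal (∫ y, ‖ker mz y‖) := by
    rw [ofReal_integral_norm_eq_lintegral_enorm (integrable_ker mz)]
  have hK0 : ∫⁻ y, ‖ker m0 y‖ₑ ≤ ENNReal.ofReal (∫ y, ‖ker m0 y‖) := by
    rw [ofReal_integral_norm_eq_lintegral_enorm (integrable_ker m0)]
  set Az : ℝ := ∫ y, ‖ker mz y‖ with hAz
  set A0 : ℝ := ∫ y, ‖ker m0 y‖ with hA0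
  have hAz0 : 0 ≤ Az := integral_nonneg fun _ => norm_nonneg _
  have hA00 : 0 ≤ A0 := integral_nonneg fun _ => norm_nonneg _
  have hr1 : (2:ℝ) ^ (-θ) < 1 := Real.rpow_lt_one_of_one_lt_of_neg (by norm_num) (by linarith)
  have hr0 : 0 < (2:ℝ) ^ (-θ) := by positivity
  set r : ℝ := (2:ℝ) ^ (-θ) with hr
  set P : ℝ≥0∞ := ENNReal.ofReal p with hP
  have hP1 : 1 ≤ P := by rw [hP]; simpa using hp1
  -- the geometric sums
  have hgeo : ∀ (q : ℝ), 0 < q → q < 1 → ∀ N : ℕ, ∑ j ∈ Finset.range N, q ^ j ≤ (1 - q)⁻¹ := by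
    intro q hq0 hq1 N
    rw [geom_sum_eq hq1.ne, ← neg_sub, ← neg_sub (1:ℝ), neg_div_neg_eq, div_eq_mul_inv]
    have h4 : (1 - q ^ N) ≤ 1 := by
      have := pow_pos hq0 N
      linarith
    have h5 : 0 < (1 - q)⁻¹ := inv_pos.mpr (by linarith)
    nlinarith
  refine ⟨Az + (Cl * A0) * 2 + (Ch * Cb) * (1 - r)⁻¹, fun f => ?_⟩
  obtain ⟨g, hgF, hgc⟩ := exists_bessel (α / 2) f
  have hgc' : (g : V → ℂ) = 𝓕⁻ (fun ξ : EuclideanSpace ℝ (Fin 3) =>
      ((1 + 4 * Real.pi ^ 2 * ‖ξ‖ ^ 2) ^ (α / 2) : ℝ) • 𝓕 (⇑f) ξ) := hgc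
  rw [← hgc']
  set G : ℝ≥0∞ := eLpNorm (g : V → ℂ) P volume with hG
  -- bounds of the pieces
  have b0 : eLpNorm (pc0 mz g) P nu ≤ ENNReal.ofReal Az * G := by
    refine slab_le (measurable_pc0 mz g) hp0 fun t ht => ?_
    exact young_opS mz g hp1 hKz
  have b1 : ∀ j : ℕ, eLpNorm (pc1 m0 g j) P nu ≤ ENNReal.ofReal (Cl * A0 * (2⁻¹) ^ j) * G := by
    intro j
    refine slab_le (measurable_pc1 m0 g j) hp0 fun t ht => ?_
    have hR1 : ((2:ℝ) ^ j)⁻¹ ≤ 1 := inv_le_one_of_one_le₀ (one_le_pow₀ (by norm_num))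
    have e1 := young_opS (lT (pwi_pos j) t) (opS m0 g) hp1
      (hLo _ (pwi_pos j) t hR1 (by linarith [ht.1]) ht.2)
    refine e1.trans ?_
    calc ENNReal.ofReal (Cl * ((2:ℝ) ^ j)⁻¹) * eLpNorm (opS m0 g) P volume
        ≤ ENNReal.ofReal (Cl * ((2:ℝ) ^ j)⁻¹) * (ENNReal.ofReal A0 * G) := by
          gcongr
          exact young_opS m0 g hp1 hK0
      _ = _ := by
          rw [← mul_assoc, ← ENNReal.ofReal_mul (by positivity)]
          congr 2
          rw [inv_pow]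
          ring
  have b2 : ∀ k : ℕ, eLpNorm (pc2 (α / 2) g k) P nu ≤ ENNReal.ofReal (Ch * Cb * r ^ k) * G := by
    intro k
    rw [pc2_eq]
    have e1 := hHi (2 ^ (k + 1)) (one_le_pow₀ (by norm_num)) _
      (bm_schwartz (opS (bT (α / 2) (pw_pos (k + 1))) g))
    refine e1.trans ?_
    have e2 := young_opS (bT (α / 2) (pw_pos (k + 1))) g hp1 (hBe _ (pw_pos (k + 1)))
    calc ENNReal.ofReal (Ch * (2 ^ (k + 1)) ^ (γ + θ)) *
          eLpNorm (opS (bT (α / 2) (pw_pos (k + 1))) g) P volume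
        ≤ ENNReal.ofReal (Ch * (2 ^ (k + 1)) ^ (γ + θ)) *
          (ENNReal.ofReal (Cb * (2 ^ (k + 1)) ^ (-(2 * (α / 2)))) * G) := by
          gcongr
      _ = ENNReal.ofReal (Ch * Cb * r ^ (k + 1)) * G := by
          rw [← mul_assoc, ← ENNReal.ofReal_mul (by positivity)]
          congr 2
          have e3 : ((2:ℝ) ^ (k + 1)) ^ (γ + θ) * ((2:ℝ) ^ (k + 1)) ^ (-(2 * (α / 2)))
              = r ^ (k + 1) := by
            rw [← Real.rpow_add (by positivity), hr, ← Real.rpow_natCast, ← Real.rpow_natCast,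
              ← Real.rpow_mul (by norm_num), ← Real.rpow_mul (by norm_num)]
            congr 1
            rw [hθ]; ring
          rw [← e3]; ring
      _ ≤ _ := by
          gcongr ENNReal.ofReal ?_ * G
          rw [pow_succ]
          have : 0 < r ^ k := by positivity
          have h7 : r ^ k * r ≤ r ^ k := by nlinarith
          have : 0 ≤ Ch * Cb := by positivity
          nlinarith
  -- the partial sums
  have hN : ∀ N : ℕ, eLpNorm (fun z : V × ℝ => PN mz m0 (α / 2) g N z.2 z.1) P nu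
      ≤ ENNReal.ofReal (Az + (Cl * A0) * 2 + (Ch * Cb) * (1 - r)⁻¹) * G := by
    intro N
    rw [PN_eq]
    have m1 : ∀ j ∈ Finset.range N, AEStronglyMeasurable (pc1 m0 g j) nu :=
      fun j _ => (measurable_pc1 m0 g j).aestronglyMeasurable
    have m2 : ∀ k ∈ Finset.range N, AEStronglyMeasurable (pc2 (α / 2) g k) nu :=
      fun k _ => (measurable_pc2 (α / 2) g k).aestronglyMeasurable
    have s1 : eLpNorm (∑ j ∈ Finset.range N, pc1 m0 g j) P nu ≤ ENNReal.ofReal (Cl * A0 * 2) * G := by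
      calc _ ≤ ∑ j ∈ Finset.range N, eLpNorm (pc1 m0 g j) P nu := eLpNorm_sum_le m1 hP1
        _ ≤ ∑ j ∈ Finset.range N, ENNReal.ofReal (Cl * A0 * (2⁻¹) ^ j) * G :=
            Finset.sum_le_sum fun j _ => b1 j
        _ = ENNReal.ofReal (Cl * A0 * ∑ j ∈ Finset.range N, (2⁻¹) ^ j) * G := by
            rw [← Finset.sum_mul, ← ENNReal.ofReal_sum_of_nonneg (fun i _ => by positivity),
              Finset.mul_sum]
        _ ≤ _ := by
            gcongr
            have := hgeo (2⁻¹) (by norm_num) (by norm_num) N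
            norm_num at this ⊢
            exact this
    have s2 : eLpNorm (∑ k ∈ Finset.range N, pc2 (α / 2) g k) P nu
        ≤ ENNReal.ofReal (Ch * Cb * (1 - r)⁻¹) * G := by
      calc _ ≤ ∑ k ∈ Finset.range N, eLpNorm (pc2 (α / 2) g k) P nu := eLpNorm_sum_le m2 hP1
        _ ≤ ∑ k ∈ Finset.range N, ENNReal.ofReal (Ch * Cb * r ^ k) * G :=
            Finset.sum_le_sum fun k _ => b2 k
        _ = ENNReal.ofReal (Ch * Cb * ∑ k ∈ Finset.range N, r ^ k) * G := by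
            rw [← Finset.sum_mul, ← ENNReal.ofReal_sum_of_nonneg (fun i _ => by positivity),
              Finset.mul_sum]
        _ ≤ _ := by
            gcongr
            exact hgeo r hr0 hr1 N
    have hms1 : AEStronglyMeasurable (∑ j ∈ Finset.range N, pc1 m0 g j) nu :=
      Finset.aestronglyMeasurable_sum _ m1
    have hms2 : AEStronglyMeasurable (∑ k ∈ Finset.range N, pc2 (α / 2) g k) nu :=
      Finset.aestronglyMeasurable_sum _ m2
    have hm0' : AEStronglyMeasurable (pc0 mz g) nu := (measurable_pc0 mz g).aestronglyMeasurable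
    have hinv : 0 < (1 - r)⁻¹ := inv_pos.mpr (by linarith)
    calc _ ≤ eLpNorm (pc0 mz g + ∑ j ∈ Finset.range N, pc1 m0 g j) P nu +
          eLpNorm (∑ k ∈ Finset.range N, pc2 (α / 2) g k) P nu :=
          eLpNorm_add_le (hm0'.add hms1) hms2 hP1
      _ ≤ (eLpNorm (pc0 mz g) P nu + eLpNorm (∑ j ∈ Finset.range N, pc1 m0 g j) P nu) +
          eLpNorm (∑ k ∈ Finset.range N, pc2 (α / 2) g k) P nu := by
          gcongr
          exact eLpNorm_add_le hm0' hms1 hP1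
      _ ≤ (ENNReal.ofReal Az * G + ENNReal.ofReal (Cl * A0 * 2) * G) +
          ENNReal.ofReal (Ch * Cb * (1 - r)⁻¹) * G := by gcongr
      _ = _ := by
          rw [← add_mul, ← add_mul, ← ENNReal.ofReal_add hAz0 (by positivity),
            ← ENNReal.ofReal_add (by positivity) (by positivity)]
  -- Fatou
  have hmN : ∀ N : ℕ, AEStronglyMeasurable (fun z : V × ℝ => PN mz m0 (α / 2) g N z.2 z.1) nu := by
    intro N
    rw [PN_eq]
    exact (((measurable_pc0 mz g).aestronglyMeasurable).add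
      (Finset.aestronglyMeasurable_sum _ fun j _ =>
        (measurable_pc1 m0 g j).aestronglyMeasurable)).add
      (Finset.aestronglyMeasurable_sum _ fun k _ =>
        (measurable_pc2 (α / 2) g k).aestronglyMeasurable)
  have hlim : ∀ z : V × ℝ, Tendsto (fun N => PN mz m0 (α / 2) g N z.2 z.1) atTop
      (𝓝 (𝓕⁻ (fun ξ : EuclideanSpace ℝ (Fin 3) =>
              Complex.exp (2 * Real.pi * z.2 * ‖ξ‖ * Complex.I) • 𝓕 (⇑f) ξ) z.1)) := by
    intro z
    have := tendsto_PN hmz hm0 hgF z.2 z.1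
    simpa only [Complex.ofReal_mul, Complex.ofReal_ofNat] using this
  have h1 := Lp.eLpNorm_lim_le_liminf_eLpNorm (μ := nu) (p := P)
    (f := fun N => fun z : V × ℝ => PN mz m0 (α / 2) g N z.2 z.1) hmN _
    (Filter.Eventually.of_forall hlim)
  refine h1.trans ?_
  calc liminf (fun N => eLpNorm (fun z : V × ℝ => PN mz m0 (α / 2) g N z.2 z.1) P nu) atTop
      ≤ liminf (fun _ : ℕ => ENNReal.ofReal (Az + (Cl * A0) * 2 + (Ch * Cb) * (1 - r)⁻¹) * G)
        atTop := liminf_le_liminf (Filter.Eventually.of_forall hN)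
    _ = _ := by rw [liminf_const]

/-- **the outer shell** from `(C3w)`. -/
theorem S0155_of_C3w (h3 : C3w) (p : ℝ) (hp : 2 < p) (α : ℝ)
    (hα : max 0 (1 - 3 / p) < α) :
    ∃ C : ℝ, ∀ f : SchwartzMap (EuclideanSpace ℝ (Fin 3)) ℂ,
      MeasureTheory.eLpNorm
          (fun z : (EuclideanSpace ℝ (Fin 3)) × ℝ =>
            𝓕⁻ (fun ξ : EuclideanSpace ℝ (Fin 3) =>
              Complex.exp (2 * Real.pi * z.2 * ‖ξ‖ * Complex.I) • 𝓕 (⇑f) ξ) z.1)
          (ENNReal.ofReal p)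
          ((MeasureTheory.volume : MeasureTheory.Measure (EuclideanSpace ℝ (Fin 3))).prod
            (MeasureTheory.volume.restrict (Set.Icc (1 : ℝ) 2))) ≤
        ENNReal.ofReal C *
          MeasureTheory.eLpNorm
            (𝓕⁻ (fun ξ : EuclideanSpace ℝ (Fin 3) =>
              ((1 + 4 * Real.pi ^ 2 * ‖ξ‖ ^ 2) ^ (α / 2) : ℝ) • 𝓕 (⇑f) ξ))
            (ENNReal.ofReal p) MeasureTheory.volume :=
  S0155_of_C3p (h3 phi0 contDiff_phi0 phi0_lo phi0_hi) p hp α hα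

end Crest.Agent.R116.Sh927
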