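import Crest.Agent.R116.SlbC5_367_Mg
import Crest.Agent.R116.Fin2_850_Mg
import Crest.Agent.R116.StepC1_367
import Crest.Agent.R116.Wk10_927_Mg
import Crest.Agent.R116.Hx8_665
import Crest.Agent.R116.Mwc2_748
import Crest.Agent.R116.SmC2_339
import Crest.Agent.R116.PDf2_299
import Crest.Agent.R116.DomC_210
import Crest.Agent.R116.Ba1_449
import Crest.Agent.R116.Cov2_369
import Crest.Agent.R116.DeG2_295
import Crest.Agent.R116.Ma2_448
import Crest.Agent.R116.Mc9_330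
import Crest.Agent.R116.Mc1_330

-- ▼ part R116/SlbC6_367
section

/-!
# R116 (S0155), WAVE side (helper367): `STEP_C M q → SLAB M q`
-/

set_option autoImplicit false

open MeasureTheory FourierTransform
open scoped ENNReal

namespace Crest.Agent.R116.Slb367

open Crest.Agent.R138.Defs (E2 ee)
open Crest.Agent.R116.CDef480
open Crest.Agent.R116.WC188
open Crest.Agent.R116.PC299
open Crest.Agent.R116.GlC210 (Lev LevOk Next Aux Cls Tow AuxF trn Acl Rg Kp argc AuxOk Thin Wide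
  SLAB)

/-- **SLAB from STEP_C**. -/
theorem slab_of {M q : ℝ} (hM : 0 ≤ M) (hq : 0 ≤ q) (HS : STEP_C M q) : SLAB M q := by
  obtain ⟨Cw, hCw, HS⟩ := step_of hM hq HS
  refine ⟨Cw, hCw, fun n a b A ε M0 T hRg => ?_⟩
  obtain ⟨nw, Kν, Cc, e1, hCc, he1, HS⟩ := HS ε hRg.e0
  obtain ⟨K1, HS⟩ := HS a b M0 T hRg.a1 hRg.b0 hRg.b2
  set Ma : ℕ := ⌈16 + |M0| + 2 * |T| + q⌉₊ with hMa
  have hMa' : 16 + |M0| + 2 * |T| + q ≤ Ma := Nat.le_ceil _
  have hMa1 : 1 ≤ Ma := by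
    have h1 : (1:ℝ) ≤ Ma := by
      have := abs_nonneg M0
      have := abs_nonneg T
      linarith
    exact_mod_cast h1
  refine ⟨Kν + 1, naR Ma, AF Ma nw Cc e1, fun R dl x => pv (nAR Ma R) dl x,
    fun R c => ¬ Nt Ma R c, CP, by unfold CP; norm_num,
    auxok Ma nw hMa1 Cc e1 M q a b M0 (by linarith [hRg.a1]),
    fun R dl x hd hd1 => ⟨pv_ge hd hd1 x, pv_le dl x⟩, max K1 Ma, ?_⟩
  intro K hK A' Cn hA' hCn
  obtain ⟨C1, hC1, HS⟩ := HS K ((le_max_left _ _).trans hK) A' Cn hA' hCn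
  obtain ⟨C2, hC2, HT⟩ := tiny_of q a b A' Cn M0 T nw Ma hRg.a1 hRg.b2.le hq hA' hCn hMa'
  refine ⟨max C1 C2, hC1.trans (le_max_left _ _), ?_⟩
  intro κ η0 C0 σ g R D hS hKp hCR dl ν hdl hCdl hdlR hκ4 hν hνR L ac hT hAc hw
  have hR := hS.R1
  have hR0 : 0 < R := by linarith
  have hSS : 0 ≤ SS g R D := by
    unfold SS
    have := TuT890.Enc_nn g
    positivity
  have hν0 : 0 ≤ ν := by linarith
  have hRT : 0 ≤ R ^ (-T) * SS g R D := mul_nonneg (Real.rpow_nonneg hR0.le _) hSS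
  have h1dl : C1 * dl ≤ 1 := (mul_le_mul_of_nonneg_right (le_max_left _ _) hdl.le).trans hCdl
  have h2dl : C2 * dl ≤ 1 := (mul_le_mul_of_nonneg_right (le_max_right _ _) hdl.le).trans hCdl
  have hC0 : 0 ≤ max C1 C2 := by linarith [hC1.trans (le_max_left C1 C2)]
  constructor
  · intro t ht k hk htn
    refine (HT M κ A Cc e1 K η0 C0 σ g R D hRg.A1 hS hKp ((le_max_right _ _).trans hK) dl ν hdl h2dl
      hν hνR n L ac hT hAc t ht k hk (not_not.1 fun h => htn ?_)).trans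
      (ENNReal.ofReal_le_ofReal ?_)
    · exact not_not.1 h
    · have h1 : ν ≤ ν ^ (Kν + 1) := le_self_pow₀ hν (by omega)
      calc C2 * ν * R ^ (-T) * SS g R D = C2 * ν * (R ^ (-T) * SS g R D) := by ring
        _ ≤ max C1 C2 * ν ^ (Kν + 1) * (R ^ (-T) * SS g R D) := by
            have := le_max_right C1 C2
            gcongr
        _ = _ := by ring
  · intro t ht k hk hnt2 hnt1 δ hδ hδ4 h1 h2 h3 h4
    have hmain := HS Ma A κ η0 C0 σ g R D hRg.A1 hS hKp ((le_max_left _ _).trans hCR) dl ν hdl h1dl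
      hdlR hκ4 hν hνR n L ac hT hAc hw t ht k hk (not_not.1 hnt2) (not_not.1 hnt1) δ hδ hδ4 h1 h2
      h3 h4
    have h5 : ν ^ Kν ≤ ν ^ (Kν + 1) := pow_le_pow_right₀ hν (by omega)
    have h6 := le_max_left C1 C2
    have hdl0 : 0 ≤ dl ^ (-(Cw * δ)) := Real.rpow_nonneg hdl.le _
    have hp : 0 ≤ (pv (nAR Ma R) dl (ac (t + 1) ((L (t + 2)).par k)) /
        pv (nAR Ma R) dl (ac (t + 2) k)) ^ (1/2 : ℝ) + dl ^ (1/2 : ℝ) := by
      have hdl1 : dl ≤ 1 := by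
        have : 1 ≤ C1 := hC1
        nlinarith
      have a1 := pv_ge (nA := nAR Ma R) hdl hdl1 (ac (t + 1) ((L (t + 2)).par k))
      have a2 := pv_ge (nA := nAR Ma R) hdl hdl1 (ac (t + 2) k)
      positivity
    refine hmain.trans (add_le_add (mul_le_mul' (ENNReal.ofReal_le_ofReal ?_) le_rfl)
      (ENNReal.ofReal_le_ofReal ?_))
    · gcongr
    · gcongr

end Crest.Agent.R116.Slb367
end

-- ▼ part R116/WTop3_188
section

/-!
# R116 (S0155): WAVE side, top wiring 3 (helper188)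

`LKM` + the two leaves which are not yet theorems (`AL_C`, `MIS_C`) ⟹ `EBc M`, every `M ≥ 2`.
-/

set_option autoImplicit false

namespace Crest.Agent.R116.WTop188

open Crest.Agent.R116.WC188 Crest.Agent.R116.GlC210

/-- SLAB from `AL_C` and `MIS_C`. -/
theorem slab_of_open {M q : ℝ} (hM : 0 ≤ M) (hq : 0 ≤ q) (hAL : PC299.AL_C M q)
    (hMIS : PC299.MIS_C M q) : SLAB M q :=
  Slb367.slab_of hM hq (StepC367.stepc_of hAL hMIS)

/-- **wave side, open leaves ⟹ EBc** (third stage). -/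
theorem EBc_of_open3 {M q0 : ℝ} (hM : 2 ≤ M) (hq0 : 0 < q0) (hLKM : LKMDef299.LKM)
    (hAL : ∀ q : ℝ, 0 < q → q < q0 → PC299.AL_C M q)
    (hMIS : ∀ q : ℝ, 0 < q → q < q0 → PC299.MIS_C M q) : EBc M :=
  EBc_of_open2 hM hq0 hLKM (fun q hq _ => Sup858.a2k (by linarith) hq.le)
    (fun q hq _ => Fin850.fin_of_A2k (Sup858.a2k (by linarith) hq.le))
    (fun q hq hqq => slab_of_open (by linarith) hq.le (hAL q hq hqq) (hMIS q hq hqq))

end Crest.Agent.R116.WTop188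
end

-- ▼ part R116/Sp4_927
section

/-!
R116: the literal of `S0155` from `(GlobW)` and from `(LocW)`.
-/

set_option autoImplicit false

open MeasureTheory FourierTransform
open scoped SchwartzMap ENNReal

namespace Crest.Agent.R116.Sh927

/-- `S0155` from `GlobW`. -/
theorem S0155_of_GlobW (h : EB665.GlobW) (p : ℝ) (hp : 2 < p) (α : ℝ)
    (hα : max 0 (1 - 3 / p) < α) :
    ∃ C : ℝ, ∀ f : SchwartzMap (EuclideanSpace ℝ (Fin 3)) ℂ,
      MeasureTheory.eLpNorm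
          (fun z : (EuclideanSpace ℝ (Fin 3)) × ℝ =>
            𝓕⁻ (fun ξ : EuclideanSpace ℝ (Fin 3) =>
              Complex.exp (2 * Real.pi * z.2 * ‖ξ‖ * Complex.I) • 𝓕 (⇑f) ξ) z.1)
          (ENNReal.ofReal p)
          ((MeasureTheory.volume : MeasureTheory.Measure (EuclideanSpace ℝ (Fin 3))).prod
            (MeasureTheory.volume.restrict (Set.Icc (1 : ℝ) 2))) ≤
        ENNReal.ofReal C *
          MeasureTheory.eLpNorm
            (𝓕⁻ (fun ξ : EuclideanSpace ℝ (Fin 3) =>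
              ((1 + 4 * Real.pi ^ 2 * ‖ξ‖ ^ 2) ^ (α / 2) : ℝ) • 𝓕 (⇑f) ξ))
            (ENNReal.ofReal p) MeasureTheory.volume :=
  S0155_of_C3w (C3w_of_GlobW h) p hp α hα


end Crest.Agent.R116.Sh927
end

-- ▼ part R116/Fin0_665
section

/-!
# R116: the literal of `S0155` from `∃ M, WC188.EBc M` (helper665)
-/

set_option autoImplicit false

open MeasureTheory FourierTransform

namespace Crest.Agent.R116.Fin665

/-- `S0155` from the energy / box inequality of the cone, for any `M`. -/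
theorem S0155_of_EBc (h : ∃ M : ℝ, WC188.EBc M) (p : ℝ) (hp : 2 < p) (α : ℝ)
    (hα : max 0 (1 - 3 / p) < α) :
    ∃ C : ℝ, ∀ f : SchwartzMap (EuclideanSpace ℝ (Fin 3)) ℂ,
      MeasureTheory.eLpNorm
          (fun z : (EuclideanSpace ℝ (Fin 3)) × ℝ =>
            𝓕⁻ (fun ξ : EuclideanSpace ℝ (Fin 3) =>
              Complex.exp (2 * Real.pi * z.2 * ‖ξ‖ * Complex.I) • 𝓕 (⇑f) ξ) z.1)
          (ENNReal.ofReal p)
          ((MeasureTheory.volume : MeasureTheory.Measure (EuclideanSpace ℝ (Fin 3))).prod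
            (MeasureTheory.volume.restrict (Set.Icc (1 : ℝ) 2))) ≤
        ENNReal.ofReal C *
          MeasureTheory.eLpNorm
            (𝓕⁻ (fun ξ : EuclideanSpace ℝ (Fin 3) =>
              ((1 + 4 * Real.pi ^ 2 * ‖ξ‖ ^ 2) ^ (α / 2) : ℝ) • 𝓕 (⇑f) ξ))
            (ENNReal.ofReal p) MeasureTheory.volume := by
  obtain ⟨M, hM⟩ := h
  exact Sh927.S0155_of_GlobW (Hx665.GlobW_of_EBc hM) p hp α hα

end Crest.Agent.R116.Fin665
end

-- ▼ part R116/Mwc3_748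
section

/-!
# R116 (S0155), wave side: MIS for the cone, wave half, part 3 (helper748): weights

`wT n j T` = weight of the child plate `j` seen from the cell `T`; (C1) `wT_le`, (C2) `tot_wT`.
`condT` = near and misaligned; `plate_en` = energy of one misaligned child plate over the cells.
-/

set_option autoImplicit false
set_option linter.unusedVariables false
set_option linter.unusedSectionVars false

open MeasureTheory
open scoped ENNReal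

namespace Crest.Agent.R116.Mwc748

open Crest.Agent.R138.Defs (E2)
open Crest.Agent.R138.Wpk685 (cen caps)
open Crest.Agent.R138.Loc878 (nearL nearS mem_nearL mem_nearS card_nearS)
open Crest.Agent.R116.CDef480
open Crest.Agent.R116.Cad538 (frc wt wt_shift wt_le_one wt_pos wt_cont W0 W0_lt lint_wt det_frc)
open Crest.Agent.R116.WC188

/-! ### weights -/

/-- the point of the ray of the cell at the time of the frame `z`, in the frame `z`. -/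
noncomputable def vvT (th κ : ℝ) (z : E3 × ℝ) (T : Idx) : E3 :=
  ptT th κ T - z.1 - z.2 • vel (slT th T)

/-- weight of the family `S'` of level `th'` seen from a packet of the cap `m` of level `th` at the
point `v`. -/
noncomputable def wE (n : ℕ) (th th' κ : ℝ) (S' : ℤ × ℤ → Set E3) (m : ℤ × ℤ) (v : E3) : ℝ≥0∞ :=
  ENNReal.ofReal (th ^ 2 * κ) * ∑ m' ∈ nearS th th' m,
    ∫⁻ x in S' m', ENNReal.ofReal (wt (frc th κ (cen th m)) n (v - x))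

/-- weight of the child plate `j` on the cell `T`. -/
noncomputable def wT (n : ℕ) (th th' κ : ℝ) (P : ℕ → Plate) (j : ℕ) (T : Idx) : ℝ≥0∞ :=
  wE n th th' κ (P j).S T.2.1 (vvT th κ (P j).z T)

/-- the constant. -/
noncomputable def cW : ℝ := 36 * W0.toReal + 1

theorem cW_pos : 0 < cW := by
  unfold cW
  have := ENNReal.toReal_nonneg (a := W0)
  positivity

theorem W0_le : 36 * W0 ≤ ENNReal.ofReal cW := by
  unfold cW
  have h := ENNReal.toReal_nonneg (a := W0)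
  rw [ENNReal.ofReal_add (by positivity) (by norm_num), ENNReal.ofReal_mul (by norm_num),
    ENNReal.ofReal_toReal W0_lt.ne, ENNReal.ofReal_ofNat]
  exact le_self_add

theorem int_wt {th κ : ℝ} (hth : 0 < th) (hκ : 0 < κ) (C : E2) (v : E3) :
    ENNReal.ofReal (th ^ 2 * κ) * ∫⁻ x, ENNReal.ofReal (wt (frc th κ C) 4 (v - x)) = W0 := by
  have h0 : 0 < th ^ 2 * κ := by positivity
  rw [lint_wt (frc th κ C) (by rw [det_frc]; exact h0.ne') v, det_frc, ← mul_assoc,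
    ← ENNReal.ofReal_mul h0.le, abs_of_pos (inv_pos.2 h0), mul_inv_cancel₀ h0.ne',
    ENNReal.ofReal_one, one_mul]

theorem wt_anti4 {th κ : ℝ} (C : E2) (k : ℕ) (v : E3) :
    wt (frc th κ C) (k + 4) v ≤ wt (frc th κ C) 4 v := Cad538.wt_anti _ (by omega) v

/-- the sum of the weights of a disjoint family (one frame) is bounded. -/
theorem wE_sum {ι : Type*} (J : Finset ι) {th th' κ : ℝ} (hth : 0 < th) (hth' : 0 < th')
    (hκ : 0 < κ) (k : ℕ) (S' : ι → ℤ × ℤ → Set E3) (hm : ∀ i ∈ J, ∀ m, MeasurableSet (S' i m))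
    (hd : ∀ i ∈ J, ∀ j ∈ J, i ≠ j → ∀ m, Disjoint (S' i m) (S' j m)) (m : ℤ × ℤ) (v : E3) :
    ∑ i ∈ J, wE (k + 4) th th' κ (S' i) m v ≤ ENNReal.ofReal cW := by
  unfold wE
  rw [← Finset.mul_sum, Finset.sum_comm, Finset.mul_sum]
  refine le_trans ?_ W0_le
  calc ∑ m' ∈ nearS th th' m, ENNReal.ofReal (th ^ 2 * κ) * ∑ i ∈ J,
        ∫⁻ x in S' i m', ENNReal.ofReal (wt (frc th κ (cen th m)) (k + 4) (v - x))
      ≤ ∑ m' ∈ nearS th th' m, W0 := by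
        refine Finset.sum_le_sum fun m' _ => ?_
        rw [← lintegral_biUnion_finset (fun i hi j hj hij => hd i hi j hj hij m')
          (fun i hi => hm i hi m')]
        refine le_trans (mul_le_mul' le_rfl ((setLIntegral_le_lintegral _ _).trans
          (lintegral_mono fun x => ENNReal.ofReal_le_ofReal (wt_anti4 _ k _))))
          (int_wt hth hκ (cen th m) v).le
    _ = (nearS th th' m).card * W0 := by rw [Finset.sum_const, nsmul_eq_mul]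
    _ ≤ _ := by
        refine mul_le_mul' ?_ le_rfl
        exact_mod_cast card_nearS hth' m

theorem wE_le {th th' κ : ℝ} (hth : 0 < th) (hth' : 0 < th') (hκ : 0 < κ) (k : ℕ)
    (S' : ℤ × ℤ → Set E3) (hm : ∀ m, MeasurableSet (S' m)) (m : ℤ × ℤ) (v : E3) :
    wE (k + 4) th th' κ S' m v ≤ ENNReal.ofReal cW := by
  have := wE_sum ({()} : Finset Unit) hth hth' hκ k (fun _ => S') (fun _ _ => hm)
    (fun i _ j _ hij => absurd rfl hij) m v
  simpa using this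

/-- (C1) -/
theorem wT_le {th th' κ : ℝ} (hth : 0 < th) (hth' : 0 < th') (hκ : 0 < κ) (k : ℕ) {P : ℕ → Plate}
    {j : ℕ} (hm : ∀ m, MeasurableSet ((P j).S m)) (T : Idx) :
    wT (k + 4) th th' κ P j T ≤ ENNReal.ofReal cW := wE_le hth hth' hκ k _ hm _ _

open Classical in
theorem sum_frames (I : Finset ℕ) (z : ℕ → E3 × ℝ) (f : ℕ → ℝ≥0∞) (c : ℝ≥0∞)
    (h : ∀ ζ ∈ I.image z, ∑ i ∈ I with z i = ζ, f i ≤ c) :
    ∑ i ∈ I, f i ≤ (I.image z).card * c := by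
  rw [← Finset.sum_fiberwise_of_maps_to (t := I.image z) (g := z)
    (fun i hi => Finset.mem_image_of_mem z hi)]
  refine (Finset.sum_le_sum h).trans (le_of_eq ?_)
  rw [Finset.sum_const, nsmul_eq_mul]

/-- number of frames. -/
theorem card_frames {M κ A s1 s2 r1 dl : ℝ} (hr1 : 0 < r1) (hdl : 0 < dl) (hdl1 : dl ≤ 1)
    {I : Finset ℕ} {P : ℕ → Plate} (hP : Plates M κ A (dl * r1) s1 s2 r1 I P)
    [DecidableEq (E3 × ℝ)] :
    (((I.image fun i => (P i).z).card : ℕ) : ℝ≥0∞) ≤ ENNReal.ofReal (256 * (dl⁻¹) ^ 4) := by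
  have hd1 : 1 ≤ dl⁻¹ := (one_le_inv₀ hdl).2 hdl1
  have hr : 0 < dl * r1 := by positivity
  have hfr : Module.finrank ℝ (E3 × ℝ) = 4 := by
    rw [Module.finrank_prod, finrank_euclideanSpace_fin, Module.finrank_self]
  have h := Crest.Agent.R116.SmC339.card_sep_le (E := E3) (r := dl * r1) (K := dl⁻¹) hr
    (by positivity) (I.image fun i => (P i).z) ?_ (0 : E3 × ℝ) ?_
  · rw [hfr] at h
    rw [← ENNReal.ofReal_natCast]
    refine ENNReal.ofReal_le_ofReal (h.trans ?_)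
    calc (2 * dl⁻¹ + 2) ^ 4 ≤ (4 * dl⁻¹) ^ 4 :=
          pow_le_pow_left₀ (by positivity) (by linarith) 4
      _ = _ := by ring
  · intro x hx y hy hxy
    obtain ⟨i, hi, rfl⟩ := Finset.mem_image.1 hx
    obtain ⟨j, hj, rfl⟩ := Finset.mem_image.1 hy
    rcases hP.sep i hi j hj with h1 | h1 | h1
    · exact absurd h1 hxy
    · refine h1.trans ?_
      rw [← dist_eq_norm, Prod.dist_eq]
      exact le_max_left _ _
    · refine h1.trans ?_
      rw [← Real.dist_eq, Prod.dist_eq]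
      exact le_max_right _ _
  · intro x hx
    obtain ⟨i, hi, rfl⟩ := Finset.mem_image.1 hx
    have h1 := hP.mem i hi
    have e : dl⁻¹ * (dl * r1) = r1 := by field_simp
    rw [e, Prod.dist_eq, Prod.fst_zero, Prod.snd_zero, dist_zero_right, dist_zero_right,
      Real.norm_eq_abs]
    exact max_le h1.1 h1.2

/-- (C2) -/
theorem tot_wT {M κ A s1 s2 r1 dl : ℝ} (hr1 : 0 < r1) (hdl : 0 < dl) (hdl1 : dl ≤ 1)
    {I : Finset ℕ} {P : ℕ → Plate} (hP : Plates M κ A (dl * r1) s1 s2 r1 I P) {th th' : ℝ}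
    (hth : 0 < th) (hth' : 0 < th') (hκ : 0 < κ) (k : ℕ) (T : Idx) :
    ∑ i ∈ I, wT (k + 4) th th' κ P i T ≤ ENNReal.ofReal (256 * (dl⁻¹) ^ 4 * cW) := by
  classical
  have hc := cW_pos
  refine (sum_frames I (fun i => (P i).z) _ (ENNReal.ofReal cW) ?_).trans ?_
  · intro ζ _
    have h1 := wE_sum (I.filter fun i => (P i).z = ζ) hth hth' hκ k (fun i => (P i).S)
      (fun i hi m => hP.meas i (Finset.mem_filter.1 hi).1 m)
      (fun i hi j hj hij m => hP.disj i (Finset.mem_filter.1 hi).1 j (Finset.mem_filter.1 hj).1 hij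
        ((Finset.mem_filter.1 hi).2.trans (Finset.mem_filter.1 hj).2.symm) m) T.2.1
      (vvT th κ ζ T)
    refine le_trans (le_of_eq ?_) h1
    refine Finset.sum_congr rfl fun i hi => ?_
    unfold wT
    rw [(Finset.mem_filter.1 hi).2]
  · rw [ENNReal.ofReal_mul (p := 256 * (dl⁻¹) ^ 4) (by positivity)]
    exact mul_le_mul' (card_frames hr1 hdl hdl1 hP) le_rfl

end Crest.Agent.R116.Mwc748
end

-- ▼ part R116/Mwc4_748
section

/-!
# R116 (S0155), wave side: MIS for the cone, wave half, part 4 (helper748): the main estimate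

The energy of a misaligned child plate over the parent cells `T = (plate, cap, cell)`:
`enc θ' (trc z F) S_j ≤ C (θ'/θ)² (Σ_T om_jT μ_T + Fr_j)`, where `om_jT ∈ [0, 1]` vanishes unless a
point of the child plate sees a misaligned parent point of the cell (`condT`), `Σ_j om_jT ≤ C`, and
the sum of the far parts `Fr_j` is `≤ C Y^{-k}` times the energy of the parent class.
-/

set_option autoImplicit false
set_option linter.unusedVariables false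
set_option linter.unusedSectionVars false

open MeasureTheory
open scoped ENNReal

namespace Crest.Agent.R116.Mwc748

open Crest.Agent.R138.Defs (E2)
open Crest.Agent.R138.Wpk685 (cen caps)
open Crest.Agent.R138.Loc878 (nearL nearS mem_nearL mem_nearS card_nearS)
open Crest.Agent.R116.CDef480
open Crest.Agent.R116.CWd480 (Rng)
open Crest.Agent.R116.Cad538 (frc wt wt_shift wt_split wt_le_one wt_pos wt_cont)
open Crest.Agent.R116.AlB888 (Adc)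
open Crest.Agent.R116.Gc192 (un crs)
open Crest.Agent.R116.PC299
open Crest.Agent.R116.WC188

/-! ### the relation -/

/-- a point of the child plate `j` sees a misaligned point of the cell `T` at distance `≤ Y`. -/
def condT (th th' κ δ Y : ℝ) (P1 P : ℕ → Plate) (j : ℕ) (T : Idx) : Prop :=
  ∃ m ∈ caps th', T.2.1 ∈ nearL th th' m ∧ ∃ y ∈ (P j).S m, ∃ x ∈ TS th κ P1 T,
    ‖frc th κ (slT th T) (x - (P j).z.1 - (P j).z.2 • vel (slT th T) - y)‖ ≤ Y ∧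
    δ < |crs (nP th (P1 T.1).f T.2.1 x) (rnd δ (nP th' (P j).f m y))|

open Classical in
/-- the weight of the cell `T` in the child plate `j`. -/
noncomputable def om (k : ℕ) (th th' κ δ Y : ℝ) (P1 P : ℕ → Plate) (j : ℕ) (T : Idx) : ℝ :=
  if condT th th' κ δ Y P1 P j T then (wT (k + 4) th th' κ P j T).toReal / cW else 0

/-- the far part. -/
noncomputable def Fr (k : ℕ) (K th th' κ Y : ℝ) (g : E3 → ℂ) (I1 : Finset ℕ) (P1 P : ℕ → Plate)
    (j : ℕ) : ℝ≥0∞ :=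
  ENNReal.ofReal ((Y ^ k)⁻¹) * ∑ T ∈ Ic K th κ I1 P1, wT 4 th th' κ P j T * muE th κ g P1 T

section om

variable {k : ℕ} {th th' κ δ Y : ℝ} {P1 P : ℕ → Plate} {j : ℕ} {T : Idx}

theorem om_nonneg : 0 ≤ om k th th' κ δ Y P1 P j T := by
  unfold om
  have := cW_pos
  split_ifs
  · exact div_nonneg ENNReal.toReal_nonneg this.le
  · exact le_rfl

theorem om_cond (h : om k th th' κ δ Y P1 P j T ≠ 0) : condT th th' κ δ Y P1 P j T := by
  by_contra hc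
  apply h
  unfold om
  rw [if_neg hc]

theorem om_zero (h : ¬ condT th th' κ δ Y P1 P j T) : om k th th' κ δ Y P1 P j T = 0 := by
  unfold om
  rw [if_neg h]

theorem wT_fin (hth : 0 < th) (hth' : 0 < th') (hκ : 0 < κ) (k : ℕ)
    (hm : ∀ m, MeasurableSet ((P j).S m)) (T : Idx) : wT (k + 4) th th' κ P j T ≠ ⊤ :=
  ((wT_le hth hth' hκ k hm T).trans_lt ENNReal.ofReal_lt_top).ne

theorem om_le_one (hth : 0 < th) (hth' : 0 < th') (hκ : 0 < κ)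
    (hm : ∀ m, MeasurableSet ((P j).S m)) : om k th th' κ δ Y P1 P j T ≤ 1 := by
  unfold om
  have hc := cW_pos
  split_ifs
  · rw [div_le_one hc]
    exact ENNReal.toReal_le_of_le_ofReal hc.le (wT_le hth hth' hκ k hm T)
  · norm_num

theorem om_wT (hth : 0 < th) (hth' : 0 < th') (hκ : 0 < κ)
    (hm : ∀ m, MeasurableSet ((P j).S m)) (h : condT th th' κ δ Y P1 P j T) :
    wT (k + 4) th th' κ P j T = ENNReal.ofReal (cW * om k th th' κ δ Y P1 P j T) := by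
  unfold om
  have hc := cW_pos
  rw [if_pos h, mul_div_cancel₀ _ hc.ne', ENNReal.ofReal_toReal (wT_fin hth hth' hκ k hm T)]

theorem om_le_wT (hth : 0 < th) (hth' : 0 < th') (hκ : 0 < κ)
    (hm : ∀ m, MeasurableSet ((P j).S m)) :
    ENNReal.ofReal (cW * om k th th' κ δ Y P1 P j T) ≤ wT (k + 4) th th' κ P j T := by
  by_cases h : condT th th' κ δ Y P1 P j T
  · exact (om_wT hth hth' hκ hm h).ge
  · rw [om_zero h]
    simp

/-- the sum over the child plates. -/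
theorem sum_om {M A s1 s2 r1 dl : ℝ} (hr1 : 0 < r1) (hdl : 0 < dl) (hdl1 : dl ≤ 1)
    {I : Finset ℕ} (hP : Plates M κ A (dl * r1) s1 s2 r1 I P)
    (hth : 0 < th) (hth' : 0 < th') (hκ : 0 < κ) :
    ∑ i ∈ I, om k th th' κ δ Y P1 P i T ≤ 256 * (dl⁻¹) ^ 4 := by
  have hc := cW_pos
  have h1 : ∑ i ∈ I, ENNReal.ofReal (cW * om k th th' κ δ Y P1 P i T) ≤
      ENNReal.ofReal (256 * (dl⁻¹) ^ 4 * cW) :=
    (Finset.sum_le_sum fun i hi => om_le_wT hth hth' hκ (hP.meas i hi)).trans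
      (tot_wT hr1 hdl hdl1 hP hth hth' hκ k T)
  rw [← ENNReal.ofReal_sum_of_nonneg (fun i _ => mul_nonneg hc.le om_nonneg),
    ← Finset.mul_sum, ENNReal.ofReal_le_ofReal_iff (by positivity)] at h1
  have h2 : cW * ∑ i ∈ I, om k th th' κ δ Y P1 P i T ≤ cW * (256 * (dl⁻¹) ^ 4) := by linarith
  exact le_of_mul_le_mul_left h2 hc

end om

/-! ### one phase point of the child plate -/

open Classical in
/-- the coefficient of the near part. -/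
noncomputable def An (k : ℕ) (th th' κ δ Y : ℝ) (P1 P : ℕ → Plate) (j : ℕ) (T : Idx) : ℝ≥0∞ :=
  if condT th th' κ δ Y P1 P j T then ENNReal.ofReal (4 ^ (k + 4)) else 0

/-- the kernel of the cell `T` at the child point `x`. -/
noncomputable def GT (k : ℕ) (th th' κ δ Y : ℝ) (P1 P : ℕ → Plate) (j : ℕ) (T : Idx) (x : E3) :
    ℝ≥0∞ :=
  An k th th' κ δ Y P1 P j T *
      ENNReal.ofReal (wt (frc th κ (cen th T.2.1)) (k + 4) (vvT th κ (P j).z T - x)) +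
    ENNReal.ofReal ((Y ^ k)⁻¹ * 4 ^ 4) *
      ENNReal.ofReal (wt (frc th κ (cen th T.2.1)) 4 (vvT th κ (P j).z T - x))

section pt

variable {k : ℕ} {th th' κ δ Y K : ℝ} {g : E3 → ℂ} {I1 : Finset ℕ} {P1 P : ℕ → Plate} {j : ℕ}
  {T : Idx}

theorem An_fin : An k th th' κ δ Y P1 P j T ≠ ⊤ := by
  unfold An
  split_ifs
  · exact ENNReal.ofReal_ne_top
  · exact ENNReal.zero_ne_top

theorem GT_fin (x : E3) : GT k th th' κ δ Y P1 P j T x ≠ ⊤ := by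
  unfold GT
  exact ENNReal.add_ne_top.2 ⟨ENNReal.mul_ne_top An_fin ENNReal.ofReal_ne_top,
    ENNReal.mul_ne_top ENNReal.ofReal_ne_top ENNReal.ofReal_ne_top⟩

/-- the weight of the density is bounded by the kernel of the cell. -/
theorem wt_le_GT (hth : 0 < th) (hκ : 0 < κ) (hY : 0 < Y) {m' : ℤ × ℤ} (hm' : m' ∈ caps th')
    {x : E3} (hx : x ∈ (P j).S m') (hn : T.2.1 ∈ nearL th th' m') {y : E3}
    (hy : y ∈ TS th κ P1 T)
    (hc : δ < |crs (nP th (P1 T.1).f T.2.1 y) (rnd δ (nP th' (P j).f m' x))|) :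
    ENNReal.ofReal (wt (frc th κ (cen th T.2.1)) (k + 4)
      (y - ((P j).z.1 + x) - (P j).z.2 • vel (cen th T.2.1))) ≤ GT k th th' κ δ Y P1 P j T x := by
  set A := frc th κ (cen th T.2.1) with hA
  set Z : E3 := y - ((P j).z.1 + x) - (P j).z.2 • vel (cen th T.2.1) with hZ
  set Z' : E3 := vvT th κ (P j).z T - x with hZ'
  have e1 : Z' - Z = ptT th κ T - y := by
    rw [hZ, hZ']
    unfold vvT slT
    abel
  have h3 : ‖A (Z' - Z)‖ ≤ 3 := by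
    rw [e1, ← norm_neg, ← map_neg, neg_sub]
    exact cell_frc hth hκ hy
  have hsh : ∀ n : ℕ, wt A n Z ≤ 4 ^ n * wt A n Z' := fun n => by
    have := wt_shift A (by norm_num : (0:ℝ) ≤ 3) n h3
    norm_num at this
    exact this
  by_cases hz : ‖A Z‖ ≤ Y
  · have hcond : condT th th' κ δ Y P1 P j T := by
      refine ⟨m', hm', hn, x, hx, y, hy, ?_, hc⟩
      have e2 : y - (P j).z.1 - (P j).z.2 • vel (slT th T) - x = Z := by
        rw [hZ]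
        unfold slT
        abel
      rw [e2]
      exact hz
    unfold GT An
    rw [if_pos hcond]
    refine le_trans ?_ le_self_add
    rw [← ENNReal.ofReal_mul (by positivity)]
    exact ENNReal.ofReal_le_ofReal (hsh (k + 4))
  · unfold GT
    refine le_trans ?_ le_add_self
    rw [← ENNReal.ofReal_mul (by positivity)]
    refine ENNReal.ofReal_le_ofReal ?_
    have h4 := wt_split A hY (show 4 ≤ k + 4 by omega) Z
    rw [if_neg hz, zero_add, Nat.add_sub_cancel] at h4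
    refine h4.trans ?_
    rw [mul_assoc]
    exact mul_le_mul_of_nonneg_left (hsh 4) (by positivity)

/-- the density of the misaligned part, over the cells. -/
theorem adc_le (hth : 0 < th) (hth1 : th ≤ 1) (hκ : 0 < κ) (hY : 0 < Y) (hK : 0 ≤ K)
    (hm : ∀ i ∈ I1, ∀ m, MeasurableSet ((P1 i).S m))
    (hb : ∀ i ∈ I1, ∀ m, ∀ y ∈ (P1 i).S m, ‖y‖ ≤ K) {m' : ℤ × ℤ} (hm' : m' ∈ caps th')
    {x : E3} (hx : x ∈ (P j).S m') [DecidablePred fun T : Idx => T.2.1 ∈ nearL th th' m'] :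
    Adc (k + 4) th κ th' g (Smis δ th (rnd δ (nP th' (P j).f m' x)) I1 P1) m' ((P j).z.1 + x)
      (P j).z.2 ≤ ENNReal.ofReal (th ^ 2 * κ) *
        ∑ T ∈ (Ic K th κ I1 P1).filter (fun T => T.2.1 ∈ nearL th th' m'),
          GT k th th' κ δ Y P1 P j T x * muE th κ g P1 T := by
  classical
  unfold Adc Cad538.Acc Cad538.Den
  refine mul_le_mul' le_rfl ?_
  rw [← Finset.sum_fiberwise_of_maps_to (t := nearL th th' m') (g := fun T : Idx => T.2.1)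
    (fun T hT => (Finset.mem_filter.1 hT).2)]
  refine Finset.sum_le_sum fun m hmn => ?_
  set N := rnd δ (nP th' (P j).f m' x) with hN
  have hmc : m ∈ caps th := (mem_nearL.1 hmn).1
  refine (lint_cover3 (((Ic K th κ I1 P1).filter (fun T => T.2.1 ∈ nearL th th' m')).filter
    (fun T => T.2.1 = m)) _
    (fun T => TS th κ P1 T ∩ {y | |crs (nP th (P1 T.1).f T.2.1 y) N| ≤ δ}ᶜ) ?_ _).trans ?_
  · rintro y ⟨i, hi, h1, hy⟩
    obtain ⟨T, hT, h2, h3, h4⟩ := exists_cell hth hth1 hκ hK hb hi hmc hy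
    refine ⟨T, ?_, h4, ?_⟩
    · rw [Finset.mem_filter, Finset.mem_filter]
      exact ⟨⟨hT, by rw [h3]; exact hmn⟩, h3⟩
    · rw [h2, h3]
      exact not_le.2 h1
  · refine Finset.sum_le_sum fun T hT => ?_
    obtain ⟨hT1, hTm⟩ := Finset.mem_filter.1 hT
    obtain ⟨hT2, hTn⟩ := Finset.mem_filter.1 hT1
    have hTi := (mem_Ic.1 hT2).1
    have hV : MeasurableSet (TS th κ P1 T ∩ {y | |crs (nP th (P1 T.1).f T.2.1 y) N| ≤ δ}ᶜ) :=
      (TS_meas (hm _ hTi _)).inter (measurableSet_al _ _ _ _ _).compl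
    calc ∫⁻ y in TS th κ P1 T ∩ {y | |crs (nP th (P1 T.1).f T.2.1 y) N| ≤ δ}ᶜ,
          ENNReal.ofReal (wt (frc th κ (cen th m)) (k + 4)
            (y - ((P j).z.1 + x) - (P j).z.2 • vel (cen th m))) * ‖umc th g m y‖ₑ ^ 2
        ≤ ∫⁻ y in TS th κ P1 T ∩ {y | |crs (nP th (P1 T.1).f T.2.1 y) N| ≤ δ}ᶜ,
          GT k th th' κ δ Y P1 P j T x * ‖umc th g T.2.1 y‖ₑ ^ 2 := by
          refine setLIntegral_mono' hV fun y hy => ?_
          have h5 := wt_le_GT (k := k) hth hκ hY hm' hx hTn hy.1 (not_le.1 hy.2)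
          rw [hTm] at h5 ⊢
          exact mul_le_mul' h5 le_rfl
      _ ≤ ∫⁻ y in TS th κ P1 T, GT k th th' κ δ Y P1 P j T x * ‖umc th g T.2.1 y‖ₑ ^ 2 :=
          lintegral_mono_set Set.inter_subset_left
      _ = _ := by
          rw [lintegral_const_mul' _ _ (GT_fin x)]
          rfl

/-- the kernel is integrated over the child plate. -/
theorem int_GT (m' : ℤ × ℤ) (c : ℝ≥0∞) :
    ∫⁻ x in (P j).S m', GT k th th' κ δ Y P1 P j T x * c =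
      (An k th th' κ δ Y P1 P j T * (∫⁻ x in (P j).S m',
          ENNReal.ofReal (wt (frc th κ (cen th T.2.1)) (k + 4) (vvT th κ (P j).z T - x))) +
        ENNReal.ofReal ((Y ^ k)⁻¹ * 4 ^ 4) * (∫⁻ x in (P j).S m',
          ENNReal.ofReal (wt (frc th κ (cen th T.2.1)) 4 (vvT th κ (P j).z T - x)))) * c := by
  have hme : ∀ n : ℕ, Measurable fun x : E3 =>
      ENNReal.ofReal (wt (frc th κ (cen th T.2.1)) n (vvT th κ (P j).z T - x)) := fun n =>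
    ENNReal.measurable_ofReal.comp
      ((wt_cont _ n).comp (continuous_const.sub continuous_id)).measurable
  have hmG : Measurable fun x : E3 => GT k th th' κ δ Y P1 P j T x := by
    unfold GT
    exact ((hme _).const_mul _).add ((hme _).const_mul _)
  rw [lintegral_mul_const _ hmG]
  congr 1
  unfold GT
  rw [lintegral_add_left ((hme _).const_mul _), lintegral_const_mul _ (hme _),
    lintegral_const_mul _ (hme _)]

theorem GT_meas : Measurable fun x : E3 => GT k th th' κ δ Y P1 P j T x := by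
  have hme : ∀ n : ℕ, Measurable fun x : E3 =>
      ENNReal.ofReal (wt (frc th κ (cen th T.2.1)) n (vvT th κ (P j).z T - x)) := fun n =>
    ENNReal.measurable_ofReal.comp
      ((wt_cont _ n).comp (continuous_const.sub continuous_id)).measurable
  unfold GT
  exact ((hme _).const_mul _).add ((hme _).const_mul _)

theorem An_wT (hth : 0 < th) (hth' : 0 < th') (hκ : 0 < κ)
    (hm : ∀ m, MeasurableSet ((P j).S m)) :
    An k th th' κ δ Y P1 P j T * wT (k + 4) th th' κ P j T =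
      ENNReal.ofReal (4 ^ (k + 4) * cW * om k th th' κ δ Y P1 P j T) := by
  by_cases h : condT th th' κ δ Y P1 P j T
  · rw [om_wT hth hth' hκ hm h]
    unfold An
    rw [if_pos h, ← ENNReal.ofReal_mul (by positivity), mul_assoc]
  · rw [om_zero h]
    unfold An
    rw [if_neg h]
    simp

open Classical in
/-- the kernels are summed over the caps of the child plate. -/
theorem sum_GT (T : Idx) :
    ENNReal.ofReal (th ^ 2 * κ) * ∑ m' ∈ nearS th th' T.2.1,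
      ∫⁻ x in (P j).S m', GT k th th' κ δ Y P1 P j T x * muE th κ g P1 T =
    (An k th th' κ δ Y P1 P j T * wT (k + 4) th th' κ P j T +
      ENNReal.ofReal ((Y ^ k)⁻¹ * 4 ^ 4) * wT 4 th th' κ P j T) * muE th κ g P1 T := by
  have e1 : ∑ m' ∈ nearS th th' T.2.1,
      ∫⁻ x in (P j).S m', GT k th th' κ δ Y P1 P j T x * muE th κ g P1 T =
      (An k th th' κ δ Y P1 P j T * (∑ m' ∈ nearS th th' T.2.1, ∫⁻ x in (P j).S m',
          ENNReal.ofReal (wt (frc th κ (cen th T.2.1)) (k + 4) (vvT th κ (P j).z T - x))) +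
        ENNReal.ofReal ((Y ^ k)⁻¹ * 4 ^ 4) * (∑ m' ∈ nearS th th' T.2.1, ∫⁻ x in (P j).S m',
          ENNReal.ofReal (wt (frc th κ (cen th T.2.1)) 4 (vvT th κ (P j).z T - x)))) *
        muE th κ g P1 T := by
    rw [Finset.mul_sum, Finset.mul_sum, ← Finset.sum_add_distrib, Finset.sum_mul]
    exact Finset.sum_congr rfl fun m' _ => int_GT m' _
  rw [e1]
  unfold wT wE
  ring

end pt

/-! ### the energy of a child plate -/

/-- **energy of a misaligned child plate over the parent cells.** -/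
theorem en_mis (k : ℕ) {a : ℝ} (ha : 1 ≤ a) (T0 : ℝ) :
    ∃ C : ℝ, 0 ≤ C ∧ ∀ (η0 κ th th' δ Y K : ℝ), 0 < th → th ≤ 1 → th ≤ th' → 0 < κ →
    8 * a * κ ≤ 1 → κ * th' ≤ th → 0 < Y → 0 ≤ K → ∀ g : E3 → ℂ, Integrable g → Rng a g →
    Slc η0 κ g → ∀ (I1 : Finset ℕ) (P1 : ℕ → Plate), (∀ i ∈ I1, ∀ m, MeasurableSet ((P1 i).S m)) →
    (∀ i ∈ I1, ∀ m, ∀ y ∈ (P1 i).S m, ‖y‖ ≤ K) →
    ∀ (P : ℕ → Plate) (j : ℕ), (∀ m, MeasurableSet ((P j).S m)) → |(P j).z.2| * th ^ 2 ≤ T0 →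
    (∀ m, ∀ y ∈ (P j).S m, ‖umc th' (trc (P j).z (selc η0 κ th g (uS I1 P1))) m y‖ ≤
      2 * ‖umc th' (trc (P j).z (selc η0 κ th g
        (Smis δ th (rnd δ (nP th' (P j).f m y)) I1 P1))) m y‖) →
    enc th' (trc (P j).z (selc η0 κ th g (uS I1 P1))) (P j).S ≤
      ENNReal.ofReal (C * (th' / th) ^ 2) *
        (ENNReal.ofReal (∑ T ∈ Ic K th κ I1 P1, om k th th' κ δ Y P1 P j T * muT th κ g P1 T) +
          Fr k K th th' κ Y g I1 P1 P j) := by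
  classical
  obtain ⟨C0, hC0, h0⟩ := pt_leC (k + 4) ha T0
  have hcW := cW_pos
  refine ⟨4 * C0 * (4 ^ (k + 4) * cW + 4 ^ 4), by positivity, ?_⟩
  intro η0 κ th th' δ Y K hth hth1 hthh hκ hκa hst hY hK g hg hr hs I1 P1 hm hb P j hmj hz hmis
  have hth' : 0 < th' := lt_of_lt_of_le hth hthh
  set F := selc η0 κ th g (uS I1 P1) with hF
  set c1 : ℝ≥0∞ := ENNReal.ofReal (4 * (C0 * (th' / th) ^ 2)) with hc1
  set c2 : ℝ≥0∞ := ENNReal.ofReal (th ^ 2 * κ) with hc2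
  have hUb : ∀ N : E2, ∀ m, Bornology.IsBounded (Smis δ th N I1 P1 m) := by
    intro N m
    refine (Metric.isBounded_closedBall (x := (0 : E3)) (r := K)).subset ?_
    rintro y ⟨i, hi, -, hy⟩
    rw [mem_closedBall_zero_iff]
    exact hb i hi m y hy
  -- one cap
  have h1 : ∀ m' ∈ caps th', ∫⁻ x in (P j).S m', ‖umc th' (trc (P j).z F) m' x‖ₑ ^ 2 ≤
      c1 * (c2 * ∑ T ∈ (Ic K th κ I1 P1).filter (fun T => T.2.1 ∈ nearL th th' m'),
        ∫⁻ x in (P j).S m', GT k th th' κ δ Y P1 P j T x * muE th κ g P1 T) := by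
    intro m' hm'
    have h2 : ∀ x ∈ (P j).S m', ‖umc th' (trc (P j).z F) m' x‖ₑ ^ 2 ≤
        c1 * (c2 * ∑ T ∈ (Ic K th κ I1 P1).filter (fun T => T.2.1 ∈ nearL th th' m'),
          GT k th th' κ δ Y P1 P j T x * muE th κ g P1 T) := by
      intro x hx
      have h3 := hmis m' x hx
      set N := rnd δ (nP th' (P j).f m' x) with hN
      have h4 := h0 η0 κ th th' hth hthh hκ hκa hst g hg hr hs (Smis δ th N I1 P1)
        (fun m _ => measurableSet_Smis hm m) (fun m _ => hUb N m) (P j).z hz m' x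
      have h5 := adc_le (k := k) (g := g) (δ := δ) hth hth1 hκ hY hK hm hb hm' hx
      have h6 : ‖umc th' (trc (P j).z F) m' x‖ₑ ^ 2 ≤ ENNReal.ofReal 4 *
          ‖umc th' (trc (P j).z (selc η0 κ th g (Smis δ th N I1 P1))) m' x‖ₑ ^ 2 := by
        rw [← ofReal_norm, ← ofReal_norm, ← ENNReal.ofReal_pow (norm_nonneg _),
          ← ENNReal.ofReal_pow (norm_nonneg _), ← ENNReal.ofReal_mul (by norm_num)]
        refine ENNReal.ofReal_le_ofReal ?_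
        have := pow_le_pow_left₀ (norm_nonneg _) h3 2
        rw [mul_pow] at this
        norm_num at this
        exact this
      calc _ ≤ _ := h6
        _ ≤ ENNReal.ofReal 4 * (ENNReal.ofReal (C0 * (th' / th) ^ 2) * (c2 *
            ∑ T ∈ (Ic K th κ I1 P1).filter (fun T => T.2.1 ∈ nearL th th' m'),
              GT k th th' κ δ Y P1 P j T x * muE th κ g P1 T)) :=
            mul_le_mul' le_rfl (h4.trans (mul_le_mul' le_rfl h5))
        _ = _ := by rw [← mul_assoc, ← ENNReal.ofReal_mul (by norm_num)]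
    refine (setLIntegral_mono' (hmj m') h2).trans (le_of_eq ?_)
    rw [lintegral_const_mul' _ _ ENNReal.ofReal_ne_top, lintegral_const_mul' _ _
      ENNReal.ofReal_ne_top, lintegral_finsetSum _ (fun T _ => GT_meas.mul_const _)]
  unfold enc
  refine (Finset.sum_le_sum h1).trans ?_
  rw [← Finset.mul_sum, ← Finset.mul_sum]
  have h7 : ∑ m' ∈ caps th', ∑ T ∈ (Ic K th κ I1 P1).filter (fun T => T.2.1 ∈ nearL th th' m'),
        ∫⁻ x in (P j).S m', GT k th th' κ δ Y P1 P j T x * muE th κ g P1 T =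
      ∑ T ∈ Ic K th κ I1 P1, ∑ m' ∈ nearS th th' T.2.1,
        ∫⁻ x in (P j).S m', GT k th th' κ δ Y P1 P j T x * muE th κ g P1 T := by
    refine Finset.sum_comm' fun m' T => ?_
    rw [Finset.mem_filter, mem_nearL, mem_nearS]
    constructor
    · rintro ⟨a1, a2, a3, a4⟩
      exact ⟨⟨a1, a4⟩, a2⟩
    · rintro ⟨⟨a1, a4⟩, a2⟩
      exact ⟨a1, a2, (mem_Ic.1 a2).2.1, a4⟩
  rw [h7, Finset.mul_sum]
  have h8 : ∑ T ∈ Ic K th κ I1 P1, c2 * ∑ m' ∈ nearS th th' T.2.1,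
        ∫⁻ x in (P j).S m', GT k th th' κ δ Y P1 P j T x * muE th κ g P1 T =
      ENNReal.ofReal (4 ^ (k + 4) * cW) *
        ENNReal.ofReal (∑ T ∈ Ic K th κ I1 P1, om k th th' κ δ Y P1 P j T * muT th κ g P1 T) +
      ENNReal.ofReal (4 ^ 4) * Fr k K th th' κ Y g I1 P1 P j := by
    unfold Fr
    rw [ENNReal.ofReal_sum_of_nonneg (fun T _ => mul_nonneg om_nonneg (muT_nonneg _ _ _ _ _)),
      Finset.mul_sum, ← mul_assoc, ← ENNReal.ofReal_mul (by norm_num), Finset.mul_sum,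
      ← Finset.sum_add_distrib]
    refine Finset.sum_congr rfl fun T hT => ?_
    rw [hc2, sum_GT, add_mul, An_wT hth hth' hκ hmj, mul_comm (4 ^ 4 : ℝ)]
    congr 1
    · rw [← ofReal_muT (K := K) hg (hb _ (mem_Ic.1 hT).1 _), ← ENNReal.ofReal_mul (by
        have := om_nonneg (k := k) (th := th) (th' := th') (κ := κ) (δ := δ) (Y := Y) (P1 := P1)
          (P := P) (j := j) (T := T)
        positivity), ← ENNReal.ofReal_mul (by positivity), mul_assoc (4 ^ (k + 4) * cW)]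
    · rw [mul_assoc]
  rw [h8]
  have h9 : ENNReal.ofReal (4 * C0 * (4 ^ (k + 4) * cW + 4 ^ 4) * (th' / th) ^ 2) =
      c1 * ENNReal.ofReal (4 ^ (k + 4) * cW + 4 ^ 4) := by
    rw [hc1, ← ENNReal.ofReal_mul (by positivity)]
    congr 1
    ring
  rw [h9, mul_assoc]
  refine mul_le_mul' le_rfl ?_
  rw [mul_add]
  refine add_le_add (mul_le_mul' (ENNReal.ofReal_le_ofReal ?_) le_rfl)
    (mul_le_mul' (ENNReal.ofReal_le_ofReal ?_) le_rfl)
  · norm_num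
  · have : 0 < (4:ℝ) ^ (k + 4) * cW := by positivity
    linarith

/-- **the far parts.** -/
theorem sum_Fr (k : ℕ) {M A s1 s2 r1 dl : ℝ} (hr1 : 0 < r1) (hdl : 0 < dl) (hdl1 : dl ≤ 1)
    {κ K th th' Y : ℝ} {I : Finset ℕ} {P : ℕ → Plate}
    (hP : Plates M κ A (dl * r1) s1 s2 r1 I P) {g : E3 → ℂ} {I1 : Finset ℕ} {P1 : ℕ → Plate}
    (hth : 0 < th) (hth1 : th ≤ 1) (hth' : 0 < th') (hκ : 0 < κ) (hK : 0 ≤ K) (hY : 0 < Y)
    (hm : ∀ i ∈ I1, ∀ m, MeasurableSet ((P1 i).S m))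
    (hd : ∀ i ∈ I1, ∀ j ∈ I1, i ≠ j → ∀ m, Disjoint ((P1 i).S m) ((P1 j).S m))
    (hb : ∀ i ∈ I1, ∀ m, ∀ y ∈ (P1 i).S m, ‖y‖ ≤ K) :
    ∑ j ∈ I, Fr k K th th' κ Y g I1 P1 P j ≤
      ENNReal.ofReal ((Y ^ k)⁻¹ * (256 * (dl⁻¹) ^ 4 * cW)) * enc th g (uS I1 P1) := by
  unfold Fr
  rw [← Finset.mul_sum, Finset.sum_comm, ENNReal.ofReal_mul (by positivity), mul_assoc]
  refine mul_le_mul' le_rfl ?_
  rw [← tot_muE hth hth1 hκ hK hm hd hb, Finset.mul_sum]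
  refine Finset.sum_le_sum fun T _ => ?_
  rw [← Finset.sum_mul]
  have h := tot_wT hr1 hdl hdl1 hP hth hth' hκ 0 T
  rw [zero_add] at h
  exact mul_le_mul' h le_rfl

/-! ### the instance -/

section inst

variable {M q a b A d0 G c0 κ η0 r1 dl Y Gm s1' s2' s1 s2 D : ℝ} {g : E3 → ℂ}
  {I1 I : Finset ℕ} {P1 P : ℕ → Plate}

theorem parC_gdc (h : ParC M κ q a b A c0 η0 g r1 s1 s2 D I1 P1) (ha : 1 ≤ a) :
    GlC210.Gdc g := by
  refine ⟨h.gm, h.gb, ⟨b * a + a, fun ζ hζ => ?_⟩⟩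
  obtain ⟨h1, h2, h3⟩ := h.gs ζ hζ
  have hi : 0 < a⁻¹ := inv_pos.2 (by linarith)
  have h4 : 0 < ζ 2 := by linarith
  have h5 : ‖lat ζ‖ = ζ 2 * ‖slp ζ‖ := by
    unfold slp
    rw [norm_smul, norm_inv, Real.norm_eq_abs, abs_of_pos h4, ← mul_assoc,
      mul_inv_cancel₀ h4.ne', one_mul]
  refine (Ckm538.norm3_le ζ).trans (add_le_add ?_ ?_)
  · rw [h5, mul_comm]
    exact mul_le_mul h3 h2 h4.le ((norm_nonneg _).trans h3)
  · rw [abs_of_pos h4]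
    exact h2

theorem parC_int (h : ParC M κ q a b A c0 η0 g r1 s1 s2 D I1 P1) (ha : 1 ≤ a) : Integrable g :=
  (parC_gdc h ha).int

theorem parC_rng (h : ParC M κ q a b A c0 η0 g r1 s1 s2 D I1 P1) : Rng a g := fun ζ hζ =>
  ⟨(h.gs ζ hζ).1, (h.gs ζ hζ).2.1⟩

theorem parC_bd (h : ParC M κ q a b A c0 η0 g r1 s1 s2 D I1 P1) :
    ∀ i ∈ I1, ∀ m, ∀ y ∈ (P1 i).S m, ‖y‖ ≤ A * r1 := fun i hi m y hy =>
  mem_closedBall_zero_iff.1 (h.bd m (Set.mem_biUnion hi hy))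

/-- `(θ'/θ)² = dl⁻¹`. -/
theorem an_ratio (hd : 0 < dl) (hr : 0 < r1) : (an (dl * r1) / an r1) ^ 2 = dl⁻¹ := by
  have h := an_pos hr
  rw [an_dl hd hr, mul_div_assoc, div_self h.ne', mul_one, pow_two, dlh_sq hd]

/-- **(D)**: the misaligned child plates over the parent cells, for the hypotheses of `MIS_C`. -/
theorem mis_en (k : ℕ) {a : ℝ} (ha : 1 ≤ a) : ∃ C : ℝ, 0 ≤ C ∧
    ∀ (M q b A d0 G c0 κ η0 : ℝ) (g : E3 → ℂ) (r1 dl Y Gm s1' s2' s1 s2 D : ℝ)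
    (I1 : Finset ℕ) (P1 : ℕ → Plate) (I : Finset ℕ) (P : ℕ → Plate), d0 ≤ 1 → 0 ≤ A →
    Ctx M q a b A d0 G c0 κ η0 g r1 dl Y Gm s1' s2' s1 s2 D I1 P1 I P →
    IsMis (dl ^ (1/2 : ℝ)) κ η0 g dl r1 I1 P1 I P →
    (∀ j ∈ I, enc (an (dl * r1)) (trc (P j).z (selc η0 κ (an r1) g (uS I1 P1))) (P j).S ≤
      ENNReal.ofReal (C * dl⁻¹) * (ENNReal.ofReal (∑ T ∈ Ic (A * r1) (an r1) κ I1 P1,
        om k (an r1) (an (dl * r1)) κ (dl ^ (1/2 : ℝ)) Y P1 P j T * muT (an r1) κ g P1 T) +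
          Fr k (A * r1) (an r1) (an (dl * r1)) κ Y g I1 P1 P j)) ∧
    ∑ j ∈ I, Fr k (A * r1) (an r1) (an (dl * r1)) κ Y g I1 P1 P j ≤
      ENNReal.ofReal (C * (dl⁻¹) ^ 4 * (Y ^ k)⁻¹) * enc (an r1) g (uS I1 P1) := by
  obtain ⟨C, hC, hE⟩ := en_mis k ha 1
  have hcW := cW_pos
  refine ⟨C + 256 * cW, by positivity, ?_⟩
  intro M q b A d0 G c0 κ η0 g r1 dl Y Gm s1' s2' s1 s2 D I1 P1 I P hd01 hA h hmis
  have hr1 := h.r10
  have hdl := h.dlpos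
  have hdl1 := h.dl1 hd01
  have hth := an_pos hr1
  have hth1 := an_le_one (h.r11 hd01 ha)
  have hth' := an_pos h.rj0
  have hY : 0 < Y := lt_of_lt_of_le one_pos h.Y1
  have hK : 0 ≤ A * r1 := mul_nonneg hA hr1.le
  constructor
  · intro j hj
    have h1 := hE η0 κ (an r1) (an (dl * r1)) (dl ^ (1/2 : ℝ)) Y (A * r1) hth hth1
      (an_le_an hdl hdl1 hr1) h.kpos h.ka (h.st1' hd01) hY hK g (parC_int h.par ha)
      (parC_rng h.par) h.par.slc I1 P1 h.par.meas (parC_bd h.par) P j (h.pl.meas j hj) ?_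
      (hmis j hj)
    · rw [an_ratio hdl hr1] at h1
      refine h1.trans (mul_le_mul' (ENNReal.ofReal_le_ofReal ?_) le_rfl)
      have : 0 < dl⁻¹ := inv_pos.2 hdl
      gcongr
      linarith
    · have h2 := (h.pl.mem j hj).2
      rw [← mul_an_sq hr1]
      exact mul_le_mul_of_nonneg_right h2 (by positivity)
  · refine (sum_Fr k hr1 hdl hdl1 h.pl hth hth1 hth' h.kpos hK hY h.par.meas h.par.disj
      (parC_bd h.par)).trans (mul_le_mul' (ENNReal.ofReal_le_ofReal ?_) le_rfl)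
    have h3 : 0 < (dl⁻¹) ^ 4 := by positivity
    have h4 : 0 < (Y ^ k)⁻¹ := by positivity
    have h5 : 0 ≤ C * (dl⁻¹) ^ 4 * (Y ^ k)⁻¹ := by positivity
    calc (Y ^ k)⁻¹ * (256 * (dl⁻¹) ^ 4 * cW) = 256 * cW * (dl⁻¹) ^ 4 * (Y ^ k)⁻¹ := by ring
      _ ≤ (C + 256 * cW) * (dl⁻¹) ^ 4 * (Y ^ k)⁻¹ := by
          gcongr
          linarith

end inst

end Crest.Agent.R116.Mwc748
end

-- ▼ part R116/Mwc5_748
section

/-!
# R116 (S0155), wave side: MIS for the cone, wave half, part 5 (helper748): the value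

`mis_val`: the value of a misaligned child system is at most the near (finite, real) part plus the
tail; `MIS_C_of_FIN`: `MIS_C` from the finite real incidence estimate `FIN_C`.
-/

set_option autoImplicit false
set_option linter.unusedVariables false
set_option linter.unusedSectionVars false

open MeasureTheory
open scoped ENNReal

namespace Crest.Agent.R116.Mwc748

open Crest.Agent.R138.Defs (E2)
open Crest.Agent.R138.Wpk685 (cen caps)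
open Crest.Agent.R116.CDef480
open Crest.Agent.R116.PC299
open Crest.Agent.R116.WC188

theorem rpow_32 (x : ℝ≥0∞) : x ^ (3/2 : ℝ) = x * x ^ (1/2 : ℝ) := by
  have : (3/2 : ℝ) = 1 + 1/2 := by norm_num
  rw [this, ENNReal.rpow_add_of_nonneg _ _ (by norm_num) (by norm_num), ENNReal.rpow_one]

theorem sum_rpow_le {ι : Type*} (J : Finset ι) (f : ι → ℝ≥0∞) :
    ∑ j ∈ J, f j ^ (3/2 : ℝ) ≤ (∑ j ∈ J, f j) ^ (3/2 : ℝ) := by
  rw [rpow_32 (∑ j ∈ J, f j), Finset.sum_mul]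
  refine Finset.sum_le_sum fun j hj => ?_
  rw [rpow_32]
  refine mul_le_mul' le_rfl (ENNReal.rpow_le_rpow ?_ (by norm_num))
  exact Finset.single_le_sum (f := f) (fun _ _ => zero_le) hj

/-- one term of `val`. -/
theorem val_term {r s : ℝ} (hr : 0 < r) (hs : 0 < s) (e : ℝ≥0∞) :
    ENNReal.ofReal ((r * s) ^ (-(1/2) : ℝ)) * (ENNReal.ofReal r * e) ^ (3 / 2 : ℝ) =
      ENNReal.ofReal (r * s ^ (-(1/2) : ℝ)) * e ^ (3/2 : ℝ) := by
  rw [ENNReal.mul_rpow_of_nonneg _ _ (by norm_num : (0:ℝ) ≤ 3/2), ENNReal.ofReal_rpow_of_pos hr,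
    ← mul_assoc, ← ENNReal.ofReal_mul (by positivity)]
  congr 2
  rw [Real.mul_rpow hr.le hs.le]
  have h1 : r ^ (-(1/2) : ℝ) * r ^ (3/2 : ℝ) = r := by
    rw [← Real.rpow_add hr]
    norm_num
  calc _ = (r ^ (-(1/2) : ℝ) * r ^ (3/2 : ℝ)) * s ^ (-(1/2) : ℝ) := by ring
    _ = _ := by rw [h1]

/-- power `3/2` of near + far. -/
theorem pow_split {e a f : ℝ≥0∞} {K1 : ℝ} (hK1 : 0 ≤ K1) (h : e ≤ ENNReal.ofReal K1 * (a + f)) :
    e ^ (3/2 : ℝ) ≤ ENNReal.ofReal (2 * K1 ^ (3/2 : ℝ)) * (a ^ (3/2 : ℝ) + f ^ (3/2 : ℝ)) := by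
  refine (ENNReal.rpow_le_rpow h (by norm_num : (0:ℝ) ≤ 3/2)).trans ?_
  rw [ENNReal.mul_rpow_of_nonneg _ _ (by norm_num : (0:ℝ) ≤ 3/2),
    ENNReal.ofReal_rpow_of_nonneg hK1 (by norm_num : (0:ℝ) ≤ 3/2), mul_comm 2 (K1 ^ (3/2 : ℝ)),
    ENNReal.ofReal_mul (by positivity), mul_assoc]
  refine mul_le_mul' le_rfl ?_
  refine (ENNReal.rpow_add_le_mul_rpow_add_rpow a f (by norm_num : (1:ℝ) ≤ 3/2)).trans ?_
  refine mul_le_mul' ?_ le_rfl
  rw [ENNReal.ofReal_ofNat]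
  calc (2 : ℝ≥0∞) ^ ((3/2 : ℝ) - 1) ≤ 2 ^ (1 : ℝ) :=
        ENNReal.rpow_le_rpow_of_exponent_le (by norm_num) (by norm_num)
    _ = 2 := ENNReal.rpow_one 2

/-- sections are not small. -/
theorem scost_ge {κ s1 s2 r : ℝ} (hr : 1 ≤ r) (hs : Sd r s1 s2) : r ≤ scost κ s1 s2 r := by
  have hr0 : 0 < r := by linarith
  have ha := an_pos hr0
  have h1 : an r ≤ s1 := hs.lo
  have h2 : an r ≤ s2 := h1.trans hs.le
  have h3 : s2 ^ 2 ≤ TT κ s2 r := sq_le_TT _ _ _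
  have h4 : an r ^ 2 ≤ s2 ^ 2 := pow_le_pow_left₀ ha.le h2 2
  have hs1 : 0 < s1 := ha.trans_le h1
  have hs2 : 0 < s2 := ha.trans_le h2
  unfold scost
  calc r = an r * an r * an r ^ 2 * r ^ 3 := by
        have := mul_an_sq hr0
        calc r = r * 1 * 1 := by ring
          _ = r * (r * an r ^ 2) * (r * an r ^ 2) := by rw [this]
          _ = _ := by ring
    _ ≤ s1 * s2 * TT κ s2 r * r ^ 3 := by
        have := h4.trans h3
        gcongr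

/-- real inequality for the tail. -/
theorem tail_real {q r1 dl s2 S Y C1 : ℝ} {k : ℕ} (hq : 0 ≤ q) (hq1 : q ≤ 4) (hr' : 1 ≤ dl * r1)
    (hdl : 0 < dl) (hdl1 : dl ≤ 1) (hY : 1 ≤ Y) (h2 : an (dl * r1) ≤ s2)
    (hS : 1 ≤ S) (hC1 : 0 ≤ C1) :
    s2 ^ (-q / 2) * (C1 * (dl⁻¹) ^ (3/2 : ℝ) * (dl * r1 * S ^ (-(1/2) : ℝ))) *
      (C1 * (dl⁻¹) ^ 4 * (Y ^ k)⁻¹) ^ (3/2 : ℝ) ≤
    C1 * (C1 * (1 + C1)) * r1 ^ (20 : ℕ) * (Y ^ k)⁻¹ := by
  have hr0 : 0 < r1 := by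
    by_contra h
    push Not at h
    nlinarith
  have hr1 : 1 ≤ r1 := by nlinarith
  have hρ : 0 < an (dl * r1) := an_pos (by linarith)
  have p2 : 0 < s2 := hρ.trans_le h2
  have hdi : 1 ≤ dl⁻¹ := (one_le_inv₀ hdl).2 hdl1
  have hdr : dl⁻¹ ≤ r1 := by
    rw [inv_le_iff_one_le_mul₀ hdl]
    linarith
  have hYM : 1 ≤ Y ^ k := one_le_pow₀ hY
  have hYi : (Y ^ k)⁻¹ ≤ 1 := inv_le_one_of_one_le₀ hYM
  have hYi0 : 0 < (Y ^ k)⁻¹ := by positivity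
  have b1 : s2 ^ (-q / 2) ≤ r1 := by
    calc s2 ^ (-q / 2) ≤ (an (dl * r1)) ^ (-q / 2) :=
          Real.rpow_le_rpow_of_nonpos hρ h2 (by linarith)
      _ = (dl * r1) ^ (q / 4) := by
          show ((dl * r1) ^ (-(1/2) : ℝ)) ^ (-q / 2) = _
          rw [← Real.rpow_mul (by linarith)]
          congr 1
          ring
      _ ≤ (dl * r1) ^ (1 : ℝ) := Real.rpow_le_rpow_of_exponent_le hr' (by linarith)
      _ = dl * r1 := Real.rpow_one _
      _ ≤ r1 := by nlinarith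
  have b2 : dl * r1 * S ^ (-(1/2) : ℝ) ≤ r1 := by
    have h5 : S ^ (-(1/2) : ℝ) ≤ 1 := Real.rpow_le_one_of_one_le_of_nonpos hS (by norm_num)
    have h6 : 0 ≤ S ^ (-(1/2) : ℝ) := Real.rpow_nonneg (by linarith) _
    calc dl * r1 * S ^ (-(1/2) : ℝ) ≤ 1 * r1 * 1 := by gcongr
      _ = r1 := by ring
  have b3 : (dl⁻¹) ^ (3/2 : ℝ) ≤ r1 ^ 2 := by
    calc (dl⁻¹) ^ (3/2 : ℝ) ≤ (dl⁻¹) ^ (2 : ℝ) :=
          Real.rpow_le_rpow_of_exponent_le hdi (by norm_num)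
      _ = (dl⁻¹) ^ 2 := by norm_num
      _ ≤ r1 ^ 2 := pow_le_pow_left₀ (by positivity) hdr 2
  set t : ℝ := C1 * (dl⁻¹) ^ 4 * (Y ^ k)⁻¹ with ht
  have ht0 : 0 ≤ t := by positivity
  have t2 : t ≤ C1 * r1 ^ 4 * (Y ^ k)⁻¹ := by
    rw [ht]
    have : (dl⁻¹) ^ 4 ≤ r1 ^ 4 := pow_le_pow_left₀ (by positivity) hdr 4
    gcongr
  have t3 : t ≤ C1 * r1 ^ 4 := t2.trans (mul_le_of_le_one_right (by positivity) hYi)
  have hr3 : 1 ≤ r1 ^ 4 := one_le_pow₀ hr1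
  have t4 : t ^ (1/2 : ℝ) ≤ (1 + C1) * r1 ^ 4 := by
    have h5 : t ^ (1/2 : ℝ) ≤ 1 + t := by
      rcases le_total t 1 with h6 | h6
      · exact (Real.rpow_le_one ht0 h6 (by norm_num)).trans (by linarith)
      · calc t ^ (1/2 : ℝ) ≤ t ^ (1 : ℝ) := Real.rpow_le_rpow_of_exponent_le h6 (by norm_num)
          _ = t := Real.rpow_one t
          _ ≤ _ := by linarith
    nlinarith
  have t5 : t ^ (3/2 : ℝ) ≤ C1 * (1 + C1) * r1 ^ 8 * (Y ^ k)⁻¹ := by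
    have e : t ^ (3/2 : ℝ) = t * t ^ (1/2 : ℝ) := by
      have : (3/2 : ℝ) = 1 + 1/2 := by norm_num
      rw [this, Real.rpow_add_of_nonneg ht0 (by norm_num) (by norm_num), Real.rpow_one]
    rw [e]
    calc t * t ^ (1/2 : ℝ) ≤ (C1 * r1 ^ 4 * (Y ^ k)⁻¹) * ((1 + C1) * r1 ^ 4) :=
          mul_le_mul t2 t4 (Real.rpow_nonneg ht0 _) (by positivity)
      _ = _ := by ring
  have p3 : 0 ≤ s2 ^ (-q / 2) := Real.rpow_nonneg p2.le _
  have p4 : 0 ≤ dl * r1 * S ^ (-(1/2) : ℝ) := by positivity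
  have p5 : 0 ≤ (dl⁻¹) ^ (3/2 : ℝ) := by positivity
  calc s2 ^ (-q / 2) * (C1 * (dl⁻¹) ^ (3/2 : ℝ) * (dl * r1 * S ^ (-(1/2) : ℝ))) * t ^ (3/2 : ℝ)
      ≤ r1 * (C1 * r1 ^ 2 * r1) * (C1 * (1 + C1) * r1 ^ 8 * (Y ^ k)⁻¹) := by
        gcongr
    _ = C1 * (C1 * (1 + C1)) * r1 ^ 12 * (Y ^ k)⁻¹ := by ring
    _ ≤ C1 * (C1 * (1 + C1)) * r1 ^ 20 * (Y ^ k)⁻¹ := by
        have : r1 ^ 12 ≤ r1 ^ 20 := pow_le_pow_right₀ hr1 (by norm_num)
        gcongr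

/-! ### the value -/

/-- the near value. -/
noncomputable def nnV (k : ℕ) (K th th' κ δ Y : ℝ) (g : E3 → ℂ) (I1 : Finset ℕ) (P1 : ℕ → Plate)
    (I : Finset ℕ) (P : ℕ → Plate) : ℝ :=
  ∑ i ∈ I, (∑ T ∈ Ic K th κ I1 P1, om k th th' κ δ Y P1 P i T * muT th κ g P1 T) ^ (3/2 : ℝ)

theorem nn0 {k : ℕ} {K th th' κ δ Y : ℝ} {g : E3 → ℂ} {I1 : Finset ℕ} {P1 : ℕ → Plate}
    {P : ℕ → Plate} (i : ℕ) :
    0 ≤ ∑ T ∈ Ic K th κ I1 P1, om k th th' κ δ Y P1 P i T * muT th κ g P1 T :=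
  Finset.sum_nonneg fun T _ => mul_nonneg om_nonneg (muT_nonneg _ _ _ _ _)

theorem nnV_nonneg {k : ℕ} {K th th' κ δ Y : ℝ} {g : E3 → ℂ} {I1 : Finset ℕ} {P1 : ℕ → Plate}
    {I : Finset ℕ} {P : ℕ → Plate} : 0 ≤ nnV k K th th' κ δ Y g I1 P1 I P :=
  Finset.sum_nonneg fun i _ => Real.rpow_nonneg (nn0 i) _

section inst

variable {M q a b A d0 G c0 κ η0 r1 dl Y Gm s1' s2' s1 s2 D : ℝ} {g : E3 → ℂ}
  {I1 I : Finset ℕ} {P1 P : ℕ → Plate}

theorem parC_Gd (h : ParC M κ q a b A c0 η0 g r1 s1 s2 D I1 P1) (ha : 1 ≤ a) (hb : b ≤ 2) :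
    Ba449.Gd (b * a + a) g := by
  refine ⟨h.gm, h.gb, fun ζ hζ => ?_, fun ζ hζ => (h.gs ζ hζ).2.2.trans hb⟩
  obtain ⟨h1, h2, h3⟩ := h.gs ζ hζ
  have hi : 0 < a⁻¹ := inv_pos.2 (by linarith)
  have h4 : 0 < ζ 2 := by linarith
  have h5 : ‖lat ζ‖ = ζ 2 * ‖slp ζ‖ := by
    unfold slp
    rw [norm_smul, norm_inv, Real.norm_eq_abs, abs_of_pos h4, ← mul_assoc,
      mul_inv_cancel₀ h4.ne', one_mul]
  refine (Ckm538.norm3_le ζ).trans (add_le_add ?_ ?_)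
  · rw [h5, mul_comm]
    exact mul_le_mul h3 h2 h4.le ((norm_nonneg _).trans h3)
  · rw [abs_of_pos h4]
    exact h2

/-- total energy of the parent class. -/
theorem parC_enc (h : ParC M κ q a b A c0 η0 g r1 s1 s2 D I1 P1) (ha : 1 ≤ a) (hb : b ≤ 2)
    (hr : 0 < r1) : enc (an r1) g (uS I1 P1) ≤ ENNReal.ofReal (Enc g) :=
  Ba449.enc_le (parC_Gd h ha hb) (an_pos hr) _

/-- **value of the child plates = near + far + tail.** -/
theorem mis_val (k : ℕ) {a q : ℝ} (ha : 1 ≤ a) (hq0 : 0 ≤ q) (hq1 : q ≤ 4) : ∃ C : ℝ, 0 ≤ C ∧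
    ∀ (M b A d0 G c0 κ η0 : ℝ) (g : E3 → ℂ) (r1 dl Y Gm s1' s2' s1 s2 D : ℝ)
    (I1 : Finset ℕ) (P1 : ℕ → Plate) (I : Finset ℕ) (P : ℕ → Plate), b ≤ 2 → d0 ≤ 1 → 0 ≤ A →
    Ctx M q a b A d0 G c0 κ η0 g r1 dl Y Gm s1' s2' s1 s2 D I1 P1 I P →
    IsMis (dl ^ (1/2 : ℝ)) κ η0 g dl r1 I1 P1 I P →
    ENNReal.ofReal (s2 ^ (-q / 2)) *
        val κ (selc η0 κ (an r1) g (uS I1 P1)) (dl * r1) s1 s2 I P ≤
      ENNReal.ofReal (C * (dl⁻¹) ^ (3/2 : ℝ) * (s2 ^ (-q / 2) *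
        (dl * r1 * (scost κ s1 s2 (dl * r1)) ^ (-(1/2) : ℝ)) *
        nnV k (A * r1) (an r1) (an (dl * r1)) κ (dl ^ (1/2 : ℝ)) Y g I1 P1 I P)) +
      Tl C Y k g r1 := by
  obtain ⟨C, hC, hE⟩ := mis_en k ha
  set C1 : ℝ := 2 * C ^ (3/2 : ℝ) + C with hC1
  have hC10 : 0 ≤ C1 := by positivity
  have hCC1 : C ≤ C1 := by
    have : 0 ≤ 2 * C ^ (3/2 : ℝ) := by positivity
    linarith
  refine ⟨C1 + C1 * (C1 * (1 + C1)), by positivity, ?_⟩
  intro M b A d0 G c0 κ η0 g r1 dl Y Gm s1' s2' s1 s2 D I1 P1 I P hb2 hd01 hA h hmis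
  have hr1 := h.r10
  have hdl := h.dlpos
  have hdl1 := h.dl1 hd01
  have hrj := h.rj1 ha
  have hrj0 := h.rj0
  obtain ⟨hE1, hE2⟩ := hE M q b A d0 G c0 κ η0 g r1 dl Y Gm s1' s2' s1 s2 D I1 P1 I P hd01 hA h hmis
  set K := A * r1 with hK
  set th := an r1 with hth
  set th' := an (dl * r1) with hth'
  set δ := dl ^ (1/2 : ℝ) with hδ
  set rj := dl * r1 with hrjd
  set S := scost κ s1 s2 rj with hS
  have hS1 : 1 ≤ S := hrj.trans (scost_ge hrj h.sd)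
  have hS0 : 0 < S := by linarith
  set n1 : ℕ → ℝ := fun i => ∑ T ∈ Ic K th κ I1 P1, om k th th' κ δ Y P1 P i T * muT th κ g P1 T
    with hn1
  set ff : ℕ → ℝ≥0∞ := fun i => Fr k K th th' κ Y g I1 P1 P i with hff
  have hterm : ∀ i ∈ I, (enc th' (trc (P i).z (selc η0 κ th g (uS I1 P1))) (P i).S) ^
      (3/2 : ℝ) ≤ ENNReal.ofReal (C1 * (dl⁻¹) ^ (3/2 : ℝ)) *
        (ENNReal.ofReal (n1 i ^ (3/2 : ℝ)) + ff i ^ (3/2 : ℝ)) := by
    intro i hi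
    have h2 := hE1 i hi
    have hdi0 : 0 ≤ dl⁻¹ := (inv_pos.2 hdl).le
    refine (pow_split (by positivity) h2).trans (mul_le_mul' (ENNReal.ofReal_le_ofReal ?_) ?_)
    · rw [Real.mul_rpow hC hdi0, ← mul_assoc]
      have : 2 * C ^ (3/2 : ℝ) ≤ C1 := by rw [hC1]; linarith
      gcongr
    · rw [ENNReal.ofReal_rpow_of_nonneg (nn0 i) (by norm_num)]
  have hval : val κ (selc η0 κ th g (uS I1 P1)) rj s1 s2 I P ≤
      ENNReal.ofReal (C1 * (dl⁻¹) ^ (3/2 : ℝ) * (rj * S ^ (-(1/2) : ℝ))) *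
        (ENNReal.ofReal (nnV k K th th' κ δ Y g I1 P1 I P) + (∑ i ∈ I, ff i) ^ (3/2 : ℝ)) := by
    unfold val
    calc ∑ i ∈ I, ENNReal.ofReal ((rj * scost κ s1 s2 rj) ^ (-(1/2) : ℝ)) *
          (ENNReal.ofReal rj * enc (rj ^ (-(1/2) : ℝ))
            (trc (P i).z (selc η0 κ th g (uS I1 P1))) (P i).S) ^ (3 / 2 : ℝ)
        = ∑ i ∈ I, ENNReal.ofReal (rj * S ^ (-(1/2) : ℝ)) *
          (enc th' (trc (P i).z (selc η0 κ th g (uS I1 P1))) (P i).S) ^ (3/2 : ℝ) :=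
          Finset.sum_congr rfl fun i _ => val_term hrj0 hS0 _
      _ ≤ ∑ i ∈ I, ENNReal.ofReal (rj * S ^ (-(1/2) : ℝ)) *
          (ENNReal.ofReal (C1 * (dl⁻¹) ^ (3/2 : ℝ)) *
          (ENNReal.ofReal (n1 i ^ (3/2 : ℝ)) + ff i ^ (3/2 : ℝ))) :=
          Finset.sum_le_sum fun i hi => mul_le_mul' le_rfl (hterm i hi)
      _ = ENNReal.ofReal (C1 * (dl⁻¹) ^ (3/2 : ℝ) * (rj * S ^ (-(1/2) : ℝ))) *
          (ENNReal.ofReal (∑ i ∈ I, n1 i ^ (3/2 : ℝ)) + ∑ i ∈ I, ff i ^ (3/2 : ℝ)) := by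
          rw [← Finset.mul_sum, ← Finset.mul_sum, ← mul_assoc, ← ENNReal.ofReal_mul (by positivity),
            Finset.sum_add_distrib, ENNReal.ofReal_sum_of_nonneg fun i _ =>
              Real.rpow_nonneg (nn0 i) _, mul_comm (rj * S ^ (-(1/2) : ℝ))]
      _ ≤ _ := mul_le_mul' le_rfl (add_le_add le_rfl (sum_rpow_le I ff))
  have q1 : 0 ≤ s2 ^ (-q / 2) := Real.rpow_nonneg (Sd.s20 h.sd hrj0).le _
  set nn : ℝ := nnV k K th th' κ δ Y g I1 P1 I P with hnn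
  have hnn0 : 0 ≤ nn := nnV_nonneg
  set X : ℝ := rj * S ^ (-(1/2) : ℝ) with hX
  have hX0 : 0 ≤ X := by positivity
  have hdi : 0 ≤ (dl⁻¹) ^ (3/2 : ℝ) := Real.rpow_nonneg (inv_pos.2 hdl).le _
  calc ENNReal.ofReal (s2 ^ (-q / 2)) * val κ (selc η0 κ th g (uS I1 P1)) rj s1 s2 I P
      ≤ ENNReal.ofReal (s2 ^ (-q / 2)) * (ENNReal.ofReal (C1 * (dl⁻¹) ^ (3/2 : ℝ) * X) *
        (ENNReal.ofReal nn + (∑ i ∈ I, ff i) ^ (3/2 : ℝ))) := mul_le_mul' le_rfl hval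
    _ = ENNReal.ofReal (s2 ^ (-q / 2) * (C1 * (dl⁻¹) ^ (3/2 : ℝ) * X) * nn) +
        ENNReal.ofReal (s2 ^ (-q / 2) * (C1 * (dl⁻¹) ^ (3/2 : ℝ) * X)) *
          (∑ i ∈ I, ff i) ^ (3/2 : ℝ) := by
        rw [← mul_assoc, ← ENNReal.ofReal_mul q1, mul_add, ← ENNReal.ofReal_mul (by positivity)]
    _ ≤ _ := by
        refine add_le_add (ENNReal.ofReal_le_ofReal ?_) ?_
        · calc s2 ^ (-q / 2) * (C1 * (dl⁻¹) ^ (3/2 : ℝ) * X) * nn
              = C1 * (dl⁻¹) ^ (3/2 : ℝ) * (s2 ^ (-q / 2) * X * nn) := by ring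
            _ ≤ (C1 + C1 * (C1 * (1 + C1))) * (dl⁻¹) ^ (3/2 : ℝ) * (s2 ^ (-q / 2) * X * nn) := by
                have : 0 ≤ C1 * (C1 * (1 + C1)) := by positivity
                gcongr
                linarith
        · unfold Tl
          have hF1 : ∑ i ∈ I, ff i ≤ ENNReal.ofReal (C1 * (dl⁻¹) ^ 4 * (Y ^ k)⁻¹) *
              ENNReal.ofReal (Enc g) := by
            refine hE2.trans (mul_le_mul' (ENNReal.ofReal_le_ofReal ?_)
              (parC_enc h.par ha hb2 hr1))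
            have h5 : 0 ≤ (dl⁻¹) ^ 4 := by positivity
            have h6 : 0 ≤ (Y ^ k)⁻¹ := inv_nonneg.2 (pow_nonneg (by linarith [h.Y1]) _)
            gcongr
          have hY0 : 0 < Y := lt_of_lt_of_le one_pos h.Y1
          have hF2 : (∑ i ∈ I, ff i) ^ (3/2 : ℝ) ≤
              ENNReal.ofReal ((C1 * (dl⁻¹) ^ 4 * (Y ^ k)⁻¹) ^ (3/2 : ℝ)) *
              (ENNReal.ofReal (Enc g)) ^ (3/2 : ℝ) := by
            refine (ENNReal.rpow_le_rpow hF1 (by norm_num : (0:ℝ) ≤ 3/2)).trans (le_of_eq ?_)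
            rw [ENNReal.mul_rpow_of_nonneg _ _ (by norm_num : (0:ℝ) ≤ 3/2),
              ENNReal.ofReal_rpow_of_nonneg (by positivity) (by norm_num : (0:ℝ) ≤ 3/2)]
          refine (mul_le_mul' le_rfl hF2).trans ?_
          rw [← mul_assoc, ← ENNReal.ofReal_mul (by positivity)]
          refine mul_le_mul' (ENNReal.ofReal_le_ofReal ?_) le_rfl
          refine (tail_real hq0 hq1 hrj hdl hdl1 h.Y1 (h.sd.lo.trans h.sd.le) hS1 hC10).trans ?_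
          have h7 : 0 ≤ r1 ^ 20 := by positivity
          have h8 : 0 ≤ (Y ^ k)⁻¹ := by positivity
          gcongr
          linarith

end inst

/-! ### `MIS_C` from the finite part -/

/-- **finite real part** of `MIS_C`. -/
def FIN_C (M q : ℝ) : Prop :=
  ∃ G : ℝ, 1 ≤ G ∧ ∀ ε : ℝ, 0 < ε → ∃ G' : ℝ, 0 ≤ G' ∧
  ∀ a b A : ℝ, 1 ≤ a → 0 < b → b < 2 → 1 ≤ A → ∃ d0 : ℝ, 0 < d0 ∧ d0 ≤ 1 ∧
  ∀ Mt : ℕ, ∃ C : ℝ, 0 ≤ C ∧
  ∀ (c0 κ η0 : ℝ) (g : E3 → ℂ) (r1 dl Y Gm s1' s2' s1 s2 D : ℝ)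
    (I1 : Finset ℕ) (P1 : ℕ → Plate) (I : Finset ℕ) (P : ℕ → Plate),
    Ctx M q a b A d0 G c0 κ η0 g r1 dl Y Gm s1' s2' s1 s2 D I1 P1 I P →
    dl ^ (-G) * an r1 ≤ s2' →
    s2 ^ (-q / 2) * (dl * r1 * (scost κ s1 s2 (dl * r1)) ^ (-(1/2) : ℝ)) *
        nnV Mt (A * r1) (an r1) (an (dl * r1)) κ (dl ^ (1/2 : ℝ)) Y g I1 P1 I P ≤
      C * r1 ^ ε * (Y / c0) ^ G' * Gm ^ G * dl ^ (2 : ℕ) * (r1 * Real.sqrt D) *
        ∑ T ∈ Ic (A * r1) (an r1) κ I1 P1, muT (an r1) κ g P1 T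

theorem MIS_C_of_FIN {M q : ℝ} (hq0 : 0 ≤ q) (hq1 : q ≤ 4) (hF : FIN_C M q) : MIS_C M q := by
  obtain ⟨G, hG, hF⟩ := hF
  refine ⟨G, hG, fun ε hε => ?_⟩
  obtain ⟨G', hG', hF⟩ := hF ε hε
  refine ⟨G', hG', fun a b A ha hb hb2 hA => ?_⟩
  obtain ⟨d0, hd0, hd01, hF⟩ := hF a b A ha hb hb2 hA
  refine ⟨d0, hd0, hd01, fun Mt => ?_⟩
  obtain ⟨C2, hC2, hF⟩ := hF Mt
  obtain ⟨C1, hC1, hV⟩ := mis_val Mt ha hq0 hq1
  refine ⟨C1 * C2 + C1, by positivity, ?_⟩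
  intro c0 κ η0 g r1 dl Y Gm s1' s2' s1 s2 D I1 P1 I P h hw hmis
  have hr1 := h.r10
  have hdl := h.dlpos
  have hY := h.Y1
  have hY0 : 0 < Y := by linarith
  have hc0 := h.c0pos
  have hGm := h.Gm1
  have h1 := hV M b A d0 G c0 κ η0 g r1 dl Y Gm s1' s2' s1 s2 D I1 P1 I P hb2.le hd01
    (by linarith) h hmis
  have h2 := hF c0 κ η0 g r1 dl Y Gm s1' s2' s1 s2 D I1 P1 I P h hw
  refine h1.trans (add_le_add ?_ ?_)
  · have hK : 0 ≤ A * r1 := by positivity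
    have htot : ENNReal.ofReal (∑ T ∈ Ic (A * r1) (an r1) κ I1 P1, muT (an r1) κ g P1 T) =
        enc (an r1) g (uS I1 P1) := by
      rw [sum_muT (parC_int h.par ha) (parC_bd h.par) _ (le_refl _),
        tot_muE (an_pos hr1) (an_le_one (h.r11 hd01 ha)) h.kpos hK h.par.meas h.par.disj
        (parC_bd h.par)]
    have hμ0 : 0 ≤ ∑ T ∈ Ic (A * r1) (an r1) κ I1 P1, muT (an r1) κ g P1 T :=
      Finset.sum_nonneg fun T _ => muT_nonneg _ _ _ _ _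
    have hsD := Real.sqrt_nonneg D
    have hGG : 0 ≤ Gm ^ G := Real.rpow_nonneg (by linarith) _
    have hrε : 0 ≤ r1 ^ ε := Real.rpow_nonneg hr1.le _
    have hYc : 0 ≤ (Y / c0) ^ G' := Real.rpow_nonneg (by positivity) _
    have hdh : 0 ≤ dl ^ (1/2 : ℝ) := Real.rpow_nonneg hdl.le _
    have hdi : 0 ≤ (dl⁻¹) ^ (3/2 : ℝ) := Real.rpow_nonneg (inv_pos.2 hdl).le _
    have e2 : (dl⁻¹) ^ (3/2 : ℝ) * dl ^ (2 : ℕ) = dl ^ (1/2 : ℝ) := by
      rw [Real.inv_rpow hdl.le, ← Real.rpow_neg hdl.le, ← Real.rpow_natCast dl 2,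
        ← Real.rpow_add hdl]
      norm_num
    unfold SCo
    rw [← htot, ← ENNReal.ofReal_mul (by positivity), ← ENNReal.ofReal_mul (by positivity)]
    refine ENNReal.ofReal_le_ofReal ((mul_le_mul_of_nonneg_left h2 (by positivity)).trans ?_)
    set μ := ∑ T ∈ Ic (A * r1) (an r1) κ I1 P1, muT (an r1) κ g P1 T with hμ
    calc C1 * (dl⁻¹) ^ (3/2 : ℝ) * (C2 * r1 ^ ε * (Y / c0) ^ G' * Gm ^ G * dl ^ (2 : ℕ) *
          (r1 * Real.sqrt D) * μ)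
        = C1 * C2 * r1 ^ ε * (Y / c0) ^ G' * Gm ^ G * ((dl⁻¹) ^ (3/2 : ℝ) * dl ^ (2 : ℕ)) *
          (r1 * Real.sqrt D * μ) := by ring
      _ = C1 * C2 * r1 ^ ε * (Y / c0) ^ G' * Gm ^ G * dl ^ (1/2 : ℝ) *
          (r1 * Real.sqrt D * μ) := by rw [e2]
      _ ≤ (C1 * C2 + C1) * r1 ^ ε * (Y / c0) ^ G' * Gm ^ G * dl ^ (1/2 : ℝ) *
          (r1 * Real.sqrt D * μ) := by
          gcongr
          linarith
  · unfold Tl
    refine mul_le_mul' (ENNReal.ofReal_le_ofReal ?_) le_rfl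
    have h7 : 0 ≤ r1 ^ 20 := by positivity
    have h8 : 0 ≤ (Y ^ Mt)⁻¹ := by positivity
    have h9 : 0 ≤ C1 * C2 := by positivity
    gcongr
    linarith

end Crest.Agent.R116.Mwc748
end

-- ▼ part R116/Mwc6_748
section

/-!
# R116 (S0155), wave side: MIS for the cone, part 6 (helper748): the cells as weighted rays

* `iso_cells`: isotropic density of the cells (`hiso` of `Mc330.mis_fin`).
* `plate_mass`: mass of one parent plate.
* `own_slopes`, `test_slopes`: slopes.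
-/

set_option autoImplicit false
set_option linter.unusedVariables false
set_option linter.unusedSectionVars false

open MeasureTheory
open scoped ENNReal

namespace Crest.Agent.R116.Mwc748

open Crest.Agent.R138.Defs (E2)
open Crest.Agent.R138.Wpk685 (cen caps)
open Crest.Agent.R138.Loc878 (nearL nearS mem_nearL mem_nearS)
open Crest.Agent.R116.CDef480
open Crest.Agent.R116.LZg725 (Cf)
open Crest.Agent.R116.PC299
open Crest.Agent.R116.WC188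
open Crest.Agent.R116.De295 (flt flt_ev flt_ld)
open Crest.Agent.R116.Ma448 (BX)

/-- flat members of all sizes. -/
theorem flt_adm' {M κ r ψ : ℝ} (hM : 0 ≤ M) (hκ : 0 < κ) (hr : 0 < r) (hψ : 0 < ψ) (c : E2)
    (X0 : E3) : Adm M κ ψ ψ (TT κ ψ r) r c X0 (flt c X0) := by
  have h1 := De295.flt_adm (M := 0) le_rfl hκ hr c X0
  have hT : 0 < TT κ ψ r := Cov369.TT_pos hκ hr
  refine ⟨h1.disc, fun s _ => ?_, fun s _ => ?_, ?_, ?_⟩
  · have : (flt c X0).ny s = 0 := by unfold flt Cf.ny; simp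
    rw [this, abs_zero]
    positivity
  · have : (flt c X0).ny s = 0 := by unfold flt Cf.ny; simp
    rw [this, abs_zero]
    positivity
  · rw [flt_ld]; simp; positivity
  · rw [flt_ev]; simp; positivity

theorem nrm_sub_dir (C C' : E2) (v : E3) : nrm C v 0 = nrm C' v 0 - inner ℝ (C' - C) (lat v) := by
  rw [Ckm538.nrm_zero, Ckm538.nrm_zero, inner_sub_left]
  ring

theorem nrm_sub0 (C : E2) (x y : E3) : nrm C (x - y) 0 = nrm C x 0 - nrm C y 0 := by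
  rw [Ckm538.nrm_zero, Ckm538.nrm_zero, Ckm538.nrm_zero, lat_sub, inner_sub_right, PiLp.sub_apply]
  ring

section inst

variable {M q a b A c0 κ η0 r1 s1 s2 D : ℝ} {g : E3 → ℂ} {I1 : Finset ℕ} {P1 : ℕ → Plate}

/-- **isotropic density of the cells.** -/
theorem iso_cells (h : ParC M κ q a b A c0 η0 g r1 s1 s2 D I1 P1) (hM : 1 ≤ M) (hq : 0 ≤ q)
    (ha : 1 ≤ a) (hr1 : 1 ≤ r1) (hκ : 0 < κ) (hκ1 : κ ≤ 1) {φ : ℝ}
    (hφ1 : 2 * φ ≤ 1) (hφ2 : (an r1)⁻¹ * (2 * φ) ≤ κ⁻¹) (hφ3 : r1 * (2 * φ) ^ 2 ≤ κ⁻¹)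
    (T : Idx) (ψ : ℝ) (hψ1 : (an r1)⁻¹ ≤ r1 * ψ) (hψ2 : ψ ≤ 2 * φ) {K : ℝ} (F : Finset Idx)
    (hKb : ∀ i ∈ I1, ∀ m, ∀ y ∈ (P1 i).S m, ‖y‖ ≤ K)
    (hF : ∀ T' ∈ F, T' ∈ Ic K (an r1) κ I1 P1 ∧ BX r1 κ⁻¹ ψ (slT (an r1) T)
      (lat (ptT (an r1) κ T)) (nrm (slT (an r1) T) (ptT (an r1) κ T) 0) (slT (an r1) T')
      (lat (ptT (an r1) κ T')) (nrm (slT (an r1) T') (ptT (an r1) κ T') 0)) :
    ∑ T' ∈ F, muT (an r1) κ g P1 T' ≤
      11 ^ 5 * 7 ^ 21 * D * ψ ^ q * (ψ ^ 2 * (κ⁻¹ * r1 ^ 2)) := by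
  have hr0 : 0 < r1 := by linarith
  have hth := an_pos hr0
  have hki : 0 < κ⁻¹ := inv_pos.2 hκ
  set th := an r1 with hthd
  set c := slT th T with hc
  set X0 := ptT th κ T with hX0
  have hψ0 : 0 < ψ := by
    have h1 : 0 < th⁻¹ := inv_pos.2 hth
    have h2 : 0 < r1 * ψ := by linarith
    exact (mul_pos_iff_of_pos_left hr0).1 h2
  have hψth : th ≤ ψ := by
    have h1 : r1 * th = th⁻¹ := by
      have := mul_an_sq hr0
      refine eq_inv_of_mul_eq_one_left ?_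
      rw [mul_assoc, ← pow_two]
      exact this
    rw [← h1] at hψ1
    exact le_of_mul_le_mul_left hψ1 hr0
  have hSd : Sd r1 ψ ψ := ⟨hψth, le_rfl, hψ2.trans hφ1⟩
  have hψψ : ψ ^ 2 ≤ (κ * r1)⁻¹ := by
    have h1 : ψ ^ 2 ≤ (2 * φ) ^ 2 := pow_le_pow_left₀ hψ0.le hψ2 2
    rw [mul_inv, mul_comm, ← div_eq_inv_mul, le_div_iff₀ hr0]
    calc ψ ^ 2 * r1 ≤ (2 * φ) ^ 2 * r1 := mul_le_mul_of_nonneg_right h1 hr0.le
      _ = r1 * (2 * φ) ^ 2 := mul_comm _ _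
      _ ≤ κ⁻¹ := hφ3
  have hTT : TT κ ψ r1 = (κ * r1)⁻¹ := max_eq_right hψψ
  have hTr : TT κ ψ r1 * r1 = κ⁻¹ := by
    rw [hTT, mul_inv, mul_assoc, inv_mul_cancel₀ hr0.ne', mul_one]
  have hwψ : th⁻¹ * ψ ≤ κ⁻¹ :=
    (mul_le_mul_of_nonneg_left hψ2 (inv_pos.2 hth).le).trans hφ2
  have hstab := Cov369.stab_core (A := 7) (M' := 1) hq hκ hκ1 hr1 (by norm_num) le_rfl
    (g := g) (S := uS I1 P1) h.D0 (fun c X0 f u1 u2 hS hadm => by
      have hs1 : 0 < u1 := lt_of_lt_of_le (Real.rpow_pos_of_pos hr0 _) hS.lo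
      exact h.dens c X0 f u1 u2 hS
        (Cov369.adm_mono hκ hr0 hs1 (hs1.trans_le hS.le) hM hadm)) hSd
    (flt_adm' (M := 1) (by norm_num) hκ hr0 hψ0 c X0)
  have hsum := sum_le_enc (th := th) (κ := κ) (g := g) h.meas h.disj F
    (fun T' hT' => ⟨(mem_Ic.1 (hF T' hT').1).1, (mem_Ic.1 (hF T' hT').1).2.1⟩)
    (fun m => uS I1 P1 m ∩ pbx κ 7 r1 ψ ψ c X0 (flt c X0) m) (by
      intro T' hT' y hy
      obtain ⟨hT1, hB1, hB2, hB3⟩ := hF T' hT'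
      obtain ⟨hy1, hy2, hy3⟩ := Ic_pt (I1 := ∅) (K := 0) hth hκ hy
      refine ⟨Set.mem_biUnion (mem_Ic.1 hT1).1 hy1, ?_⟩
      set C' := slT th T' with hC'
      set X' := ptT th κ T' with hX'
      have el : lat y - lat X0 = lat (y - X') + (lat X' - lat X0) := by rw [lat_sub]; abel
      have hl : ‖lat y - lat X0‖ ≤ 5 * (ψ * r1) := by
        rw [el]
        refine (norm_add_le _ _).trans ?_
        linarith
      have hn : |nrm c y 0 - nrm c X0 0| ≤ 7 * κ⁻¹ := by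
        have e1 : nrm c y 0 - nrm c X0 0 = (nrm C' (y - X') 0 - inner ℝ (C' - c) (lat (y - X'))) +
            (nrm C' X' 0 - inner ℝ (C' - c) (lat X') - nrm c X0 0) := by
          rw [← nrm_sub_dir c C' (y - X'), ← nrm_sub_dir c C' X', nrm_sub0]
          ring
        have e2 : |inner ℝ (C' - c) (lat (y - X'))| ≤ 2 * κ⁻¹ := by
          refine (abs_real_inner_le_norm _ _).trans ?_
          calc ‖C' - c‖ * ‖lat (y - X')‖ ≤ ψ * (2 * th⁻¹) :=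
                mul_le_mul hB1 hy2 (norm_nonneg _) hψ0.le
            _ = 2 * (th⁻¹ * ψ) := by ring
            _ ≤ 2 * κ⁻¹ := by linarith
        rw [e1]
        have e3 := abs_sub (nrm C' (y - X') 0) (inner ℝ (C' - c) (lat (y - X')))
        have e4 := abs_add_le (nrm C' (y - X') 0 - inner ℝ (C' - c) (lat (y - X')))
          (nrm C' X' 0 - inner ℝ (C' - c) (lat X') - nrm c X0 0)
        linarith
      have hψr : 0 < ψ * r1 := by positivity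
      refine ⟨?_, ?_, ?_, ?_, ?_⟩
      · show ‖C' - c‖ ≤ 7 * ψ
        linarith
      · rw [mul_assoc]
        linarith
      · rw [mul_assoc, hTr]
        exact hn
      · rw [flt_ev, mul_assoc]
        refine (abs_real_inner_le_norm _ _).trans ?_
        rw [De295.norm_e1v, one_mul]
        linarith
      · rw [flt_ld, abs_neg]
        refine (abs_real_inner_le_norm _ _).trans ?_
        rw [De295.norm_e1v, one_mul]
        show ‖C' - c‖ ≤ 7 * ψ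
        linarith)
  have hfin := hsum.trans hstab
  rw [← sum_muT (parC_int h ha) hKb F (fun T' hT' => (hF T' hT').1)] at hfin
  have hD := h.D0
  have hψq : 0 ≤ ψ ^ q := Real.rpow_nonneg hψ0.le q
  have hsc : scost κ ψ ψ r1 = ψ ^ 2 * (κ⁻¹ * r1 ^ 2) := by
    unfold scost
    calc ψ * ψ * TT κ ψ r1 * r1 ^ 3 = ψ ^ 2 * ((TT κ ψ r1 * r1) * r1 ^ 2) := by ring
      _ = _ := by rw [hTr]
  rw [hsc] at hfin
  refine ((ENNReal.ofReal_le_ofReal_iff (by positivity)).1 hfin).trans (le_of_eq ?_)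
  ring

/-- mass of one parent plate. -/
theorem plate_mass (h : ParC M κ q a b A c0 η0 g r1 s1 s2 D I1 P1) (ha : 1 ≤ a) (hA : 0 ≤ A)
    (hr1 : 1 ≤ r1) (hκ : 0 < κ) {i : ℕ} (hi : i ∈ I1) [DecidablePred fun T : Idx => T.1 = i] :
    c0 * (D * s2 ^ q * scost κ s1 s2 r1) ≤
      ∑ T ∈ (Ic (A * r1) (an r1) κ I1 P1).filter (fun T => T.1 = i), muT (an r1) κ g P1 T := by
  have hr0 : 0 < r1 := by linarith
  have hth := an_pos hr0
  have hth1 := an_le_one hr1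
  refine (ENNReal.ofReal_le_ofReal_iff (Finset.sum_nonneg fun T _ => muT_nonneg _ _ _ _ _)).1 ?_
  rw [sum_muT (parC_int h ha) (parC_bd h) _ (Finset.filter_subset _ _),
    plate_muE hth hth1 hκ (by positivity) h.meas h.disj (parC_bd h) hi]
  exact h.dense i hi

/-- slopes of the cells of one plate. -/
theorem cell_slope (h : ParC M κ q a b A c0 η0 g r1 s1 s2 D I1 P1) {K : ℝ} {T : Idx}
    (hT : T ∈ Ic K (an r1) κ I1 P1) : ‖slT (an r1) T - (P1 T.1).c‖ ≤ A * s2 := by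
  obtain ⟨h1, h2, h3, y, hy⟩ := mem_Ic.1 hT
  exact (h.box _ h1 _ hy.1).1

theorem own_slopes (h : ParC M κ q a b A c0 η0 g r1 s1 s2 D I1 P1) {K : ℝ} {T T' : Idx}
    (hT : T ∈ Ic K (an r1) κ I1 P1) (hT' : T' ∈ Ic K (an r1) κ I1 P1) (e : T.1 = T'.1) :
    ‖slT (an r1) T - slT (an r1) T'‖ ≤ 2 * (A * s2) := by
  have h1 := cell_slope h hT
  have h2 := cell_slope h hT'
  rw [← e] at h2
  have e1 : slT (an r1) T - slT (an r1) T' = (slT (an r1) T - (P1 T.1).c) -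
      (slT (an r1) T' - (P1 T.1).c) := by abel
  rw [e1]
  refine (norm_sub_le _ _).trans ?_
  linarith

end inst


end Crest.Agent.R116.Mwc748
end

-- ▼ part R116/Mc10_330
section

/-!
# R116 (S0155), misaligned step: inputs of the finite form (helper330)

From `Ctx`: `chn_c` (children, `δ = dl^(1/2)`), `chn_p` (parents, `δ = 1`), `gd_c` (`condT`), `gd_p`
(own points), regions `hX`, `hZ`, the `18` arcs `hN`, static conditions on `φ`.
-/

set_option autoImplicit false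

open MeasureTheory
open scoped ENNReal

namespace Crest.Agent.R116.Mc330

open Crest.Agent.R138.Defs (E2)
open Crest.Agent.R138.Wpk685 (cen caps)
open Crest.Agent.R138.Loc878 (nearL mem_nearL)
open Crest.Agent.R116.CDef480 (E3 lat pt vel umc enc)
open Crest.Agent.R116.LZg725 (Cf)
open Crest.Agent.R116.WC188
open Crest.Agent.R116.Gc192 (un crs)
open Crest.Agent.R116.Ma448 (PL)
open Crest.Agent.R116.PC299
open Mwc748
open ChN

/-- the arc size. -/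
noncomputable def phi (M A Y Gm δ θj : ℝ) : ℝ := 448 * Kp M A Y Gm 3 * θj / δ

/-- the big constant of the threshold. -/
noncomputable def KK (M A : ℝ) : ℝ := 10 ^ 7 * (M * A) ^ 2

section inst

variable {M q a b A d0 G c0 κ η0 r1 dl Y Gm s1' s2' s1 s2 D : ℝ} {g : E3 → ℂ}
  {I1 I : Finset ℕ} {P1 P : ℕ → Plate}

/-- hypotheses of this file. -/
structure HH (M q a b A d0 G c0 κ η0 : ℝ) (g : E3 → ℂ) (r1 dl Y Gm s1' s2' s1 s2 D : ℝ)
    (I1 : Finset ℕ) (P1 : ℕ → Plate) (I : Finset ℕ) (P : ℕ → Plate) : Prop where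
  ctx : Ctx M q a b A d0 G c0 κ η0 g r1 dl Y Gm s1' s2' s1 s2 D I1 P1 I P
  M1 : 1 ≤ M
  A1 : 1 ≤ A
  a1 : 1 ≤ a
  G3 : 3 ≤ G
  d01 : d0 ≤ 1
  kd : KK M A * d0 ^ (1/2 : ℝ) ≤ 1
  wd : dl ^ (-G) * an r1 ≤ s2'

theorem HH.KKn (h : HH M q a b A d0 G c0 κ η0 g r1 dl Y Gm s1' s2' s1 s2 D I1 P1 I P) {K : ℝ}
    (hK : 0 ≤ K) (hKK : K ≤ KK M A) {p p' : ℝ} (hp : p' + 1/2 ≤ p) : K * dl ^ p ≤ dl ^ p' := by
  refine K_dl h.ctx.dlpos h.ctx.dlle h.d01 hK ?_ hp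
  exact (mul_le_mul_of_nonneg_right hKK (Real.rpow_nonneg (h.ctx.dlpos.le.trans h.ctx.dlle) _)).trans
    h.kd

theorem HH.dl1 (h : HH M q a b A d0 G c0 κ η0 g r1 dl Y Gm s1' s2' s1 s2 D I1 P1 I P) :
    dl ≤ 1 := h.ctx.dl1 h.d01

theorem HH.δ0 (h : HH M q a b A d0 G c0 κ η0 g r1 dl Y Gm s1' s2' s1 s2 D I1 P1 I P) :
    0 < dl ^ (1/2 : ℝ) := Real.rpow_pos_of_pos h.ctx.dlpos _

theorem HH.δ1 (h : HH M q a b A d0 G c0 κ η0 g r1 dl Y Gm s1' s2' s1 s2 D I1 P1 I P) :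
    dl ^ (1/2 : ℝ) ≤ 1 := Real.rpow_le_one h.ctx.dlpos.le h.dl1 (by norm_num)

theorem HH.δ2 (h : HH M q a b A d0 G c0 κ η0 g r1 dl Y Gm s1' s2' s1 s2 D I1 P1 I P) :
    (dl ^ (1/2 : ℝ)) ^ 2 = dl := by
  rw [← Real.rpow_natCast, ← Real.rpow_mul h.ctx.dlpos.le]
  norm_num

theorem HH.rj1 (h : HH M q a b A d0 G c0 κ η0 g r1 dl Y Gm s1' s2' s1 s2 D I1 P1 I P) :
    1 ≤ dl * r1 := by
  have h1 := h.ctx.rj_ge
  have h2 := h.ctx.k8 h.a1
  have h3 : κ ^ 4 ≤ 1 := pow_le_one₀ h.ctx.kpos.le (by linarith)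
  have h4 := h.ctx.rj0
  nlinarith

theorem HH.r1ge (h : HH M q a b A d0 G c0 κ η0 g r1 dl Y Gm s1' s2' s1 s2 D I1 P1 I P) :
    1 ≤ r1 := by
  have h1 := h.rj1
  have h2 := h.dl1
  have h3 := h.ctx.r10
  nlinarith

theorem HH.th (h : HH M q a b A d0 G c0 κ η0 g r1 dl Y Gm s1' s2' s1 s2 D I1 P1 I P) :
    dl ^ (1/2 : ℝ) * an (dl * r1) = an r1 := dl_an h.ctx.dlpos h.ctx.r10

theorem HH.GY (h : HH M q a b A d0 G c0 κ η0 g r1 dl Y Gm s1' s2' s1 s2 D I1 P1 I P) :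
    Gm * Y ≤ dl ^ (-(1/2) : ℝ) := by
  have h1 := h.ctx.Gm2
  have h2 := h.ctx.Y2
  have h3 : dl ^ (-(1/2) : ℝ) = dl ^ (-(1/4) : ℝ) * dl ^ (-(1/4) : ℝ) := by
    rw [← Real.rpow_add h.ctx.dlpos]; norm_num
  rw [h3]
  exact mul_le_mul h1 h2 (by have := h.ctx.Y1; linarith) (Real.rpow_nonneg h.ctx.dlpos.le _)

theorem HH.MA (h : HH M q a b A d0 G c0 κ η0 g r1 dl Y Gm s1' s2' s1 s2 D I1 P1 I P) :
    1 ≤ M * A ∧ M ^ 2 * A ≤ (M * A) ^ 2 ∧ M * A ≤ (M * A) ^ 2 := by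
  have hM := h.M1
  have hA := h.A1
  have h1 : 1 ≤ M * A := one_le_mul_of_one_le_of_one_le hM hA
  refine ⟨h1, ?_, ?_⟩
  · have : (M * A) ^ 2 = (M ^ 2 * A) * A := by ring
    rw [this]
    exact le_mul_of_one_le_right (by positivity) hA
  · have : (M * A) ^ 2 = (M * A) * (M * A) := by ring
    rw [this]
    exact le_mul_of_one_le_right (by positivity) h1

/-- **numerical data of a child**. -/
theorem HH.chn_c (h : HH M q a b A d0 G c0 κ η0 g r1 dl Y Gm s1' s2' s1 s2 D I1 P1 I P) {j : ℕ}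
    (hj : j ∈ I) : ChN M κ A s1 s2 (TT κ s2 (dl * r1)) (dl * r1) (an (dl * r1)) (an r1)⁻¹
      (dl ^ (1/2 : ℝ)) Y Gm 3 (dl ^ G) (1/64) r1 (P j).f := by
  have hdl := h.ctx.dlpos
  have hr := h.ctx.r10
  have hrj := h.ctx.rj0
  have hθ := an_pos hr
  have hθj := an_pos hrj
  have hM := h.M1
  have hA := h.A1
  have hY := h.ctx.Y1
  have hG := h.ctx.Gm1
  refine ⟨sf_of h.ctx.sd h.rj1 h.ctx.kpos, ff_of (h.ctx.pl.adm j hj), hM, hA, hY, hG, by norm_num,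
    h.δ0, h.δ1, hθj, by rw [h.δ2], ?_, ?_, h.ctx.thin, h.ctx.sd.lo, ?_, Real.rpow_pos_of_pos hdl _,
    by norm_num, le_rfl, ?_⟩
  · -- `θj rj = δ w`
    have h1 := mul_an_sq hr
    have h2 := h.th
    have h3 : an (dl * r1) * (dl * r1) * an r1 = dl ^ (1/2 : ℝ) := by
      calc an (dl * r1) * (dl * r1) * an r1 = (dl * r1) * (an (dl * r1) * an r1) := by ring
        _ = (dl ^ (1/2 : ℝ)) ^ 2 * r1 * (an (dl * r1) * an r1) := by rw [h.δ2]
        _ = dl ^ (1/2 : ℝ) * (r1 * ((dl ^ (1/2 : ℝ) * an (dl * r1)) * an r1)) := by ring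
        _ = dl ^ (1/2 : ℝ) * (r1 * an r1 ^ 2) := by rw [h2]; ring
        _ = dl ^ (1/2 : ℝ) := by rw [h1, mul_one]
    rw [← h3]
    field_simp
  · have := mul_an_sq hrj
    linarith
  · have h1 := h.ctx.wide
    calc an (dl * r1) = dl ^ G * (dl ^ (-G) * an (dl * r1)) := by
          rw [← mul_assoc, ← Real.rpow_add hdl]; simp
      _ ≤ dl ^ G * s2 := mul_le_mul_of_nonneg_left h1 (Real.rpow_nonneg hdl.le _)
  · rw [h.δ2]
    have h1 := h.GY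
    obtain ⟨m1, m2, m3⟩ := h.MA
    have hG3 := h.G3
    have h2 := h.KKn (K := 9216 * (M ^ 2 * A)) (by positivity) (by
      unfold KK
      have : 9216 * (M ^ 2 * A) ≤ 10 ^ 7 * (M ^ 2 * A) :=
        mul_le_mul_of_nonneg_right (by norm_num) (by positivity)
      linarith) (p := G - 1/2) (p' := 1) (by linarith)
    rw [Real.rpow_one] at h2
    have h3 : dl ^ (G - 1/2) = dl ^ (-(1/2) : ℝ) * dl ^ G := by
      rw [← Real.rpow_add hdl]; congr 1; ring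
    have h4 : 16 * (M ^ 2 * A * Gm * Y * 3 ^ 2) * dl ^ G = 144 * (M ^ 2 * A) * (Gm * Y) * dl ^ G := by
      ring
    have h5 : 144 * (M ^ 2 * A) * (Gm * Y) * dl ^ G ≤
        144 * (M ^ 2 * A) * dl ^ (-(1/2) : ℝ) * dl ^ G :=
      mul_le_mul_of_nonneg_right (mul_le_mul_of_nonneg_left h1 (by positivity))
        (Real.rpow_nonneg hdl.le _)
    rw [h4]
    refine h5.trans ?_
    rw [h3] at h2
    linarith

/-- **numerical data of a parent**. -/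
theorem HH.chn_p (h : HH M q a b A d0 G c0 κ η0 g r1 dl Y Gm s1' s2' s1 s2 D I1 P1 I P) {i : ℕ}
    (hi : i ∈ I1) : ChN M κ A s1' s2' (TT κ s2' r1) r1 (an r1) (an r1)⁻¹ 1 1 Gm 1 (dl ^ G)
      (dl ^ (1/2 : ℝ) / 64) r1 (P1 i).f := by
  have hdl := h.ctx.dlpos
  have hr := h.ctx.r10
  have hθ := an_pos hr
  have hM := h.M1
  have hA := h.A1
  have hG := h.ctx.Gm1
  have hδ := h.δ0
  have hδ1 := h.δ1
  refine ⟨sf_of h.ctx.par.sd h.r1ge h.ctx.kpos, ff_of (h.ctx.par.adm i hi), hM, hA, le_rfl, hG, le_rfl,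
    one_pos, le_rfl, hθ, by ring, ?_, ?_, h.ctx.thin', h.ctx.par.sd.lo, ?_,
    Real.rpow_pos_of_pos hdl _, by positivity, by linarith, ?_⟩
  · have h1 := mul_an_sq hr
    rw [one_mul]
    field_simp
    linarith
  · have := mul_an_sq hr
    linarith
  · have h1 := h.wd
    calc an r1 = dl ^ G * (dl ^ (-G) * an r1) := by
          rw [← mul_assoc, ← Real.rpow_add hdl]; simp
      _ ≤ dl ^ G * s2' := mul_le_mul_of_nonneg_left h1 (Real.rpow_nonneg hdl.le _)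
  · obtain ⟨m1, m2, m3⟩ := h.MA
    have hG3 := h.G3
    have h1 := h.ctx.Gm2
    have h2 := h.KKn (K := 1024 * (M ^ 2 * A)) (by positivity) (by
      unfold KK
      have : 1024 * (M ^ 2 * A) ≤ 10 ^ 7 * (M ^ 2 * A) :=
        mul_le_mul_of_nonneg_right (by norm_num) (by positivity)
      linarith) (p := G - 1/4) (p' := 1/2) (by linarith)
    have h3 : dl ^ (G - 1/4) = dl ^ (-(1/4) : ℝ) * dl ^ G := by
      rw [← Real.rpow_add hdl]; congr 1; ring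
    have h4 : 16 * (M ^ 2 * A * Gm * 1 * 1 ^ 2) * dl ^ G = 16 * (M ^ 2 * A) * Gm * dl ^ G := by
      ring
    have h5 : 16 * (M ^ 2 * A) * Gm * dl ^ G ≤ 16 * (M ^ 2 * A) * dl ^ (-(1/4) : ℝ) * dl ^ G :=
      mul_le_mul_of_nonneg_right (mul_le_mul_of_nonneg_left h1 (by positivity))
        (Real.rpow_nonneg hdl.le _)
    rw [h4]
    refine h5.trans ?_
    rw [h3] at h2
    linarith

/-- **a phase point seen by a child**. -/
theorem HH.gd_c (h : HH M q a b A d0 G c0 κ η0 g r1 dl Y Gm s1' s2' s1 s2 D I1 P1 I P) {j : ℕ}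
    (hj : j ∈ I) {C : E2} {m : ℤ × ℤ} {y x : E3} (hy : y ∈ (P j).S m)
    (hC : ‖C - cen (an (dl * r1)) m‖ ≤ 3 * an (dl * r1))
    (hx : ‖Cad538.frc (an r1) κ C (x - (P j).z.1 - (P j).z.2 • vel C - y)‖ ≤ Y) :
    Gd κ A s1 s2 (TT κ s2 (dl * r1)) (dl * r1) (an (dl * r1)) (an r1)⁻¹ Y 3 r1 (P j).c (P j).X0
      (P j).f (P j).z (cen (an (dl * r1)) m) y C x := by
  have hb := h.ctx.pl.box j hj m hy
  have hz : |(P j).z.2| ≤ r1 := (h.ctx.pl.mem j hj).2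
  have hθ := an_pos h.ctx.r10
  have hκ := h.ctx.kpos
  have h1 := (Cad538.lat_le_frc hθ.le (kp := κ) C (x - (P j).z.1 - (P j).z.2 • vel C - y)).trans hx
  have h2 := (Cad538.nrm_le_frc (th := an r1) hκ.le C
    (x - (P j).z.1 - (P j).z.2 • vel C - y)).trans hx
  refine ⟨hb.1, hb.2.1, hb.2.2.1, hb.2.2.2.1, hb.2.2.2.2, hz, hC, ?_, ?_⟩
  · have e : lat (vv (P j).z C x) - lat y = lat (x - (P j).z.1 - (P j).z.2 • vel C - y) := by
      unfold vv; rw [CDef480.lat_sub _ y]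
    rw [e, ← div_eq_mul_inv, le_div_iff₀ hθ, mul_comm]
    exact h1
  · have e : CDef480.nrm C (vv (P j).z C x) 0 - CDef480.nrm C y 0 =
        CDef480.nrm C (x - (P j).z.1 - (P j).z.2 • vel C - y) 0 := by
      unfold vv; rw [Ckm538.nrm_sub0 C _ y]
    rw [e, ← div_eq_mul_inv, le_div_iff₀ hκ, mul_comm]
    exact h2

/-- **own phase points**. -/
theorem HH.gd_p (h : HH M q a b A d0 G c0 κ η0 g r1 dl Y Gm s1' s2' s1 s2 D I1 P1 I P) {i : ℕ}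
    (hi : i ∈ I1) {m : ℤ × ℤ} {x : E3} (hx : x ∈ (P1 i).S m) :
    Gd κ A s1' s2' (TT κ s2' r1) r1 (an r1) (an r1)⁻¹ 1 1 r1 (P1 i).c (P1 i).X0
      (P1 i).f 0 (cen (an r1) m) x (cen (an r1) m) x := by
  have hb := h.ctx.par.box i hi m hx
  have hr := h.ctx.r10
  have hθ := an_pos hr
  have hκ := h.ctx.kpos
  have e : vv (0 : E3 × ℝ) (cen (an r1) m) x = x := by
    unfold vv; simp
  refine ⟨hb.1, hb.2.1, hb.2.2.1, hb.2.2.2.1, hb.2.2.2.2, ?_, ?_, ?_, ?_⟩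
  · simpa using hr.le
  · rw [sub_self, norm_zero, one_mul]; exact hθ.le
  · rw [e, sub_self, norm_zero, one_mul]; positivity
  · rw [e, sub_self, abs_zero, one_mul]; positivity

/-! ### static conditions -/

theorem HH.Kp_le (h : HH M q a b A d0 G c0 κ η0 g r1 dl Y Gm s1' s2' s1 s2 D I1 P1 I P) :
    Kp M A Y Gm 3 ≤ 3 * (M * A) * dl ^ (-(1/2) : ℝ) := by
  have h1 := h.GY
  have hMA := h.MA.1
  unfold Kp
  calc M * A * Y * 3 * Gm = 3 * (M * A) * (Gm * Y) := by ring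
    _ ≤ _ := mul_le_mul_of_nonneg_left h1 (by positivity)

theorem HH.Kp1 (h : HH M q a b A d0 G c0 κ η0 g r1 dl Y Gm s1' s2' s1 s2 D I1 P1 I P) :
    1 ≤ Kp M A Y Gm 3 := by
  have hM := h.M1
  have hA := h.A1
  have hY := h.ctx.Y1
  have hG := h.ctx.Gm1
  unfold Kp
  have h1 := one_le_mul_of_one_le_of_one_le hM hA
  have h2 := one_le_mul_of_one_le_of_one_le h1 hY
  have h3 := one_le_mul_of_one_le_of_one_le h2 (by norm_num : (1:ℝ) ≤ 3)
  exact one_le_mul_of_one_le_of_one_le h3 hG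

theorem HH.phi_pos (h : HH M q a b A d0 G c0 κ η0 g r1 dl Y Gm s1' s2' s1 s2 D I1 P1 I P) :
    0 < phi M A Y Gm (dl ^ (1/2 : ℝ)) (an (dl * r1)) := by
  have h1 := h.Kp1
  have h2 := an_pos h.ctx.rj0
  have h3 := h.δ0
  unfold phi
  positivity

/-- `2 φ / θ = 896 Kp / dl`. -/
theorem HH.phi_w (h : HH M q a b A d0 G c0 κ η0 g r1 dl Y Gm s1' s2' s1 s2 D I1 P1 I P) :
    (an r1)⁻¹ * (2 * phi M A Y Gm (dl ^ (1/2 : ℝ)) (an (dl * r1))) =
      896 * Kp M A Y Gm 3 * dl⁻¹ := by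
  have h1 := h.th
  have h2 := an_pos h.ctx.rj0
  have h3 := h.δ0
  have h4 := h.δ2
  have hdl := h.ctx.dlpos
  rw [← h1]
  unfold phi
  conv_rhs => rw [← h4]
  field_simp
  ring

theorem HH.st1 (h : HH M q a b A d0 G c0 κ η0 g r1 dl Y Gm s1' s2' s1 s2 D I1 P1 I P) :
    (an r1)⁻¹ * (2 * phi M A Y Gm (dl ^ (1/2 : ℝ)) (an (dl * r1))) ≤ κ⁻¹ := by
  rw [h.phi_w]
  have hdl := h.ctx.dlpos
  have hκ := h.ctx.kpos
  have h1 := h.Kp_le
  obtain ⟨m1, m2, m3⟩ := h.MA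
  have h2 := h.KKn (K := 2688 * (M * A)) (by positivity) (by
      unfold KK
      have : 2688 * (M * A) ≤ 10 ^ 7 * (M * A) :=
        mul_le_mul_of_nonneg_right (by norm_num) (by positivity)
      linarith) (p := -(3/2)) (p' := -4) (by norm_num)
  have h3 : dl ^ (-(3/2) : ℝ) = dl ^ (-(1/2) : ℝ) * dl⁻¹ := by
    rw [← Real.rpow_neg_one dl, ← Real.rpow_add hdl]; norm_num
  have h4 : dl ^ (-4 : ℝ) ≤ κ⁻¹ := by
    rw [Real.rpow_neg hdl.le]
    refine inv_anti₀ hκ ?_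
    have := h.ctx.khi
    rw [← Real.rpow_natCast] at this
    exact_mod_cast this
  have hi : 0 < dl⁻¹ := inv_pos.2 hdl
  calc 896 * Kp M A Y Gm 3 * dl⁻¹ ≤ 896 * (3 * (M * A) * dl ^ (-(1/2) : ℝ)) * dl⁻¹ :=
        mul_le_mul_of_nonneg_right (mul_le_mul_of_nonneg_left h1 (by norm_num)) hi.le
    _ = 2688 * (M * A) * dl ^ (-(3/2) : ℝ) := by rw [h3]; ring
    _ ≤ dl ^ (-4 : ℝ) := h2
    _ ≤ κ⁻¹ := h4

theorem HH.st2 (h : HH M q a b A d0 G c0 κ η0 g r1 dl Y Gm s1' s2' s1 s2 D I1 P1 I P) :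
    r1 * (2 * phi M A Y Gm (dl ^ (1/2 : ℝ)) (an (dl * r1))) ^ 2 ≤ κ⁻¹ := by
  have hdl := h.ctx.dlpos
  have hκ := h.ctx.kpos
  have h1 := h.Kp_le
  have hK1 := h.Kp1
  have hr := h.ctx.r10
  have hth := an_pos hr
  have e1 : r1 * (2 * phi M A Y Gm (dl ^ (1/2 : ℝ)) (an (dl * r1))) ^ 2 =
      ((an r1)⁻¹ * (2 * phi M A Y Gm (dl ^ (1/2 : ℝ)) (an (dl * r1)))) ^ 2 := by
    have h0 := mul_an_sq hr
    have hr' : (an r1)⁻¹ ^ 2 = r1 := by
      rw [inv_pow]; field_simp; linarith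
    have key : ∀ P : ℝ, r1 * P ^ 2 = ((an r1)⁻¹ * P) ^ 2 := fun P => by rw [mul_pow, hr']
    exact key _
  rw [e1, h.phi_w]
  obtain ⟨m1, m2, m3⟩ := h.MA
  have h2 := h.KKn (K := 7225344 * (M * A) ^ 2) (by positivity) (by
      unfold KK
      exact mul_le_mul_of_nonneg_right (by norm_num) (by positivity))
      (p := -3) (p' := -4) (by norm_num)
  have h3 : dl ^ (-3 : ℝ) = (dl ^ (-(1/2) : ℝ) * dl⁻¹) ^ 2 := by
    rw [← Real.rpow_neg_one dl, ← Real.rpow_add hdl, ← Real.rpow_natCast, ← Real.rpow_mul hdl.le]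
    norm_num
  have h4 : dl ^ (-4 : ℝ) ≤ κ⁻¹ := by
    rw [Real.rpow_neg hdl.le]
    refine inv_anti₀ hκ ?_
    have := h.ctx.khi
    rw [← Real.rpow_natCast] at this
    exact_mod_cast this
  have hi : 0 < dl⁻¹ := inv_pos.2 hdl
  have h5 : 896 * Kp M A Y Gm 3 * dl⁻¹ ≤ 896 * (3 * (M * A) * dl ^ (-(1/2) : ℝ)) * dl⁻¹ :=
        mul_le_mul_of_nonneg_right (mul_le_mul_of_nonneg_left h1 (by norm_num)) hi.le
  calc (896 * Kp M A Y Gm 3 * dl⁻¹) ^ 2 ≤ (896 * (3 * (M * A) * dl ^ (-(1/2) : ℝ)) * dl⁻¹) ^ 2 :=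
        pow_le_pow_left₀ (by positivity) h5 2
    _ = 7225344 * (M * A) ^ 2 * dl ^ (-3 : ℝ) := by rw [h3]; ring
    _ ≤ dl ^ (-4 : ℝ) := h2
    _ ≤ κ⁻¹ := h4

theorem HH.st3 (h : HH M q a b A d0 G c0 κ η0 g r1 dl Y Gm s1' s2' s1 s2 D I1 P1 I P) :
    16 * phi M A Y Gm (dl ^ (1/2 : ℝ)) (an (dl * r1)) ≤ 1 := by
  have hdl := h.ctx.dlpos
  have h1 := h.Kp_le
  have hK1 := h.Kp1
  have hδ := h.δ0
  have hG3 := h.G3
  have hθj := an_pos h.ctx.rj0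
  obtain ⟨m1, m2, m3⟩ := h.MA
  have h2 := h.KKn (K := 21504 * (M * A)) (by positivity) (by
      unfold KK
      have : 21504 * (M * A) ≤ 10 ^ 7 * (M * A) :=
        mul_le_mul_of_nonneg_right (by norm_num) (by positivity)
      linarith) (p := G - 1) (p' := 0) (by linarith)
  rw [Real.rpow_zero] at h2
  have h3 : an (dl * r1) ≤ dl ^ G := by
    have h4 : dl ^ (-G) * an (dl * r1) ≤ 1 := h.ctx.wide.trans h.ctx.sd.hi
    calc an (dl * r1) = dl ^ G * (dl ^ (-G) * an (dl * r1)) := by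
          rw [← mul_assoc, ← Real.rpow_add hdl]; simp
      _ ≤ dl ^ G * 1 := mul_le_mul_of_nonneg_left h4 (Real.rpow_nonneg hdl.le _)
      _ = dl ^ G := mul_one _
  have h5 : dl ^ (G - 1) = dl ^ (-(1/2) : ℝ) * dl ^ G * (dl ^ (1/2 : ℝ))⁻¹ := by
    rw [← Real.rpow_neg hdl.le, ← Real.rpow_add hdl, ← Real.rpow_add hdl]; congr 1; ring
  have hd : 0 ≤ dl ^ (-(1/2) : ℝ) := Real.rpow_nonneg hdl.le _
  have hdG : 0 ≤ dl ^ G := Real.rpow_nonneg hdl.le _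
  have hδi : 0 ≤ (dl ^ (1/2 : ℝ))⁻¹ := by positivity
  unfold phi
  calc 16 * (448 * Kp M A Y Gm 3 * an (dl * r1) / dl ^ (1/2 : ℝ)) =
        7168 * (Kp M A Y Gm 3 * an (dl * r1)) * (dl ^ (1/2 : ℝ))⁻¹ := by
        rw [div_eq_mul_inv]; ring
    _ ≤ 7168 * ((3 * (M * A) * dl ^ (-(1/2) : ℝ)) * dl ^ G) * (dl ^ (1/2 : ℝ))⁻¹ := by
        refine mul_le_mul_of_nonneg_right (mul_le_mul_of_nonneg_left ?_ (by norm_num)) hδi
        exact mul_le_mul h1 h3 hθj.le (by positivity)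
    _ = 21504 * (M * A) * dl ^ (G - 1) := by rw [h5]; ring
    _ ≤ 1 := h2

theorem HH.stw (h : HH M q a b A d0 G c0 κ η0 g r1 dl Y Gm s1' s2' s1 s2 D I1 P1 I P) :
    (an r1)⁻¹ ≤ r1 * (2 * phi M A Y Gm (dl ^ (1/2 : ℝ)) (an (dl * r1))) := by
  have hdl := h.ctx.dlpos
  have hK1 := h.Kp1
  have hr := h.ctx.r10
  have hth := an_pos hr
  have h1 := h.phi_w
  have h0 := mul_an_sq hr
  have hd1 := h.dl1
  have h2 : (1:ℝ) ≤ 896 * Kp M A Y Gm 3 * dl⁻¹ := by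
    have : 1 ≤ dl⁻¹ := (one_le_inv₀ hdl).2 hd1
    nlinarith
  rw [← h1] at h2
  have e : r1 * (2 * phi M A Y Gm (dl ^ (1/2 : ℝ)) (an (dl * r1))) =
      (an r1)⁻¹ * ((an r1)⁻¹ * (2 * phi M A Y Gm (dl ^ (1/2 : ℝ)) (an (dl * r1)))) := by
    have hr' : (an r1)⁻¹ * (an r1)⁻¹ = r1 := by
      field_simp; linarith
    have key : ∀ P : ℝ, r1 * P = (an r1)⁻¹ * ((an r1)⁻¹ * P) := fun P => by
      rw [← mul_assoc, hr']
    exact key _
  rw [e]
  exact le_mul_of_one_le_right (by positivity) h2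

/-! ### regions and arcs -/

/-- region of a parent plate. -/
def Xr (κ M A Gm r1 s2' : ℝ) (P1 : ℕ → Plate) (i : ℕ) : Set (E3 × ℝ) :=
  Zs M A 1 Gm 1 (an r1) s2' (TT κ s2' r1) r1 (P1 i).c (P1 i).X0 (P1 i).f 0

/-- region of a child plate. -/
def Zr (κ M A Y Gm r1 dl s2 : ℝ) (P : ℕ → Plate) (j : ℕ) : Set (E3 × ℝ) :=
  Zs M A Y Gm 3 (an (dl * r1)) s2 (TT κ s2 (dl * r1)) r1 (P j).c (P j).X0 (P j).f (P j).z

theorem HH.hX (h : HH M q a b A d0 G c0 κ η0 g r1 dl Y Gm s1' s2' s1 s2 D I1 P1 I P) {K : ℝ}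
    {T : Idx} (hT : T ∈ Ic K (an r1) κ I1 P1) :
    PLc r1 (an r1)⁻¹ κ⁻¹ (slT (an r1) T) (ptT (an r1) κ T) ⊆ Xr κ M A Gm r1 s2' P1 T.1 := by
  obtain ⟨h1, h2, h3, x, hx⟩ := mem_Ic.1 hT
  intro p hp
  exact mem_Zs (h.chn_p h1) (h.gd_p h1 hx.1) (PLc_sub (an_pos h.ctx.r10) h.ctx.kpos hx hp)

theorem HH.hXv (h : HH M q a b A d0 G c0 κ η0 g r1 dl Y Gm s1' s2' s1 s2 D I1 P1 I P) {i : ℕ}
    (hi : i ∈ I1) : volume (Xr κ M A Gm r1 s2' P1 i) ≤
      ENNReal.ofReal (512 * (10 * A ^ 2 * 1) ^ 3 *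
        ((30 * Kp M A 1 Gm 1 * an r1 * r1) * (s2' * r1) * (TT κ s2' r1 * r1) * r1)) :=
  Zs_vol (h.chn_p hi) (by simpa using h.ctx.r10.le)

theorem HH.hZ (h : HH M q a b A d0 G c0 κ η0 g r1 dl Y Gm s1' s2' s1 s2 D I1 P1 I P) {j : ℕ}
    (hj : j ∈ I) {T : Idx}
    (hc : condT (an r1) (an (dl * r1)) κ (dl ^ (1/2 : ℝ)) Y P1 P j T) :
    PLc r1 (an r1)⁻¹ κ⁻¹ (slT (an r1) T) (ptT (an r1) κ T) ⊆ Zr κ M A Y Gm r1 dl s2 P j := by
  obtain ⟨m, hm, hn, y, hy, x, hx, hf, -⟩ := hc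
  intro p hp
  exact mem_Zs (h.chn_c hj) (h.gd_c hj hy (mem_nearL.1 hn).2.le hf)
    (PLc_sub (an_pos h.ctx.r10) h.ctx.kpos hx hp)

theorem HH.hZv (h : HH M q a b A d0 G c0 κ η0 g r1 dl Y Gm s1' s2' s1 s2 D I1 P1 I P) {j : ℕ}
    (hj : j ∈ I) : volume (Zr κ M A Y Gm r1 dl s2 P j) ≤
      ENNReal.ofReal (512 * (10 * A ^ 2 * Y) ^ 3 * ((30 * Kp M A Y Gm 3 * an (dl * r1) * r1) *
        (s2 * r1) * (TT κ s2 (dl * r1) * r1) * r1)) :=
  Zs_vol (h.chn_c hj) (h.ctx.pl.mem j hj).2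

/-- facts of one cell at a point of its plank. -/
theorem HH.at_pt (h : HH M q a b A d0 G c0 κ η0 g r1 dl Y Gm s1' s2' s1 s2 D I1 P1 I P) {j : ℕ}
    (hj : j ∈ I) {K : ℝ} {T : Idx} (hT : T ∈ Ic K (an r1) κ I1 P1)
    (hc : condT (an r1) (an (dl * r1)) κ (dl ^ (1/2 : ℝ)) Y P1 P j T) {p : E3 × ℝ}
    (hp : p ∈ PLc r1 (an r1)⁻¹ κ⁻¹ (slT (an r1) T) (ptT (an r1) κ T)) :
    |(P1 T.1).f.ld (slT (an r1) T) (lat p.1) (p.1 2) p.2| ≤ 7 * Kp M A Y Gm 3 * an (dl * r1) ∧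
    |(Ft (P j).z (P j).f).ld (slT (an r1) T) (lat p.1) (p.1 2) p.2| ≤
      7 * Kp M A Y Gm 3 * an (dl * r1) ∧
    ‖(P1 T.1).f.gr (slT (an r1) T) (lat p.1) p.2‖ ≤ 2 ∧
    ‖(Ft (P j).z (P j).f).gr (slT (an r1) T) (lat p.1) p.2‖ ≤ 2 ∧
    1/2 ≤ ‖(P1 T.1).f.gr (slT (an r1) T) (lat p.1) p.2‖ ∧
    1/2 ≤ ‖(Ft (P j).z (P j).f).gr (slT (an r1) T) (lat p.1) p.2‖ ∧
    dl ^ (1/2 : ℝ) / 2 ≤ |crs (un (P1 T.1).f (slT (an r1) T) (lat p.1) p.2)
      (un (Ft (P j).z (P j).f) (slT (an r1) T) (lat p.1) p.2)| := by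
  obtain ⟨h1, h2, h3, -⟩ := mem_Ic.1 hT
  obtain ⟨m, hm, hn, y, hy, x, hx, hf, hcr⟩ := hc
  have hnp := h.chn_p h1
  have hnc := h.chn_c hj
  have gp := h.gd_p h1 hx.1
  have gc := h.gd_c hj hy (mem_nearL.1 hn).2.le hf
  have hp' := PLc_sub (an_pos h.ctx.r10) h.ctx.kpos hx hp
  have p1 := pl_ld hnp gp hp'
  have p2 := pl_ld hnc gc hp'
  have p3 := pl_gr_bd hnp gp hp'
  have p4 := pl_gr_bd hnc gc hp'
  have p5 := pl_un hnp gp hp'
  have p6 := pl_un hnc gc hp'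
  rw [Ft_zero] at p1 p3 p5
  have hδ := h.δ0
  have hδ1 := h.δ1
  have hr := h.ctx.r10
  refine ⟨p1.trans ?_, p2, p3.2, p4.2, p3.1, p4.1, ?_⟩
  · have k1 : Kp M A 1 Gm 1 ≤ Kp M A Y Gm 3 := by
      unfold Kp
      have hM := h.M1
      have hA := h.A1
      have hY := h.ctx.Y1
      have hG := h.ctx.Gm1
      have e : M * A * Y * 3 * Gm = (M * A * 1 * 1 * Gm) * (Y * 3) := by ring
      rw [e]
      exact le_mul_of_one_le_right (by positivity)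
        (one_le_mul_of_one_le_of_one_le hY (by norm_num))
    have k2 : an r1 ≤ an (dl * r1) := an_le_an h.ctx.dlpos h.dl1 hr
    have k3 := h.Kp1
    exact mul_le_mul (mul_le_mul_of_nonneg_left k1 (by norm_num)) k2 (an_pos hr).le (by positivity)
  · have hv : ‖nP (an (dl * r1)) (P j).f m y‖ = 1 := by
      unfold nP
      exact Gc192.norm_un (k := 3/4) (by norm_num) (gy_bd hnc gc).1
    refine cross_of (u := nP (an r1) (P1 T.1).f T.2.1 x) (v := nP (an (dl * r1)) (P j).f m y)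
      (e := rnd (dl ^ (1/2 : ℝ)) (nP (an (dl * r1)) (P j).f m y)) hδ.le (norm_nP_le _ _ _ _)
      (norm_un_le _ _ _ _) ?_ hcr p5 p6 ?_
    · exact crs_rnd_le hδ hδ1 (norm_nP_le _ _ _ _) hv
    · linarith

open Classical in
/-- **the `18` arcs**. -/
theorem HH.hN (h : HH M q a b A d0 G c0 κ η0 g r1 dl Y Gm s1' s2' s1 s2 D I1 P1 I P) {j : ℕ}
    (hj : j ∈ I) {K : ℝ} (k : ℕ) (x : E3 × ℝ) (p : ℕ) :
    (((Ic K (an r1) κ I1 P1).filter fun T => T.1 = p ∧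
      om k (an r1) (an (dl * r1)) κ (dl ^ (1/2 : ℝ)) Y P1 P j T ≠ 0 ∧
      x ∈ PLc r1 (an r1)⁻¹ κ⁻¹ (slT (an r1) T) (ptT (an r1) κ T)).image
      (fun T => cel (phi M A Y Gm (dl ^ (1/2 : ℝ)) (an (dl * r1))) (slT (an r1) T))).card ≤ 18 := by
  set F := (Ic K (an r1) κ I1 P1).filter fun T => T.1 = p ∧
      om k (an r1) (an (dl * r1)) κ (dl ^ (1/2 : ℝ)) Y P1 P j T ≠ 0 ∧
      x ∈ PLc r1 (an r1)⁻¹ κ⁻¹ (slT (an r1) T) (ptT (an r1) κ T) with hF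
  have e : F.image (fun T => cel (phi M A Y Gm (dl ^ (1/2 : ℝ)) (an (dl * r1)))
      (slT (an r1) T)) = (F.image (slT (an r1))).image
      (cel (phi M A Y Gm (dl ^ (1/2 : ℝ)) (an (dl * r1)))) := by
    rw [Finset.image_image]; rfl
  rw [e]
  have hδ := h.δ0
  have hθj := an_pos h.ctx.rj0
  have hK := h.Kp1
  have key : ∀ C ∈ F.image (slT (an r1)), ∃ T, T ∈ Ic K (an r1) κ I1 P1 ∧ T.1 = p ∧
      condT (an r1) (an (dl * r1)) κ (dl ^ (1/2 : ℝ)) Y P1 P j T ∧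
      x ∈ PLc r1 (an r1)⁻¹ κ⁻¹ (slT (an r1) T) (ptT (an r1) κ T) ∧ slT (an r1) T = C := by
    intro C hC
    obtain ⟨T, hT, rfl⟩ := Finset.mem_image.1 hC
    obtain ⟨a1, a2, a3, a4⟩ := Finset.mem_filter.1 hT
    exact ⟨T, a1, a2, om_cond a3, a4, rfl⟩
  refine arcs_le (p := (P1 p).f) (q := Ft (P j).z (P j).f) (x := lat x.1) (y := x.1 2) (s := x.2)
    (h := 7 * Kp M A Y Gm 3 * an (dl * r1)) (k := 1/2) (M := 2) (δ := dl ^ (1/2 : ℝ) / 2)
    (by norm_num) (by positivity) (by positivity) h.phi_pos ?_ (F.image (slT (an r1)))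
    ?_ ?_ ?_ ?_ ?_ ?_ ?_
  · refine le_of_eq ?_
    unfold phi
    field_simp
    norm_num
  all_goals
    intro C hC
    obtain ⟨T, t1, t2, t3, t4, rfl⟩ := key C hC
    have hh := h.at_pt hj t1 t3 t4
    rw [t2] at hh
  · exact hh.1
  · exact hh.2.1
  · exact hh.2.2.1
  · exact hh.2.2.2.1
  · exact hh.2.2.2.2.1
  · exact hh.2.2.2.2.2.1
  · exact hh.2.2.2.2.2.2

end inst

end Crest.Agent.R116.Mc330
end

-- ▼ part R116/Mc11_330
section

/-!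
# R116 (S0155), misaligned step: the rich children (helper330)

`HH.rich` = `mis_fin` for the cells of the parent class and the children whose mass is large.
-/

set_option autoImplicit false

open MeasureTheory
open scoped ENNReal

namespace Crest.Agent.R116.Mc330

open Crest.Agent.R138.Defs (E2)
open Crest.Agent.R138.Wpk685 (cen caps)
open Crest.Agent.R138.Loc878 (nearL mem_nearL)
open Crest.Agent.R116.CDef480 (E3 lat pt vel umc enc)
open Crest.Agent.R116.LZg725 (Cf)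
open Crest.Agent.R116.WC188
open Crest.Agent.R116.Gc192 (un crs)
open Crest.Agent.R116.Ma448 (PL BX)
open Crest.Agent.R116.PC299
open Mwc748
open ChN

section inst

variable {M q a b A d0 G c0 κ η0 r1 dl Y Gm s1' s2' s1 s2 D : ℝ} {g : E3 → ℂ}
  {I1 I : Finset ℕ} {P1 P : ℕ → Plate}

/-- volume bound of a parent region. -/
noncomputable def VXr (κ M A Gm r1 s2' : ℝ) : ℝ := 512 * (10 * A ^ 2 * 1) ^ 3 *
  ((30 * Kp M A 1 Gm 1 * an r1 * r1) * (s2' * r1) * (TT κ s2' r1 * r1) * r1)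

/-- volume bound of a child region. -/
noncomputable def VZr (κ M A Y Gm r1 dl s2 : ℝ) : ℝ := 512 * (10 * A ^ 2 * Y) ^ 3 *
  ((30 * Kp M A Y Gm 3 * an (dl * r1) * r1) * (s2 * r1) * (TT κ s2 (dl * r1) * r1) * r1)

/-- slopes seen by a child. -/
theorem HH.test (h : HH M q a b A d0 G c0 κ η0 g r1 dl Y Gm s1' s2' s1 s2 D I1 P1 I P) {j : ℕ}
    (hj : j ∈ I) {T : Idx}
    (hc : condT (an r1) (an (dl * r1)) κ (dl ^ (1/2 : ℝ)) Y P1 P j T) :
    ‖slT (an r1) T - (P j).c‖ ≤ 2 * A * s2 := by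
  obtain ⟨m, hm, hn, y, hy, x, hx, hf, -⟩ := hc
  exact ext_C (h.chn_c hj) (h.gd_c hj hy (mem_nearL.1 hn).2.le hf)

/-- **the rich children**. -/
theorem HH.rich (h : HH M q a b A d0 G c0 κ η0 g r1 dl Y Gm s1' s2' s1 s2 D I1 P1 I P)
    (hq : 0 < q) (hq1 : q ≤ 1) (hD : 0 < D) (hv0 : 0 < v0 r1 (an r1)⁻¹ κ⁻¹) {KC : ℝ}
    (hKC : 0 ≤ KC) (k : ℕ)
    (hKM : ∀ (C0 : E2) (F : Finset Idx), F ⊆ Ic (A * r1) (an r1) κ I1 P1 →
      (∀ i ∈ F, ‖slT (an r1) i - C0‖ ≤ 16 * A * max s2 s2') →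
      ∫⁻ x, (∑ T ∈ F, pkc r1 (an r1)⁻¹ κ⁻¹ (slT (an r1) T) (ptT (an r1) κ T)
        (muT (an r1) κ g P1 T) x) ^ (3/2 : ℝ) ≤
        ENNReal.ofReal (KC * ∑ T ∈ F, muT (an r1) κ g P1 T))
    (J : Finset ℕ) (hJ : J ⊆ I)
    (hmass : ∀ j ∈ J, dl ^ 10 * (D * s2 ^ q * scost κ s1 s2 (dl * r1)) ≤
      ∑ T ∈ Ic (A * r1) (an r1) κ I1 P1, om k (an r1) (an (dl * r1)) κ (dl ^ (1/2 : ℝ)) Y P1 P j T *
        muT (an r1) κ g P1 T) :
    (∑ j ∈ J, ∑ T ∈ Ic (A * r1) (an r1) κ I1 P1,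
      om k (an r1) (an (dl * r1)) κ (dl ^ (1/2 : ℝ)) Y P1 P j T * muT (an r1) κ g P1 T) *
        v0 r1 (an r1)⁻¹ κ⁻¹ ≤
      225 * (256 * (dl⁻¹) ^ 4) * (4 * ((tt r1 (an r1)⁻¹ κ⁻¹
        (phi M A Y Gm (dl ^ (1/2 : ℝ)) (an (dl * r1))) q (124420096 * D)
        (c0 * (D * s2' ^ q * scost κ s1' s2' r1))
        (dl ^ 10 * (D * s2 ^ q * scost κ s1 s2 (dl * r1)))
        (VXr κ M A Gm r1 s2') (VZr κ M A Y Gm r1 dl s2) (dl ^ 11)) ^ (-(1/2) : ℝ) * KC) +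
        16 * dl ^ 11 * v0 r1 (an r1)⁻¹ κ⁻¹) *
        ∑ T ∈ Ic (A * r1) (an r1) κ I1 P1, muT (an r1) κ g P1 T := by
  classical
  have hr := h.ctx.r10
  have hr1 := h.r1ge
  have hrj := h.ctx.rj0
  have hth := an_pos hr
  have hthj := an_pos hrj
  have hκ := h.ctx.kpos
  have hκ8 := h.ctx.k8 h.a1
  have hdl := h.ctx.dlpos
  have hA := h.A1
  have hM := h.M1
  have hphi := h.phi_pos
  have hs2 := Sd.s20 h.ctx.sd hrj
  have hs1 := Sd.s10 h.ctx.sd hrj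
  have hs2' := Sd.s20 h.ctx.par.sd hr
  have hs1' := Sd.s10 h.ctx.par.sd hr
  have hT : 0 < TT κ s2 (dl * r1) := TT_pos' hs2
  have hT' : 0 < TT κ s2' r1 := TT_pos' hs2'
  have hKp := h.Kp1
  have hY := h.ctx.Y1
  have hGm := h.ctx.Gm1
  have hc0 := h.ctx.c0pos
  have hint : Integrable g := parC_int h.ctx.par h.a1
  have hKp' : 0 < Kp M A 1 Gm 1 := by unfold Kp; positivity
  have hs2q : 0 < s2 ^ q := Real.rpow_pos_of_pos hs2 _
  have hs2q' : 0 < s2' ^ q := Real.rpow_pos_of_pos hs2' _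
  have hmx : 0 < max s2 s2' := lt_max_of_lt_left hs2
  have hsc : 0 < scost κ s1 s2 (dl * r1) := by unfold scost; positivity
  have hsc' : 0 < scost κ s1' s2' r1 := by unfold scost; positivity
  set Ix := Ic (A * r1) (an r1) κ I1 P1 with hIx
  set OM : ℕ → Idx → ℝ := fun j T => if j ∈ J then
    om k (an r1) (an (dl * r1)) κ (dl ^ (1/2 : ℝ)) Y P1 P j T else 0 with hOM
  have hOMJ : ∀ j ∈ J, ∀ T, OM j T =
      om k (an r1) (an (dl * r1)) κ (dl ^ (1/2 : ℝ)) Y P1 P j T := fun j hj T => if_pos hj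
  have hmain := mis_fin (r := r1) (w := (an r1)⁻¹) (B := κ⁻¹)
    (φ := phi M A Y Gm (dl ^ (1/2 : ℝ)) (an (dl * r1))) (q := q) (D := 124420096 * D)
    (s := 2 * A * max s2 s2') (mult := 256 * (dl⁻¹) ^ 4)
    (MX := c0 * (D * s2' ^ q * scost κ s1' s2' r1))
    (MZ := dl ^ 10 * (D * s2 ^ q * scost κ s1 s2 (dl * r1)))
    (VX := VXr κ M A Gm r1 s2') (VZ := VZr κ M A Y Gm r1 dl s2) (K1 := KC) (κ1 := dl ^ 11)
    hr (inv_pos.2 hth) (inv_pos.2 hκ) hphi h.stw h.st1 h.st2 hq (by positivity) (by positivity)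
    (by positivity) (by positivity) (by positivity) (by unfold VXr; positivity)
    (by unfold VZr; positivity) hKC (by positivity) hv0
    Ix (fun T => slT (an r1) T) (fun T => ptT (an r1) κ T) (fun T => muT (an r1) κ g P1 T)
    (fun T => muT_nonneg _ _ _ _ _) (fun T => T.1) J OM
    (fun j T => by
      rw [hOM]; simp only
      split_ifs
      · exact om_nonneg
      · exact le_rfl)
    (fun j T => by
      rw [hOM]; simp only
      split_ifs with hj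
      · exact om_le_one hth hthj hκ (h.ctx.pl.meas j (hJ hj))
      · norm_num)
    (fun j => (P j).c)
    (fun i hi ψ hψ1 hψ2 => iso_cells hM hκ hr rfl h.st3 h.st1 h.st2 h.ctx.par.D0 hq.le hq1 hint
      h.ctx.par.dens h.ctx.par.meas h.ctx.par.disj (parC_bd h.ctx.par) i ψ hψ1 hψ2 _
      (Finset.filter_subset _ _) (fun i' hi' => (Finset.mem_filter.1 hi').2))
    (fun i hi i' hi' e => (own_slopes h.ctx.par hi hi' e).trans (by
      have : A * s2' ≤ A * max s2 s2' := mul_le_mul_of_nonneg_left (le_max_right _ _) (by linarith)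
      have : 0 ≤ A * max s2 s2' := by positivity
      linarith))
    (fun j hj T hT hne => by
      rw [hOMJ j hj] at hne
      refine (h.test (hJ hj) (om_cond hne)).trans ?_
      exact mul_le_mul_of_nonneg_left (le_max_left _ _) (by linarith))
    (fun i => Xr κ M A Gm r1 s2' P1 i) (fun T hT => h.hX hT)
    (fun T hT => h.hXv (mem_Ic.1 hT).1)
    (fun j => Zr κ M A Y Gm r1 dl s2 P j)
    (fun j hj T hT hne => h.hZ (hJ hj) (om_cond (by rw [hOMJ j hj] at hne; exact hne)))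
    (fun j hj => h.hZv (hJ hj))
    (fun T hT => by
      have := plate_mass h.ctx.par h.a1 (by linarith) hr1 hκ (mem_Ic.1 hT).1
      convert this)
    (fun j hj => by
      have := hmass j hj
      rw [Finset.sum_congr rfl fun T _ => by rw [hOMJ j hj T]]
      exact this)
    (fun j hj x p => by
      have := h.hN (hJ hj) (K := A * r1) k x p
      convert this using 5
      rw [hOMJ j hj])
    (fun T hT => by
      have h1 := sum_om (k := k) (T := T) (δ := dl ^ (1/2 : ℝ)) (Y := Y) (P1 := P1) hr hdl h.dl1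
        h.ctx.pl hth hthj hκ
      refine le_trans ?_ h1
      rw [Finset.sum_congr rfl fun j hj => hOMJ j hj T]
      exact Finset.sum_le_sum_of_subset_of_nonneg hJ fun j _ _ => om_nonneg)
    (fun C0 I' hI' hC => hKM C0 I' hI' fun i hi => (hC i hi).trans (le_of_eq (by ring)))
  rw [Finset.sum_congr rfl fun j hj => Finset.sum_congr rfl fun T _ => by rw [hOMJ j hj T]] at hmain
  exact hmain

end inst

end Crest.Agent.R116.Mc330
end

-- ▼ part R116/Mc12_330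
section

/-!
# R116 (S0155), misaligned step: `FIN_C` (helper330)

`NumP q` = numerology (367 / 748); `fin_c : NumP q → KMR M q → FIN_C M q`; `mis_c`.
-/

set_option autoImplicit false

open MeasureTheory
open scoped ENNReal

namespace Crest.Agent.R116.Mc330

open Crest.Agent.R138.Defs (E2)
open Crest.Agent.R138.Wpk685 (cen caps)
open Crest.Agent.R138.Loc878 (nearL mem_nearL)
open Crest.Agent.R116.CDef480 (E3 lat pt vel umc enc)
open Crest.Agent.R116.LZg725 (Cf)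
open Crest.Agent.R116.WC188
open Crest.Agent.R116.PC299
open Mwc748
open ChN

/-- numerology of the gain. -/
def NumP (q : ℝ) : Prop := ∃ (G G' : ℝ), 1 ≤ G ∧ 0 ≤ G' ∧
    ∀ (M A c3 C1 : ℝ), 1 ≤ M → 1 ≤ A → 1 ≤ c3 → 0 ≤ C1 → ∃ C2 : ℝ, 0 ≤ C2 ∧
    ∀ (Y Gm δ dl θ θj r κ s1 s2 T s1' s2' T' D c0 ε : ℝ),
      1 ≤ Y → 1 ≤ Gm → 0 < δ → δ ≤ 1 → dl = δ ^ 2 → 0 < θ → θ = δ * θj → θ ^ 2 * r = 1 → 0 < κ →
      θj ≤ s1 → θ ≤ s1' → 0 < s2 → 0 < s2' → 0 < T → 0 < T' → θ ≤ dl ^ G * s2 →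
      θ ≤ dl ^ G * s2' → 0 < D → 0 < c0 → c0 ≤ 1 →
      (tt r θ⁻¹ κ⁻¹ (448 * Kp M A Y Gm c3 * θj / δ) q (124420096 * D)
          (c0 * (D * s2' ^ q * (s1' * s2' * T' * r ^ 3)))
          (dl ^ 10 * (D * s2 ^ q * (s1 * s2 * T * (dl * r) ^ 3)))
          (512 * (10 * A ^ 2 * 1) ^ 3 * ((30 * Kp M A 1 Gm 1 * θ * r) * (s2' * r) * (T' * r) * r))
          (512 * (10 * A ^ 2 * Y) ^ 3 * ((30 * Kp M A Y Gm c3 * θj * r) * (s2 * r) * (T * r) * r))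
          (dl ^ 11)) ^ (-(1/2) : ℝ) *
        ((r * κ⁻¹) ^ (3/2 : ℝ) * (C1 * r ^ ε * (max s2 s2') ^ (q / 2) * Real.sqrt D * r)) ≤
      C2 * r ^ ε * (Y / c0) ^ G' * Gm ^ G' * dl ^ 12 * v0 r θ⁻¹ κ⁻¹

/-! ### elementary -/

/-- the value of one child in terms of its mass. -/
theorem val_of {E X D q s2 S R : ℝ} (hE : 0 ≤ E) (hX : 0 ≤ X) (hD : 0 ≤ D) (hs2 : 0 < s2)
    (hS : 0 < S) (hR : 0 ≤ R) (h : E ≤ X * (D * s2 ^ q * S)) :
    s2 ^ (-q / 2) * (R * S ^ (-(1/2) : ℝ)) * E ^ (3/2 : ℝ) ≤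
      R * (Real.sqrt X * Real.sqrt D) * E := by
  have hsq : 0 < s2 ^ q := Real.rpow_pos_of_pos hs2 _
  have e1 : E ^ (3/2 : ℝ) = E * E ^ (1/2 : ℝ) := by
    rw [show (3/2 : ℝ) = 1 + 1/2 by norm_num, Real.rpow_add' hE (by norm_num), Real.rpow_one]
  have e2 : E ^ (1/2 : ℝ) ≤ Real.sqrt X * Real.sqrt D * (s2 ^ (q / 2) * S ^ (1/2 : ℝ)) := by
    refine (Real.rpow_le_rpow hE h (by norm_num)).trans (le_of_eq ?_)
    rw [Real.mul_rpow hX (by positivity), Real.mul_rpow (by positivity) hS.le,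
      Real.mul_rpow hD hsq.le, ← Real.sqrt_eq_rpow, ← Real.sqrt_eq_rpow, ← Real.rpow_mul hs2.le]
    rw [show q * (1/2) = q / 2 by ring]
    ring
  have e3 : s2 ^ (-q / 2) * s2 ^ (q / 2) = 1 := by
    rw [← Real.rpow_add hs2, show -q / 2 + q / 2 = 0 by ring, Real.rpow_zero]
  have e4 : S ^ (-(1/2) : ℝ) * S ^ (1/2 : ℝ) = 1 := by
    rw [← Real.rpow_add hS]; norm_num
  have p1 : 0 ≤ s2 ^ (-q / 2) := Real.rpow_nonneg hs2.le _
  have p2 : 0 ≤ S ^ (-(1/2) : ℝ) := Real.rpow_nonneg hS.le _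
  rw [e1]
  calc s2 ^ (-q / 2) * (R * S ^ (-(1/2) : ℝ)) * (E * E ^ (1/2 : ℝ)) =
        (s2 ^ (-q / 2) * (R * S ^ (-(1/2) : ℝ)) * E) * E ^ (1/2 : ℝ) := by ring
    _ ≤ (s2 ^ (-q / 2) * (R * S ^ (-(1/2) : ℝ)) * E) *
        (Real.sqrt X * Real.sqrt D * (s2 ^ (q / 2) * S ^ (1/2 : ℝ))) :=
        mul_le_mul_of_nonneg_left e2 (by positivity)
    _ = R * (Real.sqrt X * Real.sqrt D) * E * ((s2 ^ (-q / 2) * s2 ^ (q / 2)) *
        (S ^ (-(1/2) : ℝ) * S ^ (1/2 : ℝ))) := by ring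
    _ = _ := by rw [e3, e4]; ring

/-- constant in `√Kx`. -/
noncomputable def CX (M A : ℝ) : ℝ := 34 ^ 2 * 1794 ^ 2 * 642 * 90 * (M * A ^ 9)

theorem sqrt_Kx {M A Y Gm dl δ : ℝ} (hM : 1 ≤ M) (hA : 1 ≤ A) (hY : 1 ≤ Y) (hG : 1 ≤ Gm)
    (hδ : 0 < δ) (hδ1 : δ ≤ 1) (hdl : dl = δ ^ 2) :
    Real.sqrt (Kx M A Y Gm 3 δ) ≤ Real.sqrt (CX M A) * (Y * Gm) * (dl⁻¹) ^ 6 := by
  have hdl0 : 0 < dl := by rw [hdl]; positivity
  have h1 : Kx M A Y Gm 3 δ = CX M A * (Y ^ 2 * Gm) * (dl⁻¹) ^ 11 := by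
    unfold Kx CX Kp
    rw [hdl]
    field_simp
    ring
  have hi : 1 ≤ dl⁻¹ := by
    rw [one_le_inv₀ hdl0, hdl]
    exact pow_le_one₀ hδ.le hδ1
  have hCX : 0 ≤ CX M A := by unfold CX; positivity
  have h2 : Kx M A Y Gm 3 δ ≤ CX M A * ((Y * Gm) * (dl⁻¹) ^ 6) ^ 2 := by
    rw [h1]
    have a1 : Y ^ 2 * Gm ≤ (Y * Gm) ^ 2 := by
      have : (Y * Gm) ^ 2 = (Y ^ 2 * Gm) * Gm := by ring
      rw [this]
      exact le_mul_of_one_le_right (by positivity) hG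
    have a2 : (dl⁻¹) ^ 11 ≤ (dl⁻¹) ^ 12 := pow_le_pow_right₀ hi (by norm_num)
    calc CX M A * (Y ^ 2 * Gm) * (dl⁻¹) ^ 11 ≤ CX M A * (Y * Gm) ^ 2 * (dl⁻¹) ^ 12 :=
          mul_le_mul (mul_le_mul_of_nonneg_left a1 hCX) a2 (by positivity) (by positivity)
      _ = _ := by ring
  calc Real.sqrt (Kx M A Y Gm 3 δ) ≤ Real.sqrt (CX M A * ((Y * Gm) * (dl⁻¹) ^ 6) ^ 2) :=
        Real.sqrt_le_sqrt h2
    _ = Real.sqrt (CX M A) * ((Y * Gm) * (dl⁻¹) ^ 6) := by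
        rw [Real.sqrt_mul hCX, Real.sqrt_sq (by positivity)]
    _ = _ := by ring

section inst

variable {M q a b A d0 G c0 κ η0 r1 dl Y Gm s1' s2' s1 s2 D : ℝ} {g : E3 → ℂ}
  {I1 I : Finset ℕ} {P1 P : ℕ → Plate}

/-- **mass of one child**. -/
theorem HH.Ebd (h : HH M q a b A d0 G c0 κ η0 g r1 dl Y Gm s1' s2' s1 s2 D I1 P1 I P)
    (hq : 0 ≤ q) (k : ℕ) {j : ℕ} (hj : j ∈ I) :
    ∑ T ∈ Ic (A * r1) (an r1) κ I1 P1, om k (an r1) (an (dl * r1)) κ (dl ^ (1/2 : ℝ)) Y P1 P j T *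
      muT (an r1) κ g P1 T ≤
      Kx M A Y Gm 3 (dl ^ (1/2 : ℝ)) * (D * s2 ^ q * scost κ s1 s2 (dl * r1)) := by
  classical
  have hr := h.ctx.r10
  have hth := an_pos hr
  have hthj := an_pos h.ctx.rj0
  have hκ := h.ctx.kpos
  have hs2 := Sd.s20 h.ctx.sd h.ctx.rj0
  have hs1 := Sd.s10 h.ctx.sd h.ctx.rj0
  have hint : Integrable g := parC_int h.ctx.par h.a1
  set F := (Ic (A * r1) (an r1) κ I1 P1).filter
    (fun T => condT (an r1) (an (dl * r1)) κ (dl ^ (1/2 : ℝ)) Y P1 P j T) with hF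
  set W : ℤ × ℤ → Set E3 := fun m => {y | ∃ T ∈ F, T.2.1 = m ∧ y ∈ TS (an r1) κ P1 T} with hW
  have h1 : ∑ T ∈ Ic (A * r1) (an r1) κ I1 P1,
      om k (an r1) (an (dl * r1)) κ (dl ^ (1/2 : ℝ)) Y P1 P j T * muT (an r1) κ g P1 T ≤
      ∑ T ∈ F, muT (an r1) κ g P1 T := by
    rw [hF, Finset.sum_filter]
    refine Finset.sum_le_sum fun T _ => ?_
    split_ifs with hc
    · exact mul_le_of_le_one_left (muT_nonneg _ _ _ _ _)
        (om_le_one hth hthj hκ (h.ctx.pl.meas j hj))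
    · rw [om_zero hc, zero_mul]
  refine h1.trans ?_
  have hKx : 0 ≤ Kx M A Y Gm 3 (dl ^ (1/2 : ℝ)) := by
    have h2 := h.Kp1
    have := h.A1
    have := h.ctx.Y1
    have := h.δ0
    unfold Kx
    positivity
  have hsc : 0 ≤ scost κ s1 s2 (dl * r1) := by
    have hT : 0 < TT κ s2 (dl * r1) := TT_pos' hs2
    have := h.ctx.rj0
    unfold scost
    positivity
  have hD := h.ctx.par.D0
  have hs2q : 0 ≤ s2 ^ q := Real.rpow_nonneg hs2.le _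
  refine (ENNReal.ofReal_le_ofReal_iff (by positivity)).1 ?_
  rw [sum_muT (K := A * r1) (I1 := I1) hint (parC_bd h.ctx.par) F (Finset.filter_subset _ _)]
  have h3 : ∑ T ∈ F, muE (an r1) κ g P1 T ≤ enc (an r1) g (fun m => uS I1 P1 m ∩ W m) := by
    refine sum_le_enc h.ctx.par.meas h.ctx.par.disj F (fun T hT => ?_) _ ?_
    · have hh := mem_Ic.1 (Finset.mem_filter.1 hT).1
      exact ⟨hh.1, hh.2.1⟩
    · intro T hT y hy
      exact ⟨Set.mem_biUnion (mem_Ic.1 (Finset.mem_filter.1 hT).1).1 hy.1, T, hT, rfl, hy⟩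
  refine h3.trans ?_
  refine mass_ext (c := (P j).c) (X0 := (P j).X0) (S := uS I1 P1) (W := W) (h.chn_c hj) rfl h.ctx.sd.hi (h.ctx.pl.mem j hj).2 rfl
    (an_le_an h.ctx.dlpos h.dl1 hr) hD hq h.ctx.par.dens ?_
  rintro m - y ⟨-, T, hT, rfl, hy⟩
  obtain ⟨m', hm', hn, y', hy', x, hx, hf, -⟩ := (Finset.mem_filter.1 hT).2
  exact ⟨cen (an (dl * r1)) m', y', x, h.gd_c hj hy' (mem_nearL.1 hn).2.le hf,
    mem_PL0 hr.le hth hκ hx hy⟩

end inst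

/-! ### the theorem -/

/-- `an r1 ≤ κ`. -/
theorem an_le_κ {r1 dl κ : ℝ} (h1 : 1 ≤ dl * r1) (hdl : 0 < dl) (hdl1 : dl ≤ 1)
    (hk : (dl * r1) ^ (-(1/4) : ℝ) ≤ κ) : an r1 ≤ κ := by
  have hr : 0 < r1 := by
    by_contra hn
    push Not at hn
    nlinarith
  have h2 : dl * r1 ≤ r1 := mul_le_of_le_one_left hr.le hdl1
  refine le_trans ?_ hk
  unfold an
  calc r1 ^ (-(1/2) : ℝ) ≤ (dl * r1) ^ (-(1/2) : ℝ) :=
        Real.rpow_le_rpow_of_nonpos (by linarith) h2 (by norm_num)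
    _ ≤ (dl * r1) ^ (-(1/4) : ℝ) := Real.rpow_le_rpow_of_exponent_le h1 (by norm_num)

set_option maxHeartbeats 1000000 in
/-- **FIN_C**. -/
theorem fin_c {M q : ℝ} (hM : 1 ≤ M) (hq : 0 < q) (hq1 : q ≤ 1) (hnum : NumP q)
    (hv0 : ∀ r w B : ℝ, 0 < r → 0 < w → 0 < B → 0 < v0 r w B)
    (hKMR : KMR890.KMR M q) : FIN_C M q := by
  classical
  obtain ⟨Gn, Gp, hGn, hGp, hnum⟩ := hnum
  set G : ℝ := max (max Gn 3) (Gp + 1) with hGdef
  have hG1 : Gn ≤ G := (le_max_left _ _).trans (le_max_left _ _)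
  have hG3 : 3 ≤ G := (le_max_right _ _).trans (le_max_left _ _)
  have hGG : Gp + 1 ≤ G := le_max_right _ _
  refine ⟨G, by linarith, fun ε hε => ⟨Gp + 1, by linarith, fun a b A ha hb hb2 hA => ?_⟩⟩
  have hMA : 1 ≤ M * A := one_le_mul_of_one_le_of_one_le hM hA
  have hKK : 1 ≤ KK M A := by
    unfold KK
    have : 1 ≤ (M * A) ^ 2 := one_le_pow₀ hMA
    linarith
  obtain ⟨C1, hC1, hkmc⟩ := kmc_cells hKMR hA hε
  obtain ⟨C2, hC2, hnum⟩ := hnum M A 3 C1 hM hA (by norm_num) hC1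
  refine ⟨((KK M A) ^ 2)⁻¹, by positivity, inv_le_one_of_one_le₀ (one_le_pow₀ hKK), fun Mt =>
    ⟨57600 * Real.sqrt (CX M A) * (4 * C2 + 16) + 256, by positivity, ?_⟩⟩
  intro c0 κ η0 g r1 dl Y Gm s1' s2' s1 s2 D I1 P1 I P hctx hwd
  have hkd : KK M A * (((KK M A) ^ 2)⁻¹) ^ (1/2 : ℝ) ≤ 1 := by
    have e : (((KK M A) ^ 2)⁻¹) ^ (1/2 : ℝ) = (KK M A)⁻¹ := by
      rw [← inv_pow, ← Real.rpow_natCast, ← Real.rpow_mul (by positivity)]
      norm_num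
    rw [e, mul_inv_cancel₀ (by positivity)]
  have h : HH M q a b A ((KK M A) ^ 2)⁻¹ G c0 κ η0 g r1 dl Y Gm s1' s2' s1 s2 D I1 P1 I P :=
    ⟨hctx, hM, hA, ha, hG3, inv_le_one_of_one_le₀ (one_le_pow₀ hKK), hkd, hwd⟩
  have hr := hctx.r10
  have hr1 := h.r1ge
  have hrj := hctx.rj0
  have hth := an_pos hr
  have hthj := an_pos hrj
  have hκ := hctx.kpos
  have hκ8 := hctx.k8 ha
  have hdl := hctx.dlpos
  have hdl1 := h.dl1
  have hs2 := Sd.s20 hctx.sd hrj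
  have hs1 := Sd.s10 hctx.sd hrj
  have hs2' := Sd.s20 hctx.par.sd hr
  have hs1' := Sd.s10 hctx.par.sd hr
  have hT : 0 < TT κ s2 (dl * r1) := TT_pos' hs2
  have hT' : 0 < TT κ s2' r1 := TT_pos' hs2'
  have hY := hctx.Y1
  have hGm := hctx.Gm1
  have hc0 := hctx.c0pos
  have hc01 := hctx.c0le
  have hD := hctx.par.D0
  have hsc : 0 < scost κ s1 s2 (dl * r1) := by unfold scost; positivity
  set S := scost κ s1 s2 (dl * r1) with hSdef
  set Ix := Ic (A * r1) (an r1) κ I1 P1 with hIx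
  set E : ℕ → ℝ := fun j => ∑ T ∈ Ix,
    om Mt (an r1) (an (dl * r1)) κ (dl ^ (1/2 : ℝ)) Y P1 P j T * muT (an r1) κ g P1 T with hEdef
  have hE0 : ∀ j, 0 ≤ E j := fun j => nn0 j
  set mu := ∑ T ∈ Ix, muT (an r1) κ g P1 T with hmu
  have hmu0 : 0 ≤ mu := Finset.sum_nonneg fun T _ => muT_nonneg _ _ _ _ _
  have hEbd : ∀ j ∈ I, E j ≤ Kx M A Y Gm 3 (dl ^ (1/2 : ℝ)) * (D * s2 ^ q * S) :=
    fun j hj => h.Ebd hq.le Mt hj
  have hKx : 0 ≤ Kx M A Y Gm 3 (dl ^ (1/2 : ℝ)) := by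
    have h2 := h.Kp1
    have := h.δ0
    unfold Kx
    positivity
  have hsumE : ∑ j ∈ I, E j ≤ 256 * (dl⁻¹) ^ 4 * mu := by
    rw [hEdef]
    simp only
    rw [Finset.sum_comm, hmu, Finset.mul_sum]
    refine Finset.sum_le_sum fun T _ => ?_
    rw [← Finset.sum_mul]
    exact mul_le_mul_of_nonneg_right (sum_om hr hdl hdl1 hctx.pl hth hthj hκ)
      (muT_nonneg _ _ _ _ _)
  have hrε : 1 ≤ r1 ^ ε := Real.one_le_rpow hr1 hε.le
  have hYc : 1 ≤ Y / c0 := by rw [le_div_iff₀ hc0]; linarith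
  have hYc1 : 1 ≤ (Y / c0) ^ Gp := Real.one_le_rpow hYc hGp
  have hGm1 : 1 ≤ Gm ^ Gp := Real.one_le_rpow hGm hGp
  have hYY : Y ≤ Y / c0 := by
    rw [le_div_iff₀ hc0]; nlinarith
  -- the factor of the statement
  set Q := r1 ^ ε * (Y / c0) ^ (Gp + 1) * Gm ^ G with hQ
  have hXQ : r1 ^ ε * (Y / c0) ^ Gp * Gm ^ Gp * (Y * Gm) ≤ Q := by
    rw [hQ, Real.rpow_add (by linarith), Real.rpow_one]
    have a1 : Gm ^ Gp * Gm ≤ Gm ^ G := by
      rw [← Real.rpow_add_one (by linarith)]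
      exact Real.rpow_le_rpow_of_exponent_le hGm hGG
    calc r1 ^ ε * (Y / c0) ^ Gp * Gm ^ Gp * (Y * Gm) =
          r1 ^ ε * ((Y / c0) ^ Gp * Y) * (Gm ^ Gp * Gm) := by ring
      _ ≤ r1 ^ ε * ((Y / c0) ^ Gp * (Y / c0)) * Gm ^ G := by
          refine mul_le_mul (mul_le_mul_of_nonneg_left (mul_le_mul_of_nonneg_left hYY
            (by positivity)) (by positivity)) a1 (by positivity) (by positivity)
  have hQ1 : 1 ≤ Q := by
    rw [hQ]
    have a1 : 1 ≤ (Y / c0) ^ (Gp + 1) := Real.one_le_rpow hYc (by linarith)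
    have a2 : 1 ≤ Gm ^ G := Real.one_le_rpow hGm (by linarith)
    exact one_le_mul_of_one_le_of_one_le (one_le_mul_of_one_le_of_one_le hrε a1) a2
  have hsD := Real.sqrt_nonneg D
  -- split
  set J := I.filter (fun j => dl ^ 10 * (D * s2 ^ q * S) ≤ E j) with hJ
  have hsplit : s2 ^ (-q / 2) * (dl * r1 * S ^ (-(1/2) : ℝ)) *
      nnV Mt (A * r1) (an r1) (an (dl * r1)) κ (dl ^ (1/2 : ℝ)) Y g I1 P1 I P =
      ∑ j ∈ J, s2 ^ (-q / 2) * (dl * r1 * S ^ (-(1/2) : ℝ)) * E j ^ (3/2 : ℝ) +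
      ∑ j ∈ I.filter (fun j => ¬ dl ^ 10 * (D * s2 ^ q * S) ≤ E j),
        s2 ^ (-q / 2) * (dl * r1 * S ^ (-(1/2) : ℝ)) * E j ^ (3/2 : ℝ) := by
    rw [hJ, Finset.sum_filter_add_sum_filter_not, ← Finset.mul_sum]
    rfl
  -- poor children
  have hpoor : ∑ j ∈ I.filter (fun j => ¬ dl ^ 10 * (D * s2 ^ q * S) ≤ E j),
        s2 ^ (-q / 2) * (dl * r1 * S ^ (-(1/2) : ℝ)) * E j ^ (3/2 : ℝ) ≤
      256 * dl ^ 2 * (r1 * Real.sqrt D) * mu := by
    have h1 : ∀ j ∈ I.filter (fun j => ¬ dl ^ 10 * (D * s2 ^ q * S) ≤ E j),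
        s2 ^ (-q / 2) * (dl * r1 * S ^ (-(1/2) : ℝ)) * E j ^ (3/2 : ℝ) ≤
        dl * r1 * (dl ^ 5 * Real.sqrt D) * E j := by
      intro j hj
      have hj2 := (Finset.mem_filter.1 hj).2
      push Not at hj2
      have := val_of (hE0 j) (by positivity : 0 ≤ dl ^ 10) hD hs2 hsc hrj.le hj2.le
      have e : Real.sqrt (dl ^ 10) = dl ^ 5 := by
        rw [show dl ^ 10 = (dl ^ 5) ^ 2 by ring, Real.sqrt_sq (by positivity)]
      rw [e] at this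
      exact this
    refine (Finset.sum_le_sum h1).trans ?_
    rw [← Finset.mul_sum]
    have h2 : ∑ j ∈ I.filter (fun j => ¬ dl ^ 10 * (D * s2 ^ q * S) ≤ E j), E j ≤
        256 * (dl⁻¹) ^ 4 * mu :=
      (Finset.sum_le_sum_of_subset_of_nonneg (Finset.filter_subset _ _)
        fun j _ _ => hE0 j).trans hsumE
    calc _ ≤ dl * r1 * (dl ^ 5 * Real.sqrt D) * (256 * (dl⁻¹) ^ 4 * mu) :=
          mul_le_mul_of_nonneg_left h2 (by positivity)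
      _ = 256 * dl ^ 2 * (r1 * Real.sqrt D) * mu := by field_simp
  -- rich children
  have hrich : ∑ j ∈ J, s2 ^ (-q / 2) * (dl * r1 * S ^ (-(1/2) : ℝ)) * E j ^ (3/2 : ℝ) ≤
      57600 * Real.sqrt (CX M A) * (4 * C2 + 16) * Q * dl ^ 2 * (r1 * Real.sqrt D) * mu := by
    have h1 : ∀ j ∈ J, s2 ^ (-q / 2) * (dl * r1 * S ^ (-(1/2) : ℝ)) * E j ^ (3/2 : ℝ) ≤
        dl * r1 * (Real.sqrt (Kx M A Y Gm 3 (dl ^ (1/2 : ℝ))) * Real.sqrt D) * E j := fun j hj =>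
      val_of (hE0 j) hKx hD hs2 hsc hrj.le (hEbd j (Finset.mem_filter.1 hj).1)
    refine (Finset.sum_le_sum h1).trans ?_
    rw [← Finset.mul_sum]
    rcases hD.eq_or_lt with hD0 | hDpos
    · -- `D = 0`
      rw [← hD0, Real.sqrt_zero]
      simp
    · have hw := inv_pos.2 hth
      have hB := inv_pos.2 hκ
      have hv := hv0 r1 (an r1)⁻¹ κ⁻¹ hr hw hB
      set KC := (r1 * κ⁻¹) ^ (3/2 : ℝ) * (C1 * r1 ^ ε * (max s2 s2') ^ (q / 2) *
        Real.sqrt D * r1) with hKCdef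
      have hmx0 : 0 ≤ max s2 s2' := le_max_of_le_left hs2.le
      have hKC : 0 ≤ KC := by rw [hKCdef]; positivity
      have hKM := hkmc κ r1 hκ (by linarith) hr1 (an_le_κ h.rj1 hdl hdl1 hctx.klo) g
        (parC_int hctx.par ha) ((parC_Gd hctx.par ha hb2.le).memLp 2) I1 P1 (A * r1)
        hctx.par.meas hctx.par.disj (parC_bd hctx.par) rfl D hD hctx.par.dens (max s2 s2')
        (le_max_of_le_right (hctx.par.sd.lo.trans hctx.par.sd.le))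
        (max_le hctx.sd.hi hctx.par.sd.hi)
      have hR := h.rich hq hq1 hDpos hv hKC Mt hKM J (Finset.filter_subset _ _)
        (fun j hj => (Finset.mem_filter.1 hj).2)
      have hN := hnum Y Gm (dl ^ (1/2 : ℝ)) dl (an r1) (an (dl * r1)) r1 κ s1 s2
        (TT κ s2 (dl * r1)) s1' s2' (TT κ s2' r1) D c0 ε hY hGm h.δ0 h.δ1 h.δ2.symm hth
        h.th.symm (by rw [mul_comm]; exact mul_an_sq hr) hκ hctx.sd.lo hctx.par.sd.lo hs2 hs2' hT hT'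
        (by
          have a1 := (h.chn_c (j := (0:ℕ)))
          have a2 : dl ^ (-G) * an (dl * r1) ≤ s2 := hctx.wide
          have a3 : an r1 ≤ an (dl * r1) := an_le_an hdl hdl1 hr
          have a4 : dl ^ G ≤ dl ^ Gn := Real.rpow_le_rpow_of_exponent_ge hdl hdl1 hG1
          calc an r1 ≤ an (dl * r1) := a3
            _ = dl ^ G * (dl ^ (-G) * an (dl * r1)) := by
                rw [← mul_assoc, ← Real.rpow_add hdl]; simp
            _ ≤ dl ^ G * s2 := mul_le_mul_of_nonneg_left a2 (Real.rpow_nonneg hdl.le _)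
            _ ≤ dl ^ Gn * s2 := mul_le_mul_of_nonneg_right a4 hs2.le)
        (by
          have a4 : dl ^ G ≤ dl ^ Gn := Real.rpow_le_rpow_of_exponent_ge hdl hdl1 hG1
          calc an r1 = dl ^ G * (dl ^ (-G) * an r1) := by
                rw [← mul_assoc, ← Real.rpow_add hdl]; simp
            _ ≤ dl ^ G * s2' := mul_le_mul_of_nonneg_left hwd (Real.rpow_nonneg hdl.le _)
            _ ≤ dl ^ Gn * s2' := mul_le_mul_of_nonneg_right a4 hs2'.le)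
        hDpos hc0 hc01
      set TTT := (tt r1 (an r1)⁻¹ κ⁻¹
        (phi M A Y Gm (dl ^ (1/2 : ℝ)) (an (dl * r1))) q (124420096 * D)
        (c0 * (D * s2' ^ q * scost κ s1' s2' r1))
        (dl ^ 10 * (D * s2 ^ q * scost κ s1 s2 (dl * r1)))
        (VXr κ M A Gm r1 s2') (VZr κ M A Y Gm r1 dl s2) (dl ^ 11)) ^ (-(1/2) : ℝ) with hTTT
      have hN' : TTT * KC ≤ C2 * r1 ^ ε * (Y / c0) ^ Gp * Gm ^ Gp * dl ^ 12 *
          v0 r1 (an r1)⁻¹ κ⁻¹ := hN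
      -- sum of the masses of the rich children
      have hX1 : 1 ≤ r1 ^ ε * (Y / c0) ^ Gp * Gm ^ Gp :=
        one_le_mul_of_one_le_of_one_le (one_le_mul_of_one_le_of_one_le hrε hYc1) hGm1
      set X := r1 ^ ε * (Y / c0) ^ Gp * Gm ^ Gp with hXdef
      have hd12 : dl ^ 12 ≤ dl ^ 11 := pow_le_pow_of_le_one hdl.le hdl1 (by norm_num)
      have hsum : ∑ j ∈ J, E j ≤ 225 * (256 * (dl⁻¹) ^ 4) * ((4 * C2 + 16) * X * dl ^ 11) * mu := by
        have b1 : 4 * (TTT * KC) + 16 * dl ^ 11 * v0 r1 (an r1)⁻¹ κ⁻¹ ≤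
            ((4 * C2 + 16) * X * dl ^ 11) * v0 r1 (an r1)⁻¹ κ⁻¹ := by
          have c1 : C2 * r1 ^ ε * (Y / c0) ^ Gp * Gm ^ Gp * dl ^ 12 * v0 r1 (an r1)⁻¹ κ⁻¹ ≤
              C2 * X * dl ^ 11 * v0 r1 (an r1)⁻¹ κ⁻¹ := by
            refine mul_le_mul_of_nonneg_right ?_ hv.le
            calc C2 * r1 ^ ε * (Y / c0) ^ Gp * Gm ^ Gp * dl ^ 12 = C2 * X * dl ^ 12 := by
                  rw [hXdef]; ring
              _ ≤ C2 * X * dl ^ 11 := mul_le_mul_of_nonneg_left hd12 (by positivity)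
          have c2 : dl ^ 11 * v0 r1 (an r1)⁻¹ κ⁻¹ ≤ X * (dl ^ 11 * v0 r1 (an r1)⁻¹ κ⁻¹) :=
            le_mul_of_one_le_left (by positivity) hX1
          have c3 := hN'.trans c1
          calc 4 * (TTT * KC) + 16 * dl ^ 11 * v0 r1 (an r1)⁻¹ κ⁻¹ ≤
                4 * (C2 * X * dl ^ 11 * v0 r1 (an r1)⁻¹ κ⁻¹) +
                16 * (X * (dl ^ 11 * v0 r1 (an r1)⁻¹ κ⁻¹)) := by linarith
            _ = _ := by ring
        have b2 : (∑ j ∈ J, E j) * v0 r1 (an r1)⁻¹ κ⁻¹ ≤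
            (225 * (256 * (dl⁻¹) ^ 4) * ((4 * C2 + 16) * X * dl ^ 11) * mu) *
              v0 r1 (an r1)⁻¹ κ⁻¹ := by
          refine hR.trans ?_
          calc 225 * (256 * (dl⁻¹) ^ 4) * (4 * (TTT * KC) + 16 * dl ^ 11 *
                v0 r1 (an r1)⁻¹ κ⁻¹) * mu ≤
                225 * (256 * (dl⁻¹) ^ 4) * (((4 * C2 + 16) * X * dl ^ 11) *
                v0 r1 (an r1)⁻¹ κ⁻¹) * mu :=
                mul_le_mul_of_nonneg_right (mul_le_mul_of_nonneg_left b1 (by positivity)) hmu0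
            _ = _ := by ring
        exact le_of_mul_le_mul_right b2 hv
      have hKs := sqrt_Kx hM hA hY hGm h.δ0 h.δ1 h.δ2.symm
      have hJE : 0 ≤ ∑ j ∈ J, E j := Finset.sum_nonneg fun j _ => hE0 j
      calc dl * r1 * (Real.sqrt (Kx M A Y Gm 3 (dl ^ (1/2 : ℝ))) * Real.sqrt D) * ∑ j ∈ J, E j ≤
            dl * r1 * ((Real.sqrt (CX M A) * (Y * Gm) * (dl⁻¹) ^ 6) * Real.sqrt D) *
            (225 * (256 * (dl⁻¹) ^ 4) * ((4 * C2 + 16) * X * dl ^ 11) * mu) := by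
            refine mul_le_mul ?_ hsum hJE (by positivity)
            exact mul_le_mul_of_nonneg_left (mul_le_mul_of_nonneg_right hKs hsD) (by positivity)
        _ = 57600 * Real.sqrt (CX M A) * (4 * C2 + 16) * (X * (Y * Gm)) * dl ^ 2 *
            (r1 * Real.sqrt D) * mu := by
            field_simp
            ring
        _ ≤ 57600 * Real.sqrt (CX M A) * (4 * C2 + 16) * Q * dl ^ 2 *
            (r1 * Real.sqrt D) * mu := by
            refine mul_le_mul_of_nonneg_right (mul_le_mul_of_nonneg_right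
              (mul_le_mul_of_nonneg_right (mul_le_mul_of_nonneg_left hXQ (by positivity))
              (by positivity)) (by positivity)) hmu0
  rw [hsplit]
  have hfin : 256 * dl ^ 2 * (r1 * Real.sqrt D) * mu ≤
      256 * Q * dl ^ 2 * (r1 * Real.sqrt D) * mu := by
    refine mul_le_mul_of_nonneg_right (mul_le_mul_of_nonneg_right
      (mul_le_mul_of_nonneg_right ?_ (by positivity)) (by positivity)) hmu0
    linarith
  calc _ ≤ 57600 * Real.sqrt (CX M A) * (4 * C2 + 16) * Q * dl ^ 2 * (r1 * Real.sqrt D) * mu +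
        256 * Q * dl ^ 2 * (r1 * Real.sqrt D) * mu := add_le_add hrich (hpoor.trans hfin)
    _ = (57600 * Real.sqrt (CX M A) * (4 * C2 + 16) + 256) * r1 ^ ε * (Y / c0) ^ (Gp + 1) *
        Gm ^ G * dl ^ 2 * (r1 * Real.sqrt D) * mu := by rw [hQ]; ring

/-- **MIS_C**. -/
theorem mis_c {M q : ℝ} (hM : 1 ≤ M) (hq : 0 < q) (hq1 : q ≤ 1) (hnum : NumP q)
    (hv0 : ∀ r w B : ℝ, 0 < r → 0 < w → 0 < B → 0 < v0 r w B)
    (hKMR : KMR890.KMR M q) : MIS_C M q :=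
  MIS_C_of_FIN hq.le (by linarith) (fin_c hM hq hq1 hnum hv0 hKMR)

end Crest.Agent.R116.Mc330
end

-- ▼ part R116/MwN_748

/-!
# R116 (S0155): numerology of the misaligned step (helper748)
-/

set_option autoImplicit false

open MeasureTheory
open scoped ENNReal

namespace Crest.Agent.R116.MwN748

open Crest.Agent.R138.Defs (E2)
open Crest.Agent.R116.CDef480
open Crest.Agent.R116.Mc330 (tt K0c v0)
open Crest.Agent.R116.Mc330.ChN (Kp)
open Crest.Agent.R116.Ma448 (pv)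

/-- volume of a plank from below. -/
theorem v0_ge {r w B : ℝ} (hr : 0 ≤ r) (hw : 0 ≤ w) (hB : 0 ≤ B) :
    4 * (w * w * B * r) ≤ v0 r w B := by
  have h1 := Mc330.le_slice (0 : E2) (0 : E3) hw hB 0
  have h2 : {X : E3 | ‖lat X - lat (0 : E3) + (0:ℝ) • (0 : E2)‖ ≤ w ∧
      |nrm (0 : E2) X 0 - nrm (0 : E2) (0 : E3) 0| ≤ B} = {X : E3 | ‖lat X‖ ≤ w ∧ |X 2| ≤ B} := by
    ext X
    have e0 : lat (0 : E3) = 0 := by ext i; fin_cases i <;> rfl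
    have e1 : nrm (0 : E2) X 0 = X 2 := by rw [Ckm538.nrm_zero]; simp
    have e2 : nrm (0 : E2) (0 : E3) 0 = 0 := by rw [Ckm538.nrm_zero]; simp
    simp only [Set.mem_ofPred_eq, e0, e1, e2, smul_zero, sub_zero, add_zero]
  rw [h2] at h1
  have h3 : ENNReal.ofReal (2 * (w * w * B)) ≤ pv w B := h1
  have h4 : ENNReal.ofReal (4 * (w * w * B * r)) ≤ ENNReal.ofReal (v0 r w B) := by
    rw [Mc330.ofReal_v0]
    have e : 4 * (w * w * B * r) = (2 * r) * (2 * (w * w * B)) := by ring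
    rw [e, ENNReal.ofReal_mul (by positivity)]
    exact mul_le_mul' le_rfl h3
  have h5 : 0 ≤ v0 r w B := ENNReal.toReal_nonneg
  exact (ENNReal.ofReal_le_ofReal_iff h5).1 h4

theorem v0_pos {r w B : ℝ} (hr : 0 < r) (hw : 0 < w) (hB : 0 < B) : 0 < v0 r w B := by
  refine lt_of_lt_of_le ?_ (v0_ge hr.le hw.le hB.le)
  positivity

/-- the inverse of `tt` (pure algebra). -/
theorem tt_inv {r w B φ q D MX MZ VX VZ κ1 : ℝ} :
    (tt r w B φ q D MX MZ VX VZ κ1)⁻¹ =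
      4608 * K0c r w B φ q D * (VZ / MZ) * (VX / MX) / (κ1 * (v0 r w B) ^ 2) := by
  unfold tt
  rw [inv_div]
  norm_num
  generalize v0 r w B = v
  generalize K0c r w B φ q D = K
  rcases eq_or_ne v 0 with hv | hv
  · subst hv; simp
  rcases eq_or_ne MX 0 with h1 | h1
  · subst h1; simp
  rcases eq_or_ne MZ 0 with h2 | h2
  · subst h2; simp
  rcases eq_or_ne VX 0 with h3 | h3
  · subst h3; simp
  rcases eq_or_ne VZ 0 with h4 | h4
  · subst h4; simp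
  rcases eq_or_ne κ1 0 with h5 | h5
  · subst h5; simp
  field_simp

/-- **numerology of the misaligned step**. -/
theorem num_mis {q : ℝ} (hq : 0 < q) (hq1 : q ≤ 1) : ∃ (G G' : ℝ), 1 ≤ G ∧ 0 ≤ G' ∧
  ∀ (M A c3 C1 : ℝ), 1 ≤ M → 1 ≤ A → 1 ≤ c3 → 0 ≤ C1 → ∃ C2 : ℝ, 0 ≤ C2 ∧
  ∀ (Y Gm δ dl θ θj r κ s1 s2 T s1' s2' T' D c0 ε : ℝ),
    1 ≤ Y → 1 ≤ Gm → 0 < δ → δ ≤ 1 → dl = δ ^ 2 → 0 < θ → θ = δ * θj → θ ^ 2 * r = 1 → 0 < κ →
    θj ≤ s1 → θ ≤ s1' → 0 < s2 → 0 < s2' → 0 < T → 0 < T' → θ ≤ dl ^ G * s2 → θ ≤ dl ^ G * s2' →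
    0 < D → 0 < c0 → c0 ≤ 1 →
    (tt r θ⁻¹ κ⁻¹ (448 * Kp M A Y Gm c3 * θj / δ) q (124420096 * D)
        (c0 * (D * s2' ^ q * (s1' * s2' * T' * r ^ 3)))
        (dl ^ 10 * (D * s2 ^ q * (s1 * s2 * T * (dl * r) ^ 3)))
        (512 * (10 * A ^ 2 * 1) ^ 3 * ((30 * Kp M A 1 Gm 1 * θ * r) * (s2' * r) * (T' * r) * r))
        (512 * (10 * A ^ 2 * Y) ^ 3 * ((30 * Kp M A Y Gm c3 * θj * r) * (s2 * r) * (T * r) * r))
        (dl ^ 11)) ^ (-(1/2) : ℝ) *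
      ((r * κ⁻¹) ^ (3/2 : ℝ) * (C1 * r ^ ε * (max s2 s2') ^ (q / 2) * Real.sqrt D * r)) ≤
    C2 * r ^ ε * (Y / c0) ^ G' * Gm ^ G' * dl ^ 12 * v0 r θ⁻¹ κ⁻¹ := by
  set cq : ℝ := (1 - 2 ^ (-q))⁻¹ with hcq
  have hcq0 : 0 < cq := inv_pos.2 (Mc330.one_sub_pos hq)
  refine ⟨60 / q + 10, 3, by have : 0 < 60 / q := by positivity
                             linarith, by norm_num, ?_⟩
  intro M A c3 C1 hM hA hc3 hC1
  set c1 : ℝ := 15360000 * A ^ 6 with hc1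
  have hc10 : 0 < c1 := by positivity
  set KK : ℝ := 4608 * (4 * 124420096 * cq * 896 ^ 2) * c1 ^ 2 * (M ^ 4 * A ^ 4 * c3 ^ 3) * C1 ^ 2
    with hKK
  have hKK0 : 0 ≤ KK := by positivity
  refine ⟨Real.sqrt KK, Real.sqrt_nonneg _, ?_⟩
  intro Y Gm δ dl θ θj r κ s1 s2 T s1' s2' T' D c0 ε hY hGm hδ hδ1 hdl hθ hθj hθr hκ hs1 hs1' hs2
    hs2' hT hT' hsm hsm' hD hc0 hc01
  have hr : 0 < r := by
    by_contra hn
    have := mul_nonpos_of_nonneg_of_nonpos (sq_nonneg θ) (not_lt.1 hn)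
    linarith
  have hdl0 : 0 < dl := by rw [hdl]; positivity
  have hdl1 : dl ≤ 1 := by rw [hdl]; exact pow_le_one₀ hδ.le hδ1
  have hθj0 : 0 < θj := by
    by_contra hn
    have := mul_nonpos_of_nonneg_of_nonpos hδ.le (not_lt.1 hn)
    linarith
  have hs10 : 0 < s1 := hθj0.trans_le hs1
  have hs10' : 0 < s1' := hθ.trans_le hs1'
  have hB : 0 < κ⁻¹ := inv_pos.2 hκ
  have hθi : 0 < θ⁻¹ := inv_pos.2 hθ
  set K : ℝ := Kp M A Y Gm c3 with hK
  set K' : ℝ := Kp M A 1 Gm 1 with hK'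
  have eK : K = M * A * Y * c3 * Gm := rfl
  have eK' : K' = M * A * Gm := by rw [hK']; unfold Kp; ring
  have hK1 : 1 ≤ K := by
    rw [eK]
    exact one_le_mul_of_one_le_of_one_le (one_le_mul_of_one_le_of_one_le
      (one_le_mul_of_one_le_of_one_le (one_le_mul_of_one_le_of_one_le hM hA) hY) hc3) hGm
  have hK0 : 0 < K := by linarith
  have hK0' : 0 < K' := by rw [eK']; positivity
  set v : ℝ := v0 r θ⁻¹ κ⁻¹ with hv
  have hv0 : 0 < v := v0_pos hr hθi hB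
  have hθθ : θ⁻¹ * θ⁻¹ = r := by
    field_simp
    linarith
  have hv1 : r ^ 2 * κ⁻¹ ≤ v := by
    have h := v0_ge hr.le hθi.le hB.le
    rw [hθθ] at h
    have h2 : 0 < r ^ 2 * κ⁻¹ := by positivity
    have e : 4 * (r * κ⁻¹ * r) = 4 * (r ^ 2 * κ⁻¹) := by ring
    rw [e] at h
    linarith
  have hs2q : 0 < s2 ^ q := Real.rpow_pos_of_pos hs2 _
  have hs2q' : 0 < s2' ^ q := Real.rpow_pos_of_pos hs2' _
  have hθq : 0 < θ ^ q := Real.rpow_pos_of_pos hθ _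
  set φ : ℝ := 448 * K * θj / δ with hφ
  set x : ℝ := 896 * K / dl with hx
  have hx0 : 0 < x := by positivity
  have hx1 : 1 ≤ x := by
    rw [hx, le_div_iff₀ hdl0]
    linarith
  have h2φ : 2 * φ = x * θ := by
    rw [hφ, hx, hθj, hdl]
    field_simp
    ring
  -- the Cordoba constant
  set k2 : ℝ := 4 * 124420096 * cq with hk2
  have hk20 : 0 < k2 := by positivity
  have hK0c : K0c r θ⁻¹ κ⁻¹ φ q (124420096 * D) ≤ k2 * D * κ⁻¹ * r * x ^ 2 * θ ^ q := by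
    unfold K0c
    rw [h2φ, Real.mul_rpow hx0.le hθ.le, ← hcq]
    have e1 : θ⁻¹ / r = θ := by
      field_simp
      linarith
    rw [e1]
    have e2 : x ^ q ≤ x := by
      calc x ^ q ≤ x ^ (1:ℝ) := Real.rpow_le_rpow_of_exponent_le hx1 hq1
        _ = x := Real.rpow_one x
    have e3 : θ * θ * r = 1 := by rw [← pow_two]; exact hθr
    calc 4 * θ * (124420096 * D * (x * θ) * (κ⁻¹ * r ^ 2)) * (x ^ q * θ ^ q) * cq
        = (k2 * D * κ⁻¹ * r * x * (θ * θ * r) * θ ^ q) * x ^ q := by rw [hk2]; ring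
      _ ≤ (k2 * D * κ⁻¹ * r * x * (θ * θ * r) * θ ^ q) * x := by
          refine mul_le_mul_of_nonneg_left e2 ?_
          positivity
      _ = _ := by rw [e3]; ring
  have hK0c0 : 0 ≤ K0c r θ⁻¹ κ⁻¹ φ q (124420096 * D) := by
    have hφ0 : 0 < φ := by positivity
    exact (Mc330.K0c_pos hr hθi hB hφ0 hq (by positivity)).le
  set MX : ℝ := c0 * (D * s2' ^ q * (s1' * s2' * T' * r ^ 3)) with hMX
  set MZ : ℝ := dl ^ 10 * (D * s2 ^ q * (s1 * s2 * T * (dl * r) ^ 3)) with hMZ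
  set VX : ℝ := 512 * (10 * A ^ 2 * 1) ^ 3 * ((30 * K' * θ * r) * (s2' * r) * (T' * r) * r) with hVX
  set VZ : ℝ := 512 * (10 * A ^ 2 * Y) ^ 3 * ((30 * K * θj * r) * (s2 * r) * (T * r) * r) with hVZ
  have hMX0 : 0 < MX := by positivity
  have hMZ0 : 0 < MZ := by positivity
  have hVX0 : 0 < VX := by positivity
  have hVZ0 : 0 < VZ := by positivity
  have ha : VZ / MZ ≤ c1 * Y ^ 3 * K * r / (dl ^ 13 * D * s2 ^ q) := by
    rw [div_le_div_iff₀ hMZ0 (by positivity)]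
    have e1 : VZ * (dl ^ 13 * D * s2 ^ q) =
        (c1 * Y ^ 3 * K * s2 * T * r ^ 4 * (dl ^ 13 * D * s2 ^ q)) * θj := by
      rw [hVZ, hc1]; ring
    have e2 : c1 * Y ^ 3 * K * r * MZ =
        (c1 * Y ^ 3 * K * s2 * T * r ^ 4 * (dl ^ 13 * D * s2 ^ q)) * s1 := by
      rw [hMZ]; ring
    rw [e1, e2]
    exact mul_le_mul_of_nonneg_left hs1 (by positivity)
  have hb : VX / MX ≤ c1 * K' * r / (c0 * D * s2' ^ q) := by
    rw [div_le_div_iff₀ hMX0 (by positivity)]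
    have e1 : VX * (c0 * D * s2' ^ q) =
        (c1 * K' * s2' * T' * r ^ 4 * (c0 * D * s2' ^ q)) * θ := by
      rw [hVX, hc1]; ring
    have e2 : c1 * K' * r * MX =
        (c1 * K' * s2' * T' * r ^ 4 * (c0 * D * s2' ^ q)) * s1' := by
      rw [hMX]; ring
    rw [e1, e2]
    exact mul_le_mul_of_nonneg_left hs1' (by positivity)
  set X : ℝ := tt r θ⁻¹ κ⁻¹ φ q (124420096 * D) MX MZ VX VZ (dl ^ 11) with hX
  have hXi : X⁻¹ ≤ 4608 * (k2 * D * κ⁻¹ * r * x ^ 2 * θ ^ q) *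
      (c1 * Y ^ 3 * K * r / (dl ^ 13 * D * s2 ^ q)) * (c1 * K' * r / (c0 * D * s2' ^ q)) /
        (dl ^ 11 * v ^ 2) := by
    rw [hX, tt_inv]
    have h1 : 0 ≤ VZ / MZ := by positivity
    have h2 : 0 ≤ VX / MX := by positivity
    have h3 : 0 ≤ c1 * Y ^ 3 * K * r / (dl ^ 13 * D * s2 ^ q) := by positivity
    have h4 : 0 ≤ k2 * D * κ⁻¹ * r * x ^ 2 * θ ^ q := by positivity
    gcongr
  have hX0 : 0 ≤ X := by
    have h1 : 0 ≤ X⁻¹ := by
      rw [hX, tt_inv]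
      positivity
    exact inv_nonneg.1 h1
  -- the ratio of the sides
  set sm : ℝ := max s2 s2' with hsmx
  have hsm0 : 0 < sm := lt_max_of_lt_left hs2
  have hsmq : 0 < sm ^ q := Real.rpow_pos_of_pos hsm0 _
  set Gx : ℝ := 60 / q + 10 with hGx
  have hdG : (dl ^ Gx) ^ q ≤ dl ^ 50 := by
    rw [← Real.rpow_mul hdl0.le, ← Real.rpow_natCast dl 50]
    refine Real.rpow_le_rpow_of_exponent_ge hdl0 hdl1 ?_
    rw [hGx, add_mul, div_mul_cancel₀ _ hq.ne']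
    push_cast
    linarith
  have hside : θ ^ q * sm ^ q ≤ dl ^ 50 * (s2 ^ q * s2' ^ q) := by
    have h1 : θ ^ q ≤ dl ^ 50 * s2 ^ q := by
      calc θ ^ q ≤ (dl ^ Gx * s2) ^ q := Real.rpow_le_rpow hθ.le hsm hq.le
        _ = (dl ^ Gx) ^ q * s2 ^ q := Real.mul_rpow (Real.rpow_nonneg hdl0.le _) hs2.le
        _ ≤ _ := mul_le_mul_of_nonneg_right hdG hs2q.le
    have h2 : θ ^ q ≤ dl ^ 50 * s2' ^ q := by
      calc θ ^ q ≤ (dl ^ Gx * s2') ^ q := Real.rpow_le_rpow hθ.le hsm' hq.le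
        _ = (dl ^ Gx) ^ q * s2' ^ q := Real.mul_rpow (Real.rpow_nonneg hdl0.le _) hs2'.le
        _ ≤ _ := mul_le_mul_of_nonneg_right hdG hs2q'.le
    rcases le_total s2 s2' with h3 | h3
    · rw [hsmx, max_eq_right h3]
      calc θ ^ q * s2' ^ q ≤ (dl ^ 50 * s2 ^ q) * s2' ^ q :=
            mul_le_mul_of_nonneg_right h1 hs2q'.le
        _ = _ := by ring
    · rw [hsmx, max_eq_left h3]
      calc θ ^ q * s2 ^ q ≤ (dl ^ 50 * s2' ^ q) * s2 ^ q :=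
            mul_le_mul_of_nonneg_right h2 hs2q.le
        _ = _ := by ring
  have hrε : 0 < r ^ ε := Real.rpow_pos_of_pos hr _
  have hsD := Real.sqrt_nonneg D
  have hYc : (0:ℝ) ≤ (Y / c0) ^ (3 : ℝ) := Real.rpow_nonneg (by positivity) _
  have hGc : (0:ℝ) ≤ Gm ^ (3 : ℝ) := Real.rpow_nonneg (by linarith) _
  have hL0 : 0 ≤ X ^ (-(1/2) : ℝ) *
      ((r * κ⁻¹) ^ (3/2 : ℝ) * (C1 * r ^ ε * sm ^ (q / 2) * Real.sqrt D * r)) := by
    have h1 := Real.rpow_nonneg hX0 (-(1/2) : ℝ)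
    have h2 : 0 ≤ (r * κ⁻¹) ^ (3/2 : ℝ) := Real.rpow_nonneg (by positivity) _
    have h3 : 0 ≤ sm ^ (q / 2) := Real.rpow_nonneg hsm0.le _
    positivity
  have hR0 : 0 ≤ Real.sqrt KK * r ^ ε * (Y / c0) ^ (3:ℝ) * Gm ^ (3:ℝ) * dl ^ 12 * v := by
    positivity
  refine (pow_le_pow_iff_left₀ hL0 hR0 two_ne_zero).1 ?_
  -- the squares
  have q1 : (X ^ (-(1/2) : ℝ)) ^ 2 = X⁻¹ := by
    rw [← Real.rpow_natCast, ← Real.rpow_mul hX0]
    norm_num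
    exact Real.rpow_neg_one X
  have q2 : ((r * κ⁻¹) ^ (3/2 : ℝ)) ^ 2 = (r * κ⁻¹) ^ 3 := by
    rw [← Real.rpow_natCast, ← Real.rpow_mul (by positivity), ← Real.rpow_natCast]
    norm_num
  have q3 : (sm ^ (q / 2)) ^ 2 = sm ^ q := by
    rw [← Real.rpow_natCast, ← Real.rpow_mul hsm0.le]
    congr 1
    push_cast
    ring
  have q4 : Real.sqrt D ^ 2 = D := Real.sq_sqrt hD.le
  have q5 : Real.sqrt KK ^ 2 = KK := Real.sq_sqrt hKK0
  have q6 : (Y / c0) ^ (3:ℝ) = (Y / c0) ^ 3 := by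
    rw [← Real.rpow_natCast]; norm_num
  have q7 : Gm ^ (3:ℝ) = Gm ^ 3 := by
    rw [← Real.rpow_natCast]; norm_num
  have eL : (X ^ (-(1/2) : ℝ) *
      ((r * κ⁻¹) ^ (3/2 : ℝ) * (C1 * r ^ ε * sm ^ (q / 2) * Real.sqrt D * r))) ^ 2 =
      X⁻¹ * ((r * κ⁻¹) ^ 3 * (C1 ^ 2 * (r ^ ε) ^ 2 * sm ^ q * D * r ^ 2)) := by
    calc _ = (X ^ (-(1/2) : ℝ)) ^ 2 * (((r * κ⁻¹) ^ (3/2 : ℝ)) ^ 2 *
          (C1 ^ 2 * (r ^ ε) ^ 2 * (sm ^ (q / 2)) ^ 2 * (Real.sqrt D) ^ 2 * r ^ 2)) := by ring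
      _ = _ := by rw [q1, q2, q3, q4]
  have eR : (Real.sqrt KK * r ^ ε * (Y / c0) ^ (3:ℝ) * Gm ^ (3:ℝ) * dl ^ 12 * v) ^ 2 =
      KK * (r ^ ε) ^ 2 * ((Y / c0) ^ 3) ^ 2 * (Gm ^ 3) ^ 2 * dl ^ 24 * v ^ 2 := by
    rw [q6, q7]
    calc _ = (Real.sqrt KK) ^ 2 * (r ^ ε) ^ 2 * ((Y / c0) ^ 3) ^ 2 * (Gm ^ 3) ^ 2 * dl ^ 24 *
          v ^ 2 := by ring
      _ = _ := by rw [q5]
  rw [eL, eR]
  have hW0 : 0 ≤ (r * κ⁻¹) ^ 3 * (C1 ^ 2 * (r ^ ε) ^ 2 * sm ^ q * D * r ^ 2) := by positivity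
  refine (mul_le_mul_of_nonneg_right hXi hW0).trans ?_
  have hratio : θ ^ q * sm ^ q / (s2 ^ q * s2' ^ q) ≤ dl ^ 50 := by
    rw [div_le_iff₀ (by positivity)]
    exact hside
  have hvr : (r ^ 2 * κ⁻¹) ^ 4 / v ^ 2 ≤ v ^ 2 := by
    rw [div_le_iff₀ (by positivity)]
    calc (r ^ 2 * κ⁻¹) ^ 4 ≤ v ^ 4 := pow_le_pow_left₀ (by positivity) hv1 4
      _ = v ^ 2 * v ^ 2 := by ring
  have eB : 4608 * (k2 * D * κ⁻¹ * r * x ^ 2 * θ ^ q) *
      (c1 * Y ^ 3 * K * r / (dl ^ 13 * D * s2 ^ q)) * (c1 * K' * r / (c0 * D * s2' ^ q)) /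
        (dl ^ 11 * v ^ 2) * ((r * κ⁻¹) ^ 3 * (C1 ^ 2 * (r ^ ε) ^ 2 * sm ^ q * D * r ^ 2)) =
      (4608 * k2 * c1 ^ 2 * C1 ^ 2 * Y ^ 3 * K * K' * x ^ 2 * (r ^ ε) ^ 2 / (dl ^ 24 * c0)) *
        ((θ ^ q * sm ^ q / (s2 ^ q * s2' ^ q)) * ((r ^ 2 * κ⁻¹) ^ 4 / v ^ 2)) := by
    field_simp
  rw [eB]
  have hC0 : 0 ≤ 4608 * k2 * c1 ^ 2 * C1 ^ 2 * Y ^ 3 * K * K' * x ^ 2 * (r ^ ε) ^ 2 /
      (dl ^ 24 * c0) := by positivity
  refine (mul_le_mul_of_nonneg_left (mul_le_mul hratio hvr (by positivity) (by positivity))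
    hC0).trans ?_
  have eD : 4608 * k2 * c1 ^ 2 * C1 ^ 2 * Y ^ 3 * K * K' * x ^ 2 * (r ^ ε) ^ 2 /
      (dl ^ 24 * c0) * (dl ^ 50 * v ^ 2) =
      (KK * (r ^ ε) ^ 2 * dl ^ 24 * v ^ 2) * (Y ^ 6 / c0 * Gm ^ 4) := by
    rw [hx, hKK, eK, eK']
    field_simp
  rw [eD]
  have e1 : Y ^ 6 / c0 ≤ ((Y / c0) ^ 3) ^ 2 := by
    rw [← pow_mul, div_pow]
    have h1 : c0 ^ 6 ≤ c0 := by
      calc c0 ^ 6 ≤ c0 ^ 1 := pow_le_pow_of_le_one hc0.le hc01 (by norm_num)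
        _ = c0 := pow_one c0
    exact div_le_div_of_nonneg_left (by positivity) (by positivity) h1
  have e2 : Gm ^ 4 ≤ (Gm ^ 3) ^ 2 := by
    rw [← pow_mul]
    exact pow_le_pow_right₀ hGm (by norm_num)
  calc (KK * (r ^ ε) ^ 2 * dl ^ 24 * v ^ 2) * (Y ^ 6 / c0 * Gm ^ 4) ≤
        (KK * (r ^ ε) ^ 2 * dl ^ 24 * v ^ 2) * (((Y / c0) ^ 3) ^ 2 * (Gm ^ 3) ^ 2) := by
        refine mul_le_mul_of_nonneg_left (mul_le_mul e1 e2 (by positivity) (by positivity)) ?_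
        positivity
    _ = _ := by ring

end Crest.Agent.R116.MwN748
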