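import Crest.Agent.R136.Gr2_356
import Crest.Agent.R138.MK6_877
import Crest.Agent.R116.EvL4_504
import Crest.Agent.R116.WinU_954
import Crest.Agent.R136.NSt1_107

-- ▼ part R116/Nar3a_863
section

/-!
# R116, [NARROW] (helper863), part 1: strips of a fan, uniform constant

`AddP` : additivity of two slots at one height along the small boxes `pC t` (the slots need not be
additive in the whole class: a live flag only tilts the strip).
`fan_strip` : 366's lemma with `AddP` in place of `AddC` and with one constant for all widths.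
-/

set_option autoImplicit false
set_option linter.unusedVariables false
set_option linter.unusedSectionVars false

open Filter Topology Finset

namespace Crest.Agent.R116.Nar863

open Crest.Agent.R138.Ex926 (Base U)
open Crest.Agent.R136.Gf356

variable {κ : Type} {B : Base} {G : ℕ → RCfg κ} {Leg : Set (κ → ℝ)} {ν : (κ → ℝ) → ℝ}
  {σ R D : ℝ}

open Classical in
/-- **no heavy strips** of the pair of slots `(cA, cB)` in the boxes `p0`, rate `q` (366) -/
def NoStr (B : Base) (G : ℕ → RCfg κ) (p0 : κ → ℝ) (cA cB : κ) (ν : (κ → ℝ) → ℝ) (q R0 : ℝ) :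
    Prop :=
  ∃ K : ℝ, 0 ≤ K ∧ ∀ t : ℝ, 0 < t → t ≤ R0 → ∀ ε : ℝ, 0 < ε → ∀ᶠ n in (U : Filter ℕ),
    ∀ i k, (i, k) ∈ (G n).I → ∀ b : Fin 2 → ℝ, b 0 ^ 2 + b 1 ^ 2 = 1 →
    ((((G n).box p0 ε i k).filter fun l =>
      |b 0 * (G n).rel k i l cA + b 1 * (G n).rel k i l cB| ≤ B.d n ^ (t - ε)).card : ℝ) ≤
      B.d n ^ (-(ν p0) + q * t - K * ε)

theorem unit_le {b : Fin 2 → ℝ} (h : b 0 ^ 2 + b 1 ^ 2 = 1) : |b 0| ≤ 1 ∧ |b 1| ≤ 1 := by
  constructor
  · rw [← sq_le_one_iff_abs_le_one]; nlinarith [sq_nonneg (b 1)]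
  · rw [← sq_le_one_iff_abs_le_one]; nlinarith [sq_nonneg (b 0)]

/-- a box around a centre, seen from any of its points (366) -/
theorem box_pair (H : RUnif B G Leg ν D) (p : κ → ℝ) (hp : p ∈ Leg) {ε : ℝ} (hε : 0 < ε) :
    ∀ᶠ n in (U : Filter ℕ), ∀ k i₀ i i', (i₀, k) ∈ (G n).I → i ∈ (G n).box p ε i₀ k →
      i' ∈ (G n).box p ε i₀ k → (G n).loose p (D ^ 2 * ε) k i i' := by
  have hD := H.D1
  have hD0 : 0 < D := by linarith
  filter_upwards [H.symm p hp ε hε, H.tri p hp (D * ε) (by positivity)] with n hs ht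
    k i₀ i i' h0 hi hi'
  obtain ⟨a1, a2⟩ := RCfg.mem_box.1 hi
  obtain ⟨b1, b2⟩ := RCfg.mem_box.1 hi'
  have hI := H.memSlice.1 a1
  have hI' := H.memSlice.1 b1
  have c1 := hs k i₀ i h0 hI a2
  have c2 : (G n).loose p (D * ε) k i₀ i' := H.loose_mono (fun _ => le_rfl) (by nlinarith) b2
  have c3 := ht k i i₀ i' hI h0 hI' c1 c2
  have e1 : D * (D * ε) = D ^ 2 * ε := by ring
  rwa [e1] at c3

/-- absorbing a constant and a power into a larger loss (366) -/
theorem absorb (B : Base) {n : ℕ} {K s t : ℝ} (h : K ≤ B.d n ^ (-(s - t))) :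
    K * B.d n ^ s ≤ B.d n ^ t := by
  have e : B.d n ^ t = B.d n ^ (-(s - t)) * B.d n ^ s := by
    rw [← rpow_add']; congr 1; ring
  rw [e]
  exact mul_le_mul_of_nonneg_right h (rpos B n _).le

/-- additivity of the two slots at one height when the second step is in a box `pC t`, error
`d^(t - Ca ε)` -/
def AddP (B : Base) (G : ℕ → RCfg κ) (p0 : κ → ℝ) (pC : ℝ → κ → ℝ) (cA cB : κ) (Ca R0 : ℝ) :
    Prop :=
  ∀ t : ℝ, 0 < t → t ≤ R0 → ∀ ε : ℝ, 0 < ε → ∀ᶠ n in (U : Filter ℕ), ∀ k i l m,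
    (i, k) ∈ (G n).I → (l, k) ∈ (G n).I →
    (m, k) ∈ (G n).I → (G n).loose p0 ε k i l → (G n).loose (pC t) ε k l m →
    |(G n).rel k i m cA - ((G n).rel k i l cA + (G n).rel k l m cA)| ≤ B.d n ^ (t - Ca * ε) ∧
    |(G n).rel k i m cB - ((G n).rel k i l cB + (G n).rel k l m cB)| ≤ B.d n ^ (t - Ca * ε)

open Classical in
set_option maxHeartbeats 800000 in
/-- **class strips ⊢ fan strips** : `p0` = class, `pC` = class with the two slots at `t`, `pF` = fan,
`pFC` = fan with the two slots at `t`; the number of `(cA, cB)`-cells is the same. -/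
theorem fan_strip (H : RUnif B G Leg ν D) {p0 pF : κ → ℝ} {pCf pFCf : ℝ → κ → ℝ} {cA cB : κ}
    {q R0 Ca : ℝ} (h0 : p0 ∈ Leg) (hF : pF ∈ Leg) (h0F : ∀ s, p0 s ≤ pF s) (hCa : 0 < Ca)
    (hC' : ∀ t, 0 < t → t ≤ R0 → pCf t ∈ Leg) (hFC' : ∀ t, 0 < t → t ≤ R0 → pFCf t ∈ Leg)
    (h0C' : ∀ t, 0 < t → t ≤ R0 → ∀ s, p0 s ≤ pCf t s)
    (hcA' : ∀ t, 0 < t → t ≤ R0 → t ≤ pCf t cA) (hcB' : ∀ t, 0 < t → t ≤ R0 → t ≤ pCf t cB)
    (hmax' : ∀ t, 0 < t → t ≤ R0 → ∀ s, pFCf t s ≤ max (pCf t s) (pF s))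
    (hN : NoStr B G p0 cA cB ν q R0) (hadd' : AddP B G p0 pCf cA cB Ca R0)
    (hprod' : ∀ t, 0 < t → t ≤ R0 → ν p0 - ν (pCf t) ≤ ν pF - ν (pFCf t)) :
    ∃ K : ℝ, 0 ≤ K ∧ ∀ t : ℝ, 0 < t → t ≤ R0 → ∀ ε : ℝ, 0 < ε → ∀ᶠ n in (U : Filter ℕ),
      ∀ i k, (i, k) ∈ (G n).I → ∀ b : Fin 2 → ℝ, b 0 ^ 2 + b 1 ^ 2 = 1 →
      ((((G n).box pF ε i k).filter fun l =>
        |b 0 * (G n).rel k i l cA + b 1 * (G n).rel k i l cB| ≤ B.d n ^ (t - ε)).card : ℝ) ≤
        B.d n ^ (-(ν pF) + q * t - K * ε) := by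
  have hD := H.D1
  have hD0 : 0 < D := by linarith
  obtain ⟨K, hK, hN⟩ := hN
  -- constants
  set C : ℝ := D ^ 2 + Ca * D + Ca + 4 with hCdef
  have hC0 : 0 < C := by positivity
  refine ⟨K * C + D * (D ^ 5 + D ^ 2) + 1, by positivity, fun t ht0 htR ε hε => ?_⟩
  have hC := hC' t ht0 htR
  have hFC := hFC' t ht0 htR
  have h0C := h0C' t ht0 htR
  have hcA := hcA' t ht0 htR
  have hcB := hcB' t ht0 htR
  have hmax := hmax' t ht0 htR
  have hadd := hadd' t ht0 htR
  have hprod := hprod' t ht0 htR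
  set pC := pCf t with hpC
  set pFC := pFCf t with hpFC
  have ht : 0 ≤ t := ht0.le
  have hCε : 0 < C * ε := by positivity
  have hDε : 0 < D * ε := by positivity
  filter_upwards [hN t ht0 htR (C * ε) hCε, H.exists_lab pC hC hε, hadd (D * ε) hDε,
    H.tri p0 h0 (D * ε) hDε, box_pair H pF hF hε, H.up pFC hFC ((D ^ 5 + D ^ 2) * ε) (by positivity),
    ev_const_le B hε 5] with n hNn hlab haddn htri hpair hup h5 i k hik b hb
  have hpow : ∀ t : ℝ, 0 < B.d n ^ t := fun t => rpos B n t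
  set S := ((G n).box pF ε i k).filter fun l =>
    |b 0 * (G n).rel k i l cA + b 1 * (G n).rel k i l cB| ≤ B.d n ^ (t - ε) with hS
  set P := ((G n).box p0 (C * ε) i k).filter fun l =>
    |b 0 * (G n).rel k i l cA + b 1 * (G n).rel k i l cB| ≤ B.d n ^ (t - C * ε) with hP
  have hSI : ∀ l ∈ S, (l, k) ∈ (G n).I ∧ (G n).loose pF ε k i l ∧
      |b 0 * (G n).rel k i l cA + b 1 * (G n).rel k i l cB| ≤ B.d n ^ (t - ε) := by
    intro l hl
    rw [hS, mem_filter, RCfg.mem_box] at hl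
    exact ⟨H.memSlice.1 hl.1.1, hl.1.2, hl.2⟩
  obtain ⟨hb0, hb1⟩ := unit_le hb
  have hεD : ε ≤ D * ε := by nlinarith
  have hWP : ∀ l ∈ S, (G n).box pC ε l k ⊆ P := by
    intro l hl m hm
    obtain ⟨hlI, hl1, hl2⟩ := hSI l hl
    obtain ⟨hm1, hm2⟩ := RCfg.mem_box.1 hm
    have hmI := H.memSlice.1 hm1
    have a1 : (G n).loose p0 (D * ε) k i l := H.loose_mono h0F hεD hl1
    have a2 : (G n).loose p0 (D * ε) k l m := H.loose_mono h0C hεD hm2
    have a3 := htri k i l m hik hlI hmI a1 a2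
    obtain ⟨a4, a5⟩ := haddn k i l m hik hlI hmI a1
      (H.loose_mono (fun _ => le_rfl) hεD hm2)
    rw [hP, mem_filter, RCfg.mem_box]
    refine ⟨⟨hm1, H.loose_mono (fun _ => le_rfl) ?_ a3⟩, ?_⟩
    · have e1 : D * (D * ε) = D ^ 2 * ε := by ring
      rw [e1, hCdef]
      have : 0 ≤ (Ca * D + Ca + 4) * ε := by positivity
      nlinarith
    · have cA' := hm2 cA
      have cB' := hm2 cB
      rw [H.base n] at cA' cB'
      set e := B.d n ^ (t - (Ca * D + 1) * ε) with he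
      have he0 : 0 < e := hpow _
      have k1 : B.d n ^ (pC cA - ε) ≤ e := rpow_anti B n (by
        have : 0 ≤ Ca * D * ε := by positivity
        nlinarith)
      have k2 : B.d n ^ (pC cB - ε) ≤ e := rpow_anti B n (by
        have : 0 ≤ Ca * D * ε := by positivity
        nlinarith)
      have k3 : B.d n ^ (t - Ca * (D * ε)) ≤ e := rpow_anti B n (by nlinarith)
      have k4 : B.d n ^ (t - ε) ≤ e := rpow_anti B n (by
        have : 0 ≤ Ca * D * ε := by positivity
        nlinarith)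
      have m1 : |b 0 * (G n).rel k i m cA + b 1 * (G n).rel k i m cB| ≤ 5 * e := by
        have e1 : b 0 * (G n).rel k i m cA + b 1 * (G n).rel k i m cB =
            (b 0 * (G n).rel k i l cA + b 1 * (G n).rel k i l cB) +
            b 0 * (G n).rel k l m cA + b 1 * (G n).rel k l m cB +
            b 0 * ((G n).rel k i m cA - ((G n).rel k i l cA + (G n).rel k l m cA)) +
            b 1 * ((G n).rel k i m cB - ((G n).rel k i l cB + (G n).rel k l m cB)) := by ring
        have f1 : |b 0 * (G n).rel k l m cA| ≤ e := by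
          rw [abs_mul]
          calc |b 0| * |(G n).rel k l m cA| ≤ 1 * e :=
                mul_le_mul hb0 (cA'.trans k1) (abs_nonneg _) zero_le_one
            _ = e := one_mul _
        have f2 : |b 1 * (G n).rel k l m cB| ≤ e := by
          rw [abs_mul]
          calc |b 1| * |(G n).rel k l m cB| ≤ 1 * e :=
                mul_le_mul hb1 (cB'.trans k2) (abs_nonneg _) zero_le_one
            _ = e := one_mul _
        have f3 : |b 0 * ((G n).rel k i m cA - ((G n).rel k i l cA + (G n).rel k l m cA))| ≤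
            e := by
          rw [abs_mul]
          calc |b 0| * _ ≤ 1 * e :=
                mul_le_mul hb0 (a4.trans k3) (abs_nonneg _) zero_le_one
            _ = e := one_mul _
        have f4 : |b 1 * ((G n).rel k i m cB - ((G n).rel k i l cB + (G n).rel k l m cB))| ≤
            e := by
          rw [abs_mul]
          calc |b 1| * _ ≤ 1 * e :=
                mul_le_mul hb1 (a5.trans k3) (abs_nonneg _) zero_le_one
            _ = e := one_mul _
        have f0 := hl2.trans k4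
        rw [e1]
        have n0 := abs_le.1 f0
        have n1 := abs_le.1 f1
        have n2 := abs_le.1 f2
        have n3 := abs_le.1 f3
        have n4 := abs_le.1 f4
        rw [abs_le]
        constructor <;> linarith [n0.1, n0.2, n1.1, n1.2, n2.1, n2.2, n3.1, n3.2, n4.1, n4.2]
      refine m1.trans (absorb B ?_)
      refine h5.trans (rpow_anti B n ?_)
      rw [hCdef]
      have : 0 ≤ (D ^ 2 + Ca + 2) * ε := by positivity
      nlinarith
  have hSsl : S ⊆ (G n).slice k := fun l hl => H.memSlice.2 (hSI l hl).1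
  obtain ⟨lab, hlab1, hlab2⟩ := hlab k S hSsl P hWP
  have hPc := hNn i k hik b hb
  -- fibres of the labels
  have hfib : ∀ c ∈ S.image lab, ((S.filter fun l => lab l = c).card : ℝ) ≤
      B.d n ^ (-ν pFC - D * ((D ^ 5 + D ^ 2) * ε)) := by
    intro c hc
    obtain ⟨l0, hl0, rfl⟩ := mem_image.1 hc
    refine le_trans ?_ (hup l0 k (hSI l0 hl0).1)
    refine mod_cast card_le_card ?_
    intro l hl
    rw [mem_filter] at hl
    obtain ⟨hlS, hll⟩ := hl
    refine RCfg.mem_box.2 ⟨hSsl hlS, ?_⟩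
    have a1 := hlab1 l0 hl0 l hlS hll.symm
    have a2 : (G n).loose pF (D ^ 2 * ε) k l0 l := hpair k i l0 l hik
      (RCfg.mem_box.2 ⟨hSsl hl0, (hSI l0 hl0).2.1⟩) (RCfg.mem_box.2 ⟨hSsl hlS, (hSI l hlS).2.1⟩)
    intro s
    have hms := hmax s
    have hp5 : 0 ≤ D ^ 5 * ε := by positivity
    have hp2 : 0 ≤ D ^ 2 * ε := by positivity
    have hsum : (D ^ 5 + D ^ 2) * ε = D ^ 5 * ε + D ^ 2 * ε := by ring
    have b2 := a2 s
    have b1 := a1 s
    rw [H.base n] at b1 b2 ⊢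
    rcases le_total (pC s) (pF s) with h | h
    · rw [max_eq_right h] at hms
      exact b2.trans (rpow_anti B n (by linarith))
    · rw [max_eq_left h] at hms
      exact b1.trans (rpow_anti B n (by linarith))
  have hcount : (S.card : ℝ) ≤ ((S.image lab).card : ℝ) *
      B.d n ^ (-ν pFC - D * ((D ^ 5 + D ^ 2) * ε)) := by
    have e1 : (S.card : ℝ) = ∑ c ∈ S.image lab, ((S.filter fun l => lab l = c).card : ℝ) := by
      have := card_eq_sum_card_image lab S
      exact_mod_cast this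
    rw [e1, ← nsmul_eq_mul, ← sum_const]
    exact sum_le_sum hfib
  calc (S.card : ℝ) ≤ ((S.image lab).card : ℝ) * B.d n ^ (-ν pFC - D * ((D ^ 5 + D ^ 2) * ε)) :=
        hcount
    _ ≤ ((P.card : ℝ) * B.d n ^ (ν pC - ε)) * B.d n ^ (-ν pFC - D * ((D ^ 5 + D ^ 2) * ε)) :=
        mul_le_mul_of_nonneg_right hlab2 (hpow _).le
    _ ≤ (B.d n ^ (-(ν p0) + q * t - K * (C * ε)) * B.d n ^ (ν pC - ε)) *
          B.d n ^ (-ν pFC - D * ((D ^ 5 + D ^ 2) * ε)) := by
        refine mul_le_mul_of_nonneg_right ?_ (hpow _).le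
        exact mul_le_mul_of_nonneg_right hPc (hpow _).le
    _ = B.d n ^ (-(ν p0) + ν pC - ν pFC + q * t -
          (K * C + D * (D ^ 5 + D ^ 2) + 1) * ε) := by
        rw [← rpow_add', ← rpow_add']; congr 1; ring
    _ ≤ _ := rpow_anti B n (by linarith)

end Crest.Agent.R116.Nar863
end

-- ▼ part R116/BcA_863
section

/-!
# R116, K-TEXT II-c (A1), finite core (helper863)

Trilinear Kakeya in `R^3` for a shaded uniform family of lines with non-narrow fans.
`S` = lines `(A + s V, s)`, `Z` = heights `φ k`, `al` = alive, `(a, b)` = coordinates at height `k`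
up to a shift `c k` and an error `r w`; `K` = number of cells of side `w` at every height; every
line is alive at a `lam`-part of the heights; an interval of length `w` has at most an `η`-part of
the heights.  If no strip of half-width `ν` in velocity space carries more than half of the lines
of a popular cell, then `lam ^ 3 ≤ C η r^3 ν^{-26} R^ε √K`.
-/

set_option autoImplicit false
set_option linter.unusedVariables false

namespace Crest.Agent.R116.Bc863

open Finset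
open Crest.Agent.R138.MK877 (nonnarrow_kakeya Near pt dir InStrip)

/-- the lines of `S` alive at `k` in the cell `q` -/
noncomputable def fib {ι : Type} (S : Finset ι) (al : ι → ℕ → Prop) (a b : ι → ℕ → ℝ) (w : ℝ)
    (k : ℕ) (q : ℤ × ℤ) : Finset ι :=
  haveI := Classical.propDecidable
  S.filter fun i => al i k ∧ (⌊a i k / w⌋, ⌊b i k / w⌋) = q

/-- the lines of `S` alive at `k` -/
noncomputable def alv {ι : Type} (S : Finset ι) (al : ι → ℕ → Prop) (k : ℕ) : Finset ι :=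
  haveI := Classical.propDecidable
  S.filter fun i => al i k

/-- the cells met at `k` -/
noncomputable def cls {ι : Type} (S : Finset ι) (al : ι → ℕ → Prop) (a b : ι → ℕ → ℝ) (w : ℝ)
    (k : ℕ) : Finset (ℤ × ℤ) :=
  (alv S al k).image fun i => (⌊a i k / w⌋, ⌊b i k / w⌋)

theorem mem_fib {ι : Type} {S : Finset ι} {al : ι → ℕ → Prop} {a b : ι → ℕ → ℝ} {w : ℝ}
    {k : ℕ} {q : ℤ × ℤ} {i : ι} : i ∈ fib S al a b w k q ↔
      i ∈ S ∧ al i k ∧ (⌊a i k / w⌋, ⌊b i k / w⌋) = q := by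
  unfold fib
  simp

theorem sum_fib {ι : Type} (S : Finset ι) (al : ι → ℕ → Prop) (a b : ι → ℕ → ℝ) (w : ℝ) (k : ℕ) :
    ∑ q ∈ cls S al a b w k, (fib S al a b w k q).card = (alv S al k).card := by
  classical
  rw [Finset.card_eq_sum_card_image (fun i => ((⌊a i k / w⌋, ⌊b i k / w⌋) : ℤ × ℤ)) (alv S al k)]
  refine Finset.sum_congr rfl fun q _ => ?_
  congr 1
  unfold fib alv
  ext i
  simp only [Finset.mem_filter]
  tauto

/-- **finite core of (A1)** -/
theorem core (ε : ℝ) (hε : 0 < ε) : ∃ C : ℝ, 0 < C ∧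
    ∀ {ι : Type} (S : Finset ι) (Z : Finset ℕ) (φ : ℕ → ℝ) (al : ι → ℕ → Prop)
      (a b : ι → ℕ → ℝ) (A V : ι → ℝ × ℝ) (c : ℕ → ℝ × ℝ) (w r R K lam η ν M : ℝ),
      0 < w → 1 ≤ r → 1 ≤ R → 0 < K → 0 < lam → lam ≤ 1 → 0 < η → 0 < ν → ν ≤ 1 →
      2 * M / w + r + 2 ≤ R → S.Nonempty → Z.Nonempty →
      (∀ i ∈ S, |(V i).1| ≤ 1 ∧ |(V i).2| ≤ 1) →
      (∀ i ∈ S, |(A i).1| ≤ M ∧ |(A i).2| ≤ M) → (∀ k ∈ Z, |φ k| ≤ M) →
      (∀ k ∈ Z, ∀ i ∈ S, al i k → |a i k - ((A i).1 + φ k * (V i).1 + (c k).1)| ≤ r * w ∧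
        |b i k - ((A i).2 + φ k * (V i).2 + (c k).2)| ≤ r * w) →
      (∀ k ∈ Z, ((cls S al a b w k).card : ℝ) ≤ K) →
      (∀ i ∈ S, lam * (Z.card : ℝ) ≤
        (haveI := Classical.propDecidable; (Z.filter fun k => al i k).card : ℝ)) →
      (∀ k ∈ Z, ((Z.filter fun k' => |φ k' - φ k| ≤ w).card : ℝ) ≤ η * Z.card) →
      (∀ k ∈ Z, ∀ i ∈ S, al i k →
        lam * (S.card : ℝ) / (4 * K) ≤
          ((fib S al a b w k (⌊a i k / w⌋, ⌊b i k / w⌋)).card : ℝ) →
        ∀ u n : ℝ × ℝ, n.1 ^ 2 + n.2 ^ 2 = 1 →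
          haveI := Classical.decPred fun l => InStrip ν u n (V l)
          (((fib S al a b w k (⌊a i k / w⌋, ⌊b i k / w⌋)).filter
            fun l => InStrip ν u n (V l)).card : ℝ) ≤
            ((fib S al a b w k (⌊a i k / w⌋, ⌊b i k / w⌋)).card : ℝ) / 2) →
      lam ^ 3 ≤ C * η * (r + 1) ^ 3 * (ν⁻¹) ^ 26 * R ^ ε * √K := by
  obtain ⟨C, hC, key⟩ := nonnarrow_kakeya ε hε
  refine ⟨32 * C, by positivity, ?_⟩
  intro ι S Z φ al a b A V c w r R K lam η ν M hw hr hR hK hlam hlam1 hη hν hν1 hRM hSn hZn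
    hV hA hφ hab hcell hal hfr hnn
  classical
  have hS0 : 0 < (S.card : ℝ) := by exact_mod_cast hSn.card_pos
  have hZ0 : 0 < (Z.card : ℝ) := by exact_mod_cast hZn.card_pos
  -- rich heights
  set Sk : ℕ → Finset ι := fun k => alv S al k with hSk
  have hSkle : ∀ k, ((Sk k).card : ℝ) ≤ S.card := fun k => by
    exact_mod_cast Finset.card_le_card (by
      intro i hi
      simp only [hSk, alv, Finset.mem_filter] at hi
      exact hi.1)
  have e1 : lam * (Z.card : ℝ) * S.card ≤ ∑ k ∈ Z, ((Sk k).card : ℝ) := by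
    have h1 : ∑ i ∈ S, (Z.filter fun k => al i k).card = ∑ k ∈ Z, (Sk k).card := by
      have : ∀ k, (Sk k).card = ∑ i ∈ S, if al i k then 1 else 0 := by
        intro k
        simp only [hSk, alv, Finset.card_filter]
      simp only [Finset.card_filter]
      rw [Finset.sum_comm]
      exact Finset.sum_congr rfl fun k _ => (this k).symm
    have h2 : (∑ i ∈ S, ((Z.filter fun k => al i k).card : ℝ)) = ∑ k ∈ Z, ((Sk k).card : ℝ) := by
      exact_mod_cast h1
    rw [← h2]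
    calc lam * (Z.card : ℝ) * S.card = ∑ i ∈ S, lam * (Z.card : ℝ) := by
          rw [Finset.sum_const, nsmul_eq_mul]; ring
      _ ≤ _ := Finset.sum_le_sum fun i hi => by
          have := hal i hi
          convert this
  set Z1 := Z.filter fun k => lam / 2 * (S.card : ℝ) ≤ (Sk k).card with hZ1
  have e2 : lam / 2 * (Z.card : ℝ) ≤ Z1.card := by
    have h1 : ∑ k ∈ Z, ((Sk k).card : ℝ) ≤ (Z1.card : ℝ) * S.card +
        Z.card * (lam / 2 * S.card) := by
      calc ∑ k ∈ Z, ((Sk k).card : ℝ)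
          ≤ ∑ k ∈ Z, ((if lam / 2 * (S.card : ℝ) ≤ (Sk k).card then (S.card : ℝ) else 0) +
              lam / 2 * S.card) := by
            refine Finset.sum_le_sum fun k _ => ?_
            split_ifs with h
            · have := hSkle k
              have h3 : 0 ≤ lam / 2 * (S.card : ℝ) := by positivity
              linarith
            · push Not at h
              linarith
        _ = _ := by
            rw [Finset.sum_add_distrib, Finset.sum_const, nsmul_eq_mul, ← Finset.sum_filter,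
              Finset.sum_const, nsmul_eq_mul]
    have h2 : lam / 2 * (Z.card : ℝ) * S.card ≤ (Z1.card : ℝ) * S.card := by nlinarith
    exact le_of_mul_le_mul_right h2 hS0
  -- cells of heights
  set T : Finset ℤ := Z1.image fun k => ⌊φ k / w⌋ with hT
  have e3 : lam / (2 * η) ≤ T.card := by
    have h1 : (Z1.card : ℝ) ≤ T.card * (η * Z.card) := by
      rw [Finset.card_eq_sum_card_image (fun k => ⌊φ k / w⌋) Z1]
      push_cast
      rw [← nsmul_eq_mul, ← Finset.sum_const]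
      refine Finset.sum_le_sum fun t ht => ?_
      obtain ⟨k, hk, rfl⟩ := Finset.mem_image.1 ht
      refine le_trans ?_ (hfr k (Finset.mem_filter.1 hk).1)
      exact_mod_cast Finset.card_le_card (by
        intro k' hk'
        obtain ⟨c1, c2⟩ := Finset.mem_filter.1 hk'
        refine Finset.mem_filter.2 ⟨(Finset.mem_filter.1 c1).1, ?_⟩
        have h5 := Int.abs_sub_lt_one_of_floor_eq_floor c2
        rw [← sub_div, abs_div, abs_of_pos hw, div_lt_one hw] at h5
        exact h5.le)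
    have h2 : lam / 2 * (Z.card : ℝ) ≤ T.card * η * Z.card := by
      calc _ ≤ _ := e2
        _ ≤ _ := h1
        _ = _ := by ring
    have h3 := le_of_mul_le_mul_right h2 hZ0
    rw [div_le_iff₀ (by positivity)]
    linarith
  have hrep : ∀ t : ℤ, ∃ k, t ∈ T → k ∈ Z1 ∧ ⌊φ k / w⌋ = t := by
    intro t
    by_cases ht : t ∈ T
    · obtain ⟨k, hk, hkt⟩ := Finset.mem_image.1 ht
      exact ⟨k, fun _ => ⟨hk, hkt⟩⟩
    · exact ⟨0, fun h => absurd h ht⟩
  choose rep hrep using hrep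
  -- popular cells
  set th : ℝ := lam * (S.card : ℝ) / (4 * K) with hth
  have hth0 : 0 < th := by positivity
  set P : ℕ → Finset (ℤ × ℤ) := fun k => (cls S al a b w k).filter fun q =>
    th ≤ ((fib S al a b w k q).card : ℝ) with hP
  have e4 : ∀ k ∈ Z1, lam * (S.card : ℝ) / 4 ≤ ∑ q ∈ P k, ((fib S al a b w k q).card : ℝ) := by
    intro k hk
    obtain ⟨hkZ, hkr⟩ := Finset.mem_filter.1 hk
    have h1 : ((Sk k).card : ℝ) = ∑ q ∈ cls S al a b w k, ((fib S al a b w k q).card : ℝ) := by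
      exact_mod_cast (sum_fib S al a b w k).symm
    have h2 : ∑ q ∈ cls S al a b w k, ((fib S al a b w k q).card : ℝ) ≤
        ∑ q ∈ P k, ((fib S al a b w k q).card : ℝ) + (cls S al a b w k).card * th := by
      calc _ ≤ ∑ q ∈ cls S al a b w k, ((if th ≤ ((fib S al a b w k q).card : ℝ) then
              ((fib S al a b w k q).card : ℝ) else 0) + th) := by
            refine Finset.sum_le_sum fun q _ => ?_
            split_ifs with h
            · linarith
            · push Not at h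
              linarith
        _ = _ := by
            rw [Finset.sum_add_distrib, Finset.sum_const, nsmul_eq_mul, ← Finset.sum_filter]
    have h3 : ((cls S al a b w k).card : ℝ) * th ≤ lam * (S.card : ℝ) / 4 := by
      calc _ ≤ K * th := mul_le_mul_of_nonneg_right (hcell k hkZ) hth0.le
        _ = _ := by rw [hth]; field_simp
    linarith
  -- the points
  set s1 : ℕ → ℤ := fun k => ⌊(c k).1 / w⌋ with hs1
  set s2 : ℕ → ℤ := fun k => ⌊(c k).2 / w⌋ with hs2
  set pnt : ℤ × (ℤ × ℤ) → (Fin 3 → ℤ) := fun p =>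
    ![p.2.1 - s1 (rep p.1), p.2.2 - s2 (rep p.1), p.1] with hpnt
  have hinj : Function.Injective pnt := by
    intro p p' h
    have h2 : p.1 = p'.1 := by simpa [hpnt] using congrFun h 2
    have h0 : p.2.1 = p'.2.1 := by
      have := congrFun h 0
      simp only [hpnt, Matrix.cons_val_zero] at this
      rw [h2] at this
      linarith
    have h1 : p.2.2 = p'.2.2 := by
      have := congrFun h 1
      simp only [hpnt, Matrix.cons_val_one] at this
      rw [h2] at this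
      simpa using this
    exact Prod.ext h2 (Prod.ext h0 h1)
  set X0 : Finset (ℤ × (ℤ × ℤ)) := T.biUnion fun t => (P (rep t)).image fun q => (t, q) with hX0
  set X : Finset (Fin 3 → ℤ) := X0.image pnt with hX
  set AA : (Fin 3 → ℤ) → Finset ι := fun x =>
    fib S al a b w (rep (x 2)) (x 0 + s1 (rep (x 2)), x 1 + s2 (rep (x 2))) with hAA
  have hAApnt : ∀ t q, AA (pnt (t, q)) = fib S al a b w (rep t) q := by
    intro t q
    simp [hAA, hpnt]
  have hmemX0 : ∀ t q, (t, q) ∈ X0 → t ∈ T ∧ q ∈ P (rep t) := by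
    intro t q h
    rw [hX0, Finset.mem_biUnion] at h
    obtain ⟨t', ht', h'⟩ := h
    obtain ⟨q', hq', h''⟩ := Finset.mem_image.1 h'
    obtain ⟨rfl, rfl⟩ := Prod.mk.inj h''
    exact ⟨ht', hq'⟩
  -- data of a point
  have hnear0 : ∀ t q, (t, q) ∈ X0 → ∀ l ∈ fib S al a b w (rep t) q,
      |((q.1 - s1 (rep t) : ℤ) : ℝ) - (A l).1 / w - φ (rep t) / w * (V l).1| ≤ r + 1 ∧
      |((q.2 - s2 (rep t) : ℤ) : ℝ) - (A l).2 / w - φ (rep t) / w * (V l).2| ≤ r + 1 ∧
      |(t : ℝ) - φ (rep t) / w| ≤ 1 := by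
    intro t q htq l hl
    obtain ⟨ht, hq⟩ := hmemX0 t q htq
    obtain ⟨hrk, hrt⟩ := hrep t ht
    have hkZ : rep t ∈ Z := (Finset.mem_filter.1 hrk).1
    have hl' : l ∈ S ∧ al l (rep t) ∧ (⌊a l (rep t) / w⌋, ⌊b l (rep t) / w⌋) = q := mem_fib.1 hl
    obtain ⟨hlS, hla, hlq⟩ := hl'
    obtain ⟨g1, g2⟩ := hab _ hkZ l hlS hla
    have fl : ∀ (y cc AV : ℝ), |y - (AV + cc)| ≤ r * w →
        |((⌊y / w⌋ - ⌊cc / w⌋ : ℤ) : ℝ) - AV / w| ≤ r + 1 := by
      intro y cc AV h
      have h1 : |(y - (AV + cc)) / w| ≤ r := by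
        rw [abs_div, abs_of_pos hw, div_le_iff₀ hw]; exact h
      have f1 := Int.floor_le (y / w)
      have f2 := Int.lt_floor_add_one (y / w)
      have f3 := Int.floor_le (cc / w)
      have f4 := Int.lt_floor_add_one (cc / w)
      have h2 : (y - (AV + cc)) / w = y / w - AV / w - cc / w := by ring
      rw [h2, abs_le] at h1
      push_cast
      rw [abs_le]
      constructor <;> linarith [h1.1, h1.2]
    refine ⟨?_, ?_, ?_⟩
    · have := fl (a l (rep t)) (c (rep t)).1 ((A l).1 + φ (rep t) * (V l).1) (by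
        exact g1)
      rw [← hlq]
      have e : ((A l).1 + φ (rep t) * (V l).1) / w = (A l).1 / w + φ (rep t) / w * (V l).1 := by
        ring
      rw [e] at this
      have e2 : (((⌊a l (rep t) / w⌋, ⌊b l (rep t) / w⌋) : ℤ × ℤ).1 - s1 (rep t) : ℤ) =
        ⌊a l (rep t) / w⌋ - ⌊(c (rep t)).1 / w⌋ := rfl
      rw [e2, sub_sub]
      exact this
    · have := fl (b l (rep t)) (c (rep t)).2 ((A l).2 + φ (rep t) * (V l).2) (by
        exact g2)
      rw [← hlq]
      have e : ((A l).2 + φ (rep t) * (V l).2) / w = (A l).2 / w + φ (rep t) / w * (V l).2 := by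
        ring
      rw [e] at this
      have e2 : (((⌊a l (rep t) / w⌋, ⌊b l (rep t) / w⌋) : ℤ × ℤ).2 - s2 (rep t) : ℤ) =
        ⌊b l (rep t) / w⌋ - ⌊(c (rep t)).2 / w⌋ := rfl
      rw [e2, sub_sub]
      exact this
    · have f0 : (t : ℝ) = (⌊φ (rep t) / w⌋ : ℤ) := by rw [hrt]
      have f1 := Int.floor_le (φ (rep t) / w)
      have f2 := Int.lt_floor_add_one (φ (rep t) / w)
      rw [abs_le]
      constructor <;> linarith
  have hne : ∀ t q, (t, q) ∈ X0 → (fib S al a b w (rep t) q).Nonempty := by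
    intro t q htq
    obtain ⟨ht, hq⟩ := hmemX0 t q htq
    have h1 := (Finset.mem_filter.1 hq).2
    rw [← Finset.card_pos]
    have : (0 : ℝ) < ((fib S al a b w (rep t) q).card : ℝ) := lt_of_lt_of_le hth0 h1
    exact_mod_cast this
  have hfibS : ∀ k q, ∀ l ∈ fib S al a b w k q, l ∈ S := by
    intro k q l hl
    exact (mem_fib.1 hl).1
  -- application
  have happ := key S (fun l => ![(A l).1 / w, (A l).2 / w, 0]) V (fun _ => 1)
    (fun _ _ => zero_le_one) ν (r + 1) R hν hν1 (by linarith) hR hV X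
    (by
      intro x hx i
      obtain ⟨⟨t, q⟩, htq, rfl⟩ := Finset.mem_image.1 hx
      obtain ⟨l, hl⟩ := hne t q htq
      obtain ⟨n1, n2, n3⟩ := hnear0 t q htq l hl
      obtain ⟨ht, hq⟩ := hmemX0 t q htq
      obtain ⟨hrk, hrt⟩ := hrep t ht
      have hkZ : rep t ∈ Z := (Finset.mem_filter.1 hrk).1
      have b1 := hφ _ hkZ
      have b2 := hA l (hfibS _ _ l hl)
      have b3 := hV l (hfibS _ _ l hl)
      have hM : 0 ≤ M := (abs_nonneg _).trans b1
      have hMw : 0 ≤ M / w := by positivity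
      have c1 : |φ (rep t) / w| ≤ M / w := by
        rw [abs_div, abs_of_pos hw]; exact div_le_div_of_nonneg_right b1 hw.le
      have c2 : ∀ y v z : ℝ, |y| ≤ M → |v| ≤ 1 → |z - y / w - φ (rep t) / w * v| ≤ r + 1 →
          |z| ≤ R := by
        intro y v z hy hv hz
        have c3 : |y / w| ≤ M / w := by
          rw [abs_div, abs_of_pos hw]; exact div_le_div_of_nonneg_right hy hw.le
        have c4 : |φ (rep t) / w * v| ≤ M / w := by
          rw [abs_mul]
          calc _ ≤ M / w * 1 := mul_le_mul c1 hv (abs_nonneg _) hMw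
            _ = _ := mul_one _
        have c5 : z = (z - y / w - φ (rep t) / w * v) + y / w + φ (rep t) / w * v := by ring
        have c6 : 2 * M / w = M / w + M / w := by ring
        rw [c5]
        have c7 := abs_add_le ((z - y / w - φ (rep t) / w * v) + y / w) (φ (rep t) / w * v)
        have c8 := abs_add_le (z - y / w - φ (rep t) / w * v) (y / w)
        linarith
      fin_cases i
      · exact c2 _ _ _ b2.1 b3.1 n1
      · exact c2 _ _ _ b2.2 b3.2 n2
      · show |(t : ℝ)| ≤ R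
        have c5 : (t : ℝ) = (t - φ (rep t) / w) + φ (rep t) / w := by ring
        rw [c5]
        have c7 := abs_add_le ((t : ℝ) - φ (rep t) / w) (φ (rep t) / w)
        have c6 : 2 * M / w = M / w + M / w := by ring
        linarith)
    AA
    (by
      intro x hx
      intro l hl
      exact hfibS _ _ l hl)
    (by
      intro x hx l hl
      obtain ⟨⟨t, q⟩, htq, rfl⟩ := Finset.mem_image.1 hx
      rw [hAApnt] at hl
      obtain ⟨n1, n2, n3⟩ := hnear0 t q htq l hl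
      refine ⟨φ (rep t) / w, fun i => ?_⟩
      fin_cases i
      · simpa [pt, dir, hpnt] using n1
      · simpa [pt, dir, hpnt] using n2
      · have : |(t : ℝ) - 0 - φ (rep t) / w * 1| ≤ r + 1 := by
          rw [sub_zero, mul_one]; linarith
        simpa [pt, dir, hpnt] using this)
    (by
      intro x hx u n hn
      obtain ⟨⟨t, q⟩, htq, rfl⟩ := Finset.mem_image.1 hx
      rw [hAApnt]
      obtain ⟨l, hl⟩ := hne t q htq
      obtain ⟨ht, hq⟩ := hmemX0 t q htq
      obtain ⟨hrk, hrt⟩ := hrep t ht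
      have hkZ : rep t ∈ Z := (Finset.mem_filter.1 hrk).1
      have hl' : l ∈ S ∧ al l (rep t) ∧ (⌊a l (rep t) / w⌋, ⌊b l (rep t) / w⌋) = q := mem_fib.1 hl
      obtain ⟨hlS, hla, hlq⟩ := hl'
      have h1 := hnn _ hkZ l hlS hla (by rw [hlq]; exact (Finset.mem_filter.1 hq).2) u n hn
      rw [hlq] at h1
      simp only [Finset.sum_const, nsmul_eq_mul, mul_one]
      convert h1)
  -- lower bound of the sum
  have hlow : (T.card : ℝ) * ((lam * (S.card : ℝ) / 4) * √th) ≤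
      ∑ x ∈ X, √(∑ l ∈ AA x, (1 : ℝ)) ^ 3 := by
    have h1 : ∑ x ∈ X, √(∑ l ∈ AA x, (1 : ℝ)) ^ 3 =
        ∑ p ∈ X0, √((fib S al a b w (rep p.1) p.2).card : ℝ) ^ 3 := by
      rw [hX, Finset.sum_image (fun p _ p' _ h => hinj h)]
      refine Finset.sum_congr rfl fun p _ => ?_
      have := hAApnt p.1 p.2
      rw [show pnt p = pnt (p.1, p.2) from rfl, this]
      simp
    have h2 : ∑ p ∈ X0, √((fib S al a b w (rep p.1) p.2).card : ℝ) ^ 3 =
        ∑ t ∈ T, ∑ q ∈ P (rep t), √((fib S al a b w (rep t) q).card : ℝ) ^ 3 := by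
      rw [hX0, Finset.sum_biUnion]
      · refine Finset.sum_congr rfl fun t _ => ?_
        rw [Finset.sum_image]
        intro q _ q' _ h
        exact (Prod.mk.inj h).2
      · intro t _ t' _ htt
        rw [Function.onFun, Finset.disjoint_left]
        intro p hp hp'
        obtain ⟨q, _, rfl⟩ := Finset.mem_image.1 hp
        obtain ⟨q', _, h⟩ := Finset.mem_image.1 hp'
        exact htt (Prod.mk.inj h).1.symm
    rw [h1, h2, ← nsmul_eq_mul, ← Finset.sum_const]
    refine Finset.sum_le_sum fun t ht => ?_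
    obtain ⟨hrk, hrt⟩ := hrep t ht
    have h3 := e4 (rep t) hrk
    calc lam * (S.card : ℝ) / 4 * √th
        ≤ (∑ q ∈ P (rep t), ((fib S al a b w (rep t) q).card : ℝ)) * √th :=
          mul_le_mul_of_nonneg_right h3 (Real.sqrt_nonneg _)
      _ = ∑ q ∈ P (rep t), ((fib S al a b w (rep t) q).card : ℝ) * √th := Finset.sum_mul _ _ _
      _ ≤ _ := by
          refine Finset.sum_le_sum fun q hq => ?_
          have h4 := (Finset.mem_filter.1 hq).2
          set μ := ((fib S al a b w (rep t) q).card : ℝ) with hμ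
          have hμ0 : 0 ≤ μ := Nat.cast_nonneg _
          have h5 : √th ≤ √μ := Real.sqrt_le_sqrt h4
          calc μ * √th ≤ μ * √μ := mul_le_mul_of_nonneg_left h5 hμ0
            _ = √μ ^ 3 := by
                rw [show √μ ^ 3 = (√μ * √μ) * √μ by ring, Real.mul_self_sqrt hμ0]
  have hup : √(∑ l ∈ S, (1 : ℝ)) ^ 3 = (S.card : ℝ) * √(S.card : ℝ) := by
    have : (∑ l ∈ S, (1 : ℝ)) = S.card := by simp
    rw [this, show √(S.card : ℝ) ^ 3 = (√(S.card : ℝ) * √(S.card : ℝ)) * √(S.card : ℝ) by ring,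
      Real.mul_self_sqrt hS0.le]
  rw [hup] at happ
  have hth' : √th = √lam / 2 * √(S.card : ℝ) / √K := by
    rw [hth, Real.sqrt_div (by positivity), Real.sqrt_mul hlam.le,
      Real.sqrt_mul (by norm_num : (0 : ℝ) ≤ 4), show √(4 : ℝ) = 2 by
        rw [show (4 : ℝ) = 2 ^ 2 by norm_num]; exact Real.sqrt_sq (by norm_num)]
    have : √K ≠ 0 := (Real.sqrt_pos.2 hK).ne'
    field_simp
  have hsK : 0 < √K := Real.sqrt_pos.2 hK
  have hsS : 0 < √(S.card : ℝ) := Real.sqrt_pos.2 hS0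
  set G := C * (r + 1) ^ 3 * (ν⁻¹) ^ 26 * R ^ ε with hG
  have hG0 : 0 ≤ G := by positivity
  have f1 : lam / (2 * η) * ((lam * (S.card : ℝ) / 4) * (√lam / 2 * √(S.card : ℝ) / √K)) ≤
      G * ((S.card : ℝ) * √(S.card : ℝ)) := by
    calc _ ≤ (T.card : ℝ) * ((lam * (S.card : ℝ) / 4) * √th) := by
          rw [← hth']
          exact mul_le_mul_of_nonneg_right e3 (by positivity)
      _ ≤ _ := hlow
      _ ≤ _ := happ
  have f2 : lam * lam * √lam / (16 * η * √K) * ((S.card : ℝ) * √(S.card : ℝ)) ≤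
      G * ((S.card : ℝ) * √(S.card : ℝ)) := by
    refine le_trans (le_of_eq ?_) f1
    field_simp
    ring
  have f3 := le_of_mul_le_mul_right f2 (by positivity)
  rw [div_le_iff₀ (by positivity)] at f3
  have hsl : lam ≤ √lam := by
    rw [Real.le_sqrt hlam.le hlam.le]
    nlinarith
  calc lam ^ 3 = lam * lam * lam := by ring
    _ ≤ lam * lam * √lam := mul_le_mul_of_nonneg_left hsl (by positivity)
    _ ≤ G * (16 * η * √K) := f3
    _ ≤ 2 * (G * (16 * η * √K)) := by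
        have : 0 ≤ G * (16 * η * √K) := by positivity
        linarith
    _ = _ := by rw [hG]; ring

end Crest.Agent.R116.Bc863
end

-- ▼ part R116/BcB_863
section

/-!
# R116, K-TEXT II-c (A1): `bct_R` over `RUnif` (helper863)

Two functionals `F1, F2` (positions `X_a`, `N`), velocities `V1, V2` (`C_a`, `C_b`).  If the lines
of the box `pS` through one fine cell are in no narrow strip of velocities, then
`2 τ x ≤ ν pT - ν r`, i.e. the joint codimension of the two positions is `≤ 2 s`, `τ = 1 - s`.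
-/

set_option autoImplicit false
set_option linter.unusedVariables false

open Filter Topology Finset

namespace Crest.Agent.R116.Bc863

open Crest.Agent.R138.Ex926 (Base U)
open Crest.Agent.R136.Gf356
open Crest.Agent.R138.MK877 (InStrip)

/-- shifts of the coordinates at the heights -/
theorem exists_shift {ι : Type} (S : Finset ι) (al : ι → ℕ → Prop) (Zs : Finset ℕ)
    (F : ℕ → ι → ℝ) (L : ℕ → ι → ℝ) {e : ℝ} (he : 0 ≤ e)
    (h : ∀ k ∈ Zs, ∀ i ∈ S, ∀ i' ∈ S, al i k → al i' k →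
      |F k i - F k i' - (L k i - L k i')| ≤ e) :
    ∃ c : ℕ → ℝ, ∀ k ∈ Zs, ∀ i ∈ S, al i k → |F k i - (L k i + c k)| ≤ e := by
  classical
  have : ∀ k, ∃ c : ℝ, k ∈ Zs → ∀ i ∈ S, al i k → |F k i - (L k i + c)| ≤ e := by
    intro k
    by_cases hex : ∃ i ∈ S, al i k
    · obtain ⟨j, hj, hja⟩ := hex
      refine ⟨F k j - L k j, fun hk i hi hia => ?_⟩
      have := h k hk i hi j hj hia hja
      have e1 : F k i - (L k i + (F k j - L k j)) = F k i - F k j - (L k i - L k j) := by ring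
      rw [e1]
      exact this
    · exact ⟨0, fun _ i hi hia => absurd ⟨i, hi, hia⟩ hex⟩
  choose c hc using this
  exact ⟨c, fun k hk => hc k hk⟩

variable {κ : Type} {B : Base} {G : ℕ → RCfg κ} {Leg : Set (κ → ℝ)} {ν : (κ → ℝ) → ℝ} {D : ℝ}

set_option maxHeartbeats 3200000 in
/-- **joint Kakeya on one box (A1)**: hypotheses in the style of 356's `kauf_R`, two functionals,
and `hnn` = no narrow fans. -/
theorem bct_R (H : RUnif B G Leg ν D) (i0 k0 : ℕ → ℕ)
    (h0 : ∀ᶠ n in (U : Filter ℕ), (i0 n, k0 n) ∈ (G n).I) (pS pT r : κ → ℝ)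
    (hpS : pS ∈ Leg) (hpT : pT ∈ Leg) (hr : r ∈ Leg) (hTr : ∀ j, pT j ≤ r j)
    (hST : ν pT ≤ ν pS) {x τ : ℝ} (hx : 0 < x) (hτ0 : 0 ≤ τ)
    (F1 F2 : ℕ → ℕ → ℕ → ℝ) (A1 A2 V1 V2 : ℕ → ℕ → ℝ) (φ : ℕ → ℕ → ℝ) (Zg : ℕ → Finset ℕ)
    (hZg : ∀ᶠ n in (U : Filter ℕ), (Zg n).Nonempty) {C1 : ℝ} (hC1 : 0 < C1)
    (hφ : ∀ ε : ℝ, 0 < ε → ∀ᶠ n in (U : Filter ℕ), ∀ k ∈ Zg n, |φ n k| ≤ B.d n ^ (-(C1 * ε)))
    (hV : ∀ ε : ℝ, 0 < ε → ∀ᶠ n in (U : Filter ℕ), ∀ i ∈ (G n).box pS ε (i0 n) (k0 n),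
      ∀ i' ∈ (G n).box pS ε (i0 n) (k0 n), |V1 n i - V1 n i'| ≤ B.d n ^ (-(C1 * ε)) ∧
        |V2 n i - V2 n i'| ≤ B.d n ^ (-(C1 * ε)))
    (hA : ∀ ε : ℝ, 0 < ε → ∀ᶠ n in (U : Filter ℕ), ∀ i ∈ (G n).box pS ε (i0 n) (k0 n),
      ∀ i' ∈ (G n).box pS ε (i0 n) (k0 n), |A1 n i - A1 n i'| ≤ B.d n ^ (-(C1 * ε)) ∧
        |A2 n i - A2 n i'| ≤ B.d n ^ (-(C1 * ε)))
    (hF : ∀ ε : ℝ, 0 < ε → ∀ᶠ n in (U : Filter ℕ), ∀ k ∈ Zg n,
      ∀ i ∈ (G n).box pS ε (i0 n) (k0 n), ∀ i' ∈ (G n).box pS ε (i0 n) (k0 n),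
      (i, k) ∈ (G n).I → (i', k) ∈ (G n).I →
      |F1 n k i - F1 n k i' - ((A1 n i - A1 n i') + φ n k * (V1 n i - V1 n i'))|
        ≤ B.d n ^ (x - C1 * ε) ∧
      |F2 n k i - F2 n k i' - ((A2 n i - A2 n i') + φ n k * (V2 n i - V2 n i'))|
        ≤ B.d n ^ (x - C1 * ε))
    (hlink : ∀ ε : ℝ, 0 < ε → ∀ᶠ n in (U : Filter ℕ), ∀ k ∈ Zg n,
      ∀ i ∈ (G n).box pS ε (i0 n) (k0 n), (i, k) ∈ (G n).I → ∀ l, (l, k) ∈ (G n).I →
      (G n).loose r ε k i l → |F1 n k l - F1 n k i| ≤ B.d n ^ (x - C1 * ε) ∧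
        |F2 n k l - F2 n k i| ≤ B.d n ^ (x - C1 * ε))
    (hT : ∀ ε : ℝ, 0 < ε → ∀ᶠ n in (U : Filter ℕ), ∀ k ∈ Zg n,
      ∀ i ∈ (G n).box pS ε (i0 n) (k0 n), ∀ i' ∈ (G n).box pS ε (i0 n) (k0 n),
      (i, k) ∈ (G n).I → (i', k) ∈ (G n).I → (G n).loose pT (C1 * ε) k i i')
    (hal : ∀ ε : ℝ, 0 < ε → ∀ᶠ n in (U : Filter ℕ), ∀ i ∈ (G n).box pS ε (i0 n) (k0 n),
      ∀ T ⊆ Zg n, (∀ k ∈ Zg n, (i, k) ∈ (G n).I → k ∈ T) →
      B.d n ^ (C1 * ε) * ((Zg n).card : ℝ) ≤ (T.card : ℝ))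
    {q C5 ρ0 : ℝ} (hq : 0 < q) (hC5 : 0 < C5) (hρ0 : 0 < ρ0)
    (hnn : ∀ ρ : ℝ, 0 < ρ → ρ ≤ ρ0 → ∀ ε : ℝ, 0 < ε → ε ≤ ρ → ∀ᶠ n in (U : Filter ℕ),
      ∀ k ∈ Zg n, ∀ i ∈ (G n).box pS ε (i0 n) (k0 n), (i, k) ∈ (G n).I →
      ∀ e1 e2 u : ℝ, e1 ^ 2 + e2 ^ 2 = 1 →
      ∀ T ⊆ (G n).box pS ε (i0 n) (k0 n), (∀ l ∈ T, (l, k) ∈ (G n).I ∧
        |F1 n k l - F1 n k i| ≤ B.d n ^ (x - (C1 + 1) * ε) ∧
        |F2 n k l - F2 n k i| ≤ B.d n ^ (x - (C1 + 1) * ε) ∧
        |V1 n l * e1 + V2 n l * e2 - u| ≤ B.d n ^ ρ) →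
      (T.card : ℝ) ≤ B.d n ^ (-ν r + q * ρ - C5 * ε))
    (hfr : ∀ ε : ℝ, 0 < ε → ∀ᶠ n in (U : Filter ℕ), ∀ k ∈ Zg n,
      ∀ T ⊆ Zg n, (∀ k' ∈ T, |φ n k' - φ n k| ≤ B.d n ^ x) →
      (T.card : ℝ) ≤ B.d n ^ (τ * x - ε) * ((Zg n).card : ℝ)) :
    2 * τ * x ≤ ν pT - ν r := by
  classical
  have hD := H.D1
  have hD0 : 0 < D := by linarith
  set C : ℝ := C1 + 1 with hC
  have hCpos : 0 < C := by linarith
  set E : ℝ := D * (D * C) + 1 with hE
  have hE0 : 0 < E := by positivity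
  set C6 : ℝ := (C5 + C1 + E + 3) / q + 1 with hC6
  have hC60 : 0 < C6 := by positivity
  have hC6q : q * C6 = C5 + C1 + E + 3 + q := by rw [hC6]; field_simp
  set Ctot : ℝ := 3 * C1 + 30 * (C6 + C) + x + E + 10 with hCtot
  have hCtot0 : 0 < Ctot := by positivity
  have main : τ * x - (ν pT - ν r) / 2 ≤ 0 := by
    refine le_of_ev B 0 (τ * x - (ν pT - ν r) / 2) Ctot 1 ?_
    intro ε₀ hε₀
    set ε := min ε₀ (min 1 (ρ0 / C6)) with hεdef
    have hε : 0 < ε := lt_min hε₀ (lt_min one_pos (by positivity))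
    have hε1 : ε ≤ 1 := (min_le_right _ _).trans (min_le_left _ _)
    have hερ : C6 * ε ≤ ρ0 := by
      have : ε ≤ ρ0 / C6 := (min_le_right _ _).trans (min_le_right _ _)
      rw [le_div_iff₀ hC60] at this
      linarith
    have hεε : ε ≤ ε₀ := min_le_left _ _
    have hρ : 0 < C6 * ε := by positivity
    have hC61 : 1 ≤ C6 := by
      rw [hC6]
      have : 0 ≤ (C5 + C1 + E + 3) / q := by positivity
      linarith
    obtain ⟨CK, hCK, key⟩ := core ε hε
    have hCε : 0 < C * ε := by positivity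
    filter_upwards [hZg, hφ ε hε, hV ε hε, hA ε hε, hF ε hε, hlink ε hε, hT ε hε, hal ε hε,
      hnn (C6 * ε) hρ hερ ε hε (by nlinarith), hfr ε hε, h0, H.low pS hpS ε hε, H.low r hr ε hε,
      H.sub_loose_box pT r hpT hTr hCε, H.up pT hpT (D * (C * ε)) (by positivity),
      ev_const_le B hε (CK * 2 ^ 3 * 3), ev_const_le B hε 72, ev_const_le B hε 8]
      with n hZn hφn hVn hAn hFn hlinkn hTn haln hnnn hfrn h0n hlow hlowr hsub hup hcK h72 h8
    have hpow : ∀ t : ℝ, 0 < B.d n ^ t := fun t => rpos B n t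
    have hpow1 : ∀ t : ℝ, 0 ≤ t → B.d n ^ t ≤ 1 := fun t ht =>
      Real.rpow_le_one (B.pos n).le (B.lt n).le ht
    have hpow1' : ∀ t : ℝ, t ≤ 0 → 1 ≤ B.d n ^ t := fun t ht =>
      Real.one_le_rpow_of_pos_of_le_one_of_nonpos (B.pos n) (B.lt n).le ht
    set S := (G n).box pS ε (i0 n) (k0 n) with hS
    have hSlow : B.d n ^ (-ν pS + ε) ≤ (S.card : ℝ) := hlow _ _ h0n
    have hSne : S.Nonempty := by
      rw [← Finset.card_pos]
      have : (0 : ℝ) < (S.card : ℝ) := lt_of_lt_of_le (hpow _) hSlow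
      exact_mod_cast this
    obtain ⟨j0, hj0⟩ := hSne
    set u := B.d n ^ (C * ε) with hu
    have hu0 : 0 < u := hpow _
    have hu1 : u ≤ 1 := hpow1 _ hCε.le
    set w := B.d n ^ (x - C * ε) with hw
    have hw0 : 0 < w := hpow _
    set al : ℕ → ℕ → Prop := fun i k => (i, k) ∈ (G n).I with hal_def
    set AA : ℕ → ℝ × ℝ := fun i => (A1 n i - A1 n j0, A2 n i - A2 n j0) with hAA
    set VV : ℕ → ℝ × ℝ := fun i => (u * (V1 n i - V1 n j0), u * (V2 n i - V2 n j0)) with hVV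
    set ψ : ℕ → ℝ := fun k => φ n k / u with hψ
    have hwle : B.d n ^ (x - C1 * ε) ≤ w := rpow_anti B n (by nlinarith)
    -- shifts
    obtain ⟨c1, hc1⟩ := exists_shift S al (Zg n) (fun k i => F1 n k i)
      (fun k i => (AA i).1 + ψ k * (VV i).1) hw0.le (by
        intro k hk i hi i' hi' hia hia'
        have := (hFn k hk i hi i' hi' hia hia').1
        refine le_trans (le_of_eq ?_) (this.trans hwle)
        congr 1
        simp only [hAA, hVV, hψ]
        field_simp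
        ring)
    obtain ⟨c2, hc2⟩ := exists_shift S al (Zg n) (fun k i => F2 n k i)
      (fun k i => (AA i).2 + ψ k * (VV i).2) hw0.le (by
        intro k hk i hi i' hi' hia hia'
        have := (hFn k hk i hi i' hi' hia hia').2
        refine le_trans (le_of_eq ?_) (this.trans hwle)
        congr 1
        simp only [hAA, hVV, hψ]
        field_simp
        ring)
    -- number of cells
    set K : ℝ := 9 * B.d n ^ (-(ν pT - ν r) - E * ε) with hK
    have hK0 : 0 < K := by have := hpow (-(ν pT - ν r) - E * ε); positivity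
    have hcells : ∀ k ∈ Zg n, ((cls S al (fun i k => F1 n k i) (fun i k => F2 n k i) w k).card : ℝ)
        ≤ K := by
      intro k hk
      set T := alv S al k with hTdef
      have hTm : ∀ i, i ∈ T ↔ i ∈ S ∧ (i, k) ∈ (G n).I := by
        intro i
        simp [hTdef, alv, hal_def]
      rcases T.eq_empty_or_nonempty with hTe | ⟨t0, ht0⟩
      · have : cls S al (fun i k => F1 n k i) (fun i k => F2 n k i) w k = ∅ := by
          unfold cls
          rw [← hTdef, hTe, Finset.image_empty]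
        rw [this]
        simpa using hK0.le
      obtain ⟨b1, b2⟩ := (hTm t0).1 ht0
      have key2 := cells_le_abs T ((G n).box pT (D * (C * ε)) t0 k)
        (fun i (j : Bool) => if j then F1 n k i else F2 n k i)
        (fun _ => w) (fun _ => hw0) (m0 := B.d n ^ (-ν r + ε)) (by
          intro i hi
          obtain ⟨a1, a2⟩ := (hTm i).1 hi
          have hloose : (G n).loose pT (C * ε) k t0 i :=
            H.loose_mono (fun _ => le_rfl) (by nlinarith) (hTn k hk t0 b1 i a1 b2 a2)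
          have hsub2 : (G n).box r ε i k ⊆ (G n).box r (C * ε) i k := by
            intro l hl
            obtain ⟨l1, l2⟩ := RCfg.mem_box.1 hl
            exact RCfg.mem_box.2 ⟨l1, H.loose_mono (fun _ => le_rfl) (by nlinarith) l2⟩
          refine ⟨(G n).box r ε i k, hsub2.trans (hsub k t0 i b2 a2 hloose), ?_, hlowr i k a2⟩
          intro l hl j
          obtain ⟨l1, l2⟩ := RCfg.mem_box.1 hl
          have h3 := hlinkn k hk i a1 a2 l (H.memSlice.1 l1) l2
          cases j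
          · simpa using h3.2.trans hwle
          · simpa using h3.1.trans hwle)
      simp only [Fintype.card_bool] at key2
      have e0 : (cls S al (fun i k => F1 n k i) (fun i k => F2 n k i) w k).card ≤
          (T.image fun i => fun j : Bool => ⌊(if j then F1 n k i else F2 n k i) / w⌋).card := by
        have : cls S al (fun i k => F1 n k i) (fun i k => F2 n k i) w k =
            (T.image fun i => fun j : Bool => ⌊(if j then F1 n k i else F2 n k i) / w⌋).image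
              fun c => (c true, c false) := by
          rw [Finset.image_image]
          unfold cls
          rw [← hTdef]
          refine Finset.image_congr ?_
          intro i _
          simp
        rw [this]
        exact Finset.card_image_le
      have e1 : B.d n ^ (-ν r + ε) * B.d n ^ (ν r - ε) = 1 := by
        rw [← rpow_add']
        have : -ν r + ε + (ν r - ε) = 0 := by ring
        rw [this, Real.rpow_zero]
      calc ((cls S al (fun i k => F1 n k i) (fun i k => F2 n k i) w k).card : ℝ)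
          ≤ ((T.image fun i => fun j : Bool =>
              ⌊(if j then F1 n k i else F2 n k i) / w⌋).card : ℝ) := by
            exact_mod_cast e0
        _ = ((T.image fun i => fun j : Bool =>
              ⌊(if j then F1 n k i else F2 n k i) / w⌋).card : ℝ) *
            B.d n ^ (-ν r + ε) * B.d n ^ (ν r - ε) := by rw [mul_assoc, e1, mul_one]
        _ ≤ 3 ^ 2 * (((G n).box pT (D * (C * ε)) t0 k).card : ℝ) * B.d n ^ (ν r - ε) :=
            mul_le_mul_of_nonneg_right key2 (hpow _).le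
        _ ≤ 3 ^ 2 * B.d n ^ (-ν pT - D * (D * (C * ε))) * B.d n ^ (ν r - ε) := by
            refine mul_le_mul_of_nonneg_right ?_ (hpow _).le
            exact mul_le_mul_of_nonneg_left (hup t0 k b2) (by norm_num)
        _ = _ := by
            rw [mul_assoc, ← rpow_add', hK]
            congr 1
            · norm_num
            · congr 1
              rw [hE]
              ring
    -- parameters
    set lam := B.d n ^ (C1 * ε) with hlam
    set η := B.d n ^ (τ * x - ε) with hη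
    set ν' := B.d n ^ ((C6 + C) * ε) with hν'
    set M := B.d n ^ (-((C1 + C) * ε)) with hM
    set R := B.d n ^ (-(x + (C1 + C + 1) * ε)) with hR
    have hMw : M / w = B.d n ^ (-(x + C1 * ε)) := by
      rw [hM, hw, ← Real.rpow_sub (B.pos n)]
      congr 1
      ring
    have hRM : 2 * M / w + 1 + 2 ≤ R := by
      have e1 : 2 * M / w = 2 * B.d n ^ (-(x + C1 * ε)) := by rw [mul_div_assoc, hMw]
      have e2 : 1 ≤ B.d n ^ (-(x + C1 * ε)) := hpow1' _ (by
        have : 0 ≤ C1 * ε := by positivity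
        linarith)
      have e3 : B.d n ^ (-ε) * B.d n ^ (-(x + C1 * ε)) ≤ R := by
        rw [hR, ← rpow_add']
        refine rpow_anti B n ?_
        nlinarith
      have e4 := mul_le_mul_of_nonneg_right h8 (hpow (-(x + C1 * ε))).le
      rw [e1]
      linarith
    have hres := key S (Zg n) ψ al (fun i k => F1 n k i) (fun i k => F2 n k i) AA VV
      (fun k => (c1 k, c2 k)) w 1 R K lam η ν' M hw0 le_rfl
      (hpow1' _ (by
        have : 0 ≤ (C1 + C + 1) * ε := by positivity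
        linarith)) hK0 (hpow _) (hpow1 _ (by positivity)) (hpow _) (hpow _)
      (hpow1 _ (by positivity)) hRM ⟨j0, hj0⟩ hZn
      (by
        intro i hi
        obtain ⟨v1, v2⟩ := hVn i hi j0 hj0
        have e1 : u * B.d n ^ (-(C1 * ε)) ≤ 1 := by
          rw [hu, ← rpow_add']
          refine hpow1 _ ?_
          nlinarith
        simp only [hVV]
        rw [abs_mul, abs_mul, abs_of_pos hu0]
        exact ⟨(mul_le_mul_of_nonneg_left v1 hu0.le).trans e1,
          (mul_le_mul_of_nonneg_left v2 hu0.le).trans e1⟩)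
      (by
        intro i hi
        obtain ⟨v1, v2⟩ := hAn i hi j0 hj0
        have e1 : B.d n ^ (-(C1 * ε)) ≤ M := rpow_anti B n (by nlinarith)
        exact ⟨v1.trans e1, v2.trans e1⟩)
      (by
        intro k hk
        have e1 := hφn k hk
        simp only [hψ]
        rw [abs_div, abs_of_pos hu0, div_le_iff₀ hu0, hM, hu, ← rpow_add']
        refine e1.trans (le_of_eq ?_)
        congr 1
        ring)
      (by
        intro k hk i hi hia
        rw [one_mul]
        have h1 := hc1 k hk i hi hia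
        have h2 := hc2 k hk i hi hia
        exact ⟨h1, h2⟩)
      hcells
      (by
        intro i hi
        have := haln i hi ((Zg n).filter fun k => (i, k) ∈ (G n).I) (Finset.filter_subset _ _)
          (fun k hk hI => Finset.mem_filter.2 ⟨hk, hI⟩)
        convert this)
      (by
        intro k hk
        refine hfrn k hk _ (Finset.filter_subset _ _) ?_
        intro k' hk'
        have h1 := (Finset.mem_filter.1 hk').2
        simp only [hψ] at h1
        rw [← sub_div, abs_div, abs_of_pos hu0, div_le_iff₀ hu0, hw, hu, ← rpow_add'] at h1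
        refine h1.trans (le_of_eq ?_)
        congr 1
        ring)
      (by
        intro k hk i hi hia hpop uu nn hnn2
        set Fb := fib S al (fun i k => F1 n k i) (fun i k => F2 n k i) w k
          (⌊F1 n k i / w⌋, ⌊F2 n k i / w⌋) with hFb
        have hclose : ∀ l ∈ Fb, l ∈ S ∧ (l, k) ∈ (G n).I ∧ |F1 n k l - F1 n k i| ≤ w ∧
            |F2 n k l - F2 n k i| ≤ w := by
          intro l hl
          obtain ⟨a1, a2, a3⟩ := mem_fib.1 hl
          have a4 := (Prod.mk.inj a3).1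
          have a5 := (Prod.mk.inj a3).2
          have h5 := Int.abs_sub_lt_one_of_floor_eq_floor a4
          have h6 := Int.abs_sub_lt_one_of_floor_eq_floor a5
          rw [← sub_div, abs_div, abs_of_pos hw0, div_lt_one hw0] at h5 h6
          exact ⟨a1, a2, h5.le, h6.le⟩
        have h1 := hnnn k hk i hi hia nn.1 nn.2
          (((uu.1 / u + V1 n j0) * nn.1 + (uu.2 / u + V2 n j0) * nn.2)) hnn2
          (@Finset.filter _ (fun l => InStrip ν' uu nn (VV l))
            (Classical.decPred _) Fb) (by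
              intro l hl
              exact (hclose l (Finset.mem_filter.1 hl).1).1) (by
              intro l hl
              obtain ⟨l1, l2⟩ := Finset.mem_filter.1 hl
              obtain ⟨l3, l4, l5, l6⟩ := hclose l l1
              refine ⟨l4, l5, l6, ?_⟩
              unfold InStrip at l2
              have e1 : V1 n l * nn.1 + V2 n l * nn.2 -
                  ((uu.1 / u + V1 n j0) * nn.1 + (uu.2 / u + V2 n j0) * nn.2) =
                  (((VV l).1 - uu.1) * nn.1 + ((VV l).2 - uu.2) * nn.2) / u := by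
                simp only [hVV]
                field_simp
                ring
              rw [e1, abs_div, abs_of_pos hu0, div_le_iff₀ hu0]
              refine l2.trans (le_of_eq ?_)
              rw [hν', hu, ← rpow_add']
              congr 1
              ring)
        refine h1.trans ?_
        have h2 : 2 * B.d n ^ (-ν r + q * (C6 * ε) - C5 * ε) ≤ lam * (S.card : ℝ) / (4 * K) := by
          rw [le_div_iff₀ (by positivity)]
          have e1 : lam * B.d n ^ (-ν pS + ε) ≤ lam * (S.card : ℝ) :=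
            mul_le_mul_of_nonneg_left hSlow (hpow _).le
          refine le_trans ?_ e1
          have e2 : 2 * B.d n ^ (-ν r + q * (C6 * ε) - C5 * ε) * (4 * K) =
              72 * B.d n ^ (-ν pT + (q * C6 - C5 - E) * ε) := by
            rw [hK]
            have : B.d n ^ (-ν pT + (q * C6 - C5 - E) * ε) =
                B.d n ^ (-ν r + q * (C6 * ε) - C5 * ε) * B.d n ^ (-(ν pT - ν r) - E * ε) := by
              rw [← rpow_add']; congr 1; ring
            rw [this]; ring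
          rw [e2, hC6q]
          calc 72 * B.d n ^ (-ν pT + (C5 + C1 + E + 3 + q - C5 - E) * ε)
              ≤ B.d n ^ (-ε) * B.d n ^ (-ν pT + (C5 + C1 + E + 3 + q - C5 - E) * ε) :=
                mul_le_mul_of_nonneg_right h72 (hpow _).le
            _ = B.d n ^ (-ν pT + (C1 + 2 + q) * ε) := by
                rw [← rpow_add']; congr 1; ring
            _ ≤ B.d n ^ (C1 * ε + (-ν pS + ε)) := rpow_anti B n (by nlinarith)
            _ = _ := rpow_add' B n _ _
        have h3 := h2.trans hpop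
        linarith)
    -- exponents
    have hsqK : √K = 3 * B.d n ^ ((-(ν pT - ν r) - E * ε) / 2) := by
      rw [hK, Real.sqrt_mul (by norm_num), show √(9 : ℝ) = 3 by
        rw [show (9 : ℝ) = 3 ^ 2 by norm_num]; exact Real.sqrt_sq (by norm_num)]
      congr 1
      rw [Real.sqrt_eq_rpow, ← Real.rpow_mul (B.pos n).le]
      congr 1
      ring
    have hνinv : (ν'⁻¹) ^ 26 = B.d n ^ (-(26 * ((C6 + C) * ε))) := by
      rw [hν', ← Real.rpow_neg (B.pos n).le, ← Real.rpow_natCast, ← Real.rpow_mul (B.pos n).le]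
      congr 1
      push_cast
      ring
    have hRpow : R ^ ε = B.d n ^ (-(x + (C1 + C + 1) * ε) * ε) := by
      rw [hR, ← Real.rpow_mul (B.pos n).le]
    have hlam3 : lam ^ 3 = B.d n ^ (3 * (C1 * ε)) := by
      rw [hlam, ← Real.rpow_natCast, ← Real.rpow_mul (B.pos n).le]
      congr 1
      push_cast
      ring
    rw [hlam3, hνinv, hRpow, hsqK, hη] at hres
    have hfin : CK * B.d n ^ (τ * x - ε) * (1 + 1) ^ 3 * B.d n ^ (-(26 * ((C6 + C) * ε))) *
        B.d n ^ (-(x + (C1 + C + 1) * ε) * ε) *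
        (3 * B.d n ^ ((-(ν pT - ν r) - E * ε) / 2)) =
        (CK * 2 ^ 3 * 3) * B.d n ^ ((τ * x - ε) + (-(26 * ((C6 + C) * ε))) +
          (-(x + (C1 + C + 1) * ε) * ε) + ((-(ν pT - ν r) - E * ε) / 2)) := by
      rw [rpow_add', rpow_add', rpow_add']
      norm_num
      ring
    rw [hfin] at hres
    have hfin2 : B.d n ^ (3 * (C1 * ε)) ≤ B.d n ^ (-ε) * B.d n ^ ((τ * x - ε) +
          (-(26 * ((C6 + C) * ε))) +
          (-(x + (C1 + C + 1) * ε) * ε) + ((-(ν pT - ν r) - E * ε) / 2)) :=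
      hres.trans (mul_le_mul_of_nonneg_right hcK (hpow _).le)
    rw [← rpow_add'] at hfin2
    rw [one_mul]
    have hxε : 0 ≤ x * ε := by positivity
    have hCC : (C1 + C + 1) * ε * ε ≤ (C1 + C + 1) * ε := by
      have : 0 ≤ (C1 + C + 1) * ε := by positivity
      nlinarith
    calc B.d n ^ (0 + Ctot * ε₀) ≤ B.d n ^ (3 * (C1 * ε)) := by
          refine rpow_anti B n ?_
          have h1 : Ctot * ε ≤ Ctot * ε₀ := mul_le_mul_of_nonneg_left hεε hCtot0.le
          have h2 : 3 * (C1 * ε) ≤ Ctot * ε := by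
            rw [hCtot]
            have : 0 ≤ (30 * (C6 + C) + x + E + 10) * ε := by positivity
            nlinarith
          linarith
      _ ≤ _ := hfin2
      _ ≤ B.d n ^ (τ * x - (ν pT - ν r) / 2 - Ctot * ε₀) := by
          refine rpow_anti B n ?_
          have h1 : Ctot * ε ≤ Ctot * ε₀ := mul_le_mul_of_nonneg_left hεε hCtot0.le
          have h2 : -ε + ((τ * x - ε) + (-(26 * ((C6 + C) * ε))) +
              (-(x + (C1 + C + 1) * ε) * ε) + ((-(ν pT - ν r) - E * ε) / 2)) ≥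
              τ * x - (ν pT - ν r) / 2 - Ctot * ε := by
            rw [hCtot]
            have k1 : 0 ≤ E * ε := by positivity
            have k2 : 0 ≤ C6 * ε := by positivity
            have k3 : 0 ≤ C * ε := by positivity
            have k4 : 0 ≤ C1 * ε := by positivity
            nlinarith
          linarith
  linarith

end Crest.Agent.R116.Bc863
end

-- ▼ part R116/Nar3b_863
section

/-!
# R116, [NARROW] (helper863), part 2: (A1) in a model with `NoStr`

`a1_abs` : `2 σ x ≤ ν p0 - ν r` (`p0` = class, `r` = bush: positions at `x`, velocities coarse) in a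
`RModel` whose classes `p0` have no heavy strips of the two velocity slots.
-/

set_option autoImplicit false
set_option linter.unusedVariables false
set_option linter.unusedSectionVars false

open Filter Topology Finset

namespace Crest.Agent.R116.Nar863

open Crest.Agent.R138.Ex926 (Base U)
open Crest.Agent.R136.Gf356

variable {κ : Type} {B : Base} {G : ℕ → RCfg κ} {Leg : Set (κ → ℝ)} {ν : (κ → ℝ) → ℝ}
  {σ R D : ℝ}

/-- data of a fan `pF` in the class `p0`: boxes `pC t` (both velocity slots at `t`), `pFC t` -/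
structure FanD (Leg : Set (κ → ℝ)) (ν : (κ → ℝ) → ℝ) (p0 pF : κ → ℝ) (pC pFC : ℝ → κ → ℝ)
    (cA cB : κ) (R0 : ℝ) : Prop where
  l0 : p0 ∈ Leg
  lF : pF ∈ Leg
  le : ∀ s, p0 s ≤ pF s
  lC : ∀ t, 0 < t → t ≤ R0 → pC t ∈ Leg
  lFC : ∀ t, 0 < t → t ≤ R0 → pFC t ∈ Leg
  leC : ∀ t, 0 < t → t ≤ R0 → ∀ s, p0 s ≤ pC t s
  cA : ∀ t, 0 < t → t ≤ R0 → t ≤ pC t cA
  cB : ∀ t, 0 < t → t ≤ R0 → t ≤ pC t cB
  mx : ∀ t, 0 < t → t ≤ R0 → ∀ s, pFC t s ≤ max (pC t s) (pF s)
  prod : ∀ t, 0 < t → t ≤ R0 → ν p0 - ν (pC t) ≤ ν pF - ν (pFC t)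

/-- positions and velocities of the lines in one frame -/
structure PosD (B : Base) (G : ℕ → RCfg κ) (i0 k0 : ℕ → ℕ) (p0 r : κ → ℝ) (cA cB : κ)
    (A1 A2 V1 V2 : ℕ → ℕ → ℝ) (C1 x R0 : ℝ) : Prop where
  C1p : 1 ≤ C1
  hz : ∀ ε : ℝ, 0 < ε → ∀ᶠ n in (U : Filter ℕ), ∀ k ∈ (G n).Z, |(G n).z k| ≤ B.d n ^ (-(C1 * ε))
  hV : ∀ ε : ℝ, 0 < ε → ∀ᶠ n in (U : Filter ℕ), ∀ i ∈ (G n).box p0 ε (i0 n) (k0 n),
      ∀ i' ∈ (G n).box p0 ε (i0 n) (k0 n), |V1 n i - V1 n i'| ≤ B.d n ^ (-(C1 * ε)) ∧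
        |V2 n i - V2 n i'| ≤ B.d n ^ (-(C1 * ε))
  hA : ∀ ε : ℝ, 0 < ε → ∀ᶠ n in (U : Filter ℕ), ∀ i ∈ (G n).box p0 ε (i0 n) (k0 n),
      ∀ i' ∈ (G n).box p0 ε (i0 n) (k0 n), |A1 n i - A1 n i'| ≤ B.d n ^ (-(C1 * ε)) ∧
        |A2 n i - A2 n i'| ≤ B.d n ^ (-(C1 * ε))
  hlink : ∀ ε : ℝ, 0 < ε → ∀ᶠ n in (U : Filter ℕ), ∀ k ∈ (G n).Z,
      ∀ i ∈ (G n).box p0 ε (i0 n) (k0 n), (i, k) ∈ (G n).I → ∀ l, (l, k) ∈ (G n).I →
      (G n).loose r ε k i l →
      |(A1 n l + (G n).z k * V1 n l) - (A1 n i + (G n).z k * V1 n i)| ≤ B.d n ^ (x - C1 * ε) ∧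
      |(A2 n l + (G n).z k * V2 n l) - (A2 n i + (G n).z k * V2 n i)| ≤ B.d n ^ (x - C1 * ε)
  hT : ∀ ε : ℝ, 0 < ε → ∀ᶠ n in (U : Filter ℕ), ∀ k ∈ (G n).Z,
      ∀ i ∈ (G n).box p0 ε (i0 n) (k0 n), ∀ i' ∈ (G n).box p0 ε (i0 n) (k0 n),
      (i, k) ∈ (G n).I → (i', k) ∈ (G n).I → (G n).loose p0 (C1 * ε) k i i'
  hconv : ∀ C : ℝ, 0 < C → ∃ C2 : ℝ, 0 < C2 ∧ ∀ ε : ℝ, 0 < ε → ∀ᶠ n in (U : Filter ℕ),
      ∀ k ∈ (G n).Z, ∀ i ∈ (G n).box p0 ε (i0 n) (k0 n), ∀ l ∈ (G n).box p0 ε (i0 n) (k0 n),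
      (i, k) ∈ (G n).I → (l, k) ∈ (G n).I →
      |(A1 n l + (G n).z k * V1 n l) - (A1 n i + (G n).z k * V1 n i)| ≤ B.d n ^ (x - C * ε) →
      |(A2 n l + (G n).z k * V2 n l) - (A2 n i + (G n).z k * V2 n i)| ≤ B.d n ^ (x - C * ε) →
      (G n).loose r (C2 * ε) k i l
  hstr : ∃ C3 : ℝ, 0 < C3 ∧ ∀ ρ : ℝ, 0 < ρ → ρ ≤ R0 → ∀ ε : ℝ, 0 < ε → ∀ᶠ n in (U : Filter ℕ),
      ∀ k ∈ (G n).Z, ∀ i ∈ (G n).box p0 ε (i0 n) (k0 n), (i, k) ∈ (G n).I →
      ∀ e1 e2 : ℝ, e1 ^ 2 + e2 ^ 2 = 1 → ∃ b : Fin 2 → ℝ, b 0 ^ 2 + b 1 ^ 2 = 1 ∧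
        ∀ l ∈ (G n).box p0 ε (i0 n) (k0 n), (l, k) ∈ (G n).I →
        |(V1 n l - V1 n i) * e1 + (V2 n l - V2 n i) * e2| ≤ 2 * B.d n ^ ρ →
        |b 0 * (G n).rel k i l cA + b 1 * (G n).rel k i l cB| ≤ B.d n ^ (ρ - C3 * ε)

open Classical in
/-- **(A1) in a model without heavy strips** -/
theorem a1_abs (H : RModel B G σ R Leg ν D) (i0 k0 : ℕ → ℕ)
    (h0 : ∀ᶠ n in (U : Filter ℕ), (i0 n, k0 n) ∈ (G n).I) {p0 r : κ → ℝ} {pC pFC : ℝ → κ → ℝ}
    {cA cB : κ} {q R0 Ca C1 x : ℝ} (hF : FanD Leg ν p0 r pC pFC cA cB R0) (hCa : 0 < Ca)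
    (hN : NoStr B G p0 cA cB ν q R0) (hadd : AddP B G p0 pC cA cB Ca R0) (hq : 0 < q)
    (hR0 : 0 < R0) (hx : 0 < x) (hxR : x ≤ R) {A1 A2 V1 V2 : ℕ → ℕ → ℝ}
    (hP : PosD B G i0 k0 p0 r cA cB A1 A2 V1 V2 C1 x R0) :
    2 * σ * x ≤ ν p0 - ν r := by
  have hD := H.D1
  have hC1 : 0 < C1 := lt_of_lt_of_le one_pos hP.C1p
  obtain ⟨K, hK, hfan⟩ := fan_strip H.toRUnif hF.l0 hF.lF hF.le hCa hF.lC hF.lFC hF.leC hF.cA hF.cB
    hF.mx hN hadd hF.prod
  obtain ⟨C2, hC2, hconv⟩ := hP.hconv (C1 + 2) (by linarith)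
  obtain ⟨C3, hC3, hstr⟩ := hP.hstr
  set Cm : ℝ := max C2 C3 with hCm
  have hCm0 : 0 < Cm := lt_max_of_lt_left hC2
  refine Bc863.bct_R H.toRUnif i0 k0 h0 p0 p0 r hF.l0 hF.l0 hF.lF hF.le le_rfl hx
    H.σ_nonneg (fun n k l => A1 n l + (G n).z k * V1 n l)
    (fun n k l => A2 n l + (G n).z k * V2 n l) A1 A2 V1 V2 (fun n k => (G n).z k)
    (fun n => (G n).Z) ?_ hC1 hP.hz hP.hV hP.hA ?_ ?_ hP.hT ?_ (q := q) (C5 := K * Cm + 1)
    (ρ0 := R0) hq (by positivity) hR0 ?_ ?_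
  · filter_upwards [h0] with n hn
    exact ⟨_, H.memZ hn⟩
  · intro ε hε
    filter_upwards [] with n k _ i _ i' _ _ _
    have hp := (rpos B n (x - C1 * ε)).le
    constructor
    · refine le_trans (le_of_eq ?_) hp
      rw [abs_eq_zero]; ring
    · refine le_trans (le_of_eq ?_) hp
      rw [abs_eq_zero]; ring
  · exact hP.hlink
  · intro ε hε
    filter_upwards [H.line ε hε] with n hn i hi T hT hal
    have hiL : i ∈ (G n).L := (RCfg.mem_slice.1 (RCfg.mem_box.1 hi).1).1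
    have h1 := hn i hiL
    have h2 : ((G n).hts i) ⊆ T := by
      intro k hk
      obtain ⟨a, b⟩ := RCfg.mem_hts.1 hk
      exact hal k a b
    have h3 : (((G n).hts i).card : ℝ) ≤ (T.card : ℝ) := by exact_mod_cast card_le_card h2
    refine le_trans ?_ (h1.trans h3)
    refine mul_le_mul_of_nonneg_right (rpow_anti B n ?_) (Nat.cast_nonneg _)
    nlinarith [hP.C1p]
  · intro ρ hρ hρR ε hε hερ
    have hCmε : 0 < Cm * ε := by positivity
    filter_upwards [hfan ρ hρ hρR (Cm * ε) hCmε, hconv ε hε, hstr ρ hρ hρR ε hε,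
      ev_const_le B hε 2] with n hfann hconvn hstrn h2 k hk i hi hik e1 e2 u he T hT hTp
    rcases T.eq_empty_or_nonempty with h | ⟨i', hi'⟩
    · rw [h]; simp only [card_empty, Nat.cast_zero]; exact (rpos B n _).le
    have hi'S := hT hi'
    obtain ⟨a1, a2, a3, a4⟩ := hTp i' hi'
    obtain ⟨b, hb, hbl⟩ := hstrn k hk i' hi'S a1 e1 e2 he
    have hsub : T ⊆ ((G n).box r (Cm * ε) i' k).filter fun l =>
        |b 0 * (G n).rel k i' l cA + b 1 * (G n).rel k i' l cB| ≤ B.d n ^ (ρ - Cm * ε) := by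
      intro l hl
      have hlS := hT hl
      obtain ⟨c1, c2, c3, c4⟩ := hTp l hl
      have hpow := rpos B n (x - (C1 + 1) * ε)
      have hw : 2 * B.d n ^ (x - (C1 + 1) * ε) ≤ B.d n ^ (x - (C1 + 2) * ε) := by
        have e : B.d n ^ (x - (C1 + 2) * ε) = B.d n ^ (-ε) * B.d n ^ (x - (C1 + 1) * ε) := by
          rw [← rpow_add']; congr 1; ring
        rw [e]
        exact mul_le_mul_of_nonneg_right h2 hpow.le
      have tri : ∀ {a b c : ℝ}, |a - c| ≤ B.d n ^ (x - (C1 + 1) * ε) →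
          |b - c| ≤ B.d n ^ (x - (C1 + 1) * ε) → |a - b| ≤ B.d n ^ (x - (C1 + 2) * ε) := by
        intro a b c h1 h2
        refine le_trans ?_ hw
        have := abs_sub_le a c b
        rw [abs_sub_comm c b] at this
        linarith
      have hl1 := hconvn k hk i' hi'S l hlS a1 c1 (tri c2 a2) (tri c3 a3)
      have hstrip : |(V1 n l - V1 n i') * e1 + (V2 n l - V2 n i') * e2| ≤ 2 * B.d n ^ ρ := by
        have e : (V1 n l - V1 n i') * e1 + (V2 n l - V2 n i') * e2 =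
            (V1 n l * e1 + V2 n l * e2 - u) - (V1 n i' * e1 + V2 n i' * e2 - u) := by ring
        rw [e]
        have := abs_sub (V1 n l * e1 + V2 n l * e2 - u) (V1 n i' * e1 + V2 n i' * e2 - u)
        linarith
      have hl2 := hbl l hlS c1 hstrip
      rw [mem_filter]
      refine ⟨RCfg.mem_box.2 ⟨H.memSlice.2 c1, ?_⟩, ?_⟩
      · exact H.loose_mono (fun _ => le_rfl) (mul_le_mul_of_nonneg_right (le_max_left _ _) hε.le) hl1
      · refine hl2.trans (rpow_anti B n ?_)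
        have := mul_le_mul_of_nonneg_right (le_max_right C2 C3) hε.le
        linarith
    have h3 := hfann i' k a1 b hb
    refine le_trans ?_ (h3.trans (rpow_anti B n ?_))
    · exact_mod_cast card_le_card hsub
    · nlinarith
  · intro ε hε
    filter_upwards [H.frost x hx.le hxR ε hε] with n hn k hk T hT hTx
    refine le_trans ?_ (hn k hk)
    refine Nat.cast_le.2 (card_le_card ?_)
    intro k' hk'
    unfold RCfg.hbox
    rw [mem_filter]
    refine ⟨hT hk', ?_⟩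
    rw [H.base n]
    exact hTx k' hk'

end Crest.Agent.R116.Nar863
end

-- ▼ part R116/Nar3c_863
section

/-!
# R116, [NARROW] (helper863), part 3: frame change in a window of the light chart

Three incidences `x, y, w` of the class; `a = co x y`, `c = co y w`.
* `crd_same` : the slots `C, X, N, P, F` of `w` seen from `x` do not depend on the incidence of the
  fat line;
* `crd3 .. crd6` : exact laws of the slots `C`, `X` (base point natural in `0, 3, 5` resp. `0, 4, 6`);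
* `crd10`, `crd11` : laws of `P` and of `F + z P` when `E` is small and the walls with `D` are slack.
-/

set_option autoImplicit false
set_option linter.unusedVariables false
set_option linter.unusedSectionVars false

open Filter

namespace Crest.Agent.R116.Nar863

open Crest.Agent.R138.Ex926 (Base U)
open Crest.Agent.R136.Net191 Crest.Agent.R136.Qg926 Crest.Agent.R136.Gf356
open Crest.Agent.R116.ChL222 Crest.Agent.R116.PL504 Crest.Agent.R116.EvL504

variable {ι : ℕ → Type*} [∀ n, DecidableEq (ι n)]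

/-- the walls with `D` are slack by `δ` -/
structure SlackD (W : Wnd 12 ι) (n : ℕ) (δ : ℝ) : Prop where
  z : side W n 0 * side W n 1 ≤ δ * side W n 2
  c3 : side W n 1 * (side W n 5 * side W n 3) ≤ δ * side W n 10
  c4 : side W n 1 * (side W n 6 * side W n 4) ≤ δ * side W n 10
  nn : side W n 1 * side W n 9 ≤ δ * side W n 10
  x5 : side W n 1 * (side W n 5 * side W n 5) ≤ δ * side W n 11
  x6 : side W n 1 * (side W n 6 * side W n 6) ≤ δ * side W n 11

section laws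

variable {W : Wnd 12 ι} {K tp : ℝ} (h : WL W K tp) {n : ℕ}

include h

/-- the slots `C, X, N, P, F` are constant along a fat line -/
theorem crd_same (g : W.Good n) {x y z : ι n} (hx : x ∈ W.Cl n) (hy : y ∈ W.Cl n)
    (hz : z ∈ W.Cl n) (hl : W.lc n y = W.lc n z) {s : Fin 12} (hs : s ∉ SL) :
    |W.crd n x z s - W.crd n x y s| ≤ 48 * W.B'.d n ^ tp := by
  have hD := h.sides g
  have h0 : ∀ k, |W.co n x y k| ≤ side W n k := fun k => h.bd0 g hx hy k
  have h1 : ∀ k, |W.co n y z k| ≤ side W n k := fun k => h.bd0 g hy hz k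
  have h2 : ∀ k, |LvS SL (W.co n y z) k| ≤ side W n k := abs_LvS_le hD.pos h1
  have h3 : ∀ k, |W.co n y z k - LvS SL (W.co n y z) k| ≤ W.B'.d n ^ tp * side W n k :=
    abs_sub_LvS hD.pos (h.r0 n) fun k hk => h.bdl g hy hz hl (h.notS hk) (h.topL _ hk)
  have key := comp_lipD (k := s) hD (h.r0 n) h0 h0 h1 h2
    (fun k => by simpa using mul_nonneg (h.r0 n) (hD.pos k).le) h3
  have e1 : comp (W.co n x y) (LvS SL (W.co n y z)) s = W.co n x y s :=
    comp_Lv (W.co n x y) (W.co n y z) hs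
  rw [e1, ← (h.coc n).add] at key
  have hp := h.side_pos' n s
  show |W.co n x z s / side W n s - W.co n x y s / side W n s| ≤ _
  rw [← sub_div, abs_div, abs_of_pos hp, div_le_iff₀ hp]
  linarith

theorem crd_div (x y : ι n) (s : Fin 12) : W.crd n x y s = W.co n x y s / side W n s := rfl

theorem crd3 (x y w : ι n) : W.crd n x w 3 = W.crd n x y 3 + W.crd n y w 3 := by
  have e : W.co n x w 3 = W.co n x y 3 + W.co n y w 3 := by rw [(h.coc n).add x y w]; rfl
  rw [crd_div h, crd_div h, crd_div h, e, add_div]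

theorem crd4 (x y w : ι n) : W.crd n x w 4 = W.crd n x y 4 + W.crd n y w 4 := by
  have e : W.co n x w 4 = W.co n x y 4 + W.co n y w 4 := by rw [(h.coc n).add x y w]; rfl
  rw [crd_div h, crd_div h, crd_div h, e, add_div]

theorem crd5 (hn : side W n 0 * side W n 3 = side W n 5) (x y w : ι n) :
    W.crd n x w 5 = W.crd n x y 5 + W.crd n y w 5 - W.crd n x y 0 * W.crd n y w 3 := by
  have e : W.co n x w 5 = W.co n x y 5 + W.co n y w 5 - W.co n x y 0 * W.co n y w 3 := by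
    rw [(h.coc n).add x y w]; rfl
  have h0 := (h.side_pos' n 0).ne'
  have h3 := (h.side_pos' n 3).ne'
  rw [crd_div h, crd_div h, crd_div h, crd_div h, crd_div h, e, ← hn]
  field_simp

theorem crd6 (hn : side W n 0 * side W n 4 = side W n 6) (x y w : ι n) :
    W.crd n x w 6 = W.crd n x y 6 + W.crd n y w 6 - W.crd n x y 0 * W.crd n y w 4 := by
  have e : W.co n x w 6 = W.co n x y 6 + W.co n y w 6 - W.co n x y 0 * W.co n y w 4 := by
    rw [(h.coc n).add x y w]; rfl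
  have h0 := (h.side_pos' n 0).ne'
  have h3 := (h.side_pos' n 4).ne'
  rw [crd_div h, crd_div h, crd_div h, crd_div h, crd_div h, e, ← hn]
  field_simp

/-- slot `2` -/
theorem crd2 (g : W.Good n) {δ : ℝ} (hsl : SlackD W n δ) {x y w : ι n} (hx : x ∈ W.Cl n)
    (hy : y ∈ W.Cl n) (hw : w ∈ W.Cl n) :
    |W.crd n x w 2 - (W.crd n x y 2 + W.crd n y w 2)| ≤ 2 * δ := by
  have e : W.co n x w 2 = W.co n x y 2 + W.co n y w 2 - 2 * (W.co n x y 1 * W.co n y w 0) := by
    rw [(h.coc n).add x y w]; rfl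
  have hp := h.side_pos' n 2
  have h1 := h.bd0 g hx hy 1
  have h2 := h.bd0 g hy hw 0
  have h3 : |W.co n x y 1 * W.co n y w 0| ≤ δ * side W n 2 := by
    refine (bd2D h1 h2).trans ?_
    rw [mul_comm]
    exact hsl.z
  rw [crd_div h, crd_div h, crd_div h, e, ← add_div, ← sub_div, abs_div, abs_of_pos hp,
    div_le_iff₀ hp]
  have e2 : W.co n x y 2 + W.co n y w 2 - 2 * (W.co n x y 1 * W.co n y w 0) -
      (W.co n x y 2 + W.co n y w 2) = -(2 * (W.co n x y 1 * W.co n y w 0)) := by ring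
  rw [e2, abs_neg, abs_mul, abs_of_pos (show (0:ℝ) < 2 by norm_num)]
  linarith

/-- slot `10` -/
theorem crd10 (g : W.Good n) {δ η : ℝ} (hsl : SlackD W n δ) {x y w : ι n} (hx : x ∈ W.Cl n)
    (hy : y ∈ W.Cl n) (hw : w ∈ W.Cl n) (hη : |W.crd n x y 2| ≤ η) :
    |W.crd n x w 10 - (W.crd n x y 10 + W.crd n y w 10 -
      (W.co n x y 7 * W.co n y w 3 + W.co n x y 8 * W.co n y w 4) / side W n 10)| ≤
      η + 6 * δ := by
  have hD := h.sides g
  have hp := hD.pos
  set a := W.co n x y with ha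
  set c := W.co n y w with hc
  have e : W.co n x w 10 = a 10 + c 10 - a 7 * c 3 - a 8 * c 4 -
      a 2 * ((c 3 ^ 2 + c 4 ^ 2) / 2) - 2 * (a 1 * (c 5 * c 3 + c 6 * c 4 - c 9)) := by
    rw [(h.coc n).add x y w]; rfl
  have ca : ∀ s, |a s| ≤ side W n s := fun s => h.bd0 g hx hy s
  have cc : ∀ s, |c s| ≤ side W n s := fun s => h.bd0 g hy hw s
  have a2 : |a 2| ≤ η * side W n 2 := by
    rw [crd_div h, abs_div, abs_of_pos (hp 2), div_le_iff₀ (hp 2)] at hη
    exact hη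
  have hη0 : 0 ≤ η := (abs_nonneg _).trans hη
  have hδ0 : 0 ≤ δ := by
    have h1 := hsl.z
    have h2 : 0 < side W n 0 * side W n 1 := mul_pos (hp 0) (hp 1)
    by_contra hcon
    push Not at hcon
    have := mul_neg_of_neg_of_pos hcon (hp 2)
    linarith
  -- the three error terms
  have sq : ∀ {i : Fin 12} {v : ℝ}, |v| ≤ side W n i → v ^ 2 ≤ side W n i * side W n i := by
    intro i v hv
    have := mul_le_mul hv hv (abs_nonneg _) (hp i).le
    rwa [← abs_mul, ← sq, abs_of_nonneg (sq_nonneg v)] at this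
  have t1 : |a 2 * ((c 3 ^ 2 + c 4 ^ 2) / 2)| ≤ η * side W n 10 := by
    have s3 := sq (cc 3)
    have s4 := sq (cc 4)
    have w3 : side W n 2 * (side W n 3 * side W n 3) ≤ side W n 10 := by
      have h1 := mul_le_mul_of_nonneg_right hD.w7 (hp 3).le
      have h2 := hD.w10
      nlinarith
    have w4 : side W n 2 * (side W n 4 * side W n 4) ≤ side W n 10 := by
      have h1 := mul_le_mul_of_nonneg_right hD.w8 (hp 4).le
      have h2 := hD.w10'
      nlinarith
    rw [abs_mul, abs_of_nonneg (show 0 ≤ (c 3 ^ 2 + c 4 ^ 2) / 2 by positivity)]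
    have h1 : |a 2| * ((c 3 ^ 2 + c 4 ^ 2) / 2) ≤ (η * side W n 2) *
        ((side W n 3 * side W n 3 + side W n 4 * side W n 4) / 2) :=
      mul_le_mul a2 (by linarith) (by positivity) (mul_nonneg hη0 (hp 2).le)
    have h2 : (η * side W n 2) * ((side W n 3 * side W n 3 + side W n 4 * side W n 4) / 2) =
        η * ((side W n 2 * (side W n 3 * side W n 3) + side W n 2 * (side W n 4 * side W n 4)) / 2) := by
      ring
    rw [h2] at h1
    refine h1.trans (mul_le_mul_of_nonneg_left (by linarith) hη0)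
  have t2 : |a 1 * (c 5 * c 3)| ≤ δ * side W n 10 := (bd2D (ca 1) (bd2D (cc 5) (cc 3))).trans hsl.c3
  have t3 : |a 1 * (c 6 * c 4)| ≤ δ * side W n 10 := (bd2D (ca 1) (bd2D (cc 6) (cc 4))).trans hsl.c4
  have t4 : |a 1 * c 9| ≤ δ * side W n 10 := (bd2D (ca 1) (cc 9)).trans hsl.nn
  rw [crd_div h, crd_div h, crd_div h, e, ← add_div, ← sub_div, ← sub_div, abs_div,
    abs_of_pos (hp 10), div_le_iff₀ (hp 10)]
  have e2 : a 10 + c 10 - a 7 * c 3 - a 8 * c 4 -
      a 2 * ((c 3 ^ 2 + c 4 ^ 2) / 2) - 2 * (a 1 * (c 5 * c 3 + c 6 * c 4 - c 9)) -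
      (a 10 + c 10 - (a 7 * c 3 + a 8 * c 4)) = -(a 2 * ((c 3 ^ 2 + c 4 ^ 2) / 2)) -
      2 * (a 1 * (c 5 * c 3)) - 2 * (a 1 * (c 6 * c 4)) + 2 * (a 1 * c 9) := by ring
  rw [e2]
  have u1 := abs_le.1 t1
  have u2 := abs_le.1 t2
  have u3 := abs_le.1 t3
  have u4 := abs_le.1 t4
  rw [abs_le]
  constructor <;> linarith [u1.1, u1.2, u2.1, u2.2, u3.1, u3.2, u4.1, u4.2]

/-- the functional `F + z P` -/
theorem crd11 (g : W.Good n) {δ η : ℝ} (hsl : SlackD W n δ)
    (hn : side W n 0 * side W n 10 = side W n 11) {x y w : ι n} (hx : x ∈ W.Cl n)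
    (hy : y ∈ W.Cl n) (hw : w ∈ W.Cl n) (hη : |W.crd n x y 2| ≤ η) :
    |(W.crd n x w 11 + W.crd n x y 0 * W.crd n x w 10) -
      (W.crd n x y 11 + W.crd n x y 0 * W.crd n x y 10) -
      (W.crd n y w 11 -
        (W.co n x y 7 * W.co n y w 5 + W.co n x y 8 * W.co n y w 6) / side W n 11)| ≤
      η + 2 * δ := by
  have hD := h.sides g
  have hp := hD.pos
  set a := W.co n x y with ha
  set c := W.co n y w with hc
  have e10 : W.co n x w 10 = a 10 + c 10 - a 7 * c 3 - a 8 * c 4 -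
      a 2 * ((c 3 ^ 2 + c 4 ^ 2) / 2) - 2 * (a 1 * (c 5 * c 3 + c 6 * c 4 - c 9)) := by
    rw [(h.coc n).add x y w]; rfl
  have e11 : W.co n x w 11 = a 11 + c 11 - a 0 * c 10 - a 7 * (c 5 - a 0 * c 3) -
      a 8 * (c 6 - a 0 * c 4) - a 2 * (c 9 - a 0 * ((c 3 ^ 2 + c 4 ^ 2) / 2)) -
      a 1 * (c 5 ^ 2 + c 6 ^ 2 - 2 * (a 0 * (c 5 * c 3 + c 6 * c 4 - c 9))) := by
    rw [(h.coc n).add x y w]; rfl
  have ca : ∀ s, |a s| ≤ side W n s := fun s => h.bd0 g hx hy s
  have cc : ∀ s, |c s| ≤ side W n s := fun s => h.bd0 g hy hw s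
  have a2 : |a 2| ≤ η * side W n 2 := by
    rw [crd_div h, abs_div, abs_of_pos (hp 2), div_le_iff₀ (hp 2)] at hη
    exact hη
  have hη0 : 0 ≤ η := (abs_nonneg _).trans hη
  have t1 : |a 2 * c 9| ≤ η * side W n 11 := by
    refine (bd2D a2 (cc 9)).trans ?_
    rw [mul_assoc]
    exact mul_le_mul_of_nonneg_left hD.w11c hη0
  have t2 : |a 1 * (c 5 * c 5)| ≤ δ * side W n 11 := (bd2D (ca 1) (bd2D (cc 5) (cc 5))).trans hsl.x5
  have t3 : |a 1 * (c 6 * c 6)| ≤ δ * side W n 11 := (bd2D (ca 1) (bd2D (cc 6) (cc 6))).trans hsl.x6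
  have n0 := (hp 0).ne'
  have n10 := (hp 10).ne'
  have key : (W.crd n x w 11 + W.crd n x y 0 * W.crd n x w 10) -
      (W.crd n x y 11 + W.crd n x y 0 * W.crd n x y 10) -
      (W.crd n y w 11 - (a 7 * c 5 + a 8 * c 6) / side W n 11) =
      (-(a 2 * c 9) - a 1 * (c 5 * c 5) - a 1 * (c 6 * c 6)) / side W n 11 := by
    rw [crd_div h, crd_div h, crd_div h, crd_div h, crd_div h, crd_div h, e10, e11, ← hn, ← ha,
      ← hc]
    field_simp
    ring
  rw [key, abs_div, abs_of_pos (hp 11), div_le_iff₀ (hp 11)]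
  have u1 := abs_le.1 t1
  have u2 := abs_le.1 t2
  have u3 := abs_le.1 t3
  rw [abs_le]
  constructor <;> linarith [u1.1, u1.2, u2.1, u2.2, u3.1, u3.2]

end laws

end Crest.Agent.R116.Nar863
end

-- ▼ part R116/Nar3d_863
section

/-!
# R116, [NARROW] (helper863), part 4: positions and velocities in the frame of the pin

`f0` = incidence of the pin, `lr` = an incidence of a line, `Vf s`, `Af sx sv` = velocity and
position functionals; `swap` : change of incidence; `posC` : slots `C, X`.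
`noStr_of` : 107's `noStr` in the form `NoStr`.
-/

set_option autoImplicit false
set_option linter.unusedVariables false
set_option linter.unusedSectionVars false

open Filter Topology Finset

namespace Crest.Agent.R116.Nar863

open Crest.Agent.R138.Ex926 (Base U)
open Crest.Agent.R136.Net191 Crest.Agent.R136.Qg926 Crest.Agent.R136.Gf356
open Crest.Agent.R136.NSt107
open Crest.Agent.R116.ChL222 Crest.Agent.R116.PL504 Crest.Agent.R116.EvL504
open Crest.Agent.R116.WinU954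

variable {ι : ℕ → Type*} [∀ n, DecidableEq (ι n)]

/-- the pin -/
noncomputable def f0 (W : Wnd 12 ι) (i0 k0 : ℕ → ℕ) (n : ℕ) : ι n := W.rep n (i0 n) (k0 n)

open Classical in
/-- a height of the line `l` -/
noncomputable def hl (W : Wnd 12 ι) (E : ∀ n, Finset (ι n)) (n l : ℕ) : ℕ :=
  if h : ∃ k, (l, k) ∈ (W.cfg E n).I then h.choose else 0

theorem hl_spec {W : Wnd 12 ι} {E : ∀ n, Finset (ι n)} {n l k : ℕ}
    (h : (l, k) ∈ (W.cfg E n).I) : (l, hl W E n l) ∈ (W.cfg E n).I := by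
  have h1 : ∃ k, (l, k) ∈ (W.cfg E n).I := ⟨k, h⟩
  unfold hl
  rw [dif_pos h1]
  exact h1.choose_spec

/-- an incidence of the line `l` -/
noncomputable def lr (W : Wnd 12 ι) (E : ∀ n, Finset (ι n)) (n l : ℕ) : ι n :=
  W.rep n l (hl W E n l)

/-- velocity functional -/
noncomputable def Vf (W : Wnd 12 ι) (E : ∀ n, Finset (ι n)) (i0 k0 : ℕ → ℕ) (s : Fin 12)
    (n l : ℕ) : ℝ := W.crd n (f0 W i0 k0 n) (lr W E n l) s

/-- position functional -/
noncomputable def Af (W : Wnd 12 ι) (E : ∀ n, Finset (ι n)) (i0 k0 : ℕ → ℕ) (sx sv : Fin 12)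
    (n l : ℕ) : ℝ := Vf W E i0 k0 sx n l - (W.cfg E n).z (k0 n) * Vf W E i0 k0 sv n l

section pin

variable {W : Wnd 12 ι} {K tp : ℝ} (h : WL W K tp) {n : ℕ} {E : ∀ n, Finset (ι n)}
  (r : Reg W E n) {i0 k0 : ℕ → ℕ} (hp : (i0 n, k0 n) ∈ (W.cfg E n).I)

include h r

theorem z_le {k i : ℕ} (hi : (i, k) ∈ (W.cfg E n).I) : |(W.cfg E n).z k| ≤ 1 := by
  rw [r.z_eq]
  exact h.crd_le r.good r.good.s0 (r.zspec ⟨i, hi⟩).1 _

include hp

/-- the height of an incidence seen from the pin -/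
theorem pin_z {k i : ℕ} (hi : (i, k) ∈ (W.cfg E n).I) :
    |W.crd n (f0 W i0 k0 n) (W.rep n i k) 0 - ((W.cfg E n).z k - (W.cfg E n).z (k0 n))| ≤
      2 * W.B'.d n ^ tp := by
  obtain ⟨a1, a2, a3⟩ := r.spec hi
  obtain ⟨b1, b2, b3⟩ := r.spec hp
  obtain ⟨c1, c3⟩ := r.zspec ⟨i, hi⟩
  obtain ⟨d1, d3⟩ := r.zspec ⟨i0 n, hp⟩
  have s0 := r.good.s0
  rw [r.z_eq, r.z_eq, h.kz]
  have e1 := h.crd_z_add (W.s₀ n) (W.zrep n k) (W.rep n i k)
  have e2 := h.crd_z_add (W.s₀ n) (W.zrep n (k0 n)) (W.rep n (i0 n) (k0 n))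
  have e3 := h.crd_z_add (W.s₀ n) (W.rep n (i0 n) (k0 n)) (W.rep n i k)
  have t1 := h.crd_z r.good c1 a1 (c3.trans a3.symm) h.z0
  have t2 := h.crd_z r.good d1 b1 (d3.trans b3.symm) h.z0
  have e : W.crd n (f0 W i0 k0 n) (W.rep n i k) 0 - (W.crd n (W.s₀ n) (W.zrep n k) 0 -
      W.crd n (W.s₀ n) (W.zrep n (k0 n)) 0) =
      W.crd n (W.zrep n k) (W.rep n i k) 0 -
        W.crd n (W.zrep n (k0 n)) (W.rep n (i0 n) (k0 n)) 0 := by
    show W.crd n (W.rep n (i0 n) (k0 n)) (W.rep n i k) 0 - _ = _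
    linarith
  rw [e]
  refine (abs_sub _ _).trans ?_
  linarith

theorem Vf_le {k l : ℕ} (s : Fin 12) (hl' : (l, k) ∈ (W.cfg E n).I) :
    |Vf W E i0 k0 s n l| ≤ 1 :=
  h.crd_le r.good (r.spec hp).1 (r.spec (hl_spec hl')).1 s

/-- change of incidence, one slot -/
theorem Vf_rep {k l : ℕ} {s : Fin 12} (hs : s ∉ SL) (hl' : (l, k) ∈ (W.cfg E n).I) :
    |Vf W E i0 k0 s n l - W.crd n (f0 W i0 k0 n) (W.rep n l k) s| ≤ 48 * W.B'.d n ^ tp := by
  obtain ⟨a1, a2, a3⟩ := r.spec hl'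
  obtain ⟨b1, b2, b3⟩ := r.spec (hl_spec hl')
  exact crd_same h r.good (r.spec hp).1 a1 b1 (a2.trans b2.symm) hs

/-- **change of incidence**, position functional at the height `k` -/
theorem swap {k i l : ℕ} {sx sv : Fin 12} (hx : sx ∉ SL) (hv : sv ∉ SL)
    (hi : (i, k) ∈ (W.cfg E n).I) (hl' : (l, k) ∈ (W.cfg E n).I) :
    |(Af W E i0 k0 sx sv n l + (W.cfg E n).z k * Vf W E i0 k0 sv n l) -
      (W.crd n (f0 W i0 k0 n) (W.rep n l k) sx +
        W.crd n (f0 W i0 k0 n) (W.rep n i k) 0 * W.crd n (f0 W i0 k0 n) (W.rep n l k) sv)| ≤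
      146 * W.B'.d n ^ tp := by
  have t1 := Vf_rep h r hp hx hl'
  have t2 := Vf_rep h r hp hv hl'
  have t3 := pin_z h r hp hi
  have t4 := z_le h r hi
  have t5 := z_le h r hp
  have t6 := h.crd_le r.good (r.spec hp).1 (r.spec hl').1 sv
  set ρ := W.B'.d n ^ tp with hρ
  have hρ0 : 0 ≤ ρ := h.r0 n
  set Z := W.crd n (f0 W i0 k0 n) (W.rep n i k) 0 with hZ
  set ζ := (W.cfg E n).z k - (W.cfg E n).z (k0 n) with hζ
  have hζ2 : |ζ| ≤ 2 := by
    refine (abs_sub _ _).trans ?_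
    linarith
  have e : (Af W E i0 k0 sx sv n l + (W.cfg E n).z k * Vf W E i0 k0 sv n l) -
      (W.crd n (f0 W i0 k0 n) (W.rep n l k) sx +
        Z * W.crd n (f0 W i0 k0 n) (W.rep n l k) sv) =
      (Vf W E i0 k0 sx n l - W.crd n (f0 W i0 k0 n) (W.rep n l k) sx) +
      ζ * (Vf W E i0 k0 sv n l - W.crd n (f0 W i0 k0 n) (W.rep n l k) sv) -
      (Z - ζ) * W.crd n (f0 W i0 k0 n) (W.rep n l k) sv := by
    unfold Af; rw [hζ]; ring
  rw [e]
  have u1 : |ζ * (Vf W E i0 k0 sv n l - W.crd n (f0 W i0 k0 n) (W.rep n l k) sv)| ≤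
      2 * (48 * ρ) := by
    rw [abs_mul]
    exact mul_le_mul hζ2 t2 (abs_nonneg _) (by norm_num)
  have u2 : |(Z - ζ) * W.crd n (f0 W i0 k0 n) (W.rep n l k) sv| ≤ (2 * ρ) * 1 := by
    rw [abs_mul]
    refine mul_le_mul t3 ?_ (abs_nonneg _) (by linarith)
    exact t6
  have v1 := abs_le.1 t1
  have v2 := abs_le.1 u1
  have v3 := abs_le.1 u2
  rw [abs_le]
  constructor <;> linarith [v1.1, v1.2, v2.1, v2.2, v3.1, v3.2]

/-- **slots `X` from `C`** (pairs `(5, 3)`, `(6, 4)`) -/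
theorem posC {sx sv : Fin 12} (hs : (sx = 5 ∧ sv = 3 ∧ side W n 0 * side W n 3 = side W n 5) ∨
      (sx = 6 ∧ sv = 4 ∧ side W n 0 * side W n 4 = side W n 6)) {k i l : ℕ}
    (hi : (i, k) ∈ (W.cfg E n).I) (hl' : (l, k) ∈ (W.cfg E n).I) :
    |((Af W E i0 k0 sx sv n l + (W.cfg E n).z k * Vf W E i0 k0 sv n l) -
      (Af W E i0 k0 sx sv n i + (W.cfg E n).z k * Vf W E i0 k0 sv n i)) -
      (W.cfg E n).rel k i l sx| ≤ 292 * W.B'.d n ^ tp ∧
    |(Vf W E i0 k0 sv n l - Vf W E i0 k0 sv n i) - (W.cfg E n).rel k i l sv| ≤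
      96 * W.B'.d n ^ tp := by
  have hsx : sx ∉ SL := by rcases hs with ⟨rfl, -, -⟩ | ⟨rfl, -, -⟩ <;> decide
  have hsv : sv ∉ SL := by rcases hs with ⟨-, rfl, -⟩ | ⟨-, rfl, -⟩ <;> decide
  have t1 := swap h r hp hsx hsv hi hl'
  have t2 := swap h r hp hsx hsv hi hi
  have t3 := Vf_rep h r hp hsv hl'
  have t4 := Vf_rep h r hp hsv hi
  rw [r.rel_of (h.notS hsx), r.rel_of (h.notS hsv)]
  set ρ := W.B'.d n ^ tp with hρ
  have key : W.crd n (f0 W i0 k0 n) (W.rep n l k) sx +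
        W.crd n (f0 W i0 k0 n) (W.rep n i k) 0 * W.crd n (f0 W i0 k0 n) (W.rep n l k) sv -
      (W.crd n (f0 W i0 k0 n) (W.rep n i k) sx +
        W.crd n (f0 W i0 k0 n) (W.rep n i k) 0 * W.crd n (f0 W i0 k0 n) (W.rep n i k) sv) =
      W.crd n (W.rep n i k) (W.rep n l k) sx := by
    rcases hs with ⟨rfl, rfl, hn⟩ | ⟨rfl, rfl, hn⟩
    · rw [crd5 h hn (f0 W i0 k0 n) (W.rep n i k) (W.rep n l k),
        crd3 h (f0 W i0 k0 n) (W.rep n i k) (W.rep n l k)]
      ring
    · rw [crd6 h hn (f0 W i0 k0 n) (W.rep n i k) (W.rep n l k),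
        crd4 h (f0 W i0 k0 n) (W.rep n i k) (W.rep n l k)]
      ring
  have key2 : W.crd n (f0 W i0 k0 n) (W.rep n l k) sv -
      W.crd n (f0 W i0 k0 n) (W.rep n i k) sv = W.crd n (W.rep n i k) (W.rep n l k) sv := by
    rcases hs with ⟨-, rfl, hn⟩ | ⟨-, rfl, hn⟩
    · rw [crd3 h (f0 W i0 k0 n) (W.rep n i k) (W.rep n l k)]; ring
    · rw [crd4 h (f0 W i0 k0 n) (W.rep n i k) (W.rep n l k)]; ring
  have v1 := abs_le.1 t1
  have v2 := abs_le.1 t2
  have v3 := abs_le.1 t3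
  have v4 := abs_le.1 t4
  constructor
  · rw [abs_le]
    constructor <;> linarith [v1.1, v1.2, v2.1, v2.2]
  · rw [abs_le]
    constructor <;> linarith [v3.1, v3.2, v4.1, v4.2]

end pin

/-! ### strips -/

/-- the slots `C, X, N, P, F` are constant along the fat lines -/
theorem lineC_of {W : Wnd 12 ι} {K tp : ℝ} (h : WL W K tp) {s : Fin 12} (hs : s ∉ SL) :
    LineC W s tp := by
  intro ε hε
  filter_upwards [h.ok.ev_good, ev_const_le W.B' hε 48] with n g h48 x hx y hy z hz hl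
  refine (crd_same h g hx hy hz hl hs).trans (absorb W.B' ?_)
  refine h48.trans (rpow_anti W.B' n ?_)
  linarith

open Classical in
/-- 107's `noStr` as `NoStr` -/
theorem noStr_of {W : Wnd 12 ι} {K tp : ℝ} (h : WL W K tp) {E' : ∀ n, Finset (ι n)} {g : ℕ → ℝ}
    {ex : ℕ → ∀ n, ι n → ℕ} (hP : Wnd.Pruned W (rich W) E' g ex)
    (hdens : W.lam W.top ≤ W.lam (cut W.S W.top 0) + W.lam (cut W.S 0 W.top))
    {cA cB : Fin 12} (hcA : cA ∉ SL) (hcB : cB ∉ SL) {q : ℝ} (hq : 0 ≤ q)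
    (hns : NsW W cA cB q tp) {p0 : Fin 12 → ℝ} (hp0 : W.nu 0 ≤ W.nu p0) :
    NoStr W.B' (W.cfg E') p0 cA cB W.nu q tp := by
  obtain ⟨K, hK⟩ := noStr h.ok hP hdens (h.notS hcA) (h.notS hcB) hq le_rfl hns
    (lineC_of h hcA) (lineC_of h hcB) hp0
  refine ⟨max K 0, le_max_right _ _, fun t ht htR ε hε => ?_⟩
  filter_upwards [hK t ht htR ε hε] with n hn i k hik b hb
  refine (hn i k hik b hb).trans (rpow_anti W.B' n ?_)
  have := mul_le_mul_of_nonneg_right (le_max_left K 0) hε.le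
  linarith

end Crest.Agent.R116.Nar863
end

-- ▼ part R116/Nar3e_863
section

/-!
# R116, [NARROW] (helper863), part 5: (A1) in a window, round case

`isoB c x` : slots `3, 4` at `c`, slots `5, 6` at `x`.
`a1_isoW` : in the window `WinU`: `2 σ x ≤ ν 0 - ν (isoB 0 x)`.
`a1_iso` : from a tangent at a moving base point.
-/

set_option autoImplicit false
set_option linter.unusedVariables false
set_option linter.unusedSectionVars false

open Filter Topology Finset

namespace Crest.Agent.R116.Nar863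

open Crest.Agent.R138.Ex926
open Crest.Agent.R136.Net191 Crest.Agent.R136.Qg926 Crest.Agent.R136.Gf356
open Crest.Agent.R136.NSt107
open Crest.Agent.R116.ChL222 Crest.Agent.R116.PL504 Crest.Agent.R116.EvL504
open Crest.Agent.R116.WinU954

variable {ι : ℕ → Type*} [∀ n, DecidableEq (ι n)]

/-- velocities at `c`, positions at `x` -/
def isoB (c x : ℝ) : Fin 12 → ℝ := ![0, 0, 0, c, c, x, x, 0, 0, 0, 0, 0]

theorem isoB_zero : isoB 0 0 = 0 := by
  funext k
  fin_cases k <;> rfl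

theorem isoB_mem {W : Wnd 12 ι} {B : Base} {I J : ∀ n, Finset (ι n)}
    {co : ∀ n, ι n → ι n → Fin 12 → ℝ} {C : ℝ} {D : Set (Fin 12 → ℝ)}
    {ν lam : (Fin 12 → ℝ) → ℝ} {x : ℕ → Fin 12 → ℝ} {h : ℕ → ℝ} {k' : ℕ → ℕ} {t : ℝ}
    (w : WinU W B I J co C D ν lam x h k' t) (ht : 0 ≤ t) {c y : ℝ} (hc : 0 ≤ c) (hct : c ≤ t)
    (hy : 0 ≤ y) (hyt : y ≤ t) : isoB c y ∈ W.legW := by
  rw [w.mem_legU ht]
  refine ⟨fun s _ => ?_, ?_⟩
  · fin_cases s <;> simp [isoB, hc, hct, hy, hyt, ht]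
  · simp [isoB, hc, hy, add_nonneg]

/-- absorbing a constant -/
theorem pwb (B : Base) {n : ℕ} {K s t ε : ℝ} (hK : K ≤ B.d n ^ (-ε)) (h : t ≤ s - ε) :
    K * B.d n ^ s ≤ B.d n ^ t := by
  refine absorb B (hK.trans (rpow_anti B n (by linarith)))

section win

variable {W : Wnd 12 ι} {K t : ℝ} (h : WL W K t) {E : ∀ n, Finset (ι n)}
  {Leg' : Set (Fin 12 → ℝ)} {nu : (Fin 12 → ℝ) → ℝ} {Dc σ : ℝ}

include h

theorem posD_iso (H : RModel W.B' (W.cfg E) σ t Leg' nu Dc)
    (hr : ∀ᶠ n in (U : Filter ℕ), Reg W E n)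
    (n5 : ∀ n, side W n 0 * side W n 3 = side W n 5)
    (n6 : ∀ n, side W n 0 * side W n 4 = side W n 6) {i0 k0 : ℕ → ℕ}
    (hp : ∀ n, (i0 n, k0 n) ∈ (W.cfg E n).I) {x : ℝ} (hx : 0 < x) (hxt : x ≤ t) (ht : 0 < t) :
    PosD W.B' (W.cfg E) i0 k0 (isoB 0 0) (isoB 0 x) 3 4 (Af W E i0 k0 5 3) (Af W E i0 k0 6 4)
      (Vf W E i0 k0 3) (Vf W E i0 k0 4) 2 x t := by
  have hbase : ∀ n, (W.cfg E n).ρ = W.B'.d n := H.base
  have one_le : ∀ (n : ℕ) {u : ℝ}, u ≤ 0 → (1 : ℝ) ≤ W.B'.d n ^ u := fun n u hu =>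
    Real.one_le_rpow_of_pos_of_le_one_of_nonpos (W.B'.pos n) (W.B'.lt n).le hu
  have hmono : ∀ (n : ℕ) {s u : ℝ}, s ≤ u → W.B'.d n ^ u ≤ W.B'.d n ^ s := fun n s u hh =>
    rpow_anti W.B' n hh
  have slc : ∀ {n i : ℕ} {p : Fin 12 → ℝ} {ε : ℝ} {a k : ℕ}, i ∈ (W.cfg E n).box p ε a k →
      (i, k) ∈ (W.cfg E n).I := fun hi => H.memSlice.1 (RCfg.mem_box.1 hi).1
  constructor
  · norm_num
  · intro ε hε
    filter_upwards [hr] with n r k hk
    obtain ⟨i, hi⟩ : ∃ i, (i, k) ∈ (W.cfg E n).I := by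
      rw [r.cfg_eq] at hk ⊢
      obtain ⟨z, hz, rfl⟩ := mem_image.1 hk
      exact ⟨W.lc n z, mem_image.2 ⟨z, hz, rfl⟩⟩
    exact (z_le h r hi).trans (one_le n (by nlinarith))
  · intro ε hε
    filter_upwards [hr, ev_const_le W.B' hε 2] with n r h2 i hi i' hi'
    have key : ∀ s, |Vf W E i0 k0 s n i - Vf W E i0 k0 s n i'| ≤ W.B'.d n ^ (-(2 * ε)) := by
      intro s
      have a := Vf_le h r (hp n) s (slc hi)
      have b := Vf_le h r (hp n) s (slc hi')
      refine (abs_sub _ _).trans ?_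
      have : W.B'.d n ^ (-ε) ≤ W.B'.d n ^ (-(2 * ε)) := hmono n (by linarith)
      linarith
    exact ⟨key 3, key 4⟩
  · intro ε hε
    filter_upwards [hr, ev_const_le W.B' hε 4] with n r h4 i hi i' hi'
    have zz := z_le h r (hp n)
    have key : ∀ s s', |Af W E i0 k0 s s' n i - Af W E i0 k0 s s' n i'| ≤
        W.B'.d n ^ (-(2 * ε)) := by
      intro s s'
      have b1 : ∀ {j}, (j, k0 n) ∈ (W.cfg E n).I → |Af W E i0 k0 s s' n j| ≤ 2 := by
        intro j hj
        have a := Vf_le h r (hp n) s hj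
        have b := Vf_le h r (hp n) s' hj
        unfold Af
        refine (abs_sub _ _).trans ?_
        rw [abs_mul]
        have := mul_le_mul zz b (abs_nonneg _) zero_le_one
        linarith
      have a := b1 (slc hi)
      have b := b1 (slc hi')
      refine (abs_sub _ _).trans ?_
      have : W.B'.d n ^ (-ε) ≤ W.B'.d n ^ (-(2 * ε)) := hmono n (by linarith)
      linarith
    exact ⟨key 5 3, key 6 4⟩
  · intro ε hε
    filter_upwards [hr, ev_const_le W.B' hε 293] with n r h293 k hk i hi hik l hlk hlo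
    have c5 := (posC h r (hp n) (Or.inl ⟨rfl, rfl, n5 n⟩) hik hlk).1
    have c6 := (posC h r (hp n) (Or.inr ⟨rfl, rfl, n6 n⟩) hik hlk).1
    have l5 := hlo 5
    have l6 := hlo 6
    rw [hbase] at l5 l6
    have e5 : isoB 0 x 5 = x := rfl
    have e6 : isoB 0 x 6 = x := rfl
    rw [e5] at l5
    rw [e6] at l6
    have m1 : W.B'.d n ^ t ≤ W.B'.d n ^ (x - ε) := hmono n (by linarith)
    have m2 : 293 * W.B'.d n ^ (x - ε) ≤ W.B'.d n ^ (x - 2 * ε) := pwb W.B' h293 (by linarith)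
    have hpos := rpos W.B' n (x - ε)
    constructor
    · have := abs_sub_abs_le_abs_sub ((Af W E i0 k0 5 3 n l + (W.cfg E n).z k * Vf W E i0 k0 3 n l) -
        (Af W E i0 k0 5 3 n i + (W.cfg E n).z k * Vf W E i0 k0 3 n i)) ((W.cfg E n).rel k i l 5)
      linarith
    · have := abs_sub_abs_le_abs_sub ((Af W E i0 k0 6 4 n l + (W.cfg E n).z k * Vf W E i0 k0 4 n l) -
        (Af W E i0 k0 6 4 n i + (W.cfg E n).z k * Vf W E i0 k0 4 n i)) ((W.cfg E n).rel k i l 6)
      linarith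
  · intro ε hε
    filter_upwards [hr] with n r k hk i hi i' hi' hik hik' s
    rw [hbase]
    refine (r.rel_le h hik hik' s).trans (one_le n ?_)
    have : isoB 0 0 s = 0 := by rw [isoB_zero]; rfl
    rw [this]; linarith
  · intro C hC
    refine ⟨C + 1, by linarith, fun ε hε => ?_⟩
    filter_upwards [hr, ev_const_le W.B' hε 293] with n r h293 k hk i hi l hl' hik hlk f1 f2 s
    have c5 := (posC h r (hp n) (Or.inl ⟨rfl, rfl, n5 n⟩) hik hlk).1
    have c6 := (posC h r (hp n) (Or.inr ⟨rfl, rfl, n6 n⟩) hik hlk).1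
    have m1 : W.B'.d n ^ t ≤ W.B'.d n ^ (x - C * ε) := hmono n (by nlinarith)
    have m2 : 293 * W.B'.d n ^ (x - C * ε) ≤ W.B'.d n ^ (x - (C + 1) * ε) :=
      pwb W.B' h293 (by linarith)
    have hpos := rpos W.B' n (x - C * ε)
    have b5 : |(W.cfg E n).rel k i l 5| ≤ W.B'.d n ^ (x - (C + 1) * ε) := by
      have := abs_sub_abs_le_abs_sub ((W.cfg E n).rel k i l 5)
        ((Af W E i0 k0 5 3 n l + (W.cfg E n).z k * Vf W E i0 k0 3 n l) -
        (Af W E i0 k0 5 3 n i + (W.cfg E n).z k * Vf W E i0 k0 3 n i))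
      rw [abs_sub_comm] at c5
      linarith
    have b6 : |(W.cfg E n).rel k i l 6| ≤ W.B'.d n ^ (x - (C + 1) * ε) := by
      have := abs_sub_abs_le_abs_sub ((W.cfg E n).rel k i l 6)
        ((Af W E i0 k0 6 4 n l + (W.cfg E n).z k * Vf W E i0 k0 4 n l) -
        (Af W E i0 k0 6 4 n i + (W.cfg E n).z k * Vf W E i0 k0 4 n i))
      rw [abs_sub_comm] at c6
      linarith
    rw [hbase]
    have triv : ∀ s, isoB 0 x s = 0 → |(W.cfg E n).rel k i l s| ≤
        W.B'.d n ^ (isoB 0 x s - (C + 1) * ε) := by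
      intro s hs
      rw [hs]
      exact (r.rel_le h hik hlk s).trans (one_le n (by nlinarith))
    fin_cases s
    exacts [triv _ rfl, triv _ rfl, triv _ rfl, triv _ rfl, triv _ rfl, b5, b6, triv _ rfl,
      triv _ rfl, triv _ rfl, triv _ rfl, triv _ rfl]
  · refine ⟨1, one_pos, fun ρ hρ hρt ε hε => ?_⟩
    filter_upwards [hr, ev_const_le W.B' hε 194] with n r h194 k hk i hi hik e1 e2 he
    refine ⟨![e1, e2], by simpa using he, fun l hl' hlk hst => ?_⟩
    have c3 := (posC h r (hp n) (Or.inl ⟨rfl, rfl, n5 n⟩) hik hlk).2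
    have c4 := (posC h r (hp n) (Or.inr ⟨rfl, rfl, n6 n⟩) hik hlk).2
    have he1 : |e1| ≤ 1 := abs_le_one_iff_mul_self_le_one.2 (by nlinarith [sq_nonneg e2])
    have he2 : |e2| ≤ 1 := abs_le_one_iff_mul_self_le_one.2 (by nlinarith [sq_nonneg e1])
    set v1 := Vf W E i0 k0 3 n l - Vf W E i0 k0 3 n i with hv1
    set v2 := Vf W E i0 k0 4 n l - Vf W E i0 k0 4 n i with hv2
    set r3 := (W.cfg E n).rel k i l 3 with hr3
    set r4 := (W.cfg E n).rel k i l 4 with hr4
    have u1 : |e1 * (v1 - r3)| ≤ 96 * W.B'.d n ^ t := by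
      rw [abs_mul]
      calc |e1| * |v1 - r3| ≤ 1 * (96 * W.B'.d n ^ t) :=
            mul_le_mul he1 c3 (abs_nonneg _) zero_le_one
        _ = _ := one_mul _
    have u2 : |e2 * (v2 - r4)| ≤ 96 * W.B'.d n ^ t := by
      rw [abs_mul]
      calc |e2| * |v2 - r4| ≤ 1 * (96 * W.B'.d n ^ t) :=
            mul_le_mul he2 c4 (abs_nonneg _) zero_le_one
        _ = _ := one_mul _
    have m1 : W.B'.d n ^ t ≤ W.B'.d n ^ ρ := hmono n hρt
    have m2 : 194 * W.B'.d n ^ ρ ≤ W.B'.d n ^ (ρ - 1 * ε) := pwb W.B' h194 (by linarith)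
    have e : e1 * r3 + e2 * r4 = (v1 * e1 + v2 * e2) - e1 * (v1 - r3) - e2 * (v2 - r4) := by ring
    show |e1 * r3 + e2 * r4| ≤ _
    rw [e]
    have w1 := abs_le.1 hst
    have w2 := abs_le.1 u1
    have w3 := abs_le.1 u2
    have hpos := rpos W.B' n ρ
    rw [abs_le]
    constructor <;> linarith [w1.1, w1.2, w2.1, w2.2, w3.1, w3.2]

theorem addP_iso (hr : ∀ᶠ n in (U : Filter ℕ), Reg W E n) :
    AddP W.B' (W.cfg E) (isoB 0 0) (fun c => isoB c 0) 3 4 1 t := by
  intro c hc hct ε hε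
  filter_upwards [hr] with n r k i l m hi hl' hm _ _
  have hpos := (rpos W.B' n (c - 1 * ε)).le
  rw [r.rel_of (h.notS (s := 3) (by decide)), r.rel_of (h.notS (s := 3) (by decide)),
    r.rel_of (h.notS (s := 3) (by decide)), r.rel_of (h.notS (s := 4) (by decide)),
    r.rel_of (h.notS (s := 4) (by decide)), r.rel_of (h.notS (s := 4) (by decide))]
  rw [crd3 h (W.rep n i k) (W.rep n l k) (W.rep n m k),
    crd4 h (W.rep n i k) (W.rep n l k) (W.rep n m k)]
  constructor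
  · rw [sub_self, abs_zero]; exact hpos
  · rw [sub_self, abs_zero]; exact hpos

end win

theorem isoB_le {c c' x x' : ℝ} (hc : c ≤ c') (hx : x ≤ x') (s : Fin 12) :
    isoB c x s ≤ isoB c' x' s := by
  fin_cases s <;> simp [isoB, hc, hx]

theorem isoB_max {c x : ℝ} (hc : 0 ≤ c) (hx : 0 ≤ x) (s : Fin 12) :
    isoB c x s ≤ max (isoB c 0 s) (isoB 0 x s) := by
  fin_cases s <;> simp [isoB, hc, hx]

open Classical in
/-- **(A1), round case, in a window** -/
theorem a1_isoW {W : Wnd 12 ι} {B : Base} {I J : ∀ n, Finset (ι n)}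
    {co : ∀ n, ι n → ι n → Fin 12 → ℝ} {C : ℝ} {D : Set (Fin 12 → ℝ)}
    {ν lam : (Fin 12 → ℝ) → ℝ} {X : ℕ → Fin 12 → ℝ} {h : ℕ → ℝ} {k' : ℕ → ℕ} {t : ℝ}
    (w : WinU W B I J co C D ν lam X h k' t) (ht : 0 < t) {E' : ∀ n, Finset (ι n)} {g : ℕ → ℝ}
    {ex : ℕ → ∀ n, ι n → ℕ} (hP : Wnd.Pruned W (rich W) E' g ex) {σ : ℝ}
    (H : RModel W.B' (W.cfg E') σ t W.legW W.nu W.Dc)
    (hr : ∀ᶠ n in (U : Filter ℕ), Reg W E' n)
    (dens : lam (fun _ => t) ≤ lam (cut {0} (fun _ => t) 0) + lam (Pi.single 0 t))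
    (n5 : ∀ n, side W n 0 * side W n 3 = side W n 5)
    (n6 : ∀ n, side W n 0 * side W n 4 = side W n 6) {q : ℝ} (hq : 0 < q)
    (hns : NsW W 3 4 q t) {x : ℝ} (hx : 0 < x) (hxt : x ≤ t)
    (hprod : ∀ c, 0 < c → c ≤ t → W.nu (isoB 0 0) - W.nu (isoB c 0) ≤
      W.nu (isoB 0 x) - W.nu (isoB c x)) :
    2 * σ * x ≤ W.nu (isoB 0 0) - W.nu (isoB 0 x) := by
  have hdens : W.lam W.top ≤ W.lam (cut W.S W.top 0) + W.lam (cut W.S 0 W.top) := by
    rw [w.hlam, w.htop, w.hS]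
    have e : cut {0} 0 (fun _ => t : Fin 12 → ℝ) = Pi.single 0 t := cut_single (S := ∅)
    rw [e]
    exact dens
  have hN : NoStr W.B' (W.cfg E') (isoB 0 0) 3 4 W.nu q t :=
    noStr_of w.wl hP hdens (by decide) (by decide) hq.le hns (by rw [isoB_zero])
  obtain ⟨i0, hi0⟩ : ∃ i0 : ℕ → ℕ × ℕ, ∀ n, i0 n ∈ (W.cfg E' n).I :=
    ⟨fun n => (H.nonempty n).choose, fun n => (H.nonempty n).choose_spec⟩
  refine a1_abs H (fun n => (i0 n).1) (fun n => (i0 n).2)
    (Eventually.of_forall fun n => hi0 n) (p0 := isoB 0 0) (r := isoB 0 x)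
    (pC := fun c => isoB c 0) (pFC := fun c => isoB c x) (cA := 3) (cB := 4) (R0 := t) (Ca := 1)
    ?_ one_pos hN (addP_iso w.wl hr) hq ht hx hxt
    (posD_iso w.wl H hr n5 n6 hi0 hx hxt ht)
  exact
    { l0 := isoB_mem w ht.le le_rfl ht.le le_rfl ht.le
      lF := isoB_mem w ht.le le_rfl ht.le hx.le hxt
      le := isoB_le le_rfl hx.le
      lC := fun c hc hct => isoB_mem w ht.le hc.le hct le_rfl ht.le
      lFC := fun c hc hct => isoB_mem w ht.le hc.le hct hx.le hxt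
      leC := fun c hc _ => isoB_le hc.le le_rfl
      cA := fun c _ _ => le_rfl
      cB := fun c _ _ => le_rfl
      mx := fun c hc _ => isoB_max hc.le hx.le
      prod := hprod }

end Crest.Agent.R116.Nar863
end

-- ▼ part R116/Nar3f_863

/-!
# R116, [NARROW] (helper863), part 6: (A1) of the round case from a tangent

* `exists_win_ns` : a window with a model over the rich pairs and no heavy strips;
* **`a1_iso`**.
-/

set_option autoImplicit false
set_option linter.unusedVariables false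
set_option linter.unusedSectionVars false

open Filter Topology Finset

namespace Crest.Agent.R116.Nar863

open Crest.Agent.R138.Ex926
open Crest.Agent.R136.Net191 Crest.Agent.R136.Qg926 Crest.Agent.R136.Gf356
open Crest.Agent.R136.NSt107
open Crest.Agent.R116.ChL222 Crest.Agent.R116.PL504 Crest.Agent.R116.EvL504
open Crest.Agent.R116.WinU954

variable {ι : ℕ → Type*} [∀ n, DecidableEq (ι n)]

/-- **no heavy strips in the windows** along the tangent -/
def NsT (B : Base) (I J : ∀ n, Finset (ι n)) (co : ∀ n, ι n → ι n → Fin 12 → ℝ) (C : ℝ)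
    (D : Set (Fin 12 → ℝ)) (ν lam : (Fin 12 → ℝ) → ℝ) (X : ℕ → Fin 12 → ℝ) (h : ℕ → ℝ)
    (t : ℝ) (cA cB : Fin 12) (q : ℝ) : Prop :=
  ∃ k : ℕ → ℕ, Tendsto k U atTop ∧ ∀ k' : ℕ → ℕ, Tendsto k' U atTop →
    (∀ᶠ n in (U : Filter ℕ), k' n ≤ k n) → ∀ W : Wnd 12 ι,
      WinU W B I J co C D ν lam X h k' t → NsW W cA cB q t

/-- a window with a model over the rich pairs and no heavy strips -/
theorem exists_win_ns {B : Base} {I J : ∀ n, Finset (ι n)} {co : ∀ n, ι n → ι n → Fin 12 → ℝ}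
    {C R : ℝ} {ν : (Fin 12 → ℝ) → ℝ} (hN : NProf B I J co monL C R ν) (hcoc : ∀ n, Coc (co n))
    {X : ℕ → Fin 12 → ℝ} {h : ℕ → ℝ} (hpos : ∀ l, 0 < h l) {D : Set (Fin 12 → ℝ)}
    {lam : (Fin 12 → ℝ) → ℝ} (htan : IsTan (Leg monL R) D ν X h lam) {t : ℝ} (ht : 0 < t)
    (hD : Leg monL t ⊆ D) {σ : ℝ} (hσ0 : 0 ≤ σ) (hσ1 : σ ≤ 1)
    (dens : lam (fun _ => t) ≤ lam (cut {0} (fun _ => t) 0) + lam (Pi.single 0 t))
    (frost : ∀ y, 0 ≤ y → y ≤ t → lam (Pi.single 0 y) ≤ -(σ * y)) (i₀ : ∀ n, ι n)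
    {cA cB : Fin 12} {q : ℝ} (hns : NsT B I J co C D ν lam X h t cA cB q) :
    ∃ (k' : ℕ → ℕ) (W : Wnd 12 ι) (E' : ∀ n, Finset (ι n)) (g : ℕ → ℝ),
      Tendsto k' U atTop ∧ WinU W B I J co C D ν lam X h k' t ∧ NsW W cA cB q t ∧
      Wnd.Pruned W (rich W) E' g (fun _ _ _ => 0) ∧ (∀ᶠ n in (U : Filter ℕ), Reg W E' n) ∧
      RModel W.B' (W.cfg E') σ t W.legW W.nu W.Dc := by
  obtain ⟨k1, hk1, h1⟩ := exists_winU hN hcoc hpos htan ht hD hσ0 hσ1 dens frost
    (fun _ _ => 1) (fun _ => Base.Sub.const one_pos) i₀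
  obtain ⟨k2, hk2, h2⟩ := hns
  have hk : Tendsto (fun n => min (k1 n) (k2 n)) U atTop := by
    rw [tendsto_atTop] at hk1 hk2 ⊢
    intro b
    filter_upwards [hk1 b, hk2 b] with n a b
    exact le_min a b
  obtain ⟨W, w, -, a3⟩ := h1 _ hk (Eventually.of_forall fun n => min_le_left _ _)
  obtain ⟨E', g, b1, -, b3, b4⟩ := a3 (rich W) (fun _ => 1) (eok_rich w.wl.ok) (fun _ _ _ => 0)
    (fun n => (n : ℝ)) (tendsto_natCast_atTop_atTop.mono_left U_le_atTop)
  exact ⟨_, W, E', g, hk, w, h2 _ hk (Eventually.of_forall fun n => min_le_right _ _) W w, b1, b3,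
    b4⟩

section sides

variable {W : Wnd 12 ι} {B : Base} {I J : ∀ n, Finset (ι n)}
    {co : ∀ n, ι n → ι n → Fin 12 → ℝ} {C : ℝ} {D : Set (Fin 12 → ℝ)}
    {ν lam : (Fin 12 → ℝ) → ℝ} {X : ℕ → Fin 12 → ℝ} {h : ℕ → ℝ} {k' : ℕ → ℕ} {t : ℝ}

/-- the unit of a slot -/
theorem side_eq (w : WinU W B I J co C D ν lam X h k' t) (n : ℕ) (s : Fin 12) :
    side W n s = cK0 monL C ^ wtL s * B.d n ^ X (k' n) s := by
  unfold side
  rw [w.hkap, w.hB, w.hX]

theorem side_mul (w : WinU W B I J co C D ν lam X h k' t) (n : ℕ) {a b c : Fin 12}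
    (hw : wtL a + wtL b = wtL c) (hX : X (k' n) c = X (k' n) a + X (k' n) b) :
    side W n a * side W n b = side W n c := by
  rw [side_eq w, side_eq w, side_eq w, hX, Real.rpow_add (B.pos n), ← hw, pow_add]
  ring

end sides

/-- the height slot at `z`, velocities at `c`, positions at `x` -/
def isoT (z c x : ℝ) : Fin 12 → ℝ := ![z, 0, 0, c, c, x, x, 0, 0, 0, 0, 0]

theorem cut_isoB (c x t : ℝ) : cut {0} (isoB c x) (fun _ => t) = isoT t c x := by
  funext k
  by_cases hk : k = 0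
  · subst hk; rw [cut_zero]; rfl
  · rw [cut_ne _ _ hk]
    fin_cases k
    · exact absurd rfl hk
    all_goals rfl

open Classical in
/-- **(A1), round case, from a tangent at a moving base point** -/
theorem a1_iso {B : Base} {I J : ∀ n, Finset (ι n)} {co : ∀ n, ι n → ι n → Fin 12 → ℝ}
    {C R : ℝ} {ν : (Fin 12 → ℝ) → ℝ} (hN : NProf B I J co monL C R ν) (hcoc : ∀ n, Coc (co n))
    {X : ℕ → Fin 12 → ℝ} {h : ℕ → ℝ} (hpos : ∀ l, 0 < h l) {D : Set (Fin 12 → ℝ)}
    {lam : (Fin 12 → ℝ) → ℝ} (htan : IsTan (Leg monL R) D ν X h lam) {t : ℝ} (ht : 0 < t)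
    (hD : Leg monL t ⊆ D) {σ : ℝ} (hσ0 : 0 ≤ σ) (hσ1 : σ ≤ 1)
    (dens : lam (fun _ => t) ≤ lam (cut {0} (fun _ => t) 0) + lam (Pi.single 0 t))
    (frost : ∀ y, 0 ≤ y → y ≤ t → lam (Pi.single 0 y) ≤ -(σ * y)) (i₀ : ∀ n, ι n)
    (n5 : ∀ l, X l 5 = X l 0 + X l 3) (n6 : ∀ l, X l 6 = X l 0 + X l 4)
    {q : ℝ} (hq : 0 < q) (hns : NsT B I J co C D ν lam X h t 3 4 q)
    {x : ℝ} (hx : 0 < x) (hxt : x ≤ t)
    (hprod : ∀ c, 0 < c → c ≤ t → lam (isoT t 0 0) - lam (isoT t c 0) ≤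
      lam (isoT t 0 x) - lam (isoT t c x)) :
    2 * σ * x ≤ lam (isoT t 0 0) - lam (isoT t 0 x) := by
  obtain ⟨k', W, E', g, hk, w, a1, a2, a3, a4⟩ := exists_win_ns hN hcoc hpos htan ht hD hσ0 hσ1
    dens frost i₀ hns
  have key := a1_isoW w ht a2 a4 a3 dens
    (fun n => side_mul w n (a := 0) (b := 3) (c := 5) rfl (n5 _))
    (fun n => side_mul w n (a := 0) (b := 4) (c := 6) rfl (n6 _)) hq a1 hx hxt
    (by
      intro c hc hct
      rw [w.nu_eq, w.nu_eq, w.nu_eq, w.nu_eq, cut_isoB, cut_isoB, cut_isoB, cut_isoB]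
      linarith [hprod c hc hct])
  rw [w.nu_eq, w.nu_eq, cut_isoB, cut_isoB] at key
  linarith

end Crest.Agent.R116.Nar863
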