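import Crest.Agent.R116.Sc1_905
import Crest.Agent.R116.Sc3_299
import Crest.Agent.R116.Sc2a_858_Mg
import Crest.Agent.R116.Sc6_299
import Crest.Agent.R116.Nar3f_863
import Crest.Agent.R116.WinG_954

-- ▼ part R116/Sc2b_748
section

/-!
# R116, K-TEXT II-c, SIG2 (`σ = 2`, helper905), Sc2b: the labels of one class (helper748)

* `h4` : hypothesis `H4` of `Sc905.core`: the lines of one class `(C, B : x)` alive at one height
  have at most `ρ^(-(ν pC - ν pH) - K ε)` labels (their cells of `H - C_j X`, `F + B_j X`).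
-/

set_option autoImplicit false
set_option linter.unusedVariables false
set_option linter.unusedSectionVars false

open Filter Topology Finset

namespace Crest.Agent.R116.Sc748

open Crest.Agent.R138.Ex926 (Base U)
open Crest.Agent.R136.Gf356
open Crest.Agent.R116.Sc905 (Dat floor_diff)
open Crest.Agent.R116.Sc299 (GC)

/-- the global coordinates as data of the finite inequality -/
noncomputable def dat (G : ℕ → RCfg (Fin 12)) (AX AH AF C P Bf : ℕ → ℕ → ℝ) (n : ℕ) : Dat :=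
  ⟨AX n, AH n, AF n, C n, P n, Bf n, (G n).z⟩

/-! ### finite part -/

/-- number of cells in a box of the plane -/
theorem cells2_card (T : Finset (ℤ × ℤ)) (q0 : ℤ × ℤ) {K : ℝ} (hK : 0 ≤ K)
    (h : ∀ q ∈ T, |((q.1 : ℤ) : ℝ) - q0.1| ≤ K ∧ |((q.2 : ℤ) : ℝ) - q0.2| ≤ K) :
    (T.card : ℝ) ≤ (2 * K + 1) ^ 2 := by
  set N : ℤ := ⌊K⌋ with hN
  have hN0 : 0 ≤ N := Int.floor_nonneg.2 hK
  have hNK : (N : ℝ) ≤ K := Int.floor_le K
  have hin : ∀ a b : ℤ, |(a : ℝ) - b| ≤ K → a ∈ Finset.Icc (b - N) (b + N) := by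
    intro a b hab
    have h1 : |a - b| ≤ N := by
      rw [hN, Int.le_floor]
      push_cast
      exact hab
    obtain ⟨h2, h3⟩ := abs_le.1 h1
    rw [Finset.mem_Icc]
    constructor <;> omega
  have hsub : T ⊆ (Finset.Icc (q0.1 - N) (q0.1 + N)) ×ˢ
      (Finset.Icc (q0.2 - N) (q0.2 + N)) := by
    intro q hq
    obtain ⟨h1, h2⟩ := h q hq
    rw [mem_product]
    exact ⟨hin _ _ h1, hin _ _ h2⟩
  have hc := card_le_card hsub
  rw [card_product] at hc
  have hI : ∀ b : ℤ, ((Finset.Icc (b - N) (b + N)).card : ℝ) = 2 * (N : ℝ) + 1 := by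
    intro b
    rw [Int.card_Icc]
    have e1 : b + N + 1 - (b - N) = 2 * N + 1 := by ring
    rw [e1]
    have e2 : ((2 * N + 1).toNat : ℤ) = 2 * N + 1 := Int.toNat_of_nonneg (by omega)
    have e3 : (((2 * N + 1).toNat : ℤ) : ℝ) = ((2 * N + 1 : ℤ) : ℝ) := by rw [e2]
    rw [Int.cast_natCast] at e3
    rw [e3]
    push_cast
    ring
  have hc' : (T.card : ℝ) ≤ (2 * (N : ℝ) + 1) * (2 * (N : ℝ) + 1) := by
    have := (Nat.cast_le (α := ℝ)).2 hc
    rw [Nat.cast_mul, hI, hI] at this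
    exact this
  have hN0' : (0 : ℝ) ≤ N := by exact_mod_cast hN0
  have h3 : (2 * (N : ℝ) + 1) ^ 2 ≤ (2 * K + 1) ^ 2 := by gcongr
  calc (T.card : ℝ) ≤ _ := hc'
    _ = (2 * (N : ℝ) + 1) ^ 2 := by ring
    _ ≤ _ := h3

/-- number of labels of a set of lines on which two functions vary by at most `V` -/
theorem labels_card (T : Finset ℕ) (f g : ℕ → ℝ) {w V : ℝ} (hw : 0 < w) (hV : 0 ≤ V)
    (h : ∀ l ∈ T, ∀ l' ∈ T, |f l - f l'| ≤ V ∧ |g l - g l'| ≤ V) :
    (((T.image fun l => (⌊f l / w⌋, ⌊g l / w⌋)).card : ℕ) : ℝ) ≤ (2 * (V / w) + 3) ^ 2 := by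
  rcases T.eq_empty_or_nonempty with rfl | ⟨l0, hl0⟩
  · rw [image_empty, card_empty, Nat.cast_zero]; positivity
  have key := cells2_card (T.image fun l => (⌊f l / w⌋, ⌊g l / w⌋))
    (⌊f l0 / w⌋, ⌊g l0 / w⌋) (K := V / w + 1) (by positivity) (by
      intro q hq
      obtain ⟨l, hl, rfl⟩ := mem_image.1 hq
      obtain ⟨h1, h2⟩ := h l hl l0 hl0
      have e : ∀ a b : ℝ, |a - b| ≤ V → |((⌊a / w⌋ : ℤ) : ℝ) - ((⌊b / w⌋ : ℤ) : ℝ)| ≤
          V / w + 1 := by
        intro a b hab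
        refine (floor_diff _ _).trans ?_
        rw [← sub_div, abs_div, abs_of_pos hw]
        have := div_le_div_of_nonneg_right hab hw.le
        linarith
      exact ⟨e _ _ h1, e _ _ h2⟩)
  calc _ ≤ (2 * (V / w + 1) + 1) ^ 2 := key
    _ = _ := by ring

/-! ### the count -/

variable {B : Base} {G : ℕ → RCfg (Fin 12)} {Leg : Set (Fin 12 → ℝ)} {ν : (Fin 12 → ℝ) → ℝ}
  {D : ℝ} {al : ℕ → ℝ} {AX AH AF C P Bf : ℕ → ℕ → ℝ} {Ef : ℕ → ℕ → ℕ → ℝ} {x : ℝ}

set_option maxHeartbeats 1000000 in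
open Classical in
/-- **`H4` of `Sc905.core`** -/
theorem h4 (H : RUnif B G Leg ν D) (hG : GC B G al AX AH AF C P Bf Ef x) {pC pH : Fin 12 → ℝ}
    (hpC : pC ∈ Leg) (hpH : pH ∈ Leg) (hCH : ∀ j, pC j ≤ pH j) (h9 : x ≤ pH 9)
    (h11 : x ≤ pH 11) {c : ℝ} (hc : 0 ≤ c)
    (hcls : ∀ ε : ℝ, 0 < ε → ∀ᶠ n in (U : Filter ℕ), ∀ k i l, (i, k) ∈ (G n).I →
      (l, k) ∈ (G n).I → |C n l - C n i| ≤ B.d n ^ (x - ε) → |Bf n l - Bf n i| ≤ B.d n ^ (x - ε) →
      (G n).loose pC (c * ε) k i l) :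
    ∃ K : ℝ, 0 ≤ K ∧ ∀ ε : ℝ, 0 < ε → ∀ᶠ n in (U : Filter ℕ), ∀ k ∈ (G n).Z, ∀ j ∈ (G n).L,
      (((((G n).L.filter fun l => (l, k) ∈ (G n).I ∧
        (dat G AX AH AF C P Bf n).cc (B.d n ^ (x - ε)) l =
          (dat G AX AH AF C P Bf n).cc (B.d n ^ (x - ε)) j).image fun l =>
        (⌊((dat G AX AH AF C P Bf n).H k l -
            (dat G AX AH AF C P Bf n).C j * (dat G AX AH AF C P Bf n).X k l) /
              B.d n ^ (x - ε)⌋,
          ⌊((dat G AX AH AF C P Bf n).F k l +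
            (dat G AX AH AF C P Bf n).Bf j * (dat G AX AH AF C P Bf n).X k l) /
              B.d n ^ (x - ε)⌋)).card : ℕ) : ℝ) ≤ B.d n ^ (-(ν pC - ν pH) - K * ε) := by
  have hD := H.D1
  have hD0 : 0 < D := by linarith
  set c1 : ℝ := c + 1 with hc1
  set K1 : ℝ := D ^ 5 * c1 + 10 with hK1
  have hK10 : 0 ≤ K1 := by positivity
  refine ⟨(D ^ 2 + 1) * c1 + 2 * K1 + 2, by positivity, fun ε hε => ?_⟩
  have hc1ε : 0 < c1 * ε := by positivity
  filter_upwards [H.exists_lab_loose pC pH hpC hpH hCH hc1ε, hcls ε hε, hG.al0 ε hε,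
    hG.bd ε hε, hG.r9 ε hε, hG.r11 ε hε, ev_const_le B hε 100] with n hlab hcl hal hbd hr9 hr11 h100
  intro k hk j hj
  have hpow : ∀ t : ℝ, 0 < B.d n ^ t := fun t => rpos B n t
  set β : ℝ := B.d n ^ (-ε) with hβ
  set δ : ℝ := B.d n ^ (x - ε) with hδ
  have hβ1 : 1 ≤ β := by linarith
  have hβ0 : 0 < β := by linarith
  have hδ0 : 0 < δ := hpow _
  set dt := dat G AX AH AF C P Bf n with hdt
  set T := (G n).L.filter fun l => (l, k) ∈ (G n).I ∧ dt.cc δ l = dt.cc δ j with hT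
  have hTm : ∀ l ∈ T, (l, k) ∈ (G n).I ∧ dt.cc δ l = dt.cc δ j := fun l hl =>
    (mem_filter.1 hl).2
  have hTs : T ⊆ (G n).slice k := fun l hl => H.memSlice.2 (hTm l hl).1
  -- closeness in one class
  have hcc : ∀ l l', dt.cc δ l = dt.cc δ l' → |C n l - C n l'| ≤ δ ∧ |Bf n l - Bf n l'| ≤ δ := by
    intro l l' h
    have h' : (⌊C n l / δ⌋, ⌊Bf n l / δ⌋) = (⌊C n l' / δ⌋, ⌊Bf n l' / δ⌋) := h
    rw [Prod.mk.injEq] at h'
    have e : ∀ a b : ℝ, ⌊a / δ⌋ = ⌊b / δ⌋ → |a - b| ≤ δ := by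
      intro a b hab
      have e1 := Int.abs_sub_lt_one_of_floor_eq_floor hab
      rw [← sub_div, abs_div, abs_of_pos hδ0, div_lt_one hδ0] at e1
      exact e1.le
    exact ⟨e _ _ h'.1, e _ _ h'.2⟩
  have hTl : ∀ i ∈ T, ∀ i' ∈ T, (G n).loose pC (c1 * ε) k i i' := by
    intro i hi i' hi'
    obtain ⟨i1, i2⟩ := hTm i hi
    obtain ⟨i3, i4⟩ := hTm i' hi'
    obtain ⟨a1, a2⟩ := hcc i' i (i4.trans i2.symm)
    refine H.loose_mono (fun _ => le_rfl) ?_ (hcl k i i' i1 i3 a1 a2)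
    exact mul_le_mul_of_nonneg_right (by linarith) hε.le
  obtain ⟨lab, hlab1, hlab2⟩ := hlab k T hTs hTl
  set η : ℝ := B.d n ^ (x - D ^ 5 * (c1 * ε)) with hη
  have hη0 : 0 < η := hpow _
  set V : ℝ := 8 * β ^ 4 * (η + δ) with hV
  have hV0 : 0 ≤ V := by positivity
  -- variation on one label
  have hvar : ∀ l ∈ T, ∀ l' ∈ T, lab l = lab l' →
      |(dt.H k l - dt.C j * dt.X k l) - (dt.H k l' - dt.C j * dt.X k l')| ≤ V ∧
      |(dt.F k l + dt.Bf j * dt.X k l) - (dt.F k l' + dt.Bf j * dt.X k l')| ≤ V := by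
    intro l hl l' hl' heq
    obtain ⟨i1, i2⟩ := hTm l hl
    obtain ⟨i3, i4⟩ := hTm l' hl'
    have hlo := hlab1 l hl l' hl' heq
    have b9 : |(G n).rel k l l' 9| ≤ η := by
      refine (hlo 9).trans ?_
      rw [H.base n]
      exact rpow_anti B n (by linarith)
    have b11 : |(G n).rel k l l' 11| ≤ η := by
      refine (hlo 11).trans ?_
      rw [H.base n]
      exact rpow_anti B n (by linarith)
    obtain ⟨z0, x1, x2, x3, x4, x5, x6, x7⟩ := hbd k l i1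
    obtain ⟨-, y1, y2, y3, y4, y5, y6, y7⟩ := hbd k l' i3
    have g9 := hr9 k l l' i1 i3
    have g11 := hr11 k l l' i1 i3
    obtain ⟨cj1, cj2⟩ := hcc l j i2
    -- names
    set ΔX : ℝ := dt.X k l' - dt.X k l with hΔX
    set ΔH : ℝ := dt.H k l' - dt.H k l with hΔH
    set ΔF : ℝ := dt.F k l' - dt.F k l with hΔF
    have eX : (AX n l' + (G n).z k * C n l') - (AX n l + (G n).z k * C n l) = ΔX := rfl
    have eH : (AH n l' + (G n).z k * C n l' ^ 2 / 2) - (AH n l + (G n).z k * C n l ^ 2 / 2) =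
        ΔH := by
      show _ = (AH n l' + (G n).z k * (C n l' ^ 2 / 2)) - (AH n l + (G n).z k * (C n l ^ 2 / 2))
      ring
    have eF : (AF n l' + (G n).z k * P n l') - (AF n l + (G n).z k * P n l) = ΔF := rfl
    rw [eX, eH] at g9
    rw [eX, eH, eF] at g11
    have hXb : |ΔX| ≤ 4 * β ^ 2 := by
      rw [← eX]
      have u1 : |(G n).z k * C n l'| ≤ β * β := by
        rw [abs_mul]; exact mul_le_mul z0 y4 (abs_nonneg _) hβ0.le
      have u2 : |(G n).z k * C n l| ≤ β * β := by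
        rw [abs_mul]; exact mul_le_mul z0 x4 (abs_nonneg _) hβ0.le
      have u3 := abs_sub (AX n l' + (G n).z k * C n l') (AX n l + (G n).z k * C n l)
      have u4 := abs_add_le (AX n l') ((G n).z k * C n l')
      have u5 := abs_add_le (AX n l) ((G n).z k * C n l)
      nlinarith
    set κ : ℝ := 1 + al n ^ 2 with hκ
    have hκ1 : 1 ≤ κ := by rw [hκ]; nlinarith [sq_nonneg (al n)]
    have hκ2 : κ ≤ 2 * β ^ 2 := by
      have : al n ^ 2 ≤ β ^ 2 := by
        rw [← sq_abs]; exact pow_le_pow_left₀ (abs_nonneg _) hal 2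
      have h1 : 1 ≤ β ^ 2 := one_le_pow₀ hβ1
      rw [hκ]; linarith
    set Q : ℝ := ΔH - C n l * ΔX with hQ
    have hκQ : |κ * Q| ≤ η + δ := by
      have := abs_sub_abs_le_abs_sub (κ * Q) ((G n).rel k l l' 9)
      rw [abs_sub_comm] at this
      linarith
    have hQb : |Q| ≤ η + δ := by
      refine le_trans ?_ hκQ
      rw [abs_mul, abs_of_pos (by linarith : 0 < κ)]
      exact le_mul_of_one_le_left (abs_nonneg _) hκ1
    have hβ2 : 1 ≤ β ^ 2 := one_le_pow₀ hβ1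
    have hβ24 : β ^ 2 ≤ β ^ 4 := pow_le_pow_right₀ hβ1 (by norm_num)
    have hβ4 : 1 ≤ β ^ 4 := one_le_pow₀ hβ1
    have hηδ : 0 ≤ η + δ := by positivity
    have hβ14 : β ≤ β ^ 4 := by
      calc β = β ^ 1 := (pow_one _).symm
        _ ≤ β ^ 4 := pow_le_pow_right₀ hβ1 (by norm_num)
    constructor
    · have e1 : (dt.H k l - dt.C j * dt.X k l) - (dt.H k l' - dt.C j * dt.X k l') =
          -(Q + (C n l - C n j) * ΔX) := by
        show _ = -((ΔH - C n l * ΔX) + (C n l - C n j) * ΔX)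
        rw [hΔH, hΔX]
        show (dt.H k l - C n j * dt.X k l) - (dt.H k l' - C n j * dt.X k l') = _
        ring
      rw [e1, abs_neg]
      have u1 : |(C n l - C n j) * ΔX| ≤ δ * (4 * β ^ 2) := by
        rw [abs_mul]; exact mul_le_mul cj1 hXb (abs_nonneg _) hδ0.le
      calc |Q + (C n l - C n j) * ΔX| ≤ (η + δ) + δ * (4 * β ^ 2) :=
            (abs_add_le _ _).trans (add_le_add hQb u1)
        _ ≤ 8 * β ^ 4 * (η + δ) := by
            have v1 : δ * (4 * β ^ 2) ≤ 4 * (β ^ 4 * (η + δ)) := by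
              have w1 : δ * β ^ 2 ≤ (η + δ) * β ^ 4 :=
                mul_le_mul (by linarith) hβ24 (by positivity) hηδ
              linarith
            have v2 : η + δ ≤ β ^ 4 * (η + δ) := le_mul_of_one_le_left hηδ hβ4
            linarith
    · have e1 : (dt.F k l + dt.Bf j * dt.X k l) - (dt.F k l' + dt.Bf j * dt.X k l') =
          -((ΔF + Bf n l * ΔX) + (Bf n j - Bf n l) * ΔX) := by
        rw [hΔF, hΔX]
        show (dt.F k l + Bf n j * dt.X k l) - (dt.F k l' + Bf n j * dt.X k l') = _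
        ring
      rw [e1, abs_neg]
      have u1 : |(Bf n j - Bf n l) * ΔX| ≤ δ * (4 * β ^ 2) := by
        rw [abs_mul, abs_sub_comm (Bf n j)]
        exact mul_le_mul cj2 hXb (abs_nonneg _) hδ0.le
      have u2 : |κ * Ef n k l * Q| ≤ β * (η + δ) := by
        have : κ * Ef n k l * Q = Ef n k l * (κ * Q) := by ring
        rw [this, abs_mul]
        exact mul_le_mul x7 hκQ (abs_nonneg _) hβ0.le
      have u3 : |ΔF + Bf n l * ΔX| ≤ (η + δ) + β * (η + δ) := by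
        have v1 : |ΔF + Bf n l * ΔX + κ * Ef n k l * Q| ≤ η + δ := by
          have := abs_sub_abs_le_abs_sub (ΔF + Bf n l * ΔX + κ * Ef n k l * Q)
            ((G n).rel k l l' 11)
          rw [abs_sub_comm] at this
          linarith
        have v2 : ΔF + Bf n l * ΔX = (ΔF + Bf n l * ΔX + κ * Ef n k l * Q) -
            κ * Ef n k l * Q := by ring
        rw [v2]
        exact (abs_sub _ _).trans (add_le_add v1 u2)
      calc |(ΔF + Bf n l * ΔX) + (Bf n j - Bf n l) * ΔX| ≤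
            ((η + δ) + β * (η + δ)) + δ * (4 * β ^ 2) :=
            (abs_add_le _ _).trans (add_le_add u3 u1)
        _ ≤ 8 * β ^ 4 * (η + δ) := by
            have v1 : δ * (4 * β ^ 2) ≤ 4 * (β ^ 4 * (η + δ)) := by
              have w1 : δ * β ^ 2 ≤ (η + δ) * β ^ 4 :=
                mul_le_mul (by linarith) hβ24 (by positivity) hηδ
              linarith
            have v2 : η + δ ≤ β ^ 4 * (η + δ) := le_mul_of_one_le_left hηδ hβ4
            have v3 : β * (η + δ) ≤ β ^ 4 * (η + δ) :=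
              mul_le_mul_of_nonneg_right hβ14 hηδ
            linarith
  -- the number of labels
  have hfib : ∀ a ∈ T.image lab, (((((T.filter fun l => lab l = a).image fun l =>
      (⌊(dt.H k l - dt.C j * dt.X k l) / δ⌋, ⌊(dt.F k l + dt.Bf j * dt.X k l) / δ⌋)).card : ℕ)) : ℝ)
      ≤ (2 * (V / δ) + 3) ^ 2 := by
    intro a ha
    refine labels_card _ _ _ hδ0 hV0 fun l hl l' hl' => ?_
    obtain ⟨l1, l2⟩ := mem_filter.1 hl
    obtain ⟨l3, l4⟩ := mem_filter.1 hl'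
    exact hvar l l1 l' l3 (l2.trans l4.symm)
  have hcov : (T.image fun l =>
      (⌊(dt.H k l - dt.C j * dt.X k l) / δ⌋, ⌊(dt.F k l + dt.Bf j * dt.X k l) / δ⌋)) ⊆
      (T.image lab).biUnion fun a => (T.filter fun l => lab l = a).image fun l =>
        (⌊(dt.H k l - dt.C j * dt.X k l) / δ⌋, ⌊(dt.F k l + dt.Bf j * dt.X k l) / δ⌋) := by
    intro v hv
    obtain ⟨l, hl, rfl⟩ := mem_image.1 hv
    rw [mem_biUnion]
    exact ⟨lab l, mem_image_of_mem _ hl, mem_image.2 ⟨l, mem_filter.2 ⟨hl, rfl⟩, rfl⟩⟩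
  have hcnt : ((((T.image fun l =>
      (⌊(dt.H k l - dt.C j * dt.X k l) / δ⌋, ⌊(dt.F k l + dt.Bf j * dt.X k l) / δ⌋)).card : ℕ)) : ℝ)
      ≤ ((T.image lab).card : ℝ) * (2 * (V / δ) + 3) ^ 2 := by
    calc _ ≤ ((((T.image lab).biUnion fun a => (T.filter fun l => lab l = a).image fun l =>
        (⌊(dt.H k l - dt.C j * dt.X k l) / δ⌋,
          ⌊(dt.F k l + dt.Bf j * dt.X k l) / δ⌋)).card : ℕ) : ℝ) := by
          exact_mod_cast card_le_card hcov
      _ ≤ ∑ a ∈ T.image lab, (((((T.filter fun l => lab l = a).image fun l =>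
        (⌊(dt.H k l - dt.C j * dt.X k l) / δ⌋,
          ⌊(dt.F k l + dt.Bf j * dt.X k l) / δ⌋)).card : ℕ)) : ℝ) := by
          exact_mod_cast card_biUnion_le
      _ ≤ ∑ a ∈ T.image lab, (2 * (V / δ) + 3) ^ 2 := sum_le_sum hfib
      _ = _ := by rw [sum_const, nsmul_eq_mul]
  refine hcnt.trans ?_
  -- `V / δ ≤ ρ^(-K1 ε) / 16`
  have hVδ : 2 * (V / δ) + 3 ≤ B.d n ^ (-(K1 + 1) * ε) := by
    have e1 : V / δ = 8 * β ^ 4 * (B.d n ^ (-(D ^ 5 * c1 - 1) * ε) + 1) := by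
      rw [hV, hη, hδ, mul_div_assoc, add_div, div_self (hpow _).ne', ← Real.rpow_sub (B.pos n)]
      congr 3
      ring_nf
    have e2 : β ^ 4 = B.d n ^ (-(4 * ε)) := by
      rw [hβ, ← Real.rpow_natCast, ← Real.rpow_mul (B.pos n).le]
      congr 1; push_cast; ring
    have e3 : B.d n ^ (-(D ^ 5 * c1 - 1) * ε) ≤ B.d n ^ (-(D ^ 5 * c1) * ε) :=
      rpow_anti B n (by nlinarith)
    have e4 : (1 : ℝ) ≤ B.d n ^ (-(D ^ 5 * c1) * ε) := by
      apply Real.one_le_rpow_of_pos_of_le_one_of_nonpos (B.pos n) (B.lt n).le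
      have : 0 ≤ D ^ 5 * c1 * ε := by positivity
      linarith
    have e5 : B.d n ^ (-(4 * ε)) * B.d n ^ (-(D ^ 5 * c1) * ε) =
        B.d n ^ (-(D ^ 5 * c1 + 4) * ε) := by
      rw [← rpow_add']; congr 1; ring
    have e6 : B.d n ^ (-(K1 + 1) * ε) = B.d n ^ (-(7 * ε)) * B.d n ^ (-(D ^ 5 * c1 + 4) * ε) := by
      rw [← rpow_add']; congr 1; rw [hK1]; ring
    have e7 : (100 : ℝ) ≤ B.d n ^ (-(7 * ε)) :=
      h100.trans (rpow_anti B n (by linarith))
    have e8 : (1 : ℝ) ≤ B.d n ^ (-(D ^ 5 * c1 + 4) * ε) := by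
      apply Real.one_le_rpow_of_pos_of_le_one_of_nonpos (B.pos n) (B.lt n).le
      have : 0 ≤ (D ^ 5 * c1 + 4) * ε := by positivity
      linarith
    have e9 : V / δ ≤ 16 * B.d n ^ (-(D ^ 5 * c1 + 4) * ε) := by
      rw [e1, e2, ← e5]
      have := hpow (-(4 * ε))
      nlinarith
    rw [e6]
    nlinarith
  have hVδ0 : 0 ≤ 2 * (V / δ) + 3 := by positivity
  calc ((T.image lab).card : ℝ) * (2 * (V / δ) + 3) ^ 2
      ≤ B.d n ^ (-(ν pC - ν pH) - (D ^ 2 + 1) * (c1 * ε)) * (B.d n ^ (-(K1 + 1) * ε)) ^ 2 :=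
        mul_le_mul hlab2 (pow_le_pow_left₀ hVδ0 hVδ 2) (by positivity) (hpow _).le
    _ = B.d n ^ (-(ν pC - ν pH) - ((D ^ 2 + 1) * c1 + 2 * K1 + 2) * ε) := by
        rw [sq (B.d n ^ (-(K1 + 1) * ε)), ← rpow_add', ← rpow_add']
        congr 1
        ring

end Crest.Agent.R116.Sc748
end

-- ▼ part R116/Sc8_905
section

/-!
# R116, D4 at sigma = 2 (`SIG2`) over a relative model (helper905)

`strips_inc` : 708's `strips_glob` with a curvature flag which depends on the incidence.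
`sig2_model` : `σ x ≤ 2 (ν pC - ν pH) - (ν 0 - ν pA)`.
-/

set_option autoImplicit false
set_option linter.unusedVariables false
set_option linter.unusedSectionVars false

open Filter Topology Finset

namespace Crest.Agent.R116.Sc905

open Crest.Agent.R138.Ex926 (Base U)
open Crest.Agent.R136.Gf356
open Crest.Agent.R136.CD366
open Crest.Agent.R116.Sc708 (NoStrC)
open Crest.Agent.R116.Sc299 (GC pJ JC JA JH JF)

section inc

variable {κ : Type} {B : Base} {G : ℕ → RCfg κ} {Leg : Set (κ → ℝ)} {ν : (κ → ℝ) → ℝ}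
  {σ R D : ℝ}



end inc

variable {B : Base} {G : ℕ → RCfg (Fin 12)} {Leg : Set (Fin 12 → ℝ)} {ν : (Fin 12 → ℝ) → ℝ}
  {σ R D : ℝ}

/-- 858's dictionary from 299's -/
theorem dic858 {S : Finset (Fin 12)} {al : ℕ → ℝ} {AX AH AF C P Bf : ℕ → ℕ → ℝ}
    {Ef : ℕ → ℕ → ℕ → ℝ} {x : ℝ} (hb : ∀ n, (G n).ρ = B.d n)
    (g : GC B G al AX AH AF C P Bf Ef x) (T : Kr710.Thin B G S al x)
    (hall : ∀ ε : ℝ, 0 < ε → ∀ᶠ n in (U : Filter ℕ), ∀ k i l, (i, k) ∈ (G n).I →
      (l, k) ∈ (G n).I → (G n).loose 0 ε k i l) :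
    Sc858a.Dic B G (Sc299.dat G AX AH AF C P Bf) (pJ JA x) (pJ JC x) x 18 where
  c1 := by norm_num
  a := by
    intro ε hε
    filter_upwards [Sc299.ev_dic hb g T hall hε] with n h k i l hi hl hlo
    have := h.near_of k i l hi hl ε hε.le hlo
    have e1 : 9 * (ε + ε) = 18 * ε := by ring
    rwa [e1] at this
  b := by
    intro ε hε
    filter_upwards [Sc299.ev_dic hb g T hall hε] with n h k i l hi hl hlo
    have := h.of_near k i l hi hl ε hε.le hlo
    have e1 : 9 * (ε + ε) = 18 * ε := by ring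
    rwa [e1] at this
  a' := by
    intro ε hε
    filter_upwards [Sc299.ev_dic hb g T hall hε] with n h k i l hi hl hlo
    have := h.cls_of k i l hi hl ε hε.le hlo
    have e1 : 9 * (ε + ε) = 18 * ε := by ring
    rwa [e1] at this
  b' := by
    intro ε hε
    filter_upwards [Sc299.ev_dic hb g T hall hε] with n h k i l hi hl h1 h2
    have := h.of_cls k i l hi hl ε hε.le h1 h2
    have e1 : 9 * (ε + ε) = 18 * ε := by ring
    rwa [e1] at this


open Classical in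
/-- **`H7` of `core`** -/
theorem h7_of (H : RUnif B G Leg ν D) {AX AH AF C P Bf : ℕ → ℕ → ℝ} {x c : ℝ}
    (hDc : Sc858a.Dic B G (Sc299.dat G AX AH AF C P Bf) (pJ JA x) (pJ JC x) x c) {q R1 : ℝ}
    (hs : ∃ K : ℝ, 0 ≤ K ∧ ∀ r : ℝ, 0 < r → r ≤ R1 → ∀ ε : ℝ, 0 < ε →
      ∀ᶠ n in (U : Filter ℕ), ∀ i k, (i, k) ∈ (G n).I → ∀ e b u : ℝ, |e| ≤ B.d n ^ (-ε) →
      |b| ≤ B.d n ^ (-ε) →
      ((((G n).box (pJ JA x) ε i k).filter fun l =>
        |P n l + e * C n l ^ 2 / 2 + b * C n l - u| ≤ B.d n ^ r).card : ℝ) ≤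
        B.d n ^ (-(ν (pJ JA x)) + q * r - K * ε)) :
    ∃ K : ℝ, 0 ≤ K ∧ ∀ r : ℝ, 0 < r → r ≤ R1 → ∀ ε : ℝ, 0 < ε →
      ∀ᶠ n in (U : Filter ℕ), ∀ e b : ℝ, |e| ≤ B.d n ^ (-ε) → |b| ≤ B.d n ^ (-ε) →
      ∀ k ∈ (G n).Z, ∀ l0 ∈ (G n).L, (l0, k) ∈ (G n).I → ∀ l1 ∈ (G n).L, (l1, k) ∈ (G n).I →
      (((G n).L.filter fun l => ((l, k) ∈ (G n).I ∧
        (Sc299.dat G AX AH AF C P Bf n).near (B.d n ^ (x - ε)) k l0 l) ∧
        |(Sc299.dat G AX AH AF C P Bf n).V e b l - (Sc299.dat G AX AH AF C P Bf n).V e b l1| ≤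
          B.d n ^ r).card : ℝ) ≤
      B.d n ^ (-ν (pJ JA x) + q * r - K * ε) := by
  obtain ⟨K, hK, hs⟩ := hs
  have hc := hDc.c1
  refine ⟨K * c, by positivity, fun r hr0 hr ε hε => ?_⟩
  filter_upwards [hs r hr0 hr (c * ε) (by positivity), hDc.b ε hε] with n hsn hbn
  intro e b he hb k hk l0 hl0 hl0k l1 hl1 hl1k
  have hmono : B.d n ^ (-ε) ≤ B.d n ^ (-(c * ε)) := rpow_anti B n (by nlinarith)
  have f0 := hsn l0 k hl0k e b (P n l1 + e * C n l1 ^ 2 / 2 + b * C n l1) (he.trans hmono)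
    (hb.trans hmono)
  have e0 : -ν (pJ JA x) + q * r - K * (c * ε) = -ν (pJ JA x) + q * r - K * c * ε := by ring
  rw [e0] at f0
  refine le_trans (Nat.cast_le.2 (card_le_card ?_)) f0
  intro l hl
  obtain ⟨a1, ⟨a2, a3⟩, a4⟩ := mem_filter.1 hl
  refine mem_filter.2 ⟨RCfg.mem_box.2 ⟨H.memSlice.2 a2, hbn k l0 l hl0k a2 a3⟩, ?_⟩
  have e1 : P n l + e * C n l ^ 2 / 2 + b * C n l - (P n l1 + e * C n l1 ^ 2 / 2 + b * C n l1) =
      (Sc299.dat G AX AH AF C P Bf n).V e b l - (Sc299.dat G AX AH AF C P Bf n).V e b l1 := by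
    show _ = (P n l + e * (C n l ^ 2 / 2) + b * C n l) -
      (P n l1 + e * (C n l1 ^ 2 / 2) + b * C n l1)
    ring
  rw [e1]
  exact a4

open Classical in
/-- **SIG2 over a relative model**, strips as a hypothesis -/
theorem sig2_strips (M : RModel B G σ R Leg ν D) {S : Finset (Fin 12)} {al : ℕ → ℝ}
    {AX AH AF C P Bf : ℕ → ℕ → ℝ} {Ef : ℕ → ℕ → ℕ → ℝ} {x : ℝ}
    (g : GC B G al AX AH AF C P Bf Ef x) (T : Kr710.Thin B G S al x)
    (hall : ∀ ε : ℝ, 0 < ε → ∀ᶠ n in (U : Filter ℕ), ∀ k i l, (i, k) ∈ (G n).I →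
      (l, k) ∈ (G n).I → (G n).loose 0 ε k i l)
    (hx : 0 < x) (hxR : x ≤ R) (l0 : (0 : Fin 12 → ℝ) ∈ Leg) (lC : pJ JC x ∈ Leg)
    (lA : pJ JA x ∈ Leg) (lH : pJ JH x ∈ Leg) (lF : pJ JF x ∈ Leg)
    (hplat : ν 0 - ν (pJ JC x) ≤ ν (pJ JA x) - ν (pJ JF x))
    {q0 q R0 R1 : ℝ} (hq0 : 0 < q0) (hR0 : 0 < R0) (hN0 : NoStrC B G 0 3 10 ν q0 R0)
    (hq : 0 < q) (hR1 : 0 < R1)
    (hs : ∃ K : ℝ, 0 ≤ K ∧ ∀ r : ℝ, 0 < r → r ≤ R1 → ∀ ε : ℝ, 0 < ε →
      ∀ᶠ n in (U : Filter ℕ), ∀ i k, (i, k) ∈ (G n).I → ∀ e b u : ℝ, |e| ≤ B.d n ^ (-ε) →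
      |b| ≤ B.d n ^ (-ε) →
      ((((G n).box (pJ JA x) ε i k).filter fun l =>
        |P n l + e * C n l ^ 2 / 2 + b * C n l - u| ≤ B.d n ^ r).card : ℝ) ≤
        B.d n ^ (-(ν (pJ JA x)) + q * r - K * ε)) :
    σ * x ≤ 2 * (ν (pJ JC x) - ν (pJ JH x)) - (ν 0 - ν (pJ JA x)) := by
  have H := M.toRUnif
  have hDc := dic858 H.base g T hall
  have hne : ∀ n, (G n).L.Nonempty := by
    intro n
    obtain ⟨⟨i, k⟩, hik⟩ := H.nonempty n
    exact ⟨i, H.memL hik⟩
  have hZne : ∀ n, (G n).Z.Nonempty := by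
    intro n
    obtain ⟨⟨i, k⟩, hik⟩ := H.nonempty n
    exact ⟨k, H.memZ hik⟩
  refine sig2_glue (G := G) (B := B) (Sc299.dat G AX AH AF C P Bf) (R1 := R1) (q7 := q)
    (n0 := ν 0) (nA := ν (pJ JA x)) (nM := ν (pJ JC x) - ν (pJ JH x)) M.σ_nonneg hx hR1 hq hne
    hZne (fun n k => rfl) ?_ ?_ ?_ ?_ ?_ ?_ ?_ ?_ ?_
  · -- bounds
    intro ε hε
    filter_upwards [g.bd ε hε, M.line 1 one_pos] with n hbd hline l hl
    have hZ0 : (0 : ℝ) < (G n).Z.card := by exact_mod_cast (hZne n).card_pos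
    have h1 : (0 : ℝ) < ((G n).hts l).card :=
      lt_of_lt_of_le (mul_pos (rpos B n 1) hZ0) (hline l hl)
    obtain ⟨k, hk⟩ := card_pos.1 (by exact_mod_cast h1 : 0 < ((G n).hts l).card)
    have hlk : (l, k) ∈ (G n).I := (RCfg.mem_hts.1 hk).2
    obtain ⟨-, -, -, -, hC, -, hB, -⟩ := hbd k l hlk
    exact ⟨hC, hB⟩
  · -- number of lines
    refine ⟨D + 1, by have := H.D1; positivity, fun ε hε => ?_⟩
    filter_upwards [hall ε hε, M.slice ε hε, H.up 0 l0 ε hε] with n ha hsl hup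
    obtain ⟨⟨i, k⟩, hik⟩ := H.nonempty n
    have h1 := hsl k (H.memZ hik)
    have h2 : (((G n).slice k).card : ℝ) ≤ (((G n).box 0 ε i k).card : ℝ) := by
      refine Nat.cast_le.2 (card_le_card ?_)
      intro l hl
      exact RCfg.mem_box.2 ⟨hl, ha k i l hik (H.memSlice.1 hl)⟩
    have h3 := (h1.trans h2).trans (hup i k hik)
    have hp : 0 < B.d n ^ (-ε) := rpos B n _
    have h4 := mul_le_mul_of_nonneg_left h3 hp.le
    have e1 : B.d n ^ (-ε) * (B.d n ^ ε * ((G n).L.card : ℝ)) = ((G n).L.card : ℝ) := by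
      rw [← mul_assoc, ← rpow_add', neg_add_cancel, Real.rpow_zero, one_mul]
    rw [e1, ← rpow_add'] at h4
    refine h4.trans (le_of_eq ?_)
    congr 1; ring
  · -- H2
    have hD := H.D1
    have hmax : ∀ s, pJ JF x s ≤ max (pJ JA x s) (pJ JC x s) := by
      intro s
      by_cases hA : s ∈ JA
      · rw [Sc299.pJ_in hA]
        by_cases hs : s ∈ JF
        · rw [Sc299.pJ_in hs]; exact le_max_left _ _
        · rw [Sc299.pJ_out hs]; exact hx.le.trans (le_max_left _ _)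
      · by_cases hC : s ∈ JC
        · rw [Sc299.pJ_in hC]
          by_cases hs : s ∈ JF
          · rw [Sc299.pJ_in hs]; exact le_max_right _ _
          · rw [Sc299.pJ_out hs]; exact hx.le.trans (le_max_right _ _)
        · have hs : s ∉ JF := by revert hA hC; revert s; decide
          rw [Sc299.pJ_out hs, Sc299.pJ_out hA]
          exact le_max_left _ _
    refine ⟨2 + D + 3 * 18 * D ^ 5 + D * (D ^ 2 + 18), by positivity, fun ε hε => ?_⟩
    filter_upwards [Sc858a.h2 M hDc l0 lA lC lF hmax hall hplat hε] with n hn k hk l hl hlk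
    exact hn k l hlk
  · -- H3
    refine ⟨1 + D * 18, by have := H.D1; positivity, fun ε hε => ?_⟩
    filter_upwards [Sc858a.h3 M hDc l0 lA hε] with n hn k hk
    have := hn k hk
    have e1 : B.d n ^ ((1 + D * 18) * ε) * B.d n ^ (-(ν 0 - ν (pJ JA x))) =
        B.d n ^ (-(ν 0 - ν (pJ JA x)) + (1 + D * 18) * ε) := by
      rw [← rpow_add']; congr 1; ring
    rw [e1]
    exact this
  · -- H4
    obtain ⟨K, hK, hh⟩ := Sc748.h4 H g lC lH (fun j => by
        by_cases hj : j ∈ JC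
        · have hj' : j ∈ JH := by revert hj; revert j; decide
          rw [Sc299.pJ_in hj, Sc299.pJ_in hj']
        · rw [Sc299.pJ_out hj]
          by_cases hj' : j ∈ JH
          · rw [Sc299.pJ_in hj']; exact hx.le
          · rw [Sc299.pJ_out hj']) (by rw [Sc299.pJ_in (by decide)])
      (by rw [Sc299.pJ_in (by decide)]) (c := 18) (by norm_num) hDc.b'
    refine ⟨K, hK, fun ε hε => ?_⟩
    filter_upwards [hh ε hε] with n hn k hk j hj
    have ed : Sc748.dat G AX AH AF C P Bf n = Sc299.dat G AX AH AF C P Bf n := rfl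
    rw [ed] at hn
    exact hn k hk j hj
  · -- H5
    refine ⟨1, zero_le_one, fun ε hε => ?_⟩
    filter_upwards [Sc858a.h5 H hDc lA hε] with n hn k hk l hl hlk
    rw [one_mul]
    exact hn k l hlk
  · -- H6
    intro Kl hKl
    obtain ⟨K6, hK6, ε0, hε0, hh⟩ := Sc858a.h6 M hDc hx l0 lC hall hq0 hR0 hN0 g.r3 hKl
    refine ⟨K6, hK6, ε0, hε0, fun ε hε hεε => ?_⟩
    filter_upwards [hh ε hε hεε.le] with n hn l0 hl0
    exact hn l0 hl0
  · -- H7
    exact h7_of H hDc hs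
  · -- H8
    intro y hy0 hy ε hε
    filter_upwards [M.frost y hy0 (hy.trans hxR) ε hε] with n hn k hk
    have := hn k hk
    unfold RCfg.hbox at this
    rw [H.base n] at this
    exact this


open Classical in
/-- 803's `Sig2M` -/
theorem sig2M : ∀ (B : Base) (G : ℕ → RCfg (Fin 12)) (σ R : ℝ) (Leg : Set (Fin 12 → ℝ))
    (ν : (Fin 12 → ℝ) → ℝ) (D : ℝ) (al : ℕ → ℝ) (AX AH AF C P Bf : ℕ → ℕ → ℝ)
    (Ef : ℕ → ℕ → ℕ → ℝ) (S : Finset (Fin 12)) (x q R1 : ℝ), RModel B G σ R Leg ν D →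
    GC B G al AX AH AF C P Bf Ef x → Kr710.Thin B G S al x →
    (∀ ε : ℝ, 0 < ε → ∀ᶠ n in (U : Filter ℕ), ∀ k i l, (i, k) ∈ (G n).I → (l, k) ∈ (G n).I →
      (G n).loose 0 ε k i l) → 0 < x → x ≤ R → (0 : Fin 12 → ℝ) ∈ Leg → pJ JC x ∈ Leg →
    pJ JA x ∈ Leg → pJ JH x ∈ Leg → pJ JF x ∈ Leg →
    ν 0 - ν (pJ JC x) ≤ ν (pJ JA x) - ν (pJ JF x) → 0 < q → 0 < R1 → R1 ≤ x →
    Sc708.NoStrC B G 0 3 10 ν q R1 →
    (∃ K : ℝ, 0 ≤ K ∧ ∀ r : ℝ, 0 < r → r ≤ R1 → ∀ ε : ℝ, 0 < ε → ∀ᶠ n in (U : Filter ℕ),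
      ∀ i k, (i, k) ∈ (G n).I → ∀ e b u : ℝ, |e| ≤ B.d n ^ (-ε) → |b| ≤ B.d n ^ (-ε) →
      ((((G n).box (pJ JA x) ε i k).filter fun l =>
        |P n l + e * C n l ^ 2 / 2 + b * C n l - u| ≤ B.d n ^ r).card : ℝ) ≤
        B.d n ^ (-(ν (pJ JA x)) + q * r - K * ε)) →
    σ * x ≤ 2 * (ν (pJ JC x) - ν (pJ JH x)) - (ν 0 - ν (pJ JA x)) := by
  intro B G σ R Leg ν D al AX AH AF C P Bf Ef S x q R1 M g T hall hx hxR l0 lC lA lH lF hplat hq
    hR1 hR1x hN0 hs
  exact sig2_strips M g T hall hx hxR l0 lC lA lH lF hplat hq hR1 hN0 hq hR1 hs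

end Crest.Agent.R116.Sc905
end

-- ▼ part R116/Nar3g_863
section

/-!
# R116, [NARROW] (helper863), part 7: (A1) in a window, thin case

One direction of the velocities is live (`ca`, positions `xa`), the other one (`cb`, `xb`) is a
multiple of it; the second functional is `P` (slot `10`), with positions `F` (slot `11`).
`thinB e c x` : slot `2` at `e`, slots `3, 4, 10` at `c`, slots `5, 6, 11` at `x`.
-/

set_option autoImplicit false
set_option linter.unusedVariables false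
set_option linter.unusedSectionVars false

open Filter Topology Finset

namespace Crest.Agent.R116.Nar863

open Crest.Agent.R138.Ex926
open Crest.Agent.R136.Net191 Crest.Agent.R136.Qg926 Crest.Agent.R136.Gf356
open Crest.Agent.R136.NSt107
open Crest.Agent.R116.ChL222 Crest.Agent.R116.PL504 Crest.Agent.R116.EvL504
open Crest.Agent.R116.WinU954

variable {ι : ℕ → Type*} [∀ n, DecidableEq (ι n)]

/-- `E` at `e`, velocities at `c`, positions at `x` -/
def thinB (e c x : ℝ) : Fin 12 → ℝ := ![0, 0, e, c, c, x, x, 0, 0, 0, c, x]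

/-- live axis `(ca, xa)`, other axis `(cb, xb)` -/
def Axis (ca xa cb xb : Fin 12) : Prop :=
  (ca = 3 ∧ xa = 5 ∧ cb = 4 ∧ xb = 6) ∨ (ca = 4 ∧ xa = 6 ∧ cb = 3 ∧ xb = 5)

/-- the second component is a multiple of the live one, seen from any incidence of the class -/
def DimC (W : Wnd 12 ι) (ca xa cb xb : Fin 12) (t : ℝ) : Prop :=
  ∀ᶠ n in (U : Filter ℕ), ∀ x ∈ W.Cl n, ∃ κ : ℝ, |κ| ≤ 4 ∧ ∀ y ∈ W.Cl n,
    |W.crd n x y cb - κ * W.crd n x y ca| ≤ W.B'.d n ^ t ∧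
    |W.crd n x y xb - κ * W.crd n x y xa| ≤ W.B'.d n ^ t

section laws

variable {W : Wnd 12 ι} {K tp : ℝ} (h : WL W K tp) {n : ℕ}

include h

/-- the tilt of the strips -/
theorem tilt (g : W.Good n) {ca xa cb xb : Fin 12} (hax : Axis ca xa cb xb) {x y : ι n}
    (hx : x ∈ W.Cl n) (hy : y ∈ W.Cl n) {κ e : ℝ} (hκ : |κ| ≤ 4) (he : 0 ≤ e) :
    ∃ T : ℝ, |T| ≤ 5 ∧ ∀ w ∈ W.Cl n, |W.crd n y w cb - κ * W.crd n y w ca| ≤ e →
      |(W.co n x y 7 * W.co n y w 3 + W.co n x y 8 * W.co n y w 4) / side W n 10 -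
        T * W.crd n y w ca| ≤ e := by
  have hD := h.sides g
  have hp := hD.pos
  have ca' : ∀ s, |W.co n x y s| ≤ side W n s := fun s => h.bd0 g hx hy s
  have q7 : |W.co n x y 7 * side W n 3 / side W n 10| ≤ 1 := by
    rw [abs_div, abs_of_pos (hp 10), div_le_one (hp 10), abs_mul, abs_of_pos (hp 3)]
    refine (mul_le_mul_of_nonneg_right (ca' 7) (hp 3).le).trans ?_
    rw [mul_comm]
    exact hD.w10
  have q8 : |W.co n x y 8 * side W n 4 / side W n 10| ≤ 1 := by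
    rw [abs_div, abs_of_pos (hp 10), div_le_one (hp 10), abs_mul, abs_of_pos (hp 4)]
    refine (mul_le_mul_of_nonneg_right (ca' 8) (hp 4).le).trans ?_
    rw [mul_comm]
    exact hD.w10'
  have n3 := (hp 3).ne'
  have n4 := (hp 4).ne'
  have n10 := (hp 10).ne'
  rcases hax with ⟨rfl, rfl, rfl, rfl⟩ | ⟨rfl, rfl, rfl, rfl⟩
  · refine ⟨W.co n x y 7 * side W n 3 / side W n 10 +
      κ * (W.co n x y 8 * side W n 4 / side W n 10), ?_, fun w hw hc => ?_⟩
    · refine (abs_add_le _ _).trans ?_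
      rw [abs_mul]
      have := mul_le_mul hκ q8 (abs_nonneg _) (by norm_num)
      linarith
    · have e1 : (W.co n x y 7 * W.co n y w 3 + W.co n x y 8 * W.co n y w 4) / side W n 10 -
          (W.co n x y 7 * side W n 3 / side W n 10 +
            κ * (W.co n x y 8 * side W n 4 / side W n 10)) * W.crd n y w 3 =
          (W.co n x y 8 * side W n 4 / side W n 10) *
            (W.crd n y w 4 - κ * W.crd n y w 3) := by
        rw [crd_div h, crd_div h]
        field_simp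
        ring
      rw [e1, abs_mul]
      calc _ ≤ 1 * e := mul_le_mul q8 hc (abs_nonneg _) zero_le_one
        _ = e := one_mul _
  · refine ⟨W.co n x y 8 * side W n 4 / side W n 10 +
      κ * (W.co n x y 7 * side W n 3 / side W n 10), ?_, fun w hw hc => ?_⟩
    · refine (abs_add_le _ _).trans ?_
      rw [abs_mul]
      have := mul_le_mul hκ q7 (abs_nonneg _) (by norm_num)
      linarith
    · have e1 : (W.co n x y 7 * W.co n y w 3 + W.co n x y 8 * W.co n y w 4) / side W n 10 -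
          (W.co n x y 8 * side W n 4 / side W n 10 +
            κ * (W.co n x y 7 * side W n 3 / side W n 10)) * W.crd n y w 4 =
          (W.co n x y 7 * side W n 3 / side W n 10) *
            (W.crd n y w 3 - κ * W.crd n y w 4) := by
        rw [crd_div h, crd_div h]
        field_simp
        ring
      rw [e1, abs_mul]
      calc _ ≤ 1 * e := mul_le_mul q7 hc (abs_nonneg _) zero_le_one
        _ = e := one_mul _

/-- size of the tilt in slot `10` -/
theorem tilt10 (g : W.Good n) {x y w : ι n} (hx : x ∈ W.Cl n) (hy : y ∈ W.Cl n) (hw : w ∈ W.Cl n)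
    {e : ℝ} (h3 : |W.crd n y w 3| ≤ e) (h4 : |W.crd n y w 4| ≤ e) :
    |(W.co n x y 7 * W.co n y w 3 + W.co n x y 8 * W.co n y w 4) / side W n 10| ≤ 2 * e := by
  have hD := h.sides g
  have hp := hD.pos
  have ca' : ∀ s, |W.co n x y s| ≤ side W n s := fun s => h.bd0 g hx hy s
  have he : 0 ≤ e := (abs_nonneg _).trans h3
  rw [crd_div h, abs_div, abs_of_pos (hp 3), div_le_iff₀ (hp 3)] at h3
  rw [crd_div h, abs_div, abs_of_pos (hp 4), div_le_iff₀ (hp 4)] at h4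
  rw [abs_div, abs_of_pos (hp 10), div_le_iff₀ (hp 10)]
  refine (abs_add_le _ _).trans ?_
  rw [abs_mul, abs_mul]
  have a := mul_le_mul (ca' 7) h3 (abs_nonneg _) (hp 7).le
  have b := mul_le_mul (ca' 8) h4 (abs_nonneg _) (hp 8).le
  have c := mul_le_mul_of_nonneg_left hD.w10 he
  have d := mul_le_mul_of_nonneg_left hD.w10' he
  nlinarith

/-- size of the tilt in slot `11` -/
theorem tilt11 (g : W.Good n) {x y w : ι n} (hx : x ∈ W.Cl n) (hy : y ∈ W.Cl n) (hw : w ∈ W.Cl n)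
    {e e' : ℝ} (h5 : |W.crd n y w 5| ≤ e) (h6 : |W.crd n y w 6| ≤ e') :
    |(W.co n x y 7 * W.co n y w 5 + W.co n x y 8 * W.co n y w 6) / side W n 11| ≤ e + e' := by
  have hD := h.sides g
  have hp := hD.pos
  have ca' : ∀ s, |W.co n x y s| ≤ side W n s := fun s => h.bd0 g hx hy s
  have he : 0 ≤ e := (abs_nonneg _).trans h5
  have he' : 0 ≤ e' := (abs_nonneg _).trans h6
  rw [crd_div h, abs_div, abs_of_pos (hp 5), div_le_iff₀ (hp 5)] at h5
  rw [crd_div h, abs_div, abs_of_pos (hp 6), div_le_iff₀ (hp 6)] at h6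
  rw [abs_div, abs_of_pos (hp 11), div_le_iff₀ (hp 11)]
  refine (abs_add_le _ _).trans ?_
  rw [abs_mul, abs_mul]
  have a := mul_le_mul (ca' 7) h5 (abs_nonneg _) (hp 7).le
  have b := mul_le_mul (ca' 8) h6 (abs_nonneg _) (hp 8).le
  have c := mul_le_mul_of_nonneg_left hD.w11a he
  have d := mul_le_mul_of_nonneg_left hD.w11b he'
  nlinarith

end laws

section pin

variable {W : Wnd 12 ι} {K tp : ℝ} (h : WL W K tp) {n : ℕ} {E : ∀ n, Finset (ι n)}
  (r : Reg W E n) {i0 k0 : ℕ → ℕ} (hp : (i0 n, k0 n) ∈ (W.cfg E n).I)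

include h r hp

/-- slot `2` seen from the pin, for a line of the class -/
theorem two_pin (hS2 : (2 : Fin 12) ∉ W.S) (ht2 : tp ≤ W.top 2)
    (hsl : SlackD W n (W.B'.d n ^ tp)) {ε : ℝ} (hε : 0 ≤ ε) {i k : ℕ}
    (hi0 : (i, k0 n) ∈ (W.cfg E n).I)
    (hlo : |(W.cfg E n).rel (k0 n) (i0 n) i 2| ≤ W.B'.d n ^ (tp - ε))
    (hi : (i, k) ∈ (W.cfg E n).I) :
    |W.crd n (f0 W i0 k0 n) (W.rep n i k) 2| ≤ 4 * W.B'.d n ^ (tp - ε) := by
  obtain ⟨a1, a2, a3⟩ := r.spec hi0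
  obtain ⟨b1, b2, b3⟩ := r.spec hi
  have c1 := crd2 h r.good hsl (r.spec hp).1 a1 b1
  have c2 := h.crd_l r.good a1 b1 (a2.trans b2.symm) hS2 ht2
  rw [r.rel_of hS2] at hlo
  have m : W.B'.d n ^ tp ≤ W.B'.d n ^ (tp - ε) := rpow_anti W.B' n (by linarith)
  have u1 := abs_le.1 c1
  have u2 := abs_le.1 c2
  have u3 := abs_le.1 hlo
  change |W.crd n (W.rep n (i0 n) (k0 n)) (W.rep n i k) 2| ≤ _
  rw [abs_le]
  constructor <;> linarith [u1.1, u1.2, u2.1, u2.2, u3.1, u3.2]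

/-- slot `2` between two lines of the class, at any height -/
theorem two_rel (hS2 : (2 : Fin 12) ∉ W.S) (ht2 : tp ≤ W.top 2)
    (hsl : SlackD W n (W.B'.d n ^ tp)) {ε : ℝ} (hε : 0 ≤ ε) {i l k : ℕ}
    (hi0 : (i, k0 n) ∈ (W.cfg E n).I) (hl0 : (l, k0 n) ∈ (W.cfg E n).I)
    (hio : |(W.cfg E n).rel (k0 n) (i0 n) i 2| ≤ W.B'.d n ^ (tp - ε))
    (hlo : |(W.cfg E n).rel (k0 n) (i0 n) l 2| ≤ W.B'.d n ^ (tp - ε))
    (hi : (i, k) ∈ (W.cfg E n).I) (hl' : (l, k) ∈ (W.cfg E n).I) :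
    |(W.cfg E n).rel k i l 2| ≤ 10 * W.B'.d n ^ (tp - ε) := by
  have c1 := two_pin h r hp hS2 ht2 hsl hε hi0 hio hi
  have c2 := two_pin h r hp hS2 ht2 hsl hε hl0 hlo hl'
  have c3 := crd2 h r.good hsl (r.spec hp).1 (r.spec hi).1 (r.spec hl').1
  rw [r.rel_of hS2]
  change |W.crd n (f0 W i0 k0 n) (W.rep n l k) 2 - (W.crd n (f0 W i0 k0 n) (W.rep n i k) 2 +
    W.crd n (W.rep n i k) (W.rep n l k) 2)| ≤ _ at c3
  have m : W.B'.d n ^ tp ≤ W.B'.d n ^ (tp - ε) := rpow_anti W.B' n (by linarith)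
  have u1 := abs_le.1 c1
  have u2 := abs_le.1 c2
  have u3 := abs_le.1 c3
  rw [abs_le]
  constructor <;> linarith [u1.1, u1.2, u2.1, u2.2, u3.1, u3.2]

/-- **slots `F, P`**, position and velocity functionals in the frame of the pin -/
theorem pos10 (n11 : side W n 0 * side W n 10 = side W n 11)
    (hsl : SlackD W n (W.B'.d n ^ tp)) {η : ℝ} {k i l : ℕ}
    (hη : |W.crd n (f0 W i0 k0 n) (W.rep n i k) 2| ≤ η)
    (hi : (i, k) ∈ (W.cfg E n).I) (hl' : (l, k) ∈ (W.cfg E n).I) :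
    |((Af W E i0 k0 11 10 n l + (W.cfg E n).z k * Vf W E i0 k0 10 n l) -
      (Af W E i0 k0 11 10 n i + (W.cfg E n).z k * Vf W E i0 k0 10 n i)) -
      ((W.cfg E n).rel k i l 11 -
        (W.co n (f0 W i0 k0 n) (W.rep n i k) 7 * W.co n (W.rep n i k) (W.rep n l k) 5 +
          W.co n (f0 W i0 k0 n) (W.rep n i k) 8 * W.co n (W.rep n i k) (W.rep n l k) 6) /
            side W n 11)| ≤ η + 294 * W.B'.d n ^ tp ∧
    |(Vf W E i0 k0 10 n l - Vf W E i0 k0 10 n i) -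
      ((W.cfg E n).rel k i l 10 -
        (W.co n (f0 W i0 k0 n) (W.rep n i k) 7 * W.co n (W.rep n i k) (W.rep n l k) 3 +
          W.co n (f0 W i0 k0 n) (W.rep n i k) 8 * W.co n (W.rep n i k) (W.rep n l k) 4) /
            side W n 10)| ≤ η + 102 * W.B'.d n ^ tp := by
  have h11 : (11 : Fin 12) ∉ SL := by decide
  have h10 : (10 : Fin 12) ∉ SL := by decide
  have t1 := swap h r hp h11 h10 hi hl'
  have t2 := swap h r hp h11 h10 hi hi
  have t3 := Vf_rep h r hp h10 hl'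
  have t4 := Vf_rep h r hp h10 hi
  have t5 := crd11 h r.good hsl n11 (r.spec hp).1 (r.spec hi).1 (r.spec hl').1 hη
  have t6 := crd10 h r.good hsl (r.spec hp).1 (r.spec hi).1 (r.spec hl').1 hη
  rw [r.rel_of (h.notS h11), r.rel_of (h.notS h10)]
  change |(W.crd n (f0 W i0 k0 n) (W.rep n l k) 11 + W.crd n (f0 W i0 k0 n) (W.rep n i k) 0 *
      W.crd n (f0 W i0 k0 n) (W.rep n l k) 10) -
    (W.crd n (f0 W i0 k0 n) (W.rep n i k) 11 + W.crd n (f0 W i0 k0 n) (W.rep n i k) 0 *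
      W.crd n (f0 W i0 k0 n) (W.rep n i k) 10) -
    (W.crd n (W.rep n i k) (W.rep n l k) 11 -
      (W.co n (f0 W i0 k0 n) (W.rep n i k) 7 * W.co n (W.rep n i k) (W.rep n l k) 5 +
        W.co n (f0 W i0 k0 n) (W.rep n i k) 8 * W.co n (W.rep n i k) (W.rep n l k) 6) /
          side W n 11)| ≤ _ at t5
  change |W.crd n (f0 W i0 k0 n) (W.rep n l k) 10 - (W.crd n (f0 W i0 k0 n) (W.rep n i k) 10 +
    W.crd n (W.rep n i k) (W.rep n l k) 10 -
      (W.co n (f0 W i0 k0 n) (W.rep n i k) 7 * W.co n (W.rep n i k) (W.rep n l k) 3 +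
        W.co n (f0 W i0 k0 n) (W.rep n i k) 8 * W.co n (W.rep n i k) (W.rep n l k) 4) /
          side W n 10)| ≤ _ at t6
  have v1 := abs_le.1 t1
  have v2 := abs_le.1 t2
  have v3 := abs_le.1 t3
  have v4 := abs_le.1 t4
  have v5 := abs_le.1 t5
  have v6 := abs_le.1 t6
  constructor
  · rw [abs_le]
    constructor <;> linarith [v1.1, v1.2, v2.1, v2.2, v5.1, v5.2]
  · rw [abs_le]
    constructor <;> linarith [v3.1, v3.2, v4.1, v4.2, v6.1, v6.2]

end pin

/-- normalisation of a tilted strip -/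
theorem tilt_unit {e1 e2 T : ℝ} (he : e1 ^ 2 + e2 ^ 2 = 1) (hT : |T| ≤ 5) :
    ∃ b : Fin 2 → ℝ, b 0 ^ 2 + b 1 ^ 2 = 1 ∧ ∀ (u v w : ℝ), |(e1 - e2 * T) * u + e2 * v| ≤ w →
      |b 0 * u + b 1 * v| ≤ 12 * w := by
  set N2 : ℝ := (e1 - e2 * T) ^ 2 + e2 ^ 2 with hN2
  have hT1 := abs_le.1 hT
  have hN : 1 / 144 ≤ N2 := by
    by_contra hcon
    push Not at hcon
    have a1 : e2 ^ 2 < 1 / 144 := by nlinarith [sq_nonneg (e1 - e2 * T)]
    have a2 : (e1 - e2 * T) ^ 2 < 1 / 144 := by nlinarith [sq_nonneg e2]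
    have b1 : |e2| < 1 / 12 := by
      rw [← abs_of_pos (show (0:ℝ) < 1 / 12 by norm_num)]
      exact sq_lt_sq.1 (by norm_num; linarith)
    have b2 : |e1 - e2 * T| < 1 / 12 := by
      rw [← abs_of_pos (show (0:ℝ) < 1 / 12 by norm_num)]
      exact sq_lt_sq.1 (by norm_num; linarith)
    have b3 : |e2 * T| ≤ 5 / 12 := by
      rw [abs_mul]
      have := mul_le_mul b1.le hT (abs_nonneg _) (by norm_num)
      linarith
    have b4 : |e1| ≤ 1 / 2 := by
      have := abs_add_le (e1 - e2 * T) (e2 * T)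
      rw [sub_add_cancel] at this
      linarith
    have b5 : e1 ^ 2 ≤ 1 / 4 := by
      rw [← sq_abs]
      nlinarith [abs_nonneg e1]
    linarith
  have hN0 : 0 < N2 := by linarith
  set N : ℝ := Real.sqrt N2 with hNd
  have hNN : N ^ 2 = N2 := Real.sq_sqrt hN0.le
  have hNp : 0 < N := Real.sqrt_pos.2 hN0
  have hN12 : 1 / 12 ≤ N := by
    rw [hNd]
    apply Real.le_sqrt_of_sq_le
    norm_num
    linarith
  refine ⟨![(e1 - e2 * T) / N, e2 / N], ?_, fun u v w hw => ?_⟩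
  · show ((e1 - e2 * T) / N) ^ 2 + (e2 / N) ^ 2 = 1
    rw [div_pow, div_pow, ← add_div, hNN, ← hN2]
    exact div_self hN0.ne'
  · show |(e1 - e2 * T) / N * u + e2 / N * v| ≤ 12 * w
    have hw0 : 0 ≤ w := (abs_nonneg _).trans hw
    have e : (e1 - e2 * T) / N * u + e2 / N * v = ((e1 - e2 * T) * u + e2 * v) / N := by
      field_simp
    rw [e, abs_div, abs_of_pos hNp, div_le_iff₀ hNp]
    nlinarith

section win

variable {W : Wnd 12 ι} {K t : ℝ} (h : WL W K t) {E : ∀ n, Finset (ι n)}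
  {Leg' : Set (Fin 12 → ℝ)} {nu : (Fin 12 → ℝ) → ℝ} {Dc σ : ℝ}

include h

theorem addP_thin (hbase : ∀ n, (W.cfg E n).ρ = W.B'.d n)
    (hr : ∀ᶠ n in (U : Filter ℕ), Reg W E n) (hS2 : (2 : Fin 12) ∉ W.S)
    (hsl : ∀ᶠ n in (U : Filter ℕ), SlackD W n (W.B'.d n ^ t)) {ca : Fin 12}
    (hca : ca = 3 ∨ ca = 4) :
    AddP W.B' (W.cfg E) (thinB t 0 0) (fun c => thinB t c 0) ca 10 2 t := by
  intro c hc hct ε hε
  filter_upwards [hr, hsl, ev_const_le W.B' hε 9] with n r hs h9 k i l m hi hl' hm lo1 lo2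
  have hx := (r.spec hi).1
  have hy := (r.spec hl').1
  have hw := (r.spec hm).1
  have h3 : (3 : Fin 12) ∉ SL := by decide
  have h4 : (4 : Fin 12) ∉ SL := by decide
  have h10 : (10 : Fin 12) ∉ SL := by decide
  have e2 := lo1 2
  have e3 := lo2 3
  have e4 := lo2 4
  rw [hbase] at e2 e3 e4
  rw [r.rel_of hS2] at e2
  rw [r.rel_of (h.notS h3)] at e3
  rw [r.rel_of (h.notS h4)] at e4
  change |_| ≤ W.B'.d n ^ (t - ε) at e2
  change |_| ≤ W.B'.d n ^ (c - ε) at e3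
  change |_| ≤ W.B'.d n ^ (c - ε) at e4
  have key := crd10 h r.good hs hx hy hw e2
  have til := tilt10 h r.good hx hy hw e3 e4
  have m1 : W.B'.d n ^ t ≤ W.B'.d n ^ (c - ε) := rpow_anti W.B' n (by linarith)
  have m2 : W.B'.d n ^ (t - ε) ≤ W.B'.d n ^ (c - ε) := rpow_anti W.B' n (by linarith)
  have m3 : 9 * W.B'.d n ^ (c - ε) ≤ W.B'.d n ^ (c - 2 * ε) := pwb W.B' h9 (by linarith)
  constructor
  · have hpos := (rpos W.B' n (c - 2 * ε)).le
    rcases hca with rfl | rfl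
    · rw [r.rel_of (h.notS h3), r.rel_of (h.notS h3), r.rel_of (h.notS h3),
        crd3 h (W.rep n i k) (W.rep n l k) (W.rep n m k), sub_self, abs_zero]
      exact hpos
    · rw [r.rel_of (h.notS h4), r.rel_of (h.notS h4), r.rel_of (h.notS h4),
        crd4 h (W.rep n i k) (W.rep n l k) (W.rep n m k), sub_self, abs_zero]
      exact hpos
  · rw [r.rel_of (h.notS h10), r.rel_of (h.notS h10), r.rel_of (h.notS h10)]
    have u1 := abs_le.1 key
    have u2 := abs_le.1 til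
    rw [abs_le]
    constructor <;> linarith [u1.1, u1.2, u2.1, u2.2]

theorem posD_thin (H : RModel W.B' (W.cfg E) σ t Leg' nu Dc)
    (hr : ∀ᶠ n in (U : Filter ℕ), Reg W E n) (hS2 : (2 : Fin 12) ∉ W.S) (ht2 : t ≤ W.top 2)
    (hsl : ∀ᶠ n in (U : Filter ℕ), SlackD W n (W.B'.d n ^ t))
    {ca xa cb xb : Fin 12} (hax : Axis ca xa cb xb) (hdim : DimC W ca xa cb xb t)
    (n5 : ∀ n, side W n 0 * side W n 3 = side W n 5)
    (n6 : ∀ n, side W n 0 * side W n 4 = side W n 6)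
    (n11 : ∀ n, side W n 0 * side W n 10 = side W n 11) {i0 k0 : ℕ → ℕ}
    (hp : ∀ n, (i0 n, k0 n) ∈ (W.cfg E n).I) {x : ℝ} (hx : 0 < x) (hxt : x ≤ t) (ht : 0 < t) :
    PosD W.B' (W.cfg E) i0 k0 (thinB t 0 0) (thinB t 0 x) ca 10 (Af W E i0 k0 xa ca)
      (Af W E i0 k0 11 10) (Vf W E i0 k0 ca) (Vf W E i0 k0 10) 2 x t := by
  have hbase : ∀ n, (W.cfg E n).ρ = W.B'.d n := H.base
  have one_le : ∀ (n : ℕ) {u : ℝ}, u ≤ 0 → (1 : ℝ) ≤ W.B'.d n ^ u := fun n u hu =>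
    Real.one_le_rpow_of_pos_of_le_one_of_nonpos (W.B'.pos n) (W.B'.lt n).le hu
  have hmono : ∀ (n : ℕ) {s u : ℝ}, s ≤ u → W.B'.d n ^ u ≤ W.B'.d n ^ s := fun n s u hh =>
    rpow_anti W.B' n hh
  have slc : ∀ {n i : ℕ} {p : Fin 12 → ℝ} {ε : ℝ} {a k : ℕ}, i ∈ (W.cfg E n).box p ε a k →
      (i, k) ∈ (W.cfg E n).I := fun hi => H.memSlice.1 (RCfg.mem_box.1 hi).1
  have lo2 : ∀ {n i : ℕ} {ε : ℝ}, i ∈ (W.cfg E n).box (thinB t 0 0) ε (i0 n) (k0 n) →
      |(W.cfg E n).rel (k0 n) (i0 n) i 2| ≤ W.B'.d n ^ (t - ε) := by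
    intro n i ε hi
    have := (RCfg.mem_box.1 hi).2 2
    rw [hbase] at this
    exact this
  have hs : ∀ n, (xa = 5 ∧ ca = 3 ∧ side W n 0 * side W n 3 = side W n 5) ∨
      (xa = 6 ∧ ca = 4 ∧ side W n 0 * side W n 4 = side W n 6) := by
    intro n
    rcases hax with ⟨a, b, -, -⟩ | ⟨a, b, -, -⟩
    · exact Or.inl ⟨b, a, n5 n⟩
    · exact Or.inr ⟨b, a, n6 n⟩
  have h5 : (5 : Fin 12) ∉ SL := by decide
  have h6 : (6 : Fin 12) ∉ SL := by decide
  constructor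
  · norm_num
  · intro ε hε
    filter_upwards [hr] with n r k hk
    obtain ⟨i, hi⟩ : ∃ i, (i, k) ∈ (W.cfg E n).I := by
      rw [r.cfg_eq] at hk ⊢
      obtain ⟨z, hz, rfl⟩ := mem_image.1 hk
      exact ⟨W.lc n z, mem_image.2 ⟨z, hz, rfl⟩⟩
    exact (z_le h r hi).trans (one_le n (by nlinarith))
  · intro ε hε
    filter_upwards [hr, ev_const_le W.B' hε 2] with n r h2 i hi i' hi'
    have key : ∀ s, |Vf W E i0 k0 s n i - Vf W E i0 k0 s n i'| ≤ W.B'.d n ^ (-(2 * ε)) := by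
      intro s
      have a := Vf_le h r (hp n) s (slc hi)
      have b := Vf_le h r (hp n) s (slc hi')
      refine (abs_sub _ _).trans ?_
      have : W.B'.d n ^ (-ε) ≤ W.B'.d n ^ (-(2 * ε)) := hmono n (by linarith)
      linarith
    exact ⟨key ca, key 10⟩
  · intro ε hε
    filter_upwards [hr, ev_const_le W.B' hε 4] with n r h4 i hi i' hi'
    have zz := z_le h r (hp n)
    have key : ∀ s s', |Af W E i0 k0 s s' n i - Af W E i0 k0 s s' n i'| ≤
        W.B'.d n ^ (-(2 * ε)) := by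
      intro s s'
      have b1 : ∀ {j}, (j, k0 n) ∈ (W.cfg E n).I → |Af W E i0 k0 s s' n j| ≤ 2 := by
        intro j hj
        have a := Vf_le h r (hp n) s hj
        have b := Vf_le h r (hp n) s' hj
        unfold Af
        refine (abs_sub _ _).trans ?_
        rw [abs_mul]
        have := mul_le_mul zz b (abs_nonneg _) zero_le_one
        linarith
      have a := b1 (slc hi)
      have b := b1 (slc hi')
      refine (abs_sub _ _).trans ?_
      have : W.B'.d n ^ (-ε) ≤ W.B'.d n ^ (-(2 * ε)) := hmono n (by linarith)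
      linarith
    exact ⟨key xa ca, key 11 10⟩
  · intro ε hε
    filter_upwards [hr, hsl, ev_const_le W.B' hε 301] with n r sl h301 k hk i hi hik l hlk hlo
    have cx := (posC h r (hp n) (hs n) hik hlk).1
    have tp := two_pin h r (hp n) hS2 ht2 sl hε.le (slc hi) (lo2 hi) hik
    have c11 := (pos10 h r (hp n) (n11 n) sl tp hik hlk).1
    have l5 : |(W.cfg E n).rel k i l 5| ≤ W.B'.d n ^ (x - ε) := by
      have := hlo 5
      rw [hbase] at this
      exact this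
    have l6 : |(W.cfg E n).rel k i l 6| ≤ W.B'.d n ^ (x - ε) := by
      have := hlo 6
      rw [hbase] at this
      exact this
    have l11 : |(W.cfg E n).rel k i l 11| ≤ W.B'.d n ^ (x - ε) := by
      have := hlo 11
      rw [hbase] at this
      exact this
    have lx : |(W.cfg E n).rel k i l xa| ≤ W.B'.d n ^ (x - ε) := by
      rcases hax with ⟨-, rfl, -, -⟩ | ⟨-, rfl, -, -⟩
      · exact l5
      · exact l6
    have til := tilt11 h r.good (r.spec (hp n)).1 (r.spec hik).1 (r.spec hlk).1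
      (e := W.B'.d n ^ (x - ε)) (e' := W.B'.d n ^ (x - ε))
      (by rw [← r.rel_of (h.notS h5)]; exact l5) (by rw [← r.rel_of (h.notS h6)]; exact l6)
    have m1 : W.B'.d n ^ t ≤ W.B'.d n ^ (x - ε) := hmono n (by linarith)
    have m1' : W.B'.d n ^ (t - ε) ≤ W.B'.d n ^ (x - ε) := hmono n (by linarith)
    have m2 : 301 * W.B'.d n ^ (x - ε) ≤ W.B'.d n ^ (x - 2 * ε) := pwb W.B' h301 (by linarith)
    have hpos := rpos W.B' n (x - ε)
    change |(W.co n (f0 W i0 k0 n) (W.rep n i k) 7 * W.co n (W.rep n i k) (W.rep n l k) 5 +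
      W.co n (f0 W i0 k0 n) (W.rep n i k) 8 * W.co n (W.rep n i k) (W.rep n l k) 6) /
        side W n 11| ≤ _ at til
    have u1 := abs_le.1 cx
    have u2 := abs_le.1 c11
    have u3 := abs_le.1 lx
    have u4 := abs_le.1 l11
    have u5 := abs_le.1 til
    constructor
    · rw [abs_le]
      constructor <;> linarith [u1.1, u1.2, u3.1, u3.2]
    · rw [abs_le]
      constructor <;> linarith [u2.1, u2.2, u4.1, u4.2, u5.1, u5.2]
  · intro ε hε
    filter_upwards [hr, hsl, ev_const_le W.B' hε 10] with n r sl h10 k hk i hi i' hi' hik hik' s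
    have tw := two_rel h r (hp n) hS2 ht2 sl hε.le (slc hi) (slc hi') (lo2 hi) (lo2 hi') hik hik'
    rw [hbase]
    have triv : ∀ s, thinB t 0 0 s = 0 → |(W.cfg E n).rel k i i' s| ≤
        W.B'.d n ^ (thinB t 0 0 s - 2 * ε) := by
      intro s hs
      rw [hs]
      exact (r.rel_le h hik hik' s).trans (one_le n (by nlinarith))
    have two : |(W.cfg E n).rel k i i' 2| ≤ W.B'.d n ^ (thinB t 0 0 2 - 2 * ε) :=
      tw.trans (pwb W.B' h10 (by show t - 2 * ε ≤ _; linarith))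
    fin_cases s
    exacts [triv _ rfl, triv _ rfl, two, triv _ rfl, triv _ rfl, triv _ rfl, triv _ rfl,
      triv _ rfl, triv _ rfl, triv _ rfl, triv _ rfl, triv _ rfl]
  · intro C hC
    refine ⟨C + 2, by linarith, fun ε hε => ?_⟩
    filter_upwards [hr, hsl, hdim, ev_const_le W.B' hε 2645] with n r sl dm hK k hk i hi l hl' hik
      hlk f1 f2 s
    have cx := (posC h r (hp n) (hs n) hik hlk).1
    have tp := two_pin h r (hp n) hS2 ht2 sl hε.le (slc hi) (lo2 hi) hik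
    have c11 := (pos10 h r (hp n) (n11 n) sl tp hik hlk).1
    have tw := two_rel h r (hp n) hS2 ht2 sl hε.le (slc hi) (slc hl') (lo2 hi) (lo2 hl') hik hlk
    obtain ⟨κ, hκ, hd⟩ := dm _ (r.spec hik).1
    have hd2 := (hd _ (r.spec hlk).1).2
    set Q := W.B'.d n ^ (x - (C + 1) * ε) with hQ
    have hQ0 : 0 < Q := rpos W.B' n _
    have m0 : W.B'.d n ^ (x - C * ε) ≤ Q := hmono n (by nlinarith)
    have m1 : W.B'.d n ^ t ≤ Q := hmono n (by nlinarith)
    have m2 : W.B'.d n ^ (t - ε) ≤ Q := hmono n (by nlinarith)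
    have m3 : 2645 * Q ≤ W.B'.d n ^ (x - (C + 2) * ε) := pwb W.B' hK (by linarith)
    have u1 := abs_le.1 cx
    have u2 := abs_le.1 f1
    have ra : |(W.cfg E n).rel k i l xa| ≤ 293 * Q := by
      rw [abs_le]
      constructor <;> linarith [u1.1, u1.2, u2.1, u2.2]
    have hxaS : xa ∉ W.S := by
      rcases hax with ⟨-, rfl, -, -⟩ | ⟨-, rfl, -, -⟩
      · exact h.notS h5
      · exact h.notS h6
    have hxbS : xb ∉ W.S := by
      rcases hax with ⟨-, -, -, rfl⟩ | ⟨-, -, -, rfl⟩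
      · exact h.notS h6
      · exact h.notS h5
    rw [← r.rel_of hxaS, ← r.rel_of hxbS] at hd2
    have rb : |(W.cfg E n).rel k i l xb| ≤ 1173 * Q := by
      have v1 : |κ * (W.cfg E n).rel k i l xa| ≤ 4 * (293 * Q) := by
        rw [abs_mul]
        exact mul_le_mul hκ ra (abs_nonneg _) (by norm_num)
      have v2 := abs_le.1 v1
      have v3 := abs_le.1 hd2
      rw [abs_le]
      constructor <;> linarith [v2.1, v2.2, v3.1, v3.2]
    have r5 : |(W.cfg E n).rel k i l 5| ≤ 1173 * Q := by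
      rcases hax with ⟨-, rfl, -, rfl⟩ | ⟨-, rfl, -, rfl⟩
      · exact ra.trans (by linarith)
      · exact rb
    have r6 : |(W.cfg E n).rel k i l 6| ≤ 1173 * Q := by
      rcases hax with ⟨-, rfl, -, rfl⟩ | ⟨-, rfl, -, rfl⟩
      · exact rb
      · exact ra.trans (by linarith)
    have til := tilt11 h r.good (r.spec (hp n)).1 (r.spec hik).1 (r.spec hlk).1
      (e := 1173 * Q) (e' := 1173 * Q)
      (by rw [← r.rel_of (h.notS h5)]; exact r5) (by rw [← r.rel_of (h.notS h6)]; exact r6)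
    change |(W.co n (f0 W i0 k0 n) (W.rep n i k) 7 * W.co n (W.rep n i k) (W.rep n l k) 5 +
      W.co n (f0 W i0 k0 n) (W.rep n i k) 8 * W.co n (W.rep n i k) (W.rep n l k) 6) /
        side W n 11| ≤ _ at til
    have r11 : |(W.cfg E n).rel k i l 11| ≤ 2645 * Q := by
      have v1 := abs_le.1 c11
      have v2 := abs_le.1 til
      have v3 := abs_le.1 f2
      rw [abs_le]
      constructor <;> linarith [v1.1, v1.2, v2.1, v2.2, v3.1, v3.2]
    rw [hbase]
    have triv : ∀ s, thinB t 0 x s = 0 → |(W.cfg E n).rel k i l s| ≤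
        W.B'.d n ^ (thinB t 0 x s - (C + 2) * ε) := by
      intro s hs
      rw [hs]
      exact (r.rel_le h hik hlk s).trans (one_le n (by nlinarith))
    have hm : ∀ {v : ℝ}, v ≤ 2645 * Q → v ≤ W.B'.d n ^ (x - (C + 2) * ε) := fun hv => hv.trans m3
    have two : |(W.cfg E n).rel k i l 2| ≤ W.B'.d n ^ (thinB t 0 x 2 - (C + 2) * ε) := by
      refine tw.trans (pwb W.B' (ε := ε) (by linarith) ?_)
      show t - (C + 2) * ε ≤ _
      nlinarith
    have five : |(W.cfg E n).rel k i l 5| ≤ W.B'.d n ^ (thinB t 0 x 5 - (C + 2) * ε) :=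
      hm (r5.trans (by linarith))
    have six : |(W.cfg E n).rel k i l 6| ≤ W.B'.d n ^ (thinB t 0 x 6 - (C + 2) * ε) :=
      hm (r6.trans (by linarith))
    have ele : |(W.cfg E n).rel k i l 11| ≤ W.B'.d n ^ (thinB t 0 x 11 - (C + 2) * ε) :=
      hm r11
    fin_cases s
    exacts [triv _ rfl, triv _ rfl, two, triv _ rfl, triv _ rfl, five, six, triv _ rfl,
      triv _ rfl, triv _ rfl, triv _ rfl, ele]
  · refine ⟨2, two_pos, fun ρ hρ hρt ε hε => ?_⟩
    filter_upwards [hr, hsl, hdim, ev_const_le W.B' hε 2460] with n r sl dm hK k hk i hi hik e1 e2 he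
    have tp := two_pin h r (hp n) hS2 ht2 sl hε.le (slc hi) (lo2 hi) hik
    obtain ⟨κ, hκ, hd⟩ := dm _ (r.spec hik).1
    obtain ⟨T, hT, htl⟩ := tilt h r.good hax (r.spec (hp n)).1 (r.spec hik).1 hκ
      (rpos W.B' n t).le
    obtain ⟨b, hb, hbl⟩ := tilt_unit he hT
    refine ⟨b, hb, fun l hl' hlk hst => ?_⟩
    have c3 := (posC h r (hp n) (hs n) hik hlk).2
    have c10 := (pos10 h r (hp n) (n11 n) sl tp hik hlk).2
    have hd1 := (hd _ (r.spec hlk).1).1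
    have ht1 := htl _ (r.spec hlk).1 hd1
    have hcaS : ca ∉ W.S := by
      rcases hax with ⟨rfl, -, -, -⟩ | ⟨rfl, -, -, -⟩
      · exact h.notS (by decide)
      · exact h.notS (by decide)
    rw [← r.rel_of hcaS] at ht1
    change |(W.co n (f0 W i0 k0 n) (W.rep n i k) 7 * W.co n (W.rep n i k) (W.rep n l k) 3 +
      W.co n (f0 W i0 k0 n) (W.rep n i k) 8 * W.co n (W.rep n i k) (W.rep n l k) 4) /
        side W n 10 - T * (W.cfg E n).rel k i l ca| ≤ _ at ht1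
    have he1 : |e1| ≤ 1 := abs_le_one_iff_mul_self_le_one.2 (by nlinarith [sq_nonneg e2])
    have he2 : |e2| ≤ 1 := abs_le_one_iff_mul_self_le_one.2 (by nlinarith [sq_nonneg e1])
    set v1 := Vf W E i0 k0 ca n l - Vf W E i0 k0 ca n i with hv1
    set v2 := Vf W E i0 k0 10 n l - Vf W E i0 k0 10 n i with hv2
    set ra := (W.cfg E n).rel k i l ca with hra
    set r10 := (W.cfg E n).rel k i l 10 with hr10
    set τ := (W.co n (f0 W i0 k0 n) (W.rep n i k) 7 * W.co n (W.rep n i k) (W.rep n l k) 3 +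
      W.co n (f0 W i0 k0 n) (W.rep n i k) 8 * W.co n (W.rep n i k) (W.rep n l k) 4) /
        side W n 10 with hτ
    have m1 : W.B'.d n ^ t ≤ W.B'.d n ^ (ρ - ε) := hmono n (by linarith)
    have m2 : W.B'.d n ^ (t - ε) ≤ W.B'.d n ^ (ρ - ε) := hmono n (by linarith)
    have m3 : W.B'.d n ^ ρ ≤ W.B'.d n ^ (ρ - ε) := hmono n (by linarith)
    have m4 : 2460 * W.B'.d n ^ (ρ - ε) ≤ W.B'.d n ^ (ρ - 2 * ε) := pwb W.B' hK (by linarith)
    set P := W.B'.d n ^ (ρ - ε) with hP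
    have u1 : |e1 * (v1 - ra)| ≤ 96 * P := by
      rw [abs_mul]
      calc |e1| * |v1 - ra| ≤ 1 * (96 * P) :=
            mul_le_mul he1 (c3.trans (by linarith)) (abs_nonneg _) zero_le_one
        _ = _ := one_mul _
    have u2 : |e2 * (v2 - (r10 - τ))| ≤ 106 * P := by
      rw [abs_mul]
      calc |e2| * |v2 - (r10 - τ)| ≤ 1 * (106 * P) :=
            mul_le_mul he2 (c10.trans (by linarith)) (abs_nonneg _) zero_le_one
        _ = _ := one_mul _
    have u3 : |e2 * (τ - T * ra)| ≤ P := by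
      rw [abs_mul]
      calc |e2| * |τ - T * ra| ≤ 1 * P :=
            mul_le_mul he2 (ht1.trans m1) (abs_nonneg _) zero_le_one
        _ = _ := one_mul _
    have key : |(e1 - e2 * T) * ra + e2 * r10| ≤ 205 * P := by
      have e : (e1 - e2 * T) * ra + e2 * r10 = (v1 * e1 + v2 * e2) - e1 * (v1 - ra) -
          e2 * (v2 - (r10 - τ)) + e2 * (τ - T * ra) := by ring
      rw [e]
      have w1 := abs_le.1 hst
      have w2 := abs_le.1 u1
      have w3 := abs_le.1 u2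
      have w4 := abs_le.1 u3
      rw [abs_le]
      constructor <;> linarith [w1.1, w1.2, w2.1, w2.2, w3.1, w3.2, w4.1, w4.2]
    have fin := hbl ra r10 _ key
    linarith

end win

end Crest.Agent.R116.Nar863
end

-- ▼ part R116/Nar3h_863

/-!
# R116, [NARROW] (helper863), part 8: (A1) of the thin case from a tangent, slot `D` frozen

* `WinD` : a property of all the windows along the tangent at slow base points;
* `slackD_of` : the walls with `D` are slack in the windows;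
* **`a1_thin`**.
-/

set_option autoImplicit false
set_option linter.unusedVariables false
set_option linter.unusedSectionVars false

open Filter Topology Finset

namespace Crest.Agent.R116.Nar863

open Crest.Agent.R138.Ex926
open Crest.Agent.R136.Net191 Crest.Agent.R136.Qg926 Crest.Agent.R136.Gf356
open Crest.Agent.R136.NSt107
open Crest.Agent.R116.ChL222 Crest.Agent.R116.PL504 Crest.Agent.R116.EvL504
open Crest.Agent.R116.WinU954 Crest.Agent.R116.WinG954 Crest.Agent.R116.Sg337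

variable {ι : ℕ → Type*} [∀ n, DecidableEq (ι n)]

/-- a property of all the windows (slot `D` frozen) along a tangent, at slow base points -/
def WinD (P : Wnd 12 ι → Prop) (B : Base) (I J : ∀ n, Finset (ι n))
    (co : ∀ n, ι n → ι n → Fin 12 → ℝ) (C : ℝ) (D : Set (Fin 12 → ℝ)) (ν lam : (Fin 12 → ℝ) → ℝ)
    (X : ℕ → Fin 12 → ℝ) (h : ℕ → ℝ) (t : ℝ) : Prop :=
  ∃ k : ℕ → ℕ, Tendsto k U atTop ∧ ∀ k' : ℕ → ℕ, Tendsto k' U atTop →
    (∀ᶠ n in (U : Filter ℕ), k' n ≤ k n) → ∀ W : Wnd 12 ι,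
      WinG W B I J co C D ν lam X h k' t monD (topD t) → P W

theorem thinB_eq (e c x : ℝ) : thinB e c x = bx9 0 0 e c x 0 0 c x := by
  funext s
  fin_cases s <;> rfl

section win

variable {W : Wnd 12 ι} {B : Base} {I J : ∀ n, Finset (ι n)}
    {co : ∀ n, ι n → ι n → Fin 12 → ℝ} {C : ℝ} {D : Set (Fin 12 → ℝ)}
    {ν lam : (Fin 12 → ℝ) → ℝ} {X : ℕ → Fin 12 → ℝ} {h : ℕ → ℝ} {k' : ℕ → ℕ} {t : ℝ}

theorem thinB_mem (w : WinG W B I J co C D ν lam X h k' t monD (topD t)) (ht : 0 ≤ t) {c y : ℝ}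
    (hc : 0 ≤ c) (hct : c ≤ t) (hy : 0 ≤ y) (hyt : y ≤ t) : thinB t c y ∈ W.legW := by
  rw [thinB_eq, w.memD ht]
  refine ⟨rfl, ⟨ht, hc, hy, le_rfl, le_rfl, hc, hy⟩, ⟨?_, ?_, ?_, ?_, ?_⟩,
    ⟨le_rfl, hct, hyt, ht, ht, hct, hyt⟩⟩ <;> linarith

/-- the unit of a slot -/
theorem side_eqG (w : WinG W B I J co C D ν lam X h k' t monD (topD t)) (n : ℕ) (s : Fin 12) :
    side W n s = cK0 monL C ^ wtL s * B.d n ^ X (k' n) s := by
  unfold side
  rw [w.hkap, w.hB, w.hX]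

theorem side_mulG (w : WinG W B I J co C D ν lam X h k' t monD (topD t)) (n : ℕ)
    {a b c : Fin 12} (hw : wtL a + wtL b = wtL c) (hX : X (k' n) c = X (k' n) a + X (k' n) b) :
    side W n a * side W n b = side W n c := by
  rw [side_eqG w, side_eqG w, side_eqG w, hX, Real.rpow_add (B.pos n), ← hw, pow_add]
  ring

/-- **the walls with `D` are slack in the windows** -/
theorem slackD_of (w : WinG W B I J co C D ν lam X h k' t monD (topD t))
    (hK : 0 < cK0 monL C) (hk : Tendsto k' U atTop)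
    (slD : ∀ k, ∀ e ∈ monL.mon k, e 1 ≠ 0 →
      ∀ᶠ l in atTop, X l k + t * h l ≤ ∑ s, (e s : ℝ) * X l s) :
    ∀ᶠ n in (U : Filter ℕ), SlackD W n (W.B'.d n ^ t) := by
  have m1 := hk.eventually (slD 2 ![1, 1, 0, 0, 0, 0, 0, 0, 0, 0, 0, 0] (by decide) (by decide))
  have m2 := hk.eventually (slD 10 ![0, 1, 0, 1, 0, 1, 0, 0, 0, 0, 0, 0] (by decide) (by decide))
  have m3 := hk.eventually (slD 10 ![0, 1, 0, 0, 1, 0, 1, 0, 0, 0, 0, 0] (by decide) (by decide))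
  have m4 := hk.eventually (slD 10 ![0, 1, 0, 0, 0, 0, 0, 0, 0, 1, 0, 0] (by decide) (by decide))
  have m5 := hk.eventually (slD 11 ![0, 1, 0, 0, 0, 2, 0, 0, 0, 0, 0, 0] (by decide) (by decide))
  have m6 := hk.eventually (slD 11 ![0, 1, 0, 0, 0, 0, 2, 0, 0, 0, 0, 0] (by decide) (by decide))
  filter_upwards [m1, m2, m3, m4, m5, m6] with n a1 a2 a3 a4 a5 a6
  rw [sum12] at a1 a2 a3 a4 a5 a6
  simp only [Matrix.cons_val, Nat.cast_zero, Nat.cast_one, Nat.cast_ofNat, zero_mul, one_mul,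
    add_zero, zero_add] at a1 a2 a3 a4 a5 a6
  set x := X (k' n) with hx
  set K := cK0 monL C with hKd
  have hδ : W.B'.d n ^ t = B.d n ^ (t * h (k' n)) := by
    rw [w.base, ← Real.rpow_mul (B.pos n).le, mul_comm]
  have hd := B.pos n
  have d2 : ∀ {a b c : Fin 12}, wtL a + wtL b = wtL c → x c + t * h (k' n) ≤ x a + x b →
      side W n a * side W n b ≤ W.B'.d n ^ t * side W n c := by
    intro a b c hw hle
    rw [side_eqG w, side_eqG w, side_eqG w, hδ, ← hx]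
    have e1 : K ^ wtL a * B.d n ^ x a * (K ^ wtL b * B.d n ^ x b) =
        K ^ wtL c * B.d n ^ (x a + x b) := by
      rw [← hw, pow_add, Real.rpow_add hd]; ring
    have e2 : B.d n ^ (t * h (k' n)) * (K ^ wtL c * B.d n ^ x c) =
        K ^ wtL c * B.d n ^ (x c + t * h (k' n)) := by
      rw [Real.rpow_add hd]; ring
    rw [e1, e2]
    exact mul_le_mul_of_nonneg_left
      (Real.rpow_le_rpow_of_exponent_ge hd (B.lt n).le hle) (pow_nonneg hK.le _)
  have d3 : ∀ {a b b' c : Fin 12}, wtL a + wtL b + wtL b' = wtL c →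
      x c + t * h (k' n) ≤ x a + x b + x b' →
      side W n a * (side W n b * side W n b') ≤ W.B'.d n ^ t * side W n c := by
    intro a b b' c hw hle
    rw [side_eqG w, side_eqG w, side_eqG w, side_eqG w, hδ, ← hx]
    have e1 : K ^ wtL a * B.d n ^ x a * (K ^ wtL b * B.d n ^ x b * (K ^ wtL b' * B.d n ^ x b')) =
        K ^ wtL c * B.d n ^ (x a + x b + x b') := by
      rw [← hw, pow_add, pow_add, Real.rpow_add hd, Real.rpow_add hd]; ring
    have e2 : B.d n ^ (t * h (k' n)) * (K ^ wtL c * B.d n ^ x c) =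
        K ^ wtL c * B.d n ^ (x c + t * h (k' n)) := by
      rw [Real.rpow_add hd]; ring
    rw [e1, e2]
    exact mul_le_mul_of_nonneg_left
      (Real.rpow_le_rpow_of_exponent_ge hd (B.lt n).le hle) (pow_nonneg hK.le _)
  exact
    { z := d2 rfl (by linarith)
      c3 := d3 rfl (by linarith)
      c4 := d3 rfl (by linarith)
      nn := d2 rfl (by linarith)
      x5 := d3 rfl (by linarith)
      x6 := d3 rfl (by linarith) }

end win

theorem thinB_le {e c c' x x' : ℝ} (hc : c ≤ c') (hx : x ≤ x') (s : Fin 12) :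
    thinB e c x s ≤ thinB e c' x' s := by
  fin_cases s <;> simp [thinB, hc, hx]

theorem thinB_max {e c x : ℝ} (hc : 0 ≤ c) (hx : 0 ≤ x) (s : Fin 12) :
    thinB e c x s ≤ max (thinB e c 0 s) (thinB e 0 x s) := by
  fin_cases s <;> simp [thinB, hc, hx]

open Classical in
/-- **(A1), thin case, in a window** (slot `D` frozen) -/
theorem a1_thinW {W : Wnd 12 ι} {B : Base} {I J : ∀ n, Finset (ι n)}
    {co : ∀ n, ι n → ι n → Fin 12 → ℝ} {C : ℝ} {D : Set (Fin 12 → ℝ)}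
    {ν lam : (Fin 12 → ℝ) → ℝ} {X : ℕ → Fin 12 → ℝ} {h : ℕ → ℝ} {k' : ℕ → ℕ} {t : ℝ}
    (w : WinG W B I J co C D ν lam X h k' t monD (topD t)) (ht : 0 < t)
    {E' : ∀ n, Finset (ι n)} {g : ℕ → ℝ}
    {ex : ℕ → ∀ n, ι n → ℕ} (hP : Wnd.Pruned W (rich W) E' g ex) {σ : ℝ}
    (H : RModel W.B' (W.cfg E') σ t W.legW W.nu W.Dc)
    (hr : ∀ᶠ n in (U : Filter ℕ), Reg W E' n)
    (dens : lam (topD t) ≤ lam (cut {0} (topD t) 0) + lam (Pi.single 0 t))
    (n5 : ∀ n, side W n 0 * side W n 3 = side W n 5)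
    (n6 : ∀ n, side W n 0 * side W n 4 = side W n 6)
    (n11 : ∀ n, side W n 0 * side W n 10 = side W n 11)
    (hsl : ∀ᶠ n in (U : Filter ℕ), SlackD W n (W.B'.d n ^ t))
    {ca xa cb xb : Fin 12} (hax : Axis ca xa cb xb) (hdim : DimC W ca xa cb xb t)
    {q : ℝ} (hq : 0 < q) (hns : NsW W ca 10 q t) {x : ℝ} (hx : 0 < x) (hxt : x ≤ t)
    (zero : W.nu 0 ≤ W.nu (thinB t 0 0))
    (hprod : ∀ c, 0 < c → c ≤ t → W.nu (thinB t 0 0) - W.nu (thinB t c 0) ≤
      W.nu (thinB t 0 x) - W.nu (thinB t c x)) :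
    2 * σ * x ≤ W.nu (thinB t 0 0) - W.nu (thinB t 0 x) := by
  have hdens : W.lam W.top ≤ W.lam (cut W.S W.top 0) + W.lam (cut W.S 0 W.top) := by
    rw [w.hlam, w.htop, w.hS, (stG_fro ht.le).cut0_top]
    exact dens
  have hca : ca = 3 ∨ ca = 4 := by
    rcases hax with ⟨a, -⟩ | ⟨a, -⟩
    · exact Or.inl a
    · exact Or.inr a
  have hcaS : ca ∉ SL := by rcases hca with rfl | rfl <;> decide
  have hN : NoStr W.B' (W.cfg E') (thinB t 0 0) ca 10 W.nu q t :=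
    noStr_of w.wl hP hdens hcaS (by decide) hq.le hns zero
  obtain ⟨i0, hi0⟩ : ∃ i0 : ℕ → ℕ × ℕ, ∀ n, i0 n ∈ (W.cfg E' n).I :=
    ⟨fun n => (H.nonempty n).choose, fun n => (H.nonempty n).choose_spec⟩
  have hS2 : (2 : Fin 12) ∉ W.S := by rw [w.hS]; decide
  have ht2 : t ≤ W.top 2 := by rw [w.htop, topD_ne t (by decide)]
  refine a1_abs H (fun n => (i0 n).1) (fun n => (i0 n).2)
    (Eventually.of_forall fun n => hi0 n) (p0 := thinB t 0 0) (r := thinB t 0 x)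
    (pC := fun c => thinB t c 0) (pFC := fun c => thinB t c x) (cA := ca) (cB := 10) (R0 := t)
    (Ca := 2) ?_ two_pos hN (addP_thin w.wl H.base hr hS2 hsl hca) hq ht hx hxt
    (posD_thin w.wl H hr hS2 ht2 hsl hax hdim n5 n6 n11 hi0 hx hxt ht)
  exact
    { l0 := thinB_mem w ht.le le_rfl ht.le le_rfl ht.le
      lF := thinB_mem w ht.le le_rfl ht.le hx.le hxt
      le := thinB_le le_rfl hx.le
      lC := fun c hc hct => thinB_mem w ht.le hc.le hct le_rfl ht.le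
      lFC := fun c hc hct => thinB_mem w ht.le hc.le hct hx.le hxt
      leC := fun c hc _ => thinB_le hc.le le_rfl
      cA := fun c _ _ => by rcases hca with rfl | rfl <;> exact le_rfl
      cB := fun c _ _ => le_rfl
      mx := fun c hc _ => thinB_max hc.le hx.le
      prod := hprod }

/-- two slow sequences -/
theorem min_slow {k1 k2 : ℕ → ℕ} (h1 : Tendsto k1 U atTop) (h2 : Tendsto k2 U atTop) :
    Tendsto (fun n => min (k1 n) (k2 n)) U atTop := by
  rw [tendsto_atTop] at h1 h2 ⊢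
  intro b
  filter_upwards [h1 b, h2 b] with n a b
  exact le_min a b

open Classical in
/-- **(A1), thin case, from a tangent at a moving base point** (slot `D` frozen) -/
theorem a1_thin {B : Base} {I J : ∀ n, Finset (ι n)} {co : ∀ n, ι n → ι n → Fin 12 → ℝ}
    {C R : ℝ} {ν : (Fin 12 → ℝ) → ℝ} (hN : NProf B I J co monL C R ν) (hcoc : ∀ n, Coc (co n))
    {X : ℕ → Fin 12 → ℝ} {h : ℕ → ℝ} (hpos : ∀ l, 0 < h l) {D : Set (Fin 12 → ℝ)}
    {lam : (Fin 12 → ℝ) → ℝ} (htan : IsTan (Leg monL R) D ν X h lam) {t : ℝ} (ht : 0 < t)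
    (hD : Leg monD t ⊆ D) {σ : ℝ} (hσ0 : 0 ≤ σ) (hσ1 : σ ≤ 1)
    (dens : lam (bx9 t 0 t t t t t t t) ≤ lam (bx9 0 0 t t t t t t t) +
      lam (bx9 t 0 0 0 0 0 0 0 0))
    (frost : ∀ y, 0 ≤ y → y ≤ t → lam (bx9 y 0 0 0 0 0 0 0 0) ≤ -(σ * y)) (i₀ : ∀ n, ι n)
    (n5 : ∀ l, X l 5 = X l 0 + X l 3) (n6 : ∀ l, X l 6 = X l 0 + X l 4)
    (n11 : ∀ l, X l 11 = X l 0 + X l 10)
    (slD : ∀ k, ∀ e ∈ monL.mon k, e 1 ≠ 0 →
      ∀ᶠ l in atTop, X l k + t * h l ≤ ∑ s, (e s : ℝ) * X l s)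
    {ca xa cb xb : Fin 12} (hax : Axis ca xa cb xb)
    (hdim : WinD (fun W => DimC W ca xa cb xb t) B I J co C D ν lam X h t)
    {q : ℝ} (hq : 0 < q) (hns : WinD (fun W => NsW W ca 10 q t) B I J co C D ν lam X h t)
    {x : ℝ} (hx : 0 < x) (hxt : x ≤ t)
    (zero : lam (bx9 t 0 0 0 0 0 0 0 0) ≤ lam (bx9 t 0 t 0 0 0 0 0 0))
    (prod : ∀ c, 0 < c → c ≤ t →
      lam (bx9 t 0 t 0 0 0 0 0 0) - lam (bx9 t 0 t c 0 0 0 c 0) ≤
        lam (bx9 t 0 t 0 x 0 0 0 x) - lam (bx9 t 0 t c x 0 0 c x)) :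
    2 * σ * x ≤ lam (bx9 t 0 t 0 0 0 0 0 0) - lam (bx9 t 0 t 0 x 0 0 0 x) := by
  have hC0 := (hN.chart 0).C0
  have hK : 0 < cK0 monL C := by linarith [cK0_one (M := monL) hC0]
  have dens' : lam (topD t) ≤ lam (cut {0} (topD t) 0) + lam (Pi.single 0 t) := by
    rw [topD_cut0, single_eq, topD_eq]
    exact dens
  have frost' : ∀ y, 0 ≤ y → y ≤ t → lam (Pi.single 0 y) ≤ -(σ * y) := by
    intro y h1 h2
    rw [single_eq]
    exact frost y h1 h2
  obtain ⟨k1, hk1, h1⟩ := exists_winG hN hcoc hpos htan ht (stG_fro ht.le) hD hσ0 hσ1 dens' frost'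
    (fun _ _ => 1) (fun _ => Base.Sub.const one_pos) i₀
  obtain ⟨k2, hk2, h2⟩ := hns
  obtain ⟨k3, hk3, h3⟩ := hdim
  have hk := min_slow hk1 (min_slow hk2 hk3)
  obtain ⟨W, w, -, a3⟩ := h1 _ hk (Eventually.of_forall fun n => min_le_left _ _)
  obtain ⟨E', g, b1, -, b3, b4⟩ := a3 (rich W) (fun _ => 1) (eok_rich w.wl.ok) (fun _ _ _ => 0)
    (fun n => (n : ℝ)) (tendsto_natCast_atTop_atTop.mono_left U_le_atTop)
  have c2 := h2 _ hk (Eventually.of_forall fun n => (min_le_right _ _).trans (min_le_left _ _)) W w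
  have c3 := h3 _ hk (Eventually.of_forall fun n => (min_le_right _ _).trans (min_le_right _ _)) W w
  have e0 : cut {0} (0 : Fin 12 → ℝ) (topD t) = bx9 t 0 0 0 0 0 0 0 0 := by
    rw [(stG_fro ht.le).cut0_top, single_eq]
  have key := a1_thinW w ht b1 b4 b3 dens'
    (fun n => side_mulG w n (a := 0) (b := 3) (c := 5) rfl (n5 _))
    (fun n => side_mulG w n (a := 0) (b := 4) (c := 6) rfl (n6 _))
    (fun n => side_mulG w n (a := 0) (b := 10) (c := 11) rfl (n11 _))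
    (slackD_of w hK hk slD) hax c3 hq c2 hx hxt
    (by
      rw [w.nu_eq, w.nu_eq, thinB_eq, cut_topD, e0]
      linarith)
    (by
      intro c hc hct
      rw [w.nu_eq, w.nu_eq, w.nu_eq, w.nu_eq, thinB_eq, thinB_eq, thinB_eq, thinB_eq, cut_topD,
        cut_topD, cut_topD, cut_topD]
      linarith [prod c hc hct])
  rw [w.nu_eq, w.nu_eq, thinB_eq, thinB_eq, cut_topD, cut_topD] at key
  linarith

end Crest.Agent.R116.Nar863
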