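import Crest.Agent.R136.Lq6_196
import Crest.Agent.R136.Qg2_926
import Crest.Agent.R116.Sd2_369
import Crest.Agent.R136.NSt1_107

-- ▼ part R116/Nar1_192
section

/-!
# R116 (S0155), K side, [NARROW] (helper192), part 1: the antitone transfer of strips

`strip_p` : from `ExtQ` + `CombQ` and a count of the strips in the box `rc` (record) for the family
`I0`: in every class of exponents `p` of the sample, every strip of width `d ^ y` of a functional
`Sf θ x ·` (flag of the centre `x`) has at most `d ^ (-(ν p - ν (p ⊔ rc) + c₀ + t + ε))` points.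
-/

set_option autoImplicit false
set_option linter.unusedVariables false
set_option linter.unusedSectionVars false

open Finset Filter Topology

namespace Crest.Agent.R116.Nar192

open Crest.Agent.R138.Ex926
open Crest.Agent.R138.Mk163 (zc zl rho alive)
open Crest.Agent.R138.MkRef627 (lc kc)
open Crest.Agent.R138.Dp76 (dpow_pos dpow_add dpow_le)
open Crest.Agent.R136.MkA627
open Crest.Agent.R136.Net191
open Crest.Agent.R136.Lq196

/-- count through the classes of a label -/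
theorem card_le_image_mul {ι κ : Type*} [DecidableEq ι] [DecidableEq κ] (F Q : Finset ι)
    (f : ι → κ) (hF : F ⊆ Q) {N : ℝ} (hN : 0 ≤ N)
    (h : ∀ y0 ∈ F, (((F.filter fun j => f j = f y0).card : ℕ) : ℝ) ≤ N) :
    (F.card : ℝ) ≤ ((Q.image f).card : ℝ) * N := by
  classical
  have h1 : (F.card : ℝ) = ∑ b ∈ F.image f, ((F.filter fun j => f j = b).card : ℝ) := by
    rw [← Nat.cast_sum]
    congr 1
    exact card_eq_sum_card_image f F
  rw [h1]
  calc ∑ b ∈ F.image f, ((F.filter fun j => f j = b).card : ℝ)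
      ≤ ∑ b ∈ F.image f, N := by
        refine sum_le_sum fun b hb => ?_
        obtain ⟨y0, hy0, rfl⟩ := mem_image.1 hb
        exact h y0 hy0
    _ = ((F.image f).card : ℝ) * N := by rw [sum_const, nsmul_eq_mul]
    _ ≤ ((Q.image f).card : ℝ) * N := by
        refine mul_le_mul_of_nonneg_right ?_ hN
        exact_mod_cast card_le_card (image_subset_image hF)

section gen

variable {m : ℕ} {B : Base} {I0 I' : ℕ → Finset (ℕ × ℝ)}
    {co : ∀ n : ℕ, ℕ × ℝ → ℕ × ℝ → Fin m → ℝ} {M : Mons m} {C R : ℝ} {kz : Fin m} {w0 s : ℝ}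
    {PD : Set (Fin m → ℝ)} {D : (Fin m → ℝ) → ℝ} {r o : ℝ → Fin m → ℝ} {E : ℝ → ℝ}
    {T : Fin m → Prop} {ν own : (Fin m → ℝ) → ℝ} {c₀ : ℝ} {lev : ℕ → ℚ → ℕ} {N0 : ℕ → ℝ}

variable {Θ : Type*} {Ok : ℕ → Θ → Prop} {Sf : ℕ → Θ → ℕ × ℝ → ℕ × ℝ → ℝ}

set_option maxHeartbeats 1000000 in
open Classical in
/-- **strips are narrow in every class** (antitone transfer from the record box) -/
theorem strip_p (hx : ExtQ B I0 I' co M C R kz w0 s PD D r o E T ν own c₀) (hR : 0 ≤ R)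
    (hc : CombQ B I0 I' lev co M C R N0 c₀) (V : Fin m → Prop) {p rc : Fin m → ℝ}
    (hp : p ∈ Leg M R) (hrc : rc ∈ Leg M R) {y t : ℝ}
    (hlip : ∀ K : ℝ, 1 ≤ K → ∃ K' : ℝ, 1 ≤ K' ∧ ∀ n, ∀ θ, Ok n θ → ∀ x ∈ I0 n, ∀ j ∈ I0 n,
      ∀ l ∈ I0 n, Near (co n) (B.d n) p K x j → Near (co n) (B.d n) (fun _ => R) K j l →
        |Sf n θ x l - Sf n θ x j| ≤ K' * B.d n ^ y)
    (hcount : ∀ K : ℝ, 1 ≤ K → ∀ ε : ℝ, 0 < ε → ∀ᶠ n in (U : Filter ℕ), ∀ θ, Ok n θ →
      ∀ x ∈ I0 n, ∀ y0 ∈ I0 n, Near (co n) (B.d n) p K x y0 →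
      (((I0 n).filter fun j => (∀ k, V k → |co n y0 j k| ≤ K * B.d n ^ rc k) ∧
        |Sf n θ x j - Sf n θ x y0| ≤ K * B.d n ^ y).card : ℝ) ≤
        N0 n * B.d n ^ (-(t + ε))) :
    ∀ K : ℝ, 1 ≤ K → ∀ ε : ℝ, 0 < ε → ∀ᶠ n in (U : Filter ℕ), ∀ x ∈ I' n,
      ∀ θ, Ok n θ → ∀ u : ℝ,
      (((cls (I' n) (nlab B I0 co M C n p) x).filter fun j =>
        |Sf n θ x j - u| ≤ K * B.d n ^ y).card : ℝ) ≤
        B.d n ^ (-(ν p - ν (p ⊔ rc) + c₀ + t + ε)) := by
  intro K hK ε hε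
  have hC : 0 ≤ C := (hx.chart 0).C0
  have hK0 : 1 ≤ cK0 M C := cK0_one hC
  have hT1 : cK0 M C ≤ triC M C (cK0 M C) := triC_ge hC hK0
  have hT : 1 ≤ triC M C (cK0 M C) := hK0.trans hT1
  obtain ⟨K', hK', hK2⟩ := hlip _ hK0
  have hsub := hx.sub
  set K1 : ℝ := triC M C (cK0 M C) + 2 * K + K' with hK1d
  have hK1 : 1 ≤ K1 := by rw [hK1d]; linarith
  obtain ⟨Kn, hKa, hKb, -⟩ := hc
  have hε4 : 0 < ε / 4 := by positivity
  have hsup : p ⊔ rc ∈ Leg M R := Leg.sup hp hrc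
  filter_upwards [hKa _ hε4, hKb, hcount K1 hK1 _ hε4, B.ev_const_log (Real.log 16) hε4,
    hx.prof.num _ hε4] with n a1 a2 a3 a4 a5 x hxI θ hθ u
  obtain ⟨k0, k1, -⟩ := a1
  have hKn : (0:ℝ) < Kn n := by exact_mod_cast k0
  have hd := B.pos n
  have hd1 := (B.lt n).le
  have dp := fun a => dpow_pos B n a
  have h16 : (16 : ℝ) ≤ B.d n ^ (-(ε / 4)) := by
    rw [← B.exp_eq, ← Real.log_le_iff_le_exp (by norm_num)]
    exact a4
  set F := (cls (I' n) (nlab B I0 co M C n p) x).filter fun j =>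
    |Sf n θ x j - u| ≤ K * B.d n ^ y with hF
  have hxI0 := hsub n hxI
  -- one cell of `p ⊔ rc`
  have key : ∀ y0 ∈ F, (((F.filter fun j => nlab B I0 co M C n (p ⊔ rc) j =
      nlab B I0 co M C n (p ⊔ rc) y0).card : ℕ) : ℝ) ≤ B.d n ^ (-(c₀ + t + 3 * (ε / 4))) := by
    intro y0 hy0
    obtain ⟨hy1, hy2⟩ := mem_filter.1 hy0
    obtain ⟨hy3, hy4⟩ := mem_cls.1 hy1
    have hyI0 := hsub n hy3
    have hnx : Near (co n) (B.d n) p (cK0 M C) x y0 := near_of_nlab hx.chart hp.1 hxI0 hyI0 hy4.symm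
    set G := F.filter fun j => nlab B I0 co M C n (p ⊔ rc) j =
      nlab B I0 co M C n (p ⊔ rc) y0 with hG
    set F' := (I0 n).filter fun j => (∀ k, V k → |co n y0 j k| ≤ K1 * B.d n ^ rc k) ∧
        |Sf n θ x j - Sf n θ x y0| ≤ K1 * B.d n ^ y with hF'
    have hGsub : G ⊆ I' n := fun j hj =>
      (mem_cls.1 (mem_filter.1 (mem_filter.1 hj).1).1).1
    have b1 := a2 G hGsub F' (filter_subset _ _) (by
      intro j hj l hl hlj _
      have hjI := hsub n (hGsub hj)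
      obtain ⟨j1, j2⟩ := mem_filter.1 hj
      obtain ⟨j3, j4⟩ := mem_filter.1 j1
      obtain ⟨j5, j6⟩ := mem_cls.1 j3
      -- y0 ~ j at p ⊔ rc
      have f1 : Near (co n) (B.d n) (p ⊔ rc) (cK0 M C) y0 j :=
        near_of_nlab hx.chart hsup.1 hyI0 hjI j2.symm
      -- j ~ l at the top
      have f2 : Near (co n) (B.d n) (fun _ => R) (cK0 M C) j l :=
        near_of_nlab hx.chart (top_Leg M hR).1 hjI hl hlj.symm
      have f3 : Near (co n) (B.d n) p (cK0 M C) x j :=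
        near_of_nlab hx.chart hp.1 hxI0 hjI j6.symm
      have f4 := f1.anti hd hd1 (by linarith) (p := rc) le_sup_right
      have f5 := f2.anti hd hd1 (by linarith) (p := rc) hrc.2
      have f6 := (hx.chart n).tri hrc.1 hd hd1 hK0 hyI0 hjI hl f4 f5
      have g1 := hK2 n θ hθ x hxI0 j hjI l hl f3 f2
      rw [hF', mem_filter]
      refine ⟨hl, fun k _ => (f6 k).trans (mul_le_mul_of_nonneg_right (by
        rw [hK1d]; linarith) (dp _).le), ?_⟩
      have t1 := abs_le.1 j4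
      have t2 := abs_le.1 hy2
      have t3 := abs_le.1 g1
      have t5 : K1 * B.d n ^ y = triC M C (cK0 M C) * B.d n ^ y + 2 * (K * B.d n ^ y) +
          K' * B.d n ^ y := by rw [hK1d]; ring
      have t6 : 0 ≤ triC M C (cK0 M C) * B.d n ^ y := mul_nonneg (by linarith) (dp y).le
      rw [t5, abs_le]
      constructor <;> linarith [t1.1, t1.2, t2.1, t2.2, t3.1, t3.2])
    have b2 : (Kn n : ℝ) * (G.card : ℝ) ≤ 16 * (F'.card : ℝ) := by exact_mod_cast b1
    have b3 : (F'.card : ℝ) ≤ N0 n * B.d n ^ (-(t + ε / 4)) :=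
      a3 θ hθ x hxI0 y0 hyI0 (hnx.mono hd (by rw [hK1d]; linarith))
    have b4 : (Kn n : ℝ) * (G.card : ℝ) ≤ Kn n * B.d n ^ (-(c₀ + t + 3 * (ε / 4))) := by
      calc _ ≤ 16 * (F'.card : ℝ) := b2
        _ ≤ B.d n ^ (-(ε / 4)) * (N0 n * B.d n ^ (-(t + ε / 4))) :=
            mul_le_mul h16 b3 (Nat.cast_nonneg _) (dp _).le
        _ ≤ B.d n ^ (-(ε / 4)) * ((Kn n * B.d n ^ (-(c₀ + ε / 4))) * B.d n ^ (-(t + ε / 4))) :=
            mul_le_mul_of_nonneg_left (mul_le_mul_of_nonneg_right k1 (dp _).le) (dp _).le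
        _ = Kn n * (B.d n ^ (-(ε / 4)) * B.d n ^ (-(c₀ + ε / 4)) * B.d n ^ (-(t + ε / 4))) := by
            ring
        _ = _ := by
            rw [← dpow_add, ← dpow_add]
            congr 2
            ring
    exact le_of_mul_le_mul_left b4 hKn
  have h1 := card_le_image_mul F (cls (I' n) (nlab B I0 co M C n p) x)
    (nlab B I0 co M C n (p ⊔ rc)) (filter_subset _ _) (dp _).le key
  have h2 := a5 p hp (p ⊔ rc) hsup le_sup_left x hxI
  calc (F.card : ℝ) ≤ _ := h1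
    _ ≤ B.d n ^ (-(ν p - ν (p ⊔ rc) + ε / 4)) * B.d n ^ (-(c₀ + t + 3 * (ε / 4))) :=
        mul_le_mul_of_nonneg_right h2 (dp _).le
    _ = _ := by
        rw [← dpow_add]
        congr 1
        ring

end gen

end Crest.Agent.R116.Nar192
end

-- ▼ part R116/Nar2_192
section

/-!
# R116 (S0155), K side, [NARROW] (helper192), part 2: strips of the windows

`NsG W A Bk Φ Ok q C0 R0` : no strip `{j : |Φ θ (crd i j A) (crd i j Bk) - u| ≤ ρ ^ t}`,
`Ok (ρ ^ (-ε)) θ`, of the class is heavy (`Φ θ a b = θ.1 a + θ.2 b` gives 107's `NsW`, `Φ θ a b = θ.1 a + θ.2 (b + g a ^ 2)` the curved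
form).  `nsG_of_stages` : from the strips of the sample at the base points `x l`, scales `h l`.
-/

set_option autoImplicit false
set_option linter.unusedVariables false
set_option linter.unusedSectionVars false

open Finset Filter Topology

namespace Crest.Agent.R116.Nar192

open Crest.Agent.R138.Ex926
open Crest.Agent.R138.Dp76 (dpow_pos dpow_add dpow_le)
open Crest.Agent.R136.Net191
open Crest.Agent.R136.Qg926

open Classical in
/-- **no strip of the class is heavy**, general functional, free constant; the parameters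
`θ` with `Ok D θ`, `D = ρ ^ (-ε)` -/
def NsG {m : ℕ} {ι : ℕ → Type*} [∀ n, DecidableEq (ι n)] {Θ : Type*} (W : Wnd m ι) (A Bk : Fin m)
    (Φ : Θ → ℝ → ℝ → ℝ) (Ok : ℝ → Θ → Prop) (q C0 R0 : ℝ) : Prop :=
  ∀ t : ℝ, 0 < t → t ≤ R0 → ∀ ε : ℝ, 0 < ε → ∀ᶠ n in (U : Filter ℕ), ∀ i ∈ W.Cl n,
    ∀ θ, Ok (W.B'.d n ^ (-ε)) θ → ∀ u : ℝ,
      (((W.Cl n).filter fun j =>
        |Φ θ (W.crd n i j A) (W.crd n i j Bk) - u| ≤ W.B'.d n ^ t).card : ℝ) ≤
        W.B'.d n ^ (q * t - C0 * ε) * (W.Cl n).card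

/-- the normalised functional at the exponents `p` -/
noncomputable def SfN {m : ℕ} {ι : Type*} {Θ : Type*} (co : ι → ι → Fin m → ℝ) (A Bk : Fin m)
    (Φ : Θ → ℝ → ℝ → ℝ) (κA κB d : ℝ) (p : Fin m → ℝ) (θ : Θ) (x j : ι) : ℝ :=
  Φ θ (co x j A / (κA * d ^ p A)) (co x j Bk / (κB * d ^ p Bk))

open Classical in
/-- strips of width `d ^ y` of the classes of exponents `p` of the sample -/
def StrB {m : ℕ} {ι : ℕ → Type*} [∀ n, DecidableEq (ι n)] {Θ : Type*} (B : Base)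
    (I0 I' : ∀ n, Finset (ι n)) (co : ∀ n, ι n → ι n → Fin m → ℝ) (M : Mons m) (C : ℝ)
    (A Bk : Fin m) (Φ : Θ → ℝ → ℝ → ℝ) (Ok : ℝ → Θ → Prop) (κA κB : ℝ) (p : Fin m → ℝ)
    (y z v : ℝ) : Prop :=
  ∀ ε : ℝ, 0 < ε → ∀ᶠ n in (U : Filter ℕ), ∀ x ∈ I' n, ∀ θ, Ok (B.d n ^ (-z)) θ → ∀ u : ℝ,
    (((cls (I' n) (nlab B I0 co M C n p) x).filter fun j =>
      |SfN (co n) A Bk Φ κA κB (B.d n) p θ x j - u| ≤ B.d n ^ y).card : ℝ) ≤
      B.d n ^ (-(v + ε))

section

variable {m : ℕ} {ι : ℕ → Type*} [∀ n, DecidableEq (ι n)] {Θ : Type*} {B : Base}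
  {I0 I' : ∀ n, Finset (ι n)} {co : ∀ n, ι n → ι n → Fin m → ℝ} {M : Mons m} {C : ℝ}
  {A Bk : Fin m} {Φ : Θ → ℝ → ℝ → ℝ} {Ok : ℝ → Θ → Prop} {κA κB : ℝ}
  {x : ℕ → Fin m → ℝ} {h loss : ℕ → ℝ} {ν : (Fin m → ℝ) → ℝ}

set_option maxHeartbeats 1000000 in
open Classical in
/-- **strips of the windows** -/
theorem nsG_of_stages {q C1 R0 : ℝ} (hq : 0 ≤ q) (hC1 : 0 ≤ C1) (hR0 : 0 < R0)
    (hh : ∀ l, 0 < h l) (hOk : ∀ D D' : ℝ, D ≤ D' → ∀ θ, Ok D θ → Ok D' θ)
    (hloss : ∀ ε : ℝ, 0 < ε → ∀ᶠ l in (atTop : Filter ℕ), loss l ≤ ε * h l)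
    (hS : ∀ᶠ l in (atTop : Filter ℕ), ∀ y : ℝ, 0 < y → y ≤ R0 * h l → ∀ z : ℝ, 0 < z →
      z ≤ R0 * h l →
      StrB B I0 I' co M C A Bk Φ Ok κA κB (x l) y z (ν (x l) + loss l - q * y + C1 * z)) :
    ∃ k : ℕ → ℕ, Tendsto k U atTop ∧ ∀ k' : ℕ → ℕ, Tendsto k' U atTop →
      (∀ᶠ n in (U : Filter ℕ), k' n ≤ k n) → ∀ W : Wnd m ι, W.Ok → W.I = I0 → W.J = I' →
        W.B = B → W.co = co → W.M = M → W.C = C → (∀ n, W.X n = x (k' n)) →
        (∀ n, W.B'.d n = B.d n ^ h (k' n)) → W.kap A = κA → W.kap Bk = κB →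
        (∀ ε : ℝ, 0 < ε → ∀ᶠ n in (U : Filter ℕ),
          B.d n ^ (-ν (x (k' n))) * W.B'.d n ^ ε ≤ ((W.Cl n).card : ℝ)) →
        NsG W A Bk Φ Ok q (C1 + q + 1) R0 := by
  classical
  -- the grid
  set g : ℕ → ℕ → ℝ := fun l i => ((i : ℝ) + 1) / ((l : ℝ) + 1) * (R0 * h l) with hg
  have hg0 : ∀ l i, 0 < g l i := fun l i => by
    have := hh l
    simp only [hg]; positivity
  have hg1 : ∀ l i, i ≤ l → g l i ≤ R0 * h l := fun l i hi => by
    have h1 : ((i : ℝ) + 1) / ((l : ℝ) + 1) ≤ 1 := by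
      rw [div_le_one (by positivity)]
      have : (i : ℝ) ≤ l := by exact_mod_cast hi
      linarith
    have h2 : 0 ≤ R0 * h l := mul_nonneg hR0.le (hh l).le
    simp only [hg]
    nlinarith
  obtain ⟨k, hk, hk2⟩ := exists_diag (fun l n =>
    (∀ y : ℝ, 0 < y → y ≤ R0 * h l → ∀ z : ℝ, 0 < z → z ≤ R0 * h l →
      StrB B I0 I' co M C A Bk Φ Ok κA κB (x l) y z (ν (x l) + loss l - q * y + C1 * z)) →
    ∀ i ≤ l, ∀ i' ≤ l, ∀ x' ∈ I' n, ∀ θ, Ok (B.d n ^ (-g l i')) θ → ∀ u : ℝ,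
    (((cls (I' n) (nlab B I0 co M C n (x l)) x').filter fun j =>
      |SfN (co n) A Bk Φ κA κB (B.d n) (x l) θ x' j - u| ≤ B.d n ^ g l i).card : ℝ) ≤
      B.d n ^ (-(ν (x l) + loss l - q * g l i + C1 * g l i' + h l / ((l : ℝ) + 1)))) (by
    intro l
    by_cases hl : ∀ y : ℝ, 0 < y → y ≤ R0 * h l → ∀ z : ℝ, 0 < z → z ≤ R0 * h l →
      StrB B I0 I' co M C A Bk Φ Ok κA κB (x l) y z (ν (x l) + loss l - q * y + C1 * z)
    · have h1 : ∀ᶠ n in (U : Filter ℕ), ∀ i ∈ Finset.range (l + 1), ∀ i' ∈ Finset.range (l + 1),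
          ∀ x' ∈ I' n, ∀ θ, Ok (B.d n ^ (-g l i')) θ →
          ∀ u : ℝ, (((cls (I' n) (nlab B I0 co M C n (x l)) x').filter fun j =>
          |SfN (co n) A Bk Φ κA κB (B.d n) (x l) θ x' j - u| ≤ B.d n ^ g l i).card : ℝ) ≤
          B.d n ^ (-(ν (x l) + loss l - q * g l i + C1 * g l i' + h l / ((l : ℝ) + 1))) := by
        rw [Filter.eventually_all_finset]
        intro i hi
        rw [Filter.eventually_all_finset]
        intro i' hi2
        have hi' : i ≤ l := by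
          have := Finset.mem_range.1 hi
          omega
        have hi2' : i' ≤ l := by
          have := Finset.mem_range.1 hi2
          omega
        exact hl (g l i) (hg0 l i) (hg1 l i hi') (g l i') (hg0 l i') (hg1 l i' hi2')
          (h l / ((l : ℝ) + 1)) (div_pos (hh l) (by positivity))
      filter_upwards [h1] with n hn _ i hi i' hi2
      exact hn i (Finset.mem_range.2 (by omega)) i' (Finset.mem_range.2 (by omega))
    · exact Eventually.of_forall fun n hn => absurd hn hl)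
  refine ⟨k, hk, fun k' hk' hle W hW hI hJ hB hco hM hC hX hd' hkA hkB hbig => ?_⟩
  subst hI hJ hB hco hM hC hkA hkB
  intro t ht htR ε hε
  have hinv : Tendsto (fun l : ℕ => 1 / ((l : ℝ) + 1)) atTop (𝓝 0) :=
    tendsto_one_div_add_atTop_nhds_zero_nat
  set δ : ℝ := ε / 5 with hδ
  have hδ0 : 0 < δ := by positivity
  -- large `l`
  have hA : ∀ᶠ l in (atTop : Filter ℕ), loss l ≤ δ * h l := hloss δ hδ0
  have hBl : ∀ᶠ l : ℕ in (atTop : Filter ℕ), 1 / ((l : ℝ) + 1) ≤ δ :=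
    (hinv.eventually (gt_mem_nhds hδ0)).mono fun l hl => hl.le
  have hCl : ∀ᶠ l : ℕ in (atTop : Filter ℕ), (q * R0) * (1 / ((l : ℝ) + 1)) ≤ δ := by
    have h1 : Tendsto (fun l : ℕ => (q * R0) * (1 / ((l : ℝ) + 1))) atTop (𝓝 0) := by
      simpa using hinv.const_mul (q * R0)
    exact (h1.eventually (gt_mem_nhds hδ0)).mono fun l hl => hl.le
  have hDl : ∀ᶠ l : ℕ in (atTop : Filter ℕ), (C1 * R0) * (1 / ((l : ℝ) + 1)) ≤ δ := by
    have h1 : Tendsto (fun l : ℕ => (C1 * R0) * (1 / ((l : ℝ) + 1))) atTop (𝓝 0) := by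
      simpa using hinv.const_mul (C1 * R0)
    exact (h1.eventually (gt_mem_nhds hδ0)).mono fun l hl => hl.le
  filter_upwards [hk2, hle, hk'.eventually hS, hk'.eventually hA, hk'.eventually hBl,
    hk'.eventually hCl, hbig δ hδ0, hW.ev_good, hW.cls.csub, hk'.eventually hDl] with
    n h1 h2 h3 h4 h5 h6 h7 good hcs h6' i hi θ hθ u
  set l := k' n with hl
  have hpos : ∀ a : ℝ, 0 < W.B.d n ^ a := fun a => Real.rpow_pos_of_pos (W.B.pos n) a
  have hpos' : ∀ a : ℝ, 0 < W.B'.d n ^ a := fun a => Real.rpow_pos_of_pos (W.B'.pos n) a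
  have hcard : (0 : ℝ) ≤ (W.Cl n).card := Nat.cast_nonneg _
  have hlp : (0 : ℝ) < (l : ℝ) + 1 := by positivity
  have hhl := hh l
  have htriv : q * t - (C1 + q + 1) * ε ≤ 0 → (((W.Cl n).filter fun j =>
        |Φ θ (W.crd n i j A) (W.crd n i j Bk) - u| ≤ W.B'.d n ^ t).card : ℝ) ≤
        W.B'.d n ^ (q * t - (C1 + q + 1) * ε) * (W.Cl n).card := fun e2 => by
    have e4 : (1 : ℝ) ≤ W.B'.d n ^ (q * t - (C1 + q + 1) * ε) :=
      Real.one_le_rpow_of_pos_of_le_one_of_nonpos (W.B'.pos n) (W.B'.lt n).le e2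
    have e5 : (((W.Cl n).filter fun j =>
        |Φ θ (W.crd n i j A) (W.crd n i j Bk) - u| ≤ W.B'.d n ^ t).card : ℝ) ≤ (W.Cl n).card := by
      exact_mod_cast card_filter_le _ _
    nlinarith
  by_cases hcase : t * ((l : ℝ) + 1) / R0 < 1
  · -- trivial range
    refine htriv ?_
    have e1 : t ≤ R0 * (1 / ((l : ℝ) + 1)) := by
      rw [div_lt_one hR0] at hcase
      rw [mul_one_div, le_div_iff₀ hlp]
      exact hcase.le
    have := mul_le_mul_of_nonneg_left e1 hq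
    have e3 : q * (R0 * (1 / ((l : ℝ) + 1))) = (q * R0) * (1 / ((l : ℝ) + 1)) := by ring
    rw [e3] at this
    nlinarith [mul_nonneg hC1 hε.le, mul_nonneg hq hε.le]
  by_cases hcase2 : R0 ≤ ε
  · refine htriv ?_
    nlinarith [mul_nonneg hC1 hε.le, mul_nonneg hq hε.le,
      mul_le_mul_of_nonneg_left (htR.trans hcase2) hq]
  · push Not at hcase hcase2
    -- the grid point above `ε`
    set N' : ℕ := ⌊ε * ((l : ℝ) + 1) / R0⌋₊ with hN'
    have hN'le : (N' : ℝ) ≤ ε * ((l : ℝ) + 1) / R0 := Nat.floor_le (by positivity)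
    have hN'ge : ε * ((l : ℝ) + 1) / R0 < (N' : ℝ) + 1 := Nat.lt_floor_add_one _
    have hN'l : N' ≤ l := by
      have h8 : ε * ((l : ℝ) + 1) / R0 < (l : ℝ) + 1 := by
        rw [div_lt_iff₀ hR0]
        nlinarith
      have : (N' : ℝ) < ((l + 1 : ℕ) : ℝ) := by push_cast; exact hN'le.trans_lt h8
      have : N' < l + 1 := by exact_mod_cast this
      omega
    have z1 : ε * h l ≤ g l N' := by
      simp only [hg]
      have : ε ≤ ((N' : ℝ) + 1) / ((l : ℝ) + 1) * R0 := by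
        rw [div_mul_eq_mul_div, le_div_iff₀ hlp]
        rw [div_lt_iff₀ hR0] at hN'ge
        linarith
      calc ε * h l ≤ (((N' : ℝ) + 1) / ((l : ℝ) + 1) * R0) * h l :=
            mul_le_mul_of_nonneg_right this hhl.le
        _ = _ := by ring
    have z2 : g l N' ≤ ε * h l + R0 * (1 / ((l : ℝ) + 1)) * h l := by
      simp only [hg]
      have : ((N' : ℝ) + 1) / ((l : ℝ) + 1) * R0 ≤ ε + R0 * (1 / ((l : ℝ) + 1)) := by
        rw [div_mul_eq_mul_div, div_le_iff₀ hlp]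
        rw [le_div_iff₀ hR0] at hN'le
        have e9 : (ε + R0 * (1 / ((l : ℝ) + 1))) * ((l : ℝ) + 1) = ε * ((l : ℝ) + 1) + R0 := by
          field_simp
        rw [e9]
        linarith
      calc ((N' : ℝ) + 1) / ((l : ℝ) + 1) * (R0 * h l) =
            (((N' : ℝ) + 1) / ((l : ℝ) + 1) * R0) * h l := by ring
        _ ≤ (ε + R0 * (1 / ((l : ℝ) + 1))) * h l := mul_le_mul_of_nonneg_right this hhl.le
        _ = _ := by ring
    have hθ' : Ok (W.B.d n ^ (-g l N')) θ := by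
      refine hOk _ _ ?_ θ hθ
      rw [hd' n, ← Real.rpow_mul (W.B.pos n).le]
      refine Real.rpow_le_rpow_of_exponent_ge (W.B.pos n) (W.B.lt n).le ?_
      linarith
    -- the grid point below `t`
    set N : ℕ := ⌊t * ((l : ℝ) + 1) / R0⌋₊ with hN
    have hN1 : 1 ≤ N := Nat.le_floor (by exact_mod_cast hcase)
    have hNle : (N : ℝ) ≤ t * ((l : ℝ) + 1) / R0 := Nat.floor_le (by positivity)
    have hNge : t * ((l : ℝ) + 1) / R0 < (N : ℝ) + 1 := Nat.lt_floor_add_one _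
    have hNl : N ≤ l + 1 := by
      have h8 : t * ((l : ℝ) + 1) / R0 ≤ (l : ℝ) + 1 := by
        rw [div_le_iff₀ hR0]
        nlinarith
      have : (N : ℝ) ≤ ((l + 1 : ℕ) : ℝ) := by push_cast; exact hNle.trans h8
      exact_mod_cast this
    have hil : N - 1 ≤ l := by omega
    have hNc : (((N - 1 : ℕ) : ℝ) + 1) = N := by
      rw [Nat.cast_sub hN1]; push_cast; ring
    have hgN : g l (N - 1) = (N : ℝ) / ((l : ℝ) + 1) * (R0 * h l) := by
      simp only [hg]; rw [hNc]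
    have y1 : g l (N - 1) ≤ t * h l := by
      rw [hgN]
      have : (N : ℝ) / ((l : ℝ) + 1) * R0 ≤ t := by
        rw [div_mul_eq_mul_div, div_le_iff₀ hlp]
        rw [le_div_iff₀ hR0] at hNle
        linarith
      calc (N : ℝ) / ((l : ℝ) + 1) * (R0 * h l) = ((N : ℝ) / ((l : ℝ) + 1) * R0) * h l := by ring
        _ ≤ t * h l := mul_le_mul_of_nonneg_right this hhl.le
    have y2 : t * h l - R0 * (1 / ((l : ℝ) + 1)) * h l ≤ g l (N - 1) := by
      rw [hgN]
      have : t - R0 * (1 / ((l : ℝ) + 1)) ≤ (N : ℝ) / ((l : ℝ) + 1) * R0 := by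
        rw [div_mul_eq_mul_div, le_div_iff₀ hlp]
        rw [div_lt_iff₀ hR0] at hNge
        have e9 : (t - R0 * (1 / ((l : ℝ) + 1))) * ((l : ℝ) + 1) = t * ((l : ℝ) + 1) - R0 := by
          field_simp
        rw [e9]
        linarith
      calc t * h l - R0 * (1 / ((l : ℝ) + 1)) * h l = (t - R0 * (1 / ((l : ℝ) + 1))) * h l := by
            ring
        _ ≤ ((N : ℝ) / ((l : ℝ) + 1) * R0) * h l := mul_le_mul_of_nonneg_right this hhl.le
        _ = _ := by ring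
    have hst := h1 l h2 h3 (N - 1) hil N' hN'l i (hcs hi) θ hθ' u
    -- the class is in one class of the sample
    have hsub : ((W.Cl n).filter fun j =>
        |Φ θ (W.crd n i j A) (W.crd n i j Bk) - u| ≤ W.B'.d n ^ t) ⊆
        (cls (W.J n) (nlab W.B W.I W.co W.M W.C n (x l)) i).filter fun j =>
          |SfN (W.co n) A Bk Φ (W.kap A) (W.kap Bk) (W.B.d n) (x l) θ i j - u| ≤
            W.B.d n ^ g l (N - 1) := by
      intro j hj
      obtain ⟨j1, j2⟩ := mem_filter.1 hj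
      have hlab := good.lab0 j j1 i hi
      have e0 : W.X n + W.w n • (0 : Fin m → ℝ) = x l := by rw [smul_zero, add_zero, hX]
      have hlab' : nlab W.B W.I W.co W.M W.C n (x l) j = nlab W.B W.I W.co W.M W.C n (x l) i := by
        have : nlab W.B W.I W.co W.M W.C n (W.X n + W.w n • (0 : Fin m → ℝ)) j =
          nlab W.B W.I W.co W.M W.C n (W.X n + W.w n • (0 : Fin m → ℝ)) i := hlab
        rwa [e0] at this
      refine mem_filter.2 ⟨mem_cls.2 ⟨hcs j1, hlab'⟩, ?_⟩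
      have e1 : SfN (W.co n) A Bk Φ (W.kap A) (W.kap Bk) (W.B.d n) (x l) θ i j =
          Φ θ (W.crd n i j A) (W.crd n i j Bk) := by
        unfold SfN Wnd.crd
        rw [hX]
      rw [e1]
      refine j2.trans ?_
      rw [hd' n, ← Real.rpow_mul (W.B.pos n).le]
      refine Real.rpow_le_rpow_of_exponent_ge (W.B.pos n) (W.B.lt n).le ?_
      rw [mul_comm]
      exact y1
    have hbg := h7
    have hle1 : (((W.Cl n).filter fun j =>
        |Φ θ (W.crd n i j A) (W.crd n i j Bk) - u| ≤ W.B'.d n ^ t).card : ℝ) ≤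
        W.B.d n ^ (-(ν (x l) + loss l - q * g l (N - 1) + C1 * g l N' + h l / ((l : ℝ) + 1))) :=
      le_trans (by exact_mod_cast card_le_card hsub) hst
    refine hle1.trans ?_
    have hrp : ∀ a : ℝ, W.B'.d n ^ a = W.B.d n ^ (h l * a) := fun a => by
      rw [hd' n, ← Real.rpow_mul (W.B.pos n).le]
    calc W.B.d n ^ (-(ν (x l) + loss l - q * g l (N - 1) + C1 * g l N' + h l / ((l : ℝ) + 1)))
        ≤ W.B.d n ^ (h l * (q * t - (C1 + q + 1) * ε)) *
            (W.B.d n ^ (-ν (x l)) * W.B.d n ^ (h l * δ)) := by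
          rw [← Real.rpow_add (W.B.pos n), ← Real.rpow_add (W.B.pos n)]
          refine Real.rpow_le_rpow_of_exponent_ge (W.B.pos n) (W.B.lt n).le ?_
          have w1 := mul_le_mul_of_nonneg_left y2 hq
          have w2 : q * (t * h l - R0 * (1 / ((l : ℝ) + 1)) * h l) =
              q * t * h l - ((q * R0) * (1 / ((l : ℝ) + 1))) * h l := by ring
          rw [w2] at w1
          have w3 := mul_le_mul_of_nonneg_right h6 hhl.le
          have w4 : h l / ((l : ℝ) + 1) = (1 / ((l : ℝ) + 1)) * h l := by ring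
          have w5 := mul_le_mul_of_nonneg_right h5 hhl.le
          have w6 := mul_le_mul_of_nonneg_left z2 hC1
          have w7 : C1 * (ε * h l + R0 * (1 / ((l : ℝ) + 1)) * h l) =
              C1 * ε * h l + ((C1 * R0) * (1 / ((l : ℝ) + 1))) * h l := by ring
          rw [w7] at w6
          have w8 := mul_le_mul_of_nonneg_right h6' hhl.le
          rw [w4]
          have w9 : 0 ≤ q * ε * h l := by positivity
          have w10 : ε = 5 * δ := by rw [hδ]; ring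
          have w11 : h l * (q * t - (C1 + q + 1) * ε) = q * t * h l - C1 * ε * h l -
              q * ε * h l - 5 * (δ * h l) := by
            have : h l * (q * t - (C1 + q + 1) * ε) = q * t * h l - C1 * ε * h l -
              q * ε * h l - ε * h l := by ring
            rw [this]
            rw [← mul_assoc, ← w10]
          rw [w11]
          have w12 : h l * δ = δ * h l := mul_comm _ _
          rw [w12]
          linarith
      _ = W.B'.d n ^ (q * t - (C1 + q + 1) * ε) * (W.B.d n ^ (-ν (x l)) * W.B'.d n ^ δ) := by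
          rw [hrp, hrp]
      _ ≤ W.B'.d n ^ (q * t - (C1 + q + 1) * ε) * (W.Cl n).card :=
          mul_le_mul_of_nonneg_left hbg (hpos' _).le

end

end Crest.Agent.R116.Nar192
end

-- ▼ part R116/Nar3_192
section

/-!
# R116 (S0155), K side, [NARROW] (helper192), part 3: the light chart

* `N0c` : plain D-max at the record box `rc`, seen from a member.
* `N1c` : the input = count of the strips at the record box for D-max on the family (222's Gt1):
  functional `e1 C + e2 (P + g C ^ 2)`, flag of the fixed incidence `x`, base `y0` in the class `pc`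
  of `x`; `Gm = 0` linear, `Gm = 1` curved.
* `strB_light` : `N1c` at the record box `rc` ⊢ strips of the classes `p` of the sample.
-/

set_option autoImplicit false
set_option linter.unusedVariables false
set_option linter.unusedSectionVars false

open Finset Filter Topology

namespace Crest.Agent.R116.Nar192

open Crest.Agent.R138.Ex926
open Crest.Agent.R138.Dp76 (dpow_pos dpow_add dpow_le)
open Crest.Agent.R136.Net191
open Crest.Agent.R136.Qg926
open Crest.Agent.R136.Lq196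
open Crest.Agent.R116.ChL222
open Crest.Agent.R116.PL504 (uL cN coN)
open Crest.Agent.R116.EvL504
open Crest.Agent.R116.LZg725
open Crest.Agent.R116.Gd222 (Vf NearS TSet)

/-- parameters `(e1, e2, g)` of a (curved) strip -/
abbrev Par3 := ℝ × ℝ × ℝ

/-- `e1 a + e2 (b + g a ^ 2)` -/
def Phi3 (θ : Par3) (a b : ℝ) : ℝ := θ.1 * a + θ.2.1 * (b + θ.2.2 * a ^ 2)

/-- unit vectors, curvature at most `Gm D` -/
def Ok3 (Gm D : ℝ) (θ : Par3) : Prop := θ.1 ^ 2 + θ.2.1 ^ 2 = 1 ∧ |θ.2.2| ≤ Gm * D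

open Classical in
/-- **plain D-max at the box `rc`**, seen from a member -/
def N0c (B : Base) (I : ℕ → Finset (ℕ × ℝ)) (co : ∀ n : ℕ, ℕ × ℝ → ℕ × ℝ → Fin 12 → ℝ)
    (N0 : ℕ → ℝ) (rc : Fin 12 → ℝ) (t : ℝ) : Prop :=
  ∀ K : ℝ, 1 ≤ K → ∀ ε : ℝ, 0 < ε → ∀ᶠ n in (U : Filter ℕ), ∀ y0 ∈ I n,
      (((I n).filter fun j => ∀ k, Vf k → |co n y0 j k| ≤ K * B.d n ^ rc k).card : ℝ) ≤
        N0 n * B.d n ^ (-(t + ε))

open Classical in
/-- **D-max for tilted (and curved) members at the box `rc`**, slots `sC`, `10`, seen from the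
members `y0` of the class `pc` of `x`, with the flag of `x` -/
def N1c (B : Base) (I : ℕ → Finset (ℕ × ℝ)) (co : ∀ n : ℕ, ℕ × ℝ → ℕ × ℝ → Fin 12 → ℝ)
    (N0 : ℕ → ℝ) (pc rc : Fin 12 → ℝ) (sC : Fin 12) (Gm y z t : ℝ) : Prop :=
  ∀ K : ℝ, 1 ≤ K → ∀ ε : ℝ, 0 < ε → ∀ᶠ n in (U : Filter ℕ), ∀ x ∈ I n, ∀ y0 ∈ I n,
    Near (co n) (B.d n) pc K x y0 → ∀ e1 e2 g : ℝ,
      1 ≤ K * (e1 ^ 2 + e2 ^ 2) → e1 ^ 2 + e2 ^ 2 ≤ K → |g| ≤ Gm * (K * B.d n ^ (-z)) →
      (((I n).filter fun j => (∀ k, Vf k → |co n y0 j k| ≤ K * B.d n ^ rc k) ∧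
        |e1 * (co n y0 j sC / B.d n ^ rc sC) +
          e2 * ((co n x j 10 - co n x y0 10) / B.d n ^ rc 10 +
            g * (co n y0 j sC / B.d n ^ rc sC) ^ 2)| ≤ K * B.d n ^ y).card : ℝ) ≤
        N0 n * B.d n ^ (-(t + ε))

/-- algebra of the re-centring of the functional -/
theorem phi3_diff {e1 e2 g κA κB dA dB cj c0 cc Pj P0 : ℝ} (hκA : 0 < κA) (hκB : 0 < κB)
    (hdA : 0 < dA) (hdB : 0 < dB) (hc : cj = c0 + cc) :
    Phi3 (e1, e2, g) (cj / (κA * dA)) (Pj / (κB * dB)) -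
      Phi3 (e1, e2, g) (c0 / (κA * dA)) (P0 / (κB * dB)) =
      (e1 / κA + e2 / κB * (2 * (g * κB / κA ^ 2) * (c0 / dA))) * (cc / dA) +
        (e2 / κB) * ((Pj - P0) / dB + (g * κB / κA ^ 2) * (cc / dA) ^ 2) := by
  unfold Phi3
  rw [hc]
  field_simp
  ring

/-- size of the re-centred functional -/
theorem e_low {e1 e2 m κA κB M : ℝ} (hκA : 0 < κA) (hκB : 0 < κB)
    (he : e1 ^ 2 + e2 ^ 2 = 1) (hm : |m| ≤ M) :
    1 ≤ (κA + κA * M + κB) * Real.sqrt ((e1 / κA + e2 / κB * m) ^ 2 + (e2 / κB) ^ 2) := by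
  set a := e1 / κA + e2 / κB * m with ha
  set b := e2 / κB with hb
  have eb : e2 = κB * b := by rw [hb]; field_simp
  have ea : e1 = κA * (a - b * m) := by rw [ha]; field_simp; ring
  have hM : 0 ≤ M := (abs_nonneg m).trans hm
  set N := Real.sqrt (a ^ 2 + b ^ 2) with hN
  have hN0 : 0 ≤ N := Real.sqrt_nonneg _
  have h1 : |a| ≤ N := Real.abs_le_sqrt (by nlinarith [sq_nonneg b])
  have h2 : |b| ≤ N := Real.abs_le_sqrt (by nlinarith [sq_nonneg a])
  have h3 : 1 ≤ |e1| + |e2| := by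
    have e1' := sq_abs e1
    have e2' := sq_abs e2
    nlinarith [abs_nonneg e1, abs_nonneg e2, mul_nonneg (abs_nonneg e1) (abs_nonneg e2)]
  have h4 : |e1| ≤ κA * N + κA * M * N := by
    rw [ea, abs_mul, abs_of_pos hκA]
    have h5 : |a - b * m| ≤ N + N * M := by
      calc |a - b * m| ≤ |a| + |b * m| := abs_sub _ _
        _ = |a| + |b| * |m| := by rw [abs_mul]
        _ ≤ N + N * M := add_le_add h1 (mul_le_mul h2 hm (abs_nonneg _) hN0)
    calc κA * |a - b * m| ≤ κA * (N + N * M) := mul_le_mul_of_nonneg_left h5 hκA.le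
      _ = _ := by ring
  have h6 : |e2| ≤ κB * N := by
    rw [eb, abs_mul, abs_of_pos hκB]
    exact mul_le_mul_of_nonneg_left h2 hκB.le
  calc (1:ℝ) ≤ |e1| + |e2| := h3
    _ ≤ (κA * N + κA * M * N) + κB * N := add_le_add h4 h6
    _ = _ := by ring

section light

variable {B : Base} {I0 I' : ℕ → Finset (ℕ × ℝ)} {lev : ℕ → ℚ → ℕ} {w : Fin 2 → ℕ → ℚ → ℝ}
    {w0 sa sb : ℝ} {fl : ℕ → ℕ × ℝ → LInc} {C R w0' s s' : ℝ} {kz : Fin 12}
    {PD : Set (Fin 12 → ℝ)} {D : (Fin 12 → ℝ) → ℝ} {r o : ℝ → Fin 12 → ℝ} {E : ℝ → ℝ}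
    {T : Fin 12 → Prop} {ν own : (Fin 12 → ℝ) → ℝ} {c₀ : ℝ} {N0 : ℕ → ℝ}

/-- differences of the slots `3`, `4`, `10` along a fine step -/
theorem co_step {a c : Fin 12 → ℝ} {K d0 : ℝ} (hK : 1 ≤ K) (hd0 : 0 ≤ d0) (hd1 : d0 ≤ 1)
    (ha : ∀ k, |a k| ≤ K) (hc : ∀ k, |c k| ≤ K * d0) :
    |comp a c 3 - a 3| ≤ 20 * K ^ 3 * d0 ∧ |comp a c 4 - a 4| ≤ 20 * K ^ 3 * d0 ∧
      |comp a c 10 - a 10| ≤ 20 * K ^ 3 * d0 := by
  have hK0 : 0 ≤ K := by linarith
  have k2 : K ≤ K ^ 2 := by nlinarith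
  have k3 : K ^ 2 ≤ K ^ 3 := by nlinarith [sq_nonneg K]
  have m1 : ∀ k, |c k| ≤ K ^ 3 * d0 := fun k =>
    (hc k).trans (mul_le_mul_of_nonneg_right (k2.trans k3) hd0)
  have m2 : ∀ i k, |a i * c k| ≤ K ^ 3 * d0 := fun i k => by
    rw [abs_mul]
    calc |a i| * |c k| ≤ K * (K * d0) := mul_le_mul (ha i) (hc k) (abs_nonneg _) hK0
      _ = K ^ 2 * d0 := by ring
      _ ≤ K ^ 3 * d0 := mul_le_mul_of_nonneg_right k3 hd0
  have m3 : ∀ i k l, |a i * (c k * c l)| ≤ K ^ 3 * d0 := fun i k l => by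
    rw [abs_mul, abs_mul]
    calc |a i| * (|c k| * |c l|) ≤ K * ((K * d0) * (K * d0)) :=
          mul_le_mul (ha i) (mul_le_mul (hc k) (hc l) (abs_nonneg _) (mul_nonneg hK0 hd0))
            (mul_nonneg (abs_nonneg _) (abs_nonneg _)) hK0
      _ = K ^ 3 * (d0 * d0) := by ring
      _ ≤ K ^ 3 * d0 := mul_le_mul_of_nonneg_left (by nlinarith) (by positivity)
  have hp : 0 ≤ K ^ 3 * d0 := by positivity
  refine ⟨?_, ?_, ?_⟩
  · have e : comp a c 3 - a 3 = c 3 := by show a 3 + c 3 - a 3 = c 3; ring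
    rw [e, mul_assoc]; linarith [m1 3]
  · have e : comp a c 4 - a 4 = c 4 := by show a 4 + c 4 - a 4 = c 4; ring
    rw [e, mul_assoc]; linarith [m1 4]
  · have e : comp a c 10 - a 10 = c 10 - a 7 * c 3 - a 8 * c 4 - 1 / 2 * (a 2 * (c 3 * c 3)) -
        1 / 2 * (a 2 * (c 4 * c 4)) - 2 * (a 1 * (c 5 * c 3)) - 2 * (a 1 * (c 6 * c 4)) +
        2 * (a 1 * c 9) := by
      show a 10 + c 10 - a 7 * c 3 - a 8 * c 4 - a 2 * ((c 3 ^ 2 + c 4 ^ 2) / 2) -
        2 * (a 1 * (c 5 * c 3 + c 6 * c 4 - c 9)) - a 10 = _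
      ring
    rw [e, mul_assoc]
    have t1 := abs_le.1 (m1 10)
    have t2 := abs_le.1 (m2 7 3)
    have t3 := abs_le.1 (m2 8 4)
    have t4 := abs_le.1 (m3 2 3 3)
    have t5 := abs_le.1 (m3 2 4 4)
    have t6 := abs_le.1 (m3 1 5 3)
    have t7 := abs_le.1 (m3 1 6 4)
    have t8 := abs_le.1 (m2 1 9)
    rw [abs_le]
    constructor <;> linarith [t1.1, t1.2, t2.1, t2.2, t3.1, t3.2, t4.1, t4.2, t5.1, t5.2, t6.1,
      t6.2, t7.1, t7.2, t8.1, t8.2]

set_option maxHeartbeats 1000000 in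
open Classical in
/-- **strips of the classes of the sample**, light chart -/
theorem strB_light
    (hx : ExtQ B I0 I' (coN B lev w w0 sa sb fl) monL C R kz w0' s PD D r o E T ν own c₀)
    (hR : 0 ≤ R) (hc : CombQ B I0 I' lev (coN B lev w w0 sa sb fl) monL C R N0 c₀)
    {sC : Fin 12} (hsC : sC = 3 ∨ sC = 4) {κA κB Gm : ℝ} (hκA : 0 < κA) (hκB : 0 < κB)
    (hGm : 0 ≤ Gm) {p rc : Fin 12 → ℝ} (hp : p ∈ Leg monL R) (hrc : rc ∈ Leg monL R)
    (hC : p sC = rc sC) (hP : p 10 = rc 10) {q y z t0 t : ℝ}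
    (hq : 0 ≤ q) (hy : 0 ≤ y) (hz : 0 ≤ z) (ht0 : t0 ≤ t)
    (hyC : p sC + (y + z) ≤ R) (hyP : p 10 + (y + z) ≤ R)
    (h0 : N0c B I0 (coN B lev w w0 sa sb fl) N0 rc t0)
    (h1 : ∀ y', 0 < y' → y' ≤ y →
      N1c B I0 (coN B lev w w0 sa sb fl) N0 p rc sC Gm y' z (t - q * y')) :
    StrB B I0 I' (coN B lev w w0 sa sb fl) monL C sC 10 Phi3 (Ok3 Gm) κA κB p y z
      (ν p - ν (p ⊔ rc) + c₀ + (t - q * y + q * z)) := by
  intro ε hε
  have hcoc := Crest.Agent.R116.Sd369.coc_N B lev w w0 sa sb fl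
  have key := strip_p (Θ := Par3) (Ok := fun n => Ok3 Gm (B.d n ^ (-z)))
    (Sf := fun n θ x j => SfN (coN B lev w w0 sa sb fl n) sC 10 Phi3 κA κB (B.d n) p θ x j)
    hx hR hc Vf hp hrc (y := y) (t := t - q * y + q * z) ?_ ?_ 1 le_rfl ε hε
  · filter_upwards [key] with n hn x hxn θ hθ u
    have := hn x hxn θ hθ u
    rw [one_mul] at this
    exact this
  · -- Lipschitz at the top
    intro K hK
    set K' : ℝ := (20 * K ^ 3 / κA + 20 * K ^ 3 / κB +
      Gm * (20 * K ^ 3 / κA) * ((20 * K ^ 3 + 2 * K) / κA)) + 1 with hK'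
    have hK0 : 0 ≤ K := by linarith
    have hsum : 0 ≤ 20 * K ^ 3 / κA + 20 * K ^ 3 / κB +
      Gm * (20 * K ^ 3 / κA) * ((20 * K ^ 3 + 2 * K) / κA) := by positivity
    refine ⟨K', by rw [hK']; linarith, fun n θ hθ x hxn j hj l hl hxj hjl => ?_⟩
    have hd := B.pos n
    have hd1 := (B.lt n).le
    have dp := fun a => dpow_pos B n a
    obtain ⟨hθ1, hθ2⟩ := hθ
    obtain ⟨e1, e2, g⟩ := θ
    simp only at hθ1 hθ2
    have he1 : |e1| ≤ 1 := abs_le_one_iff_mul_self_le_one.2 (by nlinarith [sq_nonneg e2])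
    have he2 : |e2| ≤ 1 := abs_le_one_iff_mul_self_le_one.2 (by nlinarith [sq_nonneg e1])
    set a := coN B lev w w0 sa sb fl n x j with ha
    set c := coN B lev w w0 sa sb fl n j l with hcd
    have hadd : coN B lev w w0 sa sb fl n x l = comp a c := (hcoc n).add x j l
    have hdR0 : 0 ≤ B.d n ^ R := (dp R).le
    have hdR1 : B.d n ^ R ≤ 1 := Real.rpow_le_one hd.le hd1 hR
    have ha1 : ∀ k, |a k| ≤ K := fun k => by
      refine (hxj k).trans ?_
      calc K * B.d n ^ p k ≤ K * 1 :=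
            mul_le_mul_of_nonneg_left (Real.rpow_le_one hd.le hd1 (hp.1.nonneg k)) hK0
        _ = K := mul_one K
    obtain ⟨s3, s4, s10⟩ := co_step hK hdR0 hdR1 ha1 hjl
    have hsC' : |comp a c sC - a sC| ≤ 20 * K ^ 3 * B.d n ^ R := by
      rcases hsC with rfl | rfl
      · exact s3
      · exact s4
    -- normalised differences
    have f0 : B.d n ^ R / B.d n ^ p sC ≤ B.d n ^ (y + z) := by
      rw [div_le_iff₀ (dp _), ← dpow_add]
      exact dpow_le B n (by linarith)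
    have fyz : B.d n ^ (y + z) ≤ B.d n ^ y := dpow_le B n (by linarith)
    have f2 : B.d n ^ R / B.d n ^ p 10 ≤ B.d n ^ y := by
      rw [div_le_iff₀ (dp _), ← dpow_add]
      exact dpow_le B n (by linarith)
    have q0 : |(comp a c sC - a sC) / (κA * B.d n ^ p sC)| ≤ 20 * K ^ 3 / κA * B.d n ^ (y + z) := by
      rw [abs_div, abs_of_pos (mul_pos hκA (dp _))]
      calc |comp a c sC - a sC| / (κA * B.d n ^ p sC)
          ≤ (20 * K ^ 3 * B.d n ^ R) / (κA * B.d n ^ p sC) :=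
            div_le_div_of_nonneg_right hsC' (mul_pos hκA (dp _)).le
        _ = 20 * K ^ 3 / κA * (B.d n ^ R / B.d n ^ p sC) := by
            have := (dp (p sC)).ne'
            field_simp
        _ ≤ _ := mul_le_mul_of_nonneg_left f0 (by positivity)
    have q1 : |(comp a c sC - a sC) / (κA * B.d n ^ p sC)| ≤ 20 * K ^ 3 / κA * B.d n ^ y :=
      q0.trans (mul_le_mul_of_nonneg_left fyz (by positivity))
    have q2 : |(comp a c 10 - a 10) / (κB * B.d n ^ p 10)| ≤ 20 * K ^ 3 / κB * B.d n ^ y := by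
      rw [abs_div, abs_of_pos (mul_pos hκB (dp _))]
      calc |comp a c 10 - a 10| / (κB * B.d n ^ p 10)
          ≤ (20 * K ^ 3 * B.d n ^ R) / (κB * B.d n ^ p 10) :=
            div_le_div_of_nonneg_right s10 (mul_pos hκB (dp _)).le
        _ = 20 * K ^ 3 / κB * (B.d n ^ R / B.d n ^ p 10) := by
            have := (dp (p 10)).ne'
            field_simp
        _ ≤ _ := mul_le_mul_of_nonneg_left f2 (by positivity)
    have hyle : B.d n ^ y ≤ 1 := Real.rpow_le_one hd.le hd1 hy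
    have q3 : |a sC / (κA * B.d n ^ p sC)| ≤ K / κA := by
      rw [abs_div, abs_of_pos (mul_pos hκA (dp _)), div_le_div_iff₀ (mul_pos hκA (dp _)) hκA]
      have := hxj sC
      calc |a sC| * κA ≤ (K * B.d n ^ p sC) * κA := mul_le_mul_of_nonneg_right this hκA.le
        _ = K * (κA * B.d n ^ p sC) := by ring
    set X := a sC / (κA * B.d n ^ p sC) with hX
    set dX := (comp a c sC - a sC) / (κA * B.d n ^ p sC) with hdX
    set dY := (comp a c 10 - a 10) / (κB * B.d n ^ p 10) with hdY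
    have e0 : SfN (coN B lev w w0 sa sb fl n) sC 10 Phi3 κA κB (B.d n) p (e1, e2, g) x l -
        SfN (coN B lev w w0 sa sb fl n) sC 10 Phi3 κA κB (B.d n) p (e1, e2, g) x j =
        e1 * dX + e2 * dY + e2 * (g * (dX * (dX + 2 * X))) := by
      unfold SfN Phi3
      rw [hadd, hdX, hdY, hX]
      have h1 := hκA.ne'
      have h2 := hκB.ne'
      have h3 := (dp (p sC)).ne'
      have h4 := (dp (p 10)).ne'
      simp only
      field_simp
      ring
    show |SfN (coN B lev w w0 sa sb fl n) sC 10 Phi3 κA κB (B.d n) p (e1, e2, g) x l -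
        SfN (coN B lev w w0 sa sb fl n) sC 10 Phi3 κA κB (B.d n) p (e1, e2, g) x j| ≤ _
    rw [e0]
    have r1 : |e1 * dX| ≤ 20 * K ^ 3 / κA * B.d n ^ y := by
      rw [abs_mul]
      calc |e1| * |dX| ≤ 1 * (20 * K ^ 3 / κA * B.d n ^ y) :=
            mul_le_mul he1 q1 (abs_nonneg _) zero_le_one
        _ = _ := one_mul _
    have r2 : |e2 * dY| ≤ 20 * K ^ 3 / κB * B.d n ^ y := by
      rw [abs_mul]
      calc |e2| * |dY| ≤ 1 * (20 * K ^ 3 / κB * B.d n ^ y) :=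
            mul_le_mul he2 q2 (abs_nonneg _) zero_le_one
        _ = _ := one_mul _
    have r3 : |dX + 2 * X| ≤ (20 * K ^ 3 + 2 * K) / κA := by
      calc |dX + 2 * X| ≤ |dX| + |2 * X| := abs_add_le _ _
        _ ≤ 20 * K ^ 3 / κA * B.d n ^ y + 2 * (K / κA) := by
            refine add_le_add q1 ?_
            rw [abs_mul, abs_of_pos (by norm_num : (0:ℝ) < 2)]
            linarith
        _ ≤ 20 * K ^ 3 / κA * 1 + 2 * (K / κA) := by
            have : 0 ≤ 20 * K ^ 3 / κA := by positivity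
            nlinarith
        _ = _ := by ring
    have r4 : |e2 * (g * (dX * (dX + 2 * X)))| ≤
        Gm * (20 * K ^ 3 / κA) * ((20 * K ^ 3 + 2 * K) / κA) * B.d n ^ y := by
      rw [abs_mul, abs_mul, abs_mul]
      have u1 : |dX| * |dX + 2 * X| ≤
          (20 * K ^ 3 / κA * B.d n ^ (y + z)) * ((20 * K ^ 3 + 2 * K) / κA) :=
        mul_le_mul q0 r3 (abs_nonneg _) (by positivity)
      have u2 : |g| * (|dX| * |dX + 2 * X|) ≤ (Gm * B.d n ^ (-z)) *
          ((20 * K ^ 3 / κA * B.d n ^ (y + z)) * ((20 * K ^ 3 + 2 * K) / κA)) :=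
        mul_le_mul hθ2 u1 (mul_nonneg (abs_nonneg _) (abs_nonneg _))
          (mul_nonneg hGm (dp _).le)
      calc |e2| * (|g| * (|dX| * |dX + 2 * X|)) ≤
            1 * ((Gm * B.d n ^ (-z)) *
              ((20 * K ^ 3 / κA * B.d n ^ (y + z)) * ((20 * K ^ 3 + 2 * K) / κA))) :=
            mul_le_mul he2 u2 (mul_nonneg (abs_nonneg _)
              (mul_nonneg (abs_nonneg _) (abs_nonneg _))) zero_le_one
        _ = Gm * (20 * K ^ 3 / κA) * ((20 * K ^ 3 + 2 * K) / κA) *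
              (B.d n ^ (-z) * B.d n ^ (y + z)) := by ring
        _ = _ := by rw [← dpow_add]; congr 2; ring
    have e9 : K' * B.d n ^ y = 20 * K ^ 3 / κA * B.d n ^ y + 20 * K ^ 3 / κB * B.d n ^ y +
        Gm * (20 * K ^ 3 / κA) * ((20 * K ^ 3 + 2 * K) / κA) * B.d n ^ y + B.d n ^ y := by
      rw [hK']; ring
    rw [e9]
    have hyp := (dp y).le
    calc |e1 * dX + e2 * dY + e2 * (g * (dX * (dX + 2 * X)))|
        ≤ |e1 * dX| + |e2 * dY| + |e2 * (g * (dX * (dX + 2 * X)))| := abs_add_three _ _ _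
      _ ≤ _ := by linarith
  · -- the count at the record box
    intro K hK ε' hε'
    set M0 : ℝ := 2 * (Gm * κB / κA ^ 2) * K with hM0
    have hK0 : 0 ≤ K := by linarith
    have hM00 : 0 ≤ M0 := by rw [hM0]; positivity
    set K2 : ℝ := κA + κA * M0 + κB with hK2
    have hK20 : 0 ≤ K2 := by rw [hK2]; positivity
    set K1 : ℝ := K + K * K2 + κB / κA ^ 2 with hK1
    have z2 : 0 ≤ K * K2 := by positivity
    have z3 : 0 ≤ κB / κA ^ 2 := by positivity
    have hK11 : 1 ≤ K1 := by rw [hK1]; linarith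
    have hKK1 : K ≤ K1 := by rw [hK1]; linarith
    have hKK2 : K * K2 ≤ K1 := by rw [hK1]; linarith
    rcases le_or_gt y z with hyz | hyz
    · -- trivial range
      filter_upwards [h0 K hK ε' hε'] with n hn θ hθ x hxn y0 hy0 hnear
      have dp := fun a => dpow_pos B n a
      have b4 := hn y0 hy0
      have hN0 : (0:ℝ) ≤ N0 n * B.d n ^ (-(t0 + ε')) := le_trans (Nat.cast_nonneg _) b4
      have hN00 : 0 ≤ N0 n := nonneg_of_mul_nonneg_left hN0 (dp _)
      have b5 : N0 n * B.d n ^ (-(t0 + ε')) ≤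
          N0 n * B.d n ^ (-(t - q * y + q * z + ε')) :=
        mul_le_mul_of_nonneg_left (dpow_le B n (by nlinarith)) hN00
      refine le_trans (le_trans ?_ b4) b5
      refine Nat.cast_le.2 (card_le_card fun j hj => ?_)
      have hj' : j ∈ (I0 n).filter fun j => (∀ k, Vf k → |coN B lev w w0 sa sb fl n y0 j k| ≤
          K * B.d n ^ rc k) ∧ |SfN (coN B lev w w0 sa sb fl n) sC 10 Phi3 κA κB (B.d n) p θ x j -
          SfN (coN B lev w w0 sa sb fl n) sC 10 Phi3 κA κB (B.d n) p θ x y0| ≤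
          K * B.d n ^ y := by
        convert hj
      obtain ⟨j1, j2, j3⟩ := mem_filter.1 hj'
      exact mem_filter.2 ⟨j1, j2⟩
    · filter_upwards [h1 (y - z) (by linarith) (by linarith) K1 hK11 ε' hε'] with
        n hn θ hθ x hxn y0 hy0 hnear
      have hd := B.pos n
      have hd1 := (B.lt n).le
      have dp := fun a => dpow_pos B n a
      obtain ⟨hθ1, hθ2⟩ := hθ
      obtain ⟨e1, e2, g⟩ := θ
      simp only at hθ1 hθ2
      set cf := coN B lev w w0 sa sb fl n with hcf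
      set m : ℝ := 2 * (g * κB / κA ^ 2) * (cf x y0 sC / B.d n ^ rc sC) with hm
      have hz1 : 1 ≤ B.d n ^ (-z) :=
        Real.one_le_rpow_of_pos_of_le_one_of_nonpos hd hd1 (by linarith)
      have hmM : |m| ≤ M0 * B.d n ^ (-z) := by
        have v1 : |cf x y0 sC / B.d n ^ rc sC| ≤ K := by
          rw [abs_div, abs_of_pos (dp _), div_le_iff₀ (dp _), ← hC]
          exact hnear sC
        have v2 : |2 * (g * κB / κA ^ 2)| ≤ 2 * (Gm * κB / κA ^ 2) * B.d n ^ (-z) := by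
          rw [abs_mul, abs_div, abs_mul, abs_of_pos (by norm_num : (0:ℝ) < 2), abs_of_pos hκB,
            abs_of_pos (pow_pos hκA 2), mul_assoc]
          refine mul_le_mul_of_nonneg_left ?_ (by norm_num)
          calc |g| * κB / κA ^ 2 ≤ (Gm * B.d n ^ (-z)) * κB / κA ^ 2 :=
                div_le_div_of_nonneg_right (mul_le_mul_of_nonneg_right hθ2 hκB.le)
                  (pow_pos hκA 2).le
            _ = _ := by ring
        rw [hm, abs_mul, hM0]
        calc |2 * (g * κB / κA ^ 2)| * |cf x y0 sC / B.d n ^ rc sC| ≤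
              (2 * (Gm * κB / κA ^ 2) * B.d n ^ (-z)) * K :=
              mul_le_mul v2 v1 (abs_nonneg _) (by positivity)
          _ = _ := by ring
      have b1 := e_low (e1 := e1) (e2 := e2) (m := m) hκA hκB hθ1 hmM
      set N := Real.sqrt ((e1 / κA + e2 / κB * m) ^ 2 + (e2 / κB) ^ 2) with hN
      have hNn : 0 ≤ N := Real.sqrt_nonneg _
      have b2 : 1 ≤ K2 * B.d n ^ (-z) * N := by
        refine b1.trans (mul_le_mul_of_nonneg_right ?_ hNn)
        rw [hK2]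
        nlinarith [mul_nonneg hκA.le hM00]
      have hN0 : 0 < N := by
        rcases hNn.lt_or_eq with h | h
        · exact h
        · rw [← h, mul_zero] at b2; linarith
      have hN2 : N ^ 2 = (e1 / κA + e2 / κB * m) ^ 2 + (e2 / κB) ^ 2 :=
        Real.sq_sqrt (by positivity)
      set E1 := (e1 / κA + e2 / κB * m) / N with hE1
      set E2 := (e2 / κB) / N with hE2
      have hE : E1 ^ 2 + E2 ^ 2 = 1 := by
        rw [hE1, hE2, div_pow, div_pow, ← add_div, ← hN2]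
        exact div_self (pow_pos hN0 2).ne'
      have b3 : |g * κB / κA ^ 2| ≤ Gm * (K1 * B.d n ^ (-z)) := by
        rw [abs_div, abs_mul, abs_of_pos hκB, abs_of_pos (pow_pos hκA 2)]
        calc |g| * κB / κA ^ 2 ≤ (Gm * B.d n ^ (-z)) * κB / κA ^ 2 :=
              div_le_div_of_nonneg_right (mul_le_mul_of_nonneg_right hθ2 hκB.le)
                (pow_pos hκA 2).le
          _ = Gm * ((κB / κA ^ 2) * B.d n ^ (-z)) := by ring
          _ ≤ _ := mul_le_mul_of_nonneg_left (mul_le_mul_of_nonneg_right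
              (by rw [hK1]; linarith) (dp _).le) hGm
      have b4 := hn x hxn y0 hy0 (fun k => (hnear k).trans
        (mul_le_mul_of_nonneg_right hKK1 (dp _).le)) E1 E2
        (g * κB / κA ^ 2) (by rw [hE]; linarith) (by rw [hE]; linarith) b3
      have e00 : t - q * (y - z) = t - q * y + q * z := by ring
      rw [e00] at b4
      refine le_trans ?_ b4
      refine Nat.cast_le.2 (card_le_card fun j hj => ?_)
      have hj' : j ∈ (I0 n).filter fun j => (∀ k, Vf k → |cf y0 j k| ≤ K * B.d n ^ rc k) ∧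
          |SfN cf sC 10 Phi3 κA κB (B.d n) p (e1, e2, g) x j -
            SfN cf sC 10 Phi3 κA κB (B.d n) p (e1, e2, g) x y0| ≤ K * B.d n ^ y := by
        convert hj
      obtain ⟨j1, j2, j3⟩ := mem_filter.1 hj'
      refine mem_filter.2 ⟨j1, fun k hk => (j2 k hk).trans
        (mul_le_mul_of_nonneg_right hKK1 (dp _).le), ?_⟩
      have hadd : cf x j = comp (cf x y0) (cf y0 j) := (hcoc n).add x y0 j
      have hcadd : cf x j sC = cf x y0 sC + cf y0 j sC := by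
        rw [hadd]
        rcases hsC with rfl | rfl <;> rfl
      have e0 := phi3_diff (e1 := e1) (e2 := e2) (g := g) (κA := κA) (κB := κB)
        (dA := B.d n ^ p sC) (dB := B.d n ^ p 10) (cj := cf x j sC) (c0 := cf x y0 sC)
        (cc := cf y0 j sC) (Pj := cf x j 10) (P0 := cf x y0 10) hκA hκB (dp _) (dp _) hcadd
      unfold SfN at j3
      rw [e0, hC, hP, ← hm] at j3
      have e3 : E1 * (cf y0 j sC / B.d n ^ rc sC) + E2 * ((cf x j 10 - cf x y0 10) /
          B.d n ^ rc 10 + g * κB / κA ^ 2 * (cf y0 j sC / B.d n ^ rc sC) ^ 2) =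
          ((e1 / κA + e2 / κB * m) * (cf y0 j sC / B.d n ^ rc sC) +
            e2 / κB * ((cf x j 10 - cf x y0 10) / B.d n ^ rc 10 +
              g * κB / κA ^ 2 * (cf y0 j sC / B.d n ^ rc sC) ^ 2)) / N := by
        rw [hE1, hE2]; ring
      rw [e3, abs_div, abs_of_pos hN0, div_le_iff₀ hN0]
      refine j3.trans ?_
      have e4 : B.d n ^ y = B.d n ^ (y - z) * B.d n ^ z := by
        rw [← dpow_add]; congr 1; ring
      have e5 : B.d n ^ z ≤ K2 * N := by
        have h6 := mul_le_mul_of_nonneg_left b2 (dp z).le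
        have h7 : B.d n ^ z * (K2 * B.d n ^ (-z) * N) = K2 * N := by
          have : B.d n ^ z * B.d n ^ (-z) = 1 := by
            rw [← dpow_add, add_neg_cancel, Real.rpow_zero]
          calc B.d n ^ z * (K2 * B.d n ^ (-z) * N) =
                (B.d n ^ z * B.d n ^ (-z)) * (K2 * N) := by ring
            _ = _ := by rw [this, one_mul]
        rw [h7, mul_one] at h6
        exact h6
      rw [e4]
      calc K * (B.d n ^ (y - z) * B.d n ^ z) ≤ K * (B.d n ^ (y - z) * (K2 * N)) :=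
            mul_le_mul_of_nonneg_left (mul_le_mul_of_nonneg_left e5 (dp _).le) hK0
        _ = (K * K2) * B.d n ^ (y - z) * N := by ring
        _ ≤ K1 * B.d n ^ (y - z) * N :=
            mul_le_mul_of_nonneg_right (mul_le_mul_of_nonneg_right hKK2 (dp _).le) hNn

end light

end Crest.Agent.R116.Nar192
end

-- ▼ part R116/Nar4_192

/-!
# R116 (S0155), K side, [NARROW] (helper192), part 4: the windows over the light chart

* `N1c.mono_set` : sub-families; `N1c.toNear` : the literal with `NearS`.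
* `nsG_light` : windows with base points `x l`, record boxes `rc l`, scales `h l`:
  `NsG W sC 10 Phi3 (Ok3 Gm) q (C1 + 2 q + 1) R0`.
* `nsW_light` : 107's `NsW` (`Gm = 0`); `NsWc` + `nsWc_light` : the curved form (`Gm = 1`).
-/

set_option autoImplicit false
set_option linter.unusedVariables false
set_option linter.unusedSectionVars false

open Finset Filter Topology

namespace Crest.Agent.R116.Nar192

open Crest.Agent.R138.Ex926
open Crest.Agent.R138.Dp76 (dpow_pos dpow_add dpow_le)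
open Crest.Agent.R136.Net191
open Crest.Agent.R136.Qg926
open Crest.Agent.R136.Lq196
open Crest.Agent.R136.NSt107 (NsW)
open Crest.Agent.R116.ChL222
open Crest.Agent.R116.PL504 (uL cN coN)
open Crest.Agent.R116.EvL504
open Crest.Agent.R116.LZg725
open Crest.Agent.R116.Gd222 (Vf NearS TSet)

open Classical in
theorem N1c.mono_set {B : Base} {I I0 : ℕ → Finset (ℕ × ℝ)}
    {co : ∀ n : ℕ, ℕ × ℝ → ℕ × ℝ → Fin 12 → ℝ} {N0 : ℕ → ℝ} {pc rc : Fin 12 → ℝ} {sC : Fin 12}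
    {Gm y z t : ℝ} (h : N1c B I co N0 pc rc sC Gm y z t) (hsub : ∀ n, I0 n ⊆ I n) :
    N1c B I0 co N0 pc rc sC Gm y z t := by
  intro K hK ε hε
  filter_upwards [h K hK ε hε] with n hn x hx y0 hy0 hnear e1 e2 g h1 h2 h3
  refine le_trans ?_ (hn x (hsub n hx) y0 (hsub n hy0) hnear e1 e2 g h1 h2 h3)
  exact Nat.cast_le.2 (card_le_card (filter_subset_filter _ (hsub n)))

open Classical in
theorem N0c.mono_set {B : Base} {I I0 : ℕ → Finset (ℕ × ℝ)}
    {co : ∀ n : ℕ, ℕ × ℝ → ℕ × ℝ → Fin 12 → ℝ} {N0 : ℕ → ℝ} {rc : Fin 12 → ℝ}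
    {t : ℝ} (h : N0c B I co N0 rc t) (hsub : ∀ n, I0 n ⊆ I n) : N0c B I0 co N0 rc t := by
  intro K hK ε hε
  filter_upwards [h K hK ε hε] with n hn y0 hy0
  refine le_trans ?_ (hn y0 (hsub n hy0))
  exact Nat.cast_le.2 (card_le_card (filter_subset_filter _ (hsub n)))

section light

variable {B : Base} {I0 I' : ℕ → Finset (ℕ × ℝ)} {lev : ℕ → ℚ → ℕ} {w : Fin 2 → ℕ → ℚ → ℝ}
    {w0 sa sb : ℝ} {fl : ℕ → ℕ × ℝ → LInc} {C R w0' s s' : ℝ} {kz : Fin 12}
    {PD : Set (Fin 12 → ℝ)} {D : (Fin 12 → ℝ) → ℝ} {r o : ℝ → Fin 12 → ℝ} {E : ℝ → ℝ}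
    {T : Fin 12 → Prop} {ν own : (Fin 12 → ℝ) → ℝ} {c₀ : ℝ} {N0 : ℕ → ℝ}

/-- side data of the stage `l` : class `p`, record box `rc`, scale `h` -/
structure StgL (B : Base) (I0 : ℕ → Finset (ℕ × ℝ))
    (co : ∀ n : ℕ, ℕ × ℝ → ℕ × ℝ → Fin 12 → ℝ) (N0 : ℕ → ℝ) (R : ℝ) (sC : Fin 12)
    (Gm q C1 R0 Dv : ℝ) (p rc : Fin 12 → ℝ) (h : ℝ) : Prop where
  p_leg : p ∈ Leg monL R
  rc_leg : rc ∈ Leg monL R
  eC : p sC = rc sC
  eP : p 10 = rc 10
  rC : p sC + 2 * (R0 * h) ≤ R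
  rP : p 10 + 2 * (R0 * h) ≤ R
  n0 : N0c B I0 co N0 rc Dv
  n1 : ∀ y z : ℝ, 0 < y → y ≤ R0 * h → 0 < z → z ≤ R0 * h →
    N1c B I0 co N0 p rc sC Gm y z (Dv + C1 * z - q * y)

/-- **strips of the windows**, light chart -/
theorem nsG_light
    (hx : ExtQ B I0 I' (coN B lev w w0 sa sb fl) monL C R kz w0' s PD D r o E T ν own c₀)
    (hR : 0 ≤ R) (hc : CombQ B I0 I' lev (coN B lev w w0 sa sb fl) monL C R N0 c₀)
    {sC : Fin 12} (hsC : sC = 3 ∨ sC = 4) {κA κB Gm : ℝ} (hκA : 0 < κA) (hκB : 0 < κB)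
    (hGm : 0 ≤ Gm) {q C1 R0 : ℝ} (hq : 0 ≤ q) (hC1 : 0 ≤ C1) (hR0 : 0 < R0)
    {x rc : ℕ → Fin 12 → ℝ} {h Dv : ℕ → ℝ} (hh : ∀ l, 0 < h l)
    (hst : ∀ᶠ l in (atTop : Filter ℕ), StgL B I0 (coN B lev w w0 sa sb fl) N0 R sC Gm q C1 R0
      (Dv l) (x l) (rc l) (h l))
    (hfr : ∀ ε : ℝ, 0 < ε → ∀ᶠ l in (atTop : Filter ℕ),
      c₀ + Dv l - ν (x l ⊔ rc l) ≤ ε * h l) :
    ∃ k : ℕ → ℕ, Tendsto k U atTop ∧ ∀ k' : ℕ → ℕ, Tendsto k' U atTop →
      (∀ᶠ n in (U : Filter ℕ), k' n ≤ k n) → ∀ W : Wnd 12 (fun _ => ℕ × ℝ), W.Ok → W.I = I0 →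
        W.J = I' → W.B = B → W.co = coN B lev w w0 sa sb fl → W.M = monL → W.C = C →
        (∀ n, W.X n = x (k' n)) →
        (∀ n, W.B'.d n = B.d n ^ h (k' n)) → W.kap sC = κA → W.kap 10 = κB →
        (∀ ε : ℝ, 0 < ε → ∀ᶠ n in (U : Filter ℕ),
          B.d n ^ (-ν (x (k' n))) * W.B'.d n ^ ε ≤ ((W.Cl n).card : ℝ)) →
        NsG W sC 10 Phi3 (Ok3 Gm) q (C1 + q + q + 1) R0 := by
  refine nsG_of_stages (loss := fun l => c₀ + Dv l - ν (x l ⊔ rc l)) hq (by linarith) hR0 hh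
    (fun D D' hDD θ hθ => ⟨hθ.1, hθ.2.trans (mul_le_mul_of_nonneg_left hDD hGm)⟩) hfr ?_
  filter_upwards [hst] with l hl y hy hyR z hz hzR
  have h1 := strB_light (y := y) (z := z) (t := Dv l + C1 * z) (t0 := Dv l) (q := q) hx hR hc hsC
    hκA hκB hGm hl.p_leg hl.rc_leg hl.eC hl.eP hq hy.le hz.le
    (by nlinarith) (by linarith [hl.rC]) (by linarith [hl.rP]) hl.n0
    (fun y' hy' hyy => hl.n1 y' z hy' (hyy.trans hyR) hz hzR)
  have e0 : ν (x l) - ν (x l ⊔ rc l) + c₀ + (Dv l + C1 * z - q * y + q * z) =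
      ν (x l) + (c₀ + Dv l - ν (x l ⊔ rc l)) - q * y + (C1 + q) * z := by ring
  rw [e0] at h1
  exact h1

end light

/-! ### literal forms -/

section forms

variable {m : ℕ} {ι : ℕ → Type*} [∀ n, DecidableEq (ι n)] {W : Wnd m ι} {A Bk : Fin m}
  {q C0 R0 Gm : ℝ}

/-- 107's form -/
theorem NsG.toNsW (h : NsG W A Bk Phi3 (Ok3 Gm) q C0 R0) (hGm : 0 ≤ Gm) (hC0 : 0 < C0) :
    NsW W A Bk q R0 := by
  classical
  intro t ht htR ε hε
  filter_upwards [h t ht htR (ε / C0) (div_pos hε hC0)] with n hn i hi b hb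
  have hpos : 0 < W.B'.d n ^ (-(ε / C0)) := Real.rpow_pos_of_pos (W.B'.pos n) _
  have h1 := hn i hi (b 0, b 1, 0) ⟨hb, by
    show |(0:ℝ)| ≤ _
    rw [abs_zero]; exact mul_nonneg hGm hpos.le⟩ 0
  have e1 : q * t - C0 * (ε / C0) = q * t - ε := by
    rw [mul_div_cancel₀ _ hC0.ne']
  rw [e1] at h1
  refine le_trans (le_of_eq ?_) h1
  congr 2
  ext j
  simp only [mem_filter]
  have e2 : Phi3 (b 0, b 1, 0) (W.crd n i j A) (W.crd n i j Bk) - 0 =
      b 0 * W.crd n i j A + b 1 * W.crd n i j Bk := by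
    unfold Phi3; simp only; ring
  rw [e2]

open Classical in
/-- **no curved strip of the class is heavy** (905's form) -/
def NsWc (W : Wnd m ι) (cA cB : Fin m) (q C0 R0 : ℝ) : Prop :=
  ∀ t : ℝ, 0 < t → t ≤ R0 → ∀ ε : ℝ, 0 < ε → ∀ᶠ n in (U : Filter ℕ), ∀ i ∈ W.Cl n,
    ∀ b0 b1 g u : ℝ, b0 ^ 2 + b1 ^ 2 = 1 → |g| ≤ W.B'.d n ^ (-ε) →
      (((W.Cl n).filter fun j => |b0 * W.crd n i j cA + b1 * (W.crd n i j cB +
        g * (W.crd n i j cA) ^ 2) - u| ≤ W.B'.d n ^ t).card : ℝ) ≤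
        W.B'.d n ^ (q * t - C0 * ε) * (W.Cl n).card


end forms

end Crest.Agent.R116.Nar192
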