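import Crest.Agent.R116.Nar4_192
import Crest.Agent.R116.Gt3_222
import Crest.Agent.R116.Gt4_222
import Crest.Agent.R116.CtxB_468
import Crest.Agent.R116.WinG_954
import Crest.Agent.R136.NSt1_107
import Crest.Agent.R116.Sc4a_708
import Crest.Agent.R116.Nar3f_863

-- ▼ part R116/Nar5_192
section

/-!
# R116 (S0155), K side, [NARROW] (helper192), part 5: from strips at a base flag to `N1c`

* `coL_trn_flag`, `nat8_trn_flag` : the flag of `x` transported to the ray of `y0`, seen from `y0`.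
* `SAB` : strips seen from an arbitrary base flag sequence (`Gm = 0`: 222's `strip_A`, `strip_B`,
  see `sab_lin`; `Gm = 1`: curved).
* `n1c_of_sab` : `SAB` ⊢ `N1c` (literals of 504 and 468).
-/

set_option autoImplicit false
set_option linter.unusedVariables false
set_option linter.unusedSectionVars false

open Finset Filter Topology

namespace Crest.Agent.R116.Nar192

open Crest.Agent.R138.Defs (E2)
open Crest.Agent.R138.Ex926 (Base U QProf)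
open Crest.Agent.R138.Mk163 (zc zl rho alive)
open Crest.Agent.R138
open Crest.Agent.R136.MkA627
open Crest.Agent.R136.Net191
open Crest.Agent.R136.PqG464
open Crest.Agent.R116.LZg725
open Crest.Agent.R116.ChL222
open Crest.Agent.R116.PL504 (uL eL)
open Crest.Agent.R116.Gd222

/-! ### the flag of `x` at the ray of `y`, seen from `y` -/

theorem coL_trn_flag (x y l : LInc) :
    coL (trn 1 x y) l 0 = coL y l 0 ∧ coL (trn 1 x y) l 3 = coL y l 3 ∧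
    coL (trn 1 x y) l 4 = coL y l 4 ∧ coL (trn 1 x y) l 5 = coL y l 5 ∧
    coL (trn 1 x y) l 6 = coL y l 6 ∧ coL (trn 1 x y) l 9 = coL y l 9 ∧
    coL (trn 1 x y) l 10 = coL y l 10 - (coL x y 7 * coL y l 3 + coL x y 8 * coL y l 4) -
      coL x y 2 * ((coL y l 3 ^ 2 + coL y l 4 ^ 2) / 2) -
      2 * coL x y 1 * (coL y l 5 * coL y l 3 + coL y l 6 * coL y l 4 - coL y l 9) ∧
    coL (trn 1 x y) l 11 = coL y l 11 - (coL x y 7 * coL y l 5 + coL x y 8 * coL y l 6) -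
      coL x y 2 * coL y l 9 - coL x y 1 * (coL y l 5 ^ 2 + coL y l 6 ^ 2) := by
  simp only [coL, nuL, trn, LInc.p1, LInc.p2, LInc.ph, Matrix.cons_val]
  refine ⟨trivial, trivial, trivial, trivial, trivial, trivial, by ring, by ring⟩

theorem nat8_trn_flag {x y l : LInc} {K R c c' : ℝ} (hR : 0 < R) (hc : 0 < c) (hc' : 0 < c')
    (hK : 1 ≤ K) (h : Nat8 y l K R c c') (f1 : |coL x y 1| ≤ K * (c' / (c ^ 2 * R)))
    (f2 : |coL x y 2| ≤ K * (c' / c ^ 2)) (f7 : |coL x y 7| ≤ K * (c' / c))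
    (f8 : |coL x y 8| ≤ K * (c' / c)) : Nat8 (trn 1 x y) l (10 * K ^ 3) R c c' := by
  obtain ⟨e0, e3, e4, e5, e6, e9, e10, e11⟩ := coL_trn_flag x y l
  have hK0 : 0 < K := by linarith
  have hK2 : K ≤ K ^ 2 := le_self_pow₀ hK (by norm_num)
  have hK3 : K ^ 2 ≤ K ^ 3 := pow_le_pow_right₀ hK (by norm_num)
  have up : ∀ {a X : ℝ}, 0 ≤ X → |a| ≤ K * X → |a| ≤ 10 * K ^ 3 * X := by
    intro a X hX ha
    refine ha.trans (mul_le_mul_of_nonneg_right ?_ hX)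
    nlinarith [pow_pos hK0 3]
  have mm : ∀ {a b X Y Z : ℝ}, 0 ≤ X → |a| ≤ X → |b| ≤ Y → X * Y = Z → |a * b| ≤ Z := by
    intro a b X Y Z hX h1 h2 h3
    rw [abs_mul, ← h3]
    exact mul_le_mul h1 h2 (abs_nonneg _) hX
  have p1 : 0 ≤ K * (c' / (c ^ 2 * R)) := by positivity
  have p2 : 0 ≤ K * (c' / c ^ 2) := by positivity
  have p7 : 0 ≤ K * (c' / c) := by positivity
  have g3 := h.h3
  have g4 := h.h4
  have g5 := h.h5
  have g6 := h.h6
  have g9 := h.h9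
  have sqb : ∀ {a b : ℝ}, |a| ≤ b → |a ^ 2| ≤ b ^ 2 := fun {a b} ha => by
    rw [abs_pow]
    exact pow_le_pow_left₀ (abs_nonneg _) ha 2
  refine ⟨by rw [e0]; exact up hR.le h.h0, by rw [e3]; exact up hc.le g3,
    by rw [e4]; exact up hc.le g4, by rw [e5]; exact up (by positivity) g5,
    by rw [e6]; exact up (by positivity) g6, by rw [e9]; exact up (by positivity) g9, ?_, ?_⟩
  · rw [e10]
    have a1 : |coL x y 7 * coL y l 3| ≤ K ^ 2 * c' :=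
      mm p7 f7 g3 (by field_simp)
    have a2 : |coL x y 8 * coL y l 4| ≤ K ^ 2 * c' :=
      mm p7 f8 g4 (by field_simp)
    have s3 := sqb g3
    have s4 := sqb g4
    have a3 : |(coL y l 3 ^ 2 + coL y l 4 ^ 2) / 2| ≤ K ^ 2 * c ^ 2 := by
      rw [abs_div, abs_of_pos (by norm_num : (0:ℝ) < 2), div_le_iff₀ (by norm_num)]
      refine (abs_add_le _ _).trans ((add_le_add s3 s4).trans (le_of_eq (by ring)))
    have a4 : |coL x y 2 * ((coL y l 3 ^ 2 + coL y l 4 ^ 2) / 2)| ≤ K ^ 3 * c' :=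
      mm p2 f2 a3 (by field_simp)
    have a5 : |coL y l 5 * coL y l 3| ≤ K ^ 2 * (c ^ 2 * R) :=
      mm (by positivity) g5 g3 (by ring)
    have a6 : |coL y l 6 * coL y l 4| ≤ K ^ 2 * (c ^ 2 * R) :=
      mm (by positivity) g6 g4 (by ring)
    have a7 : |coL y l 9| ≤ K ^ 2 * (c ^ 2 * R) :=
      g9.trans (mul_le_mul_of_nonneg_right hK2 (by positivity))
    have a8 : |coL y l 5 * coL y l 3 + coL y l 6 * coL y l 4 - coL y l 9| ≤
        3 * K ^ 2 * (c ^ 2 * R) :=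
      (abs_sub _ _).trans ((add_le_add ((abs_add_le _ _).trans (add_le_add a5 a6)) a7).trans
        (le_of_eq (by ring)))
    have a9 : |2 * coL x y 1 * (coL y l 5 * coL y l 3 + coL y l 6 * coL y l 4 - coL y l 9)| ≤
        6 * K ^ 3 * c' := by
      have : |2 * coL x y 1| ≤ 2 * (K * (c' / (c ^ 2 * R))) := by
        rw [abs_mul, abs_of_pos (by norm_num : (0:ℝ) < 2)]
        exact mul_le_mul_of_nonneg_left f1 (by norm_num)
      exact mm (by positivity) this a8 (by field_simp; ring)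
    have b0 : |coL y l 10| ≤ K * c' := h.h10
    have b1 : K * c' ≤ K ^ 3 * c' := mul_le_mul_of_nonneg_right (hK2.trans hK3) hc'.le
    have b2 : K ^ 2 * c' ≤ K ^ 3 * c' := mul_le_mul_of_nonneg_right hK3 hc'.le
    calc |coL y l 10 - (coL x y 7 * coL y l 3 + coL x y 8 * coL y l 4) -
          coL x y 2 * ((coL y l 3 ^ 2 + coL y l 4 ^ 2) / 2) -
          2 * coL x y 1 * (coL y l 5 * coL y l 3 + coL y l 6 * coL y l 4 - coL y l 9)|
        ≤ K * c' + (K ^ 2 * c' + K ^ 2 * c') + K ^ 3 * c' + 6 * K ^ 3 * c' :=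
          (abs_sub _ _).trans (add_le_add ((abs_sub _ _).trans (add_le_add ((abs_sub _ _).trans
            (add_le_add b0 ((abs_add_le _ _).trans (add_le_add a1 a2)))) a4)) a9)
      _ ≤ 10 * K ^ 3 * c' := by linarith
  · rw [e11]
    have a1 : |coL x y 7 * coL y l 5| ≤ K ^ 2 * (c' * R) :=
      mm p7 f7 g5 (by field_simp)
    have a2 : |coL x y 8 * coL y l 6| ≤ K ^ 2 * (c' * R) :=
      mm p7 f8 g6 (by field_simp)
    have a4 : |coL x y 2 * coL y l 9| ≤ K ^ 2 * (c' * R) :=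
      mm p2 f2 g9 (by field_simp)
    have s5 := sqb g5
    have s6 := sqb g6
    have a8 : |coL y l 5 ^ 2 + coL y l 6 ^ 2| ≤ 2 * K ^ 2 * (c * R) ^ 2 :=
      (abs_add_le _ _).trans ((add_le_add s5 s6).trans (le_of_eq (by ring)))
    have a9 : |coL x y 1 * (coL y l 5 ^ 2 + coL y l 6 ^ 2)| ≤ 2 * K ^ 3 * (c' * R) :=
      mm p1 f1 a8 (by field_simp)
    have hcR : 0 ≤ c' * R := by positivity
    have b0 : |coL y l 11| ≤ K * (c' * R) := h.h11
    have b1 : K * (c' * R) ≤ K ^ 3 * (c' * R) := mul_le_mul_of_nonneg_right (hK2.trans hK3) hcR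
    have b2 : K ^ 2 * (c' * R) ≤ K ^ 3 * (c' * R) := mul_le_mul_of_nonneg_right hK3 hcR
    have b3 : 0 ≤ K ^ 3 * (c' * R) := by positivity
    calc |coL y l 11 - (coL x y 7 * coL y l 5 + coL x y 8 * coL y l 6) -
          coL x y 2 * coL y l 9 - coL x y 1 * (coL y l 5 ^ 2 + coL y l 6 ^ 2)|
        ≤ K * (c' * R) + (K ^ 2 * (c' * R) + K ^ 2 * (c' * R)) + K ^ 2 * (c' * R) +
            2 * K ^ 3 * (c' * R) :=
          (abs_sub _ _).trans (add_le_add ((abs_sub _ _).trans (add_le_add ((abs_sub _ _).trans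
            (add_le_add b0 ((abs_add_le _ _).trans (add_le_add a1 a2)))) a4)) a9)
      _ ≤ 10 * K ^ 3 * (c' * R) := by linarith

/-- flags of a near pair, in absolute units -/
theorem flags_near (B : Base) {lev : ℕ → ℚ → ℕ} {inc : ℕ → ℕ × ℝ → LInc} {σ : Fin 2 → ℕ → ℝ}
    (hσ : ∀ j n, 0 < σ j n) {w0 sa sb v t y K : ℝ} {p : Fin 12 → ℝ} (hK : 0 ≤ K)
    (p1 : sb + y - 2 * (sa + t) - (w0 + v) ≤ p 1) (p2 : sb + y - 2 * (sa + t) ≤ p 2)
    (p7 : sb + y - (sa + t) ≤ p 7) (p8 : sb + y - (sa + t) ≤ p 8) {n : ℕ} {x z : ℕ × ℝ}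
    (hn : Near (coN B lev inc σ w0 sa sb n) (B.d n) p K x z) :
    |coL (inc n x) (inc n z) 1| ≤ K * ((σ 1 n * B.d n ^ y) / ((σ 0 n * B.d n ^ t) ^ 2 *
      (rho (lev n 0) * B.d n ^ v))) ∧
    |coL (inc n x) (inc n z) 2| ≤ K * ((σ 1 n * B.d n ^ y) / (σ 0 n * B.d n ^ t) ^ 2) ∧
    |coL (inc n x) (inc n z) 7| ≤ K * ((σ 1 n * B.d n ^ y) / (σ 0 n * B.d n ^ t)) ∧
    |coL (inc n x) (inc n z) 8| ≤ K * ((σ 1 n * B.d n ^ y) / (σ 0 n * B.d n ^ t)) := by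
  have r0 := rho_pos (lev n 0)
  have s0 := hσ 0 n
  have s1 := hσ 1 n
  have dp := fun a => Dp76.dpow_pos B n a
  have e2 : (2 : ℝ) ^ lev n 0 = (rho (lev n 0))⁻¹ := pow2_eq _
  have key : ∀ (k : Fin 12) {u P Y : ℝ}, coN B lev inc σ w0 sa sb n x z k =
      u * coL (inc n x) (inc n z) k → 0 < u → B.d n ^ p k ≤ u * Y →
      |coL (inc n x) (inc n z) k| ≤ K * Y := by
    intro k u P Y h1 h2 h3
    have h4 := hn k
    rw [h1, abs_mul, abs_of_pos h2] at h4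
    have h5 := h4.trans (mul_le_mul_of_nonneg_left h3 hK)
    have h6 : u * |coL (inc n x) (inc n z) k| ≤ u * (K * Y) := by linarith
    exact le_of_mul_le_mul_left h6 h2
  have hlc : 0 < B.d n ^ sa / σ 0 n := div_pos (dp _) s0
  have hlp : 0 < B.d n ^ sb / σ 1 n := div_pos (dp _) s1
  have hlz : 0 < (2:ℝ) ^ lev n 0 * B.d n ^ w0 := mul_pos (by positivity) (dp _)
  have E : ∀ a b : ℝ, B.d n ^ (a + b) = B.d n ^ a * B.d n ^ b := fun a b => Dp76.dpow_add B n a b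
  have Em : ∀ a b : ℝ, B.d n ^ (a - b) = B.d n ^ a / B.d n ^ b := fun a b =>
    Real.rpow_sub (B.pos n) a b
  have E2' : ∀ a : ℝ, B.d n ^ (2 * a) = (B.d n ^ a) ^ 2 := fun a => by
    rw [two_mul, E, sq]
  refine ⟨?_, ?_, ?_, ?_⟩
  · refine key 1 (u := (B.d n ^ sb / σ 1 n) / ((B.d n ^ sa / σ 0 n) ^ 2 *
      (2 ^ lev n 0 * B.d n ^ w0))) (P := 0) rfl (div_pos hlp (mul_pos (pow_pos hlc 2) hlz)) ?_
    refine (Dp76.dpow_le B n p1).trans (le_of_eq ?_)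
    rw [Em, Em, E2', E, E, E, e2]
    have h1 := (dp sa).ne'
    have h2 := (dp sb).ne'
    have h3 := (dp t).ne'
    have h4 := (dp y).ne'
    have h5 := (dp w0).ne'
    have h6 := (dp v).ne'
    have h7 := r0.ne'
    field_simp
  · refine key 2 (u := (B.d n ^ sb / σ 1 n) / (B.d n ^ sa / σ 0 n) ^ 2) (P := 0) rfl (div_pos hlp (pow_pos hlc 2)) ?_
    refine (Dp76.dpow_le B n p2).trans (le_of_eq ?_)
    rw [Em, E2', E, E]
    have h1 := (dp sa).ne'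
    have h2 := (dp sb).ne'
    have h3 := (dp t).ne'
    have h4 := (dp y).ne'
    field_simp
  · refine key 7 (u := (B.d n ^ sb / σ 1 n) / (B.d n ^ sa / σ 0 n)) (P := 0) rfl (div_pos hlp hlc) ?_
    refine (Dp76.dpow_le B n p7).trans (le_of_eq ?_)
    rw [Em, E, E]
    have h1 := (dp sa).ne'
    have h2 := (dp sb).ne'
    have h3 := (dp t).ne'
    have h4 := (dp y).ne'
    field_simp
  · refine key 8 (u := (B.d n ^ sb / σ 1 n) / (B.d n ^ sa / σ 0 n)) (P := 0) rfl (div_pos hlp hlc) ?_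
    refine (Dp76.dpow_le B n p8).trans (le_of_eq ?_)
    rw [Em, E, E]
    have h1 := (dp sa).ne'
    have h2 := (dp sb).ne'
    have h3 := (dp t).ne'
    have h4 := (dp y).ne'
    field_simp

/-! ### strips at a base flag -/

open Classical in
/-- **strips seen from an arbitrary base flag sequence** -/
def SAB (B : Base) (I : ℕ → Finset (ℕ × ℝ)) (lev : ℕ → ℚ → ℕ) (inc : ℕ → ℕ × ℝ → LInc)
    (σ : Fin 2 → ℕ → ℝ) (q : Fin 2 → ℝ) (A : ℕ → ℝ) (g s w0 sa sb θ v t yy Gm C1 γ y z : ℝ) :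
    Prop :=
  ∀ i : ℕ → LInc, BaseOK B lev σ θ i → (∀ᶠ n in (U : Filter ℕ), 3 / 8 ≤ ‖vb (i n)‖) →
  ∀ t1 t2 e1 e2 gg : ℕ → ℝ,
    (∀ᶠ n in (U : Filter ℕ), |t1 n| ≤ 1 ∧ |t2 n| ≤ 1 ∧
      ‖vb (i n)‖ ≤ 32 * |(i n).b1 * t2 n - (i n).b2 * t1 n|) →
    (∀ᶠ n in (U : Filter ℕ), e1 n ^ 2 + e2 n ^ 2 = 1) → ∀ K : ℝ, 1 ≤ K →
    (∀ᶠ n in (U : Filter ℕ), |gg n| ≤ Gm * (K * B.d n ^ (-z))) → ∀ ε : ℝ, 0 < ε →
    ∀ᶠ n in (U : Filter ℕ), (((I n).filter fun l =>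
        Nat8 (i n) (inc n l) K (rho (lev n 0) * B.d n ^ v) (σ 0 n * B.d n ^ t)
          (σ 1 n * B.d n ^ yy) ∧
        |e1 n * ((t1 n * coL (i n) (inc n l) 3 + t2 n * coL (i n) (inc n l) 4) /
            (σ 0 n * B.d n ^ t)) + e2 n * (coL (i n) (inc n l) 10 / (σ 1 n * B.d n ^ yy) +
            gg n * ((t1 n * coL (i n) (inc n l) 3 + t2 n * coL (i n) (inc n l) 4) /
              (σ 0 n * B.d n ^ t)) ^ 2)| ≤ K * B.d n ^ y).card : ℝ) ≤
      (A n * VL σ q lev n * B.d n ^ (-(1 - s))) *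
        B.d n ^ (-(DL g s q w0 sa sb (nbS w0 sa sb v t yy) - γ * y + C1 * z + ε))

section strips

variable {B : Base} {I : ℕ → Finset (ℕ × ℝ)} {G : Geo TSet (Fin 2)} {lev : ℕ → ℚ → ℕ}
    {A : ℕ → ℝ} {g s : ℝ} {τ : Fin 2 → ℝ → ℝ} {f : ℕ → ℚ → ℕ → ℤ → ℕ} {b : ℕ → ℚ → ℕ → TSet}
    {vm : ℕ → ℚ → ℝ} {w : Fin 2 → ℕ → ℚ → ℝ}
    {inc : ℕ → ℕ × ℝ → LInc} {σ : Fin 2 → ℕ → ℝ} {q : Fin 2 → ℝ} {M0 c0 Rg θ : ℝ}


end strips

end Crest.Agent.R116.Nar192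
end

-- ▼ part R116/Nar6_192
section

/-!
# R116 (S0155), K side, [NARROW] (helper192), part 6: `N1c` and `N0c`

* `n1c_of_sab` : `SAB` ⊢ `N1c` (literals of 504 and 468).
* `n1c_thin` : `Gm = 0`, `γ = gam q`.
* `n0c_T` : plain D-max.
-/

set_option autoImplicit false
set_option linter.unusedVariables false
set_option linter.unusedSectionVars false

open Finset Filter Topology

namespace Crest.Agent.R116.Nar192

open Crest.Agent.R138.Defs (E2)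
open Crest.Agent.R138.Ex926 (Base U QProf)
open Crest.Agent.R138.Mk163 (zc zl rho alive)
open Crest.Agent.R138
open Crest.Agent.R136.MkA627
open Crest.Agent.R136.Net191
open Crest.Agent.R136.PqG464
open Crest.Agent.R116.LZg725
open Crest.Agent.R116.ChL222
open Crest.Agent.R116.PL504 (uL eL)
open Crest.Agent.R116.Gd222

/-- the direction of the live slot -/
def tC (sC : Fin 12) : ℝ × ℝ := if sC = 3 then (1, 0) else (0, 1)

theorem tC3 : tC 3 = (1, 0) := if_pos rfl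

theorem tC4 : tC 4 = (0, 1) := if_neg (by decide)

section mk

variable {B : Base} {I : ℕ → Finset (ℕ × ℝ)} {G : Geo TSet (Fin 2)} {lev : ℕ → ℚ → ℕ}
    {A : ℕ → ℝ} {g s : ℝ} {θ : Fin 2 → ℝ} {f : ℕ → ℚ → ℕ → ℤ → ℕ} {b : ℕ → ℚ → ℕ → TSet}
    {vm : ℕ → ℚ → ℝ} {w : Fin 2 → ℕ → ℚ → ℝ} {q : Fin 2 → ℝ}
    {fl : ℕ → ℕ × ℝ → LInc} {M0 c0 Rg ϑ : ℝ}

set_option maxHeartbeats 1000000 in
open Classical in
/-- **`SAB` ⊢ `N1c`** -/
theorem n1c_of_sab (hM : MkA B I G lev A (fun v => g * v) (fun v => s * v)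
    (fun j v => θ j * (1 - v)) f b vm w) (h : LData B I G lev fl (sN lev w) q M0 c0 Rg ϑ)
    (hwid : ∀ j (t : TSet), G.wid j t = (1 / 2 : ℝ) ^ t.1 j)
    (w0 sa sb : ℝ) {v vp t tp yy yp : ℝ} (hθp : ϑ ≤ vp) (htp : 0 < tp) {p rc : Fin 12 → ℝ}
    (hp : ∀ k, Vf k → nbS w0 sa sb vp tp yp k ≤ p k)
    (p1 : sb + yy - 2 * (sa + t) - (w0 + v) ≤ p 1) (p2 : sb + yy - 2 * (sa + t) ≤ p 2)
    (p7 : sb + yy - (sa + t) ≤ p 7) (p8 : sb + yy - (sa + t) ≤ p 8)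
    {sC : Fin 12} (hsC : sC = 3 ∨ sC = 4)
    (r0 : rc 0 = w0 + v) (r3 : rc 3 = sa + t) (rC : rc sC = sa + t) (r10 : rc 10 = sb + yy)
    (hr : ∀ k, Vf k → nbS w0 sa sb v t yy k ≤ rc k)
    (hax : ∀ᶠ n in (U : Filter ℕ), ∀ x ∈ I n,
      ‖vb (fl n x)‖ ≤ 16 * |(fl n x).b1 * (tC sC).2 - (fl n x).b2 * (tC sC).1|)
    {Gm C1 γ y z : ℝ} (hGm : 0 ≤ Gm)
    (key : SAB B I lev fl (sN lev w) q A g s w0 sa sb ϑ v t yy Gm C1 γ y z) :
    N1c B I (PL504.coN B lev w w0 sa sb fl) (fun n => A n * vm n 0 * B.d n ^ (-(1 - s))) p rc sC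
      Gm y z (DT g s q θ w0 sa sb rc + C1 * z - γ * y) := by
  intro K hK ε hε
  have hK0 : 0 < K := by linarith
  have hK3 : 1 ≤ K ^ 3 := one_le_pow₀ hK
  have hK2 : K ^ 2 ≤ K ^ 3 := pow_le_pow_right₀ hK (by norm_num)
  have hKK : K ≤ K ^ 3 := le_self_pow₀ hK (by norm_num)
  set Bd : ℕ → ℝ := fun n => (A n * vm n 0 * B.d n ^ (-(1 - s))) *
    B.d n ^ (-(DT g s q θ w0 sa sb rc + C1 * z - γ * y + ε)) with hBd
  have hN0 := N0_le hM h hwid w0 sa sb rc (γ * y - C1 * z) hε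
  have hDL : DL g s q w0 sa sb rc = DL g s q w0 sa sb (nbS w0 sa sb v t yy) := by
    rw [DL_nbS]
    unfold DL
    rw [r0, r3, r10, add_sub_cancel_left, add_sub_cancel_left, add_sub_cancel_left]
  rw [hDL] at hN0
  have hpos : ∀ᶠ n in (U : Filter ℕ), 0 ≤ Bd n := by
    filter_upwards [hN0] with n hn
    have hA := (hM.Apos n).le
    have s0 := h.σp 0 n
    have s1 := h.σp 1 n
    have r0 := rho_pos (lev n 0)
    have hV : 0 ≤ VL (sN lev w) q lev n := by unfold VL; positivity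
    have e1 := Dp76.dpow_pos B n (-(1 - s))
    have e2 := Dp76.dpow_pos B n (-(DL g s q w0 sa sb (nbS w0 sa sb v t yy) -
      (γ * y - C1 * z) + ε / 2))
    have e3 : 0 ≤ (A n * vm n 0 * B.d n ^ (-(1 - s))) *
      B.d n ^ (-(DT g s q θ w0 sa sb rc - (γ * y - C1 * z) + ε)) := le_trans (by positivity) hn
    rw [show DT g s q θ w0 sa sb rc - (γ * y - C1 * z) + ε =
      DT g s q θ w0 sa sb rc + C1 * z - γ * y + ε by ring] at e3
    exact e3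
  by_contra hcon
  rw [← Ultrafilter.eventually_not] at hcon
  -- the bad data
  obtain ⟨S, hS⟩ : ∃ S : ∀ (n : ℕ) (x y0 : ℕ × ℝ) (e1 e2 gg : ℝ), Finset (ℕ × ℝ),
      S = fun n x y0 e1 e2 gg => (I n).filter fun j =>
        (∀ k, Vf k → |PL504.coN B lev w w0 sa sb fl n y0 j k| ≤ K * B.d n ^ rc k) ∧
        |e1 * (PL504.coN B lev w w0 sa sb fl n y0 j sC / B.d n ^ rc sC) +
          e2 * ((PL504.coN B lev w w0 sa sb fl n x j 10 -
            PL504.coN B lev w w0 sa sb fl n x y0 10) / B.d n ^ rc 10 +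
            gg * (PL504.coN B lev w w0 sa sb fl n y0 j sC / B.d n ^ rc sC) ^ 2)| ≤
          K * B.d n ^ y := ⟨_, rfl⟩
  have hex : ∀ᶠ n in (U : Filter ℕ), ∃ Z : (ℕ × ℝ) × (ℕ × ℝ) × (ℝ × ℝ × ℝ),
      (Z.1 ∈ I n ∧ Z.2.1 ∈ I n ∧ Near (PL504.coN B lev w w0 sa sb fl n) (B.d n) p K Z.1 Z.2.1) ∧
      (1 ≤ K * (Z.2.2.1 ^ 2 + Z.2.2.2.1 ^ 2) ∧ Z.2.2.1 ^ 2 + Z.2.2.2.1 ^ 2 ≤ K ∧
        |Z.2.2.2.2| ≤ Gm * (K * B.d n ^ (-z))) ∧
      Bd n < ((S n Z.1 Z.2.1 Z.2.2.1 Z.2.2.2.1 Z.2.2.2.2).card : ℝ) := by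
    filter_upwards [hcon] with n hn
    push Not at hn
    obtain ⟨x, hx, y0, hy0, hnr, e1, e2, gg, h1, h2, h3, h4⟩ := hn
    refine ⟨(x, y0, e1, e2, gg), ⟨hx, hy0, hnr⟩, ⟨h1, h2, h3⟩, ?_⟩
    rw [hS]
    exact h4
  obtain ⟨F, hF⟩ := hex.choice
  obtain ⟨x, hxd⟩ : ∃ x : ℕ → ℕ × ℝ, x = fun n => (F n).1 := ⟨_, rfl⟩
  obtain ⟨y0, hyd⟩ : ∃ y0 : ℕ → ℕ × ℝ, y0 = fun n => (F n).2.1 := ⟨_, rfl⟩
  obtain ⟨e1, he1⟩ : ∃ e1 : ℕ → ℝ, e1 = fun n => (F n).2.2.1 := ⟨_, rfl⟩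
  obtain ⟨e2, he2⟩ : ∃ e2 : ℕ → ℝ, e2 = fun n => (F n).2.2.2.1 := ⟨_, rfl⟩
  obtain ⟨gg, hgd⟩ : ∃ gg : ℕ → ℝ, gg = fun n => (F n).2.2.2.2 := ⟨_, rfl⟩
  have hF' : ∀ᶠ n in (U : Filter ℕ), (x n ∈ I n ∧ y0 n ∈ I n ∧
        Near (PL504.coN B lev w w0 sa sb fl n) (B.d n) p K (x n) (y0 n)) ∧
      (1 ≤ K * (e1 n ^ 2 + e2 n ^ 2) ∧ e1 n ^ 2 + e2 n ^ 2 ≤ K ∧
        |gg n| ≤ Gm * (K * B.d n ^ (-z))) ∧
      Bd n < ((S n (x n) (y0 n) (e1 n) (e2 n) (gg n)).card : ℝ) := by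
    rw [hxd, hyd, he1, he2, hgd]
    exact hF
  clear hF hxd hyd he1 he2 hgd
  -- near pairs are natural
  have hnat : ∀ᶠ n in (U : Filter ℕ), x n ∈ I n ∧ Nat8 (fl n (x n)) (fl n (y0 n)) K
      (rho (lev n 0) * B.d n ^ vp) (sN lev w 0 n * B.d n ^ tp) (sN lev w 1 n * B.d n ^ yp) := by
    filter_upwards [hF'] with n hn
    refine ⟨hn.1.1, nat8_of_near (p := nbS w0 sa sb vp tp yp) B h.σp hK0.le rfl
      (fun k _ => le_rfl) ?_⟩
    intro k hk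
    exact (hn.1.2.2 k).trans (mul_le_mul_of_nonneg_left (Dp76.dpow_le B n (hp k hk)) hK0.le)
  obtain ⟨hbase, hbase2, hbase3⟩ := baseOK_trn h htp hK hθp hnat
  have ht12 : |(tC sC).1| ≤ 1 ∧ |(tC sC).2| ≤ 1 := by
    rcases hsC with rfl | rfl
    · rw [tC3]; norm_num
    · rw [tC4]; norm_num
  have hdir : ∀ᶠ n in (U : Filter ℕ), |(tC sC).1| ≤ 1 ∧ |(tC sC).2| ≤ 1 ∧
      ‖vb (trn 1 (fl n (x n)) (fl n (y0 n)))‖ ≤ 32 *
        |(trn 1 (fl n (x n)) (fl n (y0 n))).b1 * (tC sC).2 -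
          (trn 1 (fl n (x n)) (fl n (y0 n))).b2 * (tC sC).1| := by
    filter_upwards [hF', hbase3, hax] with n h1 h2 h3
    exact ⟨ht12.1, ht12.2, h2 _ _ ht12.1 ht12.2 (h3 _ h1.1.1)⟩
  -- normalised direction
  obtain ⟨N, hN⟩ : ∃ N : ℕ → ℝ, N = fun n => Real.sqrt (e1 n ^ 2 + e2 n ^ 2) := ⟨_, rfl⟩
  have hNp : ∀ᶠ n in (U : Filter ℕ), 0 < N n ∧ N n ^ 2 = e1 n ^ 2 + e2 n ^ 2 ∧ 1 ≤ K * N n := by
    filter_upwards [hF'] with n hn
    have h1 := hn.2.1.1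
    have h2 : 0 < e1 n ^ 2 + e2 n ^ 2 := by
      by_contra h3
      have : K * (e1 n ^ 2 + e2 n ^ 2) ≤ 0 := mul_nonpos_of_nonneg_of_nonpos hK0.le (not_lt.1 h3)
      linarith
    have h4 : 0 < N n := by rw [hN]; exact Real.sqrt_pos.2 h2
    have h5 : N n ^ 2 = e1 n ^ 2 + e2 n ^ 2 := by rw [hN]; exact Real.sq_sqrt h2.le
    refine ⟨h4, h5, ?_⟩
    by_contra h6
    have h7 : K * N n < 1 := not_le.1 h6
    have h8 : K * N n ^ 2 ≤ (K * N n) ^ 2 := by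
      have : K * N n ^ 2 * 1 ≤ K * N n ^ 2 * K := mul_le_mul_of_nonneg_left hK (by positivity)
      nlinarith
    have h9 : (K * N n) ^ 2 < 1 := by
      have : 0 ≤ K * N n := by positivity
      nlinarith
    rw [h5] at h8
    linarith
  have hunit : ∀ᶠ n in (U : Filter ℕ), (e1 n / N n) ^ 2 + (e2 n / N n) ^ 2 = 1 := by
    filter_upwards [hNp] with n hn
    rw [div_pow, div_pow, ← add_div, ← hn.2.1]
    exact div_self (pow_pos hn.1 2).ne'
  have hgg : ∀ᶠ n in (U : Filter ℕ), |gg n| ≤ Gm * ((10 * K ^ 3) * B.d n ^ (-z)) := by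
    filter_upwards [hF'] with n hn
    refine hn.2.1.2.2.trans (mul_le_mul_of_nonneg_left ?_ hGm)
    exact mul_le_mul_of_nonneg_right (by linarith) (Dp76.dpow_pos B n _).le
  have hfin := key (fun n => trn 1 (fl n (x n)) (fl n (y0 n))) hbase hbase2
    (fun _ => (tC sC).1) (fun _ => (tC sC).2) (fun n => e1 n / N n) (fun n => e2 n / N n) gg
    hdir hunit (10 * K ^ 3) (by linarith) hgg (ε / 2) (by linarith)
  obtain ⟨n, g1, g2, g3, g4, g5, g6⟩ :=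
    (hfin.and (hF'.and (hNp.and (hN0.and (hnat.and hpos))))).exists
  have dp := fun a => Dp76.dpow_pos B n a
  have s0 := h.σp 0 n
  have s1 := h.σp 1 n
  have rr := rho_pos (lev n 0)
  obtain ⟨hNp0, hNsq, hKN⟩ := g3
  have hsub : S n (x n) (y0 n) (e1 n) (e2 n) (gg n) ⊆ (I n).filter fun l =>
        Nat8 (trn 1 (fl n (x n)) (fl n (y0 n))) (fl n l) (10 * K ^ 3) (rho (lev n 0) * B.d n ^ v)
          (sN lev w 0 n * B.d n ^ t) (sN lev w 1 n * B.d n ^ yy) ∧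
        |e1 n / N n * (((tC sC).1 * coL (trn 1 (fl n (x n)) (fl n (y0 n))) (fl n l) 3 +
            (tC sC).2 * coL (trn 1 (fl n (x n)) (fl n (y0 n))) (fl n l) 4) /
            (sN lev w 0 n * B.d n ^ t)) +
          e2 n / N n * (coL (trn 1 (fl n (x n)) (fl n (y0 n))) (fl n l) 10 /
            (sN lev w 1 n * B.d n ^ yy) +
            gg n * (((tC sC).1 * coL (trn 1 (fl n (x n)) (fl n (y0 n))) (fl n l) 3 +
              (tC sC).2 * coL (trn 1 (fl n (x n)) (fl n (y0 n))) (fl n l) 4) /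
              (sN lev w 0 n * B.d n ^ t)) ^ 2)| ≤ 10 * K ^ 3 * B.d n ^ y := by
    intro l hl
    rw [hS] at hl
    obtain ⟨l1, l2, l3⟩ := mem_filter.1 hl
    have hN8 : Nat8 (fl n (y0 n)) (fl n l) K (rho (lev n 0) * B.d n ^ v)
        (sN lev w 0 n * B.d n ^ t) (sN lev w 1 n * B.d n ^ yy) :=
      nat8_of_near B h.σp hK0.le r0 hr l2
    obtain ⟨f1, f2, f7, f8⟩ := flags_near B h.σp hK0.le p1 p2 p7 p8 g2.1.2.2
    refine mem_filter.2 ⟨l1, nat8_trn_flag (mul_pos rr (dp _)) (mul_pos s0 (dp _))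
      (mul_pos s1 (dp _)) hK hN8 f1 f2 f7 f8, ?_⟩
    obtain ⟨-, c3, c4, -, -, -, -, -⟩ := coL_trn_flag (fl n (x n)) (fl n (y0 n)) (fl n l)
    obtain ⟨-, -, -, -, -, -, c10, -⟩ := coL_trn 1 (fl n (x n)) (fl n (y0 n)) (fl n l)
    rw [c3, c4, c10, one_mul]
    have uC : PL504.coN B lev w w0 sa sb fl n (y0 n) l sC / B.d n ^ rc sC =
        ((tC sC).1 * coL (fl n (y0 n)) (fl n l) 3 + (tC sC).2 * coL (fl n (y0 n)) (fl n l) 4) /
          (sN lev w 0 n * B.d n ^ t) := by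
      rw [rC, Dp76.dpow_add]
      have z1 := (dp sa).ne'
      have z2 := (dp t).ne'
      rcases hsC with rfl | rfl
      · show B.d n ^ sa / sN lev w 0 n * coL (fl n (y0 n)) (fl n l) 3 / _ = _
        rw [tC3]
        simp only [one_mul, zero_mul, add_zero]
        field_simp
      · show B.d n ^ sa / sN lev w 0 n * coL (fl n (y0 n)) (fl n l) 4 / _ = _
        rw [tC4]
        simp only [one_mul, zero_mul, zero_add]
        field_simp
    have uP : (PL504.coN B lev w w0 sa sb fl n (x n) l 10 -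
        PL504.coN B lev w w0 sa sb fl n (x n) (y0 n) 10) / B.d n ^ rc 10 =
        (coL (fl n (x n)) (fl n l) 10 - coL (fl n (x n)) (fl n (y0 n)) 10) /
          (sN lev w 1 n * B.d n ^ yy) := by
      rw [r10, Dp76.dpow_add]
      have z1 := (dp sb).ne'
      have z2 := (dp yy).ne'
      show (B.d n ^ sb / sN lev w 1 n * coL (fl n (x n)) (fl n l) 10 -
        B.d n ^ sb / sN lev w 1 n * coL (fl n (x n)) (fl n (y0 n)) 10) / _ = _
      field_simp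
    rw [uC, uP] at l3
    set T := ((tC sC).1 * coL (fl n (y0 n)) (fl n l) 3 + (tC sC).2 * coL (fl n (y0 n)) (fl n l) 4) /
          (sN lev w 0 n * B.d n ^ t) with hT
    set P := (coL (fl n (x n)) (fl n l) 10 - coL (fl n (x n)) (fl n (y0 n)) 10) /
          (sN lev w 1 n * B.d n ^ yy) with hP
    have e : e1 n / N n * T + e2 n / N n * (P + gg n * T ^ 2) =
        (e1 n * T + e2 n * (P + gg n * T ^ 2)) / N n := by ring
    rw [e, abs_div, abs_of_pos hNp0, div_le_iff₀ hNp0]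
    refine l3.trans ?_
    have h5 : K * B.d n ^ y ≤ K * B.d n ^ y * (K * N n) :=
      le_mul_of_one_le_right (mul_pos hK0 (dp y)).le hKN
    have h6 : K * B.d n ^ y * (K * N n) = K ^ 2 * B.d n ^ y * N n := by ring
    have h7 : K ^ 2 * B.d n ^ y * N n ≤ 10 * K ^ 3 * B.d n ^ y * N n :=
      mul_le_mul_of_nonneg_right (mul_le_mul_of_nonneg_right (by linarith) (dp y).le) hNp0.le
    linarith
  have h4 : ((S n (x n) (y0 n) (e1 n) (e2 n) (gg n)).card : ℝ) ≤ Bd n := by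
    refine (Nat.cast_le.2 (card_le_card hsub)).trans (g1.trans ?_)
    have h5 : (A n * VL (sN lev w) q lev n * B.d n ^ (-(1 - s))) *
        B.d n ^ (-(DL g s q w0 sa sb (nbS w0 sa sb v t yy) - γ * y + C1 * z + ε / 2)) =
        (A n * VL (sN lev w) q lev n * B.d n ^ (-(1 - s))) *
        B.d n ^ (-(DL g s q w0 sa sb (nbS w0 sa sb v t yy) - (γ * y - C1 * z) + ε / 2)) := by
      congr 3; ring
    rw [h5]
    refine g4.trans (le_of_eq ?_)
    rw [hBd]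
    simp only
    congr 3; ring
  exact absurd g2.2.2 (not_lt.2 h4)


open Classical in
/-- **plain D-max at the record box** -/
theorem n0c_T (hM : MkA B I G lev A (fun v => g * v) (fun v => s * v)
    (fun j v => θ j * (1 - v)) f b vm w) (h : LData B I G lev fl (sN lev w) q M0 c0 Rg ϑ)
    (hwid : ∀ j (t : TSet), G.wid j t = (1 / 2 : ℝ) ^ t.1 j)
    {k0 : ℝ} (hk : ∀ ε : ℝ, 0 < ε → ∀ᶠ n in (U : Filter ℕ),
      sN lev w 1 n ≤ sN lev w 0 n * B.d n ^ (k0 - ε)) (w0 sa sb : ℝ)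
    {v t yy : ℝ} (hv0 : 0 ≤ v) (hv1 : v ≤ 1) (ht : 0 < t) (hθ : ϑ < v + t) (hRt : t < Rg)
    (hRy : |yy| < Rg) (hty : t ≤ yy + k0) {rc : Fin 12 → ℝ}
    (r0 : rc 0 = w0 + v) (r3 : rc 3 = sa + t) (r10 : rc 10 = sb + yy)
    (hr : ∀ k, Vf k → nbS w0 sa sb v t yy k ≤ rc k) :
    N0c B I (PL504.coN B lev w w0 sa sb fl) (fun n => A n * vm n 0 * B.d n ^ (-(1 - s))) rc
      (DT g s q θ w0 sa sb rc) := by
  have e4 : sa + t ≤ rc 4 := hr 4 (by decide)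
  have e5 : w0 + v + (sa + t) ≤ rc 5 := hr 5 (by decide)
  have e6 : w0 + v + (sa + t) ≤ rc 6 := hr 6 (by decide)
  have e9 : w0 + v + 2 * (sa + t) ≤ rc 9 := hr 9 (by decide)
  have e11 : w0 + v + (sb + yy) ≤ rc 11 := hr 11 (by decide)
  have hPD : rc ∈ PDS w0 sa sb Rg ϑ k0 := by
    show w0 ≤ rc 0 ∧ rc 0 ≤ w0 + 1 ∧ sa < rc 3 ∧ ϑ < (rc 0 - w0) + (rc 3 - sa) ∧
      rc 3 - sa < Rg ∧ |rc 10 - sb| < Rg ∧ rc 3 - sa ≤ (rc 10 - sb) + k0 ∧ rc 3 ≤ rc 4 ∧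
      rc 0 + rc 3 ≤ rc 5 ∧ rc 0 + rc 3 ≤ rc 6 ∧ rc 0 + 2 * rc 3 ≤ rc 9 ∧ rc 0 + rc 10 ≤ rc 11
    rw [r0, r3, r10]
    refine ⟨by linarith, by linarith, by linarith, by linarith, by linarith, ?_, by linarith,
      by linarith, by linarith, by linarith, by linarith, by linarith⟩
    rwa [add_sub_cancel_left]
  intro K hK ε hε
  filter_upwards [gDS_T hM h hwid hk w0 sa sb rc hPD K hK ε hε] with n hn x hx
  refine le_trans (Nat.cast_le.2 (card_le_card fun j hj => ?_)) (hn x hx)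
  obtain ⟨j1, j2⟩ := mem_filter.1 hj
  exact mem_filter.2 ⟨j1, j2⟩

end mk

end Crest.Agent.R116.Nar192
end

-- ▼ part R116/Nar7_192
section

/-!
# R116 (S0155), K side, [NARROW] (helper192), part 7: the stages over `CtxT`

* `RecS` : record box, natural in the visible slots; `ClsS` : class box.
* `hax_of` : the axis of the flags.
* **`CtxT.stgL`** : `StgL` with `N0T`, `DT`, linear strips (`Gm = 0`, rate `gam q`).
* **`CtxT.stgC`** : the same from a `SAB` (curved strips).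
-/

set_option autoImplicit false
set_option linter.unusedVariables false
set_option linter.unusedSectionVars false

open Finset Filter Topology

namespace Crest.Agent.R116.Nar192

open Crest.Agent.R138.Defs (E2)
open Crest.Agent.R138.Ex926 (Base U)
open Crest.Agent.R136.MkA627
open Crest.Agent.R136.Net191
open Crest.Agent.R136.Lq196
open Crest.Agent.R116.LZg725
open Crest.Agent.R116.ChL222
open Crest.Agent.R116.PL504 (βL eL rL oL Shift nb DN)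
open Crest.Agent.R116.Gd222
open Crest.Agent.R116.KI439
open Crest.Agent.R116.KF439 (PL Thin frF flF scN)
open Crest.Agent.R116.Tw468
open Crest.Agent.R116.CtxB468

/-- record box, natural at `(v, t, yy)` in the visible slots -/
structure RecS (w0 sa sb v t yy : ℝ) (sC : Fin 12) (rc : Fin 12 → ℝ) : Prop where
  z : rc 0 = w0 + v
  c3 : rc 3 = sa + t
  cC : rc sC = sa + t
  c10 : rc 10 = sb + yy
  vis : ∀ k, Vf k → nbS w0 sa sb v t yy k ≤ rc k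

/-- class box: flags at least natural at `(v, t, yy)` -/
structure ClsS (w0 sa sb v t yy ϑ : ℝ) (p : Fin 12 → ℝ) : Prop where
  vis : ∃ vp tp yp : ℝ, ϑ ≤ vp ∧ 0 < tp ∧ ∀ k, Vf k → nbS w0 sa sb vp tp yp k ≤ p k
  f1 : sb + yy - 2 * (sa + t) - (w0 + v) ≤ p 1
  f2 : sb + yy - 2 * (sa + t) ≤ p 2
  f7 : sb + yy - (sa + t) ≤ p 7
  f8 : sb + yy - (sa + t) ≤ p 8

/-- visible slots of a class box -/
theorem vis_of {w0 sa sb ϑ : ℝ} {p : Fin 12 → ℝ} (h0 : w0 + ϑ ≤ p 0) (h3 : sa < p 3)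
    (h4 : sa < p 4) (h5 : w0 + ϑ + sa < p 5) (h6 : w0 + ϑ + sa < p 6)
    (h9 : w0 + ϑ + 2 * sa < p 9) :
    ∃ vp tp yp : ℝ, ϑ ≤ vp ∧ 0 < tp ∧ ∀ k, Vf k → nbS w0 sa sb vp tp yp k ≤ p k := by
  set t1 := min (min (p 3 - sa) (p 4 - sa)) (min (min (p 5 - (w0 + ϑ + sa)) (p 6 - (w0 + ϑ + sa)))
    ((p 9 - (w0 + ϑ + 2 * sa)) / 2)) with ht1
  have a3 : t1 ≤ p 3 - sa := (min_le_left _ _).trans (min_le_left _ _)
  have a4 : t1 ≤ p 4 - sa := (min_le_left _ _).trans (min_le_right _ _)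
  have a5 : t1 ≤ p 5 - (w0 + ϑ + sa) :=
    (min_le_right _ _).trans ((min_le_left _ _).trans (min_le_left _ _))
  have a6 : t1 ≤ p 6 - (w0 + ϑ + sa) :=
    (min_le_right _ _).trans ((min_le_left _ _).trans (min_le_right _ _))
  have a9 : t1 ≤ (p 9 - (w0 + ϑ + 2 * sa)) / 2 := (min_le_right _ _).trans (min_le_right _ _)
  have hpos : 0 < t1 := by
    refine lt_min (lt_min (by linarith) (by linarith)) (lt_min (lt_min (by linarith) (by linarith))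
      (by linarith))
  refine ⟨ϑ, t1, min (p 10 - sb) (p 11 - (w0 + ϑ) - sb), le_rfl, hpos, fun k hk => ?_⟩
  have b10 := min_le_left (p 10 - sb) (p 11 - (w0 + ϑ) - sb)
  have b11 := min_le_right (p 10 - sb) (p 11 - (w0 + ϑ) - sb)
  obtain ⟨k1, k2, k7, k8⟩ := hk
  fin_cases k
  · exact h0
  · exact absurd rfl k1
  · exact absurd rfl k2
  · show sa + t1 ≤ p 3; linarith
  · show sa + t1 ≤ p 4; linarith
  · show w0 + ϑ + (sa + t1) ≤ p 5; linarith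
  · show w0 + ϑ + (sa + t1) ≤ p 6; linarith
  · exact absurd rfl k7
  · exact absurd rfl k8
  · show w0 + ϑ + 2 * (sa + t1) ≤ p 9; linarith
  · show sb + min (p 10 - sb) (p 11 - (w0 + ϑ) - sb) ≤ p 10; linarith
  · show w0 + ϑ + (sb + min (p 10 - sb) (p 11 - (w0 + ϑ) - sb)) ≤ p 11; linarith


theorem recS_nb {w0 sa sb v t yy : ℝ} {sC : Fin 12} (hsC : sC = 3 ∨ sC = 4) :
    RecS w0 sa sb v t yy sC (nb w0 sa sb v t yy) := by
  refine ⟨rfl, rfl, ?_, rfl, fun k hk => ?_⟩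
  · rcases hsC with rfl | rfl <;> rfl
  · obtain ⟨k1, k2, k7, k8⟩ := hk
    have e0 : nb w0 sa sb v t yy 0 = w0 + v := rfl
    have e3 : nb w0 sa sb v t yy 3 = sa + t := rfl
    have e4 : nb w0 sa sb v t yy 4 = sa + t := rfl
    have e5 : nb w0 sa sb v t yy 5 = (w0 + v) + (sa + t) := rfl
    have e6 : nb w0 sa sb v t yy 6 = (w0 + v) + (sa + t) := rfl
    have e9 : nb w0 sa sb v t yy 9 = (w0 + v) + 2 * (sa + t) := rfl
    have e10 : nb w0 sa sb v t yy 10 = sb + yy := rfl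
    have e11 : nb w0 sa sb v t yy 11 = (w0 + v) + (sb + yy) := rfl
    generalize nb w0 sa sb v t yy = P at *
    fin_cases k
    · exact e0.ge
    · exact absurd rfl k1
    · exact absurd rfl k2
    · exact e3.ge
    · exact e4.ge
    · exact e5.ge
    · exact e6.ge
    · exact absurd rfl k7
    · exact absurd rfl k8
    · exact e9.ge
    · exact e10.ge
    · exact e11.ge

/-- **axis of the flags**: slot `Xd954.cs a` is live if the flag is large along `b ≠ a` -/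
theorem hax_of {I : ℕ → Finset (ℕ × ℝ)} {fl : ℕ → ℕ × ℝ → LInc} {a b : Fin 2} (hab : a ≠ b)
    (ha : ∀ᶠ n in (U : Filter ℕ), ∀ x ∈ I n, |vb (fl n x) a| ≤ 2)
    (hb : ∀ᶠ n in (U : Filter ℕ), ∀ x ∈ I n, 1 / 2 ≤ |vb (fl n x) b|) :
    ∀ᶠ n in (U : Filter ℕ), ∀ x ∈ I n, ‖vb (fl n x)‖ ≤
      16 * |(fl n x).b1 * (tC (Xd954.cs a)).2 - (fl n x).b2 * (tC (Xd954.cs a)).1| := by
  filter_upwards [ha, hb] with n h1 h2 x hx
  have g1 := h1 x hx
  have g2 := h2 x hx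
  fin_cases a <;> fin_cases b
  · exact absurd rfl hab
  · have e : tC (Xd954.cs 0) = (1, 0) := tC3
    show _ ≤ 16 * |(fl n x).b1 * (tC (Xd954.cs 0)).2 - (fl n x).b2 * (tC (Xd954.cs 0)).1|
    rw [e]
    simp only [mul_zero, mul_one, zero_sub, abs_neg]
    have g1' : |(fl n x).b1| ≤ 2 := g1
    have g2' : 1 / 2 ≤ |(fl n x).b2| := g2
    have := norm_le2 (vb (fl n x)) (a := |(fl n x).b1|) (b := |(fl n x).b2|) le_rfl le_rfl
    linarith
  · have e : tC (Xd954.cs 1) = (0, 1) := tC4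
    show _ ≤ 16 * |(fl n x).b1 * (tC (Xd954.cs 1)).2 - (fl n x).b2 * (tC (Xd954.cs 1)).1|
    rw [e]
    simp only [mul_zero, mul_one, sub_zero]
    have g1' : |(fl n x).b2| ≤ 2 := g1
    have g2' : 1 / 2 ≤ |(fl n x).b1| := g2
    have := norm_le2 (vb (fl n x)) (a := |(fl n x).b1|) (b := |(fl n x).b2|) le_rfl le_rfl
    linarith
  · exact absurd rfl hab

section ctx

variable {G : Geo TSet (Fin 2)} {L : ℕ → ℕ → LRay} {r : ℕ → ℝ} {g s : ℝ} {θ q : Fin 2 → ℝ}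
    {Rg : ℝ} {a : Fin 2} {B : Base}
    {I : ℕ → Finset (ℕ × ℝ)} {lev : ℕ → ℚ → ℕ} {A : ℕ → ℝ}
    {f : ℕ → ℚ → ℕ → ℤ → ℕ} {b : ℕ → ℚ → ℕ → TSet} {vm : ℕ → ℚ → ℝ} {w : Fin 2 → ℕ → ℚ → ℝ}
    {fr : ℕ → ℚ → ℕ × ℝ → LInc} {fl : ℕ → ℕ × ℝ → LInc} {sc : Fin 12 → ℕ → ℝ}
    {w0 sa sb δ R : ℝ} {I0 I' : ℕ → Finset (ℕ × ℝ)} {ν own : (Fin 12 → ℝ) → ℝ} {c₀ : ℝ}

/-- **stage data from strips at base flags** (`Gm` general) -/
theorem stg_of (hM : MkA B I G lev A (fun v => g * v) (fun v => s * v)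
    (fun j v => θ j * (1 - v)) f b vm w) {M0 c0 ϑ : ℝ}
    (h : LData B I G lev fl (sN lev w) q M0 c0 Rg ϑ)
    (hwid : ∀ j (t : TSet), G.wid j t = (1 / 2 : ℝ) ^ t.1 j) (hsub : ∀ n, I0 n ⊆ I n)
    {k0 : ℝ} (hk : ∀ ε : ℝ, 0 < ε → ∀ᶠ n in (U : Filter ℕ),
      sN lev w 1 n ≤ sN lev w 0 n * B.d n ^ (k0 - ε))
    {sC : Fin 12} (hsC : sC = 3 ∨ sC = 4)
    (hax : ∀ᶠ n in (U : Filter ℕ), ∀ x ∈ I n,
      ‖vb (fl n x)‖ ≤ 16 * |(fl n x).b1 * (tC sC).2 - (fl n x).b2 * (tC sC).1|)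
    {v t yy R0 hh Gm C1 γ : ℝ} (hv0 : 0 ≤ v) (hv1 : v ≤ 1) (ht : 0 < t) (hθt : ϑ < v + t)
    (hRt : t < Rg) (hRy : |yy| < Rg) (hty : t ≤ yy + k0) (hGm : 0 ≤ Gm)
    {p rc : Fin 12 → ℝ} (hp : p ∈ Leg monL R) (hrc : rc ∈ Leg monL R)
    (hr : RecS w0 sa sb v t yy sC rc) (hc : ClsS w0 sa sb v t yy ϑ p)
    (eC : p sC = rc sC) (eP : p 10 = rc 10)
    (rC : p sC + 2 * (R0 * hh) ≤ R) (rP : p 10 + 2 * (R0 * hh) ≤ R)
    (key : ∀ y z : ℝ, 0 < y → y ≤ R0 * hh → 0 < z → z ≤ R0 * hh →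
      SAB B I lev fl (sN lev w) q A g s w0 sa sb ϑ v t yy Gm C1 γ y z) :
    StgL B I0 (PL504.coN B lev w w0 sa sb fl) (N0T B s A vm) R sC Gm γ C1 R0
      (DT g s q θ w0 sa sb rc) p rc hh := by
  obtain ⟨vp, tp, yp, g1, g2, g3⟩ := hc.vis
  refine ⟨hp, hrc, eC, eP, rC, rP, ?_, fun y z hy hyR hz hzR => ?_⟩
  · exact N0c.mono_set (n0c_T hM h hwid hk w0 sa sb hv0 hv1 ht hθt hRt hRy hty hr.z hr.c3 hr.c10
      hr.vis) hsub
  · exact N1c.mono_set (n1c_of_sab hM h hwid w0 sa sb g1 g2 g3 hc.f1 hc.f2 hc.f7 hc.f8 hsC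
      hr.z hr.c3 hr.cC hr.c10 hr.vis hax hGm (key y z hy hyR hz hzR)) hsub


end ctx

end Crest.Agent.R116.Nar192
end

-- ▼ part R116/Gc1_809
section

/-!
# R116, [NARROW] (N1), curved strips, flags of a far incidence (helper809), part 1

* `addc` : change of the null derivative (curvature) of the flag.
* `coL_trn0` : the flag of `i` transported to the ray of `j`, in terms of the coordinates seen from `j`.
* `Flg` : the flags of `i` and `j` are related (slots 1, 2, 7, 8 natural), positions arbitrary.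
* `curv_err` : `γ |C|² / 2` against `g (t·C)²`.
* `strip_base` : 222's `strip_A` and `strip_B` together, for an arbitrary base flag.
-/

set_option autoImplicit false

open Finset Filter Topology

namespace Crest.Agent.R116.Gc809

open Crest.Agent.R138.Defs (E2)
open Crest.Agent.R138.Ex926 (Base U QProf)
open Crest.Agent.R138.Mk163 (zc zl rho alive)
open Crest.Agent.R138
open Crest.Agent.R136.MkA627
open Crest.Agent.R136.Net191
open Crest.Agent.R136.PqG464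
open Crest.Agent.R116.LZg725
open Crest.Agent.R116.ChL222
open Crest.Agent.R116.PL504 (uL eL)
open Crest.Agent.R116.Gd222

/-! ### algebra -/

/-- change of the null derivative of the flag -/
noncomputable def addc (γ : ℝ) (i : LInc) : LInc := { i with et := i.et + γ }

theorem coL_addc (γ : ℝ) (i l : LInc) :
    coL (addc γ i) l 0 = coL i l 0 ∧ coL (addc γ i) l 3 = coL i l 3 ∧
    coL (addc γ i) l 4 = coL i l 4 ∧ coL (addc γ i) l 5 = coL i l 5 ∧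
    coL (addc γ i) l 6 = coL i l 6 ∧ coL (addc γ i) l 9 = coL i l 9 ∧
    coL (addc γ i) l 10 = coL i l 10 + γ * ((coL i l 3 ^ 2 + coL i l 4 ^ 2) / 2) ∧
    coL (addc γ i) l 11 = coL i l 11 + γ * coL i l 9 := by
  simp only [coL, nuL, addc, LInc.p1, LInc.p2, LInc.ph, Matrix.cons_val]
  refine ⟨trivial, trivial, trivial, trivial, trivial, trivial, by ring, by ring⟩



/-- the flags are related -/
structure Flg (i j : LInc) (K R c c' : ℝ) : Prop where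
  h1 : |coL i j 1| ≤ K * (c' / (c ^ 2 * R))
  h2 : |coL i j 2| ≤ K * (c' / c ^ 2)
  h7 : |coL i j 7| ≤ K * (c' / c)
  h8 : |coL i j 8| ≤ K * (c' / c)

theorem sq2_le {a b X : ℝ} (h1 : |a| ≤ X) (h2 : |b| ≤ X) : |(a ^ 2 + b ^ 2) / 2| ≤ X ^ 2 := by
  have s1 : a ^ 2 ≤ X ^ 2 := sq_le_sq' (by linarith [(abs_le.1 h1).1]) (abs_le.1 h1).2
  have s2 : b ^ 2 ≤ X ^ 2 := sq_le_sq' (by linarith [(abs_le.1 h2).1]) (abs_le.1 h2).2
  rw [abs_of_nonneg (by positivity)]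
  linarith




/-! ### the curvature -/

/-- exact identity: the square of `C` from its components along `b` and `t` -/
theorem sq_comp (b1 b2 t1 t2 C1 C2 : ℝ) :
    (b1 * t2 - b2 * t1) ^ 2 * (C1 ^ 2 + C2 ^ 2) =
      (b1 ^ 2 + b2 ^ 2) * (t1 * C1 + t2 * C2) ^ 2 + (t1 ^ 2 + t2 ^ 2) * (b1 * C1 + b2 * C2) ^ 2 -
      2 * (b1 * C1 + b2 * C2) * (t1 * C1 + t2 * C2) * (b1 * t1 + b2 * t2) := by
  ring

/-- the coefficient of the curvature -/
noncomputable def gco (i : LInc) (t1 t2 ga c c' : ℝ) : ℝ :=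
  2 * ga * (c' / c ^ 2) * ((i.b1 * t2 - i.b2 * t1) ^ 2 / ‖vb i‖ ^ 2)

theorem vbsq (i : LInc) : ‖vb i‖ ^ 2 = i.b1 ^ 2 + i.b2 ^ 2 := normsq2 (vb i)

theorem dlt_le (i : LInc) {t1 t2 : ℝ} (h1 : |t1| ≤ 1) (h2 : |t2| ≤ 1) (hb : 0 < ‖vb i‖) :
    (i.b1 * t2 - i.b2 * t1) ^ 2 / ‖vb i‖ ^ 2 ≤ 2 := by
  rw [div_le_iff₀ (by positivity), vbsq]
  have a1 : t1 ^ 2 ≤ 1 := (sq_le_one_iff_abs_le_one _).2 h1
  have a2 : t2 ^ 2 ≤ 1 := (sq_le_one_iff_abs_le_one _).2 h2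
  have e : (i.b1 * t2 - i.b2 * t1) ^ 2 + (i.b1 * t1 + i.b2 * t2) ^ 2 =
      (i.b1 ^ 2 + i.b2 ^ 2) * (t1 ^ 2 + t2 ^ 2) := by ring
  have h3 : 0 ≤ (i.b1 * t1 + i.b2 * t2) ^ 2 := sq_nonneg _
  have h4 : 0 ≤ i.b1 ^ 2 + i.b2 ^ 2 := by positivity
  nlinarith

theorem gco_le (i : LInc) {t1 t2 ga c c' G : ℝ} (h1 : |t1| ≤ 1) (h2 : |t2| ≤ 1)
    (hb : 0 < ‖vb i‖) (hc : 0 < c) (hc' : 0 < c') (hG : |ga| ≤ G) :
    |gco i t1 t2 ga c c'| ≤ 4 * G * (c' / c ^ 2) := by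
  unfold gco
  have h3 := dlt_le i h1 h2 hb
  have h4 : 0 ≤ (i.b1 * t2 - i.b2 * t1) ^ 2 / ‖vb i‖ ^ 2 := by positivity
  have hG0 : 0 ≤ G := (abs_nonneg _).trans hG
  rw [abs_mul, abs_mul, abs_mul, abs_two, abs_of_nonneg h4,
    abs_of_pos (div_pos hc' (pow_pos hc 2))]
  have h5 : 0 ≤ c' / c ^ 2 := by positivity
  calc 2 * |ga| * (c' / c ^ 2) * _ ≤ 2 * G * (c' / c ^ 2) * 2 := by
        refine mul_le_mul ?_ h3 h4 (by positivity)
        exact mul_le_mul_of_nonneg_right (by linarith) h5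
    _ = _ := by ring

/-- **`γ |C|² / 2` against `g (t·C)²`.** -/
theorem curv_err (i : LInc) {t1 t2 ga c c' C1 C2 β K G : ℝ} (h1 : |t1| ≤ 1) (h2 : |t2| ≤ 1)
    (hb : 1 / 4 ≤ ‖vb i‖) (hc : 0 < c) (hc' : 0 < c') (hG : |ga| ≤ G) (hK : 1 ≤ K)
    (hC1 : |C1| ≤ K * c) (hC2 : |C2| ≤ K * c) (hβ : |i.b1 * C1 + i.b2 * C2| ≤ β * c)
    (hβ1 : β ≤ 1) :
    |gco i t1 t2 ga c c' * ((C1 ^ 2 + C2 ^ 2) / 2) - ga * c' * ((t1 * C1 + t2 * C2) / c) ^ 2| ≤
      G * c' * (64 * K * β) := by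
  have hbp : 0 < ‖vb i‖ := by linarith
  have hG0 : 0 ≤ G := (abs_nonneg _).trans hG
  have hβ0 : 0 ≤ β := by
    have := (abs_nonneg _).trans hβ
    by_contra hneg
    push Not at hneg
    nlinarith
  obtain ⟨n, hn⟩ : ∃ n : ℝ, n = ‖vb i‖ := ⟨_, rfl⟩
  have hn0 : 0 < n := by rw [hn]; exact hbp
  have hn4 : 1 / 4 ≤ n := by rw [hn]; exact hb
  have hnsq : n ^ 2 = i.b1 ^ 2 + i.b2 ^ 2 := by rw [hn]; exact vbsq i
  obtain ⟨T, hT⟩ : ∃ T : ℝ, T = t1 * C1 + t2 * C2 := ⟨_, rfl⟩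
  obtain ⟨bC, hbC⟩ : ∃ bC : ℝ, bC = i.b1 * C1 + i.b2 * C2 := ⟨_, rfl⟩
  obtain ⟨bt, hbt⟩ : ∃ bt : ℝ, bt = i.b1 * t1 + i.b2 * t2 := ⟨_, rfl⟩
  have key := sq_comp i.b1 i.b2 t1 t2 C1 C2
  rw [← hnsq, ← hT, ← hbC, ← hbt] at key
  have e : gco i t1 t2 ga c c' * ((C1 ^ 2 + C2 ^ 2) / 2) - ga * c' * (T / c) ^ 2 =
      ga * c' * (((t1 ^ 2 + t2 ^ 2) * (bC / c) ^ 2 - 2 * (bC / c) * (T / c) * bt) / n ^ 2) := by
    have h3 : gco i t1 t2 ga c c' * ((C1 ^ 2 + C2 ^ 2) / 2) =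
        ga * c' * (((i.b1 * t2 - i.b2 * t1) ^ 2 * (C1 ^ 2 + C2 ^ 2)) / (c ^ 2 * n ^ 2)) := by
      unfold gco
      rw [← hn]
      field_simp
    rw [h3, key]
    field_simp
    ring
  rw [← hT, e]
  have hTle : |T / c| ≤ 2 * K := by
    rw [abs_div, abs_of_pos hc, div_le_iff₀ hc, hT]
    refine (abs_add_le _ _).trans ?_
    rw [abs_mul, abs_mul]
    have a1 : |t1| * |C1| ≤ 1 * (K * c) := mul_le_mul h1 hC1 (abs_nonneg _) zero_le_one
    have a2 : |t2| * |C2| ≤ 1 * (K * c) := mul_le_mul h2 hC2 (abs_nonneg _) zero_le_one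
    linarith
  have hble : |bC / c| ≤ β := by
    rw [abs_div, abs_of_pos hc, div_le_iff₀ hc, hbC]
    exact hβ
  have hbtle : |bt| ≤ 2 * n := by
    obtain ⟨b1le, b2le⟩ := abs_b1_le i
    rw [← hn] at b1le b2le
    rw [hbt]
    refine (abs_add_le _ _).trans ?_
    rw [abs_mul, abs_mul]
    have a1 : |i.b1| * |t1| ≤ n * 1 := mul_le_mul b1le h1 (abs_nonneg _) hn0.le
    have a2 : |i.b2| * |t2| ≤ n * 1 := mul_le_mul b2le h2 (abs_nonneg _) hn0.le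
    linarith
  have ht : |t1 ^ 2 + t2 ^ 2| ≤ 2 := by
    have a1 : t1 ^ 2 ≤ 1 := (sq_le_one_iff_abs_le_one _).2 h1
    have a2 : t2 ^ 2 ≤ 1 := (sq_le_one_iff_abs_le_one _).2 h2
    rw [abs_of_nonneg (by positivity)]
    linarith
  have hnum : |(t1 ^ 2 + t2 ^ 2) * (bC / c) ^ 2 - 2 * (bC / c) * (T / c) * bt| ≤
      2 * β * n * (4 + 4 * K) := by
    have a1 : |(t1 ^ 2 + t2 ^ 2) * (bC / c) ^ 2| ≤ 2 * β := by
      rw [abs_mul, abs_pow]
      have : |bC / c| ^ 2 ≤ β * 1 := by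
        rw [pow_two]
        exact mul_le_mul hble (hble.trans hβ1) (abs_nonneg _) hβ0
      calc _ ≤ 2 * (β * 1) := mul_le_mul ht this (by positivity) (by norm_num)
        _ = 2 * β := by ring
    have a2 : |2 * (bC / c) * (T / c) * bt| ≤ 2 * β * (2 * K) * (2 * n) := by
      rw [abs_mul, abs_mul, abs_mul, abs_two]
      refine mul_le_mul ?_ hbtle (abs_nonneg _) (by positivity)
      refine mul_le_mul ?_ hTle (abs_nonneg _) (by positivity)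
      exact mul_le_mul_of_nonneg_left hble (by norm_num)
    have a3 : 2 * β ≤ 2 * β * n * 4 := by
      have : 2 * β * 1 ≤ 2 * β * (n * 4) := mul_le_mul_of_nonneg_left (by linarith) (by linarith)
      linarith
    calc _ ≤ 2 * β + 2 * β * (2 * K) * (2 * n) := (abs_sub _ _).trans (add_le_add a1 a2)
      _ ≤ 2 * β * n * 4 + 2 * β * (2 * K) * (2 * n) := by linarith
      _ = _ := by ring
  rw [abs_mul, abs_mul, abs_of_pos hc', abs_div, abs_of_pos (pow_pos hn0 2)]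
  have h5 : |(t1 ^ 2 + t2 ^ 2) * (bC / c) ^ 2 - 2 * (bC / c) * (T / c) * bt| / n ^ 2 ≤
      64 * K * β := by
    rw [div_le_iff₀ (pow_pos hn0 2)]
    refine hnum.trans ?_
    have h6 : 2 * β * n * (4 + 4 * K) ≤ 2 * β * n * (8 * K) :=
      mul_le_mul_of_nonneg_left (by linarith) (by positivity)
    have h7 : n * 1 ≤ n * (4 * n) := mul_le_mul_of_nonneg_left (by linarith) hn0.le
    have h8 : 16 * K * β * (n * 1) ≤ 16 * K * β * (n * (4 * n)) :=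
      mul_le_mul_of_nonneg_left h7 (by positivity)
    calc _ ≤ 2 * β * n * (8 * K) := h6
      _ = 16 * K * β * (n * 1) := by ring
      _ ≤ 16 * K * β * (n * (4 * n)) := h8
      _ = _ := by ring
  exact mul_le_mul (mul_le_mul_of_nonneg_right hG hc'.le) h5 (by positivity) (by positivity)

/-- the strip seen from the curved flag -/
theorem stp_le {e1 e2 ga T P Q c c' dz dy dk K N : ℝ} (hc' : 0 < c') (hdz : 0 < dz)
    (hdy : 0 < dy) (hK : 1 ≤ K) (hN : 1 ≤ N) (he2 : |e2| ≤ 1)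
    (hst : |e1 * (T / c) + e2 * (P / c' + ga * (T / c) ^ 2)| ≤ K * dy)
    (g3 : |Q - ga * c' * (T / c) ^ 2| ≤ K * dz * c' * (64 * K * (8 * K ^ 2 * dk)))
    (hfin : 512 * K ^ 4 * (dz * dk) ≤ dy) :
    |e1 / N * (T / c) + e2 * dz / N * ((P + Q) / (c' * dz))| ≤ 5 * K ^ 3 * dy := by
  have hNp : 0 < N := by linarith
  have e3 : e1 / N * (T / c) + e2 * dz / N * ((P + Q) / (c' * dz)) =
      (1 / N) * ((e1 * (T / c) + e2 * (P / c' + ga * (T / c) ^ 2)) +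
        e2 * ((Q - ga * c' * (T / c) ^ 2) / c')) := by
    have h1 : e2 * dz / N * ((P + Q) / (c' * dz)) = 1 / N * (e2 * ((P + Q) / c')) := by
      field_simp
    have h2 : e2 * ((P + Q) / c') = e2 * (P / c' + ga * (T / c) ^ 2) +
        e2 * ((Q - ga * c' * (T / c) ^ 2) / c') := by
      rw [← mul_add]
      congr 1
      rw [sub_div, mul_assoc, mul_div_assoc, mul_div_assoc, add_div]
      field_simp
      ring
    rw [h1, h2]
    ring
  have hKK : K ≤ K ^ 3 := le_self_pow₀ hK (by norm_num)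
  rw [e3, abs_mul, abs_of_pos (by positivity : (0 : ℝ) < 1 / N)]
  have g4 : |e2 * ((Q - ga * c' * (T / c) ^ 2) / c')| ≤ dy := by
    rw [abs_mul, abs_div, abs_of_pos hc']
    calc |e2| * (|Q - ga * c' * (T / c) ^ 2| / c')
        ≤ 1 * ((K * dz * c' * (64 * K * (8 * K ^ 2 * dk))) / c') := by
          refine mul_le_mul he2 ?_ (by positivity) zero_le_one
          exact div_le_div_of_nonneg_right g3 hc'.le
      _ = (512 * K ^ 4) * (dz * dk) := by field_simp; ring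
      _ ≤ dy := hfin
  have g5 : |(e1 * (T / c) + e2 * (P / c' + ga * (T / c) ^ 2)) +
      e2 * ((Q - ga * c' * (T / c) ^ 2) / c')| ≤ 5 * K ^ 3 * dy := by
    refine (abs_add_le _ _).trans ((add_le_add hst g4).trans ?_)
    calc K * dy + dy = (K + 1) * dy := by ring
      _ ≤ 5 * K ^ 3 * dy := mul_le_mul_of_nonneg_right (by linarith) hdy.le
  have g6 : 1 / N ≤ 1 := by
    rw [div_le_one hNp]; exact hN
  calc 1 / N * _ ≤ 1 * (5 * K ^ 3 * dy) := mul_le_mul g6 g5 (abs_nonneg _) zero_le_one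
    _ = _ := one_mul _

section base

variable {B : Base} {I : ℕ → Finset (ℕ × ℝ)} {G : Geo TSet (Fin 2)} {lev : ℕ → ℚ → ℕ}
    {A : ℕ → ℝ} {g s : ℝ} {τ : Fin 2 → ℝ → ℝ} {f : ℕ → ℚ → ℕ → ℤ → ℕ} {b : ℕ → ℚ → ℕ → TSet}
    {vm : ℕ → ℚ → ℝ} {w : Fin 2 → ℕ → ℚ → ℝ}
    {inc : ℕ → ℕ × ℝ → LInc} {σ : Fin 2 → ℕ → ℝ} {q : Fin 2 → ℝ} {M0 c0 Rg θ : ℝ}

open Classical in
/-- **strips for an arbitrary base flag** (222's two cases together) -/
theorem strip_base (hM : MkA B I G lev A (fun v => g * v) (fun v => s * v) τ f b vm w)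
    (h : LData B I G lev inc σ q M0 c0 Rg θ) {k0 : ℝ}
    (hk : ∀ ε : ℝ, 0 < ε → ∀ᶠ n in (U : Filter ℕ), σ 1 n ≤ σ 0 n * B.d n ^ (k0 - ε))
    (w0 sa sb : ℝ) (hq0 : 0 < q 0) (hq1 : 0 < q 1) {i : ℕ → LInc} (hi : BaseOK B lev σ θ i)
    (hb : ∀ᶠ n in (U : Filter ℕ), 3 / 8 ≤ ‖vb (i n)‖) {t1 t2 e1 e2 : ℕ → ℝ} {M1 : ℝ}
    (hM1 : 1 ≤ M1)
    (hdir : ∀ᶠ n in (U : Filter ℕ), |t1 n| ≤ 1 ∧ |t2 n| ≤ 1 ∧
      ‖vb (i n)‖ ≤ M1 * |(i n).b1 * t2 n - (i n).b2 * t1 n|)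
    (he : ∀ᶠ n in (U : Filter ℕ), e1 n ^ 2 + e2 n ^ 2 = 1) {v t yy y K : ℝ}
    (hθ : θ ≤ v) (hv0 : 0 ≤ v) (hv1 : v ≤ 1) (hy : 0 < y) (hyt : y < t) (hRt : t + y < Rg)
    (hRy : |yy| + y < Rg) (hty : t + y < yy + k0) (hK : 1 ≤ K) {ε : ℝ} (hε : 0 < ε) :
    ∀ᶠ n in (U : Filter ℕ), (((I n).filter fun l =>
        Nat8 (i n) (inc n l) K (rho (lev n 0) * B.d n ^ v) (σ 0 n * B.d n ^ t)
          (σ 1 n * B.d n ^ yy) ∧
        |e1 n * ((t1 n * coL (i n) (inc n l) 3 + t2 n * coL (i n) (inc n l) 4) /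
            (σ 0 n * B.d n ^ t)) + e2 n * (coL (i n) (inc n l) 10 / (σ 1 n * B.d n ^ yy))| ≤
          K * B.d n ^ y).card : ℝ) ≤
      (A n * VL σ q lev n * B.d n ^ (-(1 - s))) *
        B.d n ^ (-(DL g s q w0 sa sb (nbS w0 sa sb v t yy) - gam q * y + ε)) := by
  have ht : 0 < t := by linarith
  have hκ := kap_pos hq1
  have hκ1 : kap q ≤ 1 := (kap_le hq1).trans (by norm_num)
  have he1 : ∀ᶠ n in (U : Filter ℕ), |e1 n| ≤ 1 := by
    filter_upwards [he] with n h1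
    rw [← sq_le_one_iff_abs_le_one]
    nlinarith [sq_nonneg (e2 n)]
  have hmono : ∀ (n : ℕ) {a b : ℝ}, a ≤ b →
      (A n * VL σ q lev n * B.d n ^ (-(1 - s))) * B.d n ^ b ≤
      (A n * VL σ q lev n * B.d n ^ (-(1 - s))) * B.d n ^ a := by
    intro n a b hab
    refine mul_le_mul_of_nonneg_left (Dp76.dpow_le B n hab) ?_
    have hA := (hM.Apos n).le
    have s0 := h.σp 0 n
    have s1 := h.σp 1 n
    have r0 := Gd222.rho_pos (lev n 0)
    have hV : 0 ≤ VL σ q lev n := by unfold VL; positivity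
    have := Dp76.dpow_pos B n (-(1 - s))
    positivity
  by_cases hc : ∀ᶠ n in (U : Filter ℕ), B.d n ^ (kap q * y) ≤ |e2 n|
  · have key := strip_A hM h hk w0 sa sb hi hb (hdir.mono fun n hn => ⟨hn.1, hn.2.1⟩) he1
      hκ.le hκ1 hc ht hK hθ (by linarith) hv0 hv1 (by linarith) hy hRy hty hε
    filter_upwards [key] with n h1
    refine h1.trans (hmono n ?_)
    rw [kap_id hq1]
    have : gam q ≤ q 1 / 2 := min_le_left _ _
    nlinarith
  · rw [← Ultrafilter.eventually_not] at hc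
    have hc' : ∀ᶠ n in (U : Filter ℕ), |e2 n| ≤ B.d n ^ (kap q * y) := by
      filter_upwards [hc] with n hn
      exact (not_le.1 hn).le
    have he1' : ∀ᶠ n in (U : Filter ℕ), 1 / 2 ≤ |e1 n| := by
      filter_upwards [hc', he, ev_pow B (K := 1) (κ := 1 / 2) (a := kap q * y) (b := 0) one_pos
        (by norm_num) (by positivity)] with n h1 h2 h3
      rw [Real.rpow_zero, mul_one, one_mul] at h3
      have h4 : |e2 n| ≤ 1 / 2 := h1.trans h3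
      have h5 : e2 n ^ 2 ≤ (1 / 2) ^ 2 := sq_le_sq' (by linarith [(abs_le.1 h4).1]) (abs_le.1 h4).2
      have h7 : (1 / 2 : ℝ) ^ 2 ≤ e1 n ^ 2 := by nlinarith
      have h8 := sq_le_sq.1 h7
      rwa [abs_of_pos (by norm_num : (0 : ℝ) < 1 / 2)] at h8
    have key := strip_B hM h hk w0 sa sb hi hM1 hdir he1' hκ.le hκ1 hc'
      hK hθ hv0 hv1 hy hyt (by linarith) hRt (by linarith) hty hε
    filter_upwards [key] with n h1
    refine h1.trans (hmono n ?_)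
    have : gam q ≤ q 0 * kap q := min_le_right _ _
    nlinarith

/-- the curved base flag -/
theorem BaseOK.addc {i : ℕ → LInc} (hi : BaseOK B lev σ θ i) {γ : ℕ → ℝ}
    (hγ : ∀ ε : ℝ, 0 < ε → ∀ᶠ n in (U : Filter ℕ), |γ n| * σ 0 n ≤ B.d n ^ (-ε))
    (hσ : ∀ j n, 0 < σ j n) :
    BaseOK B lev σ θ (fun n => addc (γ n) (i n)) where
  hb := hi.hb
  he := by
    intro ε hε
    have hε2 : 0 < ε / 2 := by linarith
    filter_upwards [hi.he _ hε2, hγ _ hε2,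
      ev_pow B (K := 2) (κ := 1) (a := -(ε / 2)) (b := -ε) (by norm_num) one_pos
        (by linarith)] with n e1 e2 e3
    show |(i n).et + γ n| * σ 0 n ≤ _
    calc |(i n).et + γ n| * σ 0 n ≤ (|(i n).et| + |γ n|) * σ 0 n :=
          mul_le_mul_of_nonneg_right (abs_add_le _ _) (hσ 0 n).le
      _ = |(i n).et| * σ 0 n + |γ n| * σ 0 n := by ring
      _ ≤ 2 * B.d n ^ (-(ε / 2)) := by linarith
      _ ≤ B.d n ^ (-ε) := by linarith
  hd := hi.hd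

set_option maxHeartbeats 1000000 in
open Classical in
/-- **curved strips for an arbitrary base flag** -/
theorem strip_curv (hM : MkA B I G lev A (fun v => g * v) (fun v => s * v) τ f b vm w)
    (h : LData B I G lev inc σ q M0 c0 Rg θ) {k0 : ℝ}
    (hk : ∀ ε : ℝ, 0 < ε → ∀ᶠ n in (U : Filter ℕ), σ 1 n ≤ σ 0 n * B.d n ^ (k0 - ε))
    (w0 sa sb : ℝ) (hq0 : 0 < q 0) (hq1 : 0 < q 1) {i : ℕ → LInc} (hi : BaseOK B lev σ θ i)
    (hb : ∀ᶠ n in (U : Filter ℕ), 3 / 8 ≤ ‖vb (i n)‖) {t1 t2 e1 e2 ga : ℕ → ℝ} {M1 : ℝ}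
    (hM1 : 1 ≤ M1)
    (hdir : ∀ᶠ n in (U : Filter ℕ), |t1 n| ≤ 1 ∧ |t2 n| ≤ 1 ∧
      ‖vb (i n)‖ ≤ M1 * |(i n).b1 * t2 n - (i n).b2 * t1 n|)
    (he : ∀ᶠ n in (U : Filter ℕ), e1 n ^ 2 + e2 n ^ 2 = 1) {v t yy y z K : ℝ}
    (hg : ∀ᶠ n in (U : Filter ℕ), |ga n| ≤ K * B.d n ^ (-z)) (hz : 0 ≤ z)
    (hθ : θ ≤ v) (hv0 : 0 ≤ v) (hv1 : v ≤ 1) (hy : 0 < y) (hyt : y + z < t) (hRt : t + y < Rg)
    (hRy : |yy| + y + z < Rg) (hty : t + y + z < yy + k0) (hcur : 2 * t + z ≤ yy + k0)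
    (hK : 1 ≤ K) {ε : ℝ} (hε : 0 < ε) :
    ∀ᶠ n in (U : Filter ℕ), (((I n).filter fun l =>
        Nat8 (i n) (inc n l) K (rho (lev n 0) * B.d n ^ v) (σ 0 n * B.d n ^ t)
          (σ 1 n * B.d n ^ yy) ∧
        |e1 n * ((t1 n * coL (i n) (inc n l) 3 + t2 n * coL (i n) (inc n l) 4) /
            (σ 0 n * B.d n ^ t)) + e2 n * (coL (i n) (inc n l) 10 / (σ 1 n * B.d n ^ yy) +
              ga n * ((t1 n * coL (i n) (inc n l) 3 + t2 n * coL (i n) (inc n l) 4) /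
                (σ 0 n * B.d n ^ t)) ^ 2)| ≤ K * B.d n ^ y).card : ℝ) ≤
      (A n * VL σ q lev n * B.d n ^ (-(1 - s))) *
        B.d n ^ (-(DL g s q w0 sa sb (nbS w0 sa sb v t yy) - gam q * y + (1 + q 1) * z + ε)) := by
  have ht : 0 < t := by linarith
  have hK0 : 0 < K := by linarith
  have hKK : K ≤ K ^ 2 := le_self_pow₀ hK (by norm_num)
  have hK3 : K ^ 2 ≤ K ^ 3 := pow_le_pow_right₀ hK (by norm_num)
  -- the curvature
  set γ : ℕ → ℝ := fun n => gco (i n) (t1 n) (t2 n) (ga n) (σ 0 n * B.d n ^ t)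
    (σ 1 n * B.d n ^ yy) with hγd
  have hγ1 : ∀ᶠ n in (U : Filter ℕ), |γ n| ≤ 4 * (K * B.d n ^ (-z)) *
      ((σ 1 n * B.d n ^ yy) / (σ 0 n * B.d n ^ t) ^ 2) := by
    filter_upwards [hi.hb, hdir, hg] with n n1 n2 n3
    exact gco_le (i n) n2.1 n2.2.1 (by linarith) (mul_pos (h.σp 0 n) (Dp76.dpow_pos B n _))
      (mul_pos (h.σp 1 n) (Dp76.dpow_pos B n _)) n3
  have hγ : ∀ ε : ℝ, 0 < ε → ∀ᶠ n in (U : Filter ℕ), |γ n| * σ 0 n ≤ B.d n ^ (-ε) := by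
    intro ε hε
    have hε2 : 0 < ε / 2 := by linarith
    filter_upwards [hγ1, hk _ hε2, ev_pow B (K := 4 * K) (κ := 1) (a := -(ε / 2)) (b := -ε)
      (by linarith) one_pos (by linarith)] with n n1 n2 n3
    have dp := fun a => Dp76.dpow_pos B n a
    have s0 := h.σp 0 n
    have s1 := h.σp 1 n
    have e : (B.d n ^ t) ^ 2 = B.d n ^ (2 * t) := by
      rw [← Real.rpow_natCast, ← Real.rpow_mul (B.pos n).le]; congr 1; push_cast; ring
    calc |γ n| * σ 0 n ≤ 4 * (K * B.d n ^ (-z)) *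
          ((σ 1 n * B.d n ^ yy) / (σ 0 n * B.d n ^ t) ^ 2) * σ 0 n :=
          mul_le_mul_of_nonneg_right n1 s0.le
      _ = 4 * K * (σ 1 n / σ 0 n * (B.d n ^ (-z) * B.d n ^ yy / B.d n ^ (2 * t))) := by
          rw [← e]; field_simp
      _ ≤ 4 * K * (B.d n ^ (k0 - ε / 2) * (B.d n ^ (-z) * B.d n ^ yy / B.d n ^ (2 * t))) := by
          refine mul_le_mul_of_nonneg_left (mul_le_mul_of_nonneg_right ?_ ?_) (by linarith)
          · rw [div_le_iff₀ s0, mul_comm]; exact n2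
          · exact (div_pos (mul_pos (dp _) (dp _)) (dp _)).le
      _ = 4 * K * B.d n ^ (k0 - ε / 2 + (-z + yy - 2 * t)) := by
          have e2 : B.d n ^ (-z + yy - 2 * t) = B.d n ^ (-z) * B.d n ^ yy / B.d n ^ (2 * t) := by
            rw [Real.rpow_sub (B.pos n), Dp76.dpow_add B n (-z)]
          rw [Dp76.dpow_add B n (k0 - ε / 2), e2]
      _ ≤ 4 * K * B.d n ^ (-(ε / 2)) :=
          mul_le_mul_of_nonneg_left (Dp76.dpow_le B n (by linarith)) (by linarith)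
      _ ≤ B.d n ^ (-ε) := by linarith
  have hi' := BaseOK.addc hi hγ h.σp
  -- the normalised direction
  set e2' : ℕ → ℝ := fun n => e2 n * B.d n ^ (-z) with he2d
  set N : ℕ → ℝ := fun n => Real.sqrt (e1 n ^ 2 + e2' n ^ 2) with hNd
  have hN1 : ∀ᶠ n in (U : Filter ℕ), 1 ≤ N n := by
    filter_upwards [he] with n n1
    rw [hNd, Real.one_le_sqrt, he2d]
    have h1 : 1 ≤ B.d n ^ (-z) :=
      Real.one_le_rpow_of_pos_of_le_one_of_nonpos (B.pos n) (B.lt n).le (by linarith)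
    have h2 : 1 ≤ (B.d n ^ (-z)) ^ 2 := one_le_pow₀ h1
    simp only [mul_pow]
    nlinarith [sq_nonneg (e2 n)]
  have he' : ∀ᶠ n in (U : Filter ℕ), (e1 n / N n) ^ 2 + (e2' n / N n) ^ 2 = 1 := by
    filter_upwards [hN1] with n n1
    have h1 : N n ^ 2 = e1 n ^ 2 + e2' n ^ 2 := Real.sq_sqrt (by positivity)
    have h2 : 0 < N n := by linarith
    rw [div_pow, div_pow, ← add_div, ← h1, div_self (by positivity)]
  have hzy : |yy - z| + y < Rg := by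
    have : |yy - z| ≤ |yy| + |z| := abs_sub _ _
    rw [abs_of_nonneg hz] at this
    linarith
  have key := strip_base hM h hk w0 sa sb hq0 hq1 hi' (hb.mono fun n hn => hn) hM1
    (t1 := t1) (t2 := t2) (e1 := fun n => e1 n / N n) (e2 := fun n => e2' n / N n)
    (hdir.mono fun n hn => hn) he' (v := v) (t := t) (yy := yy - z) (y := y) (K := 5 * K ^ 3)
    hθ hv0 hv1 hy (by linarith) hRt hzy (by linarith) (by linarith) hε
  obtain ⟨η, hη, hη1, hη2, hη3⟩ : ∃ η : ℝ, 0 < η ∧ y + z + η ≤ t - η ∧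
      y + z + η ≤ v + t - θ - η ∧ y + z + η ≤ yy + k0 - t - η := by
    refine ⟨min ((t - y - z) / 2) ((yy + k0 - t - y - z) / 2), ?_, ?_, ?_, ?_⟩
    · exact lt_min (by linarith) (by linarith)
    · have := min_le_left ((t - y - z) / 2) ((yy + k0 - t - y - z) / 2)
      linarith
    · have := min_le_left ((t - y - z) / 2) ((yy + k0 - t - y - z) / 2)
      linarith
    · have := min_le_right ((t - y - z) / 2) ((yy + k0 - t - y - z) / 2)
      linarith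
  filter_upwards [key, hdir, he, hg, hi.hb, hi.he η hη, hi.hd η hη, hk η hη, hγ1, hN1,
    ev_pow B (K := 8 * K ^ 2) (κ := 1) (a := y + z + η) (b := 0) (by positivity) one_pos
      (by linarith),
    ev_pow B (K := 512 * K ^ 4) (κ := 1) (a := η) (b := 0) (by positivity) one_pos hη]
    with n n1 n3 n4 n5 n6 n7 n8 n9 n10 n11 n12 n13
  have dp := fun a => Dp76.dpow_pos B n a
  have s0 := h.σp 0 n
  have s1 := h.σp 1 n
  have r0 := Gd222.rho_pos (lev n 0)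
  rw [Real.rpow_zero, mul_one] at n12 n13
  obtain ⟨R, hR⟩ : ∃ R : ℝ, R = rho (lev n 0) * B.d n ^ v := ⟨_, rfl⟩
  obtain ⟨c, hc⟩ : ∃ c : ℝ, c = σ 0 n * B.d n ^ t := ⟨_, rfl⟩
  obtain ⟨c', hc'⟩ : ∃ c' : ℝ, c' = σ 1 n * B.d n ^ yy := ⟨_, rfl⟩
  obtain ⟨c2, hc2⟩ : ∃ c2 : ℝ, c2 = σ 1 n * B.d n ^ (yy - z) := ⟨_, rfl⟩
  have hγn : γ n = gco (i n) (t1 n) (t2 n) (ga n) c c' := by rw [hγd, hc, hc']
  rw [← hR, ← hc, ← hc2] at n1
  rw [← hc, ← hc'] at n10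
  rw [← hR, ← hc, ← hc']
  have Rp : 0 < R := by rw [hR]; exact mul_pos r0 (dp _)
  have cp : 0 < c := by rw [hc]; exact mul_pos s0 (dp _)
  have cp' : 0 < c' := by rw [hc']; exact mul_pos s1 (dp _)
  have ec2 : c2 = c' * B.d n ^ (-z) := by
    rw [hc2, hc', sub_eq_add_neg, Dp76.dpow_add]; ring
  have hdz : 1 ≤ B.d n ^ (-z) :=
    Real.one_le_rpow_of_pos_of_le_one_of_nonpos (B.pos n) (B.lt n).le (by linarith)
  have cp2 : 0 < c2 := by rw [ec2]; exact mul_pos cp' (dp _)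
  have hcc2 : c' ≤ c2 := by rw [ec2]; exact le_mul_of_one_le_right cp'.le hdz
  obtain ⟨dk, hdk⟩ : ∃ dk : ℝ, dk = B.d n ^ (y + z + η) := ⟨_, rfl⟩
  rw [← hdk] at n12
  have dkp : 0 < dk := by rw [hdk]; exact dp _
  have hle : ∀ {a : ℝ}, y + z + η ≤ a → B.d n ^ a ≤ dk := fun ha => by
    rw [hdk]; exact Dp76.dpow_le B n ha
  have hE : |(i n).et| * c ≤ dk := by
    calc |(i n).et| * c = (|(i n).et| * σ 0 n) * B.d n ^ t := by rw [hc]; ring
      _ ≤ B.d n ^ (-η) * B.d n ^ t := mul_le_mul_of_nonneg_right n7 (dp _).le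
      _ = B.d n ^ (t - η) := by rw [← Dp76.dpow_add]; congr 1; ring
      _ ≤ dk := hle (by linarith)
  have hD : |(i n).d| * (c * R) ≤ dk := by
    calc |(i n).d| * (c * R) = (|(i n).d| * (σ 0 n * rho (lev n 0))) * (B.d n ^ t * B.d n ^ v) := by
          rw [hc, hR]; ring
      _ ≤ B.d n ^ (-θ - η) * (B.d n ^ t * B.d n ^ v) :=
          mul_le_mul_of_nonneg_right n8 (mul_pos (dp _) (dp _)).le
      _ = B.d n ^ (v + t - θ - η) := by rw [← Dp76.dpow_add, ← Dp76.dpow_add]; congr 1; ring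
      _ ≤ dk := hle (by linarith)
  have hcc : c' ≤ c * dk := by
    calc c' ≤ (σ 0 n * B.d n ^ (k0 - η)) * B.d n ^ yy := by
          rw [hc']; exact mul_le_mul_of_nonneg_right n9 (dp _).le
      _ = c * B.d n ^ (yy + k0 - t - η) := by
          rw [hc, mul_assoc, mul_assoc, ← Dp76.dpow_add, ← Dp76.dpow_add]; congr 2; ring
      _ ≤ c * dk := mul_le_mul_of_nonneg_left (hle (by linarith)) cp.le
  have he2n : |e2 n| ≤ 1 := by
    rw [← sq_le_one_iff_abs_le_one]; nlinarith [sq_nonneg (e1 n)]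
  have hNp : 0 < N n := by linarith
  refine le_trans ?_ (n1.trans ?_)
  · refine Nat.cast_le.2 (Finset.card_le_card fun l hl => ?_)
    rw [mem_filter] at hl ⊢
    obtain ⟨hlI, hN8, hst⟩ := hl
    obtain ⟨a0, a3, a4, a5, a6, a9, a10, a11⟩ := coL_addc (γ n) (i n) (inc n l)
    have leK : ∀ {x X : ℝ}, 0 ≤ X → |x| ≤ K * X → |x| ≤ 5 * K ^ 3 * X := by
      intro x X hX hx
      exact hx.trans (mul_le_mul_of_nonneg_right (by linarith) hX)
    have hC2 : |(coL (i n) (inc n l) 3 ^ 2 + coL (i n) (inc n l) 4 ^ 2) / 2| ≤ K ^ 2 * c ^ 2 := by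
      rw [← mul_pow]
      exact sq2_le hN8.h3 hN8.h4
    refine ⟨hlI, ⟨?_, ?_, ?_, ?_, ?_, ?_, ?_, ?_⟩, ?_⟩
    · rw [a0]; exact leK Rp.le hN8.h0
    · rw [a3]; exact leK cp.le hN8.h3
    · rw [a4]; exact leK cp.le hN8.h4
    · rw [a5]; exact leK (by positivity) hN8.h5
    · rw [a6]; exact leK (by positivity) hN8.h6
    · rw [a9]; exact leK (by positivity) hN8.h9
    · rw [a10]
      have b1 : |γ n * ((coL (i n) (inc n l) 3 ^ 2 + coL (i n) (inc n l) 4 ^ 2) / 2)| ≤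
          4 * K ^ 3 * c2 := by
        rw [abs_mul]
        calc _ ≤ (4 * (K * B.d n ^ (-z)) * (c' / c ^ 2)) * (K ^ 2 * c ^ 2) :=
              mul_le_mul n10 hC2 (abs_nonneg _) (by have := dp (-z); positivity)
          _ = 4 * K ^ 3 * c2 := by rw [ec2]; field_simp
      have b2 : K * c' ≤ K ^ 3 * c2 := mul_le_mul (by linarith) hcc2 cp'.le (by positivity)
      exact (abs_add_le _ _).trans (by linarith [hN8.h10])
    · rw [a11]
      have b1 : |γ n * coL (i n) (inc n l) 9| ≤ 4 * K ^ 2 * (c2 * R) := by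
        rw [abs_mul]
        calc _ ≤ (4 * (K * B.d n ^ (-z)) * (c' / c ^ 2)) * (K * (c ^ 2 * R)) :=
              mul_le_mul n10 hN8.h9 (abs_nonneg _) (by have := dp (-z); positivity)
          _ = 4 * K ^ 2 * (c2 * R) := by rw [ec2]; field_simp
      have b2 : K * (c' * R) ≤ K ^ 3 * (c2 * R) :=
        mul_le_mul (by linarith) (mul_le_mul_of_nonneg_right hcc2 Rp.le) (by positivity)
          (by positivity)
      have b3 : 4 * K ^ 2 * (c2 * R) ≤ 4 * K ^ 3 * (c2 * R) :=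
        mul_le_mul_of_nonneg_right (by linarith) (by positivity)
      exact (abs_add_le _ _).trans (by linarith [hN8.h11])
    · obtain ⟨g1, -⟩ := comp_b Rp cp hK hN8 hE hD
      have g2 : |(i n).b1 * coL (i n) (inc n l) 3 + (i n).b2 * coL (i n) (inc n l) 4| ≤
          (8 * K ^ 2 * dk) * c := by
        refine g1.trans ?_
        have b1 : K * c' ≤ K ^ 2 * (c * dk) := mul_le_mul hKK hcc cp'.le (by positivity)
        calc K * c' + K ^ 2 * c * (dk + 6 * dk) ≤ K ^ 2 * (c * dk) + K ^ 2 * c * (dk + 6 * dk) := by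
              linarith
          _ = (8 * K ^ 2 * dk) * c := by ring
      have g3 := curv_err (i n) n3.1 n3.2.1 n6 cp cp' n5 hK hN8.h3 hN8.h4 g2 n12
      rw [← hγn] at g3
      simp only [a3, a4, a10, he2d, ec2]
      refine stp_le cp' (dp _) (dp _) hK n11 he2n hst g3 ?_
      calc 512 * K ^ 4 * (B.d n ^ (-z) * dk) = (512 * K ^ 4 * B.d n ^ η) * B.d n ^ y := by
            rw [hdk, ← Dp76.dpow_add, show -z + (y + z + η) = η + y by ring, Dp76.dpow_add]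
            ring
        _ ≤ 1 * B.d n ^ y := mul_le_mul_of_nonneg_right n13 (dp _).le
        _ = _ := one_mul _
  · have hA := (hM.Apos n).le
    have hV : 0 ≤ VL σ q lev n := by unfold VL; positivity
    have h1 := dp (-(1 - s))
    refine mul_le_mul_of_nonneg_left (Dp76.dpow_le B n ?_) (by positivity)
    rw [DL_nbS, DL_nbS]
    unfold FL
    linarith

end base

end Crest.Agent.R116.Gc809
end

-- ▼ part R116/Nar8_192
section

/-!
# R116 (S0155), K side, [NARROW] (helper192), part 8: no heavy (curved) strips in the windows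

* `sab_curv` : 809's `strip_curv` as `SAB`.
* `CtxT.stgC` : `StgL` with `Gm = 1`.
* `StgM` : margins of the stages; **`CtxT.nsG`** : windows (954's `WinG`) of moving base points:
  `NsG W sC 10 Phi3 (Ok3 1) (gam q) C0 R0`; then `NsG.toNsW`, `NsG.toNsWc`.
-/

set_option autoImplicit false
set_option linter.unusedVariables false
set_option linter.unusedSectionVars false

open Finset Filter Topology

namespace Crest.Agent.R116.Nar192

open Crest.Agent.R138.Defs (E2)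
open Crest.Agent.R138.Ex926 (Base U)
open Crest.Agent.R138.Mk163 (zc zl rho alive)
open Crest.Agent.R138
open Crest.Agent.R136.MkA627
open Crest.Agent.R136.Net191
open Crest.Agent.R136.Lq196
open Crest.Agent.R136.Qg926
open Crest.Agent.R116.LZg725
open Crest.Agent.R116.ChL222
open Crest.Agent.R116.PL504 (βL eL rL oL Shift nb DN wtL)
open Crest.Agent.R116.Gd222
open Crest.Agent.R116.KI439
open Crest.Agent.R116.KF439 (PL Thin frF flF scN)
open Crest.Agent.R116.Tw468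
open Crest.Agent.R116.CtxB468
open Crest.Agent.R116.EvL504
open Crest.Agent.R116.WinG954

/-- 809's curved strips as `SAB` -/
theorem sab_curv {B : Base} {I : ℕ → Finset (ℕ × ℝ)} {G : Geo TSet (Fin 2)} {lev : ℕ → ℚ → ℕ}
    {A : ℕ → ℝ} {g s : ℝ} {τ : Fin 2 → ℝ → ℝ} {f : ℕ → ℚ → ℕ → ℤ → ℕ} {b : ℕ → ℚ → ℕ → TSet}
    {vm : ℕ → ℚ → ℝ} {w : Fin 2 → ℕ → ℚ → ℝ}
    {inc : ℕ → ℕ × ℝ → LInc} {σ : Fin 2 → ℕ → ℝ} {q : Fin 2 → ℝ} {M0 c0 Rg θ : ℝ}
    (hM : MkA B I G lev A (fun v => g * v) (fun v => s * v) τ f b vm w)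
    (h : LData B I G lev inc σ q M0 c0 Rg θ) {k0 : ℝ}
    (hk : ∀ ε : ℝ, 0 < ε → ∀ᶠ n in (U : Filter ℕ), σ 1 n ≤ σ 0 n * B.d n ^ (k0 - ε))
    (w0 sa sb : ℝ) (hq0 : 0 < q 0) (hq1 : 0 < q 1) {v t yy y z : ℝ} (hz : 0 ≤ z) (hθ : θ ≤ v)
    (hv0 : 0 ≤ v) (hv1 : v ≤ 1) (hy : 0 < y) (hyt : y + z < t) (hRt : t + y < Rg)
    (hRy : |yy| + y + z < Rg) (hty : t + y + z < yy + k0) (hcur : 2 * t + z ≤ yy + k0) :
    SAB B I lev inc σ q A g s w0 sa sb θ v t yy 1 (1 + q 1) (gam q) y z := by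
  intro i hi hb t1 t2 e1 e2 gg hdir he K hK hgg ε hε
  exact Gc809.strip_curv hM h hk w0 sa sb hq0 hq1 hi hb (M1 := 32) (by norm_num) hdir he
    (hgg.mono fun n hn => by rwa [one_mul] at hn) hz hθ hv0 hv1 hy hyt hRt hRy hty hcur hK hε

section ctx

variable {G : Geo TSet (Fin 2)} {L : ℕ → ℕ → LRay} {r : ℕ → ℝ} {g s : ℝ} {θ q : Fin 2 → ℝ}
    {Rg : ℝ} {a : Fin 2} {B : Base}
    {I : ℕ → Finset (ℕ × ℝ)} {lev : ℕ → ℚ → ℕ} {A : ℕ → ℝ}
    {f : ℕ → ℚ → ℕ → ℤ → ℕ} {b : ℕ → ℚ → ℕ → TSet} {vm : ℕ → ℚ → ℝ} {w : Fin 2 → ℕ → ℚ → ℝ}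
    {fr : ℕ → ℚ → ℕ × ℝ → LInc} {fl : ℕ → ℕ × ℝ → LInc} {sc : Fin 12 → ℕ → ℝ}
    {w0 sa sb δ R : ℝ} {I0 I' : ℕ → Finset (ℕ × ℝ)} {ν own : (Fin 12 → ℝ) → ℝ} {c₀ : ℝ}

/-- **stage data, thin case, curved strips** -/
theorem _root_.Crest.Agent.R116.CtxB468.CtxT.stgC
    (h : CtxT G L r g s θ q Rg B I lev A f b vm w fr fl sc w0 sa sb δ R I0 I' ν own c₀)
    (hq0 : 0 < q 0) (hq1 : 0 < q 1) {sC : Fin 12} (hsC : sC = 3 ∨ sC = 4)
    (hax : ∀ᶠ n in (U : Filter ℕ), ∀ x ∈ I n,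
      ‖vb (fl n x)‖ ≤ 16 * |(fl n x).b1 * (tC sC).2 - (fl n x).b2 * (tC sC).1|)
    {v t yy R0 hh : ℝ} (hv0 : 0 ≤ v) (hv1 : v ≤ 1) (hR : 0 < R0 * hh)
    (ht : 2 * (R0 * hh) < t) (hRt : t + R0 * hh < Rg) (hRy : |yy| + 2 * (R0 * hh) < Rg)
    {p rc : Fin 12 → ℝ} (hp : p ∈ Leg monL R) (hrc : rc ∈ Leg monL R)
    (hr : RecS w0 sa sb v t yy sC rc) (hc : ClsS w0 sa sb v t yy 0 p)
    (eC : p sC = rc sC) (eP : p 10 = rc 10)
    (rC : p sC + 2 * (R0 * hh) ≤ R) (rP : p 10 + 2 * (R0 * hh) ≤ R) :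
    StgL B I0 (PL504.coN B lev w w0 sa sb fl) (N0T B s A vm) R sC 1 (gam q) (1 + q 1) R0
      (DT g s q θ w0 sa sb rc) p rc hh := by
  have hk := hk_thin h.out.win.sys.mka h.out.thin (2 * t + |yy| + 2 * (R0 * hh) + 1)
  have hy := neg_abs_le yy
  refine stg_of h.out.win.sys.mka h.out.win.dat h.out.win.isL.wid h.sub0 hk hsC hax hv0 hv1
    (by linarith) (by linarith) (by linarith) (by linarith) (by linarith) zero_le_one hp hrc hr hc
    eC eP rC rP ?_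
  intro y z h1 h2 h3 h4
  exact sab_curv h.out.win.sys.mka h.out.win.dat hk w0 sa sb hq0 hq1 h3.le hv0 hv0 hv1 h1
    (by linarith) (by linarith) (by linarith) (by linarith) (by linarith)

/-- margins of one stage: class box `p`, record box `rc` at `(v, t, yy)` -/
structure StgM (w0 sa sb R Rg t0 : ℝ) (sC : Fin 12) (p rc : Fin 12 → ℝ) (v t yy : ℝ) : Prop where
  v0 : 0 ≤ v
  v1 : v ≤ 1
  tt : t0 ≤ t
  tR : t + t0 ≤ Rg
  yR : |yy| + t0 ≤ Rg
  p_leg : p ∈ Leg monL R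
  rc_leg : rc ∈ Leg monL R
  nat : RecS w0 sa sb v t yy sC rc
  cls : ClsS w0 sa sb v t yy 0 p
  eC : p sC = rc sC
  eP : p 10 = rc 10
  rC : p sC + t0 ≤ R
  rP : p 10 + t0 ≤ R

/-- **no heavy curved strips in the windows of moving base points**, thin case -/
theorem _root_.Crest.Agent.R116.CtxB468.CtxT.nsG
    (h : CtxT G L r g s θ q Rg B I lev A f b vm w fr fl sc w0 sa sb δ R I0 I' ν own c₀)
    (hq0 : 0 < q 0) (hq1 : 0 < q 1) {sC : Fin 12} (hsC : sC = 3 ∨ sC = 4)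
    (hax : ∀ᶠ n in (U : Filter ℕ), ∀ x ∈ I n,
      ‖vb (fl n x)‖ ≤ 16 * |(fl n x).b1 * (tC sC).2 - (fl n x).b2 * (tC sC).1|)
    {X rc : ℕ → Fin 12 → ℝ} {hh : ℕ → ℝ} (hpos : ∀ l, 0 < hh l)
    (hh0 : Tendsto hh atTop (𝓝 0)) {t0 : ℝ} (ht0 : 0 < t0)
    (hst : ∀ᶠ l in (atTop : Filter ℕ), ∃ v t yy : ℝ,
      StgM w0 sa sb R Rg t0 sC (X l) (rc l) v t yy)
    (hfr : ∀ ε : ℝ, 0 < ε → ∀ᶠ l in (atTop : Filter ℕ),
      c₀ + DT g s q θ w0 sa sb (rc l) - ν (X l ⊔ rc l) ≤ ε * hh l) {R0 : ℝ} (hR0 : 0 < R0) :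
    ∃ k : ℕ → ℕ, Tendsto k U atTop ∧ ∀ k' : ℕ → ℕ, Tendsto k' U atTop →
      (∀ᶠ n in (U : Filter ℕ), k' n ≤ k n) →
      ∀ (W : Wnd 12 (fun _ => ℕ × ℝ)) (D : Set (Fin 12 → ℝ)) (lam : (Fin 12 → ℝ) → ℝ) (tw : ℝ)
        (Mw : Mons 12) (top : Fin 12 → ℝ),
        WinG W B I0 I' (PL504.coN B lev w w0 sa sb fl) 2 D ν lam X hh k' tw Mw top →
        NsG W sC 10 Phi3 (Ok3 1) (gam q) (1 + q 1 + gam q + gam q + 1) R0 := by
  have hR : 0 ≤ R := by
    obtain ⟨l, v, t, yy, hl⟩ := hst.exists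
    have h1 := hl.p_leg.1.nonneg 0
    have h2 := hl.p_leg.2 0
    linarith
  have hg : 0 ≤ gam q := (gam_pos hq0 hq1).le
  have hst' : ∀ᶠ l in (atTop : Filter ℕ), StgL B I0 (PL504.coN B lev w w0 sa sb fl) (N0T B s A vm)
      R sC 1 (gam q) (1 + q 1) R0 (DT g s q θ w0 sa sb (rc l)) (X l) (rc l) (hh l) := by
    have hsm : ∀ᶠ l in (atTop : Filter ℕ), hh l < t0 / (4 * R0) :=
      hh0.eventually (gt_mem_nhds (by positivity))
    filter_upwards [hst, hsm] with l hl hlt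
    obtain ⟨v, t, yy, hl⟩ := hl
    have h1 : 0 < R0 * hh l := mul_pos hR0 (hpos l)
    have h2 : R0 * hh l < t0 / 4 := by
      rw [lt_div_iff₀ (by positivity)] at hlt
      linarith
    exact h.stgC hq0 hq1 hsC hax hl.v0 hl.v1 h1 (by linarith [hl.tt]) (by linarith [hl.tR])
      (by linarith [hl.yR]) hl.p_leg hl.rc_leg hl.nat hl.cls hl.eC hl.eP (by linarith [hl.rC])
      (by linarith [hl.rP])
  have hkp : ∀ s' : Fin 12, 0 < cK0 monL 2 ^ wtL s' := fun s' =>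
    pow_pos (lt_of_lt_of_le one_pos (cK0_one (M := monL) zero_le_two)) _
  obtain ⟨k, hk, hkk⟩ := nsG_light (sC := sC) (Gm := 1) (q := gam q) (C1 := 1 + q 1) (R0 := R0)
    (κA := cK0 monL 2 ^ wtL sC) (κB := cK0 monL 2 ^ wtL 10)
    h.ext hR h.comb hsC (hkp _) (hkp _) zero_le_one hg (by linarith) hR0 hpos hst' hfr
  refine ⟨k, hk, fun k' hk' hle W D lam tw Mw top w => ?_⟩
  refine hkk k' hk' hle W w.wl.ok w.hI w.hJ w.hB w.hco w.hM w.hC ?_ w.base ?_ ?_ ?_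
  · intro n; rw [w.hX]
  · rw [w.hkap]
  · rw [w.hkap]
  · intro ε hε
    filter_upwards [w.wl.ok.cls.big ε hε] with n hn
    rw [w.hT] at hn
    exact hn

end ctx

end Crest.Agent.R116.Nar192
end

-- ▼ part R116/Sc4b_708
section

/-!
# R116, K-TEXT II-c, SIG2 (`σ = 2`, helper905), Sc4: curved strips in the window models (helper708)

* `NsWc` : no heavy curved strips of the class (helper192's output), `|g| ≤ ρ^(-ε)`.
* `strip_linesC` : the lines of a slice of `W.cfg E'` in a curved strip (helper107's argument).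
-/

set_option autoImplicit false
set_option linter.unusedSectionVars false
set_option linter.unusedVariables false

open Filter Topology

namespace Crest.Agent.R116.Sc708

open Finset Crest.Agent.R138.Ex926 Crest.Agent.R136.Net191 Crest.Agent.R136.Gf356
open Crest.Agent.R136.Qg926 Crest.Agent.R136.Qg4480
open Crest.Agent.R136.NSt107 (rich mem_rich rich_sub eok_rich card_pairs_le LineC abs_le_one_of_sq)

/-- perturbation of the curved functional (window copy) -/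
theorem curv_errW {b0 b1 g a a' c c' e M : ℝ} (h0 : |b0| ≤ 1) (h1 : |b1| ≤ 1) (hM : 1 ≤ M)
    (hg : |g| ≤ M) (ha : |a| ≤ M) (ha' : |a'| ≤ M) (hda : |a' - a| ≤ e) (hdc : |c' - c| ≤ e) :
    |(b0 * a' + b1 * (c' + g * a' ^ 2)) - (b0 * a + b1 * (c + g * a ^ 2))| ≤
      4 * (M ^ 2 * e) := by
  have he0 : 0 ≤ e := (abs_nonneg _).trans hda
  have e1 : (b0 * a' + b1 * (c' + g * a' ^ 2)) - (b0 * a + b1 * (c + g * a ^ 2)) =
      b0 * (a' - a) + b1 * ((c' - c) + g * ((a' + a) * (a' - a))) := by ring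
  rw [e1]
  have f1 : |b0 * (a' - a)| ≤ e := by
    rw [abs_mul]
    calc |b0| * |a' - a| ≤ 1 * e := mul_le_mul h0 hda (abs_nonneg _) zero_le_one
      _ = e := one_mul _
  have f2 : |(a' + a) * (a' - a)| ≤ 2 * M * e := by
    rw [abs_mul]
    exact mul_le_mul ((abs_add_le _ _).trans (by linarith)) hda (abs_nonneg _) (by linarith)
  have f3 : |g * ((a' + a) * (a' - a))| ≤ M * (2 * M * e) := by
    rw [abs_mul]; exact mul_le_mul hg f2 (abs_nonneg _) (by linarith)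
  have f4 : |b1 * ((c' - c) + g * ((a' + a) * (a' - a)))| ≤ e + M * (2 * M * e) := by
    rw [abs_mul]
    calc |b1| * _ ≤ 1 * (e + M * (2 * M * e)) :=
          mul_le_mul h1 ((abs_add_le _ _).trans (add_le_add hdc f3)) (abs_nonneg _) zero_le_one
      _ = _ := one_mul _
  have hMe : e ≤ M ^ 2 * e := le_mul_of_one_le_left he0 (one_le_pow₀ hM)
  calc _ ≤ |b0 * (a' - a)| + |b1 * ((c' - c) + g * ((a' + a) * (a' - a)))| := abs_add_le _ _
    _ ≤ e + (e + M * (2 * M * e)) := add_le_add f1 f4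
    _ ≤ _ := by nlinarith

variable {m : ℕ} {ι : ℕ → Type*} [∀ n, DecidableEq (ι n)] {W : Wnd m ι}

open Classical in
/-- **no curved strip of the class is heavy** (slots `cA`, `cB`) -/
def NsWc (W : Wnd m ι) (cA cB : Fin m) (q R0 : ℝ) : Prop :=
  ∃ C : ℝ, 0 ≤ C ∧ ∀ t : ℝ, 0 < t → t ≤ R0 → ∀ ε : ℝ, 0 < ε → ∀ᶠ n in (U : Filter ℕ),
    ∀ i ∈ W.Cl n, ∀ (b : Fin 2 → ℝ) (g : ℝ), b 0 ^ 2 + b 1 ^ 2 = 1 → |g| ≤ W.B'.d n ^ (-ε) →
      (((W.Cl n).filter fun j =>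
        |b 0 * W.crd n i j cA + b 1 * (W.crd n i j cB + g * W.crd n i j cA ^ 2)| ≤
          W.B'.d n ^ t).card : ℝ) ≤ W.B'.d n ^ (q * t - C * ε) * (W.Cl n).card

/-- the coordinates of the class are bounded -/
theorem crd_bdd (h : W.Ok) (s : Fin m) {ε : ℝ} (hε : 0 < ε) : ∀ᶠ n in (U : Filter ℕ),
    ∀ i ∈ W.Cl n, ∀ j ∈ W.Cl n, |W.crd n i j s| ≤ W.B'.d n ^ (-ε) := by
  have hK := h.K0_one
  have hk := h.kap s
  filter_upwards [h.ev_good, Crest.Agent.R136.Qg926.ev_const_le W.B' (c := W.K0 / W.kap s)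
    (by positivity) hε] with n g h1 i hi j hj
  refine le_trans ?_ h1
  have h2 := h.near0 g hi hj s
  unfold Wnd.crd
  have hd : 0 < W.B.d n ^ W.X n s := Real.rpow_pos_of_pos (W.B.pos n) _
  rw [abs_div, abs_of_pos (mul_pos hk hd), div_le_div_iff₀ (mul_pos hk hd) hk]
  simp only [Pi.zero_apply, Real.rpow_zero, mul_one] at h2
  nlinarith

open Classical in
/-- **lines of a slice in a curved strip**, models over the rich pairs -/
theorem strip_linesC (h : W.Ok) {E' : ∀ n, Finset (ι n)} {g : ℕ → ℝ} {ex : ℕ → ∀ n, ι n → ℕ}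
    (hP : Wnd.Pruned W (rich W) E' g ex)
    (hdens : W.lam W.top ≤ W.lam (cut W.S W.top 0) + W.lam (cut W.S 0 W.top))
    {cA cB : Fin m} (hcA : cA ∉ W.S) (hcB : cB ∉ W.S) {q R0 R1 : ℝ} (hq : 0 ≤ q) (hR : R0 ≤ R1)
    {C : ℝ} (hC : 0 ≤ C)
    (hns : ∀ t : ℝ, 0 < t → t ≤ R0 → ∀ ε : ℝ, 0 < ε → ∀ᶠ n in (U : Filter ℕ),
      ∀ i ∈ W.Cl n, ∀ (b : Fin 2 → ℝ) (g : ℝ), b 0 ^ 2 + b 1 ^ 2 = 1 → |g| ≤ W.B'.d n ^ (-ε) →
      (((W.Cl n).filter fun j =>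
        |b 0 * W.crd n i j cA + b 1 * (W.crd n i j cB + g * W.crd n i j cA ^ 2)| ≤
          W.B'.d n ^ t).card : ℝ) ≤ W.B'.d n ^ (q * t - C * ε) * (W.Cl n).card)
    (hA : LineC W cA R1) (hB : LineC W cB R1)
    {t : ℝ} (ht : 0 < t) (htR : t ≤ R0) {ε : ℝ} (hε : 0 < ε) :
    ∀ᶠ n in (U : Filter ℕ), ∀ i k, (i, k) ∈ (W.cfg E' n).I → ∀ (b : Fin 2 → ℝ) (g : ℝ),
      b 0 ^ 2 + b 1 ^ 2 = 1 → |g| ≤ W.B'.d n ^ (-ε) →
      ((((W.cfg E' n).slice k).filter fun l => |b 0 * (W.cfg E' n).rel k i l cA +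
        b 1 * ((W.cfg E' n).rel k i l cB + g * (W.cfg E' n).rel k i l cA ^ 2)| ≤
          W.B'.d n ^ (t - ε)).card : ℝ) ≤
        W.B'.d n ^ (-(W.nu 0) + q * t - (4 * q + C + 3) * ε) := by
  -- points of the class in a strip
  have hstr : ∀ᶠ n in (U : Filter ℕ), ∀ i ∈ W.Cl n, ∀ (b : Fin 2 → ℝ) (g : ℝ),
      b 0 ^ 2 + b 1 ^ 2 = 1 → |g| ≤ W.B'.d n ^ (-ε) →
      (((W.Cl n).filter fun j =>
        |b 0 * W.crd n i j cA + b 1 * (W.crd n i j cB + g * W.crd n i j cA ^ 2)| ≤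
          W.B'.d n ^ (t - 4 * ε)).card : ℝ) ≤
        W.B'.d n ^ (q * t - 4 * q * ε - C * ε) * (W.Cl n).card := by
    rcases lt_or_ge 0 (t - 4 * ε) with h0 | h0
    · filter_upwards [hns (t - 4 * ε) h0 (by linarith) ε hε] with n hn i hi b g hb hg
      refine (hn i hi b g hb hg).trans (le_of_eq ?_)
      congr 2; ring
    · filter_upwards [] with n i hi b g hb hg
      have h1 : (1 : ℝ) ≤ W.B'.d n ^ (q * t - 4 * q * ε - C * ε) :=
        Real.one_le_rpow_of_pos_of_le_one_of_nonpos (W.B'.pos n) (W.B'.lt n).le (by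
          have : 0 ≤ C * ε := by positivity
          nlinarith)
      have h2 : (((W.Cl n).filter fun j =>
          |b 0 * W.crd n i j cA + b 1 * (W.crd n i j cB + g * W.crd n i j cA ^ 2)| ≤
            W.B'.d n ^ (t - 4 * ε)).card : ℝ) ≤ (W.Cl n).card := by
        exact_mod_cast card_filter_le _ _
      have h3 : (0 : ℝ) ≤ (W.Cl n).card := Nat.cast_nonneg _
      nlinarith
  filter_upwards [Wnd.ev_cfg h (eok_rich h) hP, Wnd.ev_hts h (eok_rich h) hP hdens hε, hstr,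
    hA (ε) hε, hB ε hε, card_pairs_le h (ε := ε) hε, crd_bdd h cA hε,
    Crest.Agent.R136.Qg926.ev_const_le W.B' (c := 5) (by norm_num) hε] with
    n ⟨hg, hsub, hne, heq⟩ hhts hstr hA hB hpairs hbdd hthree
  rw [heq]
  intro i k hik b g hb hgg
  have hpos : ∀ t : ℝ, 0 < W.B'.d n ^ t := fun t => Real.rpow_pos_of_pos (W.B'.pos n) t
  have anti : ∀ {s t : ℝ}, s ≤ t → W.B'.d n ^ t ≤ W.B'.d n ^ s := fun hst =>
    Real.rpow_le_rpow_of_exponent_ge (W.B'.pos n) (W.B'.lt n).le hst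
  have hE'Cl : E' n ⊆ W.Cl n := (hP.sub n).trans hsub
  obtain ⟨r1, r2, r3⟩ := Wnd.rep_of_mem hE'Cl hik
  set x := W.rep n i k with hx
  set A := ((W.cfg0 n (E' n)).slice k).filter fun l => |b 0 * (W.cfg0 n (E' n)).rel k i l cA +
    b 1 * ((W.cfg0 n (E' n)).rel k i l cB + g * (W.cfg0 n (E' n)).rel k i l cA ^ 2)| ≤
      W.B'.d n ^ (t - ε) with hAdef
  set Str := (W.Cl n).filter fun j =>
    |b 0 * W.crd n x j cA + b 1 * (W.crd n x j cB + g * W.crd n x j cA ^ 2)| ≤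
      W.B'.d n ^ (t - 4 * ε) with hStr
  have hS := hstr x r1 b g hb hgg
  set P : ℝ := (((W.Cl n).image (W.pc n)).card : ℝ) with hPdef
  set c : ℝ := ((W.Cl n).card : ℝ) with hc
  have hc0 : 0 < c := Nat.cast_pos.2 (card_pos.2 ⟨_, hg.s0⟩)
  have hP0 : 0 < P := Nat.cast_pos.2 (card_pos.2 (Finset.Nonempty.image ⟨_, hg.s0⟩ _))
  set H : ℝ := W.B'.d n ^ (W.lam (cut W.S 0 W.top) + ε) with hH
  have hb0 : |b 0| ≤ 1 := abs_le_one_of_sq hb
  have hb1 : |b 1| ≤ 1 := abs_le_one_of_sq (by linarith : b 1 ^ 2 + b 0 ^ 2 = 1)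
  have hM1 : 1 ≤ W.B'.d n ^ (-ε) :=
    Real.one_le_rpow_of_pos_of_le_one_of_nonpos (W.B'.pos n) (W.B'.lt n).le (by linarith)
  -- the pairs
  set T : Finset (Σ _ : ℕ, ℕ) := A.sigma fun l => (W.cfg0 n (E' n)).hts l with hT
  have hTcard : (A.card : ℝ) * H ≤ (T.card : ℝ) := by
    rw [hT, card_sigma]
    push_cast
    calc (A.card : ℝ) * H = ∑ l ∈ A, H := by rw [sum_const, nsmul_eq_mul]
      _ ≤ _ := by
        refine sum_le_sum fun l hl => hhts l ?_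
        have h1 := (mem_filter.1 hl).1
        obtain ⟨w, hw, hw1, -⟩ := Wnd.cfg0_slice.1 h1
        exact mem_image.2 ⟨w, hw, hw1⟩
  -- every pair of `T` has large multiplicity, all inside the strip
  have hfib : ∀ p ∈ T, c / (2 * P) ≤ ((Str.filter fun z => W.pc n z = (p.1, p.2)).card : ℝ) := by
    intro p hp
    obtain ⟨hp1, hp2⟩ := mem_sigma.1 hp
    obtain ⟨hl1, hl2⟩ := mem_filter.1 hp1
    obtain ⟨w, hw, hw1, hw2⟩ := Wnd.cfg0_hts.1 hp2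
    obtain ⟨v, hv, hv1, hv2⟩ := Wnd.cfg0_slice.1 hl1
    have hrich := (mem_rich.1 (hP.sub n hw)).2
    have epc : W.pc n w = (p.1, p.2) := by unfold Wnd.pc; rw [hw1, hw2]
    have e1 : (Str.filter fun z => W.pc n z = (p.1, p.2)) = cls (W.Cl n) (W.pc n) w := by
      ext z
      rw [mem_cls, mem_filter, epc, hStr, mem_filter]
      constructor
      · exact fun hz => ⟨hz.1.1, hz.2⟩
      · rintro ⟨hz1, hz2⟩
        refine ⟨⟨hz1, ?_⟩, hz2⟩
        have hlz : W.lc n z = p.1 := congrArg Prod.fst hz2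
        have hvC := hE'Cl hv
        obtain ⟨y1, y2, y3⟩ := W.rep_spec hvC
        rw [hv1, hv2] at y1 y2 y3
        have a1 := hA x r1 _ y1 z hz1 (y2.trans hlz.symm)
        have a2 := hB x r1 _ y1 z hz1 (y2.trans hlz.symm)
        have a3 : |b 0 * W.crd n x (W.rep n p.1 k) cA + b 1 * (W.crd n x (W.rep n p.1 k) cB +
            g * W.crd n x (W.rep n p.1 k) cA ^ 2)| ≤ W.B'.d n ^ (t - ε) := by
          have e2 : (W.cfg0 n (E' n)).rel k i p.1 cA = W.crd n x (W.rep n p.1 k) cA := by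
            show (if cA ∈ W.S then (0 : ℝ) else W.crd n _ _ cA) = _
            rw [if_neg hcA]
          have e3 : (W.cfg0 n (E' n)).rel k i p.1 cB = W.crd n x (W.rep n p.1 k) cB := by
            show (if cB ∈ W.S then (0 : ℝ) else W.crd n _ _ cB) = _
            rw [if_neg hcB]
          rw [e2, e3] at hl2
          exact hl2
        have a4 : W.B'.d n ^ (R1 - ε) ≤ W.B'.d n ^ (t - ε) := anti (by linarith)
        have a5 := curv_errW (b0 := b 0) (b1 := b 1) (g := g) hb0 hb1 hM1 hgg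
          (hbdd x r1 _ y1) (hbdd x r1 z hz1) (a1.trans a4) (a2.trans a4)
        have a6 : W.B'.d n ^ (t - ε) ≤ (W.B'.d n ^ (-ε)) ^ 2 * W.B'.d n ^ (t - ε) :=
          le_mul_of_one_le_left (hpos _).le (one_le_pow₀ hM1)
        have a7 : |b 0 * W.crd n x z cA + b 1 * (W.crd n x z cB + g * W.crd n x z cA ^ 2)| ≤
            5 * ((W.B'.d n ^ (-ε)) ^ 2 * W.B'.d n ^ (t - ε)) := by
          have := abs_add_le ((b 0 * W.crd n x z cA + b 1 * (W.crd n x z cB +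
            g * W.crd n x z cA ^ 2)) - (b 0 * W.crd n x (W.rep n p.1 k) cA +
            b 1 * (W.crd n x (W.rep n p.1 k) cB + g * W.crd n x (W.rep n p.1 k) cA ^ 2)))
            (b 0 * W.crd n x (W.rep n p.1 k) cA +
            b 1 * (W.crd n x (W.rep n p.1 k) cB + g * W.crd n x (W.rep n p.1 k) cA ^ 2))
          rw [sub_add_cancel] at this
          linarith
        calc _ ≤ 5 * ((W.B'.d n ^ (-ε)) ^ 2 * W.B'.d n ^ (t - ε)) := a7
          _ ≤ W.B'.d n ^ (-ε) * ((W.B'.d n ^ (-ε)) ^ 2 * W.B'.d n ^ (t - ε)) :=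
              mul_le_mul_of_nonneg_right hthree (by have := hpos (t - ε); positivity)
          _ = W.B'.d n ^ (t - 4 * ε) := by
              rw [← Real.rpow_natCast, ← Real.rpow_mul (W.B'.pos n).le,
                ← Real.rpow_add (W.B'.pos n), ← Real.rpow_add (W.B'.pos n)]
              congr 1; push_cast; ring
    rw [e1, div_le_iff₀ (by positivity)]
    linarith
  have hTS : (T.card : ℝ) * (c / (2 * P)) ≤ (Str.card : ℝ) := by
    have h1 : ∑ p ∈ T, (Str.filter fun z => W.pc n z = (p.1, p.2)).card ≤ Str.card := by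
      rw [← card_biUnion]
      · refine card_le_card fun z hz => ?_
        obtain ⟨p, -, hp⟩ := mem_biUnion.1 hz
        exact (mem_filter.1 hp).1
      · intro p hp p' hp' hne'
        rw [Function.onFun, Finset.disjoint_left]
        intro z hz hz'
        have e1 := (mem_filter.1 hz).2.symm.trans (mem_filter.1 hz').2
        refine hne' ?_
        obtain ⟨p1, p2⟩ := p
        obtain ⟨p1', p2'⟩ := p'
        simp only [Prod.mk.injEq] at e1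
        obtain ⟨rfl, rfl⟩ := e1
        rfl
    calc (T.card : ℝ) * (c / (2 * P)) = ∑ p ∈ T, c / (2 * P) := by rw [sum_const, nsmul_eq_mul]
      _ ≤ ∑ p ∈ T, ((Str.filter fun z => W.pc n z = (p.1, p.2)).card : ℝ) := sum_le_sum hfib
      _ ≤ Str.card := by exact_mod_cast h1
  -- conclusion
  have h1 : (A.card : ℝ) * H * (c / (2 * P)) ≤ W.B'.d n ^ (q * t - 4 * q * ε - C * ε) * c :=
    (mul_le_mul_of_nonneg_right hTcard (by positivity)).trans (hTS.trans hS)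
  have h2 : (A.card : ℝ) * H ≤ W.B'.d n ^ (q * t - 4 * q * ε - C * ε) * (2 * P) := by
    have h3 : (A.card : ℝ) * H * (c / (2 * P)) = ((A.card : ℝ) * H) / (2 * P) * c := by
      field_simp
    rw [h3] at h1
    have h4 := le_of_mul_le_mul_right h1 hc0
    rwa [div_le_iff₀ (by positivity)] at h4
  have h3 : 2 * P ≤ W.B'.d n ^ (W.lam W.top - 2 * ε) := by
    have e1 : W.B'.d n ^ (W.lam W.top - 2 * ε) =
        W.B'.d n ^ (-ε) * W.B'.d n ^ (W.lam W.top - ε) := by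
      rw [← Real.rpow_add (W.B'.pos n)]; congr 1; ring
    rw [e1]
    exact mul_le_mul (by linarith) hpairs hP0.le (hpos _).le
  have h4 : (A.card : ℝ) * H ≤
      W.B'.d n ^ (q * t - 4 * q * ε - C * ε + (W.lam W.top - 2 * ε)) := by
    rw [Real.rpow_add (W.B'.pos n)]
    exact h2.trans (mul_le_mul_of_nonneg_left h3 (hpos _).le)
  have h5 : W.B'.d n ^ (q * t - 4 * q * ε - C * ε + (W.lam W.top - 2 * ε)) =
      W.B'.d n ^ (-(W.nu 0) + q * t - (4 * q + C + 3) * ε) * H := by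
    rw [hH, ← Real.rpow_add (W.B'.pos n)]
    congr 1
    unfold Wnd.nu
    ring
  rw [h5] at h4
  exact le_of_mul_le_mul_right h4 (hpos _)

/-- **no heavy curved strips in the model**, class box `p0` with zero loss -/
theorem noStrC_win (h : W.Ok) {E' : ∀ n, Finset (ι n)} {g : ℕ → ℝ} {ex : ℕ → ∀ n, ι n → ℕ}
    (hP : Wnd.Pruned W (rich W) E' g ex)
    (hdens : W.lam W.top ≤ W.lam (cut W.S W.top 0) + W.lam (cut W.S 0 W.top))
    {cA cB : Fin m} (hcA : cA ∉ W.S) (hcB : cB ∉ W.S) {q R0 R1 : ℝ} (hq : 0 ≤ q) (hR : R0 ≤ R1)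
    (hns : NsWc W cA cB q R0) (hA : LineC W cA R1) (hB : LineC W cB R1)
    {p0 : Fin m → ℝ} (hp0 : W.nu 0 ≤ W.nu p0) :
    NoStrC W.B' (W.cfg E') p0 cA cB W.nu q R0 := by
  classical
  obtain ⟨C, hC, hns⟩ := hns
  refine ⟨4 * q + C + 3, by positivity, fun t ht htR ε hε => ?_⟩
  filter_upwards [strip_linesC h hP hdens hcA hcB hq hR hC hns hA hB ht htR hε] with
    n hn i k hik b g hb hg
  refine le_trans ?_ ((hn i k hik b g hb hg).trans ?_)
  · refine Nat.cast_le.2 (card_le_card ?_)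
    exact filter_subset_filter _ RCfg.box_subset_slice
  · exact Real.rpow_le_rpow_of_exponent_ge (W.B'.pos n) (W.B'.lt n).le (by linarith)

end Crest.Agent.R116.Sc708
end

-- ▼ part R116/Nar9_192

/-!
# R116 (S0155), K side, [NARROW] (helper192), part 9: literal forms

* `StgM.of_rec` : stages over the record box `rL .. v`.
* **`CtxT.nsG_rec`** : `CtxT.nsG` for `rc l = rL .. (v l)`.
* **`CtxT.nsT`** : 863's `NsT` (slots `sC`, `10`).
* **`NsTc`**, **`CtxT.nsTc`** : 708's `NsWc` in the windows `WinG`.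
-/

set_option autoImplicit false
set_option linter.unusedVariables false
set_option linter.unusedSectionVars false

open Finset Filter Topology

namespace Crest.Agent.R116.Nar192

open Crest.Agent.R138.Defs (E2)
open Crest.Agent.R138.Ex926 (Base U)
open Crest.Agent.R136.MkA627
open Crest.Agent.R136.Net191
open Crest.Agent.R136.Lq196
open Crest.Agent.R136.Qg926
open Crest.Agent.R136.NSt107 (NsW)
open Crest.Agent.R116.LZg725
open Crest.Agent.R116.ChL222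
open Crest.Agent.R116.PL504 (βL eL rL oL Shift nb DN wtL rL_nb)
open Crest.Agent.R116.Gd222
open Crest.Agent.R116.KI439
open Crest.Agent.R116.Tw468
open Crest.Agent.R116.CtxB468
open Crest.Agent.R116.EvL504
open Crest.Agent.R116.WinU954
open Crest.Agent.R116.WinG954

/-- **stages over the record box** `rL .. v` -/
theorem StgM.of_rec {θa θb w0 sa sb δ R Rg t0 : ℝ} (sh : Shift θa θb w0 sa sb δ R)
    (ht0 : 0 < t0) (h0 : t0 ≤ δ) (hRa : θa + t0 ≤ Rg) (hRb : |θb| + t0 ≤ Rg) (hθ : 0 ≤ θa)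
    {v : ℝ} (hv0 : 0 ≤ v) (hv1 : v ≤ 1) (ht : t0 ≤ θa * (1 - v)) {p : Fin 12 → ℝ}
    (hp : p ∈ Leg monL R) {sC : Fin 12} (hsC : sC = 3 ∨ sC = 4)
    (pC : p sC = sa + θa * (1 - v)) (pP : p 10 = sb + θb * (1 - v))
    (p0 : w0 ≤ p 0) (p3 : sa < p 3) (p4 : sa < p 4) (p5 : w0 + sa < p 5) (p6 : w0 + sa < p 6)
    (p9 : w0 + 2 * sa < p 9)
    (f1 : sb + θb * (1 - v) - 2 * (sa + θa * (1 - v)) - (w0 + v) ≤ p 1)
    (f2 : sb + θb * (1 - v) - 2 * (sa + θa * (1 - v)) ≤ p 2)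
    (f7 : sb + θb * (1 - v) - (sa + θa * (1 - v)) ≤ p 7)
    (f8 : sb + θb * (1 - v) - (sa + θa * (1 - v)) ≤ p 8) :
    StgM w0 sa sb R Rg t0 sC p (rL θa θb w0 sa sb v) v (θa * (1 - v)) (θb * (1 - v)) := by
  have hrc := sh.rL_leg hv0 hv1
  have hnat : RecS w0 sa sb v (θa * (1 - v)) (θb * (1 - v)) sC (rL θa θb w0 sa sb v) := by
    rw [rL_nb]
    exact recS_nb hsC
  have hv' : 0 ≤ 1 - v := by linarith
  have a1 : θa * (1 - v) ≤ θa := by nlinarith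
  have a2 : |θb * (1 - v)| ≤ |θb| := by
    rw [abs_mul, abs_of_nonneg hv']
    nlinarith [abs_nonneg θb]
  -- slot 10 of the record is at most `R - w0 - v`
  have b10 : w0 + v + (sb + θb * (1 - v)) ≤ R := by
    have h1 := sh.R0
    have h2 := sh.R1
    nlinarith [mul_nonneg (sub_nonneg.2 h1) hv', mul_nonneg (sub_nonneg.2 h2) hv0]
  have b3 : 2 * (sa + θa * (1 - v)) + (w0 + v) + δ ≤ sb + θb * (1 - v) := by
    have h1 := sh.D0
    have h2 := sh.D1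
    nlinarith [mul_nonneg (sub_nonneg.2 h1) hv', mul_nonneg (sub_nonneg.2 h2) hv0]
  have hz := sh.z
  have hd0 := sh.d0
  have hc1 := sh.c1
  have hpos : 0 ≤ sa + θa * (1 - v) := by
    have : 0 ≤ θa * (1 - v) := mul_nonneg hθ hv'
    linarith
  exact
  { v0 := hv0
    v1 := hv1
    tt := ht
    tR := by linarith
    yR := by linarith
    p_leg := hp
    rc_leg := hrc
    nat := hnat
    cls := ⟨vis_of (by linarith) p3 p4 (by linarith) (by linarith) (by linarith), f1, f2, f7, f8⟩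
    eC := by rw [pC, hnat.cC]
    eP := by rw [pP, hnat.c10]
    rC := by rw [pC]; linarith
    rP := by rw [pP]; linarith }

/-- **no heavy curved strips in the windows along a tangent** -/
def NsTc (B : Base) (I J : ℕ → Finset (ℕ × ℝ)) (co : ∀ n : ℕ, ℕ × ℝ → ℕ × ℝ → Fin 12 → ℝ) (C : ℝ)
    (ν : (Fin 12 → ℝ) → ℝ) (X : ℕ → Fin 12 → ℝ) (h : ℕ → ℝ) (cA cB : Fin 12) (q R0 : ℝ) : Prop :=
  ∃ k : ℕ → ℕ, Tendsto k U atTop ∧ ∀ k' : ℕ → ℕ, Tendsto k' U atTop →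
    (∀ᶠ n in (U : Filter ℕ), k' n ≤ k n) →
    ∀ (W : Wnd 12 (fun _ => ℕ × ℝ)) (D : Set (Fin 12 → ℝ)) (lam : (Fin 12 → ℝ) → ℝ) (tw : ℝ)
      (Mw : Mons 12) (top : Fin 12 → ℝ), WinG W B I J co C D ν lam X h k' tw Mw top →
      Sc708.NsWc W cA cB q R0 ∧ NsW W cA cB q R0

section forms

variable {m : ℕ} {ι : ℕ → Type*} [∀ n, DecidableEq (ι n)] {W : Wnd m ι} {cA cB : Fin m}
  {q C0 R0 Gm : ℝ}

/-- 708's form -/
theorem NsG.toSc (h : NsG W cA cB Phi3 (Ok3 1) q C0 R0) (hC0 : 0 ≤ C0) :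
    Sc708.NsWc W cA cB q R0 := by
  classical
  refine ⟨C0, hC0, fun t ht htR ε hε => ?_⟩
  filter_upwards [h t ht htR ε hε] with n hn i hi b g hb hg
  have h1 := hn i hi (b 0, b 1, g) ⟨hb, by
    show |g| ≤ _
    rw [one_mul]; exact hg⟩ 0
  refine le_trans (le_of_eq ?_) h1
  congr 2
  ext j
  simp only [mem_filter]
  have e2 : Phi3 (b 0, b 1, g) (W.crd n i j cA) (W.crd n i j cB) - 0 =
      b 0 * W.crd n i j cA + b 1 * (W.crd n i j cB + g * W.crd n i j cA ^ 2) := by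
    unfold Phi3; simp only; ring
  rw [e2]

end forms

section ctx

variable {G : Geo TSet (Fin 2)} {L : ℕ → ℕ → LRay} {r : ℕ → ℝ} {g s : ℝ} {θ q : Fin 2 → ℝ}
    {Rg : ℝ} {a : Fin 2} {B : Base}
    {I : ℕ → Finset (ℕ × ℝ)} {lev : ℕ → ℚ → ℕ} {A : ℕ → ℝ}
    {f : ℕ → ℚ → ℕ → ℤ → ℕ} {b : ℕ → ℚ → ℕ → TSet} {vm : ℕ → ℚ → ℝ} {w : Fin 2 → ℕ → ℚ → ℝ}
    {fr : ℕ → ℚ → ℕ × ℝ → LInc} {fl : ℕ → ℕ × ℝ → LInc} {sc : Fin 12 → ℕ → ℝ}
    {w0 sa sb δ R : ℝ} {I0 I' : ℕ → Finset (ℕ × ℝ)} {ν own : (Fin 12 → ℝ) → ℝ} {c₀ : ℝ}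

/-- **curved strips in the windows, thin case** -/
theorem _root_.Crest.Agent.R116.CtxB468.CtxT.nsTc
    (h : CtxT G L r g s θ q Rg B I lev A f b vm w fr fl sc w0 sa sb δ R I0 I' ν own c₀)
    (hq0 : 0 < q 0) (hq1 : 0 < q 1) {sC : Fin 12} (hsC : sC = 3 ∨ sC = 4)
    (hax : ∀ᶠ n in (U : Filter ℕ), ∀ x ∈ I n,
      ‖vb (fl n x)‖ ≤ 16 * |(fl n x).b1 * (tC sC).2 - (fl n x).b2 * (tC sC).1|)
    {X rc : ℕ → Fin 12 → ℝ} {hh : ℕ → ℝ} (hpos : ∀ l, 0 < hh l)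
    (hh0 : Tendsto hh atTop (𝓝 0)) {t0 : ℝ} (ht0 : 0 < t0)
    (hst : ∀ᶠ l in (atTop : Filter ℕ), ∃ v t yy : ℝ,
      StgM w0 sa sb R Rg t0 sC (X l) (rc l) v t yy)
    (hfr : ∀ ε : ℝ, 0 < ε → ∀ᶠ l in (atTop : Filter ℕ),
      c₀ + DT g s q θ w0 sa sb (rc l) - ν (X l ⊔ rc l) ≤ ε * hh l) {R0 : ℝ} (hR0 : 0 < R0) :
    NsTc B I0 I' (PL504.coN B lev w w0 sa sb fl) 2 ν X hh sC 10 (gam q) R0 := by
  obtain ⟨k, hk, hkk⟩ := h.nsG hq0 hq1 hsC hax hpos hh0 ht0 hst hfr hR0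
  have hg : 0 ≤ gam q := (gam_pos hq0 hq1).le
  refine ⟨k, hk, fun k' hk' hle W D lam tw Mw top w => ?_⟩
  have h1 := hkk k' hk' hle W D lam tw Mw top w
  exact ⟨h1.toSc (by linarith), h1.toNsW zero_le_one (by linarith)⟩

/-- the freeze hypothesis over record boxes -/
theorem _root_.Crest.Agent.R116.CtxB468.CtxT.frz_rec
    (h : CtxT G L r g s θ q Rg B I lev A f b vm w fr fl sc w0 sa sb δ R I0 I' ν own c₀)
    {X : ℕ → Fin 12 → ℝ} {hh v : ℕ → ℝ}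
    (hv : ∀ᶠ l in (atTop : Filter ℕ), 0 ≤ v l ∧ v l ≤ 1)
    (hfr : ∀ ε : ℝ, 0 < ε → ∀ᶠ l in (atTop : Filter ℕ),
      ν (rL (θ 0) (θ 1) w0 sa sb (v l)) - ν (X l ⊔ rL (θ 0) (θ 1) w0 sa sb (v l)) ≤ ε * hh l) :
    ∀ ε : ℝ, 0 < ε → ∀ᶠ l in (atTop : Filter ℕ),
      c₀ + DT g s q θ w0 sa sb (rL (θ 0) (θ 1) w0 sa sb (v l)) -
        ν (X l ⊔ rL (θ 0) (θ 1) w0 sa sb (v l)) ≤ ε * hh l := by
  intro ε hε
  filter_upwards [hv, hfr ε hε] with l h1 h2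
  have h3 := h.ext.record (v l) h1.1 h1.2
  have h4 : DT g s q θ w0 sa sb (rL (θ 0) (θ 1) w0 sa sb (v l)) = EL θ g s q (v l) :=
    DT_rL g s q θ w0 sa sb (v l)
  rw [h4]
  linarith


end ctx

end Crest.Agent.R116.Nar192
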