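import Crest.Agent.R116.RowI1_387_Mg
import Crest.Agent.R116.FlK3_79_Mg
import Crest.Agent.R116.FlK2_30
import Crest.Agent.R116.Th5k_363
import Crest.Agent.R116.Fd2_348
import Crest.Agent.R116.FlH_850
import Crest.Agent.R116.Th2c_899
import Crest.Agent.R116.K3u_337_Mg
import Crest.Agent.R116.FlD2_460_Mg
import Crest.Agent.R116.TwF6_369
import Crest.Agent.R116.Pe3_794
import Crest.Agent.R116.PosA_348
import Crest.Agent.R116.NZ11_90_Mg
import Crest.Agent.R116.Tq4_126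
import Crest.Agent.R116.Tm3_741
import Crest.Agent.R116.IIr4_460
import Crest.Agent.R116.D0E_188
import Crest.Agent.R116.Fk1_647
import Crest.Agent.R116.Kt2_387
import Crest.Agent.R116.Hm1_621
import Crest.Agent.R116.FlK1_363
import Crest.Agent.R116.Tp7_139
import Crest.Agent.R116.D0p_878
import Crest.Agent.R116.D0y5_219
import Crest.Agent.R116.D0z2_899
import Crest.Agent.R116.K3e5_160
import Crest.Agent.R116.K3e7_160
import Crest.Agent.R116.Kt2_710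
import Crest.Agent.R116.Hm2_621
import Mathlib
import Crest.Agent.R116.D0n3_878
import Crest.Agent.R116.SgO3_219
import Crest.Agent.R116.Tq2_126
import Crest.Agent.R116.Tq3_794
import Crest.Agent.R116.D0y1_219
import Crest.Agent.R116.Tq5_794
import Crest.Agent.R116.Pd1_363

-- ▼ part R116/SgI8_337
section

/-!
# R116, K-TEXT II-c, the ISOTROPIC record (helper337), part 8: the round row

* **`isoB`**  : the context is impossible
* **`rowI`**  : the round row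
-/

set_option autoImplicit false
set_option linter.unusedVariables false

open Set Filter Topology MeasureTheory

namespace Crest.Agent.R116.SgI337

open Crest.Agent.R116.KTop387 (NumL RowI)

/-- **the context of the round row is impossible** -/
theorem isoB (η : ℝ) : RowI387.IsoB η := by
  intro G L r g s θ q Rg a B I lev A f b vm w w0 sa sb δ R I0 I' ν own c₀ h hN hs2 hθ hR1 hR2 hR
    hRg
  have hθ0 := hN.θa
  have habs := abs_nonneg (θ 1)
  have hg := hN.gpos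
  obtain ⟨l, z, u, k, lam, A', φ, rr, H⟩ := exists_sigI h hθ hθ0 (by linarith)
    (hR (1 / 2) (by norm_num) (by norm_num)) (δ' := g / 2) (by linarith)
  have hA := a1_I h hθ hθ0 (by linarith) hN.qb hN.s0 hN.s1.le H
  exact sigI_false h hθ hθ0 hN.qa.le hN.qb.le (by linarith) (by linarith) H hA

/-- **the round row** -/
theorem rowI (η : ℝ) : RowI η := RowI387.rowI_of (isoB η)

/-- the form of the final assembly -/
theorem rowI_ex : ∃ η : ℝ, 0 < η ∧ RowI η := ⟨1, one_pos, rowI 1⟩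

end Crest.Agent.R116.SgI337
end

-- ▼ part R116/FlK10_363
section

/-!
# R116, **`κ`-tie** : `FalseK η` for every `η < 1`, no binder (helper363)

Cells: `k' > 1` 79, `k' = 1` 30, `k' < 1`, `s < 1/2` 363, `1/2 ≤ s` 954, 538, 658 / 363.
-/

set_option autoImplicit false

namespace Crest.Agent.R116.FlK363

open Crest.Agent.R116.KTie794

/-- **the `κ`-tie is impossible** -/
theorem falseK {η : ℝ} (hη : η < 1) : FalseK η :=
  falseK_of3 hη (FlK79.fillK1 hη) (K1d30.fillK2 hη) (Th5k363.fillH5_k hη)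

end Crest.Agent.R116.FlK363
end

-- ▼ part R116/Fd9_348
section

/-!
# R116 (K side, TIES), DOUBLE TIE: assembly of the table (helper348)

* `tabD_of`   : 460's data for `s < 1/2` or `1 ≤ k'`, from the cells `k' = 1`, `1 < k'`
* `falseD_of4` : `FalseD` from the four open cells
-/

set_option autoImplicit false

namespace Crest.Agent.R116.Fd348

open Crest.Agent.R116.KTop387
open Crest.Agent.R116.KTie794
open Crest.Agent.R116.Tie460

/-- **the table of the double tie** -/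
theorem tabD_of {η : ℝ} (hη : η < 1)
    (h2 : Fill η FlH850.VD fun g s θ q => 2 * θ 0 - θ 1 = 1 →
      DTie' (θ 0 - θ 1) (2 * θ 0 - θ 1) (θ 0) s (g + 2 * s) (q 0) (q 1))
    (h3 : Fill η FlH850.VD fun g s θ q => 1 < 2 * θ 0 - θ 1 →
      DTie' (θ 0 - θ 1) (2 * θ 0 - θ 1) (θ 0) s (g + 2 * s) (q 0) (q 1)) :
    Fill η FlH850.VD fun g s θ q => (s < 1 / 2 ∨ 1 ≤ 2 * θ 0 - θ 1) →
      DTie' (θ 0 - θ 1) (2 * θ 0 - θ 1) (θ 0) s (g + 2 * s) (q 0) (q 1) := by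
  refine (((fillD1s hη).and h2).and h3).mono fun g s θ q _ h hc => ?_
  rcases lt_trichotomy (2 * θ 0 - θ 1) 1 with h1 | h1 | h1
  · rcases hc with hs | hs
    · exact h.1.1 hs h1
    · exact absurd hs (by linarith)
  · exact h.1.2 h1
  · exact h.2 h1

/-- **`FalseD`** from the open cells -/
theorem falseD_of4 {η : ℝ} (hη : η < 1)
    (h2 : Fill η FlH850.VD fun g s θ q => 2 * θ 0 - θ 1 = 1 →
      DTie' (θ 0 - θ 1) (2 * θ 0 - θ 1) (θ 0) s (g + 2 * s) (q 0) (q 1))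
    (h3 : Fill η FlH850.VD fun g s θ q => 1 < 2 * θ 0 - θ 1 →
      DTie' (θ 0 - θ 1) (2 * θ 0 - θ 1) (θ 0) s (g + 2 * s) (q 0) (q 1))
    (hP : Fill η FlH850.VD fun _ s θ _ => 1 / 2 ≤ s → 2 * θ 0 - θ 1 < 1 →
      2 * θ 0 ≤ 1 + (θ 0 - θ 1) → False)
    (hM : Fill η FlH850.VD fun _ s θ _ => 1 / 2 ≤ s → 1 / 2 < 2 * θ 0 - θ 1 →
      2 * θ 0 - θ 1 < 1 → 1 + (2 * θ 0 - θ 1) ≤ 3 * θ 0 → False) : FalseD η :=
  FlH850.falseD_cells hη (tabD_of hη h2 h3) hP hM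

end Crest.Agent.R116.Fd348
end

-- ▼ part R116/Fd10_348
section

/-!
# R116 (K side, TIES), DOUBLE TIE: `FalseD` from the cells `k' = 1`, `1 < k'` (helper348)
-/

set_option autoImplicit false

namespace Crest.Agent.R116.Fd348

open Crest.Agent.R116.KTop387
open Crest.Agent.R116.KTie794
open Crest.Agent.R116.Tie460

/-- **`FalseD`** from the two open cells -/
theorem falseD_of2 {η : ℝ} (hη : η < 1)
    (h2 : Fill η FlH850.VD fun g s θ q => 2 * θ 0 - θ 1 = 1 →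
      DTie' (θ 0 - θ 1) (2 * θ 0 - θ 1) (θ 0) s (g + 2 * s) (q 0) (q 1))
    (h3 : Fill η FlH850.VD fun g s θ q => 1 < 2 * θ 0 - θ 1 →
      DTie' (θ 0 - θ 1) (2 * θ 0 - θ 1) (θ 0) s (g + 2 * s) (q 0) (q 1)) : FalseD η :=
  falseD_of4 hη h2 h3 (Th899.fillD_up η) (Th5k363.fillH5_d hη)

end Crest.Agent.R116.Fd348
end

-- ▼ part R116/FlD3_538
section

/-!
# R116, DOUBLE TIE, cell D3 : `k' = 2 θa - θb > 1` (helper538)

* `upD3`       : the side above the record, no binder (337's [K3] at `k = 1`)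
* **`fillD3`** : the cell
-/

set_option autoImplicit false
set_option linter.unusedVariables false

open Set Filter Topology MeasureTheory

namespace Crest.Agent.R116.D3538

open Crest.Agent.R116.KTie794
open Crest.Agent.R116.CtxB468
open Crest.Agent.R116.Tq126
open Crest.Agent.R116.Tie460 (DTie')
open Crest.Agent.R116.FlH850 (VD)

/-- **the side above the record** -/
theorem upD3 {η : ℝ} : UpD3 η := by
  intro G L r g s θ q Rg B I lev A f b vm w fr fl sc w0 sa sb δ R I0 I' ν own c₀ v0 a b' x hh lam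
    cm cp cP ρm ρp ρP C hN hV h1 hk h3 hv0 hv1 O hcm hMm hRm hcp hMp hRp hcP hMP hRP A' hA
  have hvis : ∀ i, VisT B I fl sc i → i = 0 ∨ i = 1 ∨ i = 2 ∨ i = 7 ∨ i = 8 :=
    fun i hi => Fk647.vis_flag C.out i hi
  refine eUp9_of C hN.s0 hN.s1 hN.θa h1 hk hv0 hv1 hV.1 O hcm hMm hRm hcp hMp hRp hcP hMP hRP
    (fun h l α h' X H lam2 ρ2 φ P hcl => ?_) hA
  refine K3u337.k3u9 P C hN.θa (by linarith) h hv0 hv1 hV.1 hvis hvis hcl ?_ ?_ ?_ ?_ <;>
    rw [h, cS9_one] <;> decide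

/-- **cell D3** : double tie, `k' > 1`, every `s` -/
theorem fillD3 {η : ℝ} (hη : η < 1) :
    Fill η VD fun g s θ q => 1 < 2 * θ 0 - θ 1 →
      DTie' (θ 0 - θ 1) (2 * θ 0 - θ 1) (θ 0) s (g + 2 * s) (q 0) (q 1) :=
  fillD3_of hη upD3

end Crest.Agent.R116.D3538
end

-- ▼ part R116/RTy_850
section

/-!
# R116, ROW TIE (helper850): `RowTie` from the two last fills of the `e`-tie

* `falseD` : the double tie (348, 460, 538)
* **`rowTie_of_e`** : 794's cell (`s < 1/2`, `k ≤ 1`) and (H4) ⊢ `RowTie η`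
-/

set_option autoImplicit false

namespace Crest.Agent.R116.FlH850

open Crest.Agent.R116.KTop387
open Crest.Agent.R116.Tie460
open Crest.Agent.R116.KTie794

variable {η : ℝ}

/-- **double tie** -/
theorem falseD (hη : η < 1) : FalseD η :=
  Fd348.falseD_of2 hη (D2460.fillD2 hη) (D3538.fillD3 hη)

/-- **the row of the ties from the two last fills** -/
theorem rowTie_of_e (hη : η < 1)
    (h8 : Fill η VE fun g s θ q => s < 1 / 2 → θ 0 - θ 1 ≤ 1 →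
      ETie' (θ 0 - θ 1) (θ 0) s (g + 2 * s) (q 0) (q 1))
    (h4 : Fill η VE fun g s θ q => 1 / 2 ≤ s → θ 0 - θ 1 = 1 → False) : RowTie η :=
  rowTie_of3 (falseE_of2 hη h8 h4) (FlK363.falseK hη) (falseD hη)

end Crest.Agent.R116.FlH850
end

-- ▼ part R116/TwF7_369
section

/-!
# R116, ties (helper369): (W3), (W2) at an `e`-tie, `G` not natural

* `NBaseG`, `PBaseG` : the walls with `G` are inequalities (surfaces `oS`, `oS9`, `oSe`)
* `u3G`, `u2G`       : (W3), (W2)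
-/

set_option autoImplicit false
set_option linter.unusedVariables false
set_option linter.unusedSectionVars false

open Set Filter Topology

namespace Crest.Agent.R116.Tw369

open Crest.Agent.R138
open Crest.Agent.R138.Ex926 (Base U IsTan)
open Crest.Agent.R136
open Crest.Agent.R136.MkA627
open Crest.Agent.R136.TD627
open Crest.Agent.R136.Net191
open Crest.Agent.R136.Lq196
open Crest.Agent.R136.Qg926 Crest.Agent.R136.Gf356 Crest.Agent.R116.EvL504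
open Crest.Agent.R116.ChL222
open Crest.Agent.R116.PL504 (nb rL DN eL βL oL Shift eL_wall)
open Crest.Agent.R116.Sg337 (bx9)
open Crest.Agent.R116.Gd222 (TSet sN PDL DT)
open Crest.Agent.R116.KI439
open Crest.Agent.R116.KF439 (PL)
open Crest.Agent.R116.CtxB468
open Crest.Agent.R116.Kst593 Crest.Agent.R116.KW420
open Crest.Agent.R116.Rcx363 (fo fo_lip Prf)
open Crest.Agent.R116.RbM219
open Crest.Agent.R116.SgF665 (wl wl_add wl_smul LM0)
open Crest.Agent.R116.WinG954 (LM)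
open Crest.Agent.R116.Tq741 Crest.Agent.R116.Tq794

variable {G : Geo TSet (Fin 2)} {L : ℕ → ℕ → LRay} {r : ℕ → ℝ} {g s : ℝ} {θ q : Fin 2 → ℝ}
    {Rg : ℝ} {B : Base} {I : ℕ → Finset (ℕ × ℝ)} {lev : ℕ → ℚ → ℕ} {A : ℕ → ℝ}
    {f : ℕ → ℚ → ℕ → ℤ → ℕ} {b : ℕ → ℚ → ℕ → TSet} {vm : ℕ → ℚ → ℝ} {wt : Fin 2 → ℕ → ℚ → ℝ}
    {fr : ℕ → ℚ → ℕ × ℝ → LInc} {fl : ℕ → ℕ × ℝ → LInc} {sc : Fin 12 → ℕ → ℝ}
    {w0 sa sb δ R : ℝ} {I0 I' : ℕ → Finset (ℕ × ℝ)} {ν own : (Fin 12 → ℝ) → ℝ} {c₀ : ℝ}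


/-- natural base, `G` finer or natural; `D` raised above every multiple of the unit, or `D` live -/
structure NBaseG (E : V9 → Fin 12 → ℝ) (X : ℕ → Fin 12 → ℝ) (H : ℕ → ℝ) : Prop where
  hx : ∀ l k, ∀ e ∈ monL.mon k, e 1 = 0 → e 2 = 0 → X l k = wl e (X l)
  hG : ∀ l k, ∀ e ∈ monL.mon k, e 1 = 0 → e 2 ≠ 0 → X l k ≤ wl e (X l)
  hD : (∀ k, ∀ e ∈ monL.mon k, e 1 ≠ 0 → ∀ K : ℝ, ∀ᶠ l in atTop, X l k + K * H l ≤ wl e (X l)) ∨
    ((∀ w, E w = E9 w) ∧ ∀ l k, ∀ e ∈ monL.mon k, e 1 ≠ 0 → X l k ≤ wl e (X l))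
  p3 : ∀ l, X l 3 = X l 4
  p5 : ∀ l, X l 5 = X l 6
  p7 : ∀ l, X l 7 = X l 8


section nb

variable {E : V9 → Fin 12 → ℝ} {X : ℕ → Fin 12 → ℝ} {H : ℕ → ℝ}

/-- the walls without `D`; those with `G` are only inequalities -/
theorem NBaseG.walls (nb : NBaseG E X H) : (∀ n, X n 5 = X n 0 + X n 3) ∧
    (∀ n, X n 6 = X n 0 + X n 4) ∧ (∀ n, X n 7 ≤ X n 2 + X n 3) ∧ (∀ n, X n 8 ≤ X n 2 + X n 4) ∧
    (∀ n, X n 11 = X n 0 + X n 10) ∧ (∀ n, X n 11 = X n 5 + X n 7) ∧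
    (∀ n, X n 11 = X n 6 + X n 8) ∧ (∀ n, X n 10 = X n 3 + X n 7) ∧
    (∀ n, X n 10 = X n 4 + X n 8) ∧ (∀ n, X n 11 ≤ X n 2 + X n 9) := by
  have g : ∀ (l : ℕ) (k : Fin 12) (e : Fin 12 → ℕ), e ∈ mfL k → e 1 = 0 → e 2 = 0 →
    X l k = wl e (X l) := nb.hx
  have g2 : ∀ (l : ℕ) (k : Fin 12) (e : Fin 12 → ℕ), e ∈ mfL k → e 1 = 0 → e 2 ≠ 0 →
    X l k ≤ wl e (X l) := nb.hG
  refine ⟨fun n => ?_, fun n => ?_, fun n => ?_, fun n => ?_, fun n => ?_, fun n => ?_,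
    fun n => ?_, fun n => ?_, fun n => ?_, fun n => ?_⟩
  · have := g n 5 ![1, 0, 0, 1, 0, 0, 0, 0, 0, 0, 0, 0] (by decide) rfl rfl
    rw [wl12] at this; simpa using this
  · have := g n 6 ![1, 0, 0, 0, 1, 0, 0, 0, 0, 0, 0, 0] (by decide) rfl rfl
    rw [wl12] at this; simpa using this
  · have := g2 n 7 ![0, 0, 1, 1, 0, 0, 0, 0, 0, 0, 0, 0] (by decide) rfl (by decide)
    rw [wl12] at this; simpa using this
  · have := g2 n 8 ![0, 0, 1, 0, 1, 0, 0, 0, 0, 0, 0, 0] (by decide) rfl (by decide)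
    rw [wl12] at this; simpa using this
  · have := g n 11 ![1, 0, 0, 0, 0, 0, 0, 0, 0, 0, 1, 0] (by decide) rfl rfl
    rw [wl12] at this; simpa using this
  · have := g n 11 ![0, 0, 0, 0, 0, 1, 0, 1, 0, 0, 0, 0] (by decide) rfl rfl
    rw [wl12] at this; simpa using this
  · have := g n 11 ![0, 0, 0, 0, 0, 0, 1, 0, 1, 0, 0, 0] (by decide) rfl rfl
    rw [wl12] at this; simpa using this
  · have := g n 10 ![0, 0, 0, 1, 0, 0, 0, 1, 0, 0, 0, 0] (by decide) rfl rfl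
    rw [wl12] at this; simpa using this
  · have := g n 10 ![0, 0, 0, 0, 1, 0, 0, 0, 1, 0, 0, 0] (by decide) rfl rfl
    rw [wl12] at this; simpa using this
  · have := g2 n 11 ![0, 0, 1, 0, 0, 0, 0, 0, 0, 1, 0, 0] (by decide) rfl (by decide)
    rw [wl12] at this; simpa using this

/-- the walls with `D` -/
theorem NBaseG.slD (nb : NBaseG E X H) {w : V9} :
    (w 6 < w 8 + w 3 → Slw X H (E w) 1 5 7) ∧ (w 6 < w 8 + w 3 → Slw X H (E w) 1 6 8) ∧
      (w 2 < w 8 + w 5 → Slw X H (E w) 1 9 10) ∧ (w 7 < w 0 + w 8 → Slw X H (E w) 0 1 2) := by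
  rcases nb.hD with h | ⟨h0, h⟩
  · have g : ∀ (k : Fin 12) (e : Fin 12 → ℕ), e ∈ mfL k → e 1 ≠ 0 → ∀ K : ℝ,
      ∀ᶠ l in atTop, X l k + K * H l ≤ wl e (X l) := h
    refine ⟨fun _ => Or.inr fun K => ?_, fun _ => Or.inr fun K => ?_, fun _ => Or.inr fun K => ?_,
      fun _ => Or.inr fun K => ?_⟩
    · filter_upwards [g 7 ![0, 1, 0, 0, 0, 1, 0, 0, 0, 0, 0, 0] (by decide) (by decide) K] with l hl
      rw [wl12] at hl; simpa using hl
    · filter_upwards [g 8 ![0, 1, 0, 0, 0, 0, 1, 0, 0, 0, 0, 0] (by decide) (by decide) K] with l hl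
      rw [wl12] at hl; simpa using hl
    · filter_upwards [g 10 ![0, 1, 0, 0, 0, 0, 0, 0, 0, 1, 0, 0] (by decide) (by decide) K] with l hl
      rw [wl12] at hl; simpa using hl
    · filter_upwards [g 2 ![1, 1, 0, 0, 0, 0, 0, 0, 0, 0, 0, 0] (by decide) (by decide) K] with l hl
      rw [wl12] at hl; simpa using hl
  · have g : ∀ (l : ℕ) (k : Fin 12) (e : Fin 12 → ℕ), e ∈ mfL k → e 1 ≠ 0 →
      X l k ≤ wl e (X l) := h
    refine ⟨fun hg => Or.inl ⟨Eventually.of_forall fun l => ?_, ?_⟩,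
      fun hg => Or.inl ⟨Eventually.of_forall fun l => ?_, ?_⟩,
      fun hg => Or.inl ⟨Eventually.of_forall fun l => ?_, ?_⟩,
      fun hg => Or.inl ⟨Eventually.of_forall fun l => ?_, ?_⟩⟩
    · have := g l 7 ![0, 1, 0, 0, 0, 1, 0, 0, 0, 0, 0, 0] (by decide) (by decide)
      rw [wl12] at this; simpa using this
    · rw [h0]; exact hg
    · have := g l 8 ![0, 1, 0, 0, 0, 0, 1, 0, 0, 0, 0, 0] (by decide) (by decide)
      rw [wl12] at this; simpa using this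
    · rw [h0]; exact hg
    · have := g l 10 ![0, 1, 0, 0, 0, 0, 0, 0, 0, 1, 0, 0] (by decide) (by decide)
      rw [wl12] at this; simpa using this
    · rw [h0]; exact hg
    · have := g l 2 ![1, 1, 0, 0, 0, 0, 0, 0, 0, 0, 0, 0] (by decide) (by decide)
      rw [wl12] at this; simpa using this
    · rw [h0]; exact hg

end nb

/-- **plane data at a tie**, `G` not natural -/
structure PBaseG (θ0 θ1 w0 sa sb v0 R : ℝ) (S : Finset (Fin 12)) (E : V9 → Fin 12 → ℝ)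
    (M : Set (Fin 12 → ℝ)) (ν : (Fin 12 → ℝ) → ℝ) (X : ℕ → Fin 12 → ℝ) (H v : ℕ → ℝ)
    (lam2 : (Fin 12 → ℝ) → ℝ) : Prop where
  pos : ∀ l, 0 < H l
  h0 : Tendsto H atTop (𝓝 0)
  tan : IsTan (Leg monL R) M ν X H lam2
  anti : ∀ p ∈ M, ∀ q ∈ M, p ≤ q → lam2 q ≤ lam2 p
  nb : NBaseG E X H
  base : TBase θ0 θ1 w0 sa sb v0 S X v
  lim : ∀ j : Fin 12, 3 ≤ j → Tendsto (fun l => X l j) atTop (𝓝 (rL θ0 θ1 w0 sa sb v0 j))

section etie

variable {E : V9 → Fin 12 → ℝ} {M : Set (Fin 12 → ℝ)} {X : ℕ → Fin 12 → ℝ} {H v : ℕ → ℝ} {v0 : ℝ}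
  {lam2 : (Fin 12 → ℝ) → ℝ} {w Rw : V9}

/-- the window at an `e`-tied linear position, with the direction of the slab -/
theorem winG (ctx : CtxT G L r g s θ q Rg B I lev A f b vm wt fr fl sc w0 sa sb δ R I0 I' ν own c₀)
    (hθ0 : 0 < θ 0) {j : Fin 12} (hj : j = 7 ∨ j = 8) (hB : TieT θ B I lev fl sc j)
    (em : EMd E M) (rz : Rz M {1, 2} (E dE))
    (pb : PBaseG (θ 0) (θ 1) w0 sa sb v0 R {0, 7, 8} E M ν X H v lam2)
    (hvX : ∀ k, k ≠ 0 → VisT B I fl sc k → k = 7 ∨ k = 8 ∨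
      Vw (θ 0) (θ 1) w0 sa sb X H v (E w) (w 0) k)
    (hwl : LegM 0 w) (h6 : w 6 = (θ 0 - θ 1) * w 0)
    (hL : LinS {0, 6, 7, 8} (fun w => lam2 (E w)) w Rw) :
    ∃ (ψ : ℕ → ℕ) (h' : ℕ → ℝ) (Q : (Fin 12 → ℝ) → ℝ) (Φ : V9 → ℝ), StrictMono ψ ∧
      (∀ m, 0 < h' m) ∧ Tendsto h' atTop (𝓝 0) ∧
      (∀ d d' : V9, (∀ u ∈ ({0, 6, 7, 8} : Finset (Fin 9)), d u = d' u) →
        LegM 0 (d + (1:ℝ) • dE) → LegM 0 (d' + (1:ℝ) • dE) → Φ d = Φ d') ∧
      (∀ d, LegM 0 (d + (1:ℝ) • dE) → Q (E d) =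
        -(Φ d + ∑ u ∈ ({0, 6, 7, 8} : Finset (Fin 9))ᶜ, Rw u * d u)) ∧
      ∃ (k : ℕ → ℕ) (W : Wnd 12 (fun _ => ℕ × ℝ)) (N : ℕ → ℝ) (cw : ∀ n : ℕ, ℕ × ℝ → ℤ)
        (E' : ∀ n : ℕ, Finset (ℕ × ℝ)) (g' : ℕ → ℝ),
        TWin B I0 I' (PL504.coN B lev wt w0 sa sb fl) (Xs X H (E w) ((1:ℝ) • E dE) ψ h')
          (fun m => H (ψ m) * h' m) Q {0, 7, 8} {1, 2} {j} (fun _ => {0}) 0 1 k W N cw E' g'
          (fun _ _ _ => 0) ∧
        ∃ u u' : ℕ → ℝ, Dir W.B' (W.cfg E') (ownL W) u u' 1 := by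
  obtain ⟨l0, l2, l3, l4, l5, l6, l7, l8, l9, l10, l11⟩ := em.lt w
  have hjS : ({j} : Finset (Fin 12)) ⊆ {0, 7, 8} := by
    rcases hj with rfl | rfl <;> decide
  have hk : 0 < θ 0 - θ 1 := by
    have h1 := hB.2.1
    rcases hj with rfl | rfl
    · rwa [βL7] at h1
    · rwa [βL8] at h1
  have eq1 : cT {0, 7, 8} {1, 2} 1 (fun _ => 1) = E ![1, 1, 1, 1, 1, 1, 1, 0, 0] := by
    rw [em.eq9 rfl]
    funext k
    fin_cases k <;> simp [cT, E9, bx9]
  have eq2 : cL {0, 7, 8} {1, 2} (fun _ => 1) = E ![0, 1, 1, 1, 1, 1, 0, 0, 0] := by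
    rw [em.eq9 rfl]
    funext k
    fin_cases k <;> simp [cL, E9, bx9]
  have eq3 : cT {0, 7, 8} {1, 2} 1 0 = E ![1, 0, 0, 0, 0, 0, 1, 0, 0] := by
    rw [em.eq9 rfl]
    funext k
    fin_cases k <;> simp [cT, E9, bx9]
  obtain ⟨ψ, h', Q, Φ, hψ, hp', h0', hΦ, hQ, hbase, k, W, N, cw, E', g', T⟩ :=
    core ctx em wsd_e rz leg_dE
      (fun k hk => by
        refine E_dE_off em ?_ ?_
        · rintro rfl; revert hk; decide
        · rintro rfl; revert hk; decide) pb.pos pb.h0 pb.tan pb.anti pb.base hjS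
      (fun i hi => by rw [Finset.mem_singleton.1 hi]; exact hB.2.1) (Sl := fun _ => {0})
      (fun _ _ => Or.inl rfl)
      (fun i hi => by
        rw [Finset.mem_singleton.1 hi]
        exact stC_of_TwP (fun _ _ _ _ => rfl) hB.2.2.2) hwl
      (fun k hk => by
        have h3 : k = 0 ∨ k = 7 ∨ k = 8 := by simpa using hk
        rcases h3 with rfl | rfl | rfl
        · rw [l0, βL0, one_mul]
        · rw [l7, βL7, h6]
        · rw [l8, βL8, h6])
      (fun k hk hV => by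
        rcases hvX k hk hV with rfl | rfl | h
        · exact Or.inl (by decide)
        · exact Or.inl (by decide)
        · exact Or.inr h) hL eq1 eq2 eq3
      (by constructor <;> simp [dE] <;> norm_num) (by constructor <;> simp [dE] <;> norm_num)
      (by constructor <;> simp [dE] <;> norm_num) (by intro u hu; fin_cases u <;> simp at hu ⊢)
      (by intro u hu; fin_cases u <;> simp at hu ⊢) (by intro u hu; fin_cases u <;> simp at hu ⊢)
  have e3 : ∀ m, Xs X H (E w) ((1:ℝ) • E dE) ψ h' m 3 = Xs X H (E w) ((1:ℝ) • E dE) ψ h' m 4 := by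
    intro m
    rw [Xs_apply, Xs_apply, pb.nb.p3, l3, l4, Pi.smul_apply, Pi.smul_apply,
      E_dE_off em (by decide) (by decide), E_dE_off em (by decide) (by decide)]
  have e5 : ∀ m, Xs X H (E w) ((1:ℝ) • E dE) ψ h' m 5 = Xs X H (E w) ((1:ℝ) • E dE) ψ h' m 6 := by
    intro m
    rw [Xs_apply, Xs_apply, pb.nb.p5, l5, l6, Pi.smul_apply, Pi.smul_apply,
      E_dE_off em (by decide) (by decide), E_dE_off em (by decide) (by decide)]
  have e7 : ∀ m, Xs X H (E w) ((1:ℝ) • E dE) ψ h' m 7 = Xs X H (E w) ((1:ℝ) • E dE) ψ h' m 8 := by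
    intro m
    rw [Xs_apply, Xs_apply, pb.nb.p7, l7, l8, Pi.smul_apply, Pi.smul_apply,
      E_dE_off em (by decide) (by decide), E_dE_off em (by decide) (by decide)]
  obtain ⟨u, u', hd⟩ := TWin.dir ctx (tend_hh pb.h0 hψ h0') hbase
    (fun j hj => Xs_lim pb.h0 hψ h0' (pb.lim j hj)) (Eventually.of_forall e3)
    (Eventually.of_forall e5) (Eventually.of_forall e7) T hθ0 (by linarith) 1
  exact ⟨ψ, h', Q, Φ, hψ, hp', h0', hΦ, hQ, k, W, N, cw, E', g', T, u, u', hd⟩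

/-- **(W3) at an `e`-tie** -/
theorem u3G (ctx : CtxT G L r g s θ q Rg B I lev A f b vm wt fr fl sc w0 sa sb δ R I0 I' ν own c₀)
    (hθ0 : 0 < θ 0) {j : Fin 12} (hj : j = 7 ∨ j = 8) (hB : TieT θ B I lev fl sc j)
    (em : EMd E M) (rz : Rz M {1, 2} (E dE))
    (pb : PBaseG (θ 0) (θ 1) w0 sa sb v0 R {0, 7, 8} E M ν X H v lam2)
    (hvX : ∀ k, k ≠ 0 → VisT B I fl sc k → k = 7 ∨ k = 8 ∨
      Vw (θ 0) (θ 1) w0 sa sb X H v (E w) (w 0) k)
    (ho : One 5 w) (h6 : w 6 = (θ 0 - θ 1) * w 0)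
    (hL : LinS {0, 6, 7, 8} (fun w => lam2 (E w)) w Rw) : Rw 1 ≤ Rw 2 := by
  obtain ⟨ψ, h', Q, Φ, hψ, hp', h0', hΦ, hQ, k, W, N, cw, E', g', T, u, u', hd⟩ :=
    winG ctx hθ0 hj hB em rz pb hvX (One.leg ho) h6 hL
  obtain ⟨l0, l2, l3, l4, l5, l6, l7, l8, l9, l10, l11⟩ := em.lt w
  obtain ⟨X5, X6, X7, X8, X11, X11', X11'', X10, X10', X9⟩ := pb.nb.walls
  have g0 : gap w 5 = 0 := ho.1
  change w 1 + w 6 - w 2 = 0 at g0
  have z : ∀ {k : Fin 12}, k ≠ 1 → k ≠ 2 → ((1:ℝ) • E dE) k = 0 := fun h1 h2 => by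
    rw [Pi.smul_apply, E_dE_off em h1 h2, smul_zero]
  have t1 := Xs_tight (H := H) (ψ := ψ) (h' := h') (ew := E w) (c0 := (1:ℝ) • E dE) X10
    (by rw [l10, l3, l7]; linarith)
    (by rw [z (by decide) (by decide), z (by decide) (by decide), z (by decide) (by decide)]; ring)
  have t2 := Xs_tight (H := H) (ψ := ψ) (h' := h') (ew := E w) (c0 := (1:ℝ) • E dE) X10'
    (by rw [l10, l4, l8]; linarith)
    (by rw [z (by decide) (by decide), z (by decide) (by decide), z (by decide) (by decide)]; ring)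
  have sl : Sl3 (Xs X H (E w) ((1:ℝ) • E dE) ψ h') (fun m => H (ψ m) * h' m) 1 := by
    constructor
    · exact Xs_slack pb.pos hψ hp' h0' (Or.inl ⟨Eventually.of_forall fun l => X7 l,
        by rw [l7, l2, l3]; exact One.g2 ho (by decide)⟩) 1
    · exact Xs_slack pb.pos hψ hp' h0' (Or.inl ⟨Eventually.of_forall fun l => X8 l,
        by rw [l8, l2, l4]; exact One.g2 ho (by decide)⟩) 1
    · exact Xs_slack pb.pos hψ hp' h0' (pb.nb.slD.1 (One.g3 ho (by decide))) 1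
    · exact Xs_slack pb.pos hψ hp' h0' (pb.nb.slD.2.1 (One.g3 ho (by decide))) 1
    · exact Xs_slack pb.pos hψ hp' h0' (pb.nb.slD.2.2.1 (One.g6 ho (by decide))) 1
  have key := T.w3 one_pos (by rcases hj with rfl | rfl <;> decide) (fun _ _ => rfl) hj
    (Finset.mem_singleton_self j) hd (Eventually.of_forall t1) (Eventually.of_forall t2) sl
    zero_le_one le_rfl
  have b1 : cT {0, 7, 8} {1, 2} 1 (bA 1 {10}) = E ![1, 0, 1, 0, 0, 0, 1, 0, 0] := by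
    rw [em.eq9 rfl]
    funext k
    fin_cases k <;> simp [cT, E9, bx9, bA]
  have b2 : cT {0, 7, 8} {1, 2} 1 (bA 1 {3, 4, 10}) = E ![1, 1, 1, 0, 0, 0, 1, 0, 0] := by
    rw [em.eq9 rfl]
    funext k
    fin_cases k <;> simp [cT, E9, bx9, bA]
  have b3 : cT {0, 7, 8} {1, 2} 1 0 = E ![1, 0, 0, 0, 0, 0, 1, 0, 0] := by
    rw [em.eq9 rfl]
    funext k
    fin_cases k <;> simp [cT, E9, bx9]
  have lg1 : LegM 0 (![1, 0, 1, 0, 0, 0, 1, 0, 0] + (1:ℝ) • dE) := by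
    constructor <;> simp [dE] <;> norm_num
  have lg2 : LegM 0 (![1, 1, 1, 0, 0, 0, 1, 0, 0] + (1:ℝ) • dE) := by
    constructor <;> simp [dE] <;> norm_num
  have lg3 : LegM 0 (![1, 0, 0, 0, 0, 0, 1, 0, 0] + (1:ℝ) • dE) := by
    constructor <;> simp [dE] <;> norm_num
  have f1 : Φ ![1, 0, 1, 0, 0, 0, 1, 0, 0] = Φ ![1, 0, 0, 0, 0, 0, 1, 0, 0] :=
    hΦ _ _ (by intro u hu; fin_cases u <;> simp at hu ⊢) lg1 lg3
  have f2 : Φ ![1, 1, 1, 0, 0, 0, 1, 0, 0] = Φ ![1, 0, 0, 0, 0, 0, 1, 0, 0] :=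
    hΦ _ _ (by intro u hu; fin_cases u <;> simp at hu ⊢) lg2 lg3
  rw [b1, b2, b3, hQ _ lg1, hQ _ lg2, hQ _ lg3, f1, f2, sumE, sumE, sumE] at key
  simp at key
  linarith

/-- **(W2) at an `e`-tie** -/
theorem u2G (ctx : CtxT G L r g s θ q Rg B I lev A f b vm wt fr fl sc w0 sa sb δ R I0 I' ν own c₀)
    (hθ0 : 0 < θ 0) {j : Fin 12} (hj : j = 7 ∨ j = 8) (hB : TieT θ B I lev fl sc j)
    (em : EMd E M) (rz : Rz M {1, 2} (E dE))
    (pb : PBaseG (θ 0) (θ 1) w0 sa sb v0 R {0, 7, 8} E M ν X H v lam2)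
    (hvX : ∀ k, k ≠ 0 → VisT B I fl sc k → k = 7 ∨ k = 8 ∨
      Vw (θ 0) (θ 1) w0 sa sb X H v (E w) (w 0) k)
    (ho : One 8 w) (h6 : w 6 = (θ 0 - θ 1) * w 0)
    (hL : LinS {0, 6, 7, 8} (fun w => lam2 (E w)) w Rw) : Rw 3 ≤ Rw 4 := by
  obtain ⟨ψ, h', Q, Φ, hψ, hp', h0', hΦ, hQ, k, W, N, cw, E', g', T, u, u', hd⟩ :=
    winG ctx hθ0 hj hB em rz pb hvX (One.leg ho) h6 hL
  obtain ⟨l0, l2, l3, l4, l5, l6, l7, l8, l9, l10, l11⟩ := em.lt w
  obtain ⟨X5, X6, X7, X8, X11, X11', X11'', X10, X10', X9⟩ := pb.nb.walls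
  have g0 : gap w 8 = 0 := ho.1
  change w 3 + w 6 - w 4 = 0 at g0
  have z : ∀ {k : Fin 12}, k ≠ 1 → k ≠ 2 → ((1:ℝ) • E dE) k = 0 := fun h1 h2 => by
    rw [Pi.smul_apply, E_dE_off em h1 h2, smul_zero]
  have t1 := Xs_tight (H := H) (ψ := ψ) (h' := h') (ew := E w) (c0 := (1:ℝ) • E dE) X11'
    (by rw [l11, l5, l7]; linarith)
    (by rw [z (by decide) (by decide), z (by decide) (by decide), z (by decide) (by decide)]; ring)
  have t2 := Xs_tight (H := H) (ψ := ψ) (h' := h') (ew := E w) (c0 := (1:ℝ) • E dE) X11''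
    (by rw [l11, l6, l8]; linarith)
    (by rw [z (by decide) (by decide), z (by decide) (by decide), z (by decide) (by decide)]; ring)
  have sl : Sl2 (Xs X H (E w) ((1:ℝ) • E dE) ψ h') (fun m => H (ψ m) * h' m) 1 := by
    constructor
    · exact Xs_slack pb.pos hψ hp' h0' (Or.inl ⟨Eventually.of_forall fun l => (X5 l).le,
        by rw [l5, l0, l3]; exact One.g1 ho (by decide)⟩) 1
    · exact Xs_slack pb.pos hψ hp' h0' (Or.inl ⟨Eventually.of_forall fun l => (X6 l).le,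
        by rw [l6, l0, l4]; exact One.g1 ho (by decide)⟩) 1
    · exact Xs_slack pb.pos hψ hp' h0' (pb.nb.slD.1 (One.g3 ho (by decide))) 1
    · exact Xs_slack pb.pos hψ hp' h0' (pb.nb.slD.2.1 (One.g3 ho (by decide))) 1
    · exact Xs_slack pb.pos hψ hp' h0' (Or.inl ⟨Eventually.of_forall fun l => (X11 l).le,
        by rw [l11, l0, l10]; exact One.g7 ho (by decide)⟩) 1
    · exact Xs_slack pb.pos hψ hp' h0' (Or.inl ⟨Eventually.of_forall fun l => X9 l,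
        by rw [l11, l2, l9]; exact One.g9 ho (by decide)⟩) 1
  have key := T.w2 one_pos (by rcases hj with rfl | rfl <;> decide) (fun _ _ => rfl) hj
    (Finset.mem_singleton_self j) hd (Eventually.of_forall t1) (Eventually.of_forall t2) sl
    zero_le_one le_rfl
  have b1 : cT {0, 7, 8} {1, 2} 1 (bA 1 {11}) = E ![1, 0, 0, 0, 1, 0, 1, 0, 0] := by
    rw [em.eq9 rfl]
    funext k
    fin_cases k <;> simp [cT, E9, bx9, bA]
  have b2 : cT {0, 7, 8} {1, 2} 1 (bA 1 {5, 6, 11}) = E ![1, 0, 0, 1, 1, 0, 1, 0, 0] := by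
    rw [em.eq9 rfl]
    funext k
    fin_cases k <;> simp [cT, E9, bx9, bA]
  have b3 : cT {0, 7, 8} {1, 2} 1 0 = E ![1, 0, 0, 0, 0, 0, 1, 0, 0] := by
    rw [em.eq9 rfl]
    funext k
    fin_cases k <;> simp [cT, E9, bx9]
  have lg1 : LegM 0 (![1, 0, 0, 0, 1, 0, 1, 0, 0] + (1:ℝ) • dE) := by
    constructor <;> simp [dE] <;> norm_num
  have lg2 : LegM 0 (![1, 0, 0, 1, 1, 0, 1, 0, 0] + (1:ℝ) • dE) := by
    constructor <;> simp [dE] <;> norm_num
  have lg3 : LegM 0 (![1, 0, 0, 0, 0, 0, 1, 0, 0] + (1:ℝ) • dE) := by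
    constructor <;> simp [dE] <;> norm_num
  have f1 : Φ ![1, 0, 0, 0, 1, 0, 1, 0, 0] = Φ ![1, 0, 0, 0, 0, 0, 1, 0, 0] :=
    hΦ _ _ (by intro u hu; fin_cases u <;> simp at hu ⊢) lg1 lg3
  have f2 : Φ ![1, 0, 0, 1, 1, 0, 1, 0, 0] = Φ ![1, 0, 0, 0, 0, 0, 1, 0, 0] :=
    hΦ _ _ (by intro u hu; fin_cases u <;> simp at hu ⊢) lg2 lg3
  rw [b1, b2, b3, hQ _ lg1, hQ _ lg2, hQ _ lg3, f1, f2, sumE, sumE, sumE] at key
  simp at key
  linarith


end etie

end Crest.Agent.R116.Tw369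
end

-- ▼ part R116/Pe4_794
section

/-!
# R116, ties: own-strip facts of a plane with `E` raised, `D` frozen (helper794)

* `bo_tight`, `pbaseG8` : 369's `PBaseG` of 363's `Pd8` at any offset with the five equalities
* `fctU8`               : 139's `FctU (θ 0 - θ 1) Sg`, `B` tied, `D`, `E` invisible
-/

set_option autoImplicit false
set_option linter.unusedVariables false
set_option linter.unusedSectionVars false

open Set Filter Topology

namespace Crest.Agent.R116.Tq794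

open Crest.Agent.R138
open Crest.Agent.R138.Ex926 (Base U IsTan)
open Crest.Agent.R136
open Crest.Agent.R136.MkA627
open Crest.Agent.R136.TD627
open Crest.Agent.R136.Net191
open Crest.Agent.R136.Lq196
open Crest.Agent.R116.EvL504
open Crest.Agent.R116.ChL222
open Crest.Agent.R116.PL504 (nb rL DN eL βL oL Shift eL_wall)
open Crest.Agent.R116.Sg337 (bx9)
open Crest.Agent.R116.Gd222 (TSet sN PDL DT)
open Crest.Agent.R116.KI439
open Crest.Agent.R116.KF439 (PL)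
open Crest.Agent.R116.CtxB468
open Crest.Agent.R116.Kst593
open Crest.Agent.R116.Rcx363 (fo fo_lip Prf)
open Crest.Agent.R116.RbM219
open Crest.Agent.R116.RbK219
open Crest.Agent.R116.SgF665 (wl wl_add wl_smul LM0)
open Crest.Agent.R116.WinG954 (LM)
open Crest.Agent.R116.Tq741
open Crest.Agent.R116.Pd363
open Crest.Agent.R116.Tw369
open Crest.Agent.R116.Tp139 (PlU FctU)
open Sl741 (slice xt rs)

/-- the walls without `D`, `E` are tight on the offset -/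
theorem bo_tight {B : Fin 8 → ℝ} {β : Fin 12 → ℝ} (hβ : ∀ k, k ≠ 1 → β k = B (cl8 k))
    (b1 : B 3 = B 0 + B 1) (b2 : B 5 = B 1 + B 3) (b3 : B 4 = B 0 + B 2) (b4 : B 4 = B 3 + B 6)
    (b5 : B 2 = B 1 + B 6) :
    ∀ k, ∀ e ∈ monL.mon k, e 1 = 0 → e 2 = 0 → wl e β = β k := by
  have q0 := hβ 0 (by decide)
  have q3 := hβ 3 (by decide)
  have q4 := hβ 4 (by decide)
  have q5 := hβ 5 (by decide)
  have q6 := hβ 6 (by decide)
  have q7 := hβ 7 (by decide)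
  have q8 := hβ 8 (by decide)
  have q9 := hβ 9 (by decide)
  have q10 := hβ 10 (by decide)
  have q11 := hβ 11 (by decide)
  change β 0 = B 0 at q0
  change β 3 = B 1 at q3
  change β 4 = B 1 at q4
  change β 5 = B 3 at q5
  change β 6 = B 3 at q6
  change β 7 = B 6 at q7
  change β 8 = B 6 at q8
  change β 9 = B 5 at q9
  change β 10 = B 2 at q10
  change β 11 = B 4 at q11
  intro k e he h1 h2
  rw [wl12]
  fin_cases k <;> simp only [monL, mfL, Fin.zero_eta, Fin.mk_one, Fin.reduceFinMk,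
    Matrix.cons_val, Finset.notMem_empty, Finset.mem_singleton, Finset.mem_insert] at he ⊢
  · subst he; simp at h1
  · subst he; simp [q0, q3, q5]; linarith
  · subst he; simp [q0, q4, q6]; linarith
  · rcases he with rfl | rfl <;> simp at h1 h2
  · rcases he with rfl | rfl <;> simp at h1 h2
  · rcases he with rfl | rfl | rfl | rfl <;> simp [q0, q3, q4, q5, q6, q9] <;> linarith
  · rcases he with rfl | rfl | rfl | rfl | rfl | rfl | rfl <;> first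
      | (exfalso; simp at h1; done)
      | (exfalso; simp at h2; done)
      | (simp [q3, q4, q7, q8, q10] <;> linarith)
  · rcases he with rfl | rfl | rfl | rfl | rfl | rfl | rfl | rfl | rfl | rfl | rfl | rfl | rfl <;>
      first
      | (exfalso; simp at h1; done)
      | (exfalso; simp at h2; done)
      | (simp [q0, q3, q4, q5, q6, q7, q8, q10, q11] <;> linarith)

section ctx

variable {G : Geo TSet (Fin 2)} {L : ℕ → ℕ → LRay} {r : ℕ → ℝ} {g s : ℝ} {θ q : Fin 2 → ℝ}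
    {Rg : ℝ} {B : Base} {I : ℕ → Finset (ℕ × ℝ)} {lev : ℕ → ℚ → ℕ} {A : ℕ → ℝ}
    {f : ℕ → ℚ → ℕ → ℤ → ℕ} {b : ℕ → ℚ → ℕ → TSet} {vm : ℕ → ℚ → ℝ} {wt : Fin 2 → ℕ → ℚ → ℝ}
    {fr : ℕ → ℚ → ℕ × ℝ → LInc} {fl : ℕ → ℕ × ℝ → LInc} {sc : Fin 12 → ℕ → ℝ}
    {w0 sa sb δ R : ℝ} {I0 I' : ℕ → Finset (ℕ × ℝ)} {ν own : (Fin 12 → ℝ) → ℝ} {c₀ : ℝ}
    {a b' : Fin 2} {Vis' : Fin 12 → Prop} {v0 t κ sg l α v c p : ℝ}
    {lam lam2 : Fin 2 → (Fin 12 → ℝ) → ℝ} {h' H : ℕ → ℝ} {X : ℕ → Fin 12 → ℝ}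

/-- **`PBaseG` of a plane, `D` frozen, `E` may be raised** -/
theorem pbaseG8 {Bo ρ ρ2 : Fin 8 → ℝ}
    (P : Pd8 R s a b' Vis' (θ 0) (θ 1) w0 sa sb v0 t κ Bo sg (fo ν own) lam ρ l α h' X H
      lam2 ρ2)
    (ht : t ≠ 0) (hL : Leg8 Bo) (hv0 : 0 < v0) (hv1 : v0 < 1) (b1 : Bo 3 = Bo 0 + Bo 1)
    (b2 : Bo 5 = Bo 1 + Bo 3) (b3 : Bo 4 = Bo 0 + Bo 2) (b4 : Bo 4 = Bo 3 + Bo 6)
    (b5 : Bo 2 = Bo 1 + Bo 6) {S : Finset (Fin 12)}
    (hS : ∀ k ∈ S, k ≠ 1 ∧ Bo (cl8 k) = Bo 0 * βL (θ 0) (θ 1) k) :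
    ∃ vv : ℕ → ℝ, PBaseG (θ 0) (θ 1) w0 sa sb v0 R S E8 LM0 ν X H vv (lam2 0) := by
  have ht' : IsTan (Leg monL R) LM0 ν X H (lam2 0) :=
    Rc683.tan_mono (P.tan 0) Subset.rfl (LM0_L8B ht)
  have hD := slD_of_tan (leg_wall (R := R)) P.pos ht'
  have hpair := P.pairs
  obtain ⟨V, E, hV, hE, hE0, hb⟩ := P.base
  set β : Fin 12 → ℝ := xt kp 0 (RL8.vec Bo) with hβ
  have hβk : ∀ k, k ≠ 1 → β k = Bo (cl8 k) := fun k hk => by
    rw [hβ, Sl741.xt_in (p := kp) _ _ hk]; simp [RS.vec, RL8]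
  have hgap : ∀ m k (e : Fin 12 → ℕ), e ∈ monL.mon k → e 1 = 0 →
      wl e (X m) - X m k = E m * (wl e β - β k) := by
    intro m k e he h1
    have e1 : wl e (X m) = wl e (rL (θ 0) (θ 1) w0 sa sb (v0 + V m) + E m • β) :=
      wl_congr h1 fun i hi => by
        rw [hb m i hi, Pi.add_apply, Pi.smul_apply, smul_eq_mul, hβk i hi]
    rw [e1, wl_add, wl_smul, rL_wl _ _ he, hb m k (mon_one he), hβk k (mon_one he)]
    ring
  have key : ∀ m, ∀ k, k ≠ 1 → Bo (cl8 k) = Bo 0 * βL (θ 0) (θ 1) k →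
      X m k = rL (θ 0) (θ 1) w0 sa sb (v0 + V m + E m * Bo 0) k := by
    intro m k hk h1
    rw [hb m k hk, PL504.rL_lin _ _ _ _ _ (v0 + V m),
      PL504.rL_lin _ _ _ _ _ (v0 + V m + E m * Bo 0), h1]
    ring
  refine ⟨fun m => v0 + V m + E m * Bo 0, P.pos, P.lim, ht', fun p hp q hq hpq => ?_,
    ⟨fun m k e he h1 h2 => ?_, fun m k e he h1 h2 => ?_, Or.inl hD, fun m => (hpair m).1.symm,
      fun m => (hpair m).2.1.symm, fun m => (hpair m).2.2.symm⟩,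
    ⟨hv0, hv1, ?_, fun m => ?_, fun m k hk => ?_⟩, fun j hj => ?_⟩
  · have := ((P.prf.mono (LM0_L8B ht)).anti p hp q hq hpq).1
    linarith
  · have h3 := hgap m k e he h1
    rw [bo_tight hβk b1 b2 b3 b4 b5 k e he h1 h2, sub_self, mul_zero] at h3
    linarith
  · have h3 := hgap m k e he h1
    have h4 := leg8_LM0 hL k e he h1
    have h5 := mul_nonneg (hE0 m).le (sub_nonneg.2 h4)
    rw [← hβ] at h5
    linarith
  · have h1 := (hV.const_add v0).add (hE.mul_const (Bo 0))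
    simpa using h1
  · have h1 := key m 0 (by decide) (by
      show Bo 0 = Bo 0 * 1
      ring)
    rw [h1]
    simp [rL, eL]
  · exact key m k (hS k hk).1 (hS k hk).2
  · exact (tendsto_pi_nhds.1 P.xlim) j

/-- **(W3), (W2) on a plane of the `e`-type, `D` frozen, `E` may be raised** -/
theorem fctU8 {Bo ρ ρ2 : Fin 8 → ℝ} {Sg : V9 → Prop}
    (P : Pd8 R s a b' Vis' (θ 0) (θ 1) w0 sa sb v0 t κ Bo sg (fo ν own) lam ρ l α h' X H
      lam2 ρ2)
    (C : CtxT G L r g s θ q Rg B I lev A f b vm wt fr fl sc w0 sa sb δ R I0 I' ν own c₀)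
    (hθ : 0 < θ 0) (ht : t ≠ 0) (hL : Leg8 Bo) (hv0 : 0 < v0) (hv1 : v0 < 1)
    (b1 : Bo 3 = Bo 0 + Bo 1) (b2 : Bo 5 = Bo 1 + Bo 3) (b3 : Bo 4 = Bo 0 + Bo 2)
    (b4 : Bo 4 = Bo 3 + Bo 6) (b5 : Bo 2 = Bo 1 + Bo 6) (b6 : Bo 6 = Bo 0 * (θ 0 - θ 1))
    (hB : TieT θ B I lev fl sc 7 ∨ TieT θ B I lev fl sc 8)
    (hvis : ∀ i, VisT B I fl sc i → i = 0 ∨ i = 7 ∨ i = 8) :
    FctU (θ 0 - θ 1) Sg
      (fun w => lam2 0 (xt kp 0 (RL8.vec (fun i : Fin 8 => w i.castSucc)))) := by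
  obtain ⟨vv, pb⟩ := pbaseG8 P ht hL hv0 hv1 b1 b2 b3 b4 b5 (S := {0, 7, 8}) (by
    intro k hk
    simp only [Finset.mem_insert, Finset.mem_singleton] at hk
    rcases hk with rfl | rfl | rfl
    · exact ⟨by decide, by show Bo 0 = Bo 0 * 1; ring⟩
    · exact ⟨by decide, by rw [βL7]; exact b6⟩
    · exact ⟨by decide, by rw [βL8]; exact b6⟩)
  have key : FctU (θ 0 - θ 1) Sg (fun w => lam2 0 (E8 w)) := by
    rcases hB with hB | hB
    · exact ⟨fun w R' h1 h2 _ h3 => u3G C hθ (Or.inl rfl) hB em8 rz8E pb (fun k hk hV =>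
          (hvis k hV).elim (fun h => absurd h hk) fun h => h.elim Or.inl fun h => Or.inr (Or.inl h))
          h1 h2 h3, fun w R' h1 h2 _ h3 => u2G C hθ (Or.inl rfl) hB em8 rz8E pb (fun k hk hV =>
          (hvis k hV).elim (fun h => absurd h hk) fun h => h.elim Or.inl fun h => Or.inr (Or.inl h))
          h1 h2 h3⟩
    · exact ⟨fun w R' h1 h2 _ h3 => u3G C hθ (Or.inr rfl) hB em8 rz8E pb (fun k hk hV =>
          (hvis k hV).elim (fun h => absurd h hk) fun h => h.elim Or.inl fun h => Or.inr (Or.inl h))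
          h1 h2 h3, fun w R' h1 h2 _ h3 => u2G C hθ (Or.inr rfl) hB em8 rz8E pb (fun k hk hV =>
          (hvis k hV).elim (fun h => absurd h hk) fun h => h.elim Or.inl fun h => Or.inr (Or.inl h))
          h1 h2 h3⟩
  simpa only [E8_eq] using key

end ctx

end Crest.Agent.R116.Tq794
end

-- ▼ part R116/FlE_794
section

/-!
# R116, ROW TIE: the `e`-tie (helper794)

* `planeA8`, `planeB8` : the two planes of the `e`-tie over one `Out8`
* `eTie8` : `CtxT`, (D0) ⊢ `ETie'`, `k ≤ 1`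
-/

set_option autoImplicit false
set_option linter.unusedVariables false
set_option linter.unusedSectionVars false

open Set Filter Topology MeasureTheory

namespace Crest.Agent.R116.FlE794

open Crest.Agent.R138.Ex926 (Base U IsTan)
open Crest.Agent.R136
open Crest.Agent.R136.MkA627
open Crest.Agent.R136.TD627
open Crest.Agent.R136.Net191
open Crest.Agent.R136.Lq196
open Crest.Agent.R116.ChL222
open Crest.Agent.R116.PL504 (nb rL DN eL βL oL Shift)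
open Crest.Agent.R116.Xd954 (cs xs FlagX Mrg)
open Crest.Agent.R116.Sg337 (coneL DL natB eL_bx9)
open Crest.Agent.R116.Gd222 (TSet sN PDL DT)
open Crest.Agent.R116.KI439
open Crest.Agent.R116.KF439 (PL)
open Crest.Agent.R116.Tw468 (OutT)
open Crest.Agent.R116.CtxB468
open Crest.Agent.R116.RbM219
open Crest.Agent.R116.RbK219
open Crest.Agent.R116.SgO219 (PP tan_lim tan_ev)
open Crest.Agent.R116.KTie794
open Crest.Agent.R116.KTop387
open Crest.Agent.R116.Tie460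
open Crest.Agent.R116.Tp139
open Crest.Agent.R116.Rcx363
open Crest.Agent.R116.Tq741
open Crest.Agent.R116.Tq126
open Crest.Agent.R116.Tq794
open Crest.Agent.R116.Pd363
open Crest.Agent.R116.Kz647
open Crest.Agent.R116.NZ90 (Lam8)
open Crest.Agent.R116.FlK363
open Dg262 (SupOn)
open Dg219 (mw)
open Sl741 (slice xt rs)

/-- the offsets of the `e`-tie, `k ≤ 1` -/
def BsE (k : ℝ) (i : Fin 4) : Fin 8 → ℝ :=
  if i = 0 then eD k else if i = 1 then oS else if i = 2 then eU k else oP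

/-- the sides -/
def sgE (i : Fin 4) : ℝ := if i = 0 then -1 else 1

section plane

variable {θa θb k : ℝ}

theorem dl_eU (hk : 0 < k) {i : Fin 8} (hi : i ≠ 7) :
    dl (nat8 1 (-θa) (-θb)) (eU k) 1 i = eU k i := by
  have h : ∀ i : Fin 8, i ≠ 7 → eU k i ≠ 0 := by
    refine all8 ?_ ?_ ?_ ?_ ?_ ?_ ?_ ?_ <;> intro hi h <;> first
      | exact hi rfl
      | (ev8; linarith)
  replace h := h i hi
  unfold dl
  rw [if_neg h]; ring

/-- the classes of the `e`-plane, side above -/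
theorem eU_plE (hθ : 0 < θa) (hk : 0 < k) (hb : θb = θa - k) {x : ℝ} :
    PlE k (cE k) (sn8 (dl (nat8 1 (-θa) (-θb)) (eU k) 1) x) where
  par := (Hm621.eD_plE hθ hk hb (x := x)).par
  d6 := by
    show dl (nat8 1 (-θa) (-θb)) (eU k) 1 6 = k * dl (nat8 1 (-θa) (-θb)) (eU k) 1 0
    rw [dl_eU hk (by decide), dl_eU hk (by decide)]; ev8; ring
  d3 := fun h => by
    show dl (nat8 1 (-θa) (-θb)) (eU k) 1 3 = dl (nat8 1 (-θa) (-θb)) (eU k) 1 2
    rw [dl_eU hk (by decide), dl_eU hk (by decide)]; ev8; linarith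
  d5 := fun h => by
    show dl (nat8 1 (-θa) (-θb)) (eU k) 1 5 = 2 * dl (nat8 1 (-θa) (-θb)) (eU k) 1 2
    rw [dl_eU hk (by decide), dl_eU hk (by decide)]; ev8; linarith

end plane

section

variable {G : Geo TSet (Fin 2)} {L : ℕ → ℕ → LRay} {r : ℕ → ℝ} {g s : ℝ} {θ q : Fin 2 → ℝ}
    {Rg : ℝ} {B : Base} {I : ℕ → Finset (ℕ × ℝ)} {lev : ℕ → ℚ → ℕ} {A : ℕ → ℝ}
    {f : ℕ → ℚ → ℕ → ℤ → ℕ} {b : ℕ → ℚ → ℕ → TSet} {vm : ℕ → ℚ → ℝ} {w : Fin 2 → ℕ → ℚ → ℝ}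
    {fr : ℕ → ℚ → ℕ × ℝ → LInc} {fl : ℕ → ℕ × ℝ → LInc} {sc : Fin 12 → ℕ → ℝ}
    {w0 sa sb δ R : ℝ} {I0 I' : ℕ → Finset (ℕ × ℝ)} {ν own : (Fin 12 → ℝ) → ℝ} {c₀ : ℝ}
    {η : ℝ}

/-- **the machine at a natural offset of the `e`-plane, `D` frozen** -/
theorem planeE8 {a b' : Fin 2} {v0 t sg l α v c p k : ℝ}
    {lam lam2 : Fin 2 → (Fin 12 → ℝ) → ℝ} {h' H : ℕ → ℝ} {X : ℕ → Fin 12 → ℝ}
    {ρ ρ2 : Fin 8 → ℝ}
    (P : Pd8 R s a b' (VisT B I fl sc) (θ 0) (θ 1) w0 sa sb v0 t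
      (DL (g + 2 * s) s (q 0) (q 1) v c p) (nat8 v c p) sg (fo ν own) lam ρ l α h' X H lam2 ρ2)
    (C : CtxT G L r (g + 2 * s) s θ q Rg B I lev A f b vm w fr fl sc w0 sa sb δ R I0 I' ν own c₀)
    (hN : NumL η g s θ q) (ht : 0 < t) (hv0 : 0 < v0) (hv1 : v0 < 1) (hk : 0 < k)
    (hkd : k = θ 0 - θ 1) (hB : VisB θ B I lev fl sc)
    (hvis : ∀ i, VisT B I fl sc i → i = 0 ∨ i = 7 ∨ i = 8)
    (hrx : Rx (L8 (θ 0) (θ 1) t) (ntD 0) s a b' (VisT B I fl sc) (θ 0) (θ 1) (g + 2 * s) (q 0)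
      (q 1) (lam 0)) (h0 : lam 0 0 = 0)
    (hS : SOk (nat8 1 (-(θ 0)) (-(θ 1))) (nat8 v c p) sg)
    (hc : ∀ i j : Fin 8, cE k i.castSucc = cE k j.castSucc ↔
      Par (nat8 1 (-(θ 0)) (-(θ 1))) (nat8 v c p) i j)
    (hz : ∀ i : Fin 8, Par (nat8 1 (-(θ 0)) (-(θ 1))) (nat8 v c p) 0 i → i = 0 ∨ i = 6 ∨ i = 7)
    (PE : PlE k (cE k) (sn8 (dl (nat8 1 (-(θ 0)) (-(θ 1))) (nat8 v c p) sg) 1))
    (hp : p = c + k * v) :
    ∃ A : Pl, EF' s k A ∧ A.FanA s ∧ A.d = 0 ∧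
      A.Tan (g + 2 * s) (θ 0) (θ 0 - k) (q 0) (q 1) ∧
      0 ≤ -(c + θ 0 * v) * (A.Fa (q 0) + A.Fb (q 1)) ∧ A.m = ρ2 1 ∧ A.n = 1 - ρ2 4 ∧
      A.e = ρ2 0 - (1 - s) ∧ A.w = 0 ∧ A.u = ρ2 7 := by
  have hθ := hN.θa
  have hb : θ 1 = θ 0 - k := by linarith
  obtain ⟨φ, Hc⟩ := P.cls ht hS (fun i hi => by
    rcases hvis i hi with rfl | rfl | rfl <;> simp) hc h8_cE hz
  have F : Fct9 (fun w => w 6 < k * w 0) s
      (fun w => lam2 0 (xt kp 0 (RL8.vec (fun i : Fin 8 => w i.castSucc)))) := by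
    refine pd8_fct P C hN.s0 hN.s1.le ht.ne' (Kt387.flagZ_all C 0) hθ hv0 hv1 ?_ ?_
    · have h1 : 0 < 1 - v0 := by linarith
      nlinarith
    · intro w' hl' hw' i hi
      have h1 : w' 6 < k * w' 0 := hw'
      rcases hvis i hi with rfl | rfl | rfl
      · change w' 0 ≤ w' 0 * 1
        rw [mul_one]
      · change w' 6 ≤ w' 0 * (-(θ 1) - -(θ 0))
        rw [hkd] at h1; linarith
      · change w' 6 ≤ w' 0 * (-(θ 1) - -(θ 0))
        rw [hkd] at h1; linarith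
  have FE : FctE k (fun w => lam2 0 (xt kp 0 (RL8.vec (fun i : Fin 8 => w i.castSucc)))) := by
    rw [hkd]
    exact fctE8 P C hθ ht.ne' hv0 hv1 hB hvis (by rw [hp, hkd])
  have K3 : k = 1 → K3e160.K3C (cE k) s φ (sn8 ρ2 0) := fun h1 => by
    refine k3_of8 P C hθ ht.ne' hv0 hv1 rfl ?_ rfl ?_ ?_ ?_ hB hvis hvis Hc PE.al1 PE.al4 ?_ ?_
    · show v + 2 * c = c + (v + c)
      ring
    · show p = c + (p - c)
      ring
    · show p - c = v * (θ 0 - θ 1)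
      rw [hp, ← hkd]; ring
    · show p - c ≤ p - 2 * c + c
      linarith
    · intro t' h
      exact PE.k2 (h.trans (PE.c3 h1))
    · intro t1 t2 h h6
      have h3 : cE k t2 = cE k 0 := by
        rw [← h]
        rcases h6 with rfl | rfl
        · rfl
        · exact PE.c6
      rcases PE.z.1 h3 with h | h
      · exact Or.inl h
      · exact Or.inr (Or.inl h)
  have T := T8 P.half h0 hrx
  have V := V8 P.half
  rw [hb] at T
  have hp' : p = c + k * v := hp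
  rw [hp'] at V
  refine ⟨plE s (cE k) φ (sn8 ρ2 0), PE.ef Hc hk F hN.s0 FE K3, PE.fanA Hc hk F hN.s0,
    rfl, PE.tan Hc T, PE.ver Hc T V, rfl, rfl, rfl, rfl, rfl⟩

/-- **the machine at `oS`, `D` frozen**, `k < 1` -/
theorem planeU8 {a b' : Fin 2} {v0 t l α k : ℝ}
    {lam lam2 : Fin 2 → (Fin 12 → ℝ) → ℝ} {h' H : ℕ → ℝ} {X : ℕ → Fin 12 → ℝ}
    {ρ ρ2 : Fin 8 → ℝ}
    (P : Pd8 R s a b' (VisT B I fl sc) (θ 0) (θ 1) w0 sa sb v0 t
      (DL (g + 2 * s) s (q 0) (q 1) 0 1 1) oS 1 (fo ν own) lam ρ l α h' X H lam2 ρ2)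
    (C : CtxT G L r (g + 2 * s) s θ q Rg B I lev A f b vm w fr fl sc w0 sa sb δ R I0 I' ν own c₀)
    (hN : NumL η g s θ q) (ht : 0 < t) (hv0 : 0 < v0) (hv1 : v0 < 1) (hk : 0 < k) (hk1 : k < 1)
    (hkd : k = θ 0 - θ 1) (hB : VisB θ B I lev fl sc)
    (hvis : ∀ i, VisT B I fl sc i → i = 0 ∨ i = 7 ∨ i = 8)
    (hrx : Rx (L8 (θ 0) (θ 1) t) (ntD 0) s a b' (VisT B I fl sc) (θ 0) (θ 1) (g + 2 * s) (q 0)
      (q 1) (lam 0)) (h0 : lam 0 0 = 0) :
    ∃ A : Pl, EF s k A ∧ A.Tan (g + 2 * s) (θ 0) (θ 0 - k) (q 0) (q 1) ∧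
      A.Fa (q 0) + A.Fb (q 1) ≤ 0 ∧ A.m = ρ2 1 ∧ A.n = 1 - ρ2 4 := by
  have hθ := hN.θa
  have hb : θ 1 = θ 0 - k := by linarith
  have hS : SOk (nat8 1 (-(θ 0)) (-(θ 1))) oS 1 := sok_oS (by linarith) (by linarith)
  obtain ⟨φ, Hc⟩ := P.cls ht hS (fun i hi => by
    rcases hvis i hi with rfl | rfl | rfl <;> simp) (hc_oS hθ hk hb) h8_cS (hz_oS hθ hk hb)
  have PU : PlU k (cS k) (sn8 (dl (nat8 1 (-(θ 0)) (-(θ 1))) oS 1) 1) := plU_oS
  have e3 : oS 3 = oS 0 + oS 1 := by ev8; norm_num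
  have e5 : oS 5 = oS 1 + oS 3 := by ev8; norm_num
  have e4 : oS 4 = oS 0 + oS 2 := by ev8; norm_num
  have e4' : oS 4 = oS 3 + oS 6 := by ev8; norm_num
  have e2 : oS 2 = oS 1 + oS 6 := by ev8; norm_num
  have F : Fct9 (fun w => w 6 < k * w 0) s
      (fun w => lam2 0 (xt kp 0 (RL8.vec (fun i : Fin 8 => w i.castSucc)))) := by
    refine pd8_fctG P C hN.s0 hN.s1.le ht.ne' one_ne_zero leg_oS e3 e5 e4 e4' e2
      (Kt387.flagZ_all C 0) hθ hv0 hv1 ?_ ?_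
    · have h1 : 0 < 1 - v0 := by linarith
      nlinarith
    · intro w' hl' hw' i hi
      have h1 : w' 6 < k * w' 0 := hw'
      rcases hvis i hi with rfl | rfl | rfl
      · change w' 0 ≤ w' 0 * 1
        rw [mul_one]
      · change w' 6 ≤ w' 0 * (-(θ 1) - -(θ 0))
        rw [hkd] at h1; linarith
      · change w' 6 ≤ w' 0 * (-(θ 1) - -(θ 0))
        rw [hkd] at h1; linarith
  have FU : FctU k (fun _ => True)
      (fun w => lam2 0 (xt kp 0 (RL8.vec (fun i : Fin 8 => w i.castSucc)))) := by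
    rw [hkd]
    refine fctU8 P C hθ ht.ne' leg_oS hv0 hv1 e3 e5 e4 e4' e2 ?_ hB hvis
    ev8; ring
  have RG : RgU k (1 / 2) 1 (fun w : V9 => w 6 < k * w 0) (fun _ => True) :=
    ⟨hk, by norm_num, one_pos, fun w h1 _ _ => h1, fun _ _ _ => trivial,
      fun h => ⟨by norm_num, fun w h1 _ => by rw [h]; exact h1, fun _ _ => trivial⟩,
      fun _ => ⟨by norm_num, by norm_num⟩⟩
  have a8 : Tp139.Al (cS k) 8 := by
    refine all9 ?_ ?_ ?_ ?_ ?_ ?_ ?_ ?_ ?_ <;> intro h <;> revert h <;>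
      simp only [cS, Matrix.cons_val] <;> (try split_ifs) <;> decide
  have hE := efU Hc PU RG F hN.s0 (Or.inr a8) (Or.inl rfl) (Or.inl rfl) (fun _ => FU)
    (fun h => absurd h hk1.ne)
  have TVs := tvS P.half h0 hrx (by linarith) (by linarith) (by rw [← hkd]; exact hk1.ne)
    (φ := φ) (dl' := sn8 (dl (nat8 1 (-(θ 0)) (-(θ 1))) oS 1) 1) (by rw [← hkd]; exact Hc)
    (by rw [← hkd]; exact fun h => sumUh Hc PU h)
  rw [← hkd, hb] at TVs
  exact ⟨_, hE.toEF hk1.ne, TVs.tan, TVs.ver, rfl, rfl⟩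

/-- **the data of the `e`-tie, `k ≤ 1`** -/
theorem eTie8
    (C : CtxT G L r (g + 2 * s) s θ q Rg B I lev A f b vm w fr fl sc w0 sa sb δ R I0 I' ν own c₀)
    (hN : NumL η g s θ q) (hη : η < 1) (hR0 : w0 + (θ 1 + sb) < R) (hR1 : w0 + 1 + sb < R)
    (hRg : θ 0 + |θ 1| + 1 ≤ Rg) (hmic : Mic ν (θ 0) (θ 1) w0 sa sb)
    (hVB : VisB θ B I lev fl sc) (hE : InvE B I fl sc) (hk1 : θ 0 - θ 1 ≤ 1) :
    ETie' (θ 0 - θ 1) (θ 0) s (g + 2 * s) (q 0) (q 1) := by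
  have hk : 0 < θ 0 - θ 1 := TieT.kB hVB
  obtain ⟨k, hkd⟩ : ∃ k, k = θ 0 - θ 1 := ⟨_, rfl⟩
  rw [← hkd] at hk hk1 ⊢
  have hb : θ 1 = θ 0 - k := by linarith
  have hθ := hN.θa
  have hS : ∀ i : {i : Fin 4 // i = 3 → θ 1 < 0},
      SOk (nat8 1 (-(θ 0)) (-(θ 1))) (BsE k i) (sgE i) := by
    rintro ⟨i, hi⟩
    fin_cases i
    · exact sok_eD hθ hk hb
    · exact sok_oS (by linarith) (by linarith)
    · exact sok_eU hθ hk hb
    · exact sok_oP (by linarith) (by linarith) (hi rfl)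
  have hL : ∀ i : {i : Fin 4 // i = 3 → θ 1 < 0}, Leg8 (BsE k i) := by
    rintro ⟨i, hi⟩
    fin_cases i
    · exact leg_eD
    · exact leg_oS
    · exact leg_eU
    · exact leg_oP
  obtain ⟨v0, -, hv0, hv1, a, b', x, hh, lam, hX, hD, O⟩ := exists_out8 C hR0 hR1 hθ
    (by linarith) hmic hE.2 one_pos hS hL (N := univ) (by simp)
  have i0 : (0 : Fin 4) = 3 → θ 1 < 0 := fun h => absurd h (by decide)
  have i1 : (1 : Fin 4) = 3 → θ 1 < 0 := fun h => absurd h (by decide)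
  have i2 : (2 : Fin 4) = 3 → θ 1 < 0 := fun h => absurd h (by decide)
  obtain ⟨cm, hcm, hMm, hRecm, ρm, rm⟩ := O.surf ⟨0, i0⟩
  obtain ⟨cp, hcp, hMp, hRecp, ρp, rp⟩ := O.surf ⟨1, i1⟩
  obtain ⟨cu, hcu, hMu, hRecu, ρu, ru⟩ := O.surf ⟨2, i2⟩
  have hvis : ∀ i, VisT B I fl sc i → i = 0 ∨ i = 7 ∨ i = 8 :=
    fun i hi => Fk647.vis_e C.out hE i hi
  have hv1' : ¬ VisT B I fl sc 1 := fun h => by simpa using hvis 1 h
  obtain ⟨l, α, h', X, H, lam2, ρ2, hl, -, -, Pm⟩ := plane8 (Vis' := VisT B I fl sc) O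
    one_pos (sok_eD hθ hk hb) leg_eD hcm rm
    (v := -1) (c := -k) (p := -2 * k) le_rfl hv1'
    (fun i hi => Or.inl ⟨hi, by
      rcases hvis i hi with rfl | rfl | rfl
      · change (-1 : ℝ) ≤ -1 * 1
        norm_num
      · change -2 * k - -k ≤ -1 * (-(θ 1) - -(θ 0))
        linarith
      · change -2 * k - -k ≤ -1 * (-(θ 1) - -(θ 0))
        linarith⟩) (N := univ) (by simp) one_pos
  obtain ⟨l', α', h'', X', H', lam2', ρ2', hl', -, -, Pp⟩ := plane8 (Vis' := VisT B I fl sc) O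
    one_pos (sok_oS (by linarith) (by linarith)) leg_oS hcp rp
    (v := 0) (c := 1) (p := 1) (by
      refine all8 ?_ ?_ ?_ ?_ ?_ ?_ ?_ ?_ <;> ev8 <;> norm_num) hv1'
    (fun i hi => Or.inl ⟨hi, by
      rcases hvis i hi with rfl | rfl | rfl
      · change (0 : ℝ) ≤ 0 * 1
        norm_num
      · change (0 : ℝ) ≤ 0 * (-(θ 1) - -(θ 0))
        linarith
      · change (0 : ℝ) ≤ 0 * (-(θ 1) - -(θ 0))
        linarith⟩) (N := univ) (by simp) one_pos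
  obtain ⟨l3, α3, h3, X3, H3, lam3, ρ3, hl3, -, -, Pu⟩ := plane8 (Vis' := VisT B I fl sc) O
    one_pos (sok_eU hθ hk hb) leg_eU hcu ru
    (v := 1) (c := k) (p := 2 * k) le_rfl hv1'
    (fun i hi => Or.inl ⟨hi, by
      rcases hvis i hi with rfl | rfl | rfl
      · change (1 : ℝ) ≤ 1 * 1
        norm_num
      · change 2 * k - k ≤ 1 * (-(θ 1) - -(θ 0))
        linarith
      · change 2 * k - k ≤ 1 * (-(θ 1) - -(θ 0))
        linarith⟩) (N := univ) (by simp) one_pos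
  obtain ⟨A, f1, f2, f3, f4, f5, fm, fn, fe, fw, fu⟩ := planeE8 Pm C hN one_pos hv0 hv1 hk hkd hVB
    hvis O.rx (O.zero 0) (sok_eD hθ hk hb) (hc_eD hθ hk hb) (hz_eD hθ hk hb)
    (Hm621.eD_plE hθ hk hb) (by ring)
  have m1 : ρ2 1 = ρm 1 := Pm.half.eq 1 (A1_ne hθ)
  have m2 : ρ2' 1 = ρp 1 := Pp.half.eq 1 (A1_ne hθ)
  have m3 : ρ3 1 = ρu 1 := Pu.half.eq 1 (A1_ne hθ)
  have hsup := PosA348.supOn8 (O.rx.prf.sm)
  refine ⟨A, f1, fun _ => f2, fun _ => f3, f4, ?_, ?_, fun h1 h2 => ?_, fun h1 h2 => ?_⟩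
  · have e1 : -(-k + θ 0 * -1) = k + θ 0 := by ring
    rw [e1] at f5
    by_contra hcon
    push Not at hcon
    nlinarith
  · rw [fm, m1]
    exact PosA348.posA_eD one_ne_zero hcm hθ hk hb rm O.rx.prf (O.zero 0) O.rx.dmax hMm
  · have hk1' : k < 1 := by linarith
    obtain ⟨A', g1, g2, g3, gm, gn⟩ := planeU8 Pp C hN one_pos hv0 hv1 hk hk1' hkd hVB hvis O.rx
      (O.zero 0)
    refine ⟨A', g1, g2, g3, ?_, ?_⟩
    · rw [gm, fm, m1, m2]
      exact ant_eS hsup hθ hk hcm hcp hb hMm hMp rm rp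
    · exact NZ90.nzE_pl one_ne_zero hθ hk (by linarith) hb hcp hcm
        (NZ90.Out8.lamOk O (fun i hi => by rcases hvis i hi with rfl | rfl | rfl <;> simp)) rp rm
        Pm.half Pp.half fn fe fw.ge fu gn
  · have hb0 : θ 1 < 0 := by linarith
    obtain ⟨c3, hc3, hM3, hRec3, ρ4, r3⟩ := O.surf ⟨3, fun _ => hb0⟩
    obtain ⟨A', g1, g2, g3, g4, g5, gm, gn, ge, gw, gu⟩ := planeE8 Pu C hN one_pos hv0 hv1 hk hkd
      hVB hvis O.rx (O.zero 0) (sok_eU hθ hk hb) (hc_eU hθ hk hb) (hz_eU hθ hk hb)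
      (eU_plE hθ hk hb) (by ring)
    refine ⟨A', ⟨g1, g4, ?_, ?_, ?_⟩, fun _ => g3⟩
    · have e1 : -(k + θ 0 * 1) = -(k + θ 0) := by ring
      rw [e1] at g5
      by_contra hcon
      push Not at hcon
      nlinarith
    · rw [gm, fm, m1, m3]
      exact ant_e hsup hθ hk hcm hcu hb hMm hMu rm ru
    · rw [gm, m3]
      refine le_trans ?_ (pos_e hsup hθ hk hcu hc3 hb hb0 hMu hM3 ru r3)
      exact Pos126.posB8 O.rx.prf.ab O.rx.prf.anti O.rx.prf.cost (O.zero 0) O.rx.dmax one_pos hc3 hθ hb0 r3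

end

end Crest.Agent.R116.FlE794
end

-- ▼ part R116/RTx_850
section

/-!
# R116, ROW TIE (helper850): `RowTie` from (H4) alone

* `d0E_lo` : D0 with `E` invisible, `s < 1/2` (878, 219, 899)
* `fillE8` : 794's cell
* **`rowTie_of_h4`** : (H4) ⊢ `RowTie η`
-/

set_option autoImplicit false
set_option linter.unusedVariables false

namespace Crest.Agent.R116.FlH850

open Crest.Agent.R116.KTop387
open Crest.Agent.R116.CtxB468
open Crest.Agent.R116.Tie460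
open Crest.Agent.R116.KTie794

variable {η : ℝ}

/-- D0 with `E` invisible, `s < 1/2` -/
theorem d0E_lo (hη : η < 1) : D0E η fun s _ => s < 1 / 2 :=
  D0E.of3 (X := fun s _ => s < 1 / 2) (D0E.of (D0p878.D0pos hη)) (D0E.of (D0y219.D0neg hη.le))
    (D0z899.d0zero hη.le)

/-- 794's cell -/
theorem fillE8 (hη : η < 1) : Fill η VE fun g s θ q => s < 1 / 2 → θ 0 - θ 1 ≤ 1 →
    ETie' (θ 0 - θ 1) (θ 0) s (g + 2 * s) (q 0) (q 1) := by
  refine fill_of ?_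
  intro G L r g s θ q Rg B I lev A f b vm w fr fl sc w0 sa sb δ R I0 I' ν own c₀ C hN hR0 hR1 hRg
    hV hs hk
  exact FlE794.eTie8 C hN hη hR0 hR1 hRg
    (d0E_lo hη C hN hs hR0 hR1 hRg hV.2.2 hV.2.1 fun _ => hk) hV.1 hV.2 hk

/-- **the row of the ties from (H4)** -/
theorem rowTie_of_h4 (hη : η < 1)
    (h4 : Fill η VE fun g s θ q => 1 / 2 ≤ s → θ 0 - θ 1 = 1 → False) : RowTie η :=
  rowTie_of_e hη (fillE8 hη) h4

end Crest.Agent.R116.FlH850
end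

-- ▼ part R116/Ts3_905
section

/-!
# R116, cell (H4) (`e`-tie, `k = 1`, `1/2 ≤ s`), class layer: the two rows (helper905)

The tie plane is `p = c + z`, `D` frozen (`ρ 8 = 0` is not used, `0 ≤ ρ 8` is);
`n0 = (-1; 0, -1)`, `n1 = (-1; 1, 0)`.

* `nN1`  : `0 < m ⊢ n ≤ s` (K1 for the increments of `X`, then (K3))
* `rowA` : `s < m ⊢ c - q_b - 2 s ≤ Λ n0 - DL n0`
* `rowB` : `m ≤ s + ε ⊢ c + q_a - 2 s - ε ≤ Λ n1 - DL n1`
-/

set_option autoImplicit false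
set_option linter.unusedSectionVars false
set_option linter.unusedVariables false

open Set Filter Topology

namespace Crest.Agent.R116.Ts905

open Tq741
open K3e160 (K3C)
open Tie460 (Pl)
open RbM219 (nat9)
open Sg337 (DL)

variable {c : Fin 9 → Fin 9} {dl : V9} {s : ℝ} {Λ : V9 → ℝ} {φ : Fin 9 → V9 → ℝ} {ρ : V9}

/-- the increments of `X` with `C_b` coarse, from (K1) -/
theorem incX (P : PlE 1 c dl) (H : Cl9 c dl s Λ φ ρ) (hs1 : s ≤ 1)
    (F : Fct9 (fun w => w 6 < 1 * w 0) s Λ) (hm : 0 < ρ 1) {y : ℝ} (hy : 0 ≤ y) :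
    (1 - s) * y ≤ φ (c 3) 0 - φ (c 3) (y • e9 3) := by
  rcases hy.eq_or_lt with rfl | hy
  · simp
  · have h2 := P.eX1 H (q := 1 - s) (by linarith) hy fun w R h1 h2 h3 h4 =>
      F.K1 w R h1 h2 h3 (by rw [h4]; exact hm)
    rwa [zero_add] at h2

/-- `n ≤ s` if `0 < m` -/
theorem nN1 (P : PlE 1 c dl) (H : Cl9 c dl s Λ φ ρ) (hs1 : s ≤ 1)
    (F : Fct9 (fun w => w 6 < 1 * w 0) s Λ) (K3 : K3C c s φ ρ) (hm : 0 < ρ 1) : 1 - s ≤ ρ 4 :=
  K3 hm fun _ hy => incX P H hs1 F hm hy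

/-- the value at `n0` -/
theorem val0 (P : PlE 1 c dl) (H : Cl9 c dl s Λ φ ρ) :
    Λ (nat9 (-1) 0 (-1)) = ρ 0 + rE c φ + (1 - xE c φ) + 2 * ρ 4 + (1 - hE c φ) + ρ 7 := by
  have h := natE H P (-1) 0
  have e : (0 : ℝ) + 1 * -1 = -1 := by norm_num
  rw [e] at h
  rw [h]
  ring

/-- the value at `n1` -/
theorem val1 (P : PlE 1 c dl) (H : Cl9 c dl s Λ φ ρ) :
    Λ (nat9 (-1) 1 0) = ρ 0 - ρ 1 + ρ 4 - (1 - hE c φ) + 2 * ρ 7 + ρ 8 := by
  have h := natE H P (-1) 1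
  have e : (1 : ℝ) + 1 * -1 = 0 := by norm_num
  rw [e] at h
  rw [h]
  ring

/-- **row (A)** : direction `n0`, `s < m` -/
theorem rowA (P : PlE 1 c dl) (H : Cl9 c dl s Λ φ ρ) (hs0 : 0 ≤ s) (hs1 : s ≤ 1)
    (F : Fct9 (fun w => w 6 < 1 * w 0) s Λ) (K3 : K3C c s φ ρ) (hm : s < ρ 1) {g qa qb : ℝ} :
    g - qb - 2 * s ≤ Λ (nat9 (-1) 0 (-1)) - DL g s qa qb (-1) 0 (-1) := by
  have hP := P.pos (s := s) H
  have hA := P.fanA H one_pos F hs0
  have fx : xE c φ = 0 := hA.fx hm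
  have fh : hE c φ = 0 := hA.fh hm
  have h4 := nN1 P H hs1 F K3 (hs0.trans_lt hm)
  have r0 : 0 ≤ rE c φ := hP.r0
  have u0 : 0 ≤ ρ 7 := hP.u0
  have e0 := H.own
  rw [val0 P H, fx, fh]
  unfold DL
  linarith

/-- **row (B)** : direction `n1`, `m ≤ s + ε` -/
theorem rowB (P : PlE 1 c dl) (H : Cl9 c dl s Λ φ ρ) (hs : 1 / 2 ≤ s) (hs1 : s ≤ 1)
    (F : Fct9 (fun w => w 6 < 1 * w 0) s Λ) (K3 : K3C c s φ ρ) {ε : ℝ} (hε : 0 ≤ ε)
    (hm : ρ 1 ≤ s + ε) {g qa qb : ℝ} :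
    g + qa - 2 * s - ε ≤ Λ (nat9 (-1) 1 0) - DL g s qa qb (-1) 1 0 := by
  have hP := P.pos (s := s) H
  have h0 : 0 ≤ hE c φ := hP.h0
  have u0 : 0 ≤ ρ 7 := hP.u0
  have d0 : 0 ≤ ρ 8 := hP.d0
  have m0 : 0 ≤ ρ 1 := hP.m0
  have n0 := P.al4.nonneg H
  have e0 := H.own
  rw [val1 P H]
  unfold DL
  rcases m0.eq_or_lt with hm0 | hm0
  · rw [← hm0]
    linarith
  · have h4 := nN1 P H hs1 F K3 hm0
    linarith

end Crest.Agent.R116.Ts905
end

-- ▼ part R116/Ts4_72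
section

/-!
# R116, cell (H4) (`e`-tie, `k = 1`, `1/2 ≤ s`): the facts at one point of the tie plane (helper72)

`P4 a b` = natural box `(-(a+b); b, -a)` with `D` frozen at the record level (raised by `b`): the
tie plane `p = c + z` of the **first** tangent at the record point `v0`.

* **`h4_pt`** : for tangents of the first tangent at `P4 a b`, `0 < b`, on `LM0`:
  `Prf`, `Fct9` and (K3).
-/

set_option autoImplicit false
set_option linter.unusedVariables false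
set_option linter.unusedSectionVars false

open Filter Topology Set

namespace Crest.Agent.R116.Ts72

open Crest.Agent.R138
open Crest.Agent.R138.Ex926 (Base U IsTan)
open Crest.Agent.R136
open Crest.Agent.R136.MkA627
open Crest.Agent.R136.TD627
open Crest.Agent.R136.Net191
open Crest.Agent.R136.Lq196
open Crest.Agent.R136.Qg926 Crest.Agent.R136.Gf356 Crest.Agent.R116.EvL504
open Crest.Agent.R116.ChL222
open Crest.Agent.R116.PL504 (nb rL DN eL βL oL Shift eL_wall)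
open Crest.Agent.R116.Xd954 (cs xs)
open Crest.Agent.R116.Sg337 (bx9 coneL DL natB eL_bx9)
open Crest.Agent.R116.Gd222 (TSet sN PDL DT)
open Crest.Agent.R116.KI439
open Crest.Agent.R116.KF439 (PL)
open Crest.Agent.R116.CtxB468
open Crest.Agent.R116.Rcx363
open Crest.Agent.R116.RbM219
open Crest.Agent.R116.Tq794
open Crest.Agent.R116.Tq741
open Crest.Agent.R116.KTie794
open Crest.Agent.R116.Tw369 (TBase)
open Crest.Agent.R116.K3e160 (K3C K3P k3c_gen wG)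
open Crest.Agent.R116.SgF665 (LM0)

/-- boxes of the tie plane `p = c + z`, `D` frozen at the record level -/
def P4 (a b : ℝ) : Fin 12 → ℝ := natB (-(a + b)) b (-a) + b • (Pi.single 1 1 : Fin 12 → ℝ)

theorem P4_mem {a b : ℝ} (hb : 0 ≤ b) : P4 a b ∈ coneL := single_mem (natB_mem _ _ _) hb

theorem P4_eL (a b : ℝ) :
    P4 a b = eL (-(a + b)) b (-a) + b • (Pi.single 1 1 : Fin 12 → ℝ) := by
  rw [eL_bx9]; rfl

theorem P4_v (a b : ℝ) : P4 a b 0 = -(a + b) ∧ P4 a b 1 = 0 ∧ P4 a b 2 = -a - 2 * b ∧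
    P4 a b 3 = b ∧ P4 a b 4 = b ∧ P4 a b 5 = -a ∧ P4 a b 6 = -a ∧ P4 a b 7 = -(a + b) ∧
    P4 a b 8 = -(a + b) ∧ P4 a b 9 = -a + b ∧ P4 a b 10 = -a ∧ P4 a b 11 = -(a + b) - a := by
  unfold P4 natB
  refine ⟨?_, ?_, ?_, ?_, ?_, ?_, ?_, ?_, ?_, ?_, ?_, ?_⟩ <;>
    simp [bx9] <;> ring

theorem P4_cs (a b : ℝ) (i : Fin 2) : P4 a b (cs i) = b := by
  have h := P4_v a b
  fin_cases i
  · exact h.2.2.2.1
  · exact h.2.2.2.2.1

theorem P4_xs (a b : ℝ) (i : Fin 2) : P4 a b (xs i) = -a := by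
  have h := P4_v a b
  fin_cases i
  · exact h.2.2.2.2.2.1
  · exact h.2.2.2.2.2.2.1

variable {G : Geo TSet (Fin 2)} {L : ℕ → ℕ → LRay} {r : ℕ → ℝ} {g s : ℝ} {θ q : Fin 2 → ℝ}
    {Rg : ℝ} {B : Base} {I : ℕ → Finset (ℕ × ℝ)} {lev : ℕ → ℚ → ℕ} {A : ℕ → ℝ}
    {f : ℕ → ℚ → ℕ → ℤ → ℕ} {b : ℕ → ℚ → ℕ → TSet} {vm : ℕ → ℚ → ℝ} {w : Fin 2 → ℕ → ℚ → ℝ}
    {fr : ℕ → ℚ → ℕ × ℝ → LInc} {fl : ℕ → ℕ × ℝ → LInc} {sc : Fin 12 → ℕ → ℝ}
    {w0 sa sb δ R : ℝ} {I0 I' : ℕ → Finset (ℕ × ℝ)} {ν own : (Fin 12 → ℝ) → ℝ} {c₀ : ℝ}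

theorem beta7 (h1 : θ 0 - θ 1 = 1) {k : Fin 12} (hk : k = 0 ∨ k = 7 ∨ k = 8) :
    βL (θ 0) (θ 1) k = 1 := by
  rcases hk with rfl | rfl | rfl
  · rfl
  · show -(θ 1) - -(θ 0) = 1
    linarith
  · show -(θ 1) - -(θ 0) = 1
    linarith

/-- **the facts at a point of the tie plane, over the first tangent** -/
theorem h4_pt
    (C : CtxT G L r g s θ q Rg B I lev A f b vm w fr fl sc w0 sa sb δ R I0 I' ν own c₀)
    (hs0 : 0 ≤ s) (hs1 : s ≤ 1) (hθ : 0 < θ 0) (h1 : θ 0 - θ 1 = 1)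
    (hVB : VisB θ B I lev fl sc) (hIE : InvE B I fl sc) {v0 : ℝ} (hv0 : 0 < v0) (hv1 : v0 < 1)
    {hh : ℕ → ℝ} (hpos : ∀ l, 0 < hh l) (hh0 : Tendsto hh atTop (𝓝 0))
    {g1 : Fin 2 → (Fin 12 → ℝ) → ℝ} (ht1 : ∀ j, IsTan (Leg monL R) coneL (fo ν own j)
      (fun _ => rL (θ 0) (θ 1) w0 sa sb v0) hh (g1 j)) {a' b' : Fin 2}
    (hP1 : Prf coneL s a' b' (VisT B I fl sc) (βL (θ 0) (θ 1)) (g1 0))
    {x y : ℝ} (hy : 0 < y) {k : ℕ → ℝ} (kpos : ∀ m, 0 < k m) (k0 : Tendsto k atTop (𝓝 0))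
    {lam : Fin 2 → (Fin 12 → ℝ) → ℝ}
    (hl : ∀ j, IsTan coneL LM0 (g1 j) (fun _ => P4 x y) k (lam j)) :
    Prf LM0 s a' b' (VisT B I fl sc) (βL (θ 0) (θ 1)) (lam 0) ∧
      Fct9 (fun w => w 6 < 1 * w 0) s (fun w => lam 0 (E8 w)) ∧
      ∀ (c : Fin 9 → Fin 9) (dl : V9) (φ : Fin 9 → V9 → ℝ) (ρ : V9),
        Cl9 c dl s (fun w => lam 0 (E8 w)) φ ρ → PlE 1 c dl → K3C c s φ ρ := by
  have hvis := Hm621.vis78 C hIE.2 hIE.1
  obtain ⟨p0, p1, p2, p3, p4, p5, p6, p7, p8, p9, p10, p11⟩ := P4_v x y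
  -- the profile
  have hP : Prf LM0 s a' b' (VisT B I fl sc) (βL (θ 0) (θ 1)) (lam 0) := by
    refine hP1.tan kpos k0 (hl 0) (fun m => ?_) (fun m => ?_) fun i hi => Or.inl ⟨hi, fun m => ?_⟩
    · show P4 x y (cs b') = P4 x y (cs a')
      rw [P4_cs, P4_cs]
    · show P4 x y (xs b') = P4 x y (xs a')
      rw [P4_xs, P4_xs]
    · show P4 x y i ≤ P4 x y 0 * βL (θ 0) (θ 1) i
      rw [beta7 h1 (hvis i hi), mul_one, p0]
      rcases hvis i hi with rfl | rfl | rfl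
      · rw [p0]
      · rw [p7]
      · rw [p8]
  -- the diagonal
  obtain ⟨ψ, hψ, -, hT⟩ := Rc683.diagF (P := fun _ : Fin 2 => Leg monL R) (L := fun _ => coneL)
    (L' := fun _ => LM0) hpos ht1 (y := P4 x y) (fun _ => P4_mem hy.le) kpos hl
    (A := fun _ _ => True) (fun _ => Eventually.of_forall fun _ => trivial)
  set X : ℕ → Fin 12 → ℝ :=
    fun m => rL (θ 0) (θ 1) w0 sa sb v0 + hh (ψ m) • P4 x y with hX
  set H : ℕ → ℝ := fun m => hh (ψ m) * k m with hH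
  have hψ0 : Tendsto (fun m => hh (ψ m)) atTop (𝓝 0) := hh0.comp hψ.tendsto_atTop
  have Hpos : ∀ m, 0 < H m := fun m => mul_pos (hpos _) (kpos m)
  have H0 : Tendsto H atTop (𝓝 0) := by
    have := hψ0.mul k0
    rwa [zero_mul] at this
  have hXl : Tendsto X atTop (𝓝 (rL (θ 0) (θ 1) w0 sa sb v0)) := by
    have := (hψ0.smul_const (P4 x y)).const_add (rL (θ 0) (θ 1) w0 sa sb v0)
    rwa [zero_smul, add_zero] at this
  have hXn : ∀ m, X m = eL (w0 + v0 + hh (ψ m) * (-(x + y)))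
      (θ 0 * (1 - v0) + sa + hh (ψ m) * y) (θ 1 * (1 - v0) + sb + hh (ψ m) * (-x)) +
      (hh (ψ m) * y) • (Pi.single 1 1 : Fin 12 → ℝ) := by
    intro m
    funext i
    have e1 := eL_lin (w0 + v0) (θ 0 * (1 - v0) + sa) (θ 1 * (1 - v0) + sb) (-(x + y)) y (-x)
      (hh (ψ m)) i
    show rL (θ 0) (θ 1) w0 sa sb v0 i + hh (ψ m) * P4 x y i = _
    rw [P4_eL]
    simp only [Pi.add_apply, Pi.smul_apply, smul_eq_mul]
    rw [← e1]
    show eL (w0 + v0) (θ 0 * (1 - v0) + sa) (θ 1 * (1 - v0) + sb) i + _ = _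
    ring
  have hdd : ∀ K : ℝ, ∀ᶠ m in atTop, K * H m ≤ hh (ψ m) * y := by
    intro K
    have h2 : Tendsto (fun m => K * k m) atTop (𝓝 0) := by
      have := k0.const_mul K
      rwa [mul_zero] at this
    filter_upwards [h2.eventually_lt_const hy] with m hm
    have := mul_le_mul_of_nonneg_left hm.le (hpos (ψ m)).le
    show K * (hh (ψ m) * k m) ≤ _
    linarith
  have hSk : ∀ w : V9, LegM 0 w → w 6 < 1 * w 0 → ∀ k, VisT B I fl sc k →
      E8 w k ≤ w 0 * βL (θ 0) (θ 1) k := by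
    intro w hw h6 i hi
    rw [beta7 h1 (hvis i hi), mul_one]
    rcases hvis i hi with rfl | rfl | rfl
    · exact le_refl (w 0)
    · show w 6 ≤ w 0
      linarith
    · show w 6 ≤ w 0
      linarith
  refine ⟨hP, fct8_ctx C hs0 hs1 (Kt710.hthB C hv0 hv1 hθ) Hpos H0 hXl hT hXn hdd hP hSk, ?_⟩
  intro c dl φ ρ hC P
  -- the bases of (K3)
  have hv : Tendsto (fun m => v0 + hh (ψ m) * (-(x + y))) atTop (𝓝 v0) := by
    have := (hψ0.mul_const (-(x + y))).const_add v0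
    rwa [zero_mul, add_zero] at this
  have hK : K3P (θ 0) (θ 1) w0 sa sb v0 X (fun m => v0 + hh (ψ m) * (-(x + y))) := by
    refine ⟨⟨hv0, hv1, hv, fun m => ?_, fun m i hi => ?_⟩,
      fun j _ => (tendsto_pi_nhds.1 hXl) j, fun m => ?_, fun m => ?_, fun m => ?_, fun m => ?_,
      fun m => ?_, fun m => ?_, fun m => ?_⟩
    · show (w0 + v0) + hh (ψ m) * P4 x y 0 = _
      rw [p0]; ring
    · have hi' : i = 0 ∨ i = 7 ∨ i = 8 := by simpa using hi
      rw [rL_add]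
      show rL (θ 0) (θ 1) w0 sa sb v0 i + hh (ψ m) * P4 x y i =
        rL (θ 0) (θ 1) w0 sa sb v0 i + hh (ψ m) * (-(x + y)) * βL (θ 0) (θ 1) i
      rw [beta7 h1 hi']
      rcases hi' with rfl | rfl | rfl
      · rw [p0]; ring
      · rw [p7]; ring
      · rw [p8]; ring
    all_goals
      rw [hXn m]
      simp [eL]
      try ring
  obtain ⟨j, hj, hTj⟩ : ∃ j : Fin 12, (j = 7 ∨ j = 8) ∧ TieT θ B I lev fl sc j := by
    rcases hVB with h | h
    · exact ⟨7, Or.inl rfl, h⟩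
    · exact ⟨8, Or.inr rfl, h⟩
  refine k3c_gen C (E := E8) (M := LM0) (Or.inl ⟨rfl, rfl⟩) Hpos H0 (hT 0) hK hθ h1 hj hTj
    (z := 0) (G' := 1) (D' := 100) (by norm_num) (by norm_num) (by norm_num)
    (fun i hi hV => (hvis i hV).elim (fun h => absurd h hi) fun h => h.elim Or.inl fun h =>
      Or.inr (Or.inl h)) hC ?_ (P.al (Or.inl rfl)) (P.al (Or.inr (Or.inl rfl))) ?_ ?_
  · filter_upwards [self_mem_nhdsWithin] with x' hx' y' hy'
    have hx'' : (0:ℝ) < x' := hx'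
    have e0 : (wG 0 1 100 + x' • Tw369.dE) 0 = 0 := by simp [wG, Tw369.dE]
    have e6 : (wG 0 1 100 + x' • Tw369.dE) 6 = 0 := by simp [wG, Tw369.dE]
    refine own_prf hP (fun d hd => E8_mem hd) E8_add (fun _ => rfl) e9_nonneg8 ?_ ?_ hy'
    · constructor <;> simp [wG, Tw369.dE] <;> linarith
    · intro i hi
      rw [beta7 h1 (hvis i hi), mul_one]
      rcases hvis i hi with rfl | rfl | rfl
      · exact le_refl _
      · show (wG 0 1 100 + x' • Tw369.dE) 6 ≤ (wG 0 1 100 + x' • Tw369.dE) 0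
        rw [e0, e6]
      · show (wG 0 1 100 + x' • Tw369.dE) 6 ≤ (wG 0 1 100 + x' • Tw369.dE) 0
        rw [e0, e6]
  · intro t ht
    have h2 := (P.par t 3).1 ht
    unfold PE at h2
    rcases h2 with h | ⟨h, h'⟩ | ⟨h, h'⟩ | ⟨-, ⟨h, h'⟩ | ⟨h, h'⟩⟩ | ⟨h, -⟩
    · exact Or.inr h
    · simp at h'
    · simp at h'
    · exact Or.inl h
    · simp at h'
    · norm_num at h
  · intro t t' ht h0
    have h2 : c t' = c 0 := by
      rcases h0 with rfl | rfl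
      · exact ht.symm
      · rw [← ht, P.c6]
    rcases P.z.1 h2 with h | h
    · exact Or.inl h
    · exact Or.inr (Or.inl h)

end Crest.Agent.R116.Ts72
end

-- ▼ part R116/Ts1_654
section

/-!
# R116, cell (H4) (e-tie, `k = 1`, `s ≥ 1/2`): the two-step argument (helper654; doc 24076)

* `grow` : a Lipschitz function of one variable whose derivative is a.e. `≥ γ` where it exists.
* `two_step` : there is no `f ≤ 0` on `[0,τ]²`, Lipschitz in each variable, `f (0,0) ≥ -γτ/8`,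
  with a set `Hi` upward closed in the first variable such that a.e. `∂_a f ≥ γ` on `Hi` and
  a.e. `∂_b f ≥ γ` off `Hi`.
-/

set_option autoImplicit false

open MeasureTheory Set Filter Topology
open scoped NNReal

namespace Crest.Agent.R116.Ts654

theorem grow {g : ℝ → ℝ} {K x y γ : ℝ} (hK : 0 ≤ K)
    (hg : ∀ t ∈ Icc x y, ∀ t' ∈ Icc x y, |g t - g t'| ≤ K * |t - t'|) (hxy : x ≤ y)
    (hd : ∀ᵐ t, t ∈ Ioo x y → ∀ d, HasDerivAt g d t → γ ≤ d) : γ * (y - x) ≤ g y - g x := by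
  have hL : LipschitzOnWith ⟨K, hK⟩ g (Icc x y) := by
    refine LipschitzOnWith.of_dist_le_mul fun t ht t' ht' => ?_
    rw [Real.dist_eq, Real.dist_eq]
    exact hg t ht t' ht'
  have hac : AbsolutelyContinuousOnInterval g x y :=
    LipschitzOnWith.absolutelyContinuousOnInterval (by rwa [uIcc_of_le hxy])
  have hI := hac.integral_deriv_eq_sub
  have hii := hac.intervalIntegrable_deriv
  have hae : ∀ᵐ t, t ∈ Ioo x y → γ ≤ deriv g t := by
    filter_upwards [hd, hac.ae_differentiableAt] with t h1 h2 ht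
    have h3 : t ∈ uIcc x y := by
      rw [uIcc_of_le hxy]; exact Ioo_subset_Icc_self ht
    exact h1 ht _ (h2 h3).hasDerivAt
  have hle : ∫ t in x..y, γ ≤ ∫ t in x..y, deriv g t := by
    refine intervalIntegral.integral_mono_ae_restrict hxy intervalIntegrable_const hii ?_
    have h1 : ∀ᵐ t ∂(volume.restrict (Icc x y)), t ∈ Ioo x y := by
      rw [← restrict_Ioo_eq_restrict_Icc]
      exact ae_restrict_mem measurableSet_Ioo
    filter_upwards [h1, ae_restrict_of_ae hae] with t h2 h3 using h3 h2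
  rw [hI, intervalIntegral.integral_const, smul_eq_mul] at hle
  linarith

theorem two_step {τ γ K : ℝ} (hτ : 0 < τ) (hγ : 0 < γ) (hK : 0 ≤ K) {f : ℝ → ℝ → ℝ}
    (hLa : ∀ b ∈ Icc 0 τ, ∀ a ∈ Icc 0 τ, ∀ a' ∈ Icc 0 τ, |f a b - f a' b| ≤ K * |a - a'|)
    (hLb : ∀ a ∈ Icc 0 τ, ∀ b ∈ Icc 0 τ, ∀ b' ∈ Icc 0 τ, |f a b - f a b'| ≤ K * |b - b'|)
    (h0 : -(γ * τ / 8) ≤ f 0 0) (hneg : ∀ a ∈ Icc 0 τ, ∀ b ∈ Icc 0 τ, f a b ≤ 0)
    {Hi : ℝ → ℝ → Prop}
    (hup : ∀ a ∈ Ioo 0 τ, ∀ a' ∈ Ioo 0 τ, ∀ b ∈ Ioo 0 τ, a ≤ a' → Hi a b → Hi a' b)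
    (hA : ∀ᵐ z : ℝ × ℝ, z.1 ∈ Ioo 0 τ → z.2 ∈ Ioo 0 τ → Hi z.1 z.2 →
      ∀ d, HasDerivAt (fun a => f a z.2) d z.1 → γ ≤ d)
    (hB : ∀ᵐ z : ℝ × ℝ, z.1 ∈ Ioo 0 τ → z.2 ∈ Ioo 0 τ → ¬ Hi z.1 z.2 →
      ∀ d, HasDerivAt (fun b => f z.1 b) d z.2 → γ ≤ d) : False := by
  -- Fubini
  have hB1 : ∀ᵐ a : ℝ, ∀ᵐ b : ℝ, a ∈ Ioo 0 τ → b ∈ Ioo 0 τ → ¬ Hi a b →
      ∀ d, HasDerivAt (fun b => f a b) d b → γ ≤ d := Measure.ae_ae_of_ae_prod hB
  have hA1 : ∀ᵐ b : ℝ, ∀ᵐ a : ℝ, a ∈ Ioo 0 τ → b ∈ Ioo 0 τ → Hi a b →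
      ∀ d, HasDerivAt (fun a => f a b) d a → γ ≤ d := by
    have h1 : ∀ᵐ z : ℝ × ℝ, z.2 ∈ Ioo 0 τ → z.1 ∈ Ioo 0 τ → Hi z.2 z.1 →
        ∀ d, HasDerivAt (fun a => f a z.1) d z.2 → γ ≤ d :=
      (Measure.measurePreserving_swap (μ := (volume : Measure ℝ))
        (ν := (volume : Measure ℝ))).quasiMeasurePreserving.ae hA
    exact Measure.ae_ae_of_ae_prod h1
  -- the line `a = a0`
  obtain ⟨δ, hδ, hδτ, hδK⟩ : ∃ δ, 0 < δ ∧ δ ≤ τ / 2 ∧ K * δ ≤ γ * τ / 8 := by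
    refine ⟨min (τ / 2) (γ * τ / 8 / (K + 1)), lt_min (by positivity) (by positivity),
      min_le_left _ _, ?_⟩
    calc K * min (τ / 2) (γ * τ / 8 / (K + 1)) ≤ (K + 1) * (γ * τ / 8 / (K + 1)) := by
          refine mul_le_mul (by linarith) (min_le_right _ _) ?_ (by linarith)
          exact (lt_min (by positivity) (by positivity)).le
      _ = γ * τ / 8 := by field_simp
  obtain ⟨a0, ha0, hb⟩ : ∃ a0 ∈ Ioo 0 δ, ∀ᵐ b : ℝ, a0 ∈ Ioo 0 τ → b ∈ Ioo 0 τ → ¬ Hi a0 b →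
      ∀ d, HasDerivAt (fun b => f a0 b) d b → γ ≤ d := by
    refine Measure.exists_mem_of_measure_ne_zero_of_ae (μ := volume) ?_ (ae_restrict_of_ae hB1)
    rw [Real.volume_Ioo]
    simpa using hδ
  have ha0τ : a0 ∈ Ioo 0 τ := ⟨ha0.1, by linarith [ha0.2]⟩
  have ha0c : a0 ∈ Icc 0 τ := Ioo_subset_Icc_self ha0τ
  set g : ℝ → ℝ := fun b => f a0 b with hg
  have hgL : ∀ b ∈ Icc 0 τ, ∀ b' ∈ Icc 0 τ, |g b - g b'| ≤ K * |b - b'| := hLb a0 ha0c
  have h0c : (0 : ℝ) ∈ Icc 0 τ := ⟨le_rfl, hτ.le⟩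
  have hg0 : -(γ * τ / 4) ≤ g 0 := by
    have h1 := hLa 0 h0c 0 h0c a0 ha0c
    have h2 := (abs_le.1 h1).2
    have h3 : |0 - a0| = a0 := by rw [zero_sub, abs_neg, abs_of_pos ha0.1]
    rw [h3] at h2
    have h4 : K * a0 ≤ K * δ := mul_le_mul_of_nonneg_left ha0.2.le hK
    simp only [hg]
    linarith
  -- off the barrier, the derivative is `≥ γ`
  have hder : ∀ᵐ b : ℝ, b ∈ Ioo 0 τ → -(γ * τ / 2) < g b → ∀ d, HasDerivAt g d b → γ ≤ d := by
    filter_upwards [hb, hA1] with b m1 m2 hbτ hlow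
    have hbc : b ∈ Icc 0 τ := Ioo_subset_Icc_self hbτ
    by_cases hHi : Hi a0 b
    · exfalso
      have h1 := grow (γ := γ) hK (g := fun a => f a b) (x := a0) (y := τ)
        (fun t ht t' ht' => hLa b hbc t ⟨by linarith [ht.1, ha0.1], ht.2⟩ t'
          ⟨by linarith [ht'.1, ha0.1], ht'.2⟩) ha0τ.2.le (by
          filter_upwards [m2] with a m3 ha d hd
          have haτ : a ∈ Ioo 0 τ := ⟨by linarith [ha.1, ha0.1], ha.2⟩
          exact m3 haτ hbτ (hup a0 ha0τ a haτ b hbτ ha.1.le hHi) d hd)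
      have h2 := hneg τ ⟨hτ.le, le_rfl⟩ b hbc
      have h3 : γ * (τ / 2) ≤ γ * (τ - a0) :=
        mul_le_mul_of_nonneg_left (by linarith [ha0.2]) hγ.le
      simp only [hg] at hlow
      have h1' : γ * (τ - a0) ≤ f τ b - f a0 b := h1
      linarith
    · exact m1 ha0τ hbτ hHi
  have hcont : ContinuousOn g (Icc 0 τ) := by
    have hL : LipschitzOnWith ⟨K, hK⟩ g (Icc 0 τ) := by
      refine LipschitzOnWith.of_dist_le_mul fun t ht t' ht' => ?_
      rw [Real.dist_eq, Real.dist_eq]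
      exact hgL t ht t' ht'
    exact hL.continuousOn
  -- the barrier is never crossed
  have hbar : ∀ b ∈ Icc 0 τ, -(γ * τ / 2) < g b := by
    by_contra hcon
    push Not at hcon
    obtain ⟨b1, hb1, hlow⟩ := hcon
    set S : Set ℝ := {b ∈ Icc 0 τ | g b ≤ -(γ * τ / 2)} with hS
    have hSc : IsClosed S := by
      have h1 : IsClosed (Icc (0:ℝ) τ ∩ g ⁻¹' (Iic (-(γ * τ / 2)))) :=
        hcont.preimage_isClosed_of_isClosed isClosed_Icc isClosed_Iic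
      exact h1
    have hSne : S.Nonempty := ⟨b1, hb1, hlow⟩
    have hSb : BddBelow S := ⟨0, fun b hb => hb.1.1⟩
    set c := sInf S with hc
    have hcS : c ∈ S := hSc.csInf_mem hSne hSb
    have hlt : ∀ b ∈ Icc 0 τ, b < c → -(γ * τ / 2) < g b := fun b hb' hbc => by
      by_contra h1
      exact absurd (csInf_le hSb (show b ∈ S from ⟨hb', not_lt.1 h1⟩)) (not_le.2 hbc)
    have h1 := grow (γ := γ) hK (g := g) (x := 0) (y := c)
      (fun t ht t' ht' => hgL t ⟨ht.1, ht.2.trans hcS.1.2⟩ t' ⟨ht'.1, ht'.2.trans hcS.1.2⟩)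
      hcS.1.1 (by
        filter_upwards [hder] with b m1 hb' d hd
        have hbτ : b ∈ Ioo 0 τ := ⟨hb'.1, hb'.2.trans_le hcS.1.2⟩
        exact m1 hbτ (hlt b (Ioo_subset_Icc_self hbτ) hb'.2) d hd)
    have h2 : 0 ≤ γ * (c - 0) := mul_nonneg hγ.le (by linarith [hcS.1.1])
    have h3 := hcS.2
    have h4 : 0 < γ * τ := mul_pos hγ hτ
    linarith
  have h1 := grow (γ := γ) hK (g := g) (x := 0) (y := τ) hgL hτ.le (by
    filter_upwards [hder] with b m1 hb' d hd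
    exact m1 hb' (hbar b (Ioo_subset_Icc_self hb')) d hd)
  have h2 := hneg a0 ha0c τ ⟨hτ.le, le_rfl⟩
  have h4 : 0 < γ * τ := mul_pos hγ hτ
  have h5 : γ * (τ - 0) ≤ g τ - g 0 := h1
  have h6 : g τ ≤ 0 := h2
  linarith

end Crest.Agent.R116.Ts654
end

-- ▼ part R116/Ts2p_604
section

/-!
# R116 (ties, (H4)), increments of `C` at boxes with the same `C`, `D` (helper604, for helper101)

* `incC f p y = f p - f (p + y e_C)` (both slots `3`, `4` move)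
* `incC_le`, `incC_ev` : `p ≤ q` legal with the same `C`: increments at `q` ≤ increments at `p`
* `MC f κ h p` : the increments at `p` are `≥ κ h l` for infinitely many `l`; `MC.mono`
* `MC.sub`, `tan_ge`, `tan_le` : the rate of `C` in tangents
-/

set_option autoImplicit false
set_option linter.unusedVariables false

open Set Filter Topology

namespace Crest.Agent.R116.Ts2p604

open Crest.Agent.R138
open Crest.Agent.R138.Ex926 (IsTan)
open Crest.Agent.R136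
open Crest.Agent.R136.Net191
open Crest.Agent.R116.ChL222
open Crest.Agent.R116.Sg337 (bx9 natB uC)
open Crest.Agent.R116.D0F878
open Crest.Agent.R116.D0n878
open Crest.Agent.R116.SgO219 (tan_lim tan_ev)

/-- increment of the slots `C` -/
def incC (f : (Fin 12 → ℝ) → ℝ) (p : Fin 12 → ℝ) (y : ℝ) : ℝ := f p - f (p + y • uC)

theorem uC_ne {k : Fin 12} (hk : uC k ≠ 0) : k = 3 ∨ k = 4 := by
  by_contra h
  push Not at h
  apply hk
  fin_cases k <;> simp [uC, bx9] at h ⊢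

theorem yuC_nonneg {y : ℝ} (hy : 0 ≤ y) : ∀ k, 0 ≤ (y • uC) k := by
  intro k
  rw [Pi.smul_apply, smul_eq_mul]
  exact mul_nonneg hy (uC_nonneg k)

theorem yuC_z {y : ℝ} : ∀ k, k ≠ 1 → k ≠ 3 → k ≠ 4 → (y • uC) k = 0 := by
  intro k h1 h3 h4
  rw [Pi.smul_apply, smul_eq_mul, uC_z k h1 h3 h4, mul_zero]

/-- raising `C` keeps the box legal -/
theorem leg_C {R : ℝ} {p : Fin 12 → ℝ} (hp : p ∈ Leg monL R) {y : ℝ} (hy : 0 ≤ y)
    (h3 : p 3 + y ≤ R) (h4 : p 4 + y ≤ R) : p + y • uC ∈ Leg monL R := by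
  refine leg_raise hp (yuC_nonneg hy) yuC_z fun k => ?_
  rw [Pi.smul_apply, smul_eq_mul]
  by_cases hk : uC k = 0
  · rw [hk, mul_zero, add_zero]; exact hp.2 k
  · rcases uC_ne hk with rfl | rfl
    · have : uC 3 = 1 := rfl
      rw [this, mul_one]; exact h3
    · have : uC 4 = 1 := rfl
      rw [this, mul_one]; exact h4

section inc

variable {R : ℝ} {f : (Fin 12 → ℝ) → ℝ} {p q : Fin 12 → ℝ}

/-- **increments of `C` are larger at the coarser box** -/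
theorem incC_le
    (hs : ∀ p ∈ Leg monL R, ∀ q ∈ Leg monL R, p ⊓ q ∈ Leg monL R → f p + f q ≤ f (p ⊔ q) + f (p ⊓ q))
    (hp : p ∈ Leg monL R) (hq : q ∈ Leg monL R) (hpq : p ≤ q) (h3 : p 3 = q 3) (h4 : p 4 = q 4)
    {y : ℝ} (hy : 0 ≤ y) (r3 : p 3 + y ≤ R) (r4 : p 4 + y ≤ R) :
    incC f q y ≤ incC f p y := by
  refine incr hs hpq (yuC_nonneg hy) (fun k hk => ?_) hp hq (leg_C hp hy r3 r4)
  rw [Pi.smul_apply, smul_eq_mul] at hk
  rcases uC_ne (fun h => hk (by rw [h, mul_zero])) with rfl | rfl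
  · exact h3
  · exact h4

/-- the same for all small steps -/
theorem incC_ev
    (hs : ∀ p ∈ Leg monL R, ∀ q ∈ Leg monL R, p ⊓ q ∈ Leg monL R → f p + f q ≤ f (p ⊔ q) + f (p ⊓ q))
    (hp : p ∈ Leg monL R) (hq : q ∈ Leg monL R) (hpq : p ≤ q) (h3 : p 3 = q 3) (h4 : p 4 = q 4)
    (r3 : p 3 < R) (r4 : p 4 < R) :
    ∀ᶠ y in 𝓝[>] (0:ℝ), incC f q y ≤ incC f p y := by
  have e3 : ∀ᶠ y in 𝓝[>] (0:ℝ), y < R - p 3 :=
    (tendsto_id.mono_left nhdsWithin_le_nhds).eventually_lt_const (by linarith)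
  have e4 : ∀ᶠ y in 𝓝[>] (0:ℝ), y < R - p 4 :=
    (tendsto_id.mono_left nhdsWithin_le_nhds).eventually_lt_const (by linarith)
  filter_upwards [e3, e4, self_mem_nhdsWithin] with y h1 h2 h5
  have hy : (0:ℝ) < y := h5
  exact incC_le hs hp hq hpq h3 h4 hy.le (by linarith) (by linarith)

end inc

/-- **the predicate** : infinitely many steps of the sequence `h` have a `C`-increment `≥ κ h` -/
def MC (f : (Fin 12 → ℝ) → ℝ) (κ : ℝ) (h : ℕ → ℝ) (p : Fin 12 → ℝ) : Prop :=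
  ∃ᶠ l in atTop, κ * h l ≤ incC f p (h l)

section seq

variable {R κ : ℝ} {f : (Fin 12 → ℝ) → ℝ} {p q : Fin 12 → ℝ} {h : ℕ → ℝ}

theorem tend_pos (hpos : ∀ l, 0 < h l) (h0 : Tendsto h atTop (𝓝 0)) :
    Tendsto h atTop (𝓝[>] 0) :=
  tendsto_nhdsWithin_iff.2 ⟨h0, Eventually.of_forall hpos⟩

/-- **the predicate passes to coarser boxes with the same `C`** -/
theorem MC.mono
    (hs : ∀ p ∈ Leg monL R, ∀ q ∈ Leg monL R, p ⊓ q ∈ Leg monL R → f p + f q ≤ f (p ⊔ q) + f (p ⊓ q))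
    (hp : p ∈ Leg monL R) (hq : q ∈ Leg monL R) (hpq : p ≤ q) (h3 : p 3 = q 3) (h4 : p 4 = q 4)
    (r3 : p 3 < R) (r4 : p 4 < R) (hpos : ∀ l, 0 < h l) (h0 : Tendsto h atTop (𝓝 0))
    (hM : MC f κ h q) : MC f κ h p :=
  (hM.and_eventually ((tend_pos hpos h0).eventually (incC_ev hs hp hq hpq h3 h4 r3 r4))).mono
    fun _ hl => hl.1.trans hl.2

theorem MC.anti {κ' : ℝ} (hκ : κ' ≤ κ) (hpos : ∀ l, 0 < h l) (hM : MC f κ h p) : MC f κ' h p :=
  Frequently.mono hM fun l hl => (mul_le_mul_of_nonneg_right hκ (hpos l).le).trans hl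

/-- a subsequence on which the increments are large -/
theorem MC.sub (hM : MC f κ h p) :
    ∃ ψ : ℕ → ℕ, StrictMono ψ ∧ ∀ l, κ * h (ψ l) ≤ incC f p (h (ψ l)) :=
  extraction_of_frequently_atTop hM

/-- outside the predicate the increments are eventually small -/
theorem not_MC (hM : ¬ MC f κ h p) : ∀ᶠ l in atTop, incC f p (h l) < κ * h l := by
  have := not_frequently.1 hM
  filter_upwards [this] with l hl
  exact not_le.1 hl

variable {P L : Set (Fin 12 → ℝ)} {lam : (Fin 12 → ℝ) → ℝ} {k : ℕ → ℝ}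

/-- lower bound of the rate in a tangent -/
theorem tan_ge (hpos : ∀ l, 0 < k l) (ht : IsTan P L f (fun _ => p) k lam) (z0 : (0 : Fin 12 → ℝ) ∈ L)
    (zC : uC ∈ L) (hM : ∃ᶠ l in atTop, κ * k l ≤ incC f p (k l)) : κ ≤ lam 0 - lam uC := by
  refine ge_of_tendsto_of_frequently (tan_lim hpos ht z0 zC) (hM.mono fun l hl => ?_)
  rw [le_div_iff₀ (hpos l), smul_zero, add_zero]
  exact hl

/-- upper bound of the rate in a tangent -/
theorem tan_le (hpos : ∀ l, 0 < k l) (ht : IsTan P L f (fun _ => p) k lam) (z0 : (0 : Fin 12 → ℝ) ∈ L)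
    (zC : uC ∈ L) (hM : ∃ᶠ l in atTop, incC f p (k l) ≤ κ * k l) : lam 0 - lam uC ≤ κ := by
  refine le_of_tendsto_of_frequently (tan_lim hpos ht z0 zC) (hM.mono fun l hl => ?_)
  rw [div_le_iff₀ (hpos l), smul_zero, add_zero]
  exact hl

/-- `MC` along the unit `h`: after passing to a subsequence every tangent has rate `≥ κ` -/
theorem MC.tan (hM : MC f κ h p) (hpos : ∀ l, 0 < h l) :
    ∃ ψ : ℕ → ℕ, StrictMono ψ ∧ ∀ (χ : ℕ → ℕ) (P L : Set (Fin 12 → ℝ)) (lam : (Fin 12 → ℝ) → ℝ),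
      IsTan P L f (fun _ => p) (fun l => h (ψ (χ l))) lam → (0 : Fin 12 → ℝ) ∈ L → uC ∈ L →
        κ ≤ lam 0 - lam uC := by
  obtain ⟨ψ, hψ, hl⟩ := hM.sub
  exact ⟨ψ, hψ, fun χ P L lam ht z0 zC => tan_ge (fun l => hpos _) ht z0 zC
    (Eventually.of_forall fun l => hl (χ l)).frequently⟩

/-- outside `MC` every tangent along a subsequence of `h` has rate `≤ κ` -/
theorem not_MC_tan (hM : ¬ MC f κ h p) (hpos : ∀ l, 0 < h l) {χ : ℕ → ℕ} (hχ : StrictMono χ)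
    (ht : IsTan P L f (fun _ => p) (fun l => h (χ l)) lam) (z0 : (0 : Fin 12 → ℝ) ∈ L)
    (zC : uC ∈ L) : lam 0 - lam uC ≤ κ :=
  tan_le (fun l => hpos _) ht z0 zC
    ((hχ.tendsto_atTop.eventually (not_MC hM)).mono fun _ hl => hl.le).frequently

end seq

end Crest.Agent.R116.Ts2p604
end

-- ▼ part R116/Ts8_72
section

/-!
# R116, cell (H4) (`e`-tie, `k = 1`, `1/2 ≤ s`): the end over the first tangent (helper72)

`G1` = first tangent of `ν` at a record point (`Prf coneL`, D-max).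

* `fH G1 a b = G1 (P4 a b) - DL(-(a+b); b, -a)` : Lipschitz, `≤ 0`, `fH 0 0 = 0`
* `mc_mono` : 604's predicate `MC` passes from `P4 a b` to `P4 a' b`, `a ≤ a'`
* **`h4_core`** : the two rows `⊢ False` (654's `two_step`)
-/

set_option autoImplicit false
set_option linter.unusedVariables false
set_option linter.unusedSectionVars false

open Filter Topology Set MeasureTheory

namespace Crest.Agent.R116.Ts72

open Crest.Agent.R138
open Crest.Agent.R138.Ex926 (Base U IsTan)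
open Crest.Agent.R136
open Crest.Agent.R136.Net191
open Crest.Agent.R116.ChL222
open Crest.Agent.R116.Sg337 (bx9 coneL DL natB uC)
open Crest.Agent.R116.Rcx363
open Crest.Agent.R116.Ts2p604 (incC MC tend_pos uC_ne)
open Dg262 (SupOn)

/-- `604`'s increments of `C`, over `coneL` -/
theorem raise_C {p : Fin 12 → ℝ} (hp : p ∈ coneL) {y : ℝ} (hy : 0 ≤ y) : p + y • uC ∈ coneL := by
  intro k e he
  have hk : uC k = 0 := by
    by_contra h
    rcases uC_ne h with rfl | rfl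
    · change e ∈ mfL 3 at he
      simp [mfL] at he
    · change e ∈ mfL 4 at he
      simp [mfL] at he
  have h1 := hp k e he
  rw [Pi.add_apply, Pi.smul_apply, hk, smul_zero, add_zero]
  refine h1.trans (Finset.sum_le_sum fun s _ => ?_)
  rw [Pi.add_apply]
  have h2 := Ts2p604.yuC_nonneg hy s
  have := mul_nonneg (Nat.cast_nonneg (α := ℝ) (e s)) h2
  nlinarith

theorem inc_cone {G1 : (Fin 12 → ℝ) → ℝ} (hs : SupOn G1 coneL) {p q : Fin 12 → ℝ}
    (hp : p ∈ coneL) (hq : q ∈ coneL) (hpq : p ≤ q) (h3 : p 3 = q 3) (h4 : p 4 = q 4) {y : ℝ}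
    (hy : 0 ≤ y) : incC G1 q y ≤ incC G1 p y := by
  have hk : ∀ k, (y • uC) k ≠ 0 → p k = q k := fun k hk => by
    rw [Pi.smul_apply, smul_eq_mul] at hk
    rcases uC_ne (fun h => hk (by rw [h, mul_zero])) with rfl | rfl
    · exact h3
    · exact h4
  have e1 : (p + y • uC) ⊔ q = q + y • uC := by
    funext k
    simp only [Pi.sup_apply, Pi.add_apply]
    by_cases h : (y • uC) k = 0
    · rw [h, add_zero, add_zero]; exact max_eq_right (hpq k)
    · rw [hk k h]; exact max_eq_left (by linarith [Ts2p604.yuC_nonneg hy k])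
  have e2 : (p + y • uC) ⊓ q = p := by
    funext k
    simp only [Pi.inf_apply, Pi.add_apply]
    by_cases h : (y • uC) k = 0
    · rw [h, add_zero]; exact min_eq_left (hpq k)
    · rw [hk k h]; exact min_eq_right (by linarith [Ts2p604.yuC_nonneg hy k])
  have h := hs (p + y • uC) (raise_C hp hy) q hq (by rw [e2]; exact hp)
    (by rw [e1]; exact raise_C hq hy)
  rw [e1, e2] at h
  unfold incC
  linarith

/-- **the predicate `MC` along the rays of `n0`** -/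
theorem mc_mono {G1 : (Fin 12 → ℝ) → ℝ} (hs : SupOn G1 coneL) {κ : ℝ} {h : ℕ → ℝ}
    (hpos : ∀ l, 0 < h l) {a a' b : ℝ} (hb : 0 ≤ b) (haa : a ≤ a') (hM : MC G1 κ h (P4 a b)) :
    MC G1 κ h (P4 a' b) := by
  obtain ⟨p0, p1, p2, p3, p4, p5, p6, p7, p8, p9, p10, p11⟩ := P4_v a b
  obtain ⟨q0, q1, q2, q3, q4, q5, q6, q7, q8, q9, q10, q11⟩ := P4_v a' b
  have hle : P4 a' b ≤ P4 a b := by
    intro k
    fin_cases k
    · show P4 a' b 0 ≤ P4 a b 0
      linarith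
    · show P4 a' b 1 ≤ P4 a b 1
      linarith
    · show P4 a' b 2 ≤ P4 a b 2
      linarith
    · show P4 a' b 3 ≤ P4 a b 3
      linarith
    · show P4 a' b 4 ≤ P4 a b 4
      linarith
    · show P4 a' b 5 ≤ P4 a b 5
      linarith
    · show P4 a' b 6 ≤ P4 a b 6
      linarith
    · show P4 a' b 7 ≤ P4 a b 7
      linarith
    · show P4 a' b 8 ≤ P4 a b 8
      linarith
    · show P4 a' b 9 ≤ P4 a b 9
      linarith
    · show P4 a' b 10 ≤ P4 a b 10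
      linarith
    · show P4 a' b 11 ≤ P4 a b 11
      linarith
  exact Frequently.mono hM fun l hl => hl.trans
    (inc_cone hs (P4_mem hb) (P4_mem hb) hle (by rw [q3, p3]) (by rw [q4, p4]) (hpos l).le)

/-- the function of the two steps -/
def fH (G1 : (Fin 12 → ℝ) → ℝ) (g s qa qb a b : ℝ) : ℝ :=
  G1 (P4 a b) - DL g s qa qb (-(a + b)) b (-a)

section core

variable {G1 : (Fin 12 → ℝ) → ℝ} {g s qa qb : ℝ}

theorem P4_zero : P4 0 0 = 0 := by
  funext k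
  have h := P4_v 0 0
  obtain ⟨p0, p1, p2, p3, p4, p5, p6, p7, p8, p9, p10, p11⟩ := h
  fin_cases k <;> first
    | (show P4 0 0 0 = 0; rw [p0]; ring)
    | (show P4 0 0 1 = 0; rw [p1])
    | (show P4 0 0 2 = 0; rw [p2]; ring)
    | (show P4 0 0 3 = 0; rw [p3])
    | (show P4 0 0 4 = 0; rw [p4])
    | (show P4 0 0 5 = 0; rw [p5]; ring)
    | (show P4 0 0 6 = 0; rw [p6]; ring)
    | (show P4 0 0 7 = 0; rw [p7]; ring)
    | (show P4 0 0 8 = 0; rw [p8]; ring)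
    | (show P4 0 0 9 = 0; rw [p9]; ring)
    | (show P4 0 0 10 = 0; rw [p10]; ring)
    | (show P4 0 0 11 = 0; rw [p11]; ring)

theorem fH_zero (h0 : G1 0 = 0) : fH G1 g s qa qb 0 0 = 0 := by
  unfold fH DL
  rw [P4_zero, h0]; ring

theorem fH_nonpos (ha : ∀ p ∈ coneL, ∀ q ∈ coneL, p ≤ q → 0 ≤ G1 p - G1 q)
    (hD : ∀ v x y : ℝ, G1 (natB v x y) ≤ DL g s qa qb v x y) {a b : ℝ} (hb : 0 ≤ b) :
    fH G1 g s qa qb a b ≤ 0 := by
  have h1 := ha (natB (-(a + b)) b (-a)) (natB_mem _ _ _) (P4 a b) (P4_mem hb) (by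
    intro k
    unfold P4
    rw [Pi.add_apply, Pi.smul_apply, smul_eq_mul]
    by_cases hk : k = 1
    · subst hk; rw [Pi.single_eq_same]; linarith
    · rw [Pi.single_eq_of_ne hk]; linarith)
  have h2 := hD (-(a + b)) b (-a)
  unfold fH
  linarith

theorem P4_sub (a b a' b' : ℝ) : ‖P4 a b - P4 a' b'‖ ≤ 2 * (|a - a'| + |b - b'|) := by
  obtain ⟨p0, p1, p2, p3, p4, p5, p6, p7, p8, p9, p10, p11⟩ := P4_v a b
  obtain ⟨q0, q1, q2, q3, q4, q5, q6, q7, q8, q9, q10, q11⟩ := P4_v a' b'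
  have hx := abs_nonneg (a - a')
  have hy := abs_nonneg (b - b')
  obtain ⟨x1, x2⟩ := abs_le.1 (le_refl |a - a'|)
  obtain ⟨y1, y2⟩ := abs_le.1 (le_refl |b - b'|)
  rw [pi_norm_le_iff_of_nonneg (by positivity)]
  intro k
  rw [Pi.sub_apply, Real.norm_eq_abs, abs_le]
  fin_cases k
  · show _ ≤ P4 a b 0 - P4 a' b' 0 ∧ P4 a b 0 - P4 a' b' 0 ≤ _
    rw [p0, q0]; constructor <;> linarith
  · show _ ≤ P4 a b 1 - P4 a' b' 1 ∧ P4 a b 1 - P4 a' b' 1 ≤ _
    rw [p1, q1]; constructor <;> linarith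
  · show _ ≤ P4 a b 2 - P4 a' b' 2 ∧ P4 a b 2 - P4 a' b' 2 ≤ _
    rw [p2, q2]; constructor <;> linarith
  · show _ ≤ P4 a b 3 - P4 a' b' 3 ∧ P4 a b 3 - P4 a' b' 3 ≤ _
    rw [p3, q3]; constructor <;> linarith
  · show _ ≤ P4 a b 4 - P4 a' b' 4 ∧ P4 a b 4 - P4 a' b' 4 ≤ _
    rw [p4, q4]; constructor <;> linarith
  · show _ ≤ P4 a b 5 - P4 a' b' 5 ∧ P4 a b 5 - P4 a' b' 5 ≤ _
    rw [p5, q5]; constructor <;> linarith
  · show _ ≤ P4 a b 6 - P4 a' b' 6 ∧ P4 a b 6 - P4 a' b' 6 ≤ _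
    rw [p6, q6]; constructor <;> linarith
  · show _ ≤ P4 a b 7 - P4 a' b' 7 ∧ P4 a b 7 - P4 a' b' 7 ≤ _
    rw [p7, q7]; constructor <;> linarith
  · show _ ≤ P4 a b 8 - P4 a' b' 8 ∧ P4 a b 8 - P4 a' b' 8 ≤ _
    rw [p8, q8]; constructor <;> linarith
  · show _ ≤ P4 a b 9 - P4 a' b' 9 ∧ P4 a b 9 - P4 a' b' 9 ≤ _
    rw [p9, q9]; constructor <;> linarith
  · show _ ≤ P4 a b 10 - P4 a' b' 10 ∧ P4 a b 10 - P4 a' b' 10 ≤ _
    rw [p10, q10]; constructor <;> linarith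
  · show _ ≤ P4 a b 11 - P4 a' b' 11 ∧ P4 a b 11 - P4 a' b' 11 ≤ _
    rw [p11, q11]; constructor <;> linarith

theorem fH_lip (hL : ∀ p ∈ coneL, ∀ q ∈ coneL, |G1 p - G1 q| ≤ (12:ℝ) * dist p q) :
    ∃ K : ℝ, 0 ≤ K ∧ ∀ a b a' b' : ℝ, 0 ≤ b → 0 ≤ b' →
      |fH G1 g s qa qb a b - fH G1 g s qa qb a' b'| ≤ K * (|a - a'| + |b - b'|) := by
  refine ⟨24 + (|DL g s qa qb (-1) 0 (-1)| + |DL g s qa qb (-1) 1 0|), by positivity,
    fun a b a' b' hb hb' => ?_⟩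
  have h1 := hL _ (P4_mem hb (a := a)) _ (P4_mem hb' (a := a'))
  rw [dist_eq_norm] at h1
  have h2 := P4_sub a b a' b'
  have e : fH G1 g s qa qb a b - fH G1 g s qa qb a' b' = (G1 (P4 a b) - G1 (P4 a' b')) -
      ((a - a') * DL g s qa qb (-1) 0 (-1) + (b - b') * DL g s qa qb (-1) 1 0) := by
    unfold fH DL; ring
  rw [e]
  set A := DL g s qa qb (-1) 0 (-1)
  set A' := DL g s qa qb (-1) 1 0
  have h3 : |(a - a') * A + (b - b') * A'| ≤ |a - a'| * |A| + |b - b'| * |A'| := by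
    refine (abs_add_le _ _).trans ?_
    rw [abs_mul, abs_mul]
  refine (abs_sub _ _).trans ?_
  have hx := abs_nonneg (a - a')
  have hy := abs_nonneg (b - b')
  have hA := abs_nonneg A
  have hA' := abs_nonneg A'
  have h4 : 0 ≤ |a - a'| * |A'| := mul_nonneg hx hA'
  have h5 : 0 ≤ |b - b'| * |A| := mul_nonneg hy hA
  nlinarith

/-- **the two rows give a contradiction** -/
theorem h4_core {a' b' : Fin 2} {Vis : Fin 12 → Prop} {β : Fin 12 → ℝ} {γ κ : ℝ} (hγ : 0 < γ)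
    (hP : Prf coneL s a' b' Vis β G1) (h0 : G1 0 = 0)
    (hL : ∀ p ∈ coneL, ∀ q ∈ coneL, |G1 p - G1 q| ≤ (12:ℝ) * dist p q)
    (hD : ∀ v x y : ℝ, G1 (natB v x y) ≤ DL g s qa qb v x y) {h : ℕ → ℝ} (hpos : ∀ l, 0 < h l)
    (hA : ∀ᵐ z : ℝ × ℝ, 0 < z.1 → 0 < z.2 → MC G1 κ h (P4 z.1 z.2) →
      ∀ d, HasDerivAt (fun a => fH G1 g s qa qb a z.2) d z.1 → γ ≤ d)
    (hB : ∀ᵐ z : ℝ × ℝ, 0 < z.1 → 0 < z.2 → ¬ MC G1 κ h (P4 z.1 z.2) →
      ∀ d, HasDerivAt (fun b => fH G1 g s qa qb z.1 b) d z.2 → γ ≤ d) : False := by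
  obtain ⟨K, hK, hlip⟩ := fH_lip (g := g) (s := s) (qa := qa) (qb := qb) hL
  refine Ts654.two_step (τ := 1) (γ := γ) (K := K) one_pos hγ hK (f := fH G1 g s qa qb)
    (fun b hb a _ a' _ => ?_) (fun a _ b hb b' hb' => ?_) ?_ (fun a _ b hb => ?_)
    (Hi := fun a b => MC G1 κ h (P4 a b)) (fun a ha a' ha' b hb haa hM => ?_) ?_ ?_
  · have := hlip a b a' b hb.1 hb.1
    rw [sub_self, abs_zero, add_zero] at this
    exact this
  · have := hlip a b a b' hb.1 hb'.1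
    rw [sub_self, abs_zero, zero_add] at this
    exact this
  · rw [fH_zero h0]
    linarith
  · exact fH_nonpos (fun p hp q hq hpq => (hP.anti p hp q hq hpq).1) hD hb.1
  · exact mc_mono hP.sm hpos hb.1.le haa hM
  · filter_upwards [hA] with z hz h1 h2 h3 d hd
    exact hz h1.1 h2.1 h3 d hd
  · filter_upwards [hB] with z hz h1 h2 h3 d hd
    exact hz h1.1 h2.1 h3 d hd

end core

end Crest.Agent.R116.Ts72
end

-- ▼ part R116/Ts5_905
section

/-!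
# R116, cell (H4) : `OutS` at a generic point of the tie plane `p = c + z`, `D` frozen (helper905)

* `aF`, `bF` : the two directions (slot `D` = `0` in both)
* `cH`       : the table of the classes (`{z, B}`, `{X, C_b}`, all others alone); `plE_cH`
* **`cl_pt`** : `OutS` + `PZ` (own law, cost) ⊢ `PlE 1 cH 1`, `Cl9 cH 1 s (lam ∘ E8) φ ρ`
* **`val_n0`, `val_n1`** : values at `n0 = (-1; 0, -1)`, `n1 = (-1; 1, 0)` from the derivatives
* `m_eq` : the rate of `C` = `lam 0 - lam uC`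
* **`D_rowA`, `D_rowB`** : the two rows at a generic point
-/

set_option autoImplicit false
set_option linter.unusedSectionVars false
set_option linter.unusedVariables false

open Set Filter Topology
open scoped NNReal

namespace Crest.Agent.R116.Ts905

open Crest.Agent.R136.Dg219 (gC dhC nC gset mem_gset OutS gC_eq gC_zero nC_of dirC lf)
open Crest.Agent.R116.Sg337 (bx9 natB uC DL)
open Crest.Agent.R116.K3e160 (K3C)
open Crest.Agent.R116.SgF665 (LM0 bx9_mem)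
open Crest.Agent.R116.Xd954 (cs xs)
open Crest.Agent.R116.Tq794 (E8 E8_mem)
open Crest.Agent.R116.Tq126 (PZ)
open Tq741
open RbM219 (nat9)

/-- first direction : `(1; 1/10, 11/10)`, `D` frozen -/
noncomputable def aF : Fin 12 → ℝ := natB 1 (1/10) (11/10) + (1/10:ℝ) • (Pi.single 1 1 : Fin 12 → ℝ)

/-- second direction : `n1`, `D` frozen -/
noncomputable def bF : Fin 12 → ℝ := natB (-1) 1 0 + (Pi.single 1 1 : Fin 12 → ℝ)

def aZ : Fin 12 → ℤ := ![10, 0, 9, 1, 1, 11, 11, 10, 10, 12, 11, 21]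
def bZ : Fin 12 → ℤ := ![-1, 0, -2, 1, 1, 0, 0, -1, -1, 1, 0, -1]

theorem aF_eq (i : Fin 12) : aF i = (aZ i : ℝ) / 10 := by
  fin_cases i <;> simp [aF, natB, bx9, aZ] <;> norm_num

theorem bF_eq (i : Fin 12) : bF i = (bZ i : ℝ) := by
  fin_cases i <;> simp [bF, natB, bx9, bZ] <;> norm_num

/-- classes of the slots -/
def k12 : Fin 12 → Fin 9 := ![0, 8, 7, 1, 1, 3, 3, 6, 6, 5, 2, 4]
/-- slots of the classes -/
def s9 : Fin 9 → Fin 12 := ![0, 3, 10, 5, 11, 9, 7, 2, 1]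
/-- labels -/
def cH : Fin 9 → Fin 9 := ![0, 1, 2, 2, 4, 5, 0, 7, 8]

theorem k12_s9 : ∀ t, k12 (s9 t) = t := by decide

theorem plE_cH : PlE 1 cH (fun _ => 1) where
  par := by
    have h : ∀ t t' : Fin 9, cH t = cH t' ↔ (t = t' ∨ (t = 0 ∧ t' = 6) ∨ (t = 6 ∧ t' = 0) ∨
      ((t = 2 ∧ t' = 3) ∨ (t = 3 ∧ t' = 2))) := by decide
    intro t t'
    rw [h t t']
    unfold PE
    norm_num
  d6 := by norm_num
  d3 := fun _ => rfl
  d5 := fun h => by norm_num at h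

theorem grp_iff (i j : Fin 12) : gC aF bF i = gC aF bF j ↔ cH (k12 i) = cH (k12 j) := by
  have hz : ∀ i : Fin 12, aZ i = 0 ↔ i = 1 := by decide
  have hp : ∀ i j : Fin 12, i ≠ 1 → j ≠ 1 →
      (bZ i * aZ j = bZ j * aZ i ↔ cH (k12 i) = cH (k12 j)) := by decide
  have h1 : ∀ j : Fin 12, j ≠ 1 → cH (k12 1) ≠ cH (k12 j) := by decide
  have ha : ∀ i : Fin 12, aF i = 0 ↔ i = 1 := by
    intro i
    rw [aF_eq, div_eq_zero_iff, ← hz i]
    norm_num
  by_cases hi : i = 1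
  · by_cases hj : j = 1
    · rw [hi, hj]; simp
    · subst hi
      rw [gC_zero.2 ((ha 1).2 rfl)]
      constructor
      · intro h
        exact absurd (gC_zero.1 h.symm) fun h' => hj ((ha j).1 h')
      · intro h
        exact absurd h (h1 j hj)
  · by_cases hj : j = 1
    · subst hj
      rw [gC_zero.2 ((ha 1).2 rfl)]
      constructor
      · intro h
        exact absurd (gC_zero.1 h) fun h' => hi ((ha i).1 h')
      · intro h
        exact absurd h.symm (h1 i hi)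
    · have hai : aF i ≠ 0 := fun h => hi ((ha i).1 h)
      have haj : aF j ≠ 0 := fun h => hj ((ha j).1 h)
      rw [gC_eq hai haj, ← hp i j hi hj, div_eq_div_iff hai haj, bF_eq, bF_eq, aF_eq, aF_eq]
      constructor
      · intro h
        have h2 : ((bZ i * aZ j : ℤ) : ℝ) = ((bZ j * aZ i : ℤ) : ℝ) := by
          push_cast
          linarith
        exact_mod_cast h2
      · intro h
        have h2 : ((bZ i * aZ j : ℤ) : ℝ) = ((bZ j * aZ i : ℤ) : ℝ) := by rw [h]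
        push_cast at h2
        linarith

/-- equal slopes inside the groups -/
theorem aF_grp {i j : Fin 12} (h : cH (k12 i) = cH (k12 j)) : aF i = aF j := by
  have h1 : ∀ i j : Fin 12, cH (k12 i) = cH (k12 j) → aZ i = aZ j := by decide
  rw [aF_eq, aF_eq, h1 i j h]

theorem aF_pos {i : Fin 12} (hi : i ≠ 1) : 0 < aF i := by
  have h1 : ∀ i : Fin 12, i ≠ 1 → 0 < aZ i := by decide
  rw [aF_eq]
  have : (0:ℝ) < (aZ i : ℝ) := by exact_mod_cast h1 i hi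
  positivity

theorem E8_k (w : V9) (i : Fin 12) : E8 w i = if i = 1 then 0 else w (k12 i) := by
  fin_cases i <;> simp [E8, bx9, k12]

theorem E8_le {w w' : V9} (h : w ≤ w') : E8 w ≤ E8 w' := fun i => by
  rw [E8_k, E8_k]
  split_ifs
  · exact le_rfl
  · exact h _

/-- multiples of the two directions are legal -/
theorem mem_dir (x y : ℝ) : x • aF + y • bF ∈ LM0 := by
  have e : x • aF + y • bF = bx9 (x - y) 0 (x * (9/10) - 2 * y) (x / 10 + y) (x * (11/10))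
      (x - y) (x * (12/10) + y) (x * (11/10)) (x * (21/10) - y) := by
    funext i
    rw [Pi.add_apply, Pi.smul_apply, Pi.smul_apply, smul_eq_mul, smul_eq_mul, aF_eq, bF_eq]
    fin_cases i <;> simp [bx9, aZ, bZ] <;> ring
  rw [e]
  exact bx9_mem.2 ⟨by linarith, by linarith, by linarith, by linarith, by linarith, by linarith,
    by linarith⟩

section out

variable {lam : (Fin 12 → ℝ) → ℝ} {A : ℝ × ℝ} {φ : ℕ → (Fin 12 → ℝ) → ℝ} {r : ℕ → ℝ}

/-- the derivative along the plane -/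
theorem val_dir (H : OutS (gC aF bF) LM0 (dhC aF bF) (nC aF bF) lam A φ r) (x y : ℝ) :
    lam (x • aF + y • bF) = A.1 * x + A.2 * y := by
  have h1 := H.total (x, y)
  rw [H.sum _ (mem_dir x y)]
  have h2 : lf A (x, y) = A.1 * x + A.2 * y := rfl
  rw [← h2, h1, ← Finset.sum_neg_distrib]
  refine Finset.sum_congr rfl fun k hk => ?_
  obtain ⟨i, -, rfl⟩ := Finset.mem_image.1 hk
  refine H.rate _ _ (mem_dir x y) _ fun j hj => ?_
  have h3 := (dirC (a := aF) (b := bF)).fst j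
  have h4 := (dirC (a := aF) (b := bF)).snd j
  rw [Pi.add_apply, Pi.smul_apply, Pi.smul_apply, smul_eq_mul, smul_eq_mul, h3, h4, hj]
  unfold lf
  ring

/-- **value at `n0`** -/
theorem val_n0 (H : OutS (gC aF bF) LM0 (dhC aF bF) (nC aF bF) lam A φ r) :
    lam (E8 (nat9 (-1) 0 (-1))) = -(A.1 - (1/10) * A.2) / (11/10) := by
  have h := val_dir H (-(10/11)) (1/11)
  have e : (-(10/11) : ℝ) • aF + (1/11 : ℝ) • bF = E8 (nat9 (-1) 0 (-1)) := by
    funext i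
    rw [Pi.add_apply, Pi.smul_apply, Pi.smul_apply, smul_eq_mul, smul_eq_mul, aF_eq, bF_eq]
    fin_cases i <;> simp [E8, bx9, nat9, aZ, bZ] <;> norm_num
  rw [e] at h
  rw [h]
  ring

/-- **value at `n1`** -/
theorem val_n1 (H : OutS (gC aF bF) LM0 (dhC aF bF) (nC aF bF) lam A φ r) :
    lam (E8 (nat9 (-1) 1 0)) = A.2 := by
  have h := val_dir H 0 1
  have e : (0 : ℝ) • aF + (1 : ℝ) • bF = E8 (nat9 (-1) 1 0) := by
    funext i
    rw [Pi.add_apply, Pi.smul_apply, Pi.smul_apply, smul_eq_mul, smul_eq_mul, aF_eq, bF_eq]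
    fin_cases i <;> simp [E8, bx9, nat9, aZ, bZ] <;> norm_num
  rw [e] at h
  rw [h]
  ring

/-! ### the class functions -/

open Classical in
/-- class functions -/
noncomputable def Ph (φ : ℕ → (Fin 12 → ℝ) → ℝ) (k : Fin 9) (w : V9) : ℝ :=
  if h : ∃ t, cH t = k then φ (gC aF bF (s9 h.choose)) (E8 w) else 0

theorem Ph_eq (φ : ℕ → (Fin 12 → ℝ) → ℝ) (t : Fin 9) (w : V9) :
    Ph φ (cH t) w = φ (gC aF bF (s9 t)) (E8 w) := by
  have hk : ∃ t', cH t' = cH t := ⟨t, rfl⟩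
  unfold Ph
  rw [dif_pos hk]
  have h1 : gC aF bF (s9 hk.choose) = gC aF bF (s9 t) := by
    rw [grp_iff, k12_s9, k12_s9]
    exact hk.choose_spec
  rw [h1]

theorem Ph_zero (φ : ℕ → (Fin 12 → ℝ) → ℝ) {k : Fin 9} (hk : ∀ t, cH t ≠ k) (w : V9) :
    Ph φ k w = 0 := by
  unfold Ph
  rw [dif_neg]
  rintro ⟨t, ht⟩
  exact hk t ht

/-- representatives -/
def SH : Finset (Fin 9) := {0, 1, 2, 4, 5, 7, 8}

theorem gset_eq : gset (gC aF bF) = SH.image fun t => gC aF bF (s9 t) := by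
  have h1 : ∀ i : Fin 12, cH (k12 i) ∈ SH := by decide
  have h2 : ∀ i : Fin 12, cH (k12 (s9 (cH (k12 i)))) = cH (k12 i) := by decide
  ext κ
  constructor
  · intro h
    obtain ⟨i, -, rfl⟩ := Finset.mem_image.1 h
    exact Finset.mem_image.2 ⟨cH (k12 i), h1 i, (grp_iff _ _).2 (h2 i)⟩
  · intro h
    obtain ⟨t, -, rfl⟩ := Finset.mem_image.1 h
    exact mem_gset _

theorem Ph_sum (H : OutS (gC aF bF) LM0 (dhC aF bF) (nC aF bF) lam A φ r) {w : V9}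
    (hw : LegM 0 w) : lam (E8 w) = ∑ k, Ph φ k w := by
  have hinj : ∀ t ∈ SH, ∀ t' ∈ SH, gC aF bF (s9 t) = gC aF bF (s9 t') → t = t' := by
    have h3 : ∀ t ∈ SH, ∀ t' ∈ SH, cH t = cH t' → t = t' := by decide
    intro t ht t' ht' h
    rw [grp_iff, k12_s9, k12_s9] at h
    exact h3 t ht t' ht' h
  rw [H.sum _ (E8_mem hw), gset_eq, Finset.sum_image hinj]
  have h4 : ∀ t ∈ SH, cH t = t := by decide
  have h5 : ∀ k : Fin 9, k ∉ SH → ∀ t, cH t ≠ k := by decide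
  rw [← Finset.sum_subset (Finset.subset_univ SH) fun k _ hk => Ph_zero φ (h5 k hk) w]
  refine Finset.sum_congr rfl fun t ht => ?_
  conv_rhs => rw [← h4 t ht]
  rw [Ph_eq]

theorem Ph_loc (H : OutS (gC aF bF) LM0 (dhC aF bF) (nC aF bF) lam A φ r) (k : Fin 9) (w w' : V9)
    (h : ∀ t, cH t = k → w t = w' t) : Ph φ k w = Ph φ k w' := by
  by_cases hk : ∃ t, cH t = k
  · obtain ⟨t, rfl⟩ := hk
    rw [Ph_eq, Ph_eq]
    refine H.loc _ _ _ fun i hi => ?_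
    rw [grp_iff, k12_s9] at hi
    rw [E8_k, E8_k]
    split_ifs
    · rfl
    · exact h _ hi
  · push Not at hk
    rw [Ph_zero φ hk, Ph_zero φ hk]

/-- rates -/
noncomputable def rh (r : ℕ → ℝ) (t : Fin 9) : ℝ :=
  if t = 8 then 0 else r (gC aF bF (s9 t)) / aF (s9 t)

theorem Ph_rate (H : OutS (gC aF bF) LM0 (dhC aF bF) (nC aF bF) lam A φ r) (t : Fin 9) (w : V9)
    (h : ∀ t', cH t' = cH t → w t' = w t) : Ph φ (cH t) w = -(rh r t * w t) := by
  have h8 : ∀ t : Fin 9, t ≠ 8 → s9 t ≠ 1 := by decide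
  have h8' : ∀ i : Fin 12, cH (k12 i) = cH 8 → i = 1 := by decide
  have hgr : ∀ t : Fin 9, t ≠ 8 → ∀ i : Fin 12, cH (k12 i) = cH t → i ≠ 1 := by decide
  rw [Ph_eq]
  by_cases ht : t = 8
  · subst ht
    rw [rh, if_pos rfl, zero_mul, neg_zero]
    refine H.zero _ _ fun i hi => ?_
    rw [grp_iff, k12_s9] at hi
    rw [E8_k, if_pos (h8' i hi)]
  · have hp := aF_pos (h8 t ht)
    have hm : (w t / aF (s9 t)) • aF + (0:ℝ) • bF ∈ LM0 := mem_dir _ _
    rw [H.loc _ (E8 w) ((w t / aF (s9 t)) • aF + (0:ℝ) • bF) fun i hi => ?_]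
    · rw [H.rate _ _ hm (w t / aF (s9 t)) fun i hi => ?_, rh, if_neg ht]
      · ring
      · rw [grp_iff, k12_s9] at hi
        have hi1 : i ≠ 1 := hgr t ht i hi
        rw [dhC, if_neg (aF_pos hi1).ne']
        simp
    · rw [grp_iff, k12_s9] at hi
      have hi1 : i ≠ 1 := hgr t ht i hi
      have he : aF i = aF (s9 t) := aF_grp (by rw [k12_s9]; exact hi)
      rw [E8_k, if_neg hi1, h _ hi]
      rw [Pi.add_apply, Pi.smul_apply, Pi.smul_apply, smul_eq_mul, smul_eq_mul, he]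
      field_simp
      ring

theorem Ph_mono (H : OutS (gC aF bF) LM0 (dhC aF bF) (nC aF bF) lam A φ r) (k : Fin 9)
    {w w' : V9} (hw : LegM 0 w) (hw' : LegM 0 w') (hle : w ≤ w') :
    0 ≤ Ph φ k w - Ph φ k w' ∧ Ph φ k w - Ph φ k w' ≤ 12 * ‖w' - w‖ := by
  by_cases hk : ∃ t, cH t = k
  · obtain ⟨t, rfl⟩ := hk
    rw [Ph_eq, Ph_eq]
    have h1 := H.mono (gC aF bF (s9 t)) _ (E8_mem hw) _ (E8_mem hw') fun i _ => E8_le hle i
    refine ⟨h1.1, h1.2.trans ?_⟩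
    have h2 : ∀ i : Fin 12, E8 w' i - E8 w i ≤ ‖w' - w‖ := by
      intro i
      rw [E8_k, E8_k]
      split_ifs
      · rw [sub_self]; exact norm_nonneg _
      · have := norm_le_pi_norm (w' - w) (k12 i)
        rw [Real.norm_eq_abs, Pi.sub_apply] at this
        exact (le_abs_self _).trans this
    calc _ ≤ ∑ i ∈ Finset.univ.filter (fun i => gC aF bF i = gC aF bF (s9 t)), ‖w' - w‖ :=
          Finset.sum_le_sum fun i _ => h2 i
      _ ≤ ∑ i : Fin 12, ‖w' - w‖ := Finset.sum_le_sum_of_subset_of_nonneg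
          (Finset.filter_subset _ _) fun _ _ _ => norm_nonneg _
      _ = 12 * ‖w' - w‖ := by simp
  · push Not at hk
    rw [Ph_zero φ hk, Ph_zero φ hk]
    simp

theorem norm_sup_sub {w w' : V9} : ‖w ⊔ w' - w‖ ≤ ‖w - w'‖ ∧ ‖w ⊔ w' - w'‖ ≤ ‖w - w'‖ := by
  constructor
  · refine (pi_norm_le_iff_of_nonneg (norm_nonneg _)).2 fun i => ?_
    refine le_trans ?_ (norm_le_pi_norm (w - w') i)
    rw [Real.norm_eq_abs, Real.norm_eq_abs, Pi.sub_apply, Pi.sub_apply, Pi.sup_apply]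
    rcases le_total (w i) (w' i) with h | h
    · rw [sup_eq_right.2 h, abs_sub_comm]
    · rw [sup_eq_left.2 h, sub_self, abs_zero]; exact abs_nonneg _
  · refine (pi_norm_le_iff_of_nonneg (norm_nonneg _)).2 fun i => ?_
    refine le_trans ?_ (norm_le_pi_norm (w - w') i)
    rw [Real.norm_eq_abs, Real.norm_eq_abs, Pi.sub_apply, Pi.sub_apply, Pi.sup_apply]
    rcases le_total (w i) (w' i) with h | h
    · rw [sup_eq_right.2 h, sub_self, abs_zero]; exact abs_nonneg _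
    · rw [sup_eq_left.2 h]

def wO : V9 := ![0, 1, 1, 1, 1, 1, 0, 0, 0]
def wO' : V9 := ![1, 1, 1, 1, 1, 1, 1, 0, 0]

theorem leg_wO : LegM 0 wO := by constructor <;> simp [wO]
theorem leg_wO' : LegM 0 wO' := by constructor <;> simp [wO']

theorem wO_le : wO ≤ wO' := by
  intro i
  fin_cases i <;> simp [wO, wO']

theorem cost_E8 {a b : Fin 2} (w w' : V9) :
    ∑ k ∈ ({cs b, xs b} : Finset (Fin 12))ᶜ, (E8 w' k - E8 w k) =
      ∑ t, (if t = 8 then 0 else cst t) * (w' t - w t) := by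
  have e9 : ∀ f : Fin 9 → ℝ, ∑ t, f t = f 0 + f 1 + f 2 + f 3 + f 4 + f 5 + f 6 + f 7 + f 8 := by
    intro f
    rw [Fin.sum_univ_castSucc, Fin.sum_univ_eight]
    rfl
  have hb : b = 0 ∨ b = 1 := by fin_cases b <;> simp
  rcases hb with rfl | rfl
  · have e : (({cs 0, xs 0} : Finset (Fin 12))ᶜ) = {0, 1, 2, 4, 6, 7, 8, 9, 10, 11} := by decide
    rw [e, e9]
    simp only [E8_k]
    rw [Finset.sum_insert (by decide), Finset.sum_insert (by decide), Finset.sum_insert (by decide),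
      Finset.sum_insert (by decide), Finset.sum_insert (by decide), Finset.sum_insert (by decide),
      Finset.sum_insert (by decide), Finset.sum_insert (by decide), Finset.sum_insert (by decide),
      Finset.sum_singleton]
    simp [k12, cst]
    ring
  · have e : (({cs 1, xs 1} : Finset (Fin 12))ᶜ) = {0, 1, 2, 3, 5, 7, 8, 9, 10, 11} := by decide
    rw [e, e9]
    simp only [E8_k]
    rw [Finset.sum_insert (by decide), Finset.sum_insert (by decide), Finset.sum_insert (by decide),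
      Finset.sum_insert (by decide), Finset.sum_insert (by decide), Finset.sum_insert (by decide),
      Finset.sum_insert (by decide), Finset.sum_insert (by decide), Finset.sum_insert (by decide),
      Finset.sum_singleton]
    simp [k12, cst]
    ring

/-- **the class functions at a generic point of the tie plane** -/
theorem cl_pt (H : OutS (gC aF bF) LM0 (dhC aF bF) (nC aF bF) lam A φ r) {s : ℝ} {a b : Fin 2}
    (P : PZ LM0 s a b lam) : Cl9 cH (fun _ => 1) s (fun w => lam (E8 w)) (Ph φ) (rh r) where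
  sum := fun w hw => Ph_sum H hw
  loc := Ph_loc H
  emp := fun k hk w => Ph_zero φ hk w
  rate := fun t w h => Ph_rate H t w fun t' ht' => by simpa using h t' ht'
  lip := by
    refine ⟨24, fun k => LipschitzOnWith.of_dist_le_mul fun w hw w' hw' => ?_⟩
    have hs := Tq126.legM_sup hw hw'
    have h1 := Ph_mono H k hw hs le_sup_left
    have h2 := Ph_mono H k hw' hs le_sup_right
    have h3 := norm_sup_sub (w := w) (w' := w')
    rw [Real.dist_eq, dist_eq_norm, abs_le]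
    have e : ((24 : ℝ≥0) : ℝ) = 24 := rfl
    rw [e]
    have := norm_nonneg (w - w')
    constructor <;> linarith [h1.1, h1.2, h2.1, h2.2, h3.1, h3.2]
  anti := fun w w' hw hw' hle => by
    show lam (E8 w') ≤ lam (E8 w)
    rw [Ph_sum H hw, Ph_sum H hw']
    exact Finset.sum_le_sum fun k _ => by linarith [(Ph_mono H k hw hw' hle).1]
  own := by
    have h1 := P.own _ (E8_mem leg_wO) _ (E8_mem leg_wO') (E8_le wO_le) (by rw [E8_k]; simp [k12, wO])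
      (by rw [E8_k]; simp) (by rw [E8_k]; simp [k12, wO]) (by rw [E8_k]; simp [k12, wO])
      (by rw [E8_k]; simp [k12, wO])
    have h0 : E8 wO' 0 = 1 := by rw [E8_k]; simp [k12, wO']
    rw [h0, mul_one, Ph_sum H leg_wO, Ph_sum H leg_wO', ← Finset.sum_sub_distrib,
      Finset.sum_eq_single (0 : Fin 9) (fun k _ hk => ?_) (fun h => absurd (Finset.mem_univ _) h)]
      at h1
    · have c0 : cH 0 = 0 := rfl
      have hc : ∀ t' : Fin 9, cH t' = cH 0 → t' = 0 ∨ t' = 6 := by decide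
      have k1 := Ph_rate H 0 wO fun t' ht' => by
        rcases hc t' ht' with rfl | rfl <;> simp [wO]
      have k2 := Ph_rate H 0 wO' fun t' ht' => by
        rcases hc t' ht' with rfl | rfl <;> simp [wO']
      rw [c0] at k1 k2
      rw [k1, k2] at h1
      simpa [wO, wO'] using h1
    · have hc : ∀ k : Fin 9, k ≠ 0 → ∀ t, cH t = k → t ≠ 0 ∧ t ≠ 6 := by decide
      rw [Ph_loc H k wO wO' fun t ht => ?_, sub_self]
      have h2 := hc k hk t ht
      fin_cases t <;> simp [wO, wO'] at h2 ⊢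
  cost := fun w w' hw hw' hle => by
    have h1 := P.cost _ (E8_mem hw) _ (E8_mem hw') (E8_le hle)
      (Or.inr (by fin_cases a <;> fin_cases b <;> exact le_rfl))
      (Or.inr (by fin_cases a <;> fin_cases b <;> exact le_rfl))
    rw [cost_E8 (a := a)] at h1
    refine h1.trans (Finset.sum_le_sum fun t _ => mul_le_mul_of_nonneg_right ?_
      (sub_nonneg.2 (hle t)))
    split_ifs with h
    · subst h
      exact zero_le_one
    · exact le_rfl

/-- the rate of `C` -/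
theorem m_eq (H : OutS (gC aF bF) LM0 (dhC aF bF) (nC aF bF) lam A φ r) :
    lam 0 - lam uC = rh r 1 := by
  have l0 : LegM 0 (0 : V9) := leg_zero
  have l1 : LegM 0 (e9 1) := by constructor <;> simp [e9]
  have e0 : E8 (0 : V9) = 0 := by funext i; rw [E8_k]; simp
  have e1 : E8 (e9 1) = uC := by
    funext i
    fin_cases i <;> simp [E8, bx9, uC, e9]
  have h1 := Ph_sum H l0
  have h2 := Ph_sum H l1
  rw [e0] at h1
  rw [e1] at h2
  rw [h1, h2, ← Finset.sum_sub_distrib,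
    Finset.sum_eq_single (1 : Fin 9) (fun k _ hk => ?_) (fun h => absurd (Finset.mem_univ _) h)]
  · have c1 : cH 1 = 1 := rfl
    have hc : ∀ t' : Fin 9, cH t' = cH 1 → t' = 1 := by decide
    have k1 := Ph_rate H 1 0 fun t' ht' => rfl
    have k2 := Ph_rate H 1 (e9 1) fun t' ht' => by rw [hc t' ht']
    rw [c1] at k1 k2
    rw [k1, k2, e9_same]
    simp
  · have hc : ∀ k : Fin 9, k ≠ 1 → ∀ t, cH t = k → t ≠ 1 := by decide
    rw [Ph_loc H k 0 (e9 1) fun t ht => ?_, sub_self]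
    rw [e9_ne (hc k hk t ht)]
    rfl

/-- **(A)** at a generic point -/
theorem out_rowA (H : OutS (gC aF bF) LM0 (dhC aF bF) (nC aF bF) lam A φ r) {s : ℝ} {a b : Fin 2}
    (P : PZ LM0 s a b lam) (hs0 : 0 ≤ s) (hs1 : s ≤ 1)
    (F : Fct9 (fun w => w 6 < 1 * w 0) s fun w => lam (E8 w))
    (K3 : ∀ c dl φ ρ, Cl9 c dl s (fun w => lam (E8 w)) φ ρ → PlE 1 c dl → K3C c s φ ρ)
    (hm : s < lam 0 - lam uC) {g qa qb : ℝ} :
    g - qb - 2 * s ≤ -(A.1 - (1/10) * A.2) / (11/10) - DL g s qa qb (-1) 0 (-1) := by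
  have C := cl_pt H P
  rw [← val_n0 H]
  exact rowA plE_cH C hs0 hs1 F (K3 _ _ _ _ C plE_cH) (by rw [← m_eq H]; exact hm)

/-- **(B)** at a generic point -/
theorem out_rowB (H : OutS (gC aF bF) LM0 (dhC aF bF) (nC aF bF) lam A φ r) {s : ℝ} {a b : Fin 2}
    (P : PZ LM0 s a b lam) (hs : 1 / 2 ≤ s) (hs1 : s ≤ 1)
    (F : Fct9 (fun w => w 6 < 1 * w 0) s fun w => lam (E8 w))
    (K3 : ∀ c dl φ ρ, Cl9 c dl s (fun w => lam (E8 w)) φ ρ → PlE 1 c dl → K3C c s φ ρ) {ε : ℝ}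
    (hε : 0 ≤ ε) (hm : lam 0 - lam uC ≤ s + ε) {g qa qb : ℝ} :
    g + qa - 2 * s - ε ≤ A.2 - DL g s qa qb (-1) 1 0 := by
  have C := cl_pt H P
  rw [← val_n1 H]
  exact rowB plE_cH C hs hs1 F (K3 _ _ _ _ C plE_cH) hε (by rw [← m_eq H]; exact hm)

end out

/-- **(A)**, in the derivatives along `(a, b) ↦ a n0 + b n1` -/
theorem D_rowA {lam : (Fin 12 → ℝ) → ℝ} {φ : ℕ → (Fin 12 → ℝ) → ℝ} {r : ℕ → ℝ} {D1 D2 : ℝ}
    (H : OutS (gC aF bF) LM0 (dhC aF bF) (nC aF bF) lam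
      (-(11/10) * D1 + (1/10) * D2, D2) φ r) {s : ℝ} {a b : Fin 2}
    (P : PZ LM0 s a b lam) (hs0 : 0 ≤ s) (hs1 : s ≤ 1)
    (F : Fct9 (fun w => w 6 < 1 * w 0) s fun w => lam (E8 w))
    (K3 : ∀ c dl φ ρ, Cl9 c dl s (fun w => lam (E8 w)) φ ρ → PlE 1 c dl → K3C c s φ ρ)
    (hm : s < lam 0 - lam uC) {g qa qb : ℝ} :
    g - qb - 2 * s ≤ D1 - DL g s qa qb (-1) 0 (-1) := by
  have h := out_rowA H P hs0 hs1 F K3 hm (g := g) (qa := qa) (qb := qb)
  have e : -((-(11/10) * D1 + (1/10) * D2) - (1/10) * D2) / (11/10) = D1 := by ring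
  simp only at h
  rw [e] at h
  exact h

/-- **(B)**, in the derivatives along `(a, b) ↦ a n0 + b n1` -/
theorem D_rowB {lam : (Fin 12 → ℝ) → ℝ} {φ : ℕ → (Fin 12 → ℝ) → ℝ} {r : ℕ → ℝ} {D1 D2 : ℝ}
    (H : OutS (gC aF bF) LM0 (dhC aF bF) (nC aF bF) lam
      (-(11/10) * D1 + (1/10) * D2, D2) φ r) {s : ℝ} {a b : Fin 2}
    (P : PZ LM0 s a b lam) (hs : 1 / 2 ≤ s) (hs1 : s ≤ 1)
    (F : Fct9 (fun w => w 6 < 1 * w 0) s fun w => lam (E8 w))
    (K3 : ∀ c dl φ ρ, Cl9 c dl s (fun w => lam (E8 w)) φ ρ → PlE 1 c dl → K3C c s φ ρ) {ε : ℝ}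
    (hε : 0 ≤ ε) (hm : lam 0 - lam uC ≤ s + ε) {g qa qb : ℝ} :
    g + qa - 2 * s - ε ≤ D2 - DL g s qa qb (-1) 1 0 :=
  out_rowB H P hs hs1 F K3 hε hm

end Crest.Agent.R116.Ts905
end

-- ▼ part R116/Ts6_894
section

/-!
# R116 (K side, ties), cell (H4) (e-tie, `k = 1`, `s ≥ 1/2`), the a.e. half (helper894)

The plane `P4 a b = a n0 + b n1` (`n0 = (-1;0,-1)`, `n1 = (-1;1,0)`, slot `D` frozen at `0`) in the
first tangent `g1` of `(ν, own)` at a record box.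

* `X_F`, `L_F`, `O_F` : the plane in the coordinates of 219's engine (`aF = -(11/10) n0 + (1/10) n1`,
  `bF = n1`), its walls
* **`h4_ae`** : at a.e. `(a, b)`, `0 < b`: derivative of `g1 0 ∘ P4`, second tangents along every
  scale, `OutS`
-/

set_option autoImplicit false
set_option linter.unusedVariables false
set_option linter.unusedSectionVars false

open Set Filter Topology MeasureTheory

namespace Crest.Agent.R116.Ts894

open Crest.Agent.R138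
open Crest.Agent.R138.Ex926 (IsTan)
open Crest.Agent.R136
open Crest.Agent.R136.Net191
open Crest.Agent.R136.Dg219 (mw gC dhC nC gset lf gC_eq gC_zero Walls OutS dirC leg_outC leg_legal
  mw_full)
open Crest.Agent.R116.ChL222
open Crest.Agent.R116.Sg337 (bx9 natB coneL)
open Crest.Agent.R116.SgF665 (wl wl_add wl_smul LM0 mem_LM0)
open Crest.Agent.R116.D0F878 (natB_wall)
open Crest.Agent.R116.SgO219
open Crest.Agent.R116.Tq794 (mon_one wl_single)
open Dg262 (SupOn)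

/-- the box `a n0 + b n1`, slot `D` frozen at `0` -/
def P4 (a b : ℝ) : Fin 12 → ℝ := natB (-(a + b)) b (-a) + b • (Pi.single 1 1 : Fin 12 → ℝ)

/-- first direction of the engine -/
noncomputable def aF : Fin 12 → ℝ := natB 1 (1 / 10) (11 / 10) + (1 / 10 : ℝ) • (Pi.single 1 1 : Fin 12 → ℝ)

/-- second direction of the engine -/
def bF : Fin 12 → ℝ := natB (-1) 1 0 + Pi.single 1 1

theorem bF_eq : bF = natB (-1) 1 0 + (1 : ℝ) • (Pi.single 1 1 : Fin 12 → ℝ) := by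
  rw [one_smul]; rfl

theorem natB_zero : natB 0 0 0 = 0 := by
  funext k; fin_cases k <;> simp [natB, bx9]

theorem aF_nonneg : ∀ i, 0 ≤ aF i := by
  intro i
  fin_cases i <;> simp [aF, natB, bx9] <;> norm_num

/-- the walls at a natural box with `D` raised -/
theorem wl_nat1 (z c p x : ℝ) (k : Fin 12) {e : Fin 12 → ℕ} (he : e ∈ monL.mon k) :
    wl e (natB z c p + x • (Pi.single 1 1 : Fin 12 → ℝ)) =
      (natB z c p + x • (Pi.single 1 1 : Fin 12 → ℝ)) k + x * e 1 := by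
  rw [wl_add, natB_wall _ _ _ k he, wl_single, Pi.add_apply, Pi.smul_apply,
    Pi.single_eq_of_ne (mon_one he), smul_zero, add_zero]

theorem act_F {k : Fin 12} {e : Fin 12 → ℕ} (he : e ∈ monL.mon k) :
    (mw monL).Act 0 aF bF ⟨k, e, he⟩ ↔ e 1 = 0 := by
  have h1 := wl_nat1 0 0 0 0 k he
  rw [natB_zero, zero_smul, zero_mul, add_zero, add_zero] at h1
  have h2 := wl_nat1 1 (1 / 10) (11 / 10) (1 / 10) k he
  have h3 := wl_nat1 (-1) 1 0 1 k he
  rw [← bF_eq] at h3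
  change wl e aF = aF k + 1 / 10 * e 1 at h2
  unfold wl at h1 h2 h3
  simp only [Walls.Act, mw, Walls.rhs, add_zero]
  constructor
  · rintro ⟨-, h4, -⟩
    have h5 : (1 / 10 : ℝ) * (e 1 : ℝ) = 0 := by linarith
    have h6 : (e 1 : ℝ) = 0 := by linarith
    exact_mod_cast h6
  · intro h4
    rw [h4, Nat.cast_zero, mul_zero, add_zero] at h2 h3
    exact ⟨h1.symm, h2.symm, h3.symm⟩

theorem L_F : (mw monL).L 0 aF bF = LM0 := by
  ext c
  constructor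
  · intro h k e he h1
    exact h ⟨k, e, he⟩ ((act_F he).2 h1)
  · intro h w hw
    obtain ⟨k, e, he⟩ := w
    exact h k e he ((act_F he).1 hw)

theorem X_F (a b : ℝ) : Dg262.X 0 aF bF (-(10 / 11) * a, b + 1 / 11 * a) = P4 a b := by
  funext k
  simp only [Dg262.X]
  fin_cases k <;> simp [aF, bF, P4, natB, bx9] <;> ring

theorem O_F {a b : ℝ} (hb : 0 < b) :
    ((-(10 / 11) * a, b + 1 / 11 * a) : ℝ × ℝ) ∈ OO (mw monL) 0 aF bF := by
  intro w
  obtain ⟨k, e, he⟩ := w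
  by_cases h1 : e 1 = 0
  · exact Or.inl ((act_F he).2 h1)
  · right
    rw [X_F]
    have h2 := wl_nat1 (-(a + b)) b (-a) b k he
    have h3 : (1 : ℝ) ≤ e 1 := by exact_mod_cast Nat.one_le_iff_ne_zero.2 h1
    change P4 a b k < wl e (P4 a b) + 0
    change wl e (P4 a b) = P4 a b k + b * e 1 at h2
    rw [h2]
    nlinarith

/-- the change of coordinates -/
noncomputable def TF : (ℝ × ℝ) ≃ₗ[ℝ] (ℝ × ℝ) where
  toFun z := (-(10 / 11) * z.1, z.2 + 1 / 11 * z.1)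
  invFun z := (-(11 / 10) * z.1, z.2 + 1 / 10 * z.1)
  map_add' x y := by ext <;> simp <;> ring
  map_smul' r x := by ext <;> simp <;> ring
  left_inv z := by ext <;> simp <;> ring
  right_inv z := by ext <;> simp <;> ring

theorem TF_apply (z : ℝ × ℝ) : TF z = (-(10 / 11) * z.1, z.2 + 1 / 11 * z.1) := rfl

theorem ae_TF {Q : ℝ × ℝ → Prop} (h : ∀ᵐ z : ℝ × ℝ, Q z) : ∀ᵐ z : ℝ × ℝ, Q (TF z) :=
  (Measure.LinearMap.quasiMeasurePreserving (volume : Measure (ℝ × ℝ))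
    (TF : (ℝ × ℝ) →ₗ[ℝ] (ℝ × ℝ)) (LinearEquiv.isUnit_det' TF).ne_zero).ae h

/-- **the a.e. half of (H4)** -/
theorem h4_ae {g1 : Fin 2 → (Fin 12 → ℝ) → ℝ} {K : ℝ} (hK : 0 ≤ K)
    (hlip : ∀ j, ∀ p ∈ coneL, ∀ q ∈ coneL, |g1 j p - g1 j q| ≤ K * dist p q)
    (hm : ∀ p ∈ coneL, ∀ q ∈ coneL, p ≤ q → 0 ≤ g1 0 p - g1 0 q ∧ g1 0 p - g1 0 q ≤ ∑ i, (q i - p i))
    (hs : SupOn (g1 0) coneL) :
    ∀ᵐ z : ℝ × ℝ, 0 < z.2 → ∃ D : ℝ × ℝ →L[ℝ] ℝ,
      HasFDerivAt (fun z : ℝ × ℝ => g1 0 (P4 z.1 z.2)) D z ∧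
      ∀ h : ℕ → ℝ, (∀ l, 0 < h l) → Tendsto h atTop (𝓝 0) →
      ∃ (χ : ℕ → ℕ) (lam : Fin 2 → (Fin 12 → ℝ) → ℝ), StrictMono χ ∧
        (∀ j, IsTan coneL LM0 (g1 j) (fun _ => P4 z.1 z.2) (fun l => h (χ l)) (lam j)) ∧
        ∃ (φ : ℕ → (Fin 12 → ℝ) → ℝ) (r : ℕ → ℝ), OutS (gC aF bF) LM0 (dhC aF bF) (nC aF bF) (lam 0)
          (-(11 / 10) * D (1, 0) + 1 / 10 * D (0, 1), D (0, 1)) φ r := by
  have ePL : PP (mw monL) = coneL := D0y219.PP_LM
  have key := ae_TF (ae_out_lam (mw monL) (x0 := 0) (a := aF) (b := bF) (g := g1 0) hK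
    (by rw [ePL]; exact hlip 0) (by rw [ePL]; exact hm) (by rw [ePL]; exact hs) aF_nonneg
    (mw_full _ _ _ _))
  filter_upwards [key] with z hz hz2
  have hO := O_F (a := z.1) hz2
  obtain ⟨D, hD, H⟩ := hz hO
  have hX : ∀ z : ℝ × ℝ, Dg262.X 0 aF bF (TF z) = P4 z.1 z.2 := fun z => X_F z.1 z.2
  set TL : (ℝ × ℝ) →L[ℝ] (ℝ × ℝ) := (TF : (ℝ × ℝ) →ₗ[ℝ] (ℝ × ℝ)).toContinuousLinearMap with hTL
  have hTLa : ∀ z, TL z = TF z := fun z => rfl
  have hD' : HasFDerivAt (fun z : ℝ × ℝ => g1 0 (P4 z.1 z.2)) (D.comp TL) z := by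
    have h1 : HasFDerivAt (fun z : ℝ × ℝ => TF z) TL z := TL.hasFDerivAt
    have h2 := hD.comp z h1
    refine h2.congr_of_eventuallyEq (Eventually.of_forall fun y => ?_)
    show g1 0 (P4 y.1 y.2) = g1 0 (Dg262.X 0 aF bF (TF y))
    rw [hX]
  have e1 : D.comp TL (1, 0) = -(10 / 11) * D (1, 0) + 1 / 11 * D (0, 1) := by
    rw [ContinuousLinearMap.comp_apply, hTLa, TF_apply]
    have : ((-(10 / 11) * ((1, 0) : ℝ × ℝ).1, ((1, 0) : ℝ × ℝ).2 + 1 / 11 * ((1, 0) : ℝ × ℝ).1) :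
        ℝ × ℝ) = (-(10 / 11) : ℝ) • (1, 0) + (1 / 11 : ℝ) • (0, 1) := by
      ext <;> simp
    rw [this, map_add, map_smul, map_smul, smul_eq_mul, smul_eq_mul]
  have e2 : D.comp TL (0, 1) = D (0, 1) := by
    rw [ContinuousLinearMap.comp_apply, hTLa, TF_apply]
    congr 1
    ext <;> simp
  refine ⟨D.comp TL, hD', fun h hpos h0 => ?_⟩
  obtain ⟨χ, hχ, lam, hlam⟩ := exists_tan_OO (mw monL) (x0 := 0) (a := aF) (b := bF) (g := g1) hK
    (by
      rw [ePL]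
      intro j p hp q hq
      rw [← dist_eq_norm]
      exact hlip j p hp q hq) hO hpos h0
  obtain ⟨φ, r, HO⟩ := H (fun l => h (χ l)) (fun l => hpos _) (h0.comp hχ.tendsto_atTop) (lam 0)
    (hlam 0)
  refine ⟨χ, lam, hχ, fun j => ?_, φ, r, ?_⟩
  · have h1 := hlam j
    rw [ePL, L_F, X_F] at h1
    exact h1
  · rw [L_F] at HO
    rw [e1, e2]
    have e3 : -(11 / 10) * (-(10 / 11) * D (1, 0) + 1 / 11 * D (0, 1)) + 1 / 10 * D (0, 1) =
        D (1, 0) := by ring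
    rw [e3]
    exact HO

end Crest.Agent.R116.Ts894
end

-- ▼ part R116/TsR_905
section

/-!
# R116, cell (H4) : the two a.e. rows of `two_step` over `CtxT` (helper905, second of Ts7_894)
-/

set_option autoImplicit false
set_option linter.unusedVariables false
set_option linter.unusedSectionVars false

open Filter Topology Set MeasureTheory

namespace Crest.Agent.R116.TsR905

open Crest.Agent.R138
open Crest.Agent.R138.Ex926 (Base U IsTan)
open Crest.Agent.R136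
open Crest.Agent.R136.MkA627
open Crest.Agent.R136.TD627
open Crest.Agent.R136.Net191
open Crest.Agent.R136.Lq196
open Crest.Agent.R136.Qg926 Crest.Agent.R136.Gf356 Crest.Agent.R116.EvL504
open Crest.Agent.R116.ChL222
open Crest.Agent.R116.PL504 (nb rL DN eL βL oL Shift eL_wall)
open Crest.Agent.R116.Sg337 (bx9 coneL DL natB uC)
open Crest.Agent.R116.Gd222 (TSet sN PDL DT)
open Crest.Agent.R116.KI439
open Crest.Agent.R116.KF439 (PL)
open Crest.Agent.R116.CtxB468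
open Crest.Agent.R116.Rcx363
open Crest.Agent.R116.Tq794
open Crest.Agent.R116.Tq741
open Crest.Agent.R116.KTie794
open Crest.Agent.R116.SgF665 (LM0 bx9_mem)
open Crest.Agent.R116.Ts72 (P4 h4_pt)
open Crest.Agent.R116.Ts2p604 (MC)
open Dg262 (SupOn)

variable {G : Geo TSet (Fin 2)} {L : ℕ → ℕ → LRay} {r : ℕ → ℝ} {g s : ℝ} {θ q : Fin 2 → ℝ}
    {Rg : ℝ} {B : Base} {I : ℕ → Finset (ℕ × ℝ)} {lev : ℕ → ℚ → ℕ} {A : ℕ → ℝ}
    {f : ℕ → ℚ → ℕ → ℤ → ℕ} {b : ℕ → ℚ → ℕ → TSet} {vm : ℕ → ℚ → ℝ} {w : Fin 2 → ℕ → ℚ → ℝ}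
    {fr : ℕ → ℚ → ℕ × ℝ → LInc} {fl : ℕ → ℕ × ℝ → LInc} {sc : Fin 12 → ℕ → ℝ}
    {w0 sa sb δ R : ℝ} {I0 I' : ℕ → Finset (ℕ × ℝ)} {ν own : (Fin 12 → ℝ) → ℝ} {c₀ : ℝ}

theorem zero_LM0 : (0 : Fin 12 → ℝ) ∈ LM0 := by
  have : (0 : Fin 12 → ℝ) = bx9 0 0 0 0 0 0 0 0 0 := by funext k; fin_cases k <;> rfl
  rw [this]
  exact bx9_mem.2 ⟨by norm_num, by norm_num, by norm_num, by norm_num, by norm_num, by norm_num,
    by norm_num⟩

theorem uC_LM0 : uC ∈ LM0 :=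
  bx9_mem.2 ⟨by norm_num, by norm_num, by norm_num, by norm_num, by norm_num, by norm_num,
    by norm_num⟩

/-- **the rows** -/
theorem rows
    (C : CtxT G L r g s θ q Rg B I lev A f b vm w fr fl sc w0 sa sb δ R I0 I' ν own c₀)
    (hs : 1 / 2 ≤ s) (hs1 : s ≤ 1) (hθ : 0 < θ 0) (h1 : θ 0 - θ 1 = 1)
    (hVB : VisB θ B I lev fl sc) (hIE : InvE B I fl sc) {v0 : ℝ} (hv0 : 0 < v0) (hv1 : v0 < 1)
    {hh : ℕ → ℝ} (hpos : ∀ l, 0 < hh l) (hh0 : Tendsto hh atTop (𝓝 0))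
    {g1 : Fin 2 → (Fin 12 → ℝ) → ℝ} (ht1 : ∀ j, IsTan (Leg monL R) coneL (fo ν own j)
      (fun _ => rL (θ 0) (θ 1) w0 sa sb v0) hh (g1 j)) {a' b' : Fin 2}
    (hP1 : Prf coneL s a' b' (VisT B I fl sc) (βL (θ 0) (θ 1)) (g1 0))
    {K : ℝ} (hK : 0 ≤ K) (hlip : ∀ j, ∀ p ∈ coneL, ∀ q ∈ coneL, |g1 j p - g1 j q| ≤ K * dist p q)
    {h : ℕ → ℝ} (kpos : ∀ l, 0 < h l) (k0 : Tendsto h atTop (𝓝 0)) {ε γ : ℝ} (hε : 0 < ε)
    {c qa qb : ℝ} (gA : γ ≤ c - qb - 2 * s) (gB : γ ≤ c + qa - 2 * s - ε) :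
    (∀ᵐ z : ℝ × ℝ, 0 < z.2 → MC (g1 0) (s + ε) h (P4 z.1 z.2) →
      ∀ d, HasDerivAt (fun a => g1 0 (P4 a z.2) - DL c s qa qb (-(a + z.2)) z.2 (-a)) d z.1 →
        γ ≤ d) ∧
    (∀ᵐ z : ℝ × ℝ, 0 < z.2 → ¬ MC (g1 0) (s + ε) h (P4 z.1 z.2) →
      ∀ d, HasDerivAt (fun y => g1 0 (P4 z.1 y) - DL c s qa qb (-(z.1 + y)) y (-z.1)) d z.2 →
        γ ≤ d) := by
  have hae := Ts894.h4_ae hK hlip hP1.anti hP1.sm
  have hvis : ∀ k, VisT B I fl sc k → k = 0 ∨ k = 1 ∨ k = 2 ∨ k = 7 ∨ k = 8 := fun k hk => by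
    rcases Hm621.vis78 C hIE.2 hIE.1 k hk with h | h | h
    · exact Or.inl h
    · exact Or.inr (Or.inr (Or.inr (Or.inl h)))
    · exact Or.inr (Or.inr (Or.inr (Or.inr h)))
  constructor
  · filter_upwards [hae] with z hz hz2 hM d hd
    obtain ⟨D, hD, H⟩ := hz hz2
    obtain ⟨ψ, hψ, hrate⟩ := hM.tan kpos
    obtain ⟨χ, lam, hχ, hlam, φ, r', HO⟩ := H (fun l => h (ψ l)) (fun l => kpos _)
      (k0.comp hψ.tendsto_atTop)
    obtain ⟨hP, hF, hK3⟩ := h4_pt C (by linarith) hs1 hθ h1 hVB hIE hv0 hv1 hpos hh0 ht1 hP1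
      (x := z.1) hz2 (k := fun l => h (ψ (χ l))) (fun l => kpos _)
      ((k0.comp hψ.tendsto_atTop).comp hχ.tendsto_atTop) hlam
    have hm := hrate χ _ _ _ (hlam 0) zero_LM0 uC_LM0
    have hrow := Ts905.D_rowA HO (Pd363.pz_of hP hvis) (by linarith) hs1 hF hK3
      (show s < lam 0 0 - lam 0 uC by linarith) (g := c) (qa := qa) (qb := qb)
    -- the derivative
    have e1 : HasDerivAt (fun a : ℝ => g1 0 (P4 a z.2)) (D (1, 0)) z.1 := by
      have h2 : HasDerivAt (fun a : ℝ => ((a, z.2) : ℝ × ℝ)) (1, 0) z.1 :=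
        (hasDerivAt_id z.1).prodMk (hasDerivAt_const z.1 z.2)
      exact hD.comp_hasDerivAt z.1 h2
    have e2 : HasDerivAt (fun a : ℝ => DL c s qa qb (-(a + z.2)) z.2 (-a))
        (DL c s qa qb (-1) 0 (-1)) z.1 := by
      have e : (fun a : ℝ => DL c s qa qb (-(a + z.2)) z.2 (-a)) =
          fun a => DL c s qa qb (-1) 0 (-1) * a + DL c s qa qb (-z.2) z.2 0 := by
        funext a; unfold DL; ring
      rw [e]
      simpa using ((hasDerivAt_id z.1).const_mul (DL c s qa qb (-1) 0 (-1))).add_const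
        (DL c s qa qb (-z.2) z.2 0)
    have e3 := hd.unique (e1.sub e2)
    linarith
  · filter_upwards [hae] with z hz hz2 hM d hd
    obtain ⟨D, hD, H⟩ := hz hz2
    obtain ⟨χ, lam, hχ, hlam, φ, r', HO⟩ := H h kpos k0
    obtain ⟨hP, hF, hK3⟩ := h4_pt C (by linarith) hs1 hθ h1 hVB hIE hv0 hv1 hpos hh0 ht1 hP1
      (x := z.1) hz2 (k := fun l => h (χ l)) (fun l => kpos _) (k0.comp hχ.tendsto_atTop) hlam
    have hm := Ts2p604.not_MC_tan hM kpos hχ (hlam 0) zero_LM0 uC_LM0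
    have hrow := Ts905.D_rowB HO (Pd363.pz_of hP hvis) hs hs1 hF hK3 hε.le hm
      (g := c) (qa := qa) (qb := qb)
    have e1 : HasDerivAt (fun y : ℝ => g1 0 (P4 z.1 y)) (D (0, 1)) z.2 := by
      have h2 : HasDerivAt (fun y : ℝ => ((z.1, y) : ℝ × ℝ)) (0, 1) z.2 :=
        (hasDerivAt_const z.2 z.1).prodMk (hasDerivAt_id z.2)
      exact hD.comp_hasDerivAt z.2 h2
    have e2 : HasDerivAt (fun y : ℝ => DL c s qa qb (-(z.1 + y)) y (-z.1))
        (DL c s qa qb (-1) 1 0) z.2 := by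
      have e : (fun y : ℝ => DL c s qa qb (-(z.1 + y)) y (-z.1)) =
          fun y => DL c s qa qb (-1) 1 0 * y + DL c s qa qb (-z.1) 0 (-z.1) := by
        funext y; unfold DL; ring
      rw [e]
      simpa using ((hasDerivAt_id z.2).const_mul (DL c s qa qb (-1) 1 0)).add_const
        (DL c s qa qb (-z.1) 0 (-z.1))
    have e3 := hd.unique (e1.sub e2)
    linarith

end Crest.Agent.R116.TsR905
end

-- ▼ part R116/FlH4_72
section

/-!
# R116, cell (H4) (`e`-tie, `k = 1`, `1/2 ≤ s`, every `θ 0`): the fill (helper72)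

* **`fillH4`** : `Fill η VE (1/2 ≤ s → θ 0 - θ 1 = 1 → False)` (no binder)
-/

set_option autoImplicit false
set_option linter.unusedVariables false
set_option linter.unusedSectionVars false

open Filter Topology Set MeasureTheory

namespace Crest.Agent.R116.Ts72

open Crest.Agent.R138
open Crest.Agent.R138.Ex926 (Base U IsTan)
open Crest.Agent.R136
open Crest.Agent.R136.MkA627
open Crest.Agent.R136.TD627
open Crest.Agent.R136.Net191
open Crest.Agent.R136.Lq196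
open Crest.Agent.R116.ChL222
open Crest.Agent.R116.PL504 (nb rL DN eL βL oL Shift eL_wall)
open Crest.Agent.R116.Xd954 (cs xs FlagX)
open Crest.Agent.R116.Sg337 (bx9 coneL DL natB uC)
open Crest.Agent.R116.Gd222 (TSet sN PDL DT)
open Crest.Agent.R116.KI439
open Crest.Agent.R116.KF439 (PL)
open Crest.Agent.R116.KTop387
open Crest.Agent.R116.CtxB468
open Crest.Agent.R116.KTie794
open Crest.Agent.R116.FlH850
open Crest.Agent.R116.Rcx363
open Crest.Agent.R116.Ts2p604 (incC MC)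
open Dg262 (SupOn)

/-- the steps of the predicate `MC` -/
noncomputable def hS (l : ℕ) : ℝ := 1 / ((l : ℝ) + 1)

theorem hS_pos (l : ℕ) : 0 < hS l := by unfold hS; positivity

theorem hS_lim : Tendsto hS atTop (𝓝 0) := tendsto_one_div_add_atTop_nhds_zero_nat

/-- **`e`-tie, `k = 1`, `1/2 ≤ s`, every `θ 0`** -/
theorem fillH4 {η : ℝ} (hη : η < 1) :
    Fill η VE fun g s θ q => 1 / 2 ≤ s → θ 0 - θ 1 = 1 → False := by
  refine fill_of ?_
  intro G L r g s θ q Rg B I lev A f b vm w fr fl sc w0 sa sb δ R I0 I' ν own c₀ C N hR0 hR1 hRg hV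
    hs h1
  have hRg' : θ 0 + |θ 1| < Rg := by linarith
  obtain ⟨a', b', hX⟩ := C.fX
  have hX' : ∀ κ0 : ℝ, FlagX B I' lev fl (sN lev w) κ0 0 a' b' := hX I' C.sub'
  have hv0 : (0:ℝ) < 1 / 2 := by norm_num
  have hv1 : (1 / 2 : ℝ) < 1 := by norm_num
  obtain ⟨φ, hφ, g1, hg1⟩ := first_tan C hR0 hR1 hv0.le hv1.le hS_pos hS_lim
  have hpos' : ∀ l, 0 < hS (φ l) := fun l => hS_pos _
  have hh0' : Tendsto (fun l => hS (φ l)) atTop (𝓝 0) := hS_lim.comp hφ.tendsto_atTop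
  obtain ⟨hP, hDm, -⟩ := first_prf C hR0 hR1 N.θa hRg' hX' hv0 hv1 hpos' hh0' (g1 := g1 0) (hg1 0)
  have hlip : ∀ j, ∀ p ∈ coneL, ∀ q ∈ coneL, |g1 j p - g1 j q| ≤ (12:ℝ) * dist p q :=
    fun j => SgO219.tan_lip hpos' (hg1 j) (fo_lip C j)
  have hqg : q 1 < g := by
    have := N.qbg
    have := N.gpos
    nlinarith
  have hγ : 0 < min (g - q 1) (g / 2) := lt_min (by linarith) (by linarith [N.gpos])
  have m1 := min_le_left (g - q 1) (g / 2)
  have m2 := min_le_right (g - q 1) (g / 2)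
  obtain ⟨hA, hB⟩ := TsR905.rows C hs N.s1.le N.θa h1 hV.1 hV.2 hv0 hv1 hpos' hh0' hg1 hP
    (K := 12) (by norm_num) hlip hS_pos hS_lim (ε := g / 2) (by linarith [N.gpos])
    (c := g + 2 * s) (qa := q 0) (qb := q 1) (γ := min (g - q 1) (g / 2))
    (by linarith) (by linarith [N.qa])
  exact h4_core (κ := s + g / 2) hγ hP (Sg337.tan_zero hpos' (hg1 0) zero_coneL) (hlip 0) hDm hS_pos
    (hA.mono fun z hz _ m2 hM => hz m2 hM) (hB.mono fun z hz _ m2 hM => hz m2 hM)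

end Crest.Agent.R116.Ts72
end

-- ▼ part R116/RTz_188

/-!
# R116, ROW TIE (helper188): **the row of the ties is proved**

* **`rowTie`**
-/

set_option autoImplicit false
set_option linter.unusedVariables false

namespace Crest.Agent.R116.RTz188

open Crest.Agent.R116.KTop387 (RowTie)

/-- **ROW TIE** -/
theorem rowTie : ∃ η : ℝ, 0 < η ∧ RowTie η :=
  ⟨1 / 4, by norm_num, FlH850.rowTie_of_h4 (by norm_num) (Ts72.fillH4 (by norm_num))⟩

end Crest.Agent.R116.RTz188
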