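import Crest.Agent.R116.RmB_79_Mg

/-!
# R116, K2 (ENEMY with room), part 3 (helper618): COUNT2

`count2`: number of children (spacing `rho = 1/(8 N Q)`) of a grid family in a member of `B = 0`.
-/

set_option autoImplicit false
set_option linter.unusedVariables false

open Finset

namespace Crest.Agent.R116.Ene618

open Crest.Agent.R116.LZg725
open Crest.Agent.R138.Defs (E2)
open Crest.Agent.R116.CDef480 (E3 lat pt vel)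
open Crest.Agent.R116.Ks79

/-- spacing of the children. -/
noncomputable def rho0 (N Q : ℕ) : ℝ := 1 / (8 * (N : ℝ) * Q)

/-- indices of the children. -/
noncomputable def idx (N Q : ℕ) : Finset ((ℤ × ℤ) × ℤ) :=
  (Ico (0 : ℤ) Q ×ˢ Ico (0 : ℤ) Q) ×ˢ Ico (0 : ℤ) (8 * N * Q ^ 2)


section

variable {N Q : ℕ}

theorem rho0_pos (hN : 1 ≤ N) (hQ : 1 ≤ Q) : 0 < rho0 N Q := by
  have hN0 : (0 : ℝ) < N := by exact_mod_cast hN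
  have hQ0 : (0 : ℝ) < Q := by exact_mod_cast hQ
  unfold rho0; positivity

theorem rho0_Q (hN : 1 ≤ N) (hQ : 1 ≤ Q) : Q * rho0 N Q = 1 / (N : ℝ) / 8 := by
  have hN0 : (0 : ℝ) < N := by exact_mod_cast hN
  have hQ0 : (0 : ℝ) < Q := by exact_mod_cast hQ
  unfold rho0; field_simp

theorem rho0_sq (hN : 1 ≤ N) (hQ : 1 ≤ Q) : (8 * N * Q ^ 2) * rho0 N Q ^ 2 = 1 / (N : ℝ) / 8 := by
  have hN0 : (0 : ℝ) < N := by exact_mod_cast hN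
  have hQ0 : (0 : ℝ) < Q := by exact_mod_cast hQ
  unfold rho0; field_simp

theorem mem_idx {x : (ℤ × ℤ) × ℤ} (hx : x ∈ idx N Q) : (0 ≤ x.1.1 ∧ x.1.1 < Q) ∧
    (0 ≤ x.1.2 ∧ x.1.2 < Q) ∧ (0 ≤ x.2 ∧ x.2 < 8 * N * Q ^ 2) := by
  unfold idx at hx
  rw [mem_product, mem_product, mem_Ico, mem_Ico, mem_Ico] at hx
  exact ⟨hx.1.1, hx.1.2, hx.2⟩

theorem idx_abs1 (hN : 1 ≤ N) (hQ : 1 ≤ Q) {x : (ℤ × ℤ) × ℤ} (hx : x ∈ idx N Q) :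
    |pv (rho0 N Q) x.1 0| ≤ 1 / (N : ℝ) / 8 ∧ |pv (rho0 N Q) x.1 1| ≤ 1 / (N : ℝ) / 8 ∧
      |(x.2 : ℝ) * rho0 N Q ^ 2| ≤ 1 / (N : ℝ) / 8 := by
  obtain ⟨⟨a1, a2⟩, ⟨b1, b2⟩, ⟨c1, c2⟩⟩ := mem_idx hx
  have hrho := rho0_pos hN hQ
  have a1' : (0:ℝ) ≤ x.1.1 := by exact_mod_cast a1
  have a2' : (x.1.1 : ℝ) ≤ Q := by exact_mod_cast a2.le
  have b1' : (0:ℝ) ≤ x.1.2 := by exact_mod_cast b1
  have b2' : (x.1.2 : ℝ) ≤ Q := by exact_mod_cast b2.le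
  have c1' : (0:ℝ) ≤ x.2 := by exact_mod_cast c1
  have c2' : (x.2 : ℝ) ≤ 8 * N * Q ^ 2 := by exact_mod_cast c2.le
  refine ⟨?_, ?_, ?_⟩
  · show |(x.1.1 : ℝ) * rho0 N Q| ≤ _
    rw [abs_of_nonneg (mul_nonneg a1' hrho.le), ← rho0_Q hN hQ]
    exact mul_le_mul_of_nonneg_right a2' hrho.le
  · show |(x.1.2 : ℝ) * rho0 N Q| ≤ _
    rw [abs_of_nonneg (mul_nonneg b1' hrho.le), ← rho0_Q hN hQ]
    exact mul_le_mul_of_nonneg_right b2' hrho.le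
  · rw [abs_of_nonneg (mul_nonneg c1' (sq_nonneg _)), ← rho0_sq hN hQ]
    exact mul_le_mul_of_nonneg_right c2' (sq_nonneg _)

theorem idx_diff (hN : 1 ≤ N) (hQ : 1 ≤ Q) {x y : (ℤ × ℤ) × ℤ} (hx : x ∈ idx N Q)
    (hy : y ∈ idx N Q) :
    |((x.1.1 : ℝ) - y.1.1) * rho0 N Q| ≤ 1 / (N : ℝ) / 8 ∧
    |((x.1.2 : ℝ) - y.1.2) * rho0 N Q| ≤ 1 / (N : ℝ) / 8 := by
  obtain ⟨⟨a1, a2⟩, ⟨b1, b2⟩, -⟩ := mem_idx hx
  obtain ⟨⟨a3, a4⟩, ⟨b3, b4⟩, -⟩ := mem_idx hy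
  have hrho := rho0_pos hN hQ
  have e1 : |(x.1.1 : ℝ) - y.1.1| ≤ Q := by
    have : |x.1.1 - y.1.1| ≤ (Q : ℤ) := by rw [abs_le]; constructor <;> omega
    exact_mod_cast this
  have e2 : |(x.1.2 : ℝ) - y.1.2| ≤ Q := by
    have : |x.1.2 - y.1.2| ≤ (Q : ℤ) := by rw [abs_le]; constructor <;> omega
    exact_mod_cast this
  rw [abs_mul, abs_mul, abs_of_pos hrho, ← rho0_Q hN hQ]
  exact ⟨mul_le_mul_of_nonneg_right e1 hrho.le, mul_le_mul_of_nonneg_right e2 hrho.le⟩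




end

end Crest.Agent.R116.Ene618
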