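import Crest.Agent.R116.Fg1_126
import Crest.Agent.R116.LKMDef_299
import Crest.Agent.R116.Ene4_618

-- ▼ part R116/Fg2_126
section

/-!
# R116 (S0155), K side: [FILL-GEO] of helper439 over 725's `Mem` (helper126)
-/

set_option autoImplicit false

namespace Crest.Agent.R116.Fg126

open Crest.Agent.R138.Defs (E2)
open Crest.Agent.R116.CDef480 (E3 lat pt)
open Crest.Agent.R116.LZg725
open Crest.Agent.R116.LKMDef299 (LRay Cpt)

/-- **FILL-GEO**: the parents `(C, a, k)` of the rays `(C, a, k + t)`, `|t| ≤ 2 r`, of a member of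
thickness `sg²` lie in seven members of thickness `max (sg²) r`; the shifts `t` of one parent differ
by at most `l`; `l * cost` is controlled. -/
structure Fill (M r : ℝ) (m : Mem) (F : ℤ → Mem) (l : ℝ) : Prop where
  l0 : 0 < l
  l4 : l ≤ 4 * r
  rl : r ^ 2 ≤ M * l
  ok : ∀ j : ℤ, |j| ≤ 3 → (F j).Ok (4 * M) r
  cpt : ∀ j : ℤ, |j| ≤ 3 → Cpt (4 * M) r (F j)
  R1 : ∀ j : ℤ, |j| ≤ 3 → (F j).R = 1
  s0 : ∀ j : ℤ, |j| ≤ 3 → (F j).s0 = 0
  thin : ∀ j : ℤ, |j| ≤ 3 → r ≤ (F j).s1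
  sg1 : ∀ j : ℤ, |j| ≤ 3 → (F j).sg ≤ 1
  cost : ∀ j : ℤ, |j| ≤ 3 → l * (F j).scost r ≤ 16 * M * (r * m.scost 0)
  ray : ∀ (C a : E2) (k t : ℝ), (C, a, k + t) ∈ m.rays 0 → |t| ≤ 2 * r →
    ∃ j : ℤ, |j| ≤ 3 ∧ (C, a, k) ∈ (F j).rays r
  diff : ∀ (C a : E2) (k t t' : ℝ), (C, a, k + t) ∈ m.rays 0 → (C, a, k + t') ∈ m.rays 0 →
    |t| ≤ 2 * r → |t'| ≤ 2 * r → |t - t'| ≤ l

theorem fill_geo {M : ℝ} (hM : 1 ≤ M) {r : ℝ} (hr : 0 < r) (hr1 : r ≤ 1) {m : Mem}
    (hok : m.Ok M 0) (hR : m.R = 1) (hs0 : m.s0 = 0) (hs1 : r ≤ m.s1) (hsg : m.sg ≤ 1) :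
    ∃ (F : ℤ → Mem) (l : ℝ), Fill M r m F l := by
  obtain ⟨c, sg, s1, R, X0, s0, p⟩ := m
  simp only at hR hs0 hs1 hsg
  subst hR hs0
  have h1sg : s1 ≤ sg := hok.hsg
  have hsg0 : 0 < sg := by linarith
  have hs10 : 0 < s1 := by linarith
  have hM0 : 0 < M := by linarith
  have hT0 : (Mem.T 0 ⟨c, sg, s1, 1, X0, 0, p⟩ : ℝ) = sg ^ 2 := by
    unfold Mem.T
    simp only [zero_div]
    exact max_eq_left (sq_nonneg _)
  have had : Adm M c sg (sg ^ 2) 1 (lat X0) (X0 2) 0 p := by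
    have := hok.adm
    rw [hT0] at this
    exact this
  have hray : ∀ (C a : E2) (k : ℝ), (C, a, k) ∈ Mem.rays 0 ⟨c, sg, s1, 1, X0, 0, p⟩ →
      RayIn c sg (sg ^ 2) 1 (lat X0) (X0 2) 0 p s1 C a k := by
    intro C a k h
    rw [Mem.mem_rays, hT0, mul_one] at h
    exact h
  set nu : ℝ := |p.g| + 2 * |p.d| with hnu
  have hnu0 : 0 ≤ nu := by positivity
  obtain ⟨sm, hsm, hsm2⟩ := ny_max p
  have hnuM : nu * sg ≤ M := by
    have h1 := had.ny sm (by rwa [sub_zero])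
    rw [hsm2, ← hnu] at h1
    have h2 : nu * sg * sg ≤ M * sg := by nlinarith
    exact le_of_mul_le_mul_right h2 hsg0
  -- the number `l`
  obtain ⟨l, hl0, hl1, hl2, hl3, hl4, hl5⟩ : ∃ l : ℝ, 0 < l ∧ l ≤ 4 * r ∧ l ≤ 2 * sg ^ 2 ∧
      l * nu ≤ 2 * s1 ∧ r ^ 2 ≤ M * l ∧
      ∀ τ : ℝ, 0 ≤ τ → τ ≤ 4 * r → τ ≤ 2 * sg ^ 2 → τ * nu ≤ 2 * s1 → τ ≤ l := by
    have hr2 : r ^ 2 ≤ 4 * r := by nlinarith
    have hr3 : r ^ 2 ≤ 2 * sg ^ 2 := by nlinarith
    rcases hnu0.eq_or_lt with h0 | h0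
    · refine ⟨min (4 * r) (2 * sg ^ 2), by positivity, min_le_left _ _, min_le_right _ _, ?_, ?_,
        fun τ _ h1 h2 _ => le_min h1 h2⟩
      · rw [← h0, mul_zero]; linarith
      · have h1 := le_min hr2 hr3
        have h2 : 0 ≤ min (4 * r) (2 * sg ^ 2) := by positivity
        nlinarith
    · refine ⟨min (min (4 * r) (2 * sg ^ 2)) (2 * s1 / nu), by positivity,
        (min_le_left _ _).trans (min_le_left _ _), (min_le_left _ _).trans (min_le_right _ _), ?_,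
        ?_, fun τ _ h1 h2 h3 => le_min (le_min h1 h2) ?_⟩
      · rw [← le_div_iff₀ h0]; exact min_le_right _ _
      · have h1 : r ^ 2 / M ≤ min (min (4 * r) (2 * sg ^ 2)) (2 * s1 / nu) := by
          have h2 : r ^ 2 / M ≤ r ^ 2 := div_le_self (sq_nonneg _) hM
          refine le_min (le_min (h2.trans hr2) (h2.trans hr3)) ?_
          rw [div_le_div_iff₀ hM0 h0]
          have h3 : r ^ 2 * nu ≤ s1 * (sg * nu) := by
            have : r ^ 2 ≤ s1 * sg := by nlinarith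
            nlinarith
          have h4 : s1 * (sg * nu) ≤ s1 * M := by
            have := mul_le_mul_of_nonneg_left hnuM hs10.le
            linarith
          nlinarith
        rw [div_le_iff₀ hM0] at h1
        linarith
      · rw [le_div_iff₀ h0]; exact h3
  have he : ‖(EuclideanSpace.single 0 1 : E2)‖ = 1 := by simp
  obtain ⟨q, s2, hq⟩ := fill_core hM hr hs1 h1sg had he hl0 hl1 hl2 (by rw [← hnu]; exact hl3)
  set T : ℝ := max (sg ^ 2) r with hT
  have hs20 : 0 < s2 := lt_of_lt_of_le hr hq.lo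
  set F : ℤ → Mem := fun j => ⟨c, sg, s2, 1, pt (lat X0) (X0 2 + j * T), 0, q⟩ with hF
  have hFT : ∀ j, (F j).T r = T := by
    intro j
    rw [hF, hT]
    unfold Mem.T
    simp only [div_one]
  have hadq : ∀ j : ℤ, |j| ≤ 3 → Adm (4 * M) c sg T 1 (lat X0) (X0 2 + j * T) 0 q := by
    intro j hj
    refine ⟨hq.disc, fun s hs => ?_, hq.ld j hj, ?_⟩
    · rw [sub_zero] at hs
      exact hq.ny s hs
    · rw [mul_one]
      exact hq.ev j hj
  refine ⟨F, l, hl0, hl1, hl4, fun j hj => ?_, fun j hj => ?_, fun j _ => rfl, fun j _ => rfl,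
    fun j _ => hq.lo, fun j _ => hsg, fun j _ => ?_, ?_, ?_⟩
  · refine ⟨one_pos, hs20, hq.hi, ?_⟩
    have := hadq j hj
    rw [hFT j]
    simp only [hF, CDef480.lat_pt, CDef480.pt_two]
    exact this
  · intro s hs
    simp only [hF] at hs ⊢
    rw [sub_zero] at hs
    have := hq.cpt s hs
    nlinarith
  · unfold Mem.scost
    rw [hFT j, hT0]
    simp only [hF, one_pow, mul_one]
    exact hq.cost
  · intro C a k t h ht
    have h1 := hray C a (k + t) h
    obtain ⟨j, hj, hbox⟩ := box_cover hr h1 ht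
    refine ⟨j, hj, ?_⟩
    rw [Mem.mem_rays, hFT j]
    simp only [hF, CDef480.lat_pt, CDef480.pt_two, mul_one]
    refine ⟨h1.1, fun s hs => ?_⟩
    have hs' : |s| ≤ 1 := by rwa [sub_zero] at hs
    exact ⟨hbox s hs', hq.ray C a k t h1 ht s hs'⟩
  · intro C a k t t' h h' ht ht'
    have h1 := hray C a (k + t) h
    have h2 := hray C a (k + t') h'
    refine hl5 _ (abs_nonneg _) ?_ ?_ ?_
    · refine (abs_sub _ _).trans ?_
      linarith
    · have a1 := (h1.2 0 (by simp)).1.2.2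
      have a2 := (h2.2 0 (by simp)).1.2.2
      rw [ry_add, nrm_add_y, mul_one] at a1 a2
      rw [abs_le] at a1 a2 ⊢
      constructor <;> linarith [a1.1, a1.2, a2.1, a2.2]
    · have a1 := (h1.2 sm (by rwa [sub_zero])).2
      have a2 := (h2.2 sm (by rwa [sub_zero])).2
      rw [ry_add, ev_add_y] at a1 a2
      rw [hnu, ← hsm2, ← abs_mul]
      have e : (t - t') * p.ny sm = (p.ev (rx C a sm) (ry C k sm) sm + t * p.ny sm) -
        (p.ev (rx C a sm) (ry C k sm) sm + t' * p.ny sm) := by ring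
      rw [e]
      refine (abs_sub _ _).trans ?_
      linarith

end Crest.Agent.R116.Fg126
end

-- ▼ part R116/Rm1_618
section

/-!
# R116, K2 (ENEMY with room), part 1 (helper618): children of one parent in a member

Children of the ray `(C, a, k)`: `(C, a + rho p, k + rho² h)`.  `Sm m` = smallness of the
derivatives of the slab function.  `par_count`: number of children of one parent in a member.
-/

set_option autoImplicit false
set_option linter.unusedVariables false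

open Finset

namespace Crest.Agent.R116.Ene618

open Crest.Agent.R116.LZg725
open Crest.Agent.R138.Defs (E2)
open Crest.Agent.R116.CDef480 (E3 lat pt vel)

/-- the vector `rho p`. -/
noncomputable def pv (rho : ℝ) (p : ℤ × ℤ) : E2 := !₂[(p.1 : ℝ) * rho, (p.2 : ℝ) * rho]

/-- child of a ray. -/
noncomputable def chd (rho : ℝ) (r : E2 × E2 × ℝ) (x : (ℤ × ℤ) × ℤ) : E2 × E2 × ℝ :=
  (r.1, r.2.1 + pv rho x.1, r.2.2 + (x.2 : ℝ) * rho ^ 2)

/-- null shift of a child. -/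
noncomputable def nus (rho : ℝ) (r : E2 × E2 × ℝ) (x : (ℤ × ℤ) × ℤ) : ℝ :=
  (x.2 : ℝ) * rho ^ 2 + inner ℝ r.1 (pv rho x.1)

/-- members of length `1` at height `0` with small derivatives of the slab function. -/
structure Sm (M : ℝ) (m : Mem) : Prop where
  ok : m.Ok M 0
  R1 : m.R = 1
  s0 : m.s0 = 0
  ny : ∀ s : ℝ, |s| ≤ 1 → |m.phi.ny s| * m.sg ≤ 4 / 25

theorem Sm.d {M : ℝ} {m : Mem} (h : Sm M m) : |m.phi.d| * m.sg ≤ 2 / 25 := by
  have h1 := h.ny 1 (by norm_num)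
  have h2 := h.ny (-1) (by norm_num)
  have hsg := h.ok.sg_pos
  have e : m.phi.ny (-1) - m.phi.ny 1 = 4 * m.phi.d := by unfold Cf.ny; ring
  have h3 : 4 * |m.phi.d| ≤ |m.phi.ny (-1)| + |m.phi.ny 1| := by
    have h4 := abs_sub (m.phi.ny (-1)) (m.phi.ny 1)
    rw [e, abs_mul, abs_of_pos (by norm_num : (0:ℝ) < 4)] at h4
    exact h4
  nlinarith

/-- data of a ray of a member at height `0`. -/
theorem Sm.ray {M : ℝ} {m : Mem} (h : Sm M m) {C a : E2} {k : ℝ} (hr : (C, a, k) ∈ m.rays 0) :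
    ‖C - m.c‖ ≤ m.sg ∧ ‖a - lat m.X0‖ ≤ m.sg ∧
      |nrm m.c a k 0 - nrm m.c (lat m.X0) (m.X0 2) 0| ≤ m.sg ^ 2 ∧
      |m.phi.ev a k 0| ≤ m.s1 ∧ |m.phi.ld C a k 0| ≤ m.s1 := by
  rw [Mem.mem_rays, T_zero] at hr
  obtain ⟨hc, hk⟩ := hr
  rw [h.R1, h.s0] at hk
  have h0 := hk 0 (by norm_num)
  obtain ⟨⟨-, h1, h2⟩, h3⟩ := h0
  have ex : rx C a 0 = a := by unfold rx; simp
  have ey : ry C k 0 = k := by unfold ry; simp
  rw [ex, ey] at h2 h3
  rw [ex] at h1
  simp only [sub_zero, zero_smul, add_zero, mul_one] at h1 h2 h3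
  refine ⟨hc, h1, h2, h3, ?_⟩
  have h4 := ld_of_ray (p := m.phi) (C := C) (a := a) (k := k) (w := m.s1) (fun s hs => by
    have := (hk s (by rwa [sub_zero])).2
    rwa [mul_one] at this)
  rwa [ex, ey] at h4

/-- the lateral gradient of a ray of the member is of size `1`. -/
theorem Sm.gr_sq {M : ℝ} {m : Mem} (h : Sm M m) {C a : E2} {k : ℝ}
    (hr : (C, a, k) ∈ m.rays 0) :
    9 / 25 ≤ ‖m.phi.gr C a 0‖ ^ 2 ∧ ‖m.phi.gr C a 0‖ ^ 2 ≤ 41 / 25 := by
  obtain ⟨h1, h2, h3, h4, h5⟩ := h.ray hr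
  have hsg := h.ok.sg_pos
  have hs1 := h.ok.hs1
  have hle := h.ok.hsg
  have hn := h.ny 0 (by norm_num)
  have hd := h.d
  have e := Cf.norm_gr_sq m.phi C a k 0
  rw [h.ok.adm.disc] at e
  have e1 : |2 * m.phi.ny 0 * m.phi.ld C a k 0| ≤ 8 / 25 := by
    rw [abs_mul, abs_mul, abs_two]
    have : |m.phi.ny 0| * |m.phi.ld C a k 0| ≤ |m.phi.ny 0| * m.sg :=
      mul_le_mul_of_nonneg_left (h5.trans hle) (abs_nonneg _)
    linarith
  have e2 : |4 * m.phi.d * m.phi.ev a k 0| ≤ 8 / 25 := by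
    rw [abs_mul, abs_mul, abs_of_pos (by norm_num : (0:ℝ) < 4)]
    have : |m.phi.d| * |m.phi.ev a k 0| ≤ |m.phi.d| * m.sg :=
      mul_le_mul_of_nonneg_left (h4.trans hle) (abs_nonneg _)
    linarith
  rw [abs_le] at e1 e2
  rw [e]
  constructor <;> linarith [e1.1, e1.2, e2.1, e2.2]

/-- difference of the slab function at two points, from a base point. -/
theorem ev_two (p : Cf E2) (C x : E2) (y : ℝ) (x1 x2 : E2) (y1 y2 : ℝ) :
    p.ev x1 y1 0 - p.ev x2 y2 0 = inner ℝ (p.gr C x 0) (x1 - x2) +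
      p.ny 0 * (nrm C x1 y1 0 - nrm C x2 y2 0) + p.d * inner ℝ (x1 - x2) (x1 + x2 - (2:ℝ) • x) := by
  rw [Cf.ev_expand p C x y 0 x1 y1 0, Cf.ev_expand p C x y 0 x2 y2 0]
  simp only [sub_self, mul_zero, add_zero, zero_smul, zero_mul, sub_zero]
  have e : ‖x1 - x‖ ^ 2 - ‖x2 - x‖ ^ 2 = inner ℝ (x1 - x2) (x1 + x2 - (2:ℝ) • x) := by
    have e1 : x1 - x2 = (x1 - x) - (x2 - x) := by abel
    have e2 : x1 + x2 - (2:ℝ) • x = (x1 - x) + (x2 - x) := by module
    rw [e1, e2]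
    generalize x1 - x = u
    generalize x2 - x = v
    rw [inner_sub_left, inner_add_right, inner_add_right, real_inner_self_eq_norm_sq,
      real_inner_self_eq_norm_sq, real_inner_comm u v]
    ring
  have e3 : inner ℝ (p.gr C x 0) (x1 - x2) = inner ℝ (p.gr C x 0) (x1 - x) -
      inner ℝ (p.gr C x 0) (x2 - x) := by
    rw [← inner_sub_right]; congr 1; abel
  rw [e3, ← e]
  ring

theorem pv_sub (rho : ℝ) (p q : ℤ × ℤ) (i : Fin 2) : (pv rho p - pv rho q) i =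
    ((![(p.1 : ℝ), (p.2 : ℝ)] i) - (![(q.1 : ℝ), (q.2 : ℝ)] i)) * rho := by
  fin_cases i
  · show (p.1 : ℝ) * rho - (q.1 : ℝ) * rho = ((p.1 : ℝ) - q.1) * rho
    ring
  · show (p.2 : ℝ) * rho - (q.2 : ℝ) * rho = ((p.2 : ℝ) - q.2) * rho
    ring

/-- a component of a vector of size at least `3/5`. -/
theorem exists_comp {v : E2} (h : 9 / 25 ≤ ‖v‖ ^ 2) : ∃ i : Fin 2, 21 / 50 ≤ |v i| := by
  by_contra hc
  push Not at hc
  have h0 := hc 0
  have h1 := hc 1
  rw [CDef480.normsq2] at h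
  have e0 : v 0 ^ 2 < (21 / 50) ^ 2 := by
    rw [← sq_abs]; exact pow_lt_pow_left₀ h0 (abs_nonneg _) two_ne_zero
  have e1 : v 1 ^ 2 < (21 / 50) ^ 2 := by
    rw [← sq_abs]; exact pow_lt_pow_left₀ h1 (abs_nonneg _) two_ne_zero
  norm_num at e0 e1
  linarith


end Crest.Agent.R116.Ene618
end

-- ▼ part R116/Rm2_618
section

/-!
# R116, K2 (ENEMY with room), part 2 (helper618): parents of the children in a member, `r ≤ sg`

`bigm r m` : `sg' = 2 sg`, `s1' = 2 max (s1, r)`, same centre, direction and function.  If a child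
`(C, a + p, k + t)` (`|p_i| ≤ r/8`, `|t| ≤ r/8`) lies in `m` then `(C, a, k + t + ⟨C, p⟩)` lies in
`bigm r m`; so 126's `Fill` gives the parents and the width of the null shifts.
-/

set_option autoImplicit false
set_option linter.unusedVariables false

open Finset

namespace Crest.Agent.R116.Ene618

open Crest.Agent.R116.LZg725
open Crest.Agent.R138.Defs (E2)
open Crest.Agent.R116.CDef480 (E3 lat pt vel)
open Crest.Agent.R116.LKMDef299 (LRay Cpt)

/-- the fattened member. -/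
noncomputable def bigm (r : ℝ) (m : Mem) : Mem where
  c := m.c
  sg := 2 * m.sg
  s1 := 2 * max m.s1 r
  R := m.R
  X0 := m.X0
  s0 := m.s0
  phi := m.phi

theorem bigm_ok {M r : ℝ} (hM : 1 ≤ M) {m : Mem} (h : Sm M m) (hr : 0 < r) (hrsg : r ≤ m.sg) :
    (bigm r m).Ok M 0 := by
  have hsg := h.ok.sg_pos
  have hs1 := h.ok.hs1
  have hle := h.ok.hsg
  have hT : (bigm r m).T 0 = 4 * m.sg ^ 2 := by
    rw [T_zero]; show (2 * m.sg) ^ 2 = _; ring
  have h4 := h.ok.adm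
  rw [T_zero] at h4
  refine ⟨h.ok.hR, ?_, ?_, ?_⟩
  · show 0 < 2 * max m.s1 r
    have := le_max_left m.s1 r
    linarith
  · show 2 * max m.s1 r ≤ 2 * m.sg
    have := max_le hle hrsg
    linarith
  · rw [hT]
    refine ⟨h4.disc, fun s hs => ?_, ?_, ?_⟩
    · have hs' : |s - m.s0| ≤ m.R := hs
      rw [h.s0, h.R1, sub_zero] at hs'
      have h5 := h.ny s hs'
      show |m.phi.ny s| * (4 * m.sg ^ 2) ≤ M * (2 * m.sg)
      calc |m.phi.ny s| * (4 * m.sg ^ 2) = (|m.phi.ny s| * m.sg) * (4 * m.sg) := by ring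
        _ ≤ (4 / 25) * (4 * m.sg) := by gcongr
        _ ≤ M * (2 * m.sg) := by nlinarith
    · show |m.phi.ld m.c (lat m.X0) (m.X0 2) m.s0| ≤ M * (2 * m.sg)
      have := h4.ld
      nlinarith
    · show |m.phi.ev (lat m.X0) (m.X0 2) m.s0| ≤ M * (2 * m.sg) * m.R
      have := h4.ev
      have hR := h.R1
      rw [hR] at this ⊢
      nlinarith

theorem norm_pv_le {w : ℝ} {p : E2} (h0 : |p 0| ≤ w) (h1 : |p 1| ≤ w) : ‖p‖ ≤ 2 * w := by
  have := norm2_le p
  linarith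


theorem bigm_scost {M r : ℝ} {m : Mem} (h : Sm M m) :
    (bigm r m).scost 0 = 16 * max m.s1 r * m.sg ^ 3 := by
  rw [scost_zero]
  show 2 * max m.s1 r * (2 * m.sg) * (2 * m.sg) ^ 2 * m.R ^ 3 = _
  rw [h.R1]; ring


end Crest.Agent.R116.Ene618
end

-- ▼ part R116/RmB_79

/-!
# R116, K2 with room (618's msg 17202), part (B) (helper79): few parents

A member of aperture `sg ≤ 1/N` over the whole window contains children of at most `O(1)`
grid rays.
-/

set_option autoImplicit false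
set_option linter.unusedVariables false

open Finset

namespace Crest.Agent.R116.RmB79

open Crest.Agent.R116.LZg725
open Crest.Agent.R138.Defs (E2)
open Crest.Agent.R116.CDef480 (E3 lat pt)
open Crest.Agent.R116.Ks79
open Crest.Agent.R116.Ene618 (norm2_le abs_coord_le norm_gC' T_zero)

/-- the static conditions of a ray of a member at height `0`. -/
theorem at_zero {m : Mem} (hR : m.R = 1) (hs0 : m.s0 = 0) {r : E2 × E2 × ℝ} (h : r ∈ m.rays 0) :
    ‖r.1 - m.c‖ ≤ m.sg ∧ ‖r.2.1 - lat m.X0‖ ≤ m.sg ∧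
      |(r.2.2 + inner ℝ m.c r.2.1) - (m.X0 2 + inner ℝ m.c (lat m.X0))| ≤ m.sg ^ 2 := by
  obtain ⟨h1, h2⟩ := h
  have h3 := (h2 0 (by rw [hs0, hR]; norm_num)).1
  obtain ⟨-, h4, h5⟩ := h3
  simp only [lat_rpos0, rpos0_two, T_zero, hR, hs0] at h4 h5
  refine ⟨h1, ?_, ?_⟩
  · simpa using h4
  · unfold nrm at h5
    simpa using h5

/-- integers from reals. -/
theorem int_close {N : ℕ} (hN : 1 ≤ N) {a b : ℤ} {K : ℕ} (h : |(a : ℝ) / N - (b : ℝ) / N| < (K + 1) / N) :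
    b - K ≤ a ∧ a ≤ b + K := by
  have hN0 : (0 : ℝ) < N := by exact_mod_cast hN
  have e : (a : ℝ) / N - (b : ℝ) / N = ((a - b : ℤ) : ℝ) / N := by push_cast; ring
  rw [e, abs_div, abs_of_pos hN0, div_lt_div_iff_of_pos_right hN0] at h
  have h1 : |(a - b : ℤ)| < (K : ℤ) + 1 := by exact_mod_cast h
  rw [abs_lt] at h1
  omega



end Crest.Agent.R116.RmB79
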