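import Crest.Agent.R116.AlS0_883_Mg
import Crest.Agent.R116.AlD_339
import Crest.Agent.R116.TuP3_890
import Crest.Agent.R116.Al_339
import Crest.Agent.R116.MwN_748_Mg
import Crest.Agent.R116.LKMDef_299
import Crest.Agent.R116.LZg5_725
import Crest.Agent.R116.FlC_337
import Crest.Agent.R116.Ene4_618
import Crest.Agent.R138.MkDef_163
import Crest.Agent.R116.KIDef_439
import Crest.Agent.R116.XcDef_794
import Crest.Agent.R116.Rm5_618
import Crest.Agent.R116.RmDef_635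
import Crest.Agent.R116.Yb2_635
import Crest.Agent.R116.RmB_79_Mg
import Crest.Agent.R116.Rm3_618

-- ▼ part R116/AlS4_299
section

/-!
# R116 (S0155), wave side, AL-CONE (helper299): `SumC`, part 4 (final numbers)

`sumC_of : (hsum) → 1 ≤ M → 0 ≤ q → q ≤ 4 → KmC M q → SumC M q`.
-/

set_option autoImplicit false

open MeasureTheory FourierTransform
open scoped ENNReal

namespace Crest.Agent.R116.AlS299

open Crest.Agent.R138.Defs (E2 ee)
open Crest.Agent.R138.Wpk685 (cen caps)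
open Crest.Agent.R116.CDef480
open Crest.Agent.R116.LZg725 (Cf)
open Crest.Agent.R116.Cad538 (frc wt Acc W0 W0_lt)
open Crest.Agent.R116.WC188
open Crest.Agent.R116.PC299
open Crest.Agent.R116.AlC339 (KmC SumC HH seC Fam labc)

/-- **hsum**: the plates of one label and one frame (883). -/
def HSum : Prop := ∀ (a b : ℝ), 1 ≤ a → ∀ {n N : ℕ}, n ≤ N → ∃ C : ℝ, 0 ≤ C ∧
  ∀ {M q A d0 G c0 κ η0 : ℝ} {g : E3 → ℂ} {r1 dl Y Gm s1' s2' s1 s2 D : ℝ} {I1 : Finset ℕ}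
    {P1 : ℕ → Plate} {I : Finset ℕ} {P : ℕ → Plate}, 1 ≤ A → d0 ≤ 1 → 3 * d0 ^ (1/2 : ℝ) ≤ 1 →
    1 ≤ G → Ctx M q a b A d0 G c0 κ η0 g r1 dl Y Gm s1' s2' s1 s2 D I1 P1 I P →
    ∀ (k : ℤ × ℤ) (ζ : E3 × ℝ) (x : E3) (t : ℝ), |t| ≤ dl * r1 →
      ∑ i ∈ I with labc s2 (P i).c = k ∧ (P i).z = ζ,
        seC N (an r1) (an (dl * r1)) κ (selc η0 κ (an r1) g (uS I1 P1)) (P i) x t ≤
        ENNReal.ofReal (C * (an r1 ^ 2 * κ)⁻¹) * Acc n (an r1) κ (an r1) g (uS I1 P1)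
          (Fam A (an r1) s2 k) (ζ.1 + x) (ζ.2 + t)

/-- the threshold. -/
theorem thr_d0 {M A b : ℝ} (hM : 1 ≤ M) (hA : 1 ≤ A) (hb : b < 2) : ∃ d0 : ℝ, 0 < d0 ∧ d0 ≤ 1 ∧
    64 * M * A * d0 ^ (1/2 : ℝ) ≤ 1 ∧ 3 * d0 ^ (1/2 : ℝ) ≤ 2 - b ∧ 3 * d0 ^ (1/2 : ℝ) ≤ 1 := by
  have hb' : 0 < 2 - b := by linarith
  have hMA : 1 ≤ M * A := one_le_mul_of_one_le_of_one_le hM hA
  set K : ℝ := 64 * M * A + 3 / (2 - b) with hK
  have h3 : 0 < 3 / (2 - b) := by positivity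
  have hK1 : 1 ≤ K := by nlinarith
  have hK0 : 0 < K := by linarith
  have e : ((K⁻¹) ^ 2 : ℝ) ^ (1/2 : ℝ) = K⁻¹ := by
    rw [← Real.rpow_natCast, ← Real.rpow_mul (by positivity)]
    norm_num
  refine ⟨(K⁻¹) ^ 2, by positivity, pow_le_one₀ (by positivity) (inv_le_one_of_one_le₀ hK1), ?_, ?_,
    ?_⟩
  · rw [e, ← div_eq_mul_inv, div_le_one hK0]; linarith
  · rw [e, ← div_eq_mul_inv, div_le_iff₀ hK0]
    calc (3:ℝ) = (2 - b) * (3 / (2 - b)) := by field_simp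
      _ ≤ (2 - b) * K := mul_le_mul_of_nonneg_left (by rw [hK]; nlinarith) hb'.le
  · rw [e, ← div_eq_mul_inv, div_le_one hK0]; nlinarith

/-- **SumC**. -/
theorem sumC_of (hS : HSum) {M q : ℝ} (hM : 1 ≤ M) (hq : 0 ≤ q) (hq4 : q ≤ 4) (hK : KmC M q) :
    SumC M q := by
  intro ε hε
  obtain ⟨n0, hn0⟩ := hK ε hε
  refine ⟨n0, fun n hn a b A ha hb hb2 hA => ?_⟩
  obtain ⟨d0, hd00, hd01, hd, hd2, hd3⟩ := thr_d0 hM hA hb2
  refine ⟨d0, hd00, hd01, fun N hnN hN4 => ?_⟩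
  obtain ⟨CK, hCK, hkm⟩ := hn0 n hn a b A (34 * A ^ 2) (A + 2) ha hb hb2 hA (by nlinarith)
    (by linarith)
  obtain ⟨Ch, hCh, hsum⟩ := hS a b ha hnN
  obtain ⟨Ct, hCt, htl⟩ := tail (b := b) ha
  have hV := V1_pos
  have hL := L0_pos hM hA
  have hW0 : 0 ≤ W0.toReal := ENNReal.toReal_nonneg
  set e1 : ℝ := (((2:ℝ) ^ N)⁻¹) ^ (-(3/2) : ℝ) * (Ch / V1) *
    (2 * (17 * A ^ 2) + 2) ^ (Module.finrank ℝ (E3 × ℝ)) with he1
  set e2 : ℝ := 2 * (((2:ℝ) ^ N)⁻¹) ^ (-(3/2) : ℝ) * (W0.toReal / V1) with he2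
  have he10 : 0 ≤ e1 := by positivity
  have he20 : 0 ≤ e2 := by positivity
  set c1 : ℝ := e1 * (V1⁻¹ * L0 M A) ^ (1 / 2 : ℝ) * CK with hc1
  set c2 : ℝ := e2 * (L0 M A * V1⁻¹) ^ (1 / 2 : ℝ) * Ct with hc2
  have hc10 : 0 ≤ c1 := by positivity
  have hc20 : 0 ≤ c2 := by positivity
  refine ⟨c1 + c2, by positivity, ?_⟩
  intro G c0 κ η0 g r1 dl Y Gm s1' s2' s1 s2 D Mu τ I1 P1 I P h hG hMu hτ hH
  have hdl := h.dlpos
  have hr0 := h.r10
  have hr := h.rj0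
  have hr1 : 1 ≤ r1 := h.r11 hd01 ha
  have hθ := an_pos hr0
  have hθ' := an_pos hr
  have hs2 := Sd.s20 h.sd hr
  have hrj : dl * r1 ≤ r1 := mul_le_of_le_one_left hr0.le (h.dl1 hd01)
  have main := frames h hM hA ha hd01 hG hd hd2 hN4 hMu hτ hCh hH
    (hsum hA hd01 hd3 (by linarith) h)
  have hkk := hkm κ η0 r1 g (uS I1 P1) D s2 h.kpos h.ka hr1
    (le_trans (Real.rpow_le_rpow_of_nonpos hr hrj (by norm_num)) h.klo)
    ⟨h.par.gm, h.par.gb, h.par.gs, h.par.slc⟩ (StepC367.par_uS_meas h.par) h.par.cp h.par.bd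
    h.par.D0 h.par.dens ((an_le_an hdl (h.dl1 hd01) hr0).trans (h.sd.lo.trans h.sd.le)) h.sd.hi
    (I.image fun i => labc s2 (P i).c) (fun k => Fam A (an r1) s2 k)
    (fun k _ => ⟨fam_sub _ _ _ _, fun m hm => fam_near hm⟩)
  have htt := htl h hb2.le hd01 (by linarith) hd2
  -- numbers
  have hdr : dl⁻¹ ≤ r1 := by
    rw [← one_div, div_le_iff₀ hdl, mul_comm]; exact h.rj1 ha
  have n1 : s2 ^ (-q / 2) ≤ r1 := by
    have g1 : an r1 ≤ s2 := (an_le_an hdl (h.dl1 hd01) hr0).trans (h.sd.lo.trans h.sd.le)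
    calc s2 ^ (-q / 2) ≤ an r1 ^ (-q / 2) := Real.rpow_le_rpow_of_nonpos hθ g1 (by linarith)
      _ = r1 ^ (q / 4) := by
          rw [an, ← Real.rpow_mul hr0.le]; congr 1; ring
      _ ≤ r1 ^ (1 : ℝ) := Real.rpow_le_rpow_of_exponent_le hr1 (by linarith)
      _ = r1 := Real.rpow_one _
  have n2 : (an (dl * r1) / an r1) ^ (1/2 : ℝ) ≤ r1 := by
    have g1 : an (dl * r1) / an r1 ≤ r1 := by
      rw [an_dl hdl hr0, mul_div_assoc, div_self hθ.ne', mul_one]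
      calc dl ^ (-(1/2) : ℝ) = (dl⁻¹) ^ (1/2 : ℝ) := by
            rw [Real.inv_rpow hdl.le, Real.rpow_neg hdl.le]
        _ ≤ r1 ^ (1/2 : ℝ) := Real.rpow_le_rpow (by positivity) hdr (by norm_num)
        _ ≤ r1 ^ (1 : ℝ) := Real.rpow_le_rpow_of_exponent_le hr1 (by norm_num)
        _ = r1 := Real.rpow_one _
    calc (an (dl * r1) / an r1) ^ (1/2 : ℝ) ≤ r1 ^ (1/2 : ℝ) :=
          Real.rpow_le_rpow (by positivity) g1 (by norm_num)
      _ ≤ r1 ^ (1 : ℝ) := Real.rpow_le_rpow_of_exponent_le hr1 (by norm_num)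
      _ = r1 := Real.rpow_one _
  have n3 : s2 ^ (-q / 2) * s2 ^ (q / 2) = 1 := by
    rw [← Real.rpow_add hs2]
    have : -q / 2 + q / 2 = 0 := by ring
    rw [this, Real.rpow_zero]
  have hs2q : 0 ≤ s2 ^ (-q / 2) := Real.rpow_nonneg hs2.le _
  set S := uS I1 P1 with hSdef
  set En := enc (an r1) g S with hEn
  set Eg := ENNReal.ofReal (Enc g) with hEg
  set X1 : ℝ := e1 * (V1⁻¹ * L0 M A * Mu) ^ (1 / 2 : ℝ) with hX1
  set X2 : ℝ := e2 * (L0 M A * (an (dl * r1) / an r1) * (V1⁻¹ * τ)) ^ (1 / 2 : ℝ) with hX2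
  have hX10 : 0 ≤ X1 := by positivity
  have hX20 : 0 ≤ X2 := by positivity
  have hK0 : 0 ≤ CK * r1 ^ ε * s2 ^ (q / 2) * Real.sqrt D * r1 := by positivity
  calc ENNReal.ofReal (s2 ^ (-q / 2)) * val κ (selc η0 κ (an r1) g S) (dl * r1) s1 s2 I P
      ≤ ENNReal.ofReal (s2 ^ (-q / 2)) *
        (ENNReal.ofReal X1 *
          (ENNReal.ofReal (CK * r1 ^ ε * s2 ^ (q / 2) * Real.sqrt D * r1) * En) +
        ENNReal.ofReal X2 * (ENNReal.ofReal (dl * r1) *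
          (ENNReal.ofReal (Ct * dl⁻¹ ^ 4) * Eg))) := by
        refine mul_le_mul' le_rfl (main.trans ?_)
        refine add_le_add (mul_le_mul' le_rfl hkk) (mul_le_mul' le_rfl (mul_le_mul' le_rfl htt))
    _ = ENNReal.ofReal (s2 ^ (-q / 2) * (X1 *
          (CK * r1 ^ ε * s2 ^ (q / 2) * Real.sqrt D * r1))) * En +
        ENNReal.ofReal (s2 ^ (-q / 2) * (X2 * ((dl * r1) * (Ct * dl⁻¹ ^ 4)))) * Eg := by
        rw [ENNReal.ofReal_mul hs2q, ENNReal.ofReal_mul hX10, ENNReal.ofReal_mul hs2q,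
          ENNReal.ofReal_mul hX20, ENNReal.ofReal_mul hr.le]
        ring
    _ ≤ ENNReal.ofReal ((c1 + c2) * r1 ^ ε * Mu ^ (1/2 : ℝ)) *
          (ENNReal.ofReal (r1 * Real.sqrt D) * En) +
        ENNReal.ofReal ((c1 + c2) * r1 ^ (10 : ℕ) * τ ^ (1/2 : ℝ)) * Eg := by
        refine add_le_add ?_ (mul_le_mul' (ENNReal.ofReal_le_ofReal ?_) le_rfl)
        · have e7 : ENNReal.ofReal ((c1 + c2) * r1 ^ ε * Mu ^ (1/2 : ℝ)) *
              (ENNReal.ofReal (r1 * Real.sqrt D) * En) =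
              ENNReal.ofReal ((c1 + c2) * r1 ^ ε * Mu ^ (1/2 : ℝ) * (r1 * Real.sqrt D)) * En := by
            rw [ENNReal.ofReal_mul (p := (c1 + c2) * r1 ^ ε * Mu ^ (1/2 : ℝ)) (by positivity)]
            exact (mul_assoc _ _ _).symm
          rw [e7]
          refine mul_le_mul' (ENNReal.ofReal_le_ofReal ?_) le_rfl
          have e5 : X1 = e1 * (V1⁻¹ * L0 M A) ^ (1 / 2 : ℝ) * Mu ^ (1/2 : ℝ) := by
            rw [hX1, Real.mul_rpow (by positivity) hMu]; ring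
          calc s2 ^ (-q / 2) * (X1 * (CK * r1 ^ ε * s2 ^ (q / 2) * Real.sqrt D * r1))
              = (s2 ^ (-q / 2) * s2 ^ (q / 2)) * (c1 * r1 ^ ε * Mu ^ (1/2 : ℝ) *
                (r1 * Real.sqrt D)) := by rw [e5, hc1]; ring
            _ = c1 * r1 ^ ε * Mu ^ (1/2 : ℝ) * (r1 * Real.sqrt D) := by rw [n3, one_mul]
            _ ≤ (c1 + c2) * r1 ^ ε * Mu ^ (1/2 : ℝ) * (r1 * Real.sqrt D) := by
                gcongr
                linarith
        · have e5 : X2 = e2 * (L0 M A * V1⁻¹) ^ (1 / 2 : ℝ) * τ ^ (1/2 : ℝ) *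
              (an (dl * r1) / an r1) ^ (1/2 : ℝ) := by
            have e6 : L0 M A * (an (dl * r1) / an r1) * (V1⁻¹ * τ) =
                (L0 M A * V1⁻¹) * τ * (an (dl * r1) / an r1) := by ring
            rw [hX2, e6, Real.mul_rpow (by positivity) (by positivity),
              Real.mul_rpow (by positivity) hτ]
            ring
          have hτ2 : 0 ≤ τ ^ (1/2 : ℝ) := Real.rpow_nonneg hτ _
          calc s2 ^ (-q / 2) * (X2 * ((dl * r1) * (Ct * dl⁻¹ ^ 4)))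
              = c2 * τ ^ (1/2 : ℝ) * (s2 ^ (-q / 2) * (an (dl * r1) / an r1) ^ (1/2 : ℝ) *
                (dl * r1) * dl⁻¹ ^ 4) := by rw [e5, hc2]; ring
            _ ≤ c2 * τ ^ (1/2 : ℝ) * (r1 * r1 * r1 * r1 ^ 4) := by gcongr
            _ = c2 * τ ^ (1/2 : ℝ) * (r1 ^ 7 * 1) := by ring
            _ ≤ c2 * τ ^ (1/2 : ℝ) * (r1 ^ 7 * r1 ^ 3) := by
                have : 1 ≤ r1 ^ 3 := one_le_pow₀ hr1
                gcongr
            _ = c2 * r1 ^ (10 : ℕ) * τ ^ (1/2 : ℝ) := by ring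
            _ ≤ (c1 + c2) * r1 ^ (10 : ℕ) * τ ^ (1/2 : ℝ) := by
                gcongr
                linarith
    _ = _ := rfl

theorem hSum : HSum := fun a b ha {_ _} hnN => AlS883.hsum a b ha hnN

/-- **SumC**. -/
theorem sumC {M q : ℝ} (hM : 1 ≤ M) (hq : 0 ≤ q) (hq4 : q ≤ 4) (hK : KmC M q) : SumC M q :=
  sumC_of hSum hM hq hq4 hK

end Crest.Agent.R116.AlS299
end

-- ▼ part R116/KmB_890
section

/-!
# R116 (S0155), wave side: `KMR → KmC` (the Kakeya input of the slab step) (helper890)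
-/

set_option autoImplicit false

open MeasureTheory FourierTransform
open scoped ENNReal

namespace Crest.Agent.R116.KmB890

open Crest.Agent.R138.Defs (E2 ee)
open Crest.Agent.R138.Wpk685 (cen caps)
open Crest.Agent.R116.CDef480 Crest.Agent.R116.WC188
open Crest.Agent.R116.Cad538 (Acc Den_meas2)
open Crest.Agent.R116.PC299 (an)

/-- joint measurability of the densities. -/
theorem acc_meas2 {n : ℕ} {th κ ρ : ℝ} {g : E3 → ℂ} (hg : Integrable g) (S : ℤ × ℤ → Set E3)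
    (F : Finset (ℤ × ℤ)) : Measurable fun p : E3 × ℝ => Acc n th κ ρ g S F p.1 p.2 :=
  Den_meas2 fun m _ => Bas367.umc_meas_sq hg ρ m

/-- the integral over a cylinder is at most the iterated integral. -/
theorem cyl_le_iter {f : E3 × ℝ → ℝ≥0∞} (hf : Measurable f) (T : ℝ) :
    ∫⁻ p in (cylc T : Set (E3 × ℝ)), f p ≤ ∫⁻ t in Set.Icc (-T) T, ∫⁻ x, f (x, t) := by
  have hsub : (cylc T : Set (E3 × ℝ)) ⊆ Set.univ ×ˢ Set.Icc (-T) T := by
    rintro ⟨x, t⟩ ⟨-, h2⟩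
    exact ⟨Set.mem_univ _, abs_le.1 h2⟩
  calc ∫⁻ p in (cylc T : Set (E3 × ℝ)), f p ≤ ∫⁻ p in Set.univ ×ˢ Set.Icc (-T) T, f p :=
        lintegral_mono_set hsub
    _ = ∫⁻ p, f p ∂((volume : Measure E3).prod ((volume : Measure ℝ).restrict (Set.Icc (-T) T))) := by
        rw [Measure.volume_eq_prod, ← Measure.prod_restrict, Measure.restrict_univ]
    _ = ∫⁻ t in Set.Icc (-T) T, ∫⁻ x, f (x, t) := lintegral_prod_symm' _ hf

theorem KmC_of_KMR {M q : ℝ} (hK : KMR890.KMR M q) : AlC339.KmC M q := by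
  intro ε hε
  obtain ⟨n0, h0⟩ := hK ε hε
  refine ⟨n0, fun n hn a b A L Λ ha hb hb2 hA hL hΛ => ?_⟩
  obtain ⟨C, hC, h1⟩ := h0 n hn A L Λ (by linarith) (by linarith) (by linarith)
  refine ⟨C, hC, ?_⟩
  intro κ η0 r g S D s hκ hκa hr hκr hgd hSm _ hSb hD hdens hs hs1 K F hF
  have hr0 : 0 < r := by linarith
  have ha0 : 0 < a⁻¹ := inv_pos.2 (by linarith)
  have hg : Bas367.Gd g := Bas367.gd_of_supp hgd.gm hgd.gb (a := a) (b := b) fun ζ hz =>
    ⟨ha0.trans_le (hgd.gs ζ hz).1, (hgd.gs ζ hz).2⟩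
  have hκ1 : κ ≤ 1 := by nlinarith
  have hth : r ^ (-(1/2) : ℝ) ≤ κ :=
    (Real.rpow_le_rpow_of_exponent_le hr (by norm_num)).trans hκr
  have h2 := h1 κ r hκ hκ1 hr hth g hg.int (hg.memLp 2) S hSm hSb D hD hdens s hs hs1 K F hF
  refine le_trans (Finset.sum_le_sum fun k _ => ?_) h2
  exact cyl_le_iter (f := fun p => Acc n (an r) κ (an r) g S (F k) p.1 p.2 ^ (3 / 2 : ℝ))
    ((acc_meas2 hg.int S (F k)).pow_const _) (L * r)

end Crest.Agent.R116.KmB890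
end

-- ▼ part R116/Al2_339
section

/-!
# R116 (S0155), wave side, AL-CONE (helper339): the slab step for aligned plates

**`al_c`** : the literal `AL_C` of PDefC_299 from 890's `KMR`.
-/

set_option autoImplicit false

namespace Crest.Agent.R116.AlC339

open Crest.Agent.R116.PC299

/-- **AL_C** from the Kakeya bound `KmC`. -/
theorem al_c_of_KmC {M q : ℝ} (hM : 1 ≤ M) (hq : 0 ≤ q) (hq4 : q ≤ 4) (hK : KmC M q) : AL_C M q :=
  al_of_sum hM (AlS299.sumC hM hq hq4 hK)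

/-- **AL_C** from `KMR`. -/
theorem al_c {M q : ℝ} (hM : 1 ≤ M) (hq : 0 ≤ q) (hq4 : q ≤ 4) (hK : KMR890.KMR M q) : AL_C M q :=
  al_c_of_KmC hM hq hq4 (KmB890.KmC_of_KMR hK)

end Crest.Agent.R116.AlC339
end

-- ▼ part R116/WTop5_188
section

/-!
# R116 (S0155): the wave side is closed (helper188)

`LKM` ⟹ `EBc M` for every `M ≥ 2` ⟹ the literal of `S0155`.
-/

set_option autoImplicit false

open MeasureTheory FourierTransform

namespace Crest.Agent.R116.WTop188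

open Crest.Agent.R116.WC188 Crest.Agent.R116.GlC210
open Crest.Agent.R116.Ckm538 (LKMg)
open Crest.Agent.R116.LKMDef299 (SSg)

/-- `MIS_C` from the Kakeya--Nikodym input. -/
theorem mis_of_km {M' M q : ℝ} (hM' : 1 ≤ M') (hM : 1 ≤ M) (hq : 0 < q) (hq1 : q ≤ 1)
    (hKM : ∀ V : ℝ, LKMg (SSg M') V) : PC299.MIS_C M q :=
  Mc330.mis_c hM hq hq1 (MwN748.num_mis hq hq1) (fun _ _ _ hr hw hB => MwN748.v0_pos hr hw hB)
    (Ckm538.kmr_of hM' hM hq.le hKM)

/-- `AL_C` from the Kakeya--Nikodym input. -/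
theorem al_of_km {M' M q : ℝ} (hM' : 1 ≤ M') (hM : 1 ≤ M) (hq : 0 < q) (hq1 : q ≤ 1)
    (hKM : ∀ V : ℝ, LKMg (SSg M') V) : PC299.AL_C M q :=
  AlC339.al_c hM hq.le (by linarith) (Ckm538.kmr_of hM' hM hq.le hKM)

/-- **the wave side**: `LKM` gives `EBc M`, every `M ≥ 2`. -/
theorem EBc_of_LKM {M : ℝ} (hM : 2 ≤ M) (hLKM : LKMDef299.LKM) : EBc M := by
  obtain ⟨M0, hM0, hK⟩ := Br430.bridge_LKM hLKM
  have hKM : ∀ V : ℝ, LKMg (SSg M0) V := hK M0 le_rfl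
  exact EBc_of_open3 hM one_pos hLKM
    (fun q hq hqq => al_of_km hM0 (by linarith) hq hqq.le hKM)
    (fun q hq hqq => mis_of_km hM0 (by linarith) hq hqq.le hKM)

/-- **`S0155` from `LKM`**. -/
theorem S0155_of_LKM (hLKM : LKMDef299.LKM) (p : ℝ) (hp : 2 < p) (α : ℝ)
    (hα : max 0 (1 - 3 / p) < α) :
    ∃ C : ℝ, ∀ f : SchwartzMap (EuclideanSpace ℝ (Fin 3)) ℂ,
      MeasureTheory.eLpNorm
          (fun z : (EuclideanSpace ℝ (Fin 3)) × ℝ =>
            𝓕⁻ (fun ξ : EuclideanSpace ℝ (Fin 3) =>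
              Complex.exp (2 * Real.pi * z.2 * ‖ξ‖ * Complex.I) • 𝓕 (⇑f) ξ) z.1)
          (ENNReal.ofReal p)
          ((MeasureTheory.volume : MeasureTheory.Measure (EuclideanSpace ℝ (Fin 3))).prod
            (MeasureTheory.volume.restrict (Set.Icc (1 : ℝ) 2))) ≤
        ENNReal.ofReal C *
          MeasureTheory.eLpNorm
            (𝓕⁻ (fun ξ : EuclideanSpace ℝ (Fin 3) =>
              ((1 + 4 * Real.pi ^ 2 * ‖ξ‖ ^ 2) ^ (α / 2) : ℝ) • 𝓕 (⇑f) ξ))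
            (ENNReal.ofReal p) MeasureTheory.volume :=
  Fin665.S0155_of_EBc ⟨2, EBc_of_LKM le_rfl hLKM⟩ p hp α hα

end Crest.Agent.R116.WTop188
end

-- ▼ part R116/Fil1_139
section

/-!
# R116 (S0155), K side: FILL-GEO (helper139, literal of helper439)

Every grid ray `(C, a, k)` of the enemy is replaced by the rays `(C, a, k + t)`, `|t| ≤ r/2`.
A member `m` with resolution `B = 0` (`T = sg²`), `R = 1`, `s0 = 0`, `r ≤ s1`, `sg ≤ 1/8`:
the parents of the filled rays of `m` lie in ONE member `m'` with resolution `B = r`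
(compatible, `Cpt`), every parent has filled rays in a `t`-interval of length `≤ l`, and
`l * scost m' ≤ 256 r * scost m`, `r² ≤ (1 + M) l`.
-/

set_option autoImplicit false

namespace Crest.Agent.R116.Fil139

open Crest.Agent.R138.Defs (E2)
open Crest.Agent.R116.CDef480 (E3 lat pt)
open Crest.Agent.R116.LZg725
open Crest.Agent.R116.LKMDef299 (Cpt LRay)

section gen

variable {E : Type*} [NormedAddCommGroup E] [InnerProductSpace ℝ E]











/-- sup of `|∂_y φ|` on `[-1, 1]`. -/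
noncomputable def nu (p : Cf E) : ℝ := max |p.ny 1| |p.ny (-1)|












end gen



end Crest.Agent.R116.Fil139
end

-- ▼ part R116/Ene5_618
section

/-!
# R116, K2 (ENEMY), part 5 (helper618): the configuration of a grid family

`exists_raw`: raw data of the configuration of a grid family (no structure of configurations used).
-/

set_option autoImplicit false
set_option linter.unusedVariables false

open Finset

namespace Crest.Agent.R116.Ene618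

open Crest.Agent.R116.LZg725
open Crest.Agent.R138.Defs (E2)
open Crest.Agent.R116.CDef480 (E3 lat pt vel)
open Crest.Agent.R116.Ks79
open Crest.Agent.R138.Mk163 (zc alive own)

/-- the new height of the grid height `j`. -/
noncomputable def rh (N : ℕ) (j : ℤ) : ℝ := (j : ℝ) / N * (1 / 4) + 1 / 2

/-- centre of the cell `J` of level `M`. -/
noncomputable def ctr (M : ℕ) (J : ℤ) : ℝ := ((J : ℝ) + 1 / 2) / 2 ^ M

theorem rh_mem {N : ℕ} (hN : 1 ≤ N) {j : ℤ} (hj : |j| ≤ (N : ℤ)) :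
    1 / 4 ≤ rh N j ∧ rh N j ≤ 3 / 4 := by
  have hN0 : (0:ℝ) < N := by exact_mod_cast hN
  have h1 : |(j:ℝ)| ≤ N := by exact_mod_cast hj
  rw [abs_le] at h1
  have h2 : -1 ≤ (j:ℝ) / N := by rw [le_div_iff₀ hN0]; linarith [h1.1]
  have h3 : (j:ℝ) / N ≤ 1 := by rw [div_le_one hN0]; exact h1.2
  unfold rh
  constructor <;> linarith

theorem zc0 {z : ℝ} (h : 0 ≤ z) (h1 : z < 1) : zc 0 z = 0 := by
  unfold zc
  rw [pow_zero, one_mul, Int.floor_eq_zero_iff]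
  exact ⟨h, h1⟩

theorem zc0_rh {N : ℕ} (hN : 1 ≤ N) {j : ℤ} (hj : |j| ≤ (N : ℤ)) : zc 0 (rh N j) = 0 := by
  obtain ⟨h1, h2⟩ := rh_mem hN hj
  exact zc0 (by linarith) (by linarith)

theorem zc_rh_inj {N M : ℕ} (hN : 1 ≤ N) (hM : 4 * N ≤ 2 ^ M) {j j' : ℤ}
    (h : zc M (rh N j) = zc M (rh N j')) : j = j' := by
  have hN0 : (0:ℝ) < N := by exact_mod_cast hN
  have h1 := Int.abs_sub_lt_one_of_floor_eq_floor h
  have h2 : (2:ℝ) ^ M * rh N j - 2 ^ M * rh N j' = (2 ^ M / (4 * N)) * ((j:ℝ) - j') := by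
    unfold rh; field_simp; ring
  have h3 : (1:ℝ) ≤ 2 ^ M / (4 * N) := by
    rw [le_div_iff₀ (by positivity)]
    have : ((4 * N : ℕ) : ℝ) ≤ ((2 ^ M : ℕ) : ℝ) := by exact_mod_cast hM
    push_cast at this; linarith
  rw [h2, abs_mul, abs_of_pos (by linarith)] at h1
  have h4 : |(j:ℝ) - j'| < 1 := by
    have : |(j:ℝ) - j'| ≤ 2 ^ M / (4 * N) * |(j:ℝ) - j'| :=
      le_mul_of_one_le_left (abs_nonneg _) h3
    linarith
  have h5 : |j - j'| < 1 := by exact_mod_cast h4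
  have := Int.abs_lt_one_iff.1 h5
  omega

theorem abs_sub_ctr (M : ℕ) (z : ℝ) : |z - ctr M (zc M z)| ≤ 1 / 2 ^ M := by
  have hp : (0:ℝ) < 2 ^ M := by positivity
  have h1 := Int.floor_le ((2:ℝ) ^ M * z)
  have h2 := Int.lt_floor_add_one ((2:ℝ) ^ M * z)
  unfold ctr zc
  set n : ℝ := ((⌊(2:ℝ) ^ M * z⌋ : ℤ) : ℝ) with hn
  have e : z - (n + 1 / 2) / 2 ^ M = (2 ^ M * z - n - 1 / 2) / 2 ^ M := by field_simp; ring
  rw [e, abs_div, abs_of_pos hp]
  apply div_le_div_of_nonneg_right _ hp.le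
  rw [abs_le]
  constructor <;> linarith












/-- the constant. -/
noncomputable def KK : ℝ := (2 * nK + 1) ^ 5 * (3 * ((1 + 272) * 272) * 2 ^ 30)

section

variable {N M : ℕ} {s : Finset GRay} {I : Finset (GRay × ℤ)} {Δ μ ν : ℝ}










end

end Crest.Agent.R116.Ene618
end

-- ▼ part R116/RmC_79
section

/-!
# R116, K2 (ENEMY) with room (helper79, second hand of 618): raw data of a filled family

Every grid ray `l` has children `f l k`, `k ∈ J0`; the incidences are those of the parent.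
-/

set_option autoImplicit false
set_option linter.unusedVariables false

open Finset

namespace Crest.Agent.R116.RmC79

open Crest.Agent.R116.LZg725
open Crest.Agent.R138.Defs (E2)
open Crest.Agent.R116.CDef480 (E3 lat pt vel)
open Crest.Agent.R116.Ks79
open Crest.Agent.R138.Mk163 (zc alive own)
open Crest.Agent.R116.Ene618 (nr nr_rx nr_ry nr_C topm mem_topm rh ctr rh_mem zc0 zc0_rh zc_rh_inj
  abs_sub_ctr unitm norm_gC norm_gX' abs_gH norm2_le abs_coord_le)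

/-! ### the top member -/

/-- two rays which are `2/N`-close at the height `z` (old coordinates). -/
theorem top_mem_gen {N : ℕ} (hN : 1 ≤ N) {r r' : E2 × E2 × ℝ} {z : ℝ} (c1 : ‖r.1‖ ≤ 2)
    (c2 : ‖r'.1‖ ≤ 2) (hx : ‖rx r.1 r.2.1 z - rx r'.1 r'.2.1 z‖ ≤ 2 / N)
    (hy : |ry r.1 r.2.2 z - ry r'.1 r'.2.2 z| ≤ 2 / N) {R s0 : ℝ}
    (hR : 1 / (16 * (N : ℝ)) ≤ R) (hs0 : |(z * (1 / 4) + 1 / 2) - s0| ≤ R) :
    nr r ∈ (topm R s0 (nr r')).rays 0 := by
  have hN0 : (0 : ℝ) < N := by exact_mod_cast hN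
  set w : ℝ := 1 / 4 * z + 1 / 2 with hw
  have hws : |w - s0| ≤ R := by
    have : w = z * (1 / 4) + 1 / 2 := by rw [hw]; ring
    rw [this]; exact hs0
  have hRp : 0 < R := lt_of_lt_of_le (by positivity) hR
  have hR2 : 1 / (N : ℝ) ≤ 16 * R := by
    have : 1 / (N : ℝ) = 16 * (1 / (16 * (N : ℝ))) := by field_simp
    rw [this]; linarith
  have h2N : 2 / (N : ℝ) = 2 * (1 / N) := by ring
  have hC : ‖(nr r).1 - (nr r').1‖ ≤ 1 / 4 := by
    rw [nr_C, nr_C, ← smul_sub, norm_smul, Real.norm_of_nonneg (by norm_num)]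
    have := norm_sub_le r.1 r'.1
    linarith
  have hC' : ‖(nr r').1‖ ≤ 1 / 8 := by
    rw [nr_C, norm_smul, Real.norm_of_nonneg (by norm_num)]
    linarith
  have x0 : ‖rx (nr r).1 (nr r).2.1 w - rx (nr r').1 (nr r').2.1 w‖ ≤ R / 2 := by
    rw [hw, nr_rx, nr_rx, ← smul_sub, norm_smul, Real.norm_of_nonneg (by norm_num)]
    linarith
  have y0 : |ry (nr r).1 (nr r).2.2 w - ry (nr r').1 (nr r').2.2 w| ≤ R / 32 := by
    rw [hw, nr_ry, nr_ry, ← mul_sub, abs_mul, abs_of_pos (by norm_num : (0:ℝ) < 1 / 1024)]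
    linarith
  have hd : ∀ s : ℝ, |s - s0| ≤ R → |s - w| ≤ 2 * R := by
    intro s hs
    rw [abs_le] at hs hws ⊢
    constructor <;> linarith [hs.1, hs.2, hws.1, hws.2]
  refine mem_topm (by linarith) ?_ ?_
  · intro s hs
    have e : rx (nr r).1 (nr r).2.1 s - rx (nr r').1 (nr r').2.1 s =
        (rx (nr r).1 (nr r).2.1 w - rx (nr r').1 (nr r').2.1 w) - (s - w) • ((nr r).1 - (nr r').1) := by
      unfold rx; module
    rw [e]
    refine (norm_sub_le _ _).trans ?_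
    rw [norm_smul, Real.norm_eq_abs]
    have := mul_le_mul (hd s hs) hC (norm_nonneg _) (by linarith)
    linarith
  · intro s hs
    rw [nrm_ray']
    have e1 := nrm_ray' (nr r').1 (nr r).1 (nr r).2.1 (nr r).2.2 w
    have e2 := nrm_ray (nr r').1 (nr r').2.1 (nr r').2.2 w
    have e3 : (nr r).2.2 + inner ℝ (nr r').1 (nr r).2.1 + s * ‖(nr r).1 - (nr r').1‖ ^ 2 / 2 -
        ((nr r').2.2 + inner ℝ (nr r').1 (nr r').2.1) =
        (ry (nr r).1 (nr r).2.2 w - ry (nr r').1 (nr r').2.2 w) +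
        inner ℝ (nr r').1 (rx (nr r).1 (nr r).2.1 w - rx (nr r').1 (nr r').2.1 w) +
        (s - w) * (‖(nr r).1 - (nr r').1‖ ^ 2 / 2) := by
      rw [← e2]
      have e4 : (nr r).2.2 + inner ℝ (nr r').1 (nr r).2.1 + s * ‖(nr r).1 - (nr r').1‖ ^ 2 / 2 =
          nrm (nr r').1 (rx (nr r).1 (nr r).2.1 w) (ry (nr r).1 (nr r).2.2 w) w +
          (s - w) * (‖(nr r).1 - (nr r').1‖ ^ 2 / 2) := by
        rw [e1]; ring
      rw [e4]
      unfold nrm
      rw [inner_sub_right]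
      ring
    rw [e3]
    refine (abs_add_le _ _).trans ?_
    have f1 : |inner ℝ (nr r').1 (rx (nr r).1 (nr r).2.1 w - rx (nr r').1 (nr r').2.1 w)| ≤
        1 / 8 * (R / 2) :=
      (abs_real_inner_le_norm _ _).trans (mul_le_mul hC' x0 (norm_nonneg _) (by norm_num))
    have f2 : |(s - w) * (‖(nr r).1 - (nr r').1‖ ^ 2 / 2)| ≤ 2 * R * ((1 / 4) ^ 2 / 2) := by
      rw [abs_mul, abs_of_nonneg (a := ‖(nr r).1 - (nr r').1‖ ^ 2 / 2) (by positivity)]
      have h5 : ‖(nr r).1 - (nr r').1‖ ^ 2 ≤ (1 / 4) ^ 2 := pow_le_pow_left₀ (norm_nonneg _) hC 2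
      exact mul_le_mul (hd s hs) (by linarith) (by positivity) (by linarith)
    have f3 := abs_add_le (ry (nr r).1 (nr r).2.2 w - ry (nr r').1 (nr r').2.2 w)
      (inner ℝ (nr r').1 (rx (nr r).1 (nr r).2.1 w - rx (nr r').1 (nr r').2.1 w))
    linarith

/-! ### generic raw data -/

variable {κ : Type} [Encodable κ]

/-- number of a child. -/
def codeG (x : GRay × κ) : ℕ := Encodable.encode x

theorem codeG_inj {x y : GRay × κ} (h : codeG x = codeG y) : x = y :=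
  Encodable.encode_injective h

/-- the line of a number. -/
noncomputable def linG (f : GRay → κ → E2 × E2 × ℝ) (n : ℕ) : E2 × E2 × ℝ :=
  match (Encodable.decode n : Option (GRay × κ)) with
  | some x => nr (f x.1 x.2)
  | none => (0, 0, 0)

theorem linG_code (f : GRay → κ → E2 × E2 × ℝ) (x : GRay × κ) :
    linG f (codeG x) = nr (f x.1 x.2) := by
  unfold linG codeG
  rw [Encodable.encodek]

open Classical in
/-- the class of a line over a cell of level `M`. -/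
noncomputable def clsG (κ : Type) [Encodable κ] (N M : ℕ) (t : ℕ) (J : ℤ) : ℕ :=
  if h : ∃ y : (GRay × κ) × ℤ, codeG y.1 = t ∧ zc M (rh N y.2) = J then
    Encodable.encode (keyL N (h.choose.1.1, h.choose.2)) else 0

theorem clsG_code {N M : ℕ} (hN : 1 ≤ N) (hM : 4 * N ≤ 2 ^ M) (x : GRay × κ) (h : ℤ) :
    clsG κ N M (codeG x) (zc M (rh N h)) = Encodable.encode (keyL N (x.1, h)) := by
  have hex : ∃ y : (GRay × κ) × ℤ, codeG y.1 = codeG x ∧ zc M (rh N y.2) = zc M (rh N h) :=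
    ⟨(x, h), rfl, rfl⟩
  unfold clsG
  rw [dif_pos hex]
  have h1 := codeG_inj hex.choose_spec.1
  have h2 := zc_rh_inj hN hM hex.choose_spec.2
  rw [h1, h2]

open Classical in
/-- test set of a class. -/
noncomputable def tstG (f : GRay → κ → E2 × E2 × ℝ) (k0 : κ) (N M : ℕ) (I : Finset (GRay × ℤ))
    (c : ℕ) : Mem :=
  if h : ∃ y ∈ I, Encodable.encode (keyL N y) = c then
    topm (1 / 2 ^ M) (ctr M (zc M (rh N h.choose.2))) (nr (f h.choose.1 k0))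
  else unitm

theorem tstG_eq (f : GRay → κ → E2 × E2 × ℝ) (k0 : κ) {N : ℕ} (M : ℕ) {I : Finset (GRay × ℤ)}
    {x : GRay × ℤ} (hx : x ∈ I) :
    ∃ y ∈ I, keyL N y = keyL N x ∧ tstG f k0 N M I (Encodable.encode (keyL N x)) =
      topm (1 / 2 ^ M) (ctr M (zc M (rh N x.2))) (nr (f y.1 k0)) := by
  have hex : ∃ y ∈ I, Encodable.encode (keyL N y) = Encodable.encode (keyL N x) := ⟨x, hx, rfl⟩
  have hk : keyL N hex.choose = keyL N x := Encodable.encode_injective hex.choose_spec.2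
  have h2 : hex.choose.2 = x.2 := by
    have := congrArg Prod.snd hk; simpa [keyL] using this
  refine ⟨hex.choose, hex.choose_spec.1, hk, ?_⟩
  unfold tstG
  rw [dif_pos hex, h2]

/-- the incidences of the configuration. -/
noncomputable def incG (N : ℕ) (x : (GRay × ℤ) × κ) : ℕ × ℝ := (codeG (x.1.1, x.2), rh N x.1.2)

theorem incG_inj {N : ℕ} (hN : 1 ≤ N) : Function.Injective (incG (κ := κ) N) := by
  intro x y h
  unfold incG at h
  rw [Prod.mk.injEq] at h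
  have h1 := codeG_inj h.1
  rw [Prod.mk.injEq] at h1
  have h2 : x.1.2 = y.1.2 := by
    refine zc_rh_inj hN (M := 4 * N) ?_ (by rw [h.2])
    exact (Nat.lt_pow_self (by norm_num)).le
  exact Prod.ext (Prod.ext h1.1 h2) h1.2

open Classical in
/-- the set of incidences. -/
noncomputable def incsG (N : ℕ) (J0 : Finset κ) (I : Finset (GRay × ℤ)) : Finset (ℕ × ℝ) :=
  (I ×ˢ J0).image (incG N)

section

variable {N M : ℕ} {J0 : Finset κ} {f : GRay → κ → E2 × E2 × ℝ} {k0 : κ}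
  {s : Finset GRay} {I : Finset (GRay × ℤ)} {Δ μ ν : ℝ}

theorem mem_incsG {x : ℕ × ℝ} : x ∈ incsG N J0 I ↔ ∃ l h k, (l, h) ∈ I ∧ k ∈ J0 ∧
    x = (codeG (l, k), rh N h) := by
  classical
  unfold incsG incG
  simp only [mem_image, mem_product]
  constructor
  · rintro ⟨⟨⟨l, h⟩, k⟩, ⟨h1, h2⟩, rfl⟩
    exact ⟨l, h, k, h1, h2, rfl⟩
  · rintro ⟨l, h, k, h1, h2, rfl⟩
    exact ⟨⟨⟨l, h⟩, k⟩, ⟨h1, h2⟩, rfl⟩

theorem incsG_card (hN : 1 ≤ N) : (incsG N J0 I).card = I.card * J0.card := by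
  classical
  unfold incsG
  rw [card_image_of_injective _ (incG_inj hN), card_product]

theorem mem_aliveG {i : ℕ} {J : ℤ} {t : ℕ} : t ∈ alive (incsG N J0 I) i J ↔
    ∃ l h k, (l, h) ∈ I ∧ k ∈ J0 ∧ zc i (rh N h) = J ∧ t = codeG (l, k) := by
  classical
  unfold alive
  rw [mem_image]
  constructor
  · rintro ⟨x, hx, rfl⟩
    rw [mem_filter, mem_incsG] at hx
    obtain ⟨⟨l, h, k, h1, h2, rfl⟩, h4⟩ := hx
    exact ⟨l, h, k, h1, h2, h4, rfl⟩
  · rintro ⟨l, h, k, h1, h2, h4, rfl⟩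
    exact ⟨(codeG (l, k), rh N h), mem_filter.2 ⟨mem_incsG.2 ⟨l, h, k, h1, h2, rfl⟩, h4⟩, rfl⟩


open Classical in
/-- number of lines of a class -/
theorem raw_lowG (hN : 1 ≤ N) (hM : 4 * N ≤ 2 ^ M)
    (hmul : ∀ x ∈ I, μ ≤ ((I.filter (fun y => keyL N y = keyL N x)).card : ℝ))
    {J : ℤ} {t : ℕ} (ht : t ∈ alive (incsG N J0 I) M J) :
    μ * (J0.card : ℝ) ≤
      (((alive (incsG N J0 I) M J).filter fun s => clsG κ N M s J = clsG κ N M t J).card : ℝ) := by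
  obtain ⟨l, h, k, h1, h2, h4, rfl⟩ := mem_aliveG.1 ht
  have hcard : (I.filter (fun y => keyL N y = keyL N (l, h))).card * J0.card ≤
      ((alive (incsG N J0 I) M J).filter fun s =>
        clsG κ N M s J = clsG κ N M (codeG (l, k)) J).card := by
    have e : ((I.filter (fun y => keyL N y = keyL N (l, h))) ×ˢ J0).card =
        (I.filter (fun y => keyL N y = keyL N (l, h))).card * J0.card := by
      rw [card_product]
    rw [← e]
    refine card_le_card_of_injOn (fun z : (GRay × ℤ) × κ => codeG (z.1.1, z.2)) ?_ ?_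
    · intro z hz
      rw [mem_coe, mem_product, mem_filter] at hz
      obtain ⟨⟨hz1, hz2⟩, hz3⟩ := hz
      have hk2 : z.1.2 = h := by
        have := congrArg Prod.snd hz2; simpa [keyL] using this
      rw [mem_coe, mem_filter]
      refine ⟨mem_aliveG.2 ⟨z.1.1, z.1.2, z.2, hz1, hz3, by rw [hk2]; exact h4, rfl⟩, ?_⟩
      show clsG κ N M (codeG (z.1.1, z.2)) J = clsG κ N M (codeG (l, k)) J
      rw [← h4, clsG_code hN hM, clsG_code hN hM]
      rw [← hz2]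
      show Encodable.encode (keyL N (z.1.1, h)) = Encodable.encode (keyL N z.1)
      rw [← hk2]
    · intro z hz z' hz' hzz
      rw [mem_coe, mem_product, mem_filter] at hz hz'
      have hk2 : z.1.2 = h := by
        have := congrArg Prod.snd hz.1.2; simpa [keyL] using this
      have hk2' : z'.1.2 = h := by
        have := congrArg Prod.snd hz'.1.2; simpa [keyL] using this
      have h5 := codeG_inj hzz
      rw [Prod.mk.injEq] at h5
      exact Prod.ext (Prod.ext h5.1 (hk2.trans hk2'.symm)) h5.2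
  have h6 := hmul _ h1
  have hN0 : (0:ℝ) ≤ (J0.card : ℝ) := by positivity
  calc μ * (J0.card : ℝ) ≤
        ((I.filter (fun y => keyL N y = keyL N (l, h))).card : ℝ) * (J0.card : ℝ) :=
        mul_le_mul_of_nonneg_right h6 hN0
    _ ≤ _ := by exact_mod_cast hcard

open Classical in
/-- own counts -/
theorem raw_ownG (hN : 1 ≤ N) (hM : 4 * N ≤ 2 ^ M) (hI : ∀ x ∈ I, |x.2| ≤ (N : ℤ))
    (hown : ∀ x ∈ I, ν ≤ ((I.filter (fun y => y.1 = x.1)).card : ℝ))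
    {x : ℕ × ℝ} (hx : x ∈ incsG N J0 I) : ν ≤ ((own (incsG N J0 I) 0 M x).card : ℝ) := by
  obtain ⟨l, h, k, h1, h2, rfl⟩ := mem_incsG.1 hx
  refine (hown _ h1).trans (Nat.cast_le.2 ?_)
  unfold own
  refine card_le_card_of_injOn (fun y : GRay × ℤ => zc M (rh N y.2)) ?_ ?_
  · intro y hy
    rw [mem_coe, mem_filter] at hy
    rw [mem_coe, mem_image]
    refine ⟨(codeG (l, k), rh N y.2), ?_, rfl⟩
    rw [mem_filter]
    refine ⟨mem_incsG.2 ⟨l, y.2, k, ?_, h2, rfl⟩, rfl, ?_⟩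
    · have : (l, y.2) = y := Prod.ext hy.2.symm rfl
      rw [this]; exact hy.1
    · show zc 0 (rh N y.2) = zc 0 (rh N h)
      rw [zc0_rh hN (hI _ hy.1), zc0_rh hN (hI _ h1)]
  · intro y hy y' hy' hyy
    rw [mem_coe, mem_filter] at hy hy'
    exact Prod.ext (hy.2.trans hy'.2.symm) (zc_rh_inj hN hM hyy)

open Classical in
/-- the level-`0` count is a count of children. -/
theorem raw_upG (hI : ∀ x ∈ I, x.1 ∈ s) {m : Mem} {J : ℤ} :
    ((alive (incsG N J0 I) 0 J).filter fun t => linG f t ∈ m.rays 0).card ≤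
      ((s ×ˢ J0).filter fun x => nr (f x.1 x.2) ∈ m.rays 0).card := by
  have h2 : ((alive (incsG N J0 I) 0 J).filter fun t => linG f t ∈ m.rays 0) ⊆
      ((s ×ˢ J0).filter fun x => nr (f x.1 x.2) ∈ m.rays 0).image codeG := by
    intro t ht
    rw [mem_filter] at ht
    obtain ⟨ht1, ht2⟩ := ht
    obtain ⟨l, h, k, a1, a2, a4, rfl⟩ := mem_aliveG.1 ht1
    rw [mem_image]
    refine ⟨(l, k), ?_, rfl⟩
    rw [mem_filter, mem_product]
    rw [linG_code] at ht2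
    exact ⟨⟨hI (l, h) a1, a2⟩, ht2⟩
  exact (card_le_card h2).trans card_image_le

theorem alive_zeroG (hN : 1 ≤ N) (hI : ∀ x ∈ I, |x.2| ≤ (N : ℤ)) {J : ℤ} (hJ : J ≠ 0) :
    alive (incsG N J0 I) 0 J = ∅ := by
  apply Finset.eq_empty_of_forall_notMem
  intro t ht
  obtain ⟨l, h, k, h1, h2, h4, rfl⟩ := mem_aliveG.1 ht
  apply hJ
  rw [← h4]
  exact zc0_rh hN (hI _ h1)

end

end Crest.Agent.R116.RmC79
end

-- ▼ part R116/Ene6_618
section

/-!
# R116, K2 (ENEMY), part 6 (helper618): `¬ LKMseq 68 → Enemy TSS` (Enemy of XcDef_794)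
-/

set_option autoImplicit false
set_option linter.unusedVariables false

open Finset Filter Topology

namespace Crest.Agent.R116.Ene618

open Crest.Agent.R116.LZg725
open Crest.Agent.R138.Defs (E2)
open Crest.Agent.R116.Ks79
open Crest.Agent.R138.Mk163 (zc alive own)
open Crest.Agent.R138.Ex926 (Base U)
open Crest.Agent.R116.KI439 (kM0 AdmL volL TSL TSS)
open Crest.Agent.R116.Xa794 (TS)
open Crest.Agent.R116.Xc794 (Cfg capP Enemy)

theorem kM0_nonneg : 0 ≤ kM0 := by unfold kM0; norm_num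

theorem half_pow (M : ℕ) : (1 / 2 : ℝ) ^ M = 1 / 2 ^ M := by rw [one_div_pow]


theorem topm_adm (M : ℕ) (J : ℤ) (r : E2 × E2 × ℝ) :
    AdmL (1 / 2 ^ M) M J (fun _ => M) (topm (1 / 2 ^ M) (ctr M J) r) := by
  have hp : (0:ℝ) < 2 ^ M := by positivity
  refine ⟨topm_ok kM0_nonneg (by positivity) r, ?_, ?_, le_rfl, ?_, ?_, ?_, ?_, ?_⟩
  · show (1:ℝ) / 2 ^ M = (1 / 2) ^ M; rw [half_pow]
  · show ctr M J = ((J : ℝ) + 1 / 2) * (1 / 2) ^ M
    unfold ctr; rw [half_pow]; ring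
  · show (1:ℝ) * (1 / 2 ^ M) = (1 / 2) ^ M; rw [half_pow, one_mul]
  · show (1:ℝ) * (1 / 2 ^ M) = (1 / 2) ^ M; rw [half_pow, one_mul]
  · show (1:ℝ) / 2 ^ M ≤ 1 * (1 / 2 ^ M); rw [one_mul]
  · show |(0 : ℝ)| * (1 * (1 / 2 ^ M)) ≤ KI439.kD
    unfold KI439.kD; rw [abs_zero]; norm_num
  · show |(linf ue r.1 r.2.1).ny (ctr M J)| * 1 ≤ 2 * KI439.kD
    unfold KI439.kD; rw [linf_ny, abs_zero]; norm_num



theorem volL_top (M : ℕ) : volL M (fun _ => M) = 1 / 8 ^ M := by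
  unfold volL
  rw [half_pow, show 3 * M + M = M + 3 * M by ring, pow_add, pow_mul]
  norm_num




end Crest.Agent.R116.Ene618
end

-- ▼ part R116/Rm6_618
section

/-!
# R116, K2 (ENEMY with room), part 6 (helper618): the configurations

`exists_cfg5` (five coordinates, `Q = 2^(K0 M)`), `enemy2_of` : `Count5 K`, `¬ LKMseq 68` ⟹
`∃ b0 > 0, ∀ K0, EnemyAt2 (TSK K0) b0`.
-/

set_option autoImplicit false
set_option linter.unusedVariables false

open Finset Filter Topology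

namespace Crest.Agent.R116.Ene618

open Crest.Agent.R116.LZg725
open Crest.Agent.R138.Defs (E2)
open Crest.Agent.R116.Ks79
open Crest.Agent.R138.Mk163 (zc alive own)
open Crest.Agent.R138.Ex926 (Base U)
open Crest.Agent.R116.KI439 (kM0 AdmL volL TSL TSS)
open Crest.Agent.R116.Xa794 (TS)
open Crest.Agent.R116.Xc794 (Cfg capP cut)
open Crest.Agent.R116.RmC79
open Crest.Agent.R116.Rm635 (TSK)
open Crest.Agent.R116.Yb2635 (EnemyAt2)

/-! ### top classes -/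

section

variable {κ : Type} [Encodable κ]
variable {N M : ℕ} {J0 : Finset κ} {f : GRay → κ → E2 × E2 × ℝ} {k0 : κ}
  {s : Finset GRay} {I : Finset (GRay × ℤ)} {Δ μ ν : ℝ}

/-- the top classes (heights at most `N`) -/
theorem raw_topH (hN : 1 ≤ N) (hM : 4 * N ≤ 2 ^ M) (hM' : 2 ^ M ≤ 16 * N) (hk0 : k0 ∈ J0)
    (hC : ∀ l k, Bd N l → k ∈ J0 → ‖(f l k).1‖ ≤ 2)
    (hx : ∀ l l' k k' (h : ℤ), Bd N l → Bd N l' → |h| ≤ (N : ℤ) → k ∈ J0 → k' ∈ J0 →
      cell N l h = cell N l' h →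
      ‖rx (f l k).1 (f l k).2.1 ((h : ℝ) / N) - rx (f l' k').1 (f l' k').2.1 ((h : ℝ) / N)‖ ≤ 2 / N)
    (hy : ∀ l l' k k' (h : ℤ), Bd N l → Bd N l' → |h| ≤ (N : ℤ) → k ∈ J0 → k' ∈ J0 →
      cell N l h = cell N l' h →
      |ry (f l k).1 (f l k).2.2 ((h : ℝ) / N) - ry (f l' k').1 (f l' k').2.2 ((h : ℝ) / N)| ≤ 2 / N)
    (hBd : ∀ x ∈ I, Bd N x.1) (hI : ∀ x ∈ I, |x.2| ≤ (N : ℤ)) {J : ℤ} {t : ℕ}
    (ht : t ∈ alive (incsG N J0 I) M J) :
    ∃ r, tstG f k0 N M I (clsG κ N M t J) = topm (1 / 2 ^ M) (ctr M J) r ∧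
      linG f t ∈ (tstG f k0 N M I (clsG κ N M t J)).rays 0 := by
  obtain ⟨l, h, k, h1, h2, h4, rfl⟩ := mem_aliveG.1 ht
  rw [← h4, clsG_code hN hM]
  obtain ⟨y, hyI, hk, he⟩ := tstG_eq f k0 (N := N) M h1
  refine ⟨nr (f y.1 k0), he, ?_⟩
  rw [he, linG_code]
  have hN0 : (0:ℝ) < N := by exact_mod_cast hN
  have hk2 : y.2 = h := by
    have := congrArg Prod.snd hk; simpa [keyL] using this
  have hk1 : cell N l h = cell N y.1 h := by
    have := congrArg Prod.fst hk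
    simp only [keyL] at this
    rw [← this, hk2]
  refine top_mem_gen hN (hC _ _ (hBd _ h1) h2) (hC _ _ (hBd _ hyI) hk0)
    (hx _ _ _ _ h (hBd _ h1) (hBd _ hyI) (hI _ h1) h2 hk0 hk1)
    (hy _ _ _ _ h (hBd _ h1) (hBd _ hyI) (hI _ h1) h2 hk0 hk1) ?_ ?_
  · have hp : (0:ℝ) < 2 ^ M := by positivity
    have hMr' : (2:ℝ) ^ M ≤ 16 * N := by
      have : ((2 ^ M : ℕ) : ℝ) ≤ ((16 * N : ℕ) : ℝ) := by exact_mod_cast hM'
      push_cast at this; exact this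
    exact one_div_le_one_div_of_le hp hMr'
  · exact abs_sub_ctr M (rh N h)

end

/-! ### geometry of the children -/

section

variable {N Q : ℕ}

theorem abs_diff_le {a b c : ℝ} (h1 : 0 ≤ a) (h2 : a ≤ c) (h3 : 0 ≤ b) (h4 : b ≤ c) :
    |a - b| ≤ c := by rw [abs_le]; constructor <;> linarith

theorem abs_height (hN : 1 ≤ N) {h : ℤ} (hh : |h| ≤ (N : ℤ)) : |(h : ℝ) / N| ≤ 1 := by
  have hN0 : (0 : ℝ) < N := by exact_mod_cast hN
  have h1 : |(h : ℝ)| ≤ N := by exact_mod_cast hh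
  rw [abs_div, abs_of_pos hN0, div_le_one hN0]
  exact h1

theorem idx_null (hN : 1 ≤ N) (hQ : 1 ≤ Q) {x : (ℤ × ℤ) × ℤ} (hx : x ∈ idx N Q) :
    0 ≤ (x.2 : ℝ) * rho0 N Q ^ 2 ∧ (x.2 : ℝ) * rho0 N Q ^ 2 ≤ 1 / (N : ℝ) / 8 := by
  obtain ⟨-, -, ⟨c1, c2⟩⟩ := mem_idx hx
  have c1' : (0:ℝ) ≤ x.2 := by exact_mod_cast c1
  have c2' : (x.2 : ℝ) ≤ 8 * N * Q ^ 2 := by exact_mod_cast c2.le
  rw [← rho0_sq hN hQ]
  exact ⟨mul_nonneg c1' (sq_nonneg _), mul_le_mul_of_nonneg_right c2' (sq_nonneg _)⟩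

/-- lateral distance of two children of one cell. -/
theorem chd5_lat (hN : 1 ≤ N) (hQ : 1 ≤ Q) {l l' : GRay} {h : ℤ} (hh : |h| ≤ (N : ℤ))
    (hc : cell N l h = cell N l' h) {y y' : (ℤ × ℤ) × ((ℤ × ℤ) × ℤ)} (hy : y ∈ idx5 N Q)
    (hy' : y' ∈ idx5 N Q) :
    ‖rx (chd5 (rho0 N Q) (gray N l) y).1 (chd5 (rho0 N Q) (gray N l) y).2.1 ((h : ℝ) / N) -
      rx (chd5 (rho0 N Q) (gray N l') y').1 (chd5 (rho0 N Q) (gray N l') y').2.1 ((h : ℝ) / N)‖ ≤
      2 / N := by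
  have hN0 : (0 : ℝ) < N := by exact_mod_cast hN
  have hz := abs_height hN hh
  unfold cell at hc
  rw [Prod.mk.injEq, Prod.mk.injEq] at hc
  obtain ⟨⟨h1, h2⟩, -⟩ := hc
  have h1' := (Int.abs_sub_lt_one_of_floor_eq_floor h1).le
  have h2' := (Int.abs_sub_lt_one_of_floor_eq_floor h2).le
  have key : ∀ (A u v c c' p p' : ℝ), A = (1 / N) * u → |u| ≤ 1 → |p - p'| ≤ 1 / (N : ℝ) / 8 →
      |c - c'| ≤ 1 / (N : ℝ) / 8 → v = A + (p - p') - (h : ℝ) / N * (c - c') →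
      |v| ≤ 5 / 4 * (1 / N) := by
    intro A u v c c' p p' hA hu hp hcc hv
    have e1 : |A| ≤ 1 / N := by
      rw [hA, abs_mul, abs_of_pos (by positivity : (0:ℝ) < 1 / N)]
      calc 1 / (N : ℝ) * |u| ≤ 1 / N * 1 := by gcongr
        _ = 1 / N := mul_one _
    have e2 : |(h : ℝ) / N * (c - c')| ≤ 1 * (1 / (N : ℝ) / 8) := by
      rw [abs_mul]
      exact mul_le_mul hz hcc (abs_nonneg _) zero_le_one
    rw [hv]
    rw [abs_le] at e1 e2 hp ⊢
    constructor <;> linarith [e1.1, e1.2, e2.1, e2.2, hp.1, hp.2]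
  have hc0 := idx5_abs hN hQ hy 0
  have hc1 := idx5_abs hN hQ hy 1
  have hc0' := idx5_abs hN hQ hy' 0
  have hc1' := idx5_abs hN hQ hy' 1
  have hp0 := idx_abs hN hQ (mem_idx5 hy).2.2 0
  have hp1 := idx_abs hN hQ (mem_idx5 hy).2.2 1
  have hp0' := idx_abs hN hQ (mem_idx5 hy').2.2 0
  have hp1' := idx_abs hN hQ (mem_idx5 hy').2.2 1
  refine norm_le_of_coord (b := 5 / 4 * (1 / N)) ?_ ?_ (by positivity) ?_
  · refine key ((1 / N) * (((l.1.2.1 : ℝ) + l.1.1.1 * (h : ℝ) / N) -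
        ((l'.1.2.1 : ℝ) + l'.1.1.1 * (h : ℝ) / N))) _ _ (pv (rho0 N Q) y.1 0)
        (pv (rho0 N Q) y'.1 0) (pv (rho0 N Q) y.2.1 0) (pv (rho0 N Q) y'.2.1 0) rfl h1'
        (abs_diff_le hp0.1 hp0.2 hp0'.1 hp0'.2) (abs_diff_le hc0.1 hc0.2 hc0'.1 hc0'.2) ?_
    have e : ∀ (l : GRay) (y : (ℤ × ℤ) × ((ℤ × ℤ) × ℤ)),
        (rx (chd5 (rho0 N Q) (gray N l) y).1 (chd5 (rho0 N Q) (gray N l) y).2.1
          ((h : ℝ) / N)) 0 = ((l.1.2.1 : ℝ) / N + pv (rho0 N Q) y.2.1 0) -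
          (h : ℝ) / N * (-((l.1.1.1 : ℝ) / N) + pv (rho0 N Q) y.1 0) := fun l y => rfl
    rw [PiLp.sub_apply, e, e]
    field_simp
    ring
  · refine key ((1 / N) * (((l.1.2.2 : ℝ) + l.1.1.2 * (h : ℝ) / N) -
        ((l'.1.2.2 : ℝ) + l'.1.1.2 * (h : ℝ) / N))) _ _ (pv (rho0 N Q) y.1 1)
        (pv (rho0 N Q) y'.1 1) (pv (rho0 N Q) y.2.1 1) (pv (rho0 N Q) y'.2.1 1) rfl h2'
        (abs_diff_le hp1.1 hp1.2 hp1'.1 hp1'.2) (abs_diff_le hc1.1 hc1.2 hc1'.1 hc1'.2) ?_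
    have e : ∀ (l : GRay) (y : (ℤ × ℤ) × ((ℤ × ℤ) × ℤ)),
        (rx (chd5 (rho0 N Q) (gray N l) y).1 (chd5 (rho0 N Q) (gray N l) y).2.1
          ((h : ℝ) / N)) 1 = ((l.1.2.2 : ℝ) / N + pv (rho0 N Q) y.2.1 1) -
          (h : ℝ) / N * (-((l.1.1.2 : ℝ) / N) + pv (rho0 N Q) y.1 1) := fun l y => rfl
    rw [PiLp.sub_apply, e, e]
    field_simp
    ring
  · have : 0 ≤ (1 / (N : ℝ)) ^ 2 := by positivity
    have e : (2 / (N : ℝ)) ^ 2 = 4 * (1 / (N : ℝ)) ^ 2 := by ring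
    rw [e, mul_pow]
    nlinarith

/-- null distance of two children of one cell. -/
theorem chd5_null (hN : 1 ≤ N) (hQ : 1 ≤ Q) {l l' : GRay} (hl : Bd N l) (hl' : Bd N l') {h : ℤ}
    (hh : |h| ≤ (N : ℤ))
    (hc : cell N l h = cell N l' h) {y y' : (ℤ × ℤ) × ((ℤ × ℤ) × ℤ)} (hy : y ∈ idx5 N Q)
    (hy' : y' ∈ idx5 N Q) :
    |ry (chd5 (rho0 N Q) (gray N l) y).1 (chd5 (rho0 N Q) (gray N l) y).2.2 ((h : ℝ) / N) -
      ry (chd5 (rho0 N Q) (gray N l') y').1 (chd5 (rho0 N Q) (gray N l') y').2.2 ((h : ℝ) / N)| ≤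
      2 / N := by
  have hN0 : (0 : ℝ) < N := by exact_mod_cast hN
  have hN1 : (1 : ℝ) ≤ N := by exact_mod_cast hN
  have hz := abs_height hN hh
  unfold cell at hc
  rw [Prod.mk.injEq, Prod.mk.injEq] at hc
  obtain ⟨-, h3⟩ := hc
  have h3' := (Int.abs_sub_lt_one_of_floor_eq_floor h3).le
  have hu0 : (0:ℝ) < 1 / N := by positivity
  have hu1 : 1 / (N : ℝ) ≤ 1 := by rw [div_le_one hN0]; exact hN1
  -- the error of the square of the slope
  have hE : ∀ (a c : ℝ), |a| ≤ 1 → 0 ≤ c → c ≤ 1 / (N : ℝ) / 8 →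
      |c * (c - 2 * a)| ≤ 17 / 64 * (1 / N) := by
    intro a c ha hc hc'
    rw [abs_mul, abs_of_nonneg hc]
    have e1 : |c - 2 * a| ≤ 17 / 8 := by
      rw [abs_le] at ha ⊢
      constructor <;> linarith [ha.1, ha.2]
    calc c * |c - 2 * a| ≤ (1 / (N : ℝ) / 8) * (17 / 8) := by gcongr
      _ = 17 / 64 * (1 / N) := by ring
  have hd : ∀ t : ℤ, |t| ≤ (N : ℤ) → |(t : ℝ) / N| ≤ 1 := fun t ht => abs_height hN ht
  have hc0 := idx5_abs hN hQ hy 0
  have hc1 := idx5_abs hN hQ hy 1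
  have hc0' := idx5_abs hN hQ hy' 0
  have hc1' := idx5_abs hN hQ hy' 1
  have hn := idx_null hN hQ (mem_idx5 hy).2.2
  have hn' := idx_null hN hQ (mem_idx5 hy').2.2
  obtain ⟨a1, a2, -, -, -⟩ := hl
  obtain ⟨a1', a2', -, -, -⟩ := hl'
  have E1 := hE _ _ (hd _ a1) hc0.1 hc0.2
  have E2' := hE _ _ (hd _ a2) hc1.1 hc1.2
  have E3' := hE _ _ (hd _ a1') hc0'.1 hc0'.2
  have E4 := hE _ _ (hd _ a2') hc1'.1 hc1'.2
  have en : ∀ (l : GRay) (y : (ℤ × ℤ) × ((ℤ × ℤ) × ℤ)),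
      ‖(chd5 (rho0 N Q) (gray N l) y).1‖ ^ 2 =
      (-((l.1.1.1 : ℝ) / N) + pv (rho0 N Q) y.1 0) ^ 2 +
        (-((l.1.1.2 : ℝ) / N) + pv (rho0 N Q) y.1 1) ^ 2 := by
    intro l y
    rw [CDef480.normsq2]
    rfl
  have er : ∀ (l : GRay) (y : (ℤ × ℤ) × ((ℤ × ℤ) × ℤ)),
      ry (chd5 (rho0 N Q) (gray N l) y).1 (chd5 (rho0 N Q) (gray N l) y).2.2 ((h : ℝ) / N) =
      ((l.2 : ℝ) / N + (y.2.2 : ℝ) * rho0 N Q ^ 2) + (h : ℝ) / N *
        ((-((l.1.1.1 : ℝ) / N) + pv (rho0 N Q) y.1 0) ^ 2 +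
        (-((l.1.1.2 : ℝ) / N) + pv (rho0 N Q) y.1 1) ^ 2) / 2 := by
    intro l y
    rw [← en]
    rfl
  rw [er, er]
  set c0 := pv (rho0 N Q) y.1 0
  set c1 := pv (rho0 N Q) y.1 1
  set c0' := pv (rho0 N Q) y'.1 0
  set c1' := pv (rho0 N Q) y'.1 1
  set t := (y.2.2 : ℝ) * rho0 N Q ^ 2
  set t' := (y'.2.2 : ℝ) * rho0 N Q ^ 2
  set u : ℝ := ((l.2 : ℝ) + ((l.1.1.1 : ℝ) ^ 2 + (l.1.1.2 : ℝ) ^ 2) * (h : ℝ) / (2 * (N : ℝ) ^ 2)) -
      ((l'.2 : ℝ) + ((l'.1.1.1 : ℝ) ^ 2 + (l'.1.1.2 : ℝ) ^ 2) * (h : ℝ) / (2 * (N : ℝ) ^ 2)) with hu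
  have e : ((l.2 : ℝ) / N + t) + (h : ℝ) / N *
        ((-((l.1.1.1 : ℝ) / N) + c0) ^ 2 + (-((l.1.1.2 : ℝ) / N) + c1) ^ 2) / 2 -
      (((l'.2 : ℝ) / N + t') + (h : ℝ) / N *
        ((-((l'.1.1.1 : ℝ) / N) + c0') ^ 2 + (-((l'.1.1.2 : ℝ) / N) + c1') ^ 2) / 2) =
      (1 / N) * u + (t - t') + (h : ℝ) / N / 2 *
        (c0 * (c0 - 2 * ((l.1.1.1 : ℝ) / N)) + c1 * (c1 - 2 * ((l.1.1.2 : ℝ) / N)) -
          c0' * (c0' - 2 * ((l'.1.1.1 : ℝ) / N)) - c1' * (c1' - 2 * ((l'.1.1.2 : ℝ) / N))) := by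
    rw [hu]
    field_simp
    ring
  rw [e]
  have f1 : |(1 / (N : ℝ)) * u| ≤ 1 / N := by
    rw [abs_mul, abs_of_pos hu0]
    calc 1 / (N : ℝ) * |u| ≤ 1 / N * 1 := by gcongr
      _ = 1 / N := mul_one _
  have f2 : |t - t'| ≤ 1 / (N : ℝ) / 8 := abs_diff_le hn.1 hn.2 hn'.1 hn'.2
  have f3 : |(h : ℝ) / N / 2 *
        (c0 * (c0 - 2 * ((l.1.1.1 : ℝ) / N)) + c1 * (c1 - 2 * ((l.1.1.2 : ℝ) / N)) -
          c0' * (c0' - 2 * ((l'.1.1.1 : ℝ) / N)) - c1' * (c1' - 2 * ((l'.1.1.2 : ℝ) / N)))| ≤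
      1 / 2 * (17 / 16 * (1 / N)) := by
    rw [abs_mul]
    refine mul_le_mul ?_ ?_ (abs_nonneg _) (by norm_num)
    · rw [abs_div, abs_of_pos (by norm_num : (0:ℝ) < 2)]
      linarith
    · rw [abs_le] at E1 E2' E3' E4 ⊢
      constructor <;> linarith [E1.1, E1.2, E2'.1, E2'.2, E3'.1, E3'.2, E4.1, E4.2]
  have e2 : (2 : ℝ) / N = 2 * (1 / N) := by ring
  rw [e2]
  rw [abs_le] at f1 f2 f3 ⊢
  constructor <;> linarith [f1.1, f1.2, f2.1, f2.2, f3.1, f3.2]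

end

/-! ### capacity with the reward -/


theorem capP_rwd2 (K0 R M : ℕ) (r : ℝ) (s : Fin 2 → ℕ) :
    capP (cut K0 R (TSL r)) (fun l x => ∑ j, max (x j - l) 0) (0 + M) (fun _ => M) 0 s =
      volL 0 s * ((2 : ℝ) ^ (-(max ((s 0 : ℝ) - M) 0)) * (2 : ℝ) ^ (-(max ((s 1 : ℝ) - M) 0))) := by
  unfold capP
  have e : ∀ j, Xc794.rel 0 s (0 + M) (fun _ => M) j - ((((0 + M : ℕ) : ℝ)) - ((0 : ℕ) : ℝ)) =
      (s j : ℝ) - M := by
    intro j
    unfold Xc794.rel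
    push_cast
    ring
  rw [← Real.rpow_add two_pos]
  simp only [e, Fin.sum_univ_two]
  rw [neg_add]
  rfl

/-- the gain of thin test sets. -/
theorem min_le_rpow {N M k : ℕ} (hNM : (N : ℝ) ≤ 2 ^ M) :
    min 1 ((N : ℝ) * (1 / 2) ^ k) ≤ (2 : ℝ) ^ (-(max ((k : ℝ) - M) 0)) := by
  rcases le_total (k : ℝ) M with h | h
  · rw [max_eq_right (by linarith), neg_zero, Real.rpow_zero]
    exact min_le_left _ _
  · refine (min_le_right _ _).trans ?_
    rw [max_eq_left (by linarith), neg_sub, Real.rpow_sub two_pos, Real.rpow_natCast,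
      Real.rpow_natCast, one_div_pow, mul_one_div]
    exact div_le_div_of_nonneg_right hNM (by positivity)

/-- the constant of the configuration. -/
noncomputable def KR5 (K : ℝ) : ℝ := (2 * nK + 1) ^ 5 * K * 2 ^ 44

theorem KR5_pos {K : ℝ} (hK : 0 < K) : 0 < KR5 K := by
  unfold KR5 nK
  positivity

open Classical in
/-- **the configuration of a filled grid family** -/
theorem exists_cfg5 {K : ℝ} (hK : 0 ≤ K) (hC5 : Count5 K) (K0 : ℕ) {N : ℕ} (hN : 8 ≤ N)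
    (s : Finset GRay) (I : Finset (GRay × ℤ)) (Δ μ ν : ℝ)
    (hI : I.Nonempty) (hΔ : 1 ≤ Δ) (hμ : 0 < μ) (hν : 0 < ν) (hBd : ∀ l ∈ s, Bd N l)
    (hmem : ∀ x ∈ I, x.1 ∈ s ∧ |x.2| ≤ (N : ℤ))
    (hown : ∀ l ∈ s, ν ≤ ((I.filter (fun x => x.1 = l)).card : ℝ))
    (hmul : ∀ x ∈ I, μ ≤ ((I.filter (fun y => keyL N y = keyL N x)).card : ℝ))
    (hd : DensL 68 N s Δ) :
    ∃ F : Cfg (E2 × E2 × ℝ) (Fin 2) Mem,
      F.Ok (cut K0 ((K0 + 1) * F.M) (TSL ((1 / 2) ^ ((K0 + 1) * F.M))))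
        (fun l x => ∑ j, max (x j - l) 0) ∧
      4 * N ≤ 2 ^ F.M ∧ 2 ^ F.M ≤ 8 * N ∧
      F.I.card = I.card * (8 * N * (2 ^ (K0 * F.M)) ^ 6) ∧
      F.D1 = μ * (8 * N * (2 ^ (K0 * F.M)) ^ 6) * 8 ^ F.M ∧
      F.nu = ν ∧ F.D0 = KR5 K * Δ * (N : ℝ) ^ 4 * (2 ^ (K0 * F.M)) ^ 6 ∧
      F.N = (K0 + 1) * F.M := by
  have hN1 : 1 ≤ N := by omega
  have hN0 : (0:ℝ) < N := by exact_mod_cast hN1
  set M : ℕ := Nat.clog 2 (4 * N) with hMdef
  have hM : 4 * N ≤ 2 ^ M := Nat.le_pow_clog one_lt_two _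
  have hM1 : 1 ≤ M := by
    by_contra h
    have : M = 0 := by omega
    rw [this] at hM; omega
  have hM' : 2 ^ M ≤ 8 * N := by
    have h1 : 2 ^ (M - 1) < 4 * N := Nat.pow_pred_clog_lt_self one_lt_two (by omega)
    have h2 : 2 ^ M = 2 * 2 ^ (M - 1) := by
      rw [← pow_succ']; congr 1; omega
    omega
  have hp : (0:ℝ) < 2 ^ M := by positivity
  have hMr : (4:ℝ) * N ≤ 2 ^ M := by
    have : ((4 * N : ℕ) : ℝ) ≤ ((2 ^ M : ℕ) : ℝ) := by exact_mod_cast hM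
    push_cast at this; exact this
  have hMr' : (2:ℝ) ^ M ≤ 8 * N := by
    have : ((2 ^ M : ℕ) : ℝ) ≤ ((8 * N : ℕ) : ℝ) := by exact_mod_cast hM'
    push_cast at this; exact this
  set Q : ℕ := 2 ^ (K0 * M) with hQd
  have hQ1 : 1 ≤ Q := Nat.one_le_two_pow
  have hQr : (Q : ℝ) = 2 ^ (K0 * M) := by rw [hQd]; push_cast; ring
  have hQ0 : (0:ℝ) < Q := by rw [hQr]; positivity
  set J0 := idx5 N Q with hJ0
  set f : GRay → (ℤ × ℤ) × ((ℤ × ℤ) × ℤ) → E2 × E2 × ℝ :=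
    fun l k => chd5 (rho0 N Q) (gray N l) k with hf
  set k0 : (ℤ × ℤ) × ((ℤ × ℤ) × ℤ) := ((0, 0), ((0, 0), 0)) with hk0d
  have hk0 : k0 ∈ J0 := by
    rw [hJ0, hk0d]
    unfold idx5 idx
    have q1 : (0 : ℤ) < Q := by exact_mod_cast hQ1
    have q2 : (0 : ℤ) < 8 * N * Q ^ 2 := by
      have : (0 : ℤ) < N := by exact_mod_cast hN1
      positivity
    simp only [mem_product, mem_Ico]
    exact ⟨⟨⟨le_rfl, q1⟩, ⟨le_rfl, q1⟩⟩, ⟨⟨⟨le_rfl, q1⟩, ⟨le_rfl, q1⟩⟩, ⟨le_rfl, q2⟩⟩⟩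
  have hcardJ : (J0.card : ℝ) = 8 * N * Q ^ 6 := by
    rw [hJ0, idx5_card]; push_cast; ring
  have hcardJ' : J0.card = 8 * N * Q ^ 6 := by
    rw [hJ0, idx5_card]; ring
  have hBd' : ∀ x ∈ I, Bd N x.1 := fun x hx => hBd _ (hmem x hx).1
  have hI2 : ∀ x ∈ I, |x.2| ≤ (N : ℤ) := fun x hx => (hmem x hx).2
  have hz : ∀ x ∈ incsG N J0 I, zc 0 x.2 = 0 := by
    intro x hx
    obtain ⟨l, h, j, h1, h2, rfl⟩ := mem_incsG.1 hx
    exact zc0_rh hN1 (hmem _ h1).2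
  refine ⟨⟨0, M, incsG N J0 I, linG f, clsG ((ℤ × ℤ) × ((ℤ × ℤ) × ℤ)) N M, fun c => (fun _ => M, tstG f k0 N M I c),
    fun _ => M, KR5 K * Δ * (N : ℝ) ^ 4 * (Q : ℝ) ^ 6, μ * (8 * N * (Q : ℝ) ^ 6) * 8 ^ M, ν,
    (K0 + 1) * M⟩, ?_, hM, hM', ?_, ?_, rfl, ?_, rfl⟩
  rotate_left
  · show (incsG N J0 I).card = _
    rw [incsG_card hN1, hcardJ']
  · show μ * (8 * N * (Q : ℝ) ^ 6) * 8 ^ M = _
    rw [hQr]
  · show KR5 K * Δ * (N : ℝ) ^ 4 * (Q : ℝ) ^ 6 = _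
    rw [hQr]
  have htop : 0 + M = M := by omega
  constructor
  · exact hM1
  · obtain ⟨⟨l, h⟩, hx⟩ := hI
    exact ⟨_, mem_incsG.2 ⟨l, h, k0, hx, hk0, rfl⟩⟩
  · intro x hx y hy
    show zc 0 x.2 = zc 0 y.2
    rw [hz x hx, hz y hy]
  · show 0 < μ * (8 * N * (Q : ℝ) ^ 6) * 8 ^ M; positivity
  · exact hν
  · intro i J S hS j
    exact Xc794.cut_fin i J S hS j
  · intro J t ht
    have ht' : t ∈ alive (incsG N J0 I) (0 + M) J := ht
    show linG f t ∈ (tstG f k0 N M I (clsG ((ℤ × ℤ) × ((ℤ × ℤ) × ℤ)) N M t J)).rays 0 ∧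
      (AdmL ((1 / 2) ^ ((K0 + 1) * M)) (0 + M) J (fun _ => M)
      (tstG f k0 N M I (clsG ((ℤ × ℤ) × ((ℤ × ℤ) × ℤ)) N M t J)) ∧ ∀ j : Fin 2, M + K0 * (0 + M) ≤ (K0 + 1) * M) ∧
      (fun _ => M : Fin 2 → ℕ) = fun _ => M
    rw [htop] at ht' ⊢
    obtain ⟨r, h1, h2⟩ := raw_topH hN1 hM (by omega) hk0
      (fun l k hl hk => ((chd5_bd hN hQ1 hl hk).1.trans (by norm_num)))
      (fun l l' k k' h hl hl' hh hk hk' hc => chd5_lat hN1 hQ1 hh hc hk hk')
      (fun l l' k k' h hl hl' hh hk hk' hc => chd5_null hN1 hQ1 hl hl' hh hc hk hk')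
      hBd' hI2 ht'
    refine ⟨h2, ⟨?_, fun j => ?_⟩, rfl⟩
    · rw [h1]
      refine Rm635.res' (topm_adm M J r) ?_
      refine pow_le_pow_of_le_one (by norm_num) (by norm_num) ?_
      show M ≤ (K0 + 1) * M
      nlinarith [Nat.zero_le (K0 * M)]
    · rw [add_mul, one_mul, add_comm]
  · intro J t ht
    show μ * (8 * N * (Q : ℝ) ^ 6) * 8 ^ M * volL (0 + M) (fun _ => M) ≤
      (((alive (incsG N J0 I) (0 + M) J).filter fun s => clsG ((ℤ × ℤ) × ((ℤ × ℤ) × ℤ)) N M s J = clsG ((ℤ × ℤ) × ((ℤ × ℤ) × ℤ)) N M t J).card : ℝ)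
    have ht' : t ∈ alive (incsG N J0 I) (0 + M) J := ht
    rw [htop] at ht' ⊢
    have e : μ * (8 * N * (Q : ℝ) ^ 6) * 8 ^ M * (1 / 8 ^ M) = μ * (J0.card : ℝ) := by
      rw [hcardJ]; field_simp
    rw [volL_top, e]
    exact raw_lowG hN1 hM hmul ht'
  · intro x hx
    show ν ≤ ((own (incsG N J0 I) 0 (0 + M) x).card : ℝ)
    rw [htop]
    exact raw_ownG hN1 hM hI2 (fun y hy => hown _ (hmem y hy).1) hx
  · intro J S hS
    show (((alive (incsG N J0 I) 0 J).filter fun t => linG f t ∈ S.2.rays 0).card : ℝ) ≤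
      KR5 K * Δ * (N : ℝ) ^ 4 * (Q : ℝ) ^ 6 *
        capP (cut K0 ((K0 + 1) * M) (TSL ((1 / 2) ^ ((K0 + 1) * M))))
        (fun l x => ∑ j, max (x j - l) 0) (0 + M) (fun _ => M) 0 S.1
    have hA : AdmL ((1 / 2) ^ ((K0 + 1) * M)) 0 J S.1 S.2 := hS.1
    have hKK : 0 ≤ KR5 K := by unfold KR5 nK; positivity
    rw [capP_rwd2]
    by_cases hJ : J = 0
    · subst hJ
      have hR : S.2.R = 1 := by rw [hA.hR]; norm_num
      have hs0 : S.2.s0 = 1 / 2 := by rw [hA.hs0]; norm_num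
      have hsg : S.2.sg = (1 / 2) ^ (S.1 0) := by
        have := hA.wide; rwa [hR, mul_one] at this
      have hs1 : S.2.s1 = (1 / 2) ^ (S.1 1) := by
        have := hA.thin; rwa [hR, mul_one] at this
      have hres : (1 / 2) ^ ((K0 + 1) * M) ≤ S.2.s1 := by
        have := hA.res; rwa [hR, mul_one] at this
      have hres' : 1 / (8 * (N : ℝ) * Q) ≤ S.2.s1 := by
        refine le_trans ?_ hres
        rw [one_div_pow]
        refine one_div_le_one_div_of_le (by positivity) ?_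
        have e : (2:ℝ) ^ ((K0 + 1) * M) = 2 ^ M * Q := by
          rw [hQr, ← pow_add]; congr 1; ring
        rw [e]
        exact mul_le_mul_of_nonneg_right hMr' hQ0.le
      have h0 := raw_upG (J0 := J0) (f := f) (N := N) (fun x hx => (hmem x hx).1) (m := S.2)
        (J := 0) (s := s) (I := I)
      have h1 := raw_up5 hK hC5 N Q s Δ S.2 hN hQ1 hΔ hBd hd hA.ok hR hs0 hres' hA.sg1
      refine ((Nat.cast_le.2 h0).trans h1).trans ?_
      have hNM : (N : ℝ) ≤ 2 ^ M := by linarith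
      have m1 := min_le_rpow (k := S.1 1) hNM
      have m0 := min_le_rpow (k := S.1 0) hNM
      rw [hs1, hsg]
      have ev : volL 0 S.1 = (1 / 2) ^ (S.1 1) * ((1 / 2) ^ (S.1 0)) ^ 3 := by
        unfold volL
        rw [pow_add, mul_comm 3, pow_mul, pow_zero]
        ring
      rw [ev]
      have q0 : (0:ℝ) ≤ min 1 ((N : ℝ) * (1 / 2) ^ (S.1 0)) := le_min zero_le_one (by positivity)
      have hmm := mul_le_mul m1 m0 q0 (Real.rpow_nonneg (by norm_num) _)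
      have e : KR5 K * Δ * (N : ℝ) ^ 4 * (Q : ℝ) ^ 6 * ((1 / 2) ^ (S.1 1) * ((1 / 2) ^ (S.1 0)) ^ 3 *
          ((2 : ℝ) ^ (-(max ((S.1 0 : ℝ) - M) 0)) * (2 : ℝ) ^ (-(max ((S.1 1 : ℝ) - M) 0)))) =
          (KR5 K * Δ * (N : ℝ) ^ 4 * (Q : ℝ) ^ 6 * ((1 / 2) ^ (S.1 1) * ((1 / 2) ^ (S.1 0)) ^ 3)) *
          ((2 : ℝ) ^ (-(max ((S.1 1 : ℝ) - M) 0)) * (2 : ℝ) ^ (-(max ((S.1 0 : ℝ) - M) 0))) := by
        ring
      rw [e]
      refine le_trans (le_of_eq ?_) (mul_le_mul_of_nonneg_left hmm (by positivity))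
      unfold KR5
      ring
    · rw [alive_zeroG hN1 hI2 hJ]
      have hv := KI439.volL_pos 0 S.1
      simp only [filter_empty, card_empty, Nat.cast_zero]
      positivity

/-- growth -/
theorem exists_large2 (δ : ℝ) (hδ : 0 < δ) (c K : ℝ) : ∃ M1 : ℕ, ∀ M : ℕ, M1 ≤ M →
    c * M ≤ 2 ^ (δ * M) ∧ K < 2 ^ (δ * M) := by
  have h1 : (1:ℝ) < 2 ^ δ := Real.one_lt_rpow (by norm_num) hδ
  have h2 := tendsto_pow_const_div_const_pow_of_one_lt 1 h1
  have h3 : ∀ᶠ M : ℕ in atTop, (M : ℝ) ^ 1 / (2 ^ δ) ^ M < 1 / (|c| + 1) :=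
    h2.eventually_lt_const (by positivity)
  have h4 := (tendsto_pow_atTop_atTop_of_one_lt h1).eventually_gt_atTop K
  obtain ⟨M1, hM1⟩ := eventually_atTop.1 (h3.and h4)
  refine ⟨M1, fun M hM => ?_⟩
  obtain ⟨a1, a2⟩ := hM1 M hM
  have e : (2:ℝ) ^ (δ * M) = (2 ^ δ) ^ M := by
    rw [Real.rpow_mul (by norm_num), Real.rpow_natCast]
  rw [e]
  refine ⟨?_, a2⟩
  rw [pow_one, div_lt_div_iff₀ (by positivity) (by positivity)] at a1
  have h5 : c * M ≤ (|c| + 1) * M := by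
    have := le_abs_self c
    have hM0 : (0:ℝ) ≤ M := Nat.cast_nonneg _
    nlinarith
  linarith

/-- **K2 (ENEMY with room)** from `count5`. -/
theorem enemy2_of {K : ℝ} (hK : 0 < K) (hC5 : Count5 K) (h : ¬ LKMseq 68) :
    ∃ b0 : ℝ, 0 < b0 ∧ ∀ K0 : ℕ, EnemyAt2 (TSK K0) b0 := by
  classical
  unfold LKMseq at h
  push Not at h
  obtain ⟨B, N, s, I, Δ, μ, ν, hN2, hBd, hs, hI, hΔ, hμ, hν, hlBd, hmem, hown, hmul, -, -, hd,
    ε, hε, hfail⟩ := h
  refine ⟨ε / 2, by linarith, fun K0 δ hδ M0 => ?_⟩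
  obtain ⟨Ma, hMa⟩ := exists_large2 δ hδ (20 + 6 * K0) 1
  obtain ⟨Mb, hMb⟩ := exists_large2 (ε / 2) (by linarith) 1 (8 ^ ε * KR5 K)
  -- large `N`
  have hNlarge : ∀ A : ℝ, ∀ᶠ n in (U : Filter ℕ), A ≤ (N n : ℝ) := by
    intro A
    have h1 : ∀ᶠ n in (U : Filter ℕ), B.d n < 1 / (|A| + 1) :=
      B.lim0.eventually_lt_const (by positivity)
    filter_upwards [h1] with n hn
    rw [hBd n, div_lt_div_iff₀ (by have := hN2 n; positivity) (by positivity)] at hn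
    have := le_abs_self A
    linarith
  have hfail' : ∀ᶠ n in (U : Filter ℕ), (N n : ℝ) ^ ε * Δ n * (N n : ℝ) ^ 2 < μ n * ν n ^ 2 :=
    hfail
  obtain ⟨n, hn1, hn2, hn3⟩ := (hfail'.and ((hNlarge 8).and
    (hNlarge (2 ^ (M0 + Ma + Mb))))).exists
  have hN8 : 8 ≤ N n := by exact_mod_cast hn2
  obtain ⟨F, hF, hM, hM', hcard, hD1, hnu, hD0, hN⟩ := exists_cfg5 hK.le hC5 K0 hN8 (s n) (I n)
    (Δ n) (μ n) (ν n) (hI n) (hΔ n) (hμ n) (hν n) (hlBd n) (hmem n) (hown n) (hmul n)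
    (hd n)
  have hN0 : (0:ℝ) < N n := by linarith
  have hMr : (4:ℝ) * N n ≤ 2 ^ F.M := by
    have : ((4 * N n : ℕ) : ℝ) ≤ ((2 ^ F.M : ℕ) : ℝ) := by exact_mod_cast hM
    push_cast at this; exact this
  have hMr' : (2:ℝ) ^ F.M ≤ 8 * N n := by
    have : ((2 ^ F.M : ℕ) : ℝ) ≤ ((8 * N n : ℕ) : ℝ) := by exact_mod_cast hM'
    push_cast at this; exact this
  have hp : (0:ℝ) < 2 ^ F.M := by positivity
  have hM1 : (1:ℝ) ≤ F.M := by exact_mod_cast hF.M1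
  have hMbig : M0 + Ma + Mb ≤ F.M := by
    have h1 : (2:ℝ) ^ (M0 + Ma + Mb) ≤ 2 ^ F.M := by linarith
    exact (pow_le_pow_iff_right₀ one_lt_two).1 h1
  have hT : cut K0 ((K0 + 1) * F.M) (TSL ((1 / 2) ^ ((K0 + 1) * F.M))) ∈ TSK K0 :=
    Rm635.TSK_mem (by positivity) le_rfl
  have hbound := (hMa F.M (by omega)).1
  -- cardinality
  have hlog : Real.log (F.I.card : ℝ) ≤ (2 : ℝ) ^ (δ * F.M) := by
    have h1 : I n ⊆ s n ×ˢ Icc (-(N n : ℤ)) (N n) := by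
      intro x hx
      obtain ⟨a1, a2⟩ := hmem n x hx
      rw [mem_product, mem_Icc]
      exact ⟨a1, abs_le.1 a2⟩
    have h2 := card_le_card h1
    rw [card_product] at h2
    have h3 := card_Icc_le (N := N n) (by omega)
    have h4 := card_le_of_Bd (N := N n) (by omega) (hlBd n)
    have h5 : F.I.card ≤ 8 * (729 * N n ^ 7) * (2 ^ (K0 * F.M)) ^ 6 := by
      rw [hcard]
      calc (I n).card * (8 * N n * (2 ^ (K0 * F.M)) ^ 6) ≤
            ((s n).card * (Icc (-(N n : ℤ)) (N n)).card) * (8 * N n * (2 ^ (K0 * F.M)) ^ 6) :=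
            Nat.mul_le_mul_right _ h2
        _ ≤ ((243 * N n ^ 5) * (3 * N n)) * (8 * N n * (2 ^ (K0 * F.M)) ^ 6) := by gcongr
        _ = 8 * (729 * N n ^ 7) * (2 ^ (K0 * F.M)) ^ 6 := by ring
    have h6 : F.I.card ≤ 2 ^ ((20 + 6 * K0) * F.M) := by
      calc F.I.card ≤ 8 * (729 * N n ^ 7) * (2 ^ (K0 * F.M)) ^ 6 := h5
        _ ≤ 2 ^ 3 * (2 ^ 10 * (2 ^ F.M) ^ 7) * (2 ^ (K0 * F.M)) ^ 6 := by
          have : N n ≤ 2 ^ F.M := by omega
          gcongr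
          · norm_num
          · norm_num
        _ = 2 ^ (13 + 7 * F.M + 6 * (K0 * F.M)) := by ring_nf
        _ ≤ 2 ^ ((20 + 6 * K0) * F.M) := by
          apply Nat.pow_le_pow_right (by norm_num)
          have := hF.M1
          nlinarith
    have h7 : (0:ℝ) < F.I.card := by
      have := hF.ne.card_pos
      exact_mod_cast this
    calc Real.log (F.I.card : ℝ) ≤ Real.log (2 ^ ((20 + 6 * K0) * F.M)) := by
          apply Real.log_le_log h7
          exact_mod_cast h6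
      _ = ((20 + 6 * K0) * F.M) * Real.log 2 := by rw [Real.log_pow]; push_cast; ring
      _ ≤ ((20 + 6 * K0) * F.M) * 1 := by
          have : Real.log 2 ≤ 1 := by linarith [Real.log_two_lt_d9]
          gcongr
      _ ≤ _ := by
          rw [mul_one]
          exact hbound
  have hNN : (F.N : ℝ) ≤ (2 : ℝ) ^ (δ * F.M) := by
    rw [hN]
    refine le_trans ?_ hbound
    push_cast
    refine mul_le_mul_of_nonneg_right ?_ (by linarith)
    have : (0:ℝ) ≤ K0 := Nat.cast_nonneg _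
    linarith
  refine ⟨_, hT, F, hF, by omega, hlog, hNN, ?_⟩
  rw [hD1, hnu, hD0]
  have hΔ0 : 0 < Δ n := by linarith [hΔ n]
  have hKK := KR5_pos hK
  have hQ6 : (0:ℝ) < (2 ^ (K0 * F.M)) ^ 6 := by positivity
  set q6 : ℝ := (2 ^ (K0 * F.M)) ^ 6 with hq6
  have hX : (0:ℝ) < Δ n * (N n : ℝ) ^ 3 * 4 ^ F.M * q6 := by positivity
  have hNε : (0:ℝ) < (N n : ℝ) ^ ε := Real.rpow_pos_of_pos hN0 ε
  have e1 : (2:ℝ) ^ (ε / 2 * F.M) * 4 ^ F.M * (KR5 K * Δ n * (N n : ℝ) ^ 4 * q6) =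
      (Δ n * (N n : ℝ) ^ 3 * 4 ^ F.M * q6) * ((2 ^ (ε / 2 * F.M) * KR5 K) * N n) := by ring
  have e2 : μ n * (8 * N n * q6) * 8 ^ F.M * ν n ^ 2 =
      (μ n * ν n ^ 2) * (N n * 8 ^ F.M * q6 * 8) := by ring
  have e3 : (N n : ℝ) ^ ε * Δ n * (N n : ℝ) ^ 2 * (N n * 8 ^ F.M * q6 * 8) =
      (Δ n * (N n : ℝ) ^ 3 * 4 ^ F.M * q6) * ((N n : ℝ) ^ ε * (2 ^ F.M * 8)) := by
    rw [show ((8:ℝ) ^ F.M) = 4 ^ F.M * 2 ^ F.M by rw [← mul_pow]; norm_num]; ring
  have h1 : (N n : ℝ) ^ ε * Δ n * (N n : ℝ) ^ 2 * (N n * 8 ^ F.M * q6 * 8) <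
      (μ n * ν n ^ 2) * (N n * 8 ^ F.M * q6 * 8) := mul_lt_mul_of_pos_right hn1 (by positivity)
  rw [e1, e2]
  refine lt_of_le_of_lt ?_ h1
  rw [e3]
  refine mul_le_mul_of_nonneg_left ?_ hX.le
  have h4 : (2:ℝ) ^ (ε * F.M) ≤ 8 ^ ε * (N n : ℝ) ^ ε := by
    rw [← Real.mul_rpow (by norm_num) hN0.le, mul_comm ε, Real.rpow_mul (by norm_num),
      Real.rpow_natCast]
    exact Real.rpow_le_rpow hp.le hMr' hε.le
  have h5 : (2:ℝ) ^ (ε * F.M) = 2 ^ (ε / 2 * F.M) * 2 ^ (ε / 2 * F.M) := by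
    rw [← Real.rpow_add (by norm_num)]; congr 1; ring
  have h6 := (hMb F.M (by omega)).2
  have hP : (0:ℝ) < 2 ^ (ε / 2 * F.M) := Real.rpow_pos_of_pos (by norm_num) _
  have h8 : (0:ℝ) < 8 ^ ε := Real.rpow_pos_of_pos (by norm_num) _
  have h7 : 2 ^ (ε / 2 * F.M) * KR5 K ≤ (N n : ℝ) ^ ε := by
    have h9 : 8 ^ ε * (2 ^ (ε / 2 * F.M) * KR5 K) ≤ 8 ^ ε * (N n : ℝ) ^ ε := by
      calc 8 ^ ε * (2 ^ (ε / 2 * F.M) * KR5 K) = 2 ^ (ε / 2 * F.M) * (8 ^ ε * KR5 K) := by ring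
        _ ≤ 2 ^ (ε / 2 * F.M) * 2 ^ (ε / 2 * F.M) := mul_le_mul_of_nonneg_left h6.le hP.le
        _ = 2 ^ (ε * F.M) := h5.symm
        _ ≤ _ := h4
    exact le_of_mul_le_mul_left h9 h8
  exact mul_le_mul h7 (by linarith) hN0.le hNε.le

end Crest.Agent.R116.Ene618
end

-- ▼ part R116/Rs1_79
section

/-!
# R116, K2 (ENEMY with room, five-coordinate fill), part 1 (helper79)

Children `(C + v, a + p, k + t)` of a ray `(C, a, k)` in a member: positions (`pos_count`, varying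
slopes; port of 618's `par_count`), slopes at a fixed position (`slope_count`), transfer to the
fattened member (`child_big5`, `parents_big5`), parents of thin members (`parents_small5`).
-/

set_option autoImplicit false
set_option linter.unusedVariables false

open Finset

namespace Crest.Agent.R116.Rs79

open Crest.Agent.R116.LZg725
open Crest.Agent.R138.Defs (E2)
open Crest.Agent.R116.CDef480 (E3 lat pt vel)
open Crest.Agent.R116.LKMDef299 (LRay Cpt)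
open Crest.Agent.R116.Ks79 (GRay gC gX gH Bd)
open Crest.Agent.R116.Ene618

open Classical in
/-- **positions of the children of one parent in a member**, slopes varying. -/
theorem pos_count {M : ℝ} {m : Mem} (h : Sm M m) {rho W lam : ℝ} (hrho : 0 < rho) (hW : 0 ≤ W)
    (hlam : 0 ≤ lam) (hs1 : rho ≤ m.s1) (C a : E2) (k : ℝ) (S : Finset ((ℤ × ℤ) × ℤ))
    (hS : ∀ x ∈ S, ∃ C' : E2, (C', a + pv rho x.1, k + (x.2 : ℝ) * rho ^ 2) ∈ m.rays 0)
    (hne : ∀ x ∈ S, ∃ x0 ∈ S, ∃ C0 : E2, ‖C0 - C‖ ≤ m.sg / 4 ∧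
      (C0, a + pv rho x0.1, k + (x0.2 : ℝ) * rho ^ 2) ∈ m.rays 0)
    (hp1 : ∀ x ∈ S, ∀ y ∈ S, |((x.1.1 : ℝ) - y.1.1) * rho| ≤ W)
    (hp2 : ∀ x ∈ S, ∀ y ∈ S, |((x.1.2 : ℝ) - y.1.2) * rho| ≤ W)
    (hnu : ∀ x ∈ S, ∀ y ∈ S, |nus rho (C, a, k) x - nus rho (C, a, k) y| ≤ lam) :
    (S.card : ℝ) ≤ (W / rho + 1) * (lam / rho ^ 2 + 2) * (min (36 * m.s1) W / rho + 1) := by
  have hr2 : 0 < rho ^ 2 := pow_pos hrho 2
  have hsg := h.ok.sg_pos
  have hs10 := h.ok.hs1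
  have hle := h.ok.hsg
  rcases S.eq_empty_or_nonempty with rfl | ⟨x00, hx00⟩
  · simp only [card_empty, Nat.cast_zero]
    positivity
  obtain ⟨x0, hx0, C0, hC0, hbase⟩ := hne x00 hx00
  -- the base child
  set X0 : E2 := a + pv rho x0.1 with hX0
  obtain ⟨b1, b2, b3, b4, b5⟩ := h.ray hbase
  obtain ⟨g1, -⟩ := h.gr_sq hbase
  obtain ⟨i, hi0⟩ := exists_comp g1
  have hi : 19 / 50 ≤ |m.phi.gr C X0 0 i| := by
    have e : m.phi.gr C X0 0 = m.phi.gr C0 X0 0 + (m.phi.ny 0) • (C0 - C) := by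
      unfold Cf.gr; module
    have e1 : m.phi.gr C0 X0 0 i = m.phi.gr C X0 0 i - ((m.phi.ny 0) • (C0 - C)) i := by
      rw [e]; simp
    have e2 : |((m.phi.ny 0) • (C0 - C)) i| ≤ 1 / 25 := by
      refine (abs_coord_le _ i).trans ?_
      rw [norm_smul, Real.norm_eq_abs]
      have h1 := h.ny 0 (by norm_num)
      calc |m.phi.ny 0| * ‖C0 - C‖ ≤ |m.phi.ny 0| * (m.sg / 4) :=
            mul_le_mul_of_nonneg_left hC0 (abs_nonneg _)
        _ = (|m.phi.ny 0| * m.sg) / 4 := by ring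
        _ ≤ (4 / 25) / 4 := by gcongr
        _ = 1 / 25 := by norm_num
    have e3 := abs_sub (m.phi.gr C X0 0 i) (((m.phi.ny 0) • (C0 - C)) i)
    rw [← e1] at e3
    linarith
  -- two children in one bin
  have key : ∀ x ∈ S, ∀ y ∈ S, |nus rho (C, a, k) x - nus rho (C, a, k) y| ≤ rho ^ 2 →
      (∀ j : Fin 2, j ≠ i → (pv rho x.1 - pv rho y.1) j = 0) →
      |(pv rho x.1 - pv rho y.1) i| ≤ 36 * m.s1 := by
    intro x hx y hy hxy ho
    obtain ⟨Cx, hCx⟩ := hS x hx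
    obtain ⟨Cy, hCy⟩ := hS y hy
    obtain ⟨x1, x2, x3, x4, x5⟩ := h.ray hCx
    obtain ⟨y1, y2, y3, y4, y5⟩ := h.ray hCy
    set D : E2 := pv rho x.1 - pv rho y.1 with hD
    have e := ev_two m.phi C X0 (k + (x0.2 : ℝ) * rho ^ 2) (a + pv rho x.1) (a + pv rho y.1)
      (k + (x.2 : ℝ) * rho ^ 2) (k + (y.2 : ℝ) * rho ^ 2)
    have eD : a + pv rho x.1 - (a + pv rho y.1) = D := by rw [hD]; abel
    have en : nrm C (a + pv rho x.1) (k + (x.2 : ℝ) * rho ^ 2) 0 -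
        nrm C (a + pv rho y.1) (k + (y.2 : ℝ) * rho ^ 2) 0 =
        nus rho (C, a, k) x - nus rho (C, a, k) y := by
      unfold nrm nus
      rw [inner_add_right, inner_add_right]; ring
    rw [eD, en] at e
    have hDn : ‖D‖ = |D i| := by
      have h1 := CDef480.normsq2 D
      have h2 : ‖D‖ ^ 2 = |D i| ^ 2 := by
        rw [h1, sq_abs]
        fin_cases i
        · have := ho 1 (by decide)
          simp only [Fin.zero_eta, this]; ring
        · have := ho 0 (by decide)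
          simp only [Fin.mk_one, this]; ring
      exact (pow_left_inj₀ (norm_nonneg _) (abs_nonneg _) two_ne_zero).1 h2
    have hgD : inner ℝ (m.phi.gr C X0 0) D = m.phi.gr C X0 0 i * D i := by
      rw [PiLp.inner_apply, Fin.sum_univ_two]
      simp only [RCLike.inner_apply, conj_trivial]
      fin_cases i
      · have := ho 1 (by decide)
        simp only [Fin.zero_eta, this]; ring
      · have := ho 0 (by decide)
        simp only [Fin.mk_one, this]; ring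
    rw [hgD] at e
    have q1 : |m.phi.gr C X0 0 i * D i| = |m.phi.gr C X0 0 i| * |D i| := abs_mul _ _
    have q2 : |m.phi.ny 0 * (nus rho (C, a, k) x - nus rho (C, a, k) y)| ≤ 4 / 25 * m.s1 := by
      rw [abs_mul]
      have h1 := h.ny 0 (by norm_num)
      have h2 : rho ^ 2 ≤ m.sg * m.s1 := by nlinarith
      calc |m.phi.ny 0| * |nus rho (C, a, k) x - nus rho (C, a, k) y|
          ≤ |m.phi.ny 0| * (m.sg * m.s1) := by
            refine mul_le_mul_of_nonneg_left (hxy.trans h2) (abs_nonneg _)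
        _ = (|m.phi.ny 0| * m.sg) * m.s1 := by ring
        _ ≤ 4 / 25 * m.s1 := by gcongr
    have q3 : |m.phi.d * inner ℝ D (a + pv rho x.1 + (a + pv rho y.1) - (2:ℝ) • X0)| ≤
        8 / 25 * |D i| := by
      rw [abs_mul]
      have h1 : ‖a + pv rho x.1 + (a + pv rho y.1) - (2:ℝ) • X0‖ ≤ 4 * m.sg := by
        have e1 : a + pv rho x.1 + (a + pv rho y.1) - (2:ℝ) • X0 =
            ((a + pv rho x.1) - lat m.X0) + ((a + pv rho y.1) - lat m.X0) -
            (2:ℝ) • (X0 - lat m.X0) := by module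
        rw [e1]
        refine (norm_sub_le _ _).trans ?_
        rw [norm_smul, Real.norm_of_nonneg (by norm_num : (0:ℝ) ≤ 2)]
        have h2 := norm_add_le ((a + pv rho x.1) - lat m.X0) ((a + pv rho y.1) - lat m.X0)
        have h3 : ‖a + pv rho x.1 - lat m.X0‖ ≤ m.sg := x2
        have h4 : ‖a + pv rho y.1 - lat m.X0‖ ≤ m.sg := y2
        have h5 : ‖X0 - lat m.X0‖ ≤ m.sg := b2
        linarith
      have h2 := abs_real_inner_le_norm D (a + pv rho x.1 + (a + pv rho y.1) - (2:ℝ) • X0)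
      have h3 := h.d
      have hd0 : 0 ≤ |m.phi.d| := abs_nonneg _
      calc |m.phi.d| * |inner ℝ D (a + pv rho x.1 + (a + pv rho y.1) - (2:ℝ) • X0)|
          ≤ |m.phi.d| * (‖D‖ * (4 * m.sg)) :=
            mul_le_mul_of_nonneg_left (h2.trans (mul_le_mul_of_nonneg_left h1 (norm_nonneg _))) hd0
        _ = 4 * (|m.phi.d| * m.sg) * |D i| := by rw [hDn]; ring
        _ ≤ 4 * (2 / 25) * |D i| := by gcongr
        _ = 8 / 25 * |D i| := by ring
    have q4 : |m.phi.gr C X0 0 i * D i| ≤ 2 * m.s1 + 4 / 25 * m.s1 + 8 / 25 * |D i| := by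
      have e2 : m.phi.gr C X0 0 i * D i =
          (m.phi.ev (a + pv rho x.1) (k + (x.2 : ℝ) * rho ^ 2) 0 -
          m.phi.ev (a + pv rho y.1) (k + (y.2 : ℝ) * rho ^ 2) 0) -
          m.phi.ny 0 * (nus rho (C, a, k) x - nus rho (C, a, k) y) -
          m.phi.d * inner ℝ D (a + pv rho x.1 + (a + pv rho y.1) - (2:ℝ) • X0) := by
        rw [e]; ring
      rw [e2]
      have f1 : |m.phi.ev (a + pv rho x.1) (k + (x.2 : ℝ) * rho ^ 2) 0| ≤ m.s1 := x4
      have f2 : |m.phi.ev (a + pv rho y.1) (k + (y.2 : ℝ) * rho ^ 2) 0| ≤ m.s1 := y4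
      rw [abs_le] at f1 f2 q2 q3 ⊢
      constructor <;> linarith [f1.1, f1.2, f2.1, f2.2, q2.1, q2.2, q3.1, q3.2]
    rw [q1] at q4
    have q5 : 19 / 50 * |D i| ≤ |m.phi.gr C X0 0 i| * |D i| :=
      mul_le_mul_of_nonneg_right hi (abs_nonneg _)
    linarith
  -- counting
  set co : (ℤ × ℤ) × ℤ → Fin 2 → ℤ := fun x => ![x.1.1, x.1.2] with hco
  set oi : Fin 2 := 1 - i with hoi
  set f : (ℤ × ℤ) × ℤ → ℤ × ℤ := fun x => (co x oi, ⌊nus rho (C, a, k) x / rho ^ 2⌋) with hf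
  have hco1 : ∀ x y : (ℤ × ℤ) × ℤ, ∀ j : Fin 2, (pv rho x.1 - pv rho y.1) j =
      ((co x j : ℝ) - co y j) * rho := by
    intro x y j
    rw [pv_sub]
    fin_cases j
    · rfl
    · rfl
  have hcoW : ∀ x ∈ S, ∀ y ∈ S, ∀ j : Fin 2, |((co x j : ℝ) - co y j)| ≤ W / rho := by
    intro x hx y hy j
    rw [le_div_iff₀ hrho]
    have e1 : |((co x j : ℝ) - co y j)| * rho = |((co x j : ℝ) - co y j) * rho| := by
      rw [abs_mul, abs_of_pos hrho]
    rw [e1]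
    fin_cases j
    · exact hp1 x hx y hy
    · exact hp2 x hx y hy
  have hoj : ∀ j : Fin 2, j ≠ i → j = oi := by
    intro j hj
    rw [hoi]
    fin_cases i <;> fin_cases j <;> simp_all
  have hfib : ∀ b ∈ S.image f, ((S.filter fun x => f x = b).card : ℝ) ≤
      min (36 * m.s1) W / rho + 1 := by
    intro b hb
    set F := S.filter fun x => f x = b with hF
    have hinj : (F.image fun x => co x i).card = F.card := by
      apply card_image_of_injOn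
      intro x hx y hy hxy
      rw [hF, mem_coe, mem_filter] at hx hy
      have h1 : f x = f y := hx.2.trans hy.2.symm
      rw [hf, Prod.mk.injEq] at h1
      obtain ⟨h2, h3⟩ := h1
      have hco' : ∀ j : Fin 2, co x j = co y j := by
        intro j
        by_cases hj : j = i
        · rw [hj]; exact hxy
        · rw [hoj j hj]; exact h2
      have e0 := hco' 0
      have e1 := hco' 1
      have e01 : x.1 = y.1 := Prod.ext e0 e1
      have h4 := Int.abs_sub_lt_one_of_floor_eq_floor h3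
      rw [← sub_div, abs_div, abs_of_pos hr2, div_lt_one hr2] at h4
      have h5 : nus rho (C, a, k) x - nus rho (C, a, k) y = ((x.2 : ℝ) - y.2) * rho ^ 2 := by
        unfold nus
        rw [e01]; ring
      rw [h5, abs_mul, abs_of_pos hr2] at h4
      have h6 : |(x.2 : ℝ) - y.2| < 1 := by
        by_contra hc
        push Not at hc
        nlinarith
      have h7 : |x.2 - y.2| < 1 := by exact_mod_cast h6
      have h8 := Int.abs_lt_one_iff.1 h7
      exact Prod.ext e01 (by omega)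
    rw [← hinj]
    refine Fl337.card_close (by positivity) ?_
    intro i1 hi1 i2 hi2
    rw [mem_image] at hi1 hi2
    obtain ⟨x, hx, rfl⟩ := hi1
    obtain ⟨y, hy, rfl⟩ := hi2
    rw [hF, mem_filter] at hx hy
    have hbd := hcoW x hx.1 y hy.1 i
    have h1 : f x = f y := hx.2.trans hy.2.symm
    rw [hf, Prod.mk.injEq] at h1
    obtain ⟨h2, h3⟩ := h1
    have h4 := (Int.abs_sub_lt_one_of_floor_eq_floor h3).le
    rw [← sub_div, abs_div, abs_of_pos hr2, div_le_one hr2] at h4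
    have h5 := key x hx.1 y hy.1 h4 (fun j hj => by
      rw [hco1, hoj j hj, h2, sub_self, zero_mul])
    rw [hco1, abs_mul, abs_of_pos hrho] at h5
    rw [le_div_iff₀ hrho]
    exact le_min h5 ((le_div_iff₀ hrho).1 hbd)
  have himg : ((S.image f).card : ℝ) ≤ (W / rho + 1) * (lam / rho ^ 2 + 2) := by
    have h1 : S.image f ⊆ (S.image fun x => co x oi) ×ˢ
        (S.image fun x => ⌊nus rho (C, a, k) x / rho ^ 2⌋) := by
      intro b hb
      rw [mem_image] at hb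
      obtain ⟨x, hx, rfl⟩ := hb
      rw [mem_product]
      exact ⟨mem_image_of_mem _ hx, mem_image_of_mem _ hx⟩
    have h2 := card_le_card h1
    rw [card_product] at h2
    have h3 : ((S.image fun x => co x oi).card : ℝ) ≤ W / rho + 1 := by
      refine Fl337.card_close (by positivity) ?_
      intro i1 hi1 i2 hi2
      rw [mem_image] at hi1 hi2
      obtain ⟨x, hx, rfl⟩ := hi1
      obtain ⟨y, hy, rfl⟩ := hi2
      exact hcoW x hx y hy oi
    have h4 : ((S.image fun x => ⌊nus rho (C, a, k) x / rho ^ 2⌋).card : ℝ) ≤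
        (lam / rho ^ 2 + 1) + 1 := by
      refine Fl337.card_close (by positivity) ?_
      intro i1 hi1 i2 hi2
      rw [mem_image] at hi1 hi2
      obtain ⟨x, hx, rfl⟩ := hi1
      obtain ⟨y, hy, rfl⟩ := hi2
      have h5 := hnu x hx y hy
      have f1 := Int.floor_le (nus rho (C, a, k) x / rho ^ 2)
      have f2 := Int.lt_floor_add_one (nus rho (C, a, k) x / rho ^ 2)
      have f3 := Int.floor_le (nus rho (C, a, k) y / rho ^ 2)
      have f4 := Int.lt_floor_add_one (nus rho (C, a, k) y / rho ^ 2)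
      have f5 : |nus rho (C, a, k) x / rho ^ 2 - nus rho (C, a, k) y / rho ^ 2| ≤
          lam / rho ^ 2 := by
        rw [← sub_div, abs_div, abs_of_pos hr2]
        exact div_le_div_of_nonneg_right h5 hr2.le
      rw [abs_le] at f5 ⊢
      constructor <;> linarith [f5.1, f5.2]
    calc ((S.image f).card : ℝ) ≤ ((S.image fun x => co x oi).card : ℝ) *
          ((S.image fun x => ⌊nus rho (C, a, k) x / rho ^ 2⌋).card : ℝ) := by exact_mod_cast h2
      _ ≤ (W / rho + 1) * ((lam / rho ^ 2 + 1) + 1) := by gcongr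
      _ = _ := by ring
  -- sum over the fibers
  have hsum : (S.card : ℝ) ≤ (S.image f).card * (min (36 * m.s1) W / rho + 1) := by
    have : S.card = ∑ c ∈ S.image f, (S.filter fun t => f t = c).card :=
      card_eq_sum_card_image f S
    rw [this]
    push_cast
    calc ∑ c ∈ S.image f, ((S.filter fun t => f t = c).card : ℝ) ≤
          ∑ c ∈ S.image f, (min (36 * m.s1) W / rho + 1) := sum_le_sum hfib
      _ = (S.image f).card * (min (36 * m.s1) W / rho + 1) := by rw [sum_const, nsmul_eq_mul]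
  refine hsum.trans ?_
  have h0 : 0 ≤ min (36 * m.s1) W / rho + 1 := by positivity
  exact mul_le_mul_of_nonneg_right himg h0

open Classical in
/-- **slopes of the children at one position.** -/
theorem slope_count {M : ℝ} {m : Mem} (h : Sm M m) {rho W : ℝ} (hrho : 0 < rho) (hW : 0 ≤ W)
    (C a : E2) (k : ℝ) (S : Finset (ℤ × ℤ))
    (hS : ∀ c ∈ S, (C + pv rho c, a, k) ∈ m.rays 0)
    (hp1 : ∀ x ∈ S, ∀ y ∈ S, |((x.1 : ℝ) - y.1) * rho| ≤ W)
    (hp2 : ∀ x ∈ S, ∀ y ∈ S, |((x.2 : ℝ) - y.2) * rho| ≤ W) :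
    (S.card : ℝ) ≤ (W / rho + 1) * (min (20 * m.s1) W / rho + 1) := by
  have hsg := h.ok.sg_pos
  have hs10 := h.ok.hs1
  have hle := h.ok.hsg
  rcases S.eq_empty_or_nonempty with rfl | ⟨c0, hc0⟩
  · simp only [card_empty, Nat.cast_zero]
    positivity
  obtain ⟨b1, b2, b3, b4, b5⟩ := h.ray (hS c0 hc0)
  obtain ⟨g1, -⟩ := h.gr_sq (hS c0 hc0)
  obtain ⟨i, hi⟩ := exists_comp g1
  set w : E2 := pv rho c0 with hw
  have key : ∀ x ∈ S, ∀ y ∈ S,
      (∀ j : Fin 2, j ≠ i → (pv rho x - pv rho y) j = 0) →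
      |(pv rho x - pv rho y) i| ≤ 20 * m.s1 := by
    intro x hx y hy ho
    obtain ⟨x1, x2, x3, x4, x5⟩ := h.ray (hS x hx)
    obtain ⟨y1, y2, y3, y4, y5⟩ := h.ray (hS y hy)
    set D : E2 := pv rho x - pv rho y with hD
    have ex := Cf.ld_dir m.phi (C + w) (C + pv rho x) a k 0
    have ey := Cf.ld_dir m.phi (C + w) (C + pv rho y) a k 0
    have hDn : ‖D‖ = |D i| := by
      have h1 := CDef480.normsq2 D
      have h2 : ‖D‖ ^ 2 = |D i| ^ 2 := by
        rw [h1, sq_abs]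
        fin_cases i
        · have := ho 1 (by decide)
          simp only [Fin.zero_eta, this]; ring
        · have := ho 0 (by decide)
          simp only [Fin.mk_one, this]; ring
      exact (pow_left_inj₀ (norm_nonneg _) (abs_nonneg _) two_ne_zero).1 h2
    have hgD : inner ℝ (m.phi.gr (C + w) a 0) D = m.phi.gr (C + w) a 0 i * D i := by
      rw [PiLp.inner_apply, Fin.sum_univ_two]
      simp only [RCLike.inner_apply, conj_trivial]
      fin_cases i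
      · have := ho 1 (by decide)
        simp only [Fin.zero_eta, this]; ring
      · have := ho 0 (by decide)
        simp only [Fin.mk_one, this]; ring
    set G : E2 := (C + pv rho x - (C + w)) + (C + pv rho y - (C + w)) with hG
    have e : m.phi.ld (C + pv rho x) a k 0 - m.phi.ld (C + pv rho y) a k 0 =
        -(m.phi.gr (C + w) a 0 i * D i) + m.phi.ny 0 * inner ℝ D G / 2 := by
      rw [ex, ey, ← hgD]
      have e1 : inner ℝ D G = ‖C + pv rho x - (C + w)‖ ^ 2 - ‖C + pv rho y - (C + w)‖ ^ 2 := by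
        have e2 : D = (C + pv rho x - (C + w)) - (C + pv rho y - (C + w)) := by rw [hD]; abel
        rw [e2, hG]
        generalize C + pv rho x - (C + w) = u
        generalize C + pv rho y - (C + w) = v
        rw [inner_sub_left, inner_add_right, inner_add_right, real_inner_self_eq_norm_sq,
          real_inner_self_eq_norm_sq, real_inner_comm u v]
        ring
      have e3 : inner ℝ (m.phi.gr (C + w) a 0) D =
          inner ℝ (m.phi.gr (C + w) a 0) (C + pv rho x - (C + w)) -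
          inner ℝ (m.phi.gr (C + w) a 0) (C + pv rho y - (C + w)) := by
        rw [← inner_sub_right]; congr 1; rw [hD]; abel
      rw [e1, e3]
      ring
    have hGn : ‖G‖ ≤ 4 * m.sg := by
      have e1 : G = ((C + pv rho x) - m.c) + ((C + pv rho y) - m.c) -
          (2:ℝ) • ((C + w) - m.c) := by rw [hG]; module
      rw [e1]
      refine (norm_sub_le _ _).trans ?_
      rw [norm_smul, Real.norm_of_nonneg (by norm_num : (0:ℝ) ≤ 2)]
      have h2 := norm_add_le ((C + pv rho x) - m.c) ((C + pv rho y) - m.c)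
      linarith
    have q2 : |m.phi.ny 0 * inner ℝ D G / 2| ≤ 8 / 25 * |D i| := by
      rw [abs_div, abs_mul, abs_two]
      have h1 := h.ny 0 (by norm_num)
      have h2 := abs_real_inner_le_norm D G
      calc |m.phi.ny 0| * |inner ℝ D G| / 2 ≤ |m.phi.ny 0| * (‖D‖ * (4 * m.sg)) / 2 := by
            have := h2.trans (mul_le_mul_of_nonneg_left hGn (norm_nonneg D))
            have := mul_le_mul_of_nonneg_left this (abs_nonneg (m.phi.ny 0))
            linarith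
        _ = 2 * (|m.phi.ny 0| * m.sg) * |D i| := by rw [hDn]; ring
        _ ≤ 2 * (4 / 25) * |D i| := by gcongr
        _ = 8 / 25 * |D i| := by ring
    have q4 : |m.phi.gr (C + w) a 0 i * D i| ≤ 2 * m.s1 + 8 / 25 * |D i| := by
      have e2 : m.phi.gr (C + w) a 0 i * D i = m.phi.ld (C + pv rho y) a k 0 -
          m.phi.ld (C + pv rho x) a k 0 + m.phi.ny 0 * inner ℝ D G / 2 := by linarith [e]
      rw [e2]
      rw [abs_le] at x5 y5 q2 ⊢
      constructor <;> linarith [x5.1, x5.2, y5.1, y5.2, q2.1, q2.2]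
    rw [abs_mul] at q4
    have q5 : 21 / 50 * |D i| ≤ |m.phi.gr (C + w) a 0 i| * |D i| :=
      mul_le_mul_of_nonneg_right hi (abs_nonneg _)
    linarith
  -- counting
  set co : ℤ × ℤ → Fin 2 → ℤ := fun x => ![x.1, x.2] with hco
  set oi : Fin 2 := 1 - i with hoi
  have hco1 : ∀ x y : ℤ × ℤ, ∀ j : Fin 2, (pv rho x - pv rho y) j =
      ((co x j : ℝ) - co y j) * rho := by
    intro x y j
    rw [pv_sub]
    fin_cases j
    · rfl
    · rfl
  have hcoW : ∀ x ∈ S, ∀ y ∈ S, ∀ j : Fin 2, |((co x j : ℝ) - co y j)| ≤ W / rho := by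
    intro x hx y hy j
    rw [le_div_iff₀ hrho]
    have e1 : |((co x j : ℝ) - co y j)| * rho = |((co x j : ℝ) - co y j) * rho| := by
      rw [abs_mul, abs_of_pos hrho]
    rw [e1]
    fin_cases j
    · exact hp1 x hx y hy
    · exact hp2 x hx y hy
  have hoj : ∀ j : Fin 2, j ≠ i → j = oi := by
    intro j hj
    rw [hoi]
    fin_cases i <;> fin_cases j <;> simp_all
  set f : ℤ × ℤ → ℤ := fun x => co x oi with hf
  have hfib : ∀ b ∈ S.image f, ((S.filter fun x => f x = b).card : ℝ) ≤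
      min (20 * m.s1) W / rho + 1 := by
    intro b hb
    set F := S.filter fun x => f x = b with hF
    have hinj : (F.image fun x => co x i).card = F.card := by
      apply card_image_of_injOn
      intro x hx y hy hxy
      rw [hF, mem_coe, mem_filter] at hx hy
      have h2 : f x = f y := hx.2.trans hy.2.symm
      have hco' : ∀ j : Fin 2, co x j = co y j := by
        intro j
        by_cases hj : j = i
        · rw [hj]; exact hxy
        · rw [hoj j hj]; exact h2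
      exact Prod.ext (hco' 0) (hco' 1)
    rw [← hinj]
    refine Fl337.card_close (by positivity) ?_
    intro i1 hi1 i2 hi2
    rw [mem_image] at hi1 hi2
    obtain ⟨x, hx, rfl⟩ := hi1
    obtain ⟨y, hy, rfl⟩ := hi2
    rw [hF, mem_filter] at hx hy
    have hbd := hcoW x hx.1 y hy.1 i
    have h2 : f x = f y := hx.2.trans hy.2.symm
    have h5 := key x hx.1 y hy.1 (fun j hj => by
      rw [hco1, hoj j hj]
      have : co x oi = co y oi := h2
      rw [this, sub_self, zero_mul])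
    rw [hco1, abs_mul, abs_of_pos hrho] at h5
    rw [le_div_iff₀ hrho]
    exact le_min h5 ((le_div_iff₀ hrho).1 hbd)
  have himg : ((S.image f).card : ℝ) ≤ W / rho + 1 := by
    refine Fl337.card_close (by positivity) ?_
    intro i1 hi1 i2 hi2
    rw [mem_image] at hi1 hi2
    obtain ⟨x, hx, rfl⟩ := hi1
    obtain ⟨y, hy, rfl⟩ := hi2
    exact hcoW x hx y hy oi
  have hsum : (S.card : ℝ) ≤ (S.image f).card * (min (20 * m.s1) W / rho + 1) := by
    have : S.card = ∑ c ∈ S.image f, (S.filter fun t => f t = c).card :=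
      card_eq_sum_card_image f S
    rw [this]
    push_cast
    calc ∑ c ∈ S.image f, ((S.filter fun t => f t = c).card : ℝ) ≤
          ∑ c ∈ S.image f, (min (20 * m.s1) W / rho + 1) := sum_le_sum hfib
      _ = (S.image f).card * (min (20 * m.s1) W / rho + 1) := by rw [sum_const, nsmul_eq_mul]
  refine hsum.trans ?_
  have h0 : 0 ≤ min (20 * m.s1) W / rho + 1 := by positivity
  exact mul_le_mul_of_nonneg_right himg h0

end Crest.Agent.R116.Rs79
end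

-- ▼ part R116/Rs2_79
section

/-!
# R116, K2 (ENEMY with room, five-coordinate fill), part 2 (helper79): parents

`child_big5` : if a child `(C + v, a + p, k + t)` (all shifts `≤ r/8` per coordinate) lies in `m`
then `(C, a, k + (t + ⟨C, p⟩))` lies in 618's fattened member `bigm r m`.
-/

set_option autoImplicit false
set_option linter.unusedVariables false

open Finset

namespace Crest.Agent.R116.Rs79

open Crest.Agent.R116.LZg725
open Crest.Agent.R138.Defs (E2)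
open Crest.Agent.R116.CDef480 (E3 lat pt vel)
open Crest.Agent.R116.LKMDef299 (LRay Cpt)
open Crest.Agent.R116.Ks79 (GRay gC gX gH Bd)
open Crest.Agent.R116.Ene618

/-- **transfer of a child (with slope shift) to the fattened member.** -/
theorem child_big5 {M r : ℝ} {m : Mem} (h : Sm M m) (hr : 0 < r) (hrsg : r ≤ m.sg)
    {C a p v : E2} {k t : ℝ} (h0 : |p 0| ≤ r / 8) (h1 : |p 1| ≤ r / 8)
    (v0 : |v 0| ≤ r / 8) (v1 : |v 1| ≤ r / 8)
    (hm : (C + v, a + p, k + t) ∈ m.rays 0) :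
    (C, a, k + (t + inner ℝ C p)) ∈ (bigm r m).rays 0 := by
  have hsg := h.ok.sg_pos
  have hs1 := h.ok.hs1
  have hle := h.ok.hsg
  have hp : ‖p‖ ≤ r / 4 := by
    have := norm_pv_le h0 h1
    linarith
  have hv : ‖v‖ ≤ r / 4 := by
    have := norm_pv_le v0 v1
    linarith
  have hT : (bigm r m).T 0 = 4 * m.sg ^ 2 := by
    rw [T_zero]; show (2 * m.sg) ^ 2 = _; ring
  have hm' := hm
  rw [Mem.mem_rays, T_zero] at hm
  rw [Mem.mem_rays, hT]
  obtain ⟨hc, hk⟩ := hm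
  rw [h.R1, h.s0] at hk
  obtain ⟨b1, b2, b3, b4, b5⟩ := h.ray hm'
  obtain ⟨-, g2⟩ := h.gr_sq hm'
  have hcC : ‖C - m.c‖ ≤ m.sg + r / 4 := by
    have e : C - m.c = (C + v - m.c) - v := by abel
    rw [e]
    exact (norm_sub_le _ _).trans (add_le_add hc hv)
  refine ⟨?_, fun s hs => ?_⟩
  · show ‖C - m.c‖ ≤ 2 * m.sg
    linarith
  have hs' : |s - m.s0| ≤ m.R := hs
  rw [h.s0, h.R1] at hs'
  have hs1' : |s| ≤ 1 := by rwa [sub_zero] at hs'
  obtain ⟨⟨-, k1, k2⟩, k3⟩ := hk s hs'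
  have hsv : ‖s • v‖ ≤ r / 4 := by
    rw [norm_smul, Real.norm_eq_abs]
    calc |s| * ‖v‖ ≤ 1 * (r / 4) := mul_le_mul hs1' hv (norm_nonneg _) zero_le_one
      _ = r / 4 := one_mul _
  refine ⟨⟨hs, ?_, ?_⟩, ?_⟩
  · show ‖rx C a s - lat m.X0 + (s - m.s0) • m.c‖ ≤ 2 * m.sg * m.R
    rw [h.s0, h.R1]
    have e : rx C a s - lat m.X0 + (s - 0) • m.c =
        (rx (C + v) (a + p) s - lat m.X0 + (s - 0) • m.c) + (s • v - p) := by
      unfold rx; module
    rw [e]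
    have e1 := norm_add_le (rx (C + v) (a + p) s - lat m.X0 + (s - 0) • m.c) (s • v - p)
    have e2 := norm_sub_le (s • v) p
    linarith
  · show |nrm m.c (rx C a s) (ry C (k + (t + inner ℝ C p)) s) s -
      nrm m.c (lat m.X0) (m.X0 2) m.s0| ≤ 4 * m.sg ^ 2 * m.R
    rw [h.s0, h.R1]
    have e : nrm m.c (rx C a s) (ry C (k + (t + inner ℝ C p)) s) s =
        nrm m.c (rx (C + v) (a + p) s) (ry (C + v) (k + t) s) s + inner ℝ (C - m.c) p -
        s * (inner ℝ (C - m.c) v + ‖v‖ ^ 2 / 2) := by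
      have e1 : ‖C + v - m.c‖ ^ 2 = ‖C - m.c‖ ^ 2 + 2 * inner ℝ (C - m.c) v + ‖v‖ ^ 2 := by
        have : C + v - m.c = (C - m.c) + v := by abel
        rw [this, norm_add_sq_real]
      rw [nrm_ray', nrm_ray', e1, inner_add_right, inner_sub_left, inner_sub_left]; ring
    rw [e]
    have e1 : |inner ℝ (C - m.c) p| ≤ (m.sg + r / 4) * (r / 4) :=
      (abs_real_inner_le_norm _ _).trans (mul_le_mul hcC hp (norm_nonneg _) (by positivity))
    have e2 : |s * (inner ℝ (C - m.c) v + ‖v‖ ^ 2 / 2)| ≤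
        (m.sg + r / 4) * (r / 4) + (r / 4) ^ 2 / 2 := by
      rw [abs_mul]
      have f1 : |inner ℝ (C - m.c) v| ≤ (m.sg + r / 4) * (r / 4) :=
        (abs_real_inner_le_norm _ _).trans (mul_le_mul hcC hv (norm_nonneg _) (by positivity))
      have f2 : ‖v‖ ^ 2 ≤ (r / 4) ^ 2 := pow_le_pow_left₀ (norm_nonneg _) hv 2
      have f3 : |inner ℝ (C - m.c) v + ‖v‖ ^ 2 / 2| ≤
          (m.sg + r / 4) * (r / 4) + (r / 4) ^ 2 / 2 := by
        have f4 := abs_add_le (inner ℝ (C - m.c) v) (‖v‖ ^ 2 / 2)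
        have f5 : |‖v‖ ^ 2 / 2| = ‖v‖ ^ 2 / 2 := abs_of_nonneg (by positivity)
        linarith
      calc |s| * |inner ℝ (C - m.c) v + ‖v‖ ^ 2 / 2| ≤
            1 * |inner ℝ (C - m.c) v + ‖v‖ ^ 2 / 2| :=
            mul_le_mul_of_nonneg_right hs1' (abs_nonneg _)
        _ ≤ _ := by rw [one_mul]; exact f3
    have k2' : |nrm m.c (rx (C + v) (a + p) s) (ry (C + v) (k + t) s) s -
      nrm m.c (lat m.X0) (m.X0 2) 0| ≤ m.sg ^ 2 * 1 := k2
    have e5 : (m.sg + r / 4) * (r / 4) ≤ 5 / 16 * m.sg ^ 2 := by nlinarith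
    have e6 : (r / 4) ^ 2 / 2 ≤ 1 / 32 * m.sg ^ 2 := by nlinarith
    rw [abs_le] at k2' e1 e2 ⊢
    have e7 : 0 ≤ m.sg ^ 2 := sq_nonneg _
    constructor <;> linarith [k2'.1, k2'.2, e1.1, e1.2, e2.1, e2.2]
  · show |m.phi.ev (rx C a s) (ry C (k + (t + inner ℝ C p)) s) s| ≤ 2 * max m.s1 r * m.R
    rw [h.R1]
    -- the function at the new point, from the child, in the frame of the child
    have e := Cf.ev_expand m.phi (C + v) (rx (C + v) (a + p) s) (ry (C + v) (k + t) s) s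
      (rx C a s) (ry C (k + (t + inner ℝ C p)) s) s
    have e1 : rx C a s - rx (C + v) (a + p) s = s • v - p := by unfold rx; module
    have e2 : nrm (C + v) (rx C a s) (ry C (k + (t + inner ℝ C p)) s) s -
        nrm (C + v) (rx (C + v) (a + p) s) (ry (C + v) (k + t) s) s =
        -(inner ℝ v p) + s * (‖v‖ ^ 2 / 2) := by
      have e3 : C - (C + v) = -v := by abel
      rw [nrm_ray', nrm_ray, e3, norm_neg, inner_add_left, inner_add_left, inner_add_right,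
        inner_add_right]
      ring
    rw [e1, e2] at e
    simp only [sub_self, mul_zero, add_zero, zero_smul, zero_mul, sub_zero] at e
    have hmv := Cf.gr_move m.phi (C + v) (a + p) (rx (C + v) (a + p) s) 0 s
    have e3 : rx (C + v) (a + p) s - (a + p) + (s - 0) • (C + v) = 0 := by unfold rx; module
    rw [e3, smul_zero, add_zero] at hmv
    rw [hmv] at e
    have g3 : ‖m.phi.gr (C + v) (a + p) 0‖ ≤ 13 / 10 := by
      by_contra hcon
      push Not at hcon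
      nlinarith
    have hD : ‖s • v - p‖ ≤ r / 2 := by
      have := norm_sub_le (s • v) p
      linarith
    have q1 : |inner ℝ (m.phi.gr (C + v) (a + p) 0) (s • v - p)| ≤ 13 / 10 * (r / 2) :=
      (abs_real_inner_le_norm _ _).trans (mul_le_mul g3 hD (norm_nonneg _) (by norm_num))
    have hd := h.d
    have q2 : |m.phi.d * ‖s • v - p‖ ^ 2| ≤ 1 / 50 * r := by
      rw [abs_mul, abs_of_nonneg (sq_nonneg ‖s • v - p‖)]
      have h2 : ‖s • v - p‖ ^ 2 ≤ (r / 2) * (m.sg / 2) := by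
        rw [sq]
        exact mul_le_mul hD (by linarith) (norm_nonneg _) (by positivity)
      calc |m.phi.d| * ‖s • v - p‖ ^ 2 ≤ |m.phi.d| * ((r / 2) * (m.sg / 2)) :=
            mul_le_mul_of_nonneg_left h2 (abs_nonneg _)
        _ = (|m.phi.d| * m.sg) * (r / 4) := by ring
        _ ≤ (2 / 25) * (r / 4) := by gcongr
        _ = 1 / 50 * r := by ring
    have q5 : |m.phi.ny s * (-(inner ℝ v p) + s * (‖v‖ ^ 2 / 2))| ≤ 1 / 50 * r := by
      rw [abs_mul]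
      have f1 : |inner ℝ v p| ≤ (r / 4) * (r / 4) :=
        (abs_real_inner_le_norm _ _).trans (mul_le_mul hv hp (norm_nonneg _) (by positivity))
      have f2 : |s * (‖v‖ ^ 2 / 2)| ≤ (r / 4) ^ 2 / 2 := by
        rw [abs_mul, abs_of_nonneg (a := ‖v‖ ^ 2 / 2) (by positivity)]
        have f3 : ‖v‖ ^ 2 ≤ (r / 4) ^ 2 := pow_le_pow_left₀ (norm_nonneg _) hv 2
        calc |s| * (‖v‖ ^ 2 / 2) ≤ 1 * (‖v‖ ^ 2 / 2) :=
              mul_le_mul_of_nonneg_right hs1' (by positivity)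
          _ ≤ _ := by rw [one_mul]; linarith
      have f3 : |-(inner ℝ v p) + s * (‖v‖ ^ 2 / 2)| ≤ 3 / 32 * (r * m.sg) := by
        have f4 := abs_add_le (-(inner ℝ v p)) (s * (‖v‖ ^ 2 / 2))
        rw [abs_neg] at f4
        have f5 : r * r ≤ r * m.sg := mul_le_mul_of_nonneg_left hrsg hr.le
        nlinarith
      have f6 := h.ny s hs1'
      calc |m.phi.ny s| * |-(inner ℝ v p) + s * (‖v‖ ^ 2 / 2)| ≤
            |m.phi.ny s| * (3 / 32 * (r * m.sg)) := mul_le_mul_of_nonneg_left f3 (abs_nonneg _)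
        _ = (|m.phi.ny s| * m.sg) * (3 / 32 * r) := by ring
        _ ≤ (4 / 25) * (3 / 32 * r) := by gcongr
        _ ≤ 1 / 50 * r := by linarith
    have q3 := le_max_left m.s1 r
    have q4 := le_max_right m.s1 r
    have k3' : |m.phi.ev (rx (C + v) (a + p) s) (ry (C + v) (k + t) s) s| ≤ m.s1 := by
      have := k3; rwa [mul_one] at this
    rw [e]
    rw [abs_le] at k3' q1 q2 q5 ⊢
    constructor <;> linarith [k3'.1, k3'.2, q1.1, q1.2, q2.1, q2.2, q5.1, q5.2]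

/-- **parents and null shifts for `r ≤ sg`.** -/
theorem parents_big5 {M r : ℝ} (hM : 1 ≤ M) {m : Mem} (h : Sm M m) (hr : 0 < r) (hr1 : r ≤ 1)
    (hrsg : r ≤ m.sg) (hsg : m.sg ≤ 1 / 2) :
    ∃ (F : ℤ → Mem) (l : ℝ), Fg126.Fill M r (bigm r m) F l ∧
      (∀ (C v a p : E2) (k t : ℝ), ‖C‖ ≤ 3 / 2 → |v 0| ≤ r / 8 → |v 1| ≤ r / 8 →
        |p 0| ≤ r / 8 → |p 1| ≤ r / 8 → |t| ≤ r / 8 →
        (C + v, a + p, k + t) ∈ m.rays 0 → ∃ j : ℤ, |j| ≤ 3 ∧ (C, a, k) ∈ (F j).rays r) ∧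
      (∀ (C v v' a p p' : E2) (k t t' : ℝ), ‖C‖ ≤ 3 / 2 → |v 0| ≤ r / 8 → |v 1| ≤ r / 8 →
        |v' 0| ≤ r / 8 → |v' 1| ≤ r / 8 → |p 0| ≤ r / 8 → |p 1| ≤ r / 8 →
        |t| ≤ r / 8 → |p' 0| ≤ r / 8 → |p' 1| ≤ r / 8 → |t'| ≤ r / 8 →
        (C + v, a + p, k + t) ∈ m.rays 0 → (C + v', a + p', k + t') ∈ m.rays 0 →
        |(t + inner ℝ C p) - (t' + inner ℝ C p')| ≤ l) := by
  have hok := bigm_ok hM h hr hrsg
  have hs1 : r ≤ (bigm r m).s1 := by
    show r ≤ 2 * max m.s1 r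
    have := le_max_right m.s1 r
    linarith
  have hsg' : (bigm r m).sg ≤ 1 := by
    show 2 * m.sg ≤ 1
    linarith
  obtain ⟨F, l, hF⟩ := Fg126.fill_geo hM hr hr1 hok (show (bigm r m).R = 1 from h.R1)
    (show (bigm r m).s0 = 0 from h.s0) hs1 hsg'
  have hnu : ∀ (C p : E2) (t : ℝ), ‖C‖ ≤ 3 / 2 → |p 0| ≤ r / 8 → |p 1| ≤ r / 8 → |t| ≤ r / 8 →
      |t + inner ℝ C p| ≤ 2 * r := by
    intro C p t hC h0 h1 ht
    have hp := norm_pv_le h0 h1
    have q1 : |inner ℝ C p| ≤ 3 / 2 * (2 * (r / 8)) :=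
      (abs_real_inner_le_norm _ _).trans (mul_le_mul hC hp (norm_nonneg _) (by norm_num))
    have := abs_add_le t (inner ℝ C p)
    linarith
  refine ⟨F, l, hF, ?_, ?_⟩
  · intro C v a p k t hC v0 v1 h0 h1 ht hm
    exact hF.ray C a k _ (child_big5 h hr hrsg h0 h1 v0 v1 hm) (hnu C p t hC h0 h1 ht)
  · intro C v v' a p p' k t t' hC v0 v1 v0' v1' h0 h1 ht h0' h1' ht' hm hm'
    exact hF.diff C a k _ _ (child_big5 h hr hrsg h0 h1 v0 v1 hm)
      (child_big5 h hr hrsg h0' h1' v0' v1' hm')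
      (hnu C p t hC h0 h1 ht) (hnu C p' t' hC h0' h1' ht')

/-- two parents of children of one thin member. -/
theorem close_pair5 {N : ℕ} (hN : 1 ≤ N) {l l' : GRay} (hl : Bd N l) {m : Mem}
    (hR : m.R = 1) (hs0 : m.s0 = 0) (hsg : 0 < m.sg) (hsg1 : m.sg ≤ 1 / N)
    {v v' p p' : E2} {t t' : ℝ}
    (hv0 : |v 0| ≤ 1 / (8 * N)) (hv1 : |v 1| ≤ 1 / (8 * N))
    (hv0' : |v' 0| ≤ 1 / (8 * N)) (hv1' : |v' 1| ≤ 1 / (8 * N))
    (hp0 : |p 0| ≤ 1 / (8 * N)) (hp1 : |p 1| ≤ 1 / (8 * N))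
    (ht : |t| ≤ 1 / (8 * N)) (hp0' : |p' 0| ≤ 1 / (8 * N)) (hp1' : |p' 1| ≤ 1 / (8 * N))
    (ht' : |t'| ≤ 1 / (8 * N))
    (h : (-(gC N l) + v, gX N l + p, gH N l + t) ∈ m.rays 0)
    (h' : (-(gC N l') + v', gX N l' + p', gH N l' + t') ∈ m.rays 0) :
    ((l.1.1.1 - 2 ≤ l'.1.1.1 ∧ l'.1.1.1 ≤ l.1.1.1 + 2) ∧
      (l.1.1.2 - 2 ≤ l'.1.1.2 ∧ l'.1.1.2 ≤ l.1.1.2 + 2)) ∧
    ((l.1.2.1 - 2 ≤ l'.1.2.1 ∧ l'.1.2.1 ≤ l.1.2.1 + 2) ∧
      (l.1.2.2 - 2 ≤ l'.1.2.2 ∧ l'.1.2.2 ≤ l.1.2.2 + 2)) ∧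
    (l.2 - 8 ≤ l'.2 ∧ l'.2 ≤ l.2 + 8) := by
  have hN0 : (0 : ℝ) < N := by exact_mod_cast hN
  have hN1 : (1 : ℝ) ≤ N := by exact_mod_cast hN
  set u : ℝ := 1 / N with hu
  have hu0 : 0 < u := by positivity
  have hu1 : u ≤ 1 := by rw [hu, div_le_one hN0]; exact hN1
  have h8 : (1 : ℝ) / (8 * N) = u / 8 := by rw [hu]; field_simp
  rw [h8] at hp0 hp1 ht hp0' hp1' ht' hv0 hv1 hv0' hv1'
  obtain ⟨a1, a2, a3⟩ := RmB79.at_zero hR hs0 h
  obtain ⟨b1, b2, b3⟩ := RmB79.at_zero hR hs0 h'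
  simp only [] at a1 a2 a3 b1 b2 b3
  have hvn : ‖v‖ ≤ u / 4 := by
    have := norm_pv_le hv0 hv1
    linarith
  -- slopes
  have hC : ‖(gC N l' - v') - (gC N l - v)‖ ≤ 2 * u := by
    have e : (gC N l' - v') - (gC N l - v) = (-(gC N l) + v - m.c) - (-(gC N l') + v' - m.c) := by
      abel
    rw [e]
    exact (norm_sub_le _ _).trans (by linarith)
  have hX : ‖(gX N l' + p') - (gX N l + p)‖ ≤ 2 * u := by
    have e : (gX N l' + p') - (gX N l + p) =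
        ((gX N l' + p') - lat m.X0) - ((gX N l + p) - lat m.X0) := by abel
    rw [e]
    exact (norm_sub_le _ _).trans (by linarith)
  have hc : ‖m.c‖ ≤ 11 / 4 := by
    have e : m.c = -(gC N l) + (v - (-(gC N l) + v - m.c)) := by abel
    rw [e]
    have e1 := norm_add_le (-(gC N l)) (v - (-(gC N l) + v - m.c))
    have e2 := norm_sub_le v (-(gC N l) + v - m.c)
    rw [norm_neg] at e1
    have := norm_gC' hN hl
    linarith
  have hinn : |inner ℝ m.c ((gX N l' + p') - (gX N l + p))| ≤ 11 / 2 * u := by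
    refine (abs_real_inner_le_norm _ _).trans ?_
    calc ‖m.c‖ * ‖(gX N l' + p') - (gX N l + p)‖ ≤ 11 / 4 * (2 * u) :=
          mul_le_mul hc hX (norm_nonneg _) (by norm_num)
      _ = 11 / 2 * u := by ring
  have hsq : m.sg ^ 2 ≤ u := by nlinarith
  have hH : |gH N l' - gH N l| ≤ 2 * u + 11 / 2 * u + u / 4 := by
    have e : gH N l' - gH N l =
        ((gH N l' + t' + inner ℝ m.c (gX N l' + p')) - (m.X0 2 + inner ℝ m.c (lat m.X0)))
        - ((gH N l + t + inner ℝ m.c (gX N l + p)) - (m.X0 2 + inner ℝ m.c (lat m.X0)))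
        - inner ℝ m.c ((gX N l' + p') - (gX N l + p)) + (t - t') := by
      rw [inner_sub_right]; ring
    rw [e]
    rw [abs_le] at a3 b3 hinn ht ht' ⊢
    constructor <;> linarith [a3.1, a3.2, b3.1, b3.2, hinn.1, hinn.2, ht.1, ht.2, ht'.1, ht'.2]
  -- coordinates
  have hC0 : |((gC N l' - v') - (gC N l - v)) 0| ≤ 2 * u := (abs_coord_le _ 0).trans hC
  have hC1 : |((gC N l' - v') - (gC N l - v)) 1| ≤ 2 * u := (abs_coord_le _ 1).trans hC
  have hX0 : |((gX N l' + p') - (gX N l + p)) 0| ≤ 2 * u := (abs_coord_le _ 0).trans hX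
  have hX1 : |((gX N l' + p') - (gX N l + p)) 1| ≤ 2 * u := (abs_coord_le _ 1).trans hX
  have k3 : ∀ K : ℕ, ((K : ℝ) + 1) / N = (K + 1) * u := fun K => by rw [hu]; ring
  have c0 : |(l'.1.1.1 : ℝ) / N - (l.1.1.1 : ℝ) / N| < ((2 : ℕ) + 1) / N := by
    rw [k3]
    have : ((gC N l' - v') - (gC N l - v)) 0 =
        ((l'.1.1.1 : ℝ) / N - v' 0) - ((l.1.1.1 : ℝ) / N - v 0) := rfl
    rw [this] at hC0
    push_cast
    rw [abs_le] at hC0 hv0 hv0'
    rw [abs_lt]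
    constructor <;> linarith [hC0.1, hC0.2, hv0.1, hv0.2, hv0'.1, hv0'.2]
  have c1 : |(l'.1.1.2 : ℝ) / N - (l.1.1.2 : ℝ) / N| < ((2 : ℕ) + 1) / N := by
    rw [k3]
    have : ((gC N l' - v') - (gC N l - v)) 1 =
        ((l'.1.1.2 : ℝ) / N - v' 1) - ((l.1.1.2 : ℝ) / N - v 1) := rfl
    rw [this] at hC1
    push_cast
    rw [abs_le] at hC1 hv1 hv1'
    rw [abs_lt]
    constructor <;> linarith [hC1.1, hC1.2, hv1.1, hv1.2, hv1'.1, hv1'.2]
  have d0 : |(l'.1.2.1 : ℝ) / N - (l.1.2.1 : ℝ) / N| < ((2 : ℕ) + 1) / N := by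
    rw [k3]
    have : ((gX N l' + p') - (gX N l + p)) 0 =
        ((l'.1.2.1 : ℝ) / N + p' 0) - ((l.1.2.1 : ℝ) / N + p 0) := rfl
    rw [this] at hX0
    push_cast
    rw [abs_le] at hX0 hp0 hp0'
    rw [abs_lt]
    constructor <;> linarith [hX0.1, hX0.2, hp0.1, hp0.2, hp0'.1, hp0'.2]
  have d1 : |(l'.1.2.2 : ℝ) / N - (l.1.2.2 : ℝ) / N| < ((2 : ℕ) + 1) / N := by
    rw [k3]
    have : ((gX N l' + p') - (gX N l + p)) 1 =
        ((l'.1.2.2 : ℝ) / N + p' 1) - ((l.1.2.2 : ℝ) / N + p 1) := rfl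
    rw [this] at hX1
    push_cast
    rw [abs_le] at hX1 hp1 hp1'
    rw [abs_lt]
    constructor <;> linarith [hX1.1, hX1.2, hp1.1, hp1.2, hp1'.1, hp1'.2]
  have e0 : |(l'.2 : ℝ) / N - (l.2 : ℝ) / N| < ((8 : ℕ) + 1) / N := by
    rw [k3]
    have : gH N l' - gH N l = (l'.2 : ℝ) / N - (l.2 : ℝ) / N := rfl
    rw [← this]; push_cast; linarith
  have c0' := RmB79.int_close hN c0
  have c1' := RmB79.int_close hN c1
  have d0' := RmB79.int_close hN d0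
  have d1' := RmB79.int_close hN d1
  have e0' := RmB79.int_close hN e0
  push_cast at c0' c1' d0' d1' e0'
  exact ⟨⟨c0', c1'⟩, ⟨d0', d1'⟩, e0'⟩

open Classical in
/-- a member of aperture `≤ 1/N` contains (five-coordinate) children of few grid rays. -/
theorem parents_small5 {N : ℕ} (hN : 1 ≤ N) {s : Finset GRay} (hs : ∀ l ∈ s, Bd N l) {m : Mem}
    (hR : m.R = 1) (hs0 : m.s0 = 0) (hsg : 0 < m.sg) (hsg1 : m.sg ≤ 1 / N) :
    ((s.filter fun l => ∃ (v p : E2) (t : ℝ), |v 0| ≤ 1 / (8 * N) ∧ |v 1| ≤ 1 / (8 * N) ∧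
      |p 0| ≤ 1 / (8 * N) ∧ |p 1| ≤ 1 / (8 * N) ∧
      |t| ≤ 1 / (8 * N) ∧ (-(gC N l) + v, gX N l + p, gH N l + t) ∈ m.rays 0).card : ℝ) ≤
      100000 := by
  set S := s.filter fun l => ∃ (v p : E2) (t : ℝ), |v 0| ≤ 1 / (8 * N) ∧ |v 1| ≤ 1 / (8 * N) ∧
      |p 0| ≤ 1 / (8 * N) ∧ |p 1| ≤ 1 / (8 * N) ∧
      |t| ≤ 1 / (8 * N) ∧ (-(gC N l) + v, gX N l + p, gH N l + t) ∈ m.rays 0 with hS
  rcases S.eq_empty_or_nonempty with h0 | ⟨l, hl⟩
  · rw [h0]; norm_num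
  · rw [hS, mem_filter] at hl
    obtain ⟨hls, v, p, t, hv0, hv1, hp0, hp1, ht, h⟩ := hl
    have hsub : S ⊆ ((Icc (l.1.1.1 - 2) (l.1.1.1 + 2) ×ˢ Icc (l.1.1.2 - 2) (l.1.1.2 + 2)) ×ˢ
        (Icc (l.1.2.1 - 2) (l.1.2.1 + 2) ×ˢ Icc (l.1.2.2 - 2) (l.1.2.2 + 2))) ×ˢ
        Icc (l.2 - 8) (l.2 + 8) := by
      intro l' hl'
      rw [hS, mem_filter] at hl'
      obtain ⟨-, v', p', t', hv0', hv1', hp0', hp1', ht', h'⟩ := hl'
      obtain ⟨⟨c0, c1⟩, ⟨d0, d1⟩, e0⟩ := close_pair5 hN (hs l hls) hR hs0 hsg hsg1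
        hv0 hv1 hv0' hv1' hp0 hp1 ht hp0' hp1' ht' h h'
      simp only [mem_product, mem_Icc]
      exact ⟨⟨⟨c0, c1⟩, ⟨d0, d1⟩⟩, e0⟩
    have hcard := card_le_card hsub
    have hc : ∀ a : ℤ, (Icc (a - 2) (a + 2)).card = 5 := fun a => by
      rw [Int.card_Icc]
      have : a + 2 + 1 - (a - 2) = 5 := by ring
      rw [this]; rfl
    have hc8 : (Icc (l.2 - 8) (l.2 + 8)).card = 17 := by
      rw [Int.card_Icc]
      have : l.2 + 8 + 1 - (l.2 - 8) = 17 := by ring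
      rw [this]; rfl
    rw [card_product, card_product, card_product, card_product, hc, hc, hc, hc, hc8] at hcard
    have : (S.card : ℝ) ≤ 10625 := by
      have h2 : S.card ≤ 10625 := by simpa using hcard
      exact_mod_cast h2
    linarith

end Crest.Agent.R116.Rs79
end

-- ▼ part R116/Rs3_79
section

/-!
# R116, K2 (ENEMY with room, five-coordinate fill), part 3 (helper79): `count5 : Count5 KC5`
-/

set_option autoImplicit false
set_option linter.unusedVariables false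

open Finset

namespace Crest.Agent.R116.Rs79

open Crest.Agent.R116.LZg725
open Crest.Agent.R138.Defs (E2)
open Crest.Agent.R116.CDef480 (E3 lat pt vel)
open Crest.Agent.R116.Ks79
open Crest.Agent.R116.Ene618

/-- sum over the fibers. -/
theorem card_le_fib {α β : Type*} [DecidableEq β] (S : Finset α) (f : α → β) {B : ℝ}
    (h : ∀ b ∈ S.image f, ((S.filter fun x => f x = b).card : ℝ) ≤ B) :
    (S.card : ℝ) ≤ (S.image f).card * B := by
  have : S.card = ∑ c ∈ S.image f, (S.filter fun t => f t = c).card :=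
    card_eq_sum_card_image f S
  rw [this]
  push_cast
  calc ∑ c ∈ S.image f, ((S.filter fun t => f t = c).card : ℝ) ≤ ∑ c ∈ S.image f, B :=
        sum_le_sum h
    _ = (S.image f).card * B := by rw [sum_const, nsmul_eq_mul]

section

variable {N Q : ℕ}

theorem rho_le (hN : 1 ≤ N) (hQ : 1 ≤ Q) : rho0 N Q ≤ 1 / N := by
  have hN0 : (0 : ℝ) < N := by exact_mod_cast hN
  have hQ1 : (1 : ℝ) ≤ Q := by exact_mod_cast hQ
  have hrho := rho0_pos hN hQ
  have : rho0 N Q ≤ Q * rho0 N Q := le_mul_of_one_le_left hrho.le hQ1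
  rw [rho0_Q hN hQ] at this
  have h2 : 1 / (N : ℝ) / 8 ≤ 1 / N := by
    have : (0:ℝ) ≤ 1 / N := by positivity
    linarith
  linarith

theorem min_bound (hN : 1 ≤ N) (hQ : 1 ≤ Q) {s1 K : ℝ} (hK : 1 ≤ K) (hs1 : rho0 N Q ≤ s1) :
    min (K * s1) (1 / (N : ℝ) / 8) / rho0 N Q + 1 ≤ (K + 1) * (min s1 (1 / N) / rho0 N Q) := by
  have hN0 : (0 : ℝ) < N := by exact_mod_cast hN
  have hrho := rho0_pos hN hQ
  have hmin : rho0 N Q ≤ min s1 (1 / N) := le_min hs1 (rho_le hN hQ)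
  have h0 : (0:ℝ) ≤ 1 / N := by positivity
  have g1 : min (K * s1) (1 / (N : ℝ) / 8) ≤ K * min s1 (1 / N) := by
    rw [mul_min_of_nonneg _ _ (by linarith : (0:ℝ) ≤ K)]
    refine min_le_min le_rfl ?_
    nlinarith
  have g2 : 1 ≤ min s1 (1 / (N : ℝ)) / rho0 N Q := by rw [le_div_iff₀ hrho, one_mul]; exact hmin
  have g3 : min (K * s1) (1 / (N : ℝ) / 8) / rho0 N Q ≤ K * (min s1 (1 / N) / rho0 N Q) := by
    rw [← mul_div_assoc]
    exact div_le_div_of_nonneg_right g1 hrho.le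
  linarith

theorem W_bound (hN : 1 ≤ N) (hQ : 1 ≤ Q) : 1 / (N : ℝ) / 8 / rho0 N Q + 1 ≤ 2 * Q := by
  have hQ1 : (1 : ℝ) ≤ Q := by exact_mod_cast hQ
  rw [← rho0_Q hN hQ, mul_div_cancel_right₀ _ (rho0_pos hN hQ).ne']; linarith

/-- positions per parent, `1/N ≤ sg`. -/
theorem pos_A (hN : 1 ≤ N) (hQ : 1 ≤ Q) {M : ℝ} {m : Mem} (h : Sm M m)
    (hs1 : rho0 N Q ≤ m.s1) (hrsg : 1 / (N : ℝ) ≤ m.sg) (C a : E2) (k : ℝ) {l : ℝ}
    (hl : 4 * rho0 N Q ^ 2 ≤ l) (S : Finset ((ℤ × ℤ) × ℤ)) (hSi : S ⊆ idx N Q)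
    (hS : ∀ x ∈ S, ∃ v : E2, |v 0| ≤ 1 / (N : ℝ) / 8 ∧ |v 1| ≤ 1 / (N : ℝ) / 8 ∧
      (C + v, a + pv (rho0 N Q) x.1, k + (x.2 : ℝ) * rho0 N Q ^ 2) ∈ m.rays 0)
    (hnu : ∀ x ∈ S, ∀ y ∈ S, |nus (rho0 N Q) (C, a, k) x - nus (rho0 N Q) (C, a, k) y| ≤ l) :
    (S.card : ℝ) ≤ 148 * Q * l * min m.s1 (1 / N) / rho0 N Q ^ 3 := by
  have hN0 : (0 : ℝ) < N := by exact_mod_cast hN
  have hQ1 : (1 : ℝ) ≤ Q := by exact_mod_cast hQ
  have hrho := rho0_pos hN hQ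
  have hl0 : 0 < l := lt_of_lt_of_le (by positivity) hl
  have h1 := pos_count h (W := 1 / (N : ℝ) / 8) (lam := l) hrho (by positivity) hl0.le hs1 C a k S
    (fun x hx => by
      obtain ⟨v, -, -, hv⟩ := hS x hx
      exact ⟨_, hv⟩)
    (fun x hx => by
      obtain ⟨v, v0, v1, hv⟩ := hS x hx
      refine ⟨x, hx, C + v, ?_, hv⟩
      have e : C + v - C = v := by abel
      rw [e]
      have := norm_pv_le v0 v1
      linarith)
    (fun x hx y hy => (idx_diff hN hQ (hSi hx) (hSi hy)).1)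
    (fun x hx y hy => (idx_diff hN hQ (hSi hx) (hSi hy)).2) hnu
  refine h1.trans ?_
  have f1 := W_bound hN hQ
  have f2 : l / rho0 N Q ^ 2 + 2 ≤ 2 * (l / rho0 N Q ^ 2) := by
    have : 4 ≤ l / rho0 N Q ^ 2 := by rw [le_div_iff₀ (by positivity)]; exact hl
    linarith
  have f3 := min_bound (K := 36) hN hQ (by norm_num) hs1
  have hs0 : 0 < m.s1 := h.ok.hs1
  have hm0 : 0 ≤ min m.s1 (1 / (N : ℝ)) := le_min hs0.le (by positivity)
  have h00 : 0 ≤ min (36 * m.s1) (1 / (N : ℝ) / 8) / rho0 N Q + 1 := by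
    have : 0 ≤ min (36 * m.s1) (1 / (N : ℝ) / 8) := le_min (by linarith) (by positivity)
    positivity
  calc (1 / (N : ℝ) / 8 / rho0 N Q + 1) * (l / rho0 N Q ^ 2 + 2) *
        (min (36 * m.s1) (1 / (N : ℝ) / 8) / rho0 N Q + 1)
      ≤ (2 * Q) * (2 * (l / rho0 N Q ^ 2)) * ((36 + 1) * (min m.s1 (1 / N) / rho0 N Q)) := by gcongr
    _ = 148 * Q * l * min m.s1 (1 / N) / rho0 N Q ^ 3 := by field_simp; norm_num

/-- slopes per position, any `sg`. -/
theorem slope_A (hN : 1 ≤ N) (hQ : 1 ≤ Q) {M : ℝ} {m : Mem} (h : Sm M m)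
    (hs1 : rho0 N Q ≤ m.s1) (C a : E2) (k : ℝ) (S : Finset (ℤ × ℤ))
    (hSi : S ⊆ Ico (0 : ℤ) Q ×ˢ Ico (0 : ℤ) Q)
    (hS : ∀ c ∈ S, (C + pv (rho0 N Q) c, a, k) ∈ m.rays 0) :
    (S.card : ℝ) ≤ 42 * Q * min m.s1 (1 / N) / rho0 N Q := by
  have hN0 : (0 : ℝ) < N := by exact_mod_cast hN
  have hQ1 : (1 : ℝ) ≤ Q := by exact_mod_cast hQ
  have hrho := rho0_pos hN hQ
  have hd : ∀ x ∈ S, ∀ y ∈ S, |((x.1 : ℝ) - y.1) * rho0 N Q| ≤ 1 / (N : ℝ) / 8 ∧
      |((x.2 : ℝ) - y.2) * rho0 N Q| ≤ 1 / (N : ℝ) / 8 := by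
    intro x hx y hy
    have hx' := hSi hx
    have hy' := hSi hy
    rw [mem_product, mem_Ico, mem_Ico] at hx' hy'
    have e1 : |(x.1 : ℝ) - y.1| ≤ Q := by
      have : |x.1 - y.1| ≤ (Q : ℤ) := by rw [abs_le]; constructor <;> omega
      exact_mod_cast this
    have e2 : |(x.2 : ℝ) - y.2| ≤ Q := by
      have : |x.2 - y.2| ≤ (Q : ℤ) := by rw [abs_le]; constructor <;> omega
      exact_mod_cast this
    rw [abs_mul, abs_mul, abs_of_pos hrho, ← rho0_Q hN hQ]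
    exact ⟨mul_le_mul_of_nonneg_right e1 hrho.le, mul_le_mul_of_nonneg_right e2 hrho.le⟩
  have h1 := slope_count h (W := 1 / (N : ℝ) / 8) hrho (by positivity) C a k S hS
    (fun x hx y hy => (hd x hx y hy).1) (fun x hx y hy => (hd x hx y hy).2)
  refine h1.trans ?_
  have f1 := W_bound hN hQ
  have f3 := min_bound (K := 20) hN hQ (by norm_num) hs1
  have hs0 : 0 < m.s1 := h.ok.hs1
  have h00 : 0 ≤ min (20 * m.s1) (1 / (N : ℝ) / 8) / rho0 N Q + 1 := by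
    have : 0 ≤ min (20 * m.s1) (1 / (N : ℝ) / 8) := le_min (by linarith) (by positivity)
    positivity
  calc (1 / (N : ℝ) / 8 / rho0 N Q + 1) *
        (min (20 * m.s1) (1 / (N : ℝ) / 8) / rho0 N Q + 1)
      ≤ (2 * Q) * ((20 + 1) * (min m.s1 (1 / N) / rho0 N Q)) := by gcongr
    _ = 42 * Q * min m.s1 (1 / N) / rho0 N Q := by ring

end

/-- slopes per position, small aperture. -/
theorem slope_B {rho : ℝ} (hrho : 0 < rho) {M : ℝ} {m : Mem} (h : Sm M m)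
    (hs1 : rho ≤ m.s1) (C a : E2) (k : ℝ) (S : Finset (ℤ × ℤ))
    (hS : ∀ c ∈ S, (C + pv rho c, a, k) ∈ m.rays 0) :
    (S.card : ℝ) ≤ 63 * (m.s1 * m.sg) / rho ^ 2 := by
  have hsg := h.ok.sg_pos
  have hs10 := h.ok.hs1
  have hle := h.ok.hsg
  have hpos : ∀ x ∈ S, ∀ y ∈ S, ∀ i : Fin 2, |(pv rho x - pv rho y) i| ≤ 2 * m.sg := by
    intro x hx y hy i
    refine (abs_coord_le _ i).trans ?_
    obtain ⟨x1, -⟩ := h.ray (hS x hx)
    obtain ⟨y1, -⟩ := h.ray (hS y hy)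
    have e : pv rho x - pv rho y = (C + pv rho x - m.c) - (C + pv rho y - m.c) := by abel
    rw [e]
    exact (norm_sub_le _ _).trans (by linarith)
  have h1 := slope_count h (W := 2 * m.sg) hrho (by positivity) C a k S hS
    (fun x hx y hy => by
      have := hpos x hx y hy 0
      rw [pv_sub] at this
      exact this)
    (fun x hx y hy => by
      have := hpos x hx y hy 1
      rw [pv_sub] at this
      exact this)
  refine h1.trans ?_
  have hrs : rho ≤ m.sg := hs1.trans hle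
  have f1 : 2 * m.sg / rho + 1 ≤ 3 * (m.sg / rho) := by
    have g1 : 1 ≤ m.sg / rho := by rw [le_div_iff₀ hrho, one_mul]; exact hrs
    have g2 : 2 * m.sg / rho = 2 * (m.sg / rho) := by ring
    linarith
  have f3 : min (20 * m.s1) (2 * m.sg) / rho + 1 ≤ 21 * (m.s1 / rho) := by
    have g1 : min (20 * m.s1) (2 * m.sg) / rho ≤ 20 * (m.s1 / rho) := by
      rw [← mul_div_assoc]
      exact div_le_div_of_nonneg_right (min_le_left _ _) hrho.le
    have g2 : 1 ≤ m.s1 / rho := by rw [le_div_iff₀ hrho, one_mul]; exact hs1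
    linarith
  have h00 : 0 ≤ min (20 * m.s1) (2 * m.sg) / rho + 1 := by
    have : 0 ≤ min (20 * m.s1) (2 * m.sg) := le_min (by linarith) (by positivity)
    positivity
  calc (2 * m.sg / rho + 1) * (min (20 * m.s1) (2 * m.sg) / rho + 1)
      ≤ (3 * (m.sg / rho)) * (21 * (m.s1 / rho)) := by gcongr
    _ = 63 * (m.s1 * m.sg) / rho ^ 2 := by field_simp; norm_num

/-- positions per parent, small aperture. -/
theorem pos_B {rho : ℝ} (hrho : 0 < rho) {M : ℝ} {m : Mem} (h : Sm M m)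
    (hs1 : rho ≤ m.s1) (a : E2) (k : ℝ) (S : Finset ((ℤ × ℤ) × ℤ))
    (hS : ∀ x ∈ S, ∃ C' : E2, (C', a + pv rho x.1, k + (x.2 : ℝ) * rho ^ 2) ∈ m.rays 0) :
    (S.card : ℝ) ≤ 666 * (m.s1 * m.sg ^ 3) / rho ^ 4 := by
  have hsg := h.ok.sg_pos
  have hs10 := h.ok.hs1
  have hle := h.ok.hsg
  rcases S.eq_empty_or_nonempty with rfl | ⟨x0, hx0⟩
  · simp only [card_empty, Nat.cast_zero]
    positivity
  obtain ⟨C, hC⟩ := hS x0 hx0
  obtain ⟨c1, -⟩ := h.ray hC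
  have hpos : ∀ x ∈ S, ∀ y ∈ S, ‖pv rho x.1 - pv rho y.1‖ ≤ 2 * m.sg := by
    intro x hx y hy
    obtain ⟨Cx, hCx⟩ := hS x hx
    obtain ⟨Cy, hCy⟩ := hS y hy
    obtain ⟨-, x2, -, -, -⟩ := h.ray hCx
    obtain ⟨-, y2, -, -, -⟩ := h.ray hCy
    have e : pv rho x.1 - pv rho y.1 = (a + pv rho x.1 - lat m.X0) - (a + pv rho y.1 - lat m.X0) := by
      abel
    rw [e]
    exact (norm_sub_le _ _).trans (by linarith)
  have hco : ∀ x ∈ S, ∀ y ∈ S, ∀ i : Fin 2, |(pv rho x.1 - pv rho y.1) i| ≤ 2 * m.sg :=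
    fun x hx y hy i => (abs_coord_le _ i).trans (hpos x hx y hy)
  have h1 := pos_count h (W := 2 * m.sg) (lam := 4 * m.sg ^ 2) hrho (by positivity) (by positivity)
    hs1 C a k S hS
    (fun x hx => ⟨x0, hx0, C, by rw [sub_self, norm_zero]; positivity, hC⟩)
    (fun x hx y hy => by
      have := hco x hx y hy 0
      rw [pv_sub] at this
      exact this)
    (fun x hx y hy => by
      have := hco x hx y hy 1
      rw [pv_sub] at this
      exact this)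
    (fun x hx y hy => by
      obtain ⟨Cx, hCx⟩ := hS x hx
      obtain ⟨Cy, hCy⟩ := hS y hy
      obtain ⟨x1, x2, x3, x4, x5⟩ := h.ray hCx
      obtain ⟨y1, y2, y3, y4, y5⟩ := h.ray hCy
      have x3' : |nrm m.c (a + pv rho x.1) (k + (x.2 : ℝ) * rho ^ 2) 0 -
        nrm m.c (lat m.X0) (m.X0 2) 0| ≤ m.sg ^ 2 := x3
      have y3' : |nrm m.c (a + pv rho y.1) (k + (y.2 : ℝ) * rho ^ 2) 0 -
        nrm m.c (lat m.X0) (m.X0 2) 0| ≤ m.sg ^ 2 := y3
      have e : nus rho (C, a, k) x - nus rho (C, a, k) y =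
          (nrm m.c (a + pv rho x.1) (k + (x.2 : ℝ) * rho ^ 2) 0 -
            nrm m.c (lat m.X0) (m.X0 2) 0) -
          (nrm m.c (a + pv rho y.1) (k + (y.2 : ℝ) * rho ^ 2) 0 -
            nrm m.c (lat m.X0) (m.X0 2) 0) +
          inner ℝ (C - m.c) (pv rho x.1 - pv rho y.1) := by
        unfold nus nrm
        simp only [inner_add_right, inner_sub_right, inner_sub_left]
        ring
      rw [e]
      have e1 : |inner ℝ (C - m.c) (pv rho x.1 - pv rho y.1)| ≤ m.sg * (2 * m.sg) :=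
        (abs_real_inner_le_norm _ _).trans
          (mul_le_mul c1 (hpos x hx y hy) (norm_nonneg _) hsg.le)
      rw [abs_le] at x3' y3' e1 ⊢
      constructor <;> nlinarith [x3'.1, x3'.2, y3'.1, y3'.2, e1.1, e1.2])
  refine h1.trans ?_
  have hrs : rho ≤ m.sg := hs1.trans hle
  have f1 : 2 * m.sg / rho + 1 ≤ 3 * (m.sg / rho) := by
    have g1 : 1 ≤ m.sg / rho := by rw [le_div_iff₀ hrho, one_mul]; exact hrs
    have g2 : 2 * m.sg / rho = 2 * (m.sg / rho) := by ring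
    linarith
  have f2 : 4 * m.sg ^ 2 / rho ^ 2 + 2 ≤ 6 * (m.sg / rho) ^ 2 := by
    have g1 : 1 ≤ m.sg / rho := by rw [le_div_iff₀ hrho, one_mul]; exact hrs
    have g2 : 4 * m.sg ^ 2 / rho ^ 2 = 4 * (m.sg / rho) ^ 2 := by rw [div_pow]; ring
    rw [g2]
    nlinarith
  have f3 : min (36 * m.s1) (2 * m.sg) / rho + 1 ≤ 37 * (m.s1 / rho) := by
    have g1 : min (36 * m.s1) (2 * m.sg) / rho ≤ 36 * (m.s1 / rho) := by
      rw [← mul_div_assoc]
      exact div_le_div_of_nonneg_right (min_le_left _ _) hrho.le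
    have g2 : 1 ≤ m.s1 / rho := by rw [le_div_iff₀ hrho, one_mul]; exact hs1
    linarith
  have h00 : 0 ≤ min (36 * m.s1) (2 * m.sg) / rho + 1 := by
    have : 0 ≤ min (36 * m.s1) (2 * m.sg) := le_min (by linarith) (by positivity)
    positivity
  calc (2 * m.sg / rho + 1) * (4 * m.sg ^ 2 / rho ^ 2 + 2) *
        (min (36 * m.s1) (2 * m.sg) / rho + 1)
      ≤ (3 * (m.sg / rho)) * (6 * (m.sg / rho) ^ 2) * (37 * (m.s1 / rho)) := by gcongr
    _ = 666 * (m.s1 * m.sg ^ 3) / rho ^ 4 := by field_simp; norm_num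

/-- the constant. -/
noncomputable def KC5 : ℝ := 10 ^ 16

theorem KC5_pos : 0 < KC5 := by unfold KC5; positivity

open Classical in
/-- **COUNT5** -/
theorem count5 : Count5 KC5 := by
  intro N Q s Δ m hN hQ hBd hΔ hD h hs1 hsg
  have hN0 : (0 : ℝ) < N := by exact_mod_cast hN
  have hN1 : (1 : ℝ) ≤ N := by exact_mod_cast hN
  have hQ1 : (1 : ℝ) ≤ Q := by exact_mod_cast hQ
  have hQ0 : (0 : ℝ) < Q := by linarith
  have hrho := rho0_pos hN hQ
  have hsg0 := h.ok.sg_pos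
  have hs10 := h.ok.hs1
  have hle := h.ok.hsg
  have hr : (0:ℝ) < 1 / N := by positivity
  have hr1 : 1 / (N : ℝ) ≤ 1 := by rw [div_le_one hN0]; exact hN1
  set rho := rho0 N Q with hrd
  set T := (s ×ˢ idx5 N Q).filter fun x => chd5 rho (gray N x.1) x.2 ∈ m.rays 0 with hT
  have hmemT : ∀ t ∈ T, t.1 ∈ s ∧ t.2 ∈ idx5 N Q ∧ t.2.2 ∈ idx N Q ∧
      (-(gC N t.1) + pv rho t.2.1, gX N t.1 + pv rho t.2.2.1,
        gH N t.1 + (t.2.2.2 : ℝ) * rho ^ 2) ∈ m.rays 0 := by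
    intro t ht
    rw [hT, mem_filter, mem_product] at ht
    exact ⟨ht.1.1, ht.1.2, (mem_idx5 ht.1.2).2.2, ht.2⟩
  -- first projection: forget the slope shift
  set f : GRay × ((ℤ × ℤ) × ((ℤ × ℤ) × ℤ)) → GRay × ((ℤ × ℤ) × ℤ) := fun t => (t.1, t.2.2) with hf
  set P := T.image f with hP
  have hsl : ∀ B : ℝ, (∀ (l : GRay) (x : (ℤ × ℤ) × ℤ) (S : Finset (ℤ × ℤ)),
      S ⊆ Ico (0 : ℤ) Q ×ˢ Ico (0 : ℤ) Q →
      (∀ c ∈ S, (-(gC N l) + pv rho c, gX N l + pv rho x.1, gH N l + (x.2 : ℝ) * rho ^ 2) ∈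
        m.rays 0) → (S.card : ℝ) ≤ B) → (T.card : ℝ) ≤ P.card * B := by
    intro B hB
    refine card_le_fib T f fun b hb => ?_
    have hinj : ((T.filter fun t => f t = b).image fun t => t.2.1).card =
        (T.filter fun t => f t = b).card := by
      apply card_image_of_injOn
      intro t ht t' ht' htt
      rw [mem_coe, mem_filter] at ht ht'
      have e := ht.2.trans ht'.2.symm
      rw [hf, Prod.mk.injEq] at e
      exact Prod.ext e.1 (Prod.ext htt e.2)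
    rw [← hinj]
    refine hB b.1 b.2 _ ?_ ?_
    · intro c hc
      rw [mem_image] at hc
      obtain ⟨t, ht, rfl⟩ := hc
      obtain ⟨-, h2, -, -⟩ := hmemT t (mem_filter.1 ht).1
      obtain ⟨h3, h4, -⟩ := mem_idx5 h2
      rw [mem_product, mem_Ico, mem_Ico]
      exact ⟨h3, h4⟩
    · intro c hc
      rw [mem_image] at hc
      obtain ⟨t, ht, rfl⟩ := hc
      obtain ⟨-, -, -, h4⟩ := hmemT t (mem_filter.1 ht).1
      have e : f t = b := (mem_filter.1 ht).2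
      rw [← e]
      exact h4
  -- second projection: parents
  have hps : ∀ B : ℝ, (∀ l ∈ s, ∀ S : Finset ((ℤ × ℤ) × ℤ), S ⊆ idx N Q →
      (∀ x ∈ S, ∃ c : ℤ × ℤ, |pv rho c 0| ≤ 1 / (N : ℝ) / 8 ∧ |pv rho c 1| ≤ 1 / (N : ℝ) / 8 ∧
        (-(gC N l) + pv rho c, gX N l + pv rho x.1, gH N l + (x.2 : ℝ) * rho ^ 2) ∈
        m.rays 0) → (S.card : ℝ) ≤ B) → (P.card : ℝ) ≤ (P.image Prod.fst).card * B := by
    intro B hB
    refine card_le_fib P Prod.fst fun b hb => ?_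
    have hinj : ((P.filter fun t => t.1 = b).image fun t => t.2).card =
        (P.filter fun t => t.1 = b).card := by
      apply card_image_of_injOn
      intro t ht t' ht' htt
      rw [mem_coe, mem_filter] at ht ht'
      exact Prod.ext (ht.2.trans ht'.2.symm) htt
    rw [← hinj]
    have hbs : b ∈ s := by
      obtain ⟨y, hy, rfl⟩ := mem_image.1 hb
      rw [hP, mem_image] at hy
      obtain ⟨t, ht, rfl⟩ := hy
      exact (hmemT t ht).1
    refine hB b hbs _ ?_ ?_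
    · intro x hx
      rw [mem_image] at hx
      obtain ⟨y, hy, rfl⟩ := hx
      have hy1 := (mem_filter.1 hy).1
      rw [hP, mem_image] at hy1
      obtain ⟨t, ht, rfl⟩ := hy1
      exact (hmemT t ht).2.2.1
    · intro x hx
      rw [mem_image] at hx
      obtain ⟨y, hy, rfl⟩ := hx
      obtain ⟨hy1, hy2⟩ := mem_filter.1 hy
      rw [hP, mem_image] at hy1
      obtain ⟨t, ht, rfl⟩ := hy1
      obtain ⟨-, h2, -, h4⟩ := hmemT t ht
      have k0 := idx5_abs hN hQ h2 0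
      have k1 := idx5_abs hN hQ h2 1
      refine ⟨t.2.1, ?_, ?_, ?_⟩
      · rw [abs_of_nonneg k0.1]; exact k0.2
      · rw [abs_of_nonneg k1.1]; exact k1.2
      · have e : t.1 = b := hy2
        rw [← e]
        exact h4
  have hPpar : ∀ l ∈ P.image Prod.fst, ∃ t ∈ T, t.1 = l := by
    intro l hl
    obtain ⟨y, hy, rfl⟩ := mem_image.1 hl
    rw [hP, mem_image] at hy
    obtain ⟨t, ht, rfl⟩ := hy
    exact ⟨t, ht, rfl⟩
  have hC2 : ∀ l ∈ s, ‖-(gC N l)‖ ≤ 3 / 2 := by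
    intro l hl
    rw [norm_neg]
    exact norm_gC' hN (hBd l hl)
  have hmin0 : 0 ≤ min m.s1 (1 / (N : ℝ)) := le_min hs10.le hr.le
  have hNs1 : N * min m.s1 (1 / (N : ℝ)) = min 1 (N * m.s1) := by
    rw [mul_min_of_nonneg _ _ hN0.le, mul_one_div_cancel hN0.ne', min_comm]
  rcases le_total (1 / (N : ℝ)) m.sg with hcase | hcase
  · -- `r ≤ sg`
    have hNsg : min 1 ((N : ℝ) * m.sg) = 1 := by
      apply min_eq_left
      rw [div_le_iff₀ hN0] at hcase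
      linarith
    rw [hNsg, mul_one, ← hNs1]
    obtain ⟨F, l, hF, hray, hdiff⟩ := parents_big5 (M := 16) (by norm_num) h hr hr1 hcase
      (by linarith)
    have hl : 4 * rho ^ 2 ≤ l := by
      have h1 := hF.rl
      have h2 : rho ≤ 1 / N / 8 := by
        have : rho ≤ Q * rho := le_mul_of_one_le_left hrho.le hQ1
        rwa [rho0_Q hN hQ] at this
      have h3 : rho ^ 2 ≤ (1 / N / 8) ^ 2 := pow_le_pow_left₀ hrho.le h2 2
      have h4 : (1 / (N : ℝ) / 8) ^ 2 = (1 / N) ^ 2 / 64 := by ring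
      rw [h4] at h3
      linarith
    have hl0 := hF.l0
    have hT1 := hsl (42 * Q * min m.s1 (1 / N) / rho) (fun l' x S hSi hS =>
      slope_A hN hQ h hs1 (-(gC N l')) (gX N l' + pv rho x.1) (gH N l' + (x.2 : ℝ) * rho ^ 2)
        S hSi hS)
    have hB := hps (148 * Q * l * min m.s1 (1 / N) / rho ^ 3) (fun l' hl' S hSi hS => by
      refine pos_A hN hQ h hs1 hcase (-(gC N l')) (gX N l') (gH N l') hl S hSi
        (fun x hx => ?_) (fun x hx y hy => ?_)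
      · obtain ⟨c, c0, c1, hc⟩ := hS x hx
        exact ⟨_, c0, c1, hc⟩
      · obtain ⟨c, c0, c1, hc⟩ := hS x hx
        obtain ⟨c', c0', c1', hc'⟩ := hS y hy
        obtain ⟨a1, a2, a3⟩ := idx_abs1 hN hQ (hSi hx)
        obtain ⟨b1, b2, b3⟩ := idx_abs1 hN hQ (hSi hy)
        exact hdiff _ _ _ _ _ _ _ _ _ (hC2 l' hl') c0 c1 c0' c1' a1 a2 a3 b1 b2 b3 hc hc')
    have hPc : ((P.image Prod.fst).card : ℝ) ≤
        ∑ j ∈ Icc (-3 : ℤ) 3, Δ * ((F j).scost (1 / N) * (N : ℝ) ^ 3) := by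
      have h1 : P.image Prod.fst ⊆ (Icc (-3 : ℤ) 3).biUnion fun j =>
          s.filter fun l => gray N l ∈ (F j).rays (1 / N) := by
        intro l' hl'
        obtain ⟨t, ht, rfl⟩ := hPpar l' hl'
        obtain ⟨hx1, hx5, hx2, hx3⟩ := hmemT t ht
        obtain ⟨a1, a2, a3⟩ := idx_abs1 hN hQ hx2
        have k0 := idx5_abs hN hQ hx5 0
        have k1 := idx5_abs hN hQ hx5 1
        have k0' : |pv rho t.2.1 0| ≤ 1 / (N : ℝ) / 8 := by rw [abs_of_nonneg k0.1]; exact k0.2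
        have k1' : |pv rho t.2.1 1| ≤ 1 / (N : ℝ) / 8 := by rw [abs_of_nonneg k1.1]; exact k1.2
        obtain ⟨j, hj, hj2⟩ := hray _ _ _ _ _ _ (hC2 t.1 hx1) k0' k1' a1 a2 a3 hx3
        rw [mem_biUnion]
        refine ⟨j, ?_, mem_filter.2 ⟨hx1, hj2⟩⟩
        rw [mem_Icc]
        exact abs_le.1 hj
      have h2 := (card_le_card h1).trans card_biUnion_le
      have h3 : ((P.image Prod.fst).card : ℝ) ≤ ∑ j ∈ Icc (-3 : ℤ) 3,
          ((s.filter fun l => gray N l ∈ (F j).rays (1 / N)).card : ℝ) := by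
        exact_mod_cast h2
      refine h3.trans (sum_le_sum fun j hj => ?_)
      have hj' : |j| ≤ 3 := by rw [abs_le]; exact mem_Icc.1 hj
      refine hD (F j) ⟨?_, ?_, hF.R1 j hj', hF.s0 j hj', hF.thin j hj', hF.sg1 j hj'⟩
      · have := hF.ok j hj'
        norm_num at this ⊢
        exact this
      · have := hF.cpt j hj'
        norm_num at this ⊢
        exact this
    have hcs := bigm_scost (r := 1 / (N : ℝ)) h
    have hterm : ∀ j ∈ Icc (-3 : ℤ) 3, (Δ * ((F j).scost (1 / N) * (N : ℝ) ^ 3)) *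
        (148 * Q * l * min m.s1 (1 / N) / rho ^ 3) ≤
        148 * 4096 * 512 * (Δ * ((N : ℝ) ^ 4 * (Q : ℝ) ^ 4 * (m.s1 * m.sg ^ 3))) := by
      intro j hj
      have hj' : |j| ≤ 3 := by rw [abs_le]; exact mem_Icc.1 hj
      have hc := hF.cost j hj'
      rw [hcs] at hc
      have hmm : min m.s1 (1 / (N : ℝ)) * max m.s1 (1 / N) = m.s1 * (1 / N) := min_mul_max _ _
      have e1 : (Δ * ((F j).scost (1 / N) * (N : ℝ) ^ 3)) *
          (148 * Q * l * min m.s1 (1 / N) / rho ^ 3) =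
          (148 * Δ * (N : ℝ) ^ 3 * Q * min m.s1 (1 / N) / rho ^ 3) * (l * (F j).scost (1 / N)) := by
        ring
      rw [e1]
      have h5 : (148 * Δ * (N : ℝ) ^ 3 * Q * min m.s1 (1 / N) / rho ^ 3) *
          (l * (F j).scost (1 / N)) ≤ (148 * Δ * (N : ℝ) ^ 3 * Q * min m.s1 (1 / N) / rho ^ 3) *
          (16 * 16 * (1 / N * (16 * max m.s1 (1 / N) * m.sg ^ 3))) :=
        mul_le_mul_of_nonneg_left hc (by positivity)
      refine h5.trans (le_of_eq ?_)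
      have e2 : (148 * Δ * (N : ℝ) ^ 3 * Q * min m.s1 (1 / N) / rho ^ 3) *
          (16 * 16 * (1 / N * (16 * max m.s1 (1 / N) * m.sg ^ 3))) =
          148 * 4096 * Δ * (N : ℝ) ^ 3 * Q / rho ^ 3 * (1 / N) *
          (min m.s1 (1 / N) * max m.s1 (1 / N)) * m.sg ^ 3 := by ring
      rw [e2, hmm, hrd]
      unfold rho0
      field_simp
      norm_num
    have hBp0 : 0 ≤ 148 * Q * l * min m.s1 (1 / N) / rho ^ 3 := by positivity
    have hPcard : (P.card : ℝ) ≤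
        7 * (148 * 4096 * 512) * (Δ * ((N : ℝ) ^ 4 * (Q : ℝ) ^ 4 * (m.s1 * m.sg ^ 3))) := by
      calc (P.card : ℝ) ≤ (P.image Prod.fst).card * (148 * Q * l * min m.s1 (1 / N) / rho ^ 3) := hB
        _ ≤ (∑ j ∈ Icc (-3 : ℤ) 3, Δ * ((F j).scost (1 / N) * (N : ℝ) ^ 3)) *
            (148 * Q * l * min m.s1 (1 / N) / rho ^ 3) := mul_le_mul_of_nonneg_right hPc hBp0
        _ = ∑ j ∈ Icc (-3 : ℤ) 3, (Δ * ((F j).scost (1 / N) * (N : ℝ) ^ 3)) *
            (148 * Q * l * min m.s1 (1 / N) / rho ^ 3) := by rw [sum_mul]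
        _ ≤ ∑ j ∈ Icc (-3 : ℤ) 3,
            148 * 4096 * 512 * (Δ * ((N : ℝ) ^ 4 * (Q : ℝ) ^ 4 * (m.s1 * m.sg ^ 3))) :=
            sum_le_sum hterm
        _ = 7 * (148 * 4096 * 512) * (Δ * ((N : ℝ) ^ 4 * (Q : ℝ) ^ 4 * (m.s1 * m.sg ^ 3))) := by
            have h7 : (Icc (-3 : ℤ) 3).card = 7 := rfl
            rw [sum_const, h7, nsmul_eq_mul]; ring
    have hsl0 : 0 ≤ 42 * Q * min m.s1 (1 / N) / rho := by positivity
    have e42 : 42 * Q * min m.s1 (1 / (N : ℝ)) / rho =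
        336 * (Q : ℝ) ^ 2 * (N * min m.s1 (1 / N)) := by
      rw [hrd]; unfold rho0; field_simp; norm_num
    set Y : ℝ := Δ * ((N : ℝ) ^ 4 * (Q : ℝ) ^ 4 * (m.s1 * m.sg ^ 3)) *
      ((Q : ℝ) ^ 2 * (N * min m.s1 (1 / N))) with hY
    have hY0 : 0 ≤ Y := by rw [hY]; positivity
    calc (T.card : ℝ) ≤ P.card * (42 * Q * min m.s1 (1 / N) / rho) := hT1
      _ ≤ (7 * (148 * 4096 * 512) * (Δ * ((N : ℝ) ^ 4 * (Q : ℝ) ^ 4 * (m.s1 * m.sg ^ 3)))) *
          (42 * Q * min m.s1 (1 / N) / rho) := mul_le_mul_of_nonneg_right hPcard hsl0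
      _ = 7 * (148 * 4096 * 512) * 336 * Y := by rw [e42, hY]; ring
      _ ≤ KC5 * Y := mul_le_mul_of_nonneg_right (by unfold KC5; norm_num) hY0
      _ = KC5 * Δ * (N : ℝ) ^ 4 * (Q : ℝ) ^ 6 * (m.s1 * m.sg ^ 3) *
          (N * min m.s1 (1 / N)) := by rw [hY]; ring
  · -- `sg ≤ r`
    have hNsg1 : (N : ℝ) * m.sg ≤ 1 := by
      rw [le_div_iff₀ hN0] at hcase
      linarith
    have hNs11 : (N : ℝ) * m.s1 ≤ 1 := by nlinarith
    rw [min_eq_right hNsg1, min_eq_right hNs11]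
    have hT1 := hsl (63 * (m.s1 * m.sg) / rho ^ 2) (fun l' x S hSi hS =>
      slope_B hrho h hs1 (-(gC N l')) (gX N l' + pv rho x.1) (gH N l' + (x.2 : ℝ) * rho ^ 2) S hS)
    have hB := hps (666 * (m.s1 * m.sg ^ 3) / rho ^ 4) (fun l' hl' S hSi hS =>
      pos_B hrho h hs1 (gX N l') (gH N l') S (fun x hx => by
        obtain ⟨c, -, -, hc⟩ := hS x hx
        exact ⟨_, hc⟩))
    have hPc : ((P.image Prod.fst).card : ℝ) ≤ 100000 := by
      refine le_trans (Nat.cast_le.2 (card_le_card ?_))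
        (parents_small5 hN hBd h.R1 h.s0 hsg0 hcase)
      intro l' hl'
      obtain ⟨t, ht, rfl⟩ := hPpar l' hl'
      obtain ⟨hx1, hx5, hx2, hx3⟩ := hmemT t ht
      obtain ⟨a1, a2, a3⟩ := idx_abs1 hN hQ hx2
      have k0 := idx5_abs hN hQ hx5 0
      have k1 := idx5_abs hN hQ hx5 1
      have k0' : |pv rho t.2.1 0| ≤ 1 / (N : ℝ) / 8 := by rw [abs_of_nonneg k0.1]; exact k0.2
      have k1' : |pv rho t.2.1 1| ≤ 1 / (N : ℝ) / 8 := by rw [abs_of_nonneg k1.1]; exact k1.2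
      have e8 : 1 / (N : ℝ) / 8 = 1 / (8 * N) := by field_simp
      rw [e8] at a1 a2 a3 k0' k1'
      exact mem_filter.2 ⟨hx1, pv rho t.2.1, pv rho t.2.2.1, (t.2.2.2 : ℝ) * rho ^ 2,
        k0', k1', a1, a2, a3, hx3⟩
    have hp0 : 0 ≤ 666 * (m.s1 * m.sg ^ 3) / rho ^ 4 := by positivity
    have hs0 : 0 ≤ 63 * (m.s1 * m.sg) / rho ^ 2 := by positivity
    set Y : ℝ := (N : ℝ) ^ 4 * (Q : ℝ) ^ 6 * (m.s1 * m.sg ^ 3) *
      ((N * m.s1) * (N * m.sg)) with hY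
    have hY0 : 0 ≤ Y := by rw [hY]; positivity
    calc (T.card : ℝ) ≤ P.card * (63 * (m.s1 * m.sg) / rho ^ 2) := hT1
      _ ≤ (100000 * (666 * (m.s1 * m.sg ^ 3) / rho ^ 4)) * (63 * (m.s1 * m.sg) / rho ^ 2) := by
          refine mul_le_mul_of_nonneg_right (hB.trans ?_) hs0
          exact mul_le_mul_of_nonneg_right hPc hp0
      _ = 100000 * 666 * 63 * 262144 * Y := by
          rw [hY, hrd]; unfold rho0; field_simp; norm_num
      _ ≤ KC5 * Y := mul_le_mul_of_nonneg_right (by unfold KC5; norm_num) hY0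
      _ ≤ KC5 * (Δ * Y) := mul_le_mul_of_nonneg_left (le_mul_of_one_le_left hY0 hΔ) KC5_pos.le
      _ = KC5 * Δ * (N : ℝ) ^ 4 * (Q : ℝ) ^ 6 * (m.s1 * m.sg ^ 3) *
          ((N * m.s1) * (N * m.sg)) := by rw [hY]; ring

end Crest.Agent.R116.Rs79
end

-- ▼ part R116/Rm7_618

/-!
# R116, K2 (ENEMY with room), part 7 (helper618): `enemy2`
-/

set_option autoImplicit false

namespace Crest.Agent.R116.Ene618

open Crest.Agent.R116.Ks79

/-- **K2 (ENEMY with room).** -/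
theorem enemy2 (h : ¬ LKMseq 68) :
    ∃ b0 : ℝ, 0 < b0 ∧ ∀ K0 : ℕ, Yb2635.EnemyAt2 (Rm635.TSK K0) b0 :=
  enemy2_of Rs79.KC5_pos Rs79.count5 h

end Crest.Agent.R116.Ene618
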