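import Crest.Agent.R116.SgI2_337
import Crest.Agent.R116.RfI_468_Mg
import Crest.Agent.R116.Tw5_468
import Crest.Agent.R116.CtxB_468
import Crest.Agent.R116.SgZ_388
import Crest.Agent.R116.WinU_954
import Crest.Agent.R116.Sd2_369
import Crest.Agent.R116.Nar4_192
import Crest.Agent.R116.Gt4_222
import Crest.Agent.R116.Nar3f_863
import Crest.Agent.R116.Ap3_954
import Crest.Agent.R116.KTopB_387

-- ▼ part R116/SgI5_337
section

/-!
# R116, K-TEXT II-c, the ISOTROPIC record (helper337), part 5: the core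

* `T5`        : positions `(α, β, γ, κ)` : `C = (α+γ, β+γ)`, `X = (β+κ, α+κ)`, `N = α+β+γ+κ`
* `DeadL`     : flags dead, `P`, `F` dead below `C_a`, `X_a`, for the second tangent
* **`coreI`** : `M ≤ joint C-rate`, `2 (1 - s) ≤ r_X`, `r_N < 1` ⊢ `M ≤ 2 s`
-/

set_option autoImplicit false
set_option linter.unusedVariables false

open Set Filter Topology

namespace Crest.Agent.R116.SgI337

open Crest.Agent.R138.Ex926 (Base U IsTan)
open Crest.Agent.R136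
open Crest.Agent.R136.Net191
open Crest.Agent.R136.Qg926 (NProf)
open Dg262 (X)
open Dg219 (Walls mw gset mem_gset gC dhC nC gC_zero gC_eq OutS)
open SgO219 (PP OO LT OutL RateP exists_lin L_sub_LT)
open Crest.Agent.R116.ChL222
open Crest.Agent.R116.EvL504 (Coc)
open Sg337 (bx9 coneL mem_coneL natB uC eL_bx9 SI ProfI)
open Sg388 (ind)
open Sg635 (PP_eq no_one ne_one aS aS_nonneg)
open Xd954 (cs xs)

/-! ### positions -/

/-- moves of a position -/
def T5l : (Fin 4 → ℝ) →ₗ[ℝ] (Fin 12 → ℝ) where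
  toFun := fun v => ![0, 0, 0, v 0 + v 2, v 1 + v 2, v 1 + v 3, v 0 + v 3, 0, 0,
    v 0 + v 1 + v 2 + v 3, 0, 0]
  map_add' := fun v w => by
    funext k; fin_cases k <;> simp <;> ring
  map_smul' := fun c v => by
    funext k; fin_cases k <;> simp <;> ring

/-- moves of a position -/
noncomputable def T5 : (Fin 4 → ℝ) →L[ℝ] (Fin 12 → ℝ) := LinearMap.toContinuousLinearMap T5l

theorem T5_apply (v : Fin 4 → ℝ) : T5 v = ![0, 0, 0, v 0 + v 2, v 1 + v 2, v 1 + v 3, v 0 + v 3,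
    0, 0, v 0 + v 1 + v 2 + v 3, 0, 0] := rfl

theorem T5_nonneg (i : Fin 4) (l : Fin 12) : 0 ≤ T5 (Pi.single i 1) l := by
  rw [T5_apply]
  fin_cases i <;> fin_cases l <;> simp

/-- the open set of positions -/
def D5 : Set (Fin 4 → ℝ) := {v | ∀ i, 0 < v i ∧ v i < 3}

theorem D5_open : IsOpen D5 := by
  have e : D5 = ⋂ i, {v : Fin 4 → ℝ | 0 < v i ∧ v i < 3} := by
    ext v; simp [D5]
  rw [e]
  refine isOpen_iInter_of_finite fun i => ?_
  exact (isOpen_lt continuous_const (continuous_apply i)).inter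
    (isOpen_lt (continuous_apply i) continuous_const)

/-- background: only the height -/
def bg5 : Fin 12 → ℝ := bx9 8 0 0 0 0 0 0 0 0

theorem mem5 {θ l : ℝ} (hl : 0 < l) {v : Fin 4 → ℝ} (hv : v ∈ D5) :
    bg5 + T5 v ∈ (mw monL).L (xI l) aS (bI θ) := by
  rw [mem_LI hl, T5_apply]
  obtain ⟨a0, b0⟩ := hv 0
  obtain ⟨a1, b1⟩ := hv 1
  obtain ⟨a2, b2⟩ := hv 2
  obtain ⟨a3, b3⟩ := hv 3
  change (0:ℝ) + (v 1 + v 3) ≤ (8 + 0) + (0 + (v 0 + v 2)) ∧
    (0:ℝ) + (v 0 + v 3) ≤ (8 + 0) + (0 + (v 1 + v 2)) ∧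
    (0:ℝ) + (v 0 + v 1 + v 2 + v 3) ≤ (0 + (v 0 + v 2)) + (0 + (v 1 + v 3)) ∧
    (0:ℝ) + (v 0 + v 1 + v 2 + v 3) ≤ (0 + (v 1 + v 2)) + (0 + (v 0 + v 3)) ∧
    (0:ℝ) + 0 ≤ (8 + 0) + (0 + 0)
  refine ⟨?_, ?_, ?_, ?_, ?_⟩ <;> linarith

theorem path5 {ε t : ℝ} (hε : ε ∈ Ioc (0:ℝ) 1) (ht : t ∈ Icc (0:ℝ) 1) :
    ε • (fun _ => (1:ℝ)) + ind ({2, 3} : Finset (Fin 4)) t ∈ D5 := by
  intro i
  have h1 := hε.1
  have h2 := hε.2
  have h3 := ht.1
  have h4 := ht.2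
  fin_cases i <;> simp [ind] <;> constructor <;> linarith

/-- slots which are alive -/
def Al (k : Fin 12) : Prop := k ≠ 1 ∧ k ≠ 2 ∧ k ≠ 7 ∧ k ≠ 8 ∧ k ≠ 10 ∧ k ≠ 11

/-- `1, 2, 7, 8` dead, `10`, `11` dead below `C_a`, `X_a` -/
def DeadL (L : Set (Fin 12 → ℝ)) (a : Fin 2) (lam : (Fin 12 → ℝ) → ℝ) : Prop :=
  ∀ p ∈ L, ∀ q ∈ L, (∀ k, Al k → p k = q k) → q 10 ≤ p (cs a) → q 11 ≤ p (xs a) → lam p ≤ lam q

/-- from the record tangent to the second tangent -/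
theorem deadL_of {s : ℝ} {a : Fin 2} {g lam : (Fin 12 → ℝ) → ℝ} (H : ProfI s a g) {θ l : ℝ}
    {z : ℝ × ℝ} {h : ℕ → ℝ} (hpos : ∀ m, 0 < h m) {L : Set (Fin 12 → ℝ)}
    (ht : IsTan coneL L g (fun _ => SI θ l z.1 z.2) h lam) : DeadL L a lam := by
  intro p hp q hq hpq h10 h11
  have h1 := SgO219.tan_lim hpos ht hp hq
  have h2 : lam p - lam q ≤ 0 := by
    refine le_of_tendsto h1 ?_
    filter_upwards [SgO219.tan_ev ht hp, SgO219.tan_ev ht hq] with m m1 m2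
    have hm := hpos m
    have e10 : SI θ l z.1 z.2 10 = SI θ l z.1 z.2 (cs a) := by
      fin_cases a <;> rfl
    have e11 : SI θ l z.1 z.2 11 = SI θ l z.1 z.2 (xs a) := by
      fin_cases a <;> rfl
    have h3 := H.deadP _ m1 _ m2 (fun k k1 k2 k7 k8 k10 k11 => by
      simp only [Pi.add_apply, Pi.smul_apply, smul_eq_mul]
      rw [hpq k ⟨k1, k2, k7, k8, k10, k11⟩]) (Or.inr (by
        simp only [Pi.add_apply, Pi.smul_apply, smul_eq_mul]
        rw [e10]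
        have := mul_le_mul_of_nonneg_left h10 hm.le
        linarith)) (Or.inr (by
        simp only [Pi.add_apply, Pi.smul_apply, smul_eq_mul]
        rw [e11]
        have := mul_le_mul_of_nonneg_left h11 hm.le
        linarith))
    exact div_nonpos_of_nonpos_of_nonneg (by linarith) hm.le
  linarith


/-- from the second tangent to the third tangent: all dead slots are dead -/
theorem dead3 {L L' : Set (Fin 12 → ℝ)} {a : Fin 2} {lam lam' : (Fin 12 → ℝ) → ℝ}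
    (H : DeadL L a lam) {c0 : Fin 12 → ℝ} (h10 : c0 10 < c0 (cs a)) (h11 : c0 11 < c0 (xs a))
    {h : ℕ → ℝ} (hpos : ∀ m, 0 < h m) (h0 : Tendsto h atTop (𝓝 0))
    (ht : IsTan L L' lam (fun _ => c0) h lam') {p q : Fin 12 → ℝ} (hp : p ∈ L') (hq : q ∈ L')
    (hpq : ∀ k, Al k → p k = q k) : lam' p = lam' q := by
  have key : ∀ p ∈ L', ∀ q ∈ L', (∀ k, Al k → p k = q k) → lam' p ≤ lam' q := by
    intro p hp q hq hpq
    have h1 := SgO219.tan_lim hpos ht hp hq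
    have e0 : ∀ c u : ℝ, Tendsto (fun m => c + h m * u) atTop (𝓝 c) := fun c u => by
      have := (h0.mul_const u).const_add c
      simpa using this
    have h2 : lam' p - lam' q ≤ 0 := by
      refine le_of_tendsto h1 ?_
      have f10 := (e0 (c0 10) (q 10)).eventually_lt (e0 (c0 (cs a)) (p (cs a))) h10
      have f11 := (e0 (c0 11) (q 11)).eventually_lt (e0 (c0 (xs a)) (p (xs a))) h11
      filter_upwards [SgO219.tan_ev ht hp, SgO219.tan_ev ht hq, f10, f11] with m m1 m2 m3 m4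
      have hm := hpos m
      have h3 := H _ m1 _ m2 (fun k hk => by
        simp only [Pi.add_apply, Pi.smul_apply, smul_eq_mul]
        rw [hpq k hk]) (by
          simp only [Pi.add_apply, Pi.smul_apply, smul_eq_mul]
          exact m3.le) (by
          simp only [Pi.add_apply, Pi.smul_apply, smul_eq_mul]
          exact m4.le)
      exact div_nonpos_of_nonpos_of_nonneg (by linarith) hm.le
    linarith
  exact le_antisymm (key p hp q hq hpq) (key q hq p hp fun k hk => (hpq k hk).symm)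

theorem cone_sub {θ l : ℝ} : coneL ⊆ (mw monL).L (xI l) aS (bI θ) :=
  fun p hp w _ => hp w.1 w.2.1 w.2.2

section core

variable {ι : ℕ → Type*} [∀ n, DecidableEq (ι n)] {B : Base} {I0 I : ∀ n, Finset (ι n)}
  {co : ∀ n, ι n → ι n → Fin 12 → ℝ} {C R : ℝ} {ν : (Fin 12 → ℝ) → ℝ}

theorem vec_nonneg {a b c d e f : ℝ} (ha : 0 ≤ a) (hb : 0 ≤ b) (hc : 0 ≤ c) (hd : 0 ≤ d)
    (he : 0 ≤ e) (hf : 0 ≤ f) :
    ∀ k, 0 ≤ (![a, 0, 0, b, c, d, e, 0, 0, f, 0, 0] : Fin 12 → ℝ) k := by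
  intro k
  fin_cases k
  · exact ha
  · exact le_rfl
  · exact le_rfl
  · exact hb
  · exact hc
  · exact hd
  · exact he
  · exact le_rfl
  · exact le_rfl
  · exact hf
  · exact le_rfl
  · exact le_rfl

theorem vec_le {a b c d e f : ℝ} (ha : a ≤ 1) (hb : b ≤ 1) (hc : c ≤ 1) (hd : d ≤ 1)
    (he : e ≤ 1) (hf : f ≤ 1) :
    ∀ k, (![a, 0, 0, b, c, d, e, 0, 0, f, 0, 0] : Fin 12 → ℝ) k ≤ 1 := by
  intro k
  fin_cases k
  · exact ha
  · exact zero_le_one
  · exact zero_le_one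
  · exact hb
  · exact hc
  · exact hd
  · exact he
  · exact zero_le_one
  · exact zero_le_one
  · exact hf
  · exact zero_le_one
  · exact zero_le_one

set_option maxHeartbeats 2000000 in
/-- **the core of the isotropic row** -/
theorem coreI (hN : NProf B I0 I co monL C R ν) (hcoc : ∀ n, Coc (co n)) (i₀ : ∀ n, ι n)
    {θ l : ℝ} (hθ : 0 < θ) (hl : 0 < l) {x : ℕ → Fin 12 → ℝ} {h : ℕ → ℝ}
    (hpos : ∀ m, 0 < h m) (h0 : Tendsto h atTop (𝓝 0))
    (hx : ∀ m, x m 9 = x m 3 + x m 5) (hx' : ∀ m, x m 9 = x m 4 + x m 6)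
    {lam : (Fin 12 → ℝ) → ℝ}
    (ht : IsTan (Leg monL R) ((mw monL).L (xI l) aS (bI θ)) ν x h lam)
    {K : ℝ} (hK : 0 ≤ K) (hlip : ∀ p ∈ (mw monL).L (xI l) aS (bI θ),
      ∀ q ∈ (mw monL).L (xI l) aS (bI θ), |lam p - lam q| ≤ K * ‖p - q‖)
    {A : ℝ × ℝ} {φ : ℕ → (Fin 12 → ℝ) → ℝ} {r : ℕ → ℝ}
    (H : OutS (gC aS (bI θ)) ((mw monL).L (xI l) aS (bI θ)) (dhC aS (bI θ)) (nC aS (bI θ)) lam A
      φ r) {a : Fin 2} (hdead : DeadL ((mw monL).L (xI l) aS (bI θ)) a lam) {s M : ℝ}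
    (iC : M ≤ -lam uC) (hA1 : 2 * (1 - s) ≤ r (kX θ)) (hrN : r (kN θ) < 1) (hM : 2 * s < M) :
    False := by
  classical
  set L : Set (Fin 12 → ℝ) := (mw monL).L (xI l) aS (bI θ) with hL
  have hθ' : θ ≠ 0 := hθ.ne'
  have hφ0 : ∀ k, φ k 0 = 0 := fun k => H.zero k 0 fun i _ => rfl
  -- the joint C-rate
  have mC : uC ∈ L := by
    rw [hL, mem_LI hl]
    simp [uC, bx9]
  have eC : lam uC = φ 0 uC := by
    rw [H.sum _ mC, gsetI_sum hθ']
    have a1 : φ (kz θ) uC = 0 := H.zero _ _ fun i hi => by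
      rw [(grpI_slots hθ' i).1.1 hi]; rfl
    have a2 : φ (kX θ) uC = 0 := H.zero _ _ fun i hi => by
      rcases (grpI_slots hθ' i).2.1.1 hi with rfl | rfl | rfl <;> rfl
    have a3 : φ (kN θ) uC = 0 := H.zero _ _ fun i hi => by
      rw [(grpI_slots hθ' i).2.2.1 hi]; rfl
    rw [a1, a2, a3]; ring
  have eT : T5 (ind {2, 3} 1) = ![0, 0, 0, 1, 1, 1, 1, 0, 0, 2, 0, 0] := by
    rw [T5_apply]
    funext k; fin_cases k <;> simp [ind] <;> norm_num
  have eC' : φ 0 (T5 (ind {2, 3} 1)) = φ 0 uC := by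
    rw [eT]
    refine H.loc 0 _ _ fun i hi => ?_
    rw [gI_zero] at hi
    fin_cases i <;> simp [uC, bx9] at hi ⊢
  -- the joint X-rate
  have mX : ∀ F : ℝ, F ≤ 1 → bx9 1 0 0 0 1 0 0 0 F ∈ L := by
    intro F hF
    rw [hL, mem_LI hl]
    simp [bx9]
    exact hF
  have sumX : ∀ F : ℝ, F ≤ 1 → lam (bx9 1 0 0 0 1 0 0 0 F) =
      φ (kz θ) (bx9 1 0 0 0 1 0 0 0 0) + φ (kX θ) (bx9 1 0 0 0 1 0 0 0 F) := by
    intro F hF
    rw [H.sum _ (mX F hF), gsetI_sum hθ']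
    have a1 : φ 0 (bx9 1 0 0 0 1 0 0 0 F) = 0 := H.zero _ _ fun i hi => by
      rw [gI_zero] at hi
      fin_cases i <;> simp [bx9] at hi ⊢
    have a2 : φ (kz θ) (bx9 1 0 0 0 1 0 0 0 F) = φ (kz θ) (bx9 1 0 0 0 1 0 0 0 0) :=
      H.loc _ _ _ fun i hi => by
        rw [(grpI_slots hθ' i).1.1 hi]
        show (1:ℝ) = 1
        rfl
    have a3 : φ (kN θ) (bx9 1 0 0 0 1 0 0 0 F) = 0 := H.zero _ _ fun i hi => by
      rw [(grpI_slots hθ' i).2.2.1 hi]; rfl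
    rw [a1, a2, a3]; ring
  have eX : φ (kX θ) (bx9 1 0 0 0 1 0 0 0 0) = -r (kX θ) := by
    have h1 : φ (kX θ) (bx9 1 0 0 0 1 0 0 0 1) = -(r (kX θ) * 1) :=
      H.rate (kX θ) _ (mX 1 le_rfl) 1 fun i hi => by
        rcases (grpI_slots hθ' i).2.1.1 hi with rfl | rfl | rfl
        · rw [dhI_X.2.1]; show (1:ℝ) = 1 * 1; norm_num
        · rw [dhI_X.2.2.1]; show (1:ℝ) = 1 * 1; norm_num
        · rw [dhI_X.2.2.2.2]; show (1:ℝ) = 1 * 1; norm_num
    have k1 : lam (bx9 1 0 0 0 1 0 0 0 1) = lam (bx9 1 0 0 0 1 0 0 0 0) := by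
      have hal : ∀ F F' : ℝ, ∀ k, Al k → bx9 1 0 0 0 1 0 0 0 F k = bx9 1 0 0 0 1 0 0 0 F' k := by
        rintro F F' k ⟨k1, k2, k7, k8, k10, k11⟩
        fin_cases k <;> simp [bx9] at k11 ⊢
      refine le_antisymm ?_ ?_
      · refine hdead _ (mX 1 le_rfl) _ (mX 0 zero_le_one) (hal _ _) ?_ ?_
        · fin_cases a <;> simp [bx9, cs]
        · fin_cases a <;> simp [bx9, xs]
      · refine hdead _ (mX 0 zero_le_one) _ (mX 1 le_rfl) (hal _ _) ?_ ?_
        · fin_cases a <;> simp [bx9, cs]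
        · fin_cases a <;> simp [bx9, xs]
    rw [sumX 1 le_rfl, sumX 0 zero_le_one] at k1
    linarith
  have eX' : φ (kX θ) (T5 (ind {2, 3} 1)) = -r (kX θ) := by
    rw [← eX, eT]
    refine H.loc _ _ _ fun i hi => ?_
    rcases (grpI_slots hθ' i).2.1.1 hi with rfl | rfl | rfl <;> simp [bx9]
  -- the position
  set δ : ℝ := (M - 2 * s) / 2 with hδ
  have hδ0 : 0 < δ := by rw [hδ]; linarith
  obtain ⟨v, hv, G, G', g0, g0', g1, g1', gS, hG, hG'⟩ := exists_posn2 H 0 (kX θ)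
    (T := T5) T5_nonneg (β := bg5) (fun i hi => by
      rw [gI_zero] at hi
      fin_cases i <;> simp [bg5, bx9] at hi ⊢) (fun i hi => by
      rcases (grpI_slots hθ' i).2.1.1 hi with rfl | rfl | rfl <;> rfl) D5_open
    (fun v hv => mem5 hl hv) (S := {2, 3}) (w0 := fun _ => 1) (fun ε hε t ht => path5 hε ht)
    (q := M + r (kX θ)) (δ := δ) (by
      rw [hφ0, hφ0, eC', eX', ← eC]
      linarith) hδ0
  -- relations between the rates
  have s4 : ∀ (G u : Fin 4 → ℝ), ∑ i, G i * u i = G 0 * u 0 + G 1 * u 1 + G 2 * u 2 + G 3 * u 3 :=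
    fun G u => by rw [Fin.sum_univ_four]
  have r3 : G 3 = 0 := by
    have h1 := RateP.uniq H hG (u := Pi.single 3 1) (u' := 0) fun i hi => by
      rw [gI_zero] at hi
      rw [T5_apply, map_zero]
      fin_cases i <;> simp at hi ⊢
    rw [s4, s4] at h1
    simpa using h1
  have r2 : G 2 = G 0 + G 1 := by
    have h1 := RateP.uniq H hG (u := Pi.single 2 1) (u' := ![1, 1, 0, 0]) fun i hi => by
      rw [gI_zero] at hi
      rw [T5_apply, T5_apply]
      fin_cases i <;> simp at hi ⊢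
    rw [s4, s4] at h1
    simpa using h1
  have r2' : G' 2 = 0 := by
    have h1 := RateP.uniq H hG' (u := Pi.single 2 1) (u' := 0) fun i hi => by
      rw [T5_apply, map_zero]
      rcases (grpI_slots hθ' i).2.1.1 hi with rfl | rfl | rfl <;> simp
    rw [s4, s4] at h1
    simpa using h1
  have r3' : G' 3 = G' 0 + G' 1 := by
    have h1 := RateP.uniq H hG' (u := Pi.single 3 1) (u' := ![1, 1, 0, 0]) fun i hi => by
      rw [T5_apply, T5_apply]
      rcases (grpI_slots hθ' i).2.1.1 hi with rfl | rfl | rfl <;> simp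
    rw [s4, s4] at h1
    simpa using h1
  have hsum : M + r (kX θ) - δ ≤ (G 0 + G 1) + (G' 0 + G' 1) := by
    refine gS.trans (le_of_eq ?_)
    rw [Finset.sum_pair (by decide), r2, r3, r2', r3']
    ring
  -- bounds
  have f0 : (Finset.univ.filter fun i => gC aS (bI θ) i = 0) =
      ({1, 2, 3, 4, 7, 8, 10} : Finset (Fin 12)) := by
    ext i
    rw [Finset.mem_filter, gI_zero]
    simp
  have fX : (Finset.univ.filter fun i => gC aS (bI θ) i = kX θ) =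
      ({5, 6, 11} : Finset (Fin 12)) := by
    ext i
    rw [Finset.mem_filter, (grpI_slots hθ' i).2.1]
    simp
  have b0 : G 0 ≤ 1 := by
    refine (g1 0).trans (le_of_eq ?_)
    rw [f0, T5_apply]
    simp
  have b1 : G 1 ≤ 1 := by
    refine (g1 1).trans (le_of_eq ?_)
    rw [f0, T5_apply]
    simp
  have b0' : G' 0 ≤ 1 := by
    refine (g1' 0).trans (le_of_eq ?_)
    rw [fX, T5_apply]
    simp
  have b1' : G' 1 ≤ 1 := by
    refine (g1' 1).trans (le_of_eq ?_)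
    rw [fX, T5_apply]
    simp
  -- the third tangent
  set c0 : Fin 12 → ℝ := bg5 + T5 v with hc0
  have mc0 : c0 ∈ L := mem5 hl hv
  obtain ⟨ψ, ϑ, lam', φ', hψ, hϑ, t1, t2, HL⟩ := exists_lin (J := Unit) (f := fun _ => ν)
    (lam := fun _ => lam) (j0 := ()) hK hpos h0 (fun _ => ht) (fun _ => hlip) H mc0
    (s := fun m => 1 / ((m:ℝ) + 1)) (fun m => by positivity)
    tendsto_one_div_add_atTop_nhds_zero_nat
  have t1 := t1 ()
  have t2 := t2 ()
  set L' : Set (Fin 12 → ℝ) := LT (mw monL) (xI l) aS (bI θ) c0 with hL'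
  have hLL : coneL ⊆ L' := cone_sub.trans L_sub_LT
  have c10 : c0 10 < c0 (cs a) := by
    have := hv 0
    have := hv 1
    have := hv 2
    rw [hc0, T5_apply]
    fin_cases a
    · show (0:ℝ) + 0 < 0 + (v 0 + v 2)
      linarith [(hv 0).1, (hv 2).1]
    · show (0:ℝ) + 0 < 0 + (v 1 + v 2)
      linarith [(hv 1).1, (hv 2).1]
  have c11 : c0 11 < c0 (xs a) := by
    rw [hc0, T5_apply]
    fin_cases a
    · show (0:ℝ) + 0 < 0 + (v 1 + v 3)
      linarith [(hv 1).1, (hv 3).1]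
    · show (0:ℝ) + 0 < 0 + (v 0 + v 3)
      linarith [(hv 0).1, (hv 3).1]
  have spos : ∀ m, 0 < (fun m : ℕ => 1 / ((ϑ m:ℝ) + 1)) m := fun m => by positivity
  have s0 : Tendsto (fun m : ℕ => 1 / ((ϑ m:ℝ) + 1)) atTop (𝓝 0) :=
    (tendsto_one_div_add_atTop_nhds_zero_nat (𝕜 := ℝ)).comp hϑ.tendsto_atTop
  -- the linear formula
  set ρ : Fin 12 → ℝ := ![r (kz θ), 0, 0, G 0, G 1, G' 1, G' 0, 0, 0, r (kN θ), 0, 0] with hρ
  have hlin : ∀ c ∈ coneL, lam' () c = -∑ k, ρ k * c k := by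
    intro c hc
    set c' : Fin 12 → ℝ := ![c 0, 0, 0, c 3, c 4, c 5, c 6, 0, 0, c 9, 0, 0] with hc'
    have mc' : c' ∈ L' := by
      intro w hw htw
      have hw' := (actI_iff hl w).1 hw
      have h1 := (hLL hc) w hw htw
      obtain ⟨k, e, he⟩ := w
      change nf e at hw'
      change c k ≤ ∑ s, (e s : ℝ) * c s at h1
      change c' k ≤ ∑ s, (e s : ℝ) * c' s
      -- wall of slot 11 is not tight
      have hk := nf_slot he hw'
      have hz11 : k ≠ 11 := by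
        rintro rfl
        change c0 11 = ∑ s, (e s : ℝ) * c0 s at htw
        have e11 : c0 11 = 0 := by
          rw [hc0, T5_apply]
          show (0:ℝ) + 0 = 0
          norm_num
        rw [e11, sum12] at htw
        have p0 : 0 < c0 0 := by
          rw [hc0, T5_apply]
          show (0:ℝ) < 8 + 0
          norm_num
        have v0 := (hv 0).1
        have v1 := (hv 1).1
        have v2 := (hv 2).1
        have v3 := (hv 3).1
        have p3 : 0 < c0 3 := by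
          rw [hc0, T5_apply]
          show (0:ℝ) < 0 + (v 0 + v 2)
          linarith
        have p4 : 0 < c0 4 := by
          rw [hc0, T5_apply]
          show (0:ℝ) < 0 + (v 1 + v 2)
          linarith
        have p5 : 0 < c0 5 := by
          rw [hc0, T5_apply]
          show (0:ℝ) < 0 + (v 1 + v 3)
          linarith
        have p6 : 0 < c0 6 := by
          rw [hc0, T5_apply]
          show (0:ℝ) < 0 + (v 0 + v 3)
          linarith
        have p9 : 0 < c0 9 := by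
          rw [hc0, T5_apply]
          show (0:ℝ) < 0 + (v 0 + v 1 + v 2 + v 3)
          linarith
        have p10 : c0 10 = 0 := by
          rw [hc0, T5_apply]
          show (0:ℝ) + 0 = 0
          norm_num
        obtain ⟨n1, n2, n7, n8⟩ := hw'
        rw [n1, n2, n7, n8, p10, e11] at htw
        change e ∈ mfL 11 at he
        simp [mfL] at he
        rcases he with rfl | rfl | rfl | rfl | rfl | rfl | rfl | rfl | rfl | rfl | rfl | rfl |
          rfl <;> simp at n1 n2 n7 n8 htw <;> linarith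
      have hz10 : k ≠ 10 := by
        rintro rfl
        obtain ⟨n1, n2, n7, n8⟩ := hw'
        change e ∈ mfL 10 at he
        simp [mfL] at he
        rcases he with rfl | rfl | rfl | rfl | rfl | rfl | rfl <;> simp at n1 n2 n7 n8
      have hk' : c' k = c k := by
        obtain ⟨k1, k2, k7, k8⟩ := hk
        rw [hc']
        fin_cases k <;> simp at k1 k2 k7 k8 hz10 hz11 ⊢
      have he' : ∑ s, (e s : ℝ) * c' s = ∑ s, (e s : ℝ) * c s := by
        rw [sum12, sum12, hc']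
        obtain ⟨n1, n2, n7, n8⟩ := hw'
        have n11 : e 11 = 0 := monL.low k e he 11 (by
          have h12 := k.isLt
          show k.val ≤ 11
          omega)
        have n10 : e 10 = 0 := monL.low k e he 10 (by
          have h12 := k.isLt
          have h13 : k.val ≠ 11 := fun h => hz11 (Fin.ext h)
          show k.val ≤ 10
          omega)
        rw [n1, n2, n7, n8, n10, n11]
        simp
      rw [hk', he']
      exact h1
    have e1 : lam' () c = lam' () c' := dead3 hdead c10 c11 spos s0 t2 (hLL hc) mc' fun k hk => by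
      obtain ⟨k1, k2, k7, k8, k10, k11⟩ := hk
      rw [hc']
      fin_cases k <;> simp at k1 k2 k7 k8 k10 k11 ⊢
    rw [e1, HL.sum _ mc', gsetI_sum hθ']
    have q0 : φ' 0 c' = -(G 0 * c 3 + G 1 * c 4) := by
      rw [HL.rate H hG mc' (u := ![c 3, c 4, 0, 0]) fun i hi => by
        rw [gI_zero] at hi
        rw [T5_apply, hc']
        fin_cases i <;> simp at hi ⊢]
      rw [s4]
      simp
    have qX : φ' (kX θ) c' = -(G' 0 * c 6 + G' 1 * c 5) := by
      rw [HL.rate H hG' mc' (u := ![c 6, c 5, 0, 0]) fun i hi => by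
        rw [T5_apply, hc']
        rcases (grpI_slots hθ' i).2.1.1 hi with rfl | rfl | rfl <;> simp]
      rw [s4]
      simp
    have qz : φ' (kz θ) c' = -(r (kz θ) * c 0) := by
      refine HL.nat (kz θ) (c0 0) (fun i hi => ?_) c' mc' (c 0) fun i hi => ?_
      · rw [(grpI_slots hθ' i).1.1 hi, dhI_X.1, mul_one]
      · rw [(grpI_slots hθ' i).1.1 hi, dhI_X.1, mul_one]; rfl
    have qN : φ' (kN θ) c' = -(r (kN θ) * c 9) := by
      refine HL.nat (kN θ) (c0 9) (fun i hi => ?_) c' mc' (c 9) fun i hi => ?_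
      · rw [(grpI_slots hθ' i).2.2.1 hi, dhI_X.2.2.2.1, mul_one]
      · rw [(grpI_slots hθ' i).2.2.1 hi, dhI_X.2.2.2.1, mul_one]; rfl
    rw [q0, qX, qz, qN]
    simp only [Fin.sum_univ_succ, hρ]
    simp
    ring
  -- the rate of the height
  have rz0 : 0 ≤ r (kz θ) := H.r_nonneg _ fun i hi => by
    rw [(grpI_slots hθ' i).1.1 hi, dhI_X.1]; norm_num
  have rN0 : 0 ≤ r (kN θ) := H.r_nonneg _ fun i hi => by
    rw [(grpI_slots hθ' i).2.2.1 hi, dhI_X.2.2.2.1]; norm_num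
  have mz : bx9 1 0 0 0 0 0 0 0 0 ∈ L := by
    rw [hL, mem_LI hl]
    simp [bx9]
  have rz1 : r (kz θ) ≤ 1 := by
    have h1 : φ (kz θ) (bx9 1 0 0 0 0 0 0 0 0) = -(r (kz θ) * 1) :=
      H.rate (kz θ) _ mz 1 fun i hi => by
        rw [(grpI_slots hθ' i).1.1 hi, dhI_X.1]; show (1:ℝ) = 1 * 1; norm_num
    have fz : (Finset.univ.filter fun i => gC aS (bI θ) i = kz θ) =
        ({0} : Finset (Fin 12)) := by
      ext i
      rw [Finset.mem_filter, (grpI_slots hθ' i).1]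
      simp
    have h2 := (H.mono (kz θ) 0 (by rw [hL, mem_LI hl]; simp) _ mz fun i hi => by
      rw [(grpI_slots hθ' i).1.1 hi]
      show (0:ℝ) ≤ 1
      norm_num).2
    rw [fz, hφ0, h1, Finset.sum_singleton] at h2
    have e : (bx9 1 0 0 0 0 0 0 0 0 : Fin 12 → ℝ) 0 - (0 : Fin 12 → ℝ) 0 = 1 := by
      show (1:ℝ) - 0 = 1
      norm_num
    rw [e] at h2
    linarith
  have hr : ∀ k, 0 ≤ ρ k := vec_nonneg rz0 (g0 0) (g0 1) (g0' 1) (g0' 0) rN0
  have hr1 : ∀ k, ρ k ≤ 1 := vec_le rz1 b0 b1 b1' b0' hrN.le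
  have hpos3 : ∀ m, 0 < h (ψ m) * (1 / ((ϑ m:ℝ) + 1)) := fun m => mul_pos (hpos _) (spos m)
  have h03 : Tendsto (fun m => h (ψ m) * (1 / ((ϑ m:ℝ) + 1))) atTop (𝓝 0) := by
    have := (h0.comp hψ.tendsto_atTop).mul s0
    simpa using this
  have hleg : Leg monL 1 ⊆ coneL := fun p hp k e he => hp.1.wall k e he
  have e93 : c0 9 = c0 3 + c0 5 := by
    rw [hc0, T5_apply]
    show (0:ℝ) + (v 0 + v 1 + v 2 + v 3) = (0 + (v 0 + v 2)) + (0 + (v 1 + v 3))
    ring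
  have e94 : c0 9 = c0 4 + c0 6 := by
    rw [hc0, T5_apply]
    show (0:ℝ) + (v 0 + v 1 + v 2 + v 3) = (0 + (v 1 + v 2)) + (0 + (v 0 + v 3))
    ring
  have F1 := RfI468.h1I hN hcoc hpos3 h03 t1 one_pos (hleg.trans hLL)
    (fun c hc => hlin c (hleg hc)) hr hr1 i₀ (fun m => by
      simp only [Pi.add_apply, Pi.smul_apply, smul_eq_mul]
      rw [hx, e93]; ring)
  have F2 := RfI468.h2I hN hcoc hpos3 h03 t1 one_pos (hleg.trans hLL)
    (fun c hc => hlin c (hleg hc)) hr hr1 i₀ (fun m => by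
      simp only [Pi.add_apply, Pi.smul_apply, smul_eq_mul]
      rw [hx', e94]; ring)
  have k1 : ρ 3 ≤ 1 - ρ 5 := by
    by_contra hcon
    exact absurd (F1 (not_le.1 hcon)) (not_le.2 hrN)
  have k2 : ρ 4 ≤ 1 - ρ 6 := by
    by_contra hcon
    exact absurd (F2 (not_le.1 hcon)) (not_le.2 hrN)
  have k3 : G 0 ≤ 1 - G' 1 := k1
  have k4 : G 1 ≤ 1 - G' 0 := k2
  rw [hδ] at hsum
  linarith

end core

end Crest.Agent.R116.SgI337
end

-- ▼ part R116/KS3_439
section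

/-!
# R116 (K side), I-c (helper439): round marks have equal exponents

`theta_eq_of_thick` : `Thick` ⊢ `θ 0 = θ 1`;  `OutR.theta_eq`.
-/

set_option autoImplicit false
set_option linter.unusedVariables false

open Finset Filter Topology

namespace Crest.Agent.R116.KS439

open Crest.Agent.R138.Ex926 (Base U)
open Crest.Agent.R138.Dp76 (dpow_pos)
open Crest.Agent.R138.ArgM163 (log_dpow)
open Crest.Agent.R138.Mk163 (zc zl rho alive own)
open Crest.Agent.R136.MkA627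
open Crest.Agent.R116.LZg725
open Crest.Agent.R116.Gd222 (TSet)
open Crest.Agent.R116.KI439
open Crest.Agent.R116.KF439 (IsL ValL Thin Thick mark_L SL)
open Crest.Agent.R116.Tw468 (OutT OutR)

variable {r : ℕ → ℝ} {L : ℕ → ℕ → LRay} {B : Base} {I : ℕ → Finset (ℕ × ℝ)}
    {G : Geo SL (Fin 2)} {lev : ℕ → ℚ → ℕ} {A : ℕ → ℝ} {c Λ : ℝ → ℝ} {τ : Fin 2 → ℝ → ℝ}
    {f : ℕ → ℚ → ℕ → ℤ → ℕ} {b : ℕ → ℚ → ℕ → SL} {vm : ℕ → ℚ → ℝ} {w : Fin 2 → ℕ → ℚ → ℝ}

/-- in the round case `log (w 0 / w 1) = o(L)` at every level. -/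
theorem round_lim (h : MkA B I G lev A c Λ τ f b vm w) (hG : IsL G L r) (hT : Thick B w)
    {v : ℚ} (h0 : 0 ≤ v) (h1 : v ≤ 1) :
    Tendsto (fun n => Real.log (w 0 n v / w 1 n v) / B.L n) U (𝓝 0) := by
  rw [Metric.tendsto_nhds]
  intro ε hε
  filter_upwards [hT (ε / 2) (half_pos hε) v h0 h1, mark_L h hG h0 h1, h.ne,
    h.wpos 0 v h0 h1, h.wpos 1 v h0 h1] with n a1 a2 hne p0 p1
  obtain ⟨x, hx⟩ := hne
  obtain ⟨-, b2, -⟩ := (a2 x hx).le
  have hL := B.L_pos n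
  have k1 : 0 ≤ Real.log (w 0 n v / w 1 n v) :=
    Real.log_nonneg ((one_le_div p1).2 b2)
  have k2 : Real.log (w 0 n v / w 1 n v) ≤ ε / 2 * B.L n := by
    have h3 := Real.log_le_log (mul_pos (dpow_pos B n (ε / 2)) p0) a1
    rw [Real.log_mul (dpow_pos B n _).ne' p0.ne', log_dpow] at h3
    rw [Real.log_div p0.ne' p1.ne']
    linarith
  rw [Real.dist_eq, sub_zero, abs_of_nonneg (div_nonneg k1 hL.le), div_lt_iff₀ hL]
  have : ε / 2 * B.L n < ε * B.L n := mul_lt_mul_of_pos_right (by linarith) hL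
  linarith

/-- **the exponents of the two widths agree in the round case** (all levels). -/
theorem tau_eq_of_thick (h : MkA B I G lev A c Λ τ f b vm w) (hG : IsL G L r) (hT : Thick B w)
    {v : ℚ} (h0 : 0 ≤ v) (h1 : v ≤ 1) : τ 0 v = τ 1 v := by
  have t0 := h.tau 0 v h0 h1
  have t1 := h.tau 1 v h0 h1
  have s0 := round_lim h hG hT h0 h1
  have s1 := round_lim h hG hT (v := 1) zero_le_one le_rfl
  have key : Tendsto (fun n => Real.log (rho (lev n v) / w 1 n v / (rho (lev n 1) / w 1 n 1)) /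
      B.L n - Real.log (rho (lev n v) / w 0 n v / (rho (lev n 1) / w 0 n 1)) / B.L n) U
      (𝓝 (0 - 0)) := by
    refine (s0.sub s1).congr' ?_
    filter_upwards [h.wpos 0 v h0 h1, h.wpos 1 v h0 h1, h.wpos 0 1 zero_le_one le_rfl,
      h.wpos 1 1 zero_le_one le_rfl] with n p0 p1 q0 q1
    have r1 : 0 < rho (lev n v) := by unfold rho; positivity
    have r2 : 0 < rho (lev n 1) := by unfold rho; positivity
    rw [← sub_div, ← sub_div, Real.log_div (div_pos r1 p1).ne' (div_pos r2 q1).ne',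
      Real.log_div (div_pos r1 p0).ne' (div_pos r2 q0).ne', Real.log_div r1.ne' p1.ne',
      Real.log_div r1.ne' p0.ne', Real.log_div r2.ne' q1.ne', Real.log_div r2.ne' q0.ne',
      Real.log_div p0.ne' p1.ne', Real.log_div q0.ne' q1.ne']
    congr 1
    ring
  have := tendsto_nhds_unique key (t1.sub t0)
  linarith

/-- **`θ 0 = θ 1` in the round case.** -/
theorem theta_eq_of_thick {θ : Fin 2 → ℝ}
    (h : MkA B I G lev A c Λ (fun j v => θ j * (1 - v)) f b vm w) (hG : IsL G L r)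
    (hT : Thick B w) : θ 0 = θ 1 := by
  have := tau_eq_of_thick h hG hT (v := 0) le_rfl zero_le_one
  simpa using this

/-- the output `OutR` has equal exponents. -/
theorem OutR.theta_eq {g s : ℝ} {θ q : Fin 2 → ℝ} {Rg : ℝ} {a : Fin 2} {A : ℕ → ℝ}
    (h : OutR G L r g s θ q Rg a B I lev A f b vm w) : θ 0 = θ 1 :=
  theta_eq_of_thick h.win.sys.mka h.win.isL h.thick

end Crest.Agent.R116.KS439
end

-- ▼ part R116/SgI3_337
section

/-!
# R116, K-TEXT II-c, the ISOTROPIC record (helper337), part 3: from `CtxR` to the record tangent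

* `flat_co`   : relative coordinates of flat flags
* `nu_flat`   : the flag slots are dead, `P` and `F` are dead below `C_a`, `X_a`
* `exists_rec`: record tangents exist
* `profI_of`, `dmaxI_of` : `ProfI`, D-max and record identity of the record tangent
-/

set_option autoImplicit false
set_option linter.unusedVariables false

open Finset Filter Topology

namespace Crest.Agent.R116.SgI337

open Crest.Agent.R138.Defs (E2)
open Crest.Agent.R138.Ex926 (Base U IsTan)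
open Crest.Agent.R138.Mk163 (rho)
open Crest.Agent.R138.Dp76 (dpow_pos)
open Crest.Agent.R136.MkA627
open Crest.Agent.R136.Net191
open Crest.Agent.R136.Lq196
open Crest.Agent.R116.LZg725
open Crest.Agent.R116.ChL222
open Crest.Agent.R116.PL504 (nb rL DN eL Shift ps ps_pos ps_eq uL oL)
open Crest.Agent.R116.Gd222 (TSet PDL DT)
open Crest.Agent.R116.KI439 (LRay)
open Crest.Agent.R116.KF439 (flF flatc Thick)
open Crest.Agent.R116.Xd954 (cs xs prof_dead)
open Crest.Agent.R116.Tw468 (OutR)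
open Crest.Agent.R116.CtxB468
open Crest.Agent.R116.Sg337

/-! ### flat flags -/

theorem flat_co (a : Fin 2) (L : ℕ → ℕ → LRay) (n : ℕ) (x y : ℕ × ℝ) :
    coL (flF a L n x) (flF a L n y) 1 = 0 ∧ coL (flF a L n x) (flF a L n y) 2 = 0 ∧
    coL (flF a L n x) (flF a L n y) 7 = 0 ∧ coL (flF a L n x) (flF a L n y) 8 = 0 ∧
    coL (flF a L n x) (flF a L n y) 10 = coL (flF a L n x) (flF a L n y) (cs a) ∧
    coL (flF a L n x) (flF a L n y) 11 = coL (flF a L n x) (flF a L n y) (xs a) := by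
  have hb : ∀ u : ℕ × ℝ, (flF a L n u).b1 = (EuclideanSpace.single a (1:ℝ) : E2) 0 ∧
      (flF a L n u).b2 = (EuclideanSpace.single a (1:ℝ) : E2) 1 ∧ (flF a L n u).et = 0 ∧
      (flF a L n u).d = 0 := by
    intro u
    refine ⟨?_, ?_, ?_, ?_⟩
    · show Bm903.grr (flatc a) _ 0 = _
      rw [KF439.flatc_grr]
    · show Bm903.grr (flatc a) _ 1 = _
      rw [KF439.flatc_grr]
    · exact KF439.flatc_ny a _
    · exact KF439.flatc_d a
  obtain ⟨x1, x2, x3, x4⟩ := hb x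
  obtain ⟨y1, y2, y3, y4⟩ := hb y
  unfold coL
  simp only [x1, x2, x3, x4, y1, y2, y3, y4]
  fin_cases a <;> simp [cs, xs]

section nu

variable {G : Geo TSet (Fin 2)} {L : ℕ → ℕ → LRay} {r : ℕ → ℝ} {g s : ℝ} {θ q : Fin 2 → ℝ}
    {Rg : ℝ} {a : Fin 2} {B : Base}
    {I : ℕ → Finset (ℕ × ℝ)} {lev : ℕ → ℚ → ℕ} {A : ℕ → ℝ}
    {f : ℕ → ℚ → ℕ → ℤ → ℕ} {b : ℕ → ℚ → ℕ → TSet} {vm : ℕ → ℚ → ℝ} {w : Fin 2 → ℕ → ℚ → ℝ}
    {w0 sa sb δ R : ℝ} {I0 I' : ℕ → Finset (ℕ × ℝ)} {ν own : (Fin 12 → ℝ) → ℝ} {c₀ : ℝ}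

/-- the ratio of the units -/
theorem ratio_le (h : CtxR G L r g s θ q Rg a B I lev A f b vm w w0 sa sb δ R I0 I' ν own c₀)
    {ε : ℝ} (hε : 0 < ε) : ∀ᶠ n in (U : Filter ℕ),
      (B.d n ^ sb / ps (w 1 n 1 / rho (lev n 1))) ≤
        (B.d n ^ sa / ps (w 0 n 1 / rho (lev n 1))) * B.d n ^ (sb - sa - ε) := by
  filter_upwards [h.out.thick ε hε 1 zero_le_one le_rfl, h.mka.wpos 0 1 zero_le_one le_rfl,
    h.mka.wpos 1 1 zero_le_one le_rfl] with n h1 p0 p1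
  have hr : 0 < rho (lev n 1) := PL504.rho_pos _
  rw [ps_eq (div_pos p0 hr), ps_eq (div_pos p1 hr)]
  have hD := B.pos n
  have d1 := dpow_pos B n sb
  have d2 := dpow_pos B n sa
  have d3 := dpow_pos B n ε
  have e : B.d n ^ (sb - sa - ε) = B.d n ^ sb / B.d n ^ sa / B.d n ^ ε := by
    rw [Real.rpow_sub hD, Real.rpow_sub hD]
  rw [e, div_le_iff₀ (div_pos p1 hr)]
  have e2 : B.d n ^ sa / (w 0 n 1 / rho (lev n 1)) * (B.d n ^ sb / B.d n ^ sa / B.d n ^ ε) *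
      (w 1 n 1 / rho (lev n 1)) = B.d n ^ sb * (w 1 n 1 / (B.d n ^ ε * w 0 n 1)) := by
    field_simp
  rw [e2]
  have h2 : 1 ≤ w 1 n 1 / (B.d n ^ ε * w 0 n 1) := by
    rw [one_le_div (mul_pos d3 p0)]; exact h1
  nlinarith

/-- **dead slots of flat flags** -/
theorem nu_flat (h : CtxR G L r g s θ q Rg a B I lev A f b vm w w0 sa sb δ R I0 I' ν own c₀)
    {p p' : Fin 12 → ℝ} (hp : p ∈ Leg monL R) (hp' : p' ∈ Leg monL R)
    (hk : ∀ k, k ≠ 1 → k ≠ 2 → k ≠ 7 → k ≠ 8 → k ≠ 10 → k ≠ 11 → p' k ≤ p k)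
    (h10 : p' 10 ≤ p 10 ∨ p' 10 ≤ p (cs a) + (sb - sa))
    (h11 : p' 11 ≤ p 11 ∨ p' 11 ≤ p (xs a) + (sb - sa)) : ν p ≤ ν p' := by
  refine prof_dead h.ext.chart h.ext.sub h.ext.ne h.ext.prof hp hp' fun K hK ε hε => ?_
  have hK0 : 0 < K := by linarith
  have hε2 := half_pos hε
  filter_upwards [ratio_le h hε2, Xd954.ev_fin B (α := K) hK0 hε] with n hr hfin x hx y hy hn k
  have hD := B.pos n
  have hD1 := (B.lt n).le
  obtain ⟨c1, c2, c7, c8, c10, c11⟩ := flat_co a L n x y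
  have dp := fun t => dpow_pos B n t
  -- exponents
  have mono : ∀ {u v : ℝ}, v ≤ u → B.d n ^ u ≤ B.d n ^ v := fun huv =>
    Real.rpow_le_rpow_of_exponent_ge hD hD1 huv
  have std : ∀ k, p' k ≤ p k →
      |PL504.coN B lev w w0 sa sb (flF a L) n x y k| ≤ B.d n ^ (p' k - ε) := by
    intro k hk
    refine hfin _ _ ((hn k).trans (mul_le_mul_of_nonneg_left (mono ?_) hK0.le))
    linarith
  have zer : ∀ k, coL (flF a L n x) (flF a L n y) k = 0 →
      |PL504.coN B lev w w0 sa sb (flF a L) n x y k| ≤ B.d n ^ (p' k - ε) := by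
    intro k hk
    unfold PL504.coN
    rw [hk, mul_zero, abs_zero]
    exact (dp _).le
  -- dead slots
  have dd : ∀ (k j : Fin 12) (lz : ℝ), 0 ≤ lz →
      PL504.cN B lev w w0 sa sb n k = lz * (B.d n ^ sb / ps (w 1 n 1 / rho (lev n 1))) →
      PL504.cN B lev w w0 sa sb n j = lz * (B.d n ^ sa / ps (w 0 n 1 / rho (lev n 1))) →
      coL (flF a L n x) (flF a L n y) k = coL (flF a L n x) (flF a L n y) j →
      p' k ≤ p j + (sb - sa) →
      |PL504.coN B lev w w0 sa sb (flF a L) n x y k| ≤ B.d n ^ (p' k - ε) := by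
    intro k j lz hlz ek ej hc hle
    have h1 := hn j
    unfold PL504.coN at h1 ⊢
    rw [ek, hc, abs_mul]
    rw [ej, abs_mul] at h1
    have l1 : 0 ≤ B.d n ^ sb / ps (w 1 n 1 / rho (lev n 1)) :=
      (div_pos (dp _) (ps_pos _)).le
    have l0 : 0 ≤ B.d n ^ sa / ps (w 0 n 1 / rho (lev n 1)) :=
      (div_pos (dp _) (ps_pos _)).le
    rw [abs_of_nonneg (mul_nonneg hlz l1)]
    rw [abs_of_nonneg (mul_nonneg hlz l0)] at h1
    refine hfin _ _ ?_
    set cj := |coL (flF a L n x) (flF a L n y) j| with hcj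
    have hcj0 : 0 ≤ cj := abs_nonneg _
    calc lz * (B.d n ^ sb / ps (w 1 n 1 / rho (lev n 1))) * cj
        ≤ lz * ((B.d n ^ sa / ps (w 0 n 1 / rho (lev n 1))) * B.d n ^ (sb - sa - ε / 2)) * cj :=
          mul_le_mul_of_nonneg_right (mul_le_mul_of_nonneg_left hr hlz) hcj0
      _ = lz * (B.d n ^ sa / ps (w 0 n 1 / rho (lev n 1))) * cj * B.d n ^ (sb - sa - ε / 2) := by
          ring
      _ ≤ K * B.d n ^ p j * B.d n ^ (sb - sa - ε / 2) :=
          mul_le_mul_of_nonneg_right h1 (dp _).le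
      _ = K * B.d n ^ (p j + (sb - sa - ε / 2)) := by
          rw [mul_assoc, ← Real.rpow_add hD]
      _ ≤ K * B.d n ^ (p' k - ε / 2) := by
          refine mul_le_mul_of_nonneg_left (mono ?_) hK0.le
          linarith
  by_cases k1 : k = 1
  · rw [k1]; exact zer 1 c1
  by_cases k2 : k = 2
  · rw [k2]; exact zer 2 c2
  by_cases k7 : k = 7
  · rw [k7]; exact zer 7 c7
  by_cases k8 : k = 8
  · rw [k8]; exact zer 8 c8
  by_cases k10 : k = 10
  · rw [k10]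
    rcases h10 with h10 | h10
    · exact std 10 h10
    · refine dd 10 (cs a) 1 zero_le_one ?_ ?_ c10 h10
      · rw [one_mul]; rfl
      · rw [one_mul]
        exact Xd954.uL_cs _ _ _ a
  by_cases k11 : k = 11
  · rw [k11]
    rcases h11 with h11 | h11
    · exact std 11 h11
    · refine dd 11 (xs a) ((2:ℝ) ^ lev n 0 * B.d n ^ w0)
        (mul_pos (by positivity) (dp _)).le ?_ ?_ c11 h11
      · rfl
      · exact Xd954.uL_xs _ _ _ a
  · exact std k (hk k k1 k2 k7 k8 k10 k11)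

/-! ### the record tangent -/

theorem cone_zero : (0 : Fin 12 → ℝ) ∈ coneL := by
  intro k e _
  simp

theorem coneL_closed : IsClosed coneL := by
  have e : coneL = ⋂ k : Fin 12, ⋂ e : {e // e ∈ monL.mon k},
      {p : Fin 12 → ℝ | p k ≤ ∑ s, (e.1 s : ℝ) * p s} := by
    ext p; simp [coneL]
  rw [e]
  refine isClosed_iInter fun k => isClosed_iInter fun e => ?_
  exact isClosed_le (continuous_apply _)
    (continuous_finset_sum _ fun s _ => continuous_const.mul (continuous_apply s))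

/-- interior of the ranges of the record point -/
theorem rec_mem {θa θb : ℝ} (sh : Shift θa θb w0 sa sb δ R) {v0 : ℝ} (h0 : 0 ≤ v0) (h1 : v0 ≤ 1)
    (hR : ∀ k, rL θa θb w0 sa sb v0 k < R) {hh : ℕ → ℝ} (hpos : ∀ l, 0 < hh l)
    (hh0 : Tendsto hh atTop (𝓝 0)) (C : ℝ) : ∀ᶠ l in atTop, ∀ c ∈ coneL, ‖c‖ ≤ C →
      rL θa θb w0 sa sb v0 + hh l • c ∈ Leg monL R := by
  have key : ∀ k : Fin 12, ∀ᶠ l in atTop, ∀ c : Fin 12 → ℝ, ‖c‖ ≤ C →
      0 ≤ rL θa θb w0 sa sb v0 k + hh l * c k ∧ rL θa θb w0 sa sb v0 k + hh l * c k ≤ R := by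
    intro k
    have hp : 0 < rL θa θb w0 sa sb v0 k := sh.d0.trans_le (sh.rL_pos h0 h1 k)
    have hm : 0 < min (rL θa θb w0 sa sb v0 k) (R - rL θa θb w0 sa sb v0 k) :=
      lt_min hp (by linarith [hR k])
    have h2 : Tendsto (fun l => hh l * |C|) atTop (𝓝 0) := by
      have := hh0.mul_const |C|
      simpa using this
    filter_upwards [h2.eventually_lt_const hm] with l hl c hc
    have h3 := norm_le_pi_norm c k
    rw [Real.norm_eq_abs] at h3
    have h4 : |c k| ≤ |C| := h3.trans (hc.trans (le_abs_self C))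
    have h5 : |hh l * c k| ≤ hh l * |C| := by
      rw [abs_mul, abs_of_pos (hpos l)]
      exact mul_le_mul_of_nonneg_left h4 (hpos l).le
    have h6 := h5.trans hl.le
    obtain ⟨h7, h8⟩ := abs_le.1 h6
    have h9 := min_le_left (rL θa θb w0 sa sb v0 k) (R - rL θa θb w0 sa sb v0 k)
    have h10 := min_le_right (rL θa θb w0 sa sb v0 k) (R - rL θa θb w0 sa sb v0 k)
    constructor <;> linarith
  filter_upwards [eventually_all.2 key] with l hl c hc hcC
  refine ⟨⟨fun k => ?_, fun k e he => ?_⟩, fun k => ?_⟩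
  · exact (hl k c hcC).1
  · have e1 : rL θa θb w0 sa sb v0 k = ∑ s, (e s : ℝ) * rL θa θb w0 sa sb v0 s := by
      rw [PL504.rL_nb]
      exact (PL504.eL_wall _ _ _ k he).symm
    have e2 := mul_le_mul_of_nonneg_left (hc k e he) (hpos l).le
    show rL θa θb w0 sa sb v0 k + hh l * c k ≤
      ∑ s, (e s : ℝ) * (rL θa θb w0 sa sb v0 s + hh l * c s)
    have e3 : ∑ s, (e s : ℝ) * (rL θa θb w0 sa sb v0 s + hh l * c s) =
        ∑ s, (e s : ℝ) * rL θa θb w0 sa sb v0 s + hh l * ∑ s, (e s : ℝ) * c s := by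
      rw [Finset.mul_sum, ← Finset.sum_add_distrib]
      exact Finset.sum_congr rfl fun s _ => by ring
    rw [e3, ← e1]
    linarith
  · exact (hl k c hcC).2

/-- Lipschitz bound of the profile in the norm -/
theorem lip_norm {P : Set (Fin 12 → ℝ)} {f : (Fin 12 → ℝ) → ℝ}
    (hm : ∀ p ∈ P, ∀ q ∈ P, p ≤ q → 0 ≤ f p - f q ∧ f p - f q ≤ ∑ k, (q k - p k))
    (hs : ∀ p ∈ P, ∀ q ∈ P, p ⊔ q ∈ P) :
    ∀ p ∈ P, ∀ q ∈ P, |f p - f q| ≤ 12 * ‖p - q‖ := by
  intro p hp q hq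
  have hsq := hs p hp q hq
  have h1 := hm p hp _ hsq le_sup_left
  have h2 := hm q hq _ hsq le_sup_right
  have hb : ∀ a b : Fin 12 → ℝ, ∑ k, ((a ⊔ b) k - a k) ≤ (12 : ℝ) * ‖a - b‖ := by
    intro a b
    calc ∑ k, ((a ⊔ b) k - a k) ≤ ∑ _k : Fin 12, ‖a - b‖ := by
          refine Finset.sum_le_sum fun k _ => ?_
          have h3 := norm_le_pi_norm (a - b) k
          rw [Pi.sub_apply, Real.norm_eq_abs] at h3
          have h4 := abs_le.1 h3
          rw [Pi.sup_apply]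
          rcases le_total (a k) (b k) with hab | hab
          · rw [sup_eq_right.2 hab]; linarith [h4.1]
          · rw [sup_eq_left.2 hab]; linarith [norm_nonneg (a - b)]
      _ = (12 : ℝ) * ‖a - b‖ := by simp
  have h3 := hb p q
  have h4 := hb q p
  rw [sup_comm, norm_sub_rev] at h4
  rw [abs_le]
  constructor <;> linarith [h1.1, h1.2, h2.1, h2.2]

/-- **record tangents exist** -/
theorem exists_rec (h : CtxR G L r g s θ q Rg a B I lev A f b vm w w0 sa sb δ R I0 I' ν own c₀)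
    {v0 : ℝ} (h0 : 0 ≤ v0) (h1 : v0 ≤ 1) (hR : ∀ k, rL (θ 0) (θ 1) w0 sa sb v0 k < R)
    {hh : ℕ → ℝ} (hpos : ∀ l, 0 < hh l) (hh0 : Tendsto hh atTop (𝓝 0)) :
    ∃ φ : ℕ → ℕ, StrictMono φ ∧ ∃ lam : (Fin 12 → ℝ) → ℝ,
      IsTan (Leg monL R) coneL ν (fun _ => rL (θ 0) (θ 1) w0 sa sb v0) (fun l => hh (φ l)) lam := by
  obtain ⟨φ, hφ, lam, hlam⟩ := Crest.Agent.R136.Rc683.exists_tan (J := Unit) (P := fun _ => Leg monL R)
    (D := fun _ => coneL) (ν := fun _ => ν) (fun _ => coneL_closed) (K := 12) (by norm_num)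
    (fun _ => lip_norm h.ext.lip fun p hp q hq => Leg.sup hp hq)
    (x := fun _ => rL (θ 0) (θ 1) w0 sa sb v0) hpos
    (fun _ C => rec_mem h.sh h0 h1 hR hpos hh0 C) (fun _ => cone_zero)
  exact ⟨φ, hφ, lam (), hlam ()⟩

/-- **the record tangent satisfies `ProfI`** -/
theorem profI_of (h : CtxR G L r g s θ q Rg a B I lev A f b vm w w0 sa sb δ R I0 I' ν own c₀)
    (hθ : θ 0 = θ 1) {v0 : ℝ} (hv0 : 0 < v0) (hv1 : v0 < 1)
    {hh : ℕ → ℝ} (hpos : ∀ l, 0 < hh l) (hh0 : Tendsto hh atTop (𝓝 0))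
    {lam : (Fin 12 → ℝ) → ℝ}
    (ht : IsTan (Leg monL R) coneL ν (fun _ => rL (θ 0) (θ 1) w0 sa sb v0) hh lam) :
    ProfI s a lam where
  anti := fun p hp q hq hpq => SgO219.tan_mono hpos ht h.ext.lip p hp q hq hpq
  sm := fun p hp q hq hpq => by
    have h1 := SgO219.tan_smod (P := Leg monL R) (L := coneL) hpos ht
      (fun p hp q hq hi _ => by
        have := h.ext.submod p hp q hq hi
        linarith)
      p hp q hq hpq (coneL_sup hp hq)
    linarith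
  own := fun p hp q hq hpq => by
    have h1 := SgO219.tan_lim hpos ht hp hq
    refine ge_of_tendsto h1 ?_
    have e0 : ∀ c : ℝ, Tendsto (fun l => v0 + hh l * c) atTop (𝓝 v0) := fun c => by
      have := (hh0.mul_const c).const_add v0
      simpa using this
    filter_upwards [SgO219.tan_ev ht hp, SgO219.tan_ev ht hq,
      (e0 (p 0)).eventually (Ioo_mem_nhds hv0 hv1), (e0 (q 0)).eventually (Ioo_mem_nhds hv0 hv1)]
      with l m1 m2 n1 n2
    have hl := hpos l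
    have h2 := PL504.own_inc h.ext m1 m2 (fun k => by
        simp only [Pi.add_apply, Pi.smul_apply, smul_eq_mul]
        have := mul_le_mul_of_nonneg_left (hpq k) hl.le
        linarith) (v := v0 + hh l * p 0) (v' := v0 + hh l * q 0) n1.1.le n1.2.le n2.1.le n2.2.le
      (by simp only [Pi.add_apply, Pi.smul_apply, smul_eq_mul, PL504.rL_zero_slot]; ring)
      (by simp only [Pi.add_apply, Pi.smul_apply, smul_eq_mul, PL504.rL_zero_slot]; ring)
      (fun k => by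
        by_cases hk : k = 0
        · rw [hk, oz]
          simp only [Pi.add_apply, Pi.smul_apply, smul_eq_mul, PL504.rL_zero_slot]
          linarith
        · rw [oR hk hk]
          exact m1.2 k)
    rw [le_div_iff₀ hl]
    nlinarith
  dead := fun p hp q hq hpq => by
    have key : ∀ p ∈ coneL, ∀ q ∈ coneL, (∀ k, k ≠ 1 → k ≠ 2 → k ≠ 7 → k ≠ 8 → p k = q k) →
        lam p ≤ lam q := by
      intro p hp q hq hpq
      have h1 := SgO219.tan_lim hpos ht hp hq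
      have h2 : lam p - lam q ≤ 0 := by
        refine le_of_tendsto h1 ?_
        filter_upwards [SgO219.tan_ev ht hp, SgO219.tan_ev ht hq] with l m1 m2
        have h3 := nu_flat h m1 m2 (fun k k1 k2 k7 k8 _ _ => by
          simp only [Pi.add_apply, Pi.smul_apply, smul_eq_mul]
          rw [hpq k k1 k2 k7 k8]) (Or.inl (by
            simp only [Pi.add_apply, Pi.smul_apply, smul_eq_mul]
            rw [hpq 10 (by decide) (by decide) (by decide) (by decide)])) (Or.inl (by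
            simp only [Pi.add_apply, Pi.smul_apply, smul_eq_mul]
            rw [hpq 11 (by decide) (by decide) (by decide) (by decide)]))
        exact div_nonpos_of_nonpos_of_nonneg (by linarith) (hpos l).le
      linarith
    exact le_antisymm (key p hp q hq hpq)
      (key q hq p hp fun k k1 k2 k7 k8 => (hpq k k1 k2 k7 k8).symm)
  deadP := fun p hp q hq hpq h10 h11 => by
    have h1 := SgO219.tan_lim hpos ht hp hq
    have h2 : lam p - lam q ≤ 0 := by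
      refine le_of_tendsto h1 ?_
      filter_upwards [SgO219.tan_ev ht hp, SgO219.tan_ev ht hq] with l m1 m2
      have hl := hpos l
      have e10 : rL (θ 0) (θ 1) w0 sa sb v0 10 =
          rL (θ 0) (θ 1) w0 sa sb v0 (cs a) + (sb - sa) := by
        rw [hθ, PL504.rL_nb, Xd954.nb_cs]
        show sb + θ 1 * (1 - v0) = _
        ring
      have e11 : rL (θ 0) (θ 1) w0 sa sb v0 11 =
          rL (θ 0) (θ 1) w0 sa sb v0 (xs a) + (sb - sa) := by
        rw [hθ, PL504.rL_nb, Xd954.nb_xs]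
        show (w0 + v0) + (sb + θ 1 * (1 - v0)) = _
        ring
      have h3 := nu_flat h m1 m2 (fun k k1 k2 k7 k8 k10 k11 => by
        simp only [Pi.add_apply, Pi.smul_apply, smul_eq_mul]
        rw [hpq k k1 k2 k7 k8 k10 k11]) (by
          simp only [Pi.add_apply, Pi.smul_apply, smul_eq_mul]
          rcases h10 with h10 | h10
          · left
            have := mul_le_mul_of_nonneg_left h10 hl.le
            linarith
          · right
            rw [e10]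
            have := mul_le_mul_of_nonneg_left h10 hl.le
            linarith) (by
          simp only [Pi.add_apply, Pi.smul_apply, smul_eq_mul]
          rcases h11 with h11 | h11
          · left
            have := mul_le_mul_of_nonneg_left h11 hl.le
            linarith
          · right
            rw [e11]
            have := mul_le_mul_of_nonneg_left h11 hl.le
            linarith)
      exact div_nonpos_of_nonpos_of_nonneg (by linarith) (hpos l).le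
    linarith

/-- **D-max and the record identity for the record tangent, round case** -/
theorem dmaxI_of (h : CtxR G L r g s θ q Rg a B I lev A f b vm w w0 sa sb δ R I0 I' ν own c₀)
    (hθ : θ 0 = θ 1) (hθ0 : 0 < θ 0) (hRg : θ 0 < Rg) {v0 : ℝ} (hv0 : 0 < v0) (hv1 : v0 < 1)
    (hR : ∀ k, rL (θ 0) (θ 1) w0 sa sb v0 k < R)
    {hh : ℕ → ℝ} (hpos : ∀ l, 0 < hh l) (hh0 : Tendsto hh atTop (𝓝 0))
    {lam : (Fin 12 → ℝ) → ℝ}
    (ht : IsTan (Leg monL R) coneL ν (fun _ => rL (θ 0) (θ 1) w0 sa sb v0) hh lam) :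
    (∀ v x : ℝ, lam (natB v x x) ≤ DL g s (q 0) (q 1) v x x) ∧
      ∀ t : ℝ, lam (natB t (-(θ 0 * t)) (-(θ 0 * t))) =
        DL g s (q 0) (q 1) t (-(θ 0 * t)) (-(θ 0 * t)) := by
  have hz := Sg337.tan_zero hpos ht cone_zero
  have hin0 : nb w0 sa sb v0 (θ 0 * (1 - v0)) (θ 1 * (1 - v0)) ∈ PDL w0 sa sb Rg 0 0 R := by
    have hl := h.sh.rL_leg hv0.le hv1.le
    rw [PL504.rL_nb] at hl
    have h1 : 0 < θ 0 * (1 - v0) := mul_pos hθ0 (by linarith)
    have h2 : θ 0 * (1 - v0) ≤ θ 0 := by nlinarith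
    refine nb_PD hl hv0.le hv1.le h1 (by linarith) ?_ ?_
    · rw [← hθ, abs_of_pos h1]; linarith
    · rw [← hθ, add_zero]
  have hr0 := h.ext.record v0 hv0.le hv1.le
  have hd0 := h.ext.dmax _ hin0
  rw [DT_nb] at hd0
  rw [EL_DN] at hr0
  rw [← PL504.rL_nb] at hd0
  have hx : ∀ (t v x y : ℝ), rL (θ 0) (θ 1) w0 sa sb v0 + t • natB v x y =
      nb w0 sa sb (v0 + t * v) (θ 0 * (1 - v0) + t * x) (θ 1 * (1 - v0) + t * y) := by
    intro t v x y
    rw [PL504.rL_nb, PL504.nb_add, PL504.eL_smul, eL_bx9]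
  have hlim : ∀ v x y : ℝ, Tendsto (fun l =>
      (ν (rL (θ 0) (θ 1) w0 sa sb v0 + hh l • natB v x y) -
        ν (rL (θ 0) (θ 1) w0 sa sb v0)) / hh l) atTop (𝓝 (lam (natB v x y))) := by
    intro v x y
    have h1 := SgO219.tan_lim hpos ht (natB_cone v x y) cone_zero
    rw [hz, sub_zero] at h1
    refine h1.congr fun l => ?_
    rw [smul_zero, add_zero]
  have hDN : ∀ t v x y : ℝ, DN g s (q 0) (q 1) (θ 0) (θ 1) (v0 + t * v)
      (θ 0 * (1 - v0) + t * x) (θ 1 * (1 - v0) + t * y) =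
      DN g s (q 0) (q 1) (θ 0) (θ 1) v0 (θ 0 * (1 - v0)) (θ 1 * (1 - v0)) +
        t * DL g s (q 0) (q 1) v x y := by
    intro t v x y
    unfold DN DL
    ring
  -- natural boxes near the record
  have hPD : ∀ v x : ℝ, ∀ᶠ l in atTop, nb w0 sa sb (v0 + hh l * v) (θ 0 * (1 - v0) + hh l * x)
      (θ 1 * (1 - v0) + hh l * x) ∈ PDL w0 sa sb Rg 0 0 R := by
    intro v x
    have e0 : ∀ c u : ℝ, Tendsto (fun l => c + hh l * u) atTop (𝓝 c) := fun c u => by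
      have := (hh0.mul_const u).const_add c
      simpa using this
    have h1 : 0 < θ 0 * (1 - v0) := mul_pos hθ0 (by linarith)
    have h2 : θ 0 * (1 - v0) < Rg := by nlinarith
    filter_upwards [SgO219.tan_ev ht (natB_cone v x x),
      (e0 v0 v).eventually (Ioo_mem_nhds hv0 hv1),
      (e0 (θ 0 * (1 - v0)) x).eventually (Ioo_mem_nhds h1 h2)] with l m1 m2 m3
    rw [hx] at m1
    have e1 : θ 1 * (1 - v0) + hh l * x = θ 0 * (1 - v0) + hh l * x := by rw [hθ]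
    refine nb_PD m1 m2.1.le m2.2.le m3.1 m3.2 ?_ ?_
    · rw [e1, abs_of_pos m3.1]; exact m3.2
    · rw [e1, add_zero]
  have hub : ∀ v x : ℝ, lam (natB v x x) ≤ DL g s (q 0) (q 1) v x x := by
    intro v x
    refine le_of_tendsto (hlim v x x) ?_
    filter_upwards [hPD v x] with l n1
    have hl := hpos l
    have h1 := h.ext.dmax _ n1
    rw [DT_nb, hDN] at h1
    rw [hx, div_le_iff₀ hl]
    linarith
  refine ⟨hub, fun t => le_antisymm (hub _ _) ?_⟩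
  refine ge_of_tendsto (hlim t (-(θ 0 * t)) (-(θ 0 * t))) ?_
  have e0 : Tendsto (fun l => v0 + hh l * t) atTop (𝓝 v0) := by
    have := (hh0.mul_const t).const_add v0
    simpa using this
  filter_upwards [e0.eventually (Ioo_mem_nhds hv0 hv1)] with l n4
  have hl := hpos l
  have h2 := h.ext.record (v0 + hh l * t) n4.1.le n4.2.le
  have e1 : θ 0 * (1 - (v0 + hh l * t)) = θ 0 * (1 - v0) + hh l * (-(θ 0 * t)) := by ring
  have e2 : θ 1 * (1 - (v0 + hh l * t)) = θ 1 * (1 - v0) + hh l * (-(θ 0 * t)) := by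
    rw [hθ]; ring
  rw [EL_DN, PL504.rL_nb, e1, e2, hDN] at h2
  rw [hx, le_div_iff₀ hl]
  linarith

end nu

end Crest.Agent.R116.SgI337
end

-- ▼ part R116/SgI6_337
section

/-!
# R116, K-TEXT II-c, the ISOTROPIC record (helper337), part 6: a generic point of the plane

* `SigI`            : the package at a generic point of the plane of the frozen flags
* **`exists_sigI`** : it exists
* **`sigI_false`**  : `SigI` + (A1) ⊢ False
-/

set_option autoImplicit false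
set_option linter.unusedVariables false

open Set Filter Topology MeasureTheory

namespace Crest.Agent.R116.SgI337

open Crest.Agent.R138.Ex926 (Base U IsTan)
open Crest.Agent.R136
open Crest.Agent.R136.Net191
open Crest.Agent.R136.Qg926 (NProf)
open Crest.Agent.R136.MkA627
open Crest.Agent.R136.TD627
open Crest.Agent.R136.Lq196
open Dg262 (X SupOn)
open Dg219 (Walls mw gset mem_gset gC dhC nC gC_zero gC_eq OutS)
open SgO219 (PP OO LT OutL RateP exists_lin L_sub_LT)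
open Crest.Agent.R116.ChL222
open Crest.Agent.R116.EvL504 (Coc)
open Crest.Agent.R116.KF439 (flF)
open Crest.Agent.R116.PL504 (nb rL DN eL βL oL Shift)
open Crest.Agent.R116.Gd222 (TSet sN PDL DT)
open Crest.Agent.R116.KI439
open Crest.Agent.R116.Tw468 (OutT OutR)
open Crest.Agent.R116.CtxB468
open Sg337 (bx9 coneL mem_coneL natB uC eL_bx9 SI ProfI DL sigI_all)
open Sg635 (PP_eq no_one ne_one aS aS_nonneg)
open SgZ388 (exists_pack_dir)

/-- **the package at a generic point of the plane of the frozen flags** -/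
structure SigI (R w0 sa sb s c q0 q1 δ : ℝ) (θ : Fin 2 → ℝ) (a : Fin 2) (ν : (Fin 12 → ℝ) → ℝ)
    (v0 l : ℝ) (z : ℝ × ℝ) (u k : ℕ → ℝ) (lam : (Fin 12 → ℝ) → ℝ) (A : ℝ × ℝ)
    (φ : ℕ → (Fin 12 → ℝ) → ℝ) (r : ℕ → ℝ) : Prop where
  v00 : 0 < v0
  v01 : v0 < 1
  hl : 0 < l
  zle : z.1 ≤ z.2
  upos : ∀ m, 0 < u m
  u0 : Tendsto u atTop (𝓝 0)
  kpos : ∀ m, 0 < k m
  k0 : Tendsto k atTop (𝓝 0)
  tan : IsTan (Leg monL R) ((mw monL).L (xI l) aS (bI (θ 0))) ν
    (fun m => rL (θ 0) (θ 1) w0 sa sb v0 + u m • SI (θ 0) l z.1 z.2) (fun m => u m * k m) lam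
  lip : ∀ p ∈ (mw monL).L (xI l) aS (bI (θ 0)), ∀ q ∈ (mw monL).L (xI l) aS (bI (θ 0)),
    |lam p - lam q| ≤ 12 * ‖p - q‖
  out : OutS (gC aS (bI (θ 0))) ((mw monL).L (xI l) aS (bI (θ 0))) (dhC aS (bI (θ 0)))
    (nC aS (bI (θ 0))) lam A φ r
  dead : DeadL ((mw monL).L (xI l) aS (bI (θ 0))) a lam
  own : ∀ p ∈ (mw monL).L (xI l) aS (bI (θ 0)), ∀ q ∈ (mw monL).L (xI l) aS (bI (θ 0)), p ≤ q →
    (1 - s) * (q 0 - p 0) ≤ lam p - lam q
  iC : c + q0 + q1 ≤ -lam uC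
  sum : r (kz (θ 0)) + r (kX (θ 0)) + r (kN (θ 0)) ≤ 4 - s - c + δ

section ctx

variable {G : Geo TSet (Fin 2)} {L : ℕ → ℕ → LRay} {r : ℕ → ℝ} {c s : ℝ} {θ q : Fin 2 → ℝ}
    {Rg : ℝ} {a : Fin 2} {B : Base}
    {I : ℕ → Finset (ℕ × ℝ)} {lev : ℕ → ℚ → ℕ} {A : ℕ → ℝ}
    {f : ℕ → ℚ → ℕ → ℤ → ℕ} {b : ℕ → ℚ → ℕ → TSet} {vm : ℕ → ℚ → ℝ} {w : Fin 2 → ℕ → ℚ → ℝ}
    {w0 sa sb δ R : ℝ} {I0 I' : ℕ → Finset (ℕ × ℝ)} {ν own : (Fin 12 → ℝ) → ℝ} {c₀ : ℝ}

/-- the value of the record tangent at the end of the segment -/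
theorem SI_rec {θ l : ℝ} {s c q0 q1 : ℝ} {a : Fin 2} {g : (Fin 12 → ℝ) → ℝ} (H : ProfI s a g)
    (hD : ∀ v x : ℝ, g (natB v x x) ≤ DL c s q0 q1 v x x)
    (hR : ∀ t : ℝ, g (natB t (-(θ * t)) (-(θ * t))) = DL c s q0 q1 t (-(θ * t)) (-(θ * t)))
    (hl : 0 ≤ l) : g (SI θ l 0 0) = 0 := by
  have m1 := (sigI_all (y := 0) (l := l) (θ := θ) H hD hR (v := 0) (t := 0) le_rfl le_rfl
    (by simp; linarith) (by simp; linarith) (by simp; linarith)).1
  have m2 : natB 0 (-(θ * 0)) (-(θ * 0)) ∈ coneL := by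
    rw [mem_coneL]
    simp [natB, bx9]
  have h1 := H.dead _ m1 _ m2 fun k k1 k2 k7 k8 => by
    fin_cases k <;> simp [SI, natB, bx9] at k1 k2 k7 k8 ⊢
  rw [h1, hR]
  unfold DL
  ring

/-- **a generic point of the plane exists** -/
theorem exists_sigI
    (h : CtxR G L r c s θ q Rg a B I lev A f b vm w w0 sa sb δ R I0 I' ν own c₀)
    (hθ : θ 0 = θ 1) (hθ0 : 0 < θ 0) (hRg : θ 0 < Rg)
    (hR : ∀ k, rL (θ 0) (θ 1) w0 sa sb (1 / 2) k < R) {δ' : ℝ} (hδ : 0 < δ') :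
    ∃ (l : ℝ) (z : ℝ × ℝ) (u k : ℕ → ℝ) (lam : (Fin 12 → ℝ) → ℝ) (A' : ℝ × ℝ)
      (φ : ℕ → (Fin 12 → ℝ) → ℝ) (rr : ℕ → ℝ),
      SigI R w0 sa sb s c (q 0) (q 1) δ' θ a ν (1 / 2) l z u k lam A' φ rr := by
  classical
  have hh : ∀ l : ℕ, (0:ℝ) < 1 / ((l:ℝ) + 1) := fun l => by positivity
  obtain ⟨ϕ, hϕ, gT, hT⟩ := exists_rec h (v0 := 1 / 2) (by norm_num) (by norm_num) hR hh
    tendsto_one_div_add_atTop_nhds_zero_nat
  set hT' : ℕ → ℝ := fun l => 1 / ((ϕ l : ℝ) + 1) with hhT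
  have hpos : ∀ l, 0 < hT' l := fun l => hh _
  have hh0 : Tendsto hT' atTop (𝓝 0) :=
    (tendsto_one_div_add_atTop_nhds_zero_nat (𝕜 := ℝ)).comp hϕ.tendsto_atTop
  have H : ProfI s a gT := profI_of h hθ (by norm_num) (by norm_num) hpos hh0 hT
  obtain ⟨hD, hE⟩ := dmaxI_of h hθ hθ0 hRg (v0 := 1 / 2) (by norm_num) (by norm_num) hR hpos hh0
    hT
  set l : ℝ := 4 * (6 + θ 0) with hl
  have hl0 : 0 < l := by rw [hl]; linarith
  set Q : ℝ := 4 - s - c with hQ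
  obtain ⟨ε, hε0, hε1, hε2⟩ : ∃ ε : ℝ, 0 < ε ∧ ε ≤ 1 ∧ |Q| * ε ≤ δ' / 2 := by
    have h1 : 0 < |Q| + 1 := by positivity
    refine ⟨min 1 (δ' / 2 / (|Q| + 1)), lt_min one_pos (by positivity), min_le_left _ _, ?_⟩
    have h2 := min_le_right 1 (δ' / 2 / (|Q| + 1))
    have h3 := (le_div_iff₀ h1).1 h2
    have h4 : 0 < min 1 (δ' / 2 / (|Q| + 1)) := lt_min one_pos (by positivity)
    nlinarith
  set η : ℝ := ε / 4 with hη
  have hη0 : 0 < η := by rw [hη]; linarith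
  set Ω : Set (ℝ × ℝ) := {z | z.1 < z.2 ∧ |z.1| < 4 ∧ |z.2| < 1} with hΩ
  have hθa : ∀ {t : ℝ}, |t| < 1 → |θ 0 * t| ≤ θ 0 := by
    intro t ht
    rw [abs_mul, abs_of_pos hθ0]
    nlinarith
  have hΩO : Ω ⊆ OO (mw monL) (xI l) aS (bI (θ 0)) := fun z hz =>
    OOI hl0 (by rw [hl]; linarith [hz.2.1]) (by
      have := hθa hz.2.2
      rw [hl]; linarith)
  have hseg : ∀ w ∈ Icc (0:ℝ) 1, Metric.ball ((-1 - ε, 0) + w • ((1, 0) : ℝ × ℝ)) η ⊆ Ω := by
    intro w hw z hz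
    rw [Metric.mem_ball, Prod.dist_eq, max_lt_iff, Real.dist_eq, Real.dist_eq] at hz
    simp only [Prod.fst_add, Prod.smul_fst, smul_eq_mul, mul_one, Prod.snd_add, Prod.smul_snd,
      mul_zero, add_zero, sub_zero] at hz
    obtain ⟨h1, h2⟩ := hz
    have h1' := abs_lt.1 h1
    have h2' := abs_lt.1 h2
    refine ⟨?_, ?_, ?_⟩
    · linarith [hw.2, h1'.2, h2'.1]
    · rw [abs_lt]; constructor <;> linarith [hw.1, hw.2, h1'.1, h1'.2]
    · rw [abs_lt]; constructor <;> linarith [h2'.1, h2'.2]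
  have hlip : ∀ j : Unit, ∀ p ∈ PP (mw monL), ∀ q ∈ PP (mw monL),
      |(fun _ : Unit => gT) j p - (fun _ : Unit => gT) j q| ≤ 12 * ‖p - q‖ := by
    rw [PP_eq]
    exact fun _ => lip_norm H.anti fun p hp q hq => Sg337.coneL_sup hp hq
  have hm : ∀ p ∈ PP (mw monL), ∀ q ∈ PP (mw monL), p ≤ q →
      0 ≤ (fun _ : Unit => gT) () p - (fun _ : Unit => gT) () q ∧
        (fun _ : Unit => gT) () p - (fun _ : Unit => gT) () q ≤ ∑ i, (q i - p i) := by
    rw [PP_eq]; exact H.anti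
  have hs : SupOn ((fun _ : Unit => gT) ()) (PP (mw monL)) := by
    rw [PP_eq]; exact fun p hp q hq hi _ => H.sm p hp q hq hi
  have hX : ∀ z : ℝ × ℝ, X (xI l) aS (bI (θ 0)) z = SI (θ 0) l z.1 z.2 := X_eqI (θ 0) l
  have hqq : (fun _ : Unit => gT) () (X (xI l) aS (bI (θ 0)) (-1 - ε, 0)) -
      (fun _ : Unit => gT) () (X (xI l) aS (bI (θ 0)) ((-1 - ε, 0) + (1:ℝ) • ((1, 0) : ℝ × ℝ))) ≤
        (Q * (1 + ε)) * 1 := by
    rw [hX, hX]
    simp only [Prod.fst_add, Prod.smul_fst, smul_eq_mul, mul_one, Prod.snd_add, Prod.smul_snd,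
      mul_zero, add_zero]
    have a1 : |(-1:ℝ) - ε| = 1 + ε := by rw [abs_of_neg (by linarith)]; ring
    have a2 : |(-1:ℝ) - ε + 1| = ε := by
      rw [show (-1:ℝ) - ε + 1 = -ε by ring, abs_neg, abs_of_pos hε0]
    have h1 := (sigI_all (y := 0) (l := l) (θ := θ 0) H hD hE (v := -1 - ε) (t := 0)
      (by linarith) le_rfl (by rw [a1, hl]; linarith) (by simp; linarith)
      (by simp; linarith)).2.2.1
    have h2 := SI_rec H hD hE hl0.le
    have h3 := (sigI_all (y := 0) (l := l) (θ := θ 0) H hD hE (v := -1 - ε + 1) (t := 0)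
      (by linarith) le_rfl (by rw [a2, hl]; linarith) (by simp; linarith)
      (by simp; linarith)).1
    have h4 := (sigI_all (y := 0) (l := l) (θ := θ 0) H hD hE (v := 0) (t := 0)
      le_rfl le_rfl (by simp; linarith) (by simp; linarith) (by simp; linarith)).1
    have hle : SI (θ 0) l (-1 - ε + 1) 0 ≤ SI (θ 0) l 0 0 := by
      unfold SI
      refine Sg337.bx9_le ?_ ?_ ?_ ?_ ?_ ?_ ?_ ?_ ?_ <;> linarith
    have h5 := (H.anti _ h3 _ h4 hle).1
    unfold DL at h1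
    simp only [mul_zero, neg_zero] at h1
    rw [hQ]
    nlinarith
  have hkpos : ∀ l : ℕ, (0:ℝ) < 1 / ((l : ℝ) + 1) := fun l => by positivity
  obtain ⟨z, hzN, hzΩ, -, ϑ, lam, D, φ, rr, P, hsum⟩ := exists_pack_dir (mw monL)
    (g := fun _ : Unit => gT) (j0 := ()) (K := 12) (by norm_num) hlip hm hs aS_nonneg
    (fullI (θ 0) l) hΩO (d := (1, 0)) zero_lt_one hη0 hseg hqq (half_pos hδ)
    (N := Set.univ) (Eventually.of_forall fun _ => Set.mem_univ _) hkpos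
    tendsto_one_div_add_atTop_nhds_zero_nat
  have ht : ∀ j : Unit, IsTan (Leg monL R) (PP (mw monL)) ((fun _ : Unit => ν) j)
      (fun _ => rL (θ 0) (θ 1) w0 sa sb (1 / 2)) hT' ((fun _ : Unit => gT) j) := by
    rw [PP_eq]; exact fun _ => hT
  obtain ⟨ψ, hψ, -, hd⟩ := P.diag (f := fun _ : Unit => ν) hpos ht (Pr := fun _ _ => True)
    (fun m => Eventually.of_forall fun _ => trivial)
  have hd := hd ()
  rw [hX] at hd
  have htg := P.tan ()
  rw [PP_eq, hX] at htg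
  have hl0' : (0:ℝ) ≤ l := hl0.le
  refine ⟨l, z, hT' ∘ ψ, fun m => 1 / ((ϑ m : ℝ) + 1), lam (), (D (1, 0), D (0, 1)), φ, rr, ?_⟩
  exact
    { v00 := by norm_num
      v01 := by norm_num
      hl := hl0
      zle := hzΩ.1.le
      upos := fun m => hpos _
      u0 := hh0.comp hψ.tendsto_atTop
      kpos := fun m => hkpos _
      k0 := tendsto_one_div_add_atTop_nhds_zero_nat.comp P.mono.tendsto_atTop
      tan := hd
      lip := P.lip (j := ()) (hlip ())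
      out := P.out
      dead := deadL_of H P.pos htg
      own := P.lowS () 0 (1 - s) (by rw [PP_eq]; exact H.own)
      iC := by
        have huC : uC ∈ (mw monL).L (xI l) aS (bI (θ 0)) := by
          rw [mem_LI hl0]
          simp [uC, bx9]
        have h1 := P.incr hzΩ () (e := uC) huC (y0 := 1) one_pos
          (qi := c + q 0 + q 1) (fun z' hz' y hy => by
          rw [hX]
          obtain ⟨z1, z2, z3⟩ := hz'
          have := hθa z3
          exact (sigI_all H hD hE (l := l) (θ := θ 0) (v := z'.1) (t := z'.2) (y := y) z1.le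
            hy.1.le (by rw [hl]; linarith [hy.2]) (by rw [hl]; linarith [hy.2])
            (by rw [hl]; linarith [hy.2])).2.2.2) 1 one_pos
        rw [one_smul, mul_one] at h1
        exact h1
      sum := by
        have h1 := P.sum
        rw [gsetI_sum' hθ0.ne'] at h1
        rw [h1]
        have h2 : Q * ε ≤ δ' / 2 := by
          have := mul_le_mul_of_nonneg_right (le_abs_self Q) hε0.le
          linarith
        linarith }

/-- **a generic point and (A1) are contradictory** -/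
theorem sigI_false
    (h : CtxR G L r c s θ q Rg a B I lev A f b vm w w0 sa sb δ R I0 I' ν own c₀)
    (hθ : θ 0 = θ 1) (hθ0 : 0 < θ 0) (hq0 : 0 ≤ q 0) (hq1 : 0 ≤ q 1) {δ' : ℝ}
    (hδ : δ' < c - 2 * s) (hc : 2 * s < c)
    {v0 l : ℝ} {z : ℝ × ℝ} {u k : ℕ → ℝ} {lam : (Fin 12 → ℝ) → ℝ} {A' : ℝ × ℝ}
    {φ : ℕ → (Fin 12 → ℝ) → ℝ} {rr : ℕ → ℝ}
    (H : SigI R w0 sa sb s c (q 0) (q 1) δ' θ a ν v0 l z u k lam A' φ rr)
    (hA1 : 2 * (1 - s) ≤ rr (kX (θ 0))) : False := by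
  set LL : Set (Fin 12 → ℝ) := (mw monL).L (xI l) aS (bI (θ 0)) with hLL
  have hφ0 : ∀ k, φ k 0 = 0 := fun k => H.out.zero k 0 fun i _ => rfl
  -- own
  have hz : 1 - s ≤ rr (kz (θ 0)) := by
    have m0 : (0 : Fin 12 → ℝ) ∈ LL := by rw [hLL, mem_LI H.hl]; simp
    have mz : bx9 1 0 0 0 0 0 0 0 0 ∈ LL := by
      rw [hLL, mem_LI H.hl]
      simp [bx9]
    have h1 := H.own 0 m0 _ mz (fun i => by fin_cases i <;> simp [bx9])
    have h2 : bx9 1 0 0 0 0 0 0 0 0 0 = 1 := rfl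
    rw [h2, H.out.sum _ m0, H.out.sum _ mz, gsetI_sum hθ0.ne', gsetI_sum hθ0.ne', hφ0, hφ0, hφ0,
      hφ0] at h1
    have a1 : φ 0 (bx9 1 0 0 0 0 0 0 0 0) = 0 := H.out.zero _ _ fun i hi => by
      rw [gI_zero] at hi
      fin_cases i <;> simp [bx9] at hi ⊢
    have a2 : φ (kX (θ 0)) (bx9 1 0 0 0 0 0 0 0 0) = 0 := H.out.zero _ _ fun i hi => by
      rcases (grpI_slots hθ0.ne' i).2.1.1 hi with rfl | rfl | rfl <;> rfl
    have a3 : φ (kN (θ 0)) (bx9 1 0 0 0 0 0 0 0 0) = 0 := H.out.zero _ _ fun i hi => by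
      rw [(grpI_slots hθ0.ne' i).2.2.1 hi]; rfl
    have a4 : φ (kz (θ 0)) (bx9 1 0 0 0 0 0 0 0 0) = -(rr (kz (θ 0)) * 1) :=
      H.out.rate (kz (θ 0)) _ mz 1 fun i hi => by
        rw [(grpI_slots hθ0.ne' i).1.1 hi, dhI_X.1]; show (1:ℝ) = 1 * 1; norm_num
    rw [a1, a2, a3, a4] at h1
    simp only [Pi.zero_apply] at h1
    linarith
  have hcoc : ∀ n, Coc (PL504.coN B lev w w0 sa sb (flF a L) n) := fun n => Sd369.coc_N _ _ _ _ _ _ _ _
  have hR0 : 0 ≤ R := by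
    have h1 := h.sh.rL_leg (v := 0) le_rfl zero_le_one
    exact (h1.1.nonneg 0).trans (h1.2 0)
  have hN : NProf B I0 I' (PL504.coN B lev w w0 sa sb (flF a L)) monL 2 R ν :=
    WinU954.nprof_of_ext hR0 h.ext
  have hsum := H.sum
  have hmul : Tendsto (fun m => u m * k m) atTop (𝓝 0) := by
    have := H.u0.mul H.k0
    simpa using this
  refine coreI hN hcoc (fun _ => (0, 0)) hθ0 H.hl (x := fun m => rL (θ 0) (θ 1) w0 sa sb v0 +
    u m • SI (θ 0) l z.1 z.2) (fun m => mul_pos (H.upos m) (H.kpos m)) hmul ?_ ?_ H.tan (by norm_num) H.lip H.out H.dead H.iC hA1 (by linarith)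
    (by linarith)
  · intro m
    simp only [Pi.add_apply, Pi.smul_apply, smul_eq_mul]
    have e3 : SI (θ 0) l z.1 z.2 3 = -(θ 0 * z.2) := rfl
    have e5 : SI (θ 0) l z.1 z.2 5 = z.1 + -(θ 0 * z.2) := rfl
    have e9 : SI (θ 0) l z.1 z.2 9 = z.1 + 2 * (-(θ 0 * z.2)) := rfl
    have r9 : rL (θ 0) (θ 1) w0 sa sb v0 9 = rL (θ 0) (θ 1) w0 sa sb v0 3 +
        rL (θ 0) (θ 1) w0 sa sb v0 5 := by
      simp [rL, eL]; ring
    rw [e3, e5, e9, r9]
    ring
  · intro m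
    simp only [Pi.add_apply, Pi.smul_apply, smul_eq_mul]
    have e3 : SI (θ 0) l z.1 z.2 4 = -(θ 0 * z.2) := rfl
    have e5 : SI (θ 0) l z.1 z.2 6 = z.1 + -(θ 0 * z.2) := rfl
    have e9 : SI (θ 0) l z.1 z.2 9 = z.1 + 2 * (-(θ 0 * z.2)) := rfl
    have r9 : rL (θ 0) (θ 1) w0 sa sb v0 9 = rL (θ 0) (θ 1) w0 sa sb v0 4 +
        rL (θ 0) (θ 1) w0 sa sb v0 6 := by
      simp [rL, eL]; ring
    rw [e3, e5, e9, r9]
    ring

end ctx

end Crest.Agent.R116.SgI337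
end

-- ▼ part R116/Gi1_222
section

/-!
# R116, GEO-D of the light-ray chart (helper222), part 11: velocity strips, flat flags, slots 3, 4

* `iso_seq` : D-max for the strips `|e1 C1 + e2 C2| ≤ K c d^y`, seen from a sequence of members.
* `N34` : uniform form in normalised coordinates; `n34_of` : it holds (504's, 468's letters).
* `prof_dead` : slots which vanish identically cost nothing.
-/

set_option autoImplicit false
set_option linter.unusedVariables false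
set_option linter.unusedSectionVars false

open Finset Filter Topology

namespace Crest.Agent.R116.Gi222

open Crest.Agent.R138.Defs (E2)
open Crest.Agent.R138.Ex926
open Crest.Agent.R138.Mk163 (zc zl rho alive)
open Crest.Agent.R138.Dp76 (dpow_pos dpow_add dpow_le)
open Crest.Agent.R138
open Crest.Agent.R136.MkA627
open Crest.Agent.R136.Net191
open Crest.Agent.R136.PqG464
open Crest.Agent.R136.Qg926
open Crest.Agent.R136.Lq196
open Crest.Agent.R136.NSt107 (NsW)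
open Crest.Agent.R116.LZg725
open Crest.Agent.R116.ChL222
open Crest.Agent.R116.PL504 (uL eL)
open Crest.Agent.R116.Gd222
open Crest.Agent.R116.Nar192

section seq

variable {B : Base} {I : ℕ → Finset (ℕ × ℝ)} {G : Geo TSet (Fin 2)} {lev : ℕ → ℚ → ℕ}
    {A : ℕ → ℝ} {g s : ℝ} {τ : Fin 2 → ℝ → ℝ} {f : ℕ → ℚ → ℕ → ℤ → ℕ} {b : ℕ → ℚ → ℕ → TSet}
    {vm : ℕ → ℚ → ℝ} {w : Fin 2 → ℕ → ℚ → ℝ}
    {inc : ℕ → ℕ × ℝ → LInc} {σ : Fin 2 → ℕ → ℝ} {q : Fin 2 → ℝ} {M0 c0 Rg θ : ℝ}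

/-- the flat flag of direction `(e1, e2)` at `i` -/
def flb (e1 e2 : ℝ) (i : LInc) : LInc := { i with b1 := e1, b2 := e2 }

theorem coL_flb (e1 e2 : ℝ) {i : LInc} (l : LInc) (h : i.et = 0 ∧ i.d = 0) :
    coL (flb e1 e2 i) l 0 = coL i l 0 ∧ coL (flb e1 e2 i) l 3 = coL i l 3 ∧
    coL (flb e1 e2 i) l 4 = coL i l 4 ∧ coL (flb e1 e2 i) l 5 = coL i l 5 ∧
    coL (flb e1 e2 i) l 6 = coL i l 6 ∧ coL (flb e1 e2 i) l 9 = coL i l 9 ∧
    coL (flb e1 e2 i) l 10 = e1 * coL i l 3 + e2 * coL i l 4 ∧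
    coL (flb e1 e2 i) l 11 = e1 * coL i l 5 + e2 * coL i l 6 := by
  obtain ⟨h1, h2⟩ := h
  simp only [coL, nuL, flb, LInc.p1, LInc.p2, LInc.ph, Matrix.cons_val, h1, h2]
  refine ⟨trivial, trivial, trivial, trivial, trivial, trivial, by ring, by ring⟩

set_option maxHeartbeats 1000000 in
open Classical in
/-- **velocity strips seen from a sequence of members** -/
theorem iso_seq (hM : MkA B I G lev A (fun v => g * v) (fun v => s * v) τ f b vm w)
    (h : LData B I G lev inc σ q M0 c0 Rg θ)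
    (hk : ∀ ε : ℝ, 0 < ε → ∀ᶠ n in (U : Filter ℕ), σ 1 n ≤ σ 0 n * B.d n ^ (-ε))
    (hk' : ∀ ε : ℝ, 0 < ε → ∀ᶠ n in (U : Filter ℕ), σ 0 n ≤ σ 1 n * B.d n ^ (-ε))
    (w0 sa sb : ℝ) {i : ℕ → LInc} (hflat : ∀ᶠ n in (U : Filter ℕ), (i n).et = 0 ∧ (i n).d = 0)
    {e1 e2 : ℕ → ℝ} (hunit : ∀ᶠ n in (U : Filter ℕ), e1 n ^ 2 + e2 n ^ 2 = 1) {v t y K : ℝ}
    (hK : 1 ≤ K) (hθ : θ ≤ v) (hv0 : 0 ≤ v) (hv1 : v ≤ 1) (hy : 0 < y) (ht : 0 < t)
    (hRt : t + y < Rg) {ε : ℝ} (hε : 0 < ε) :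
    ∀ᶠ n in (U : Filter ℕ), (((I n).filter fun l =>
        Nat8 (i n) (inc n l) K (rho (lev n 0) * B.d n ^ v) (σ 0 n * B.d n ^ t)
          (σ 1 n * B.d n ^ t) ∧
        |e1 n * coL (i n) (inc n l) 3 + e2 n * coL (i n) (inc n l) 4| ≤
          K * ((σ 0 n * B.d n ^ t) * B.d n ^ y)).card : ℝ) ≤
      (A n * VL σ q lev n * B.d n ^ (-(1 - s))) *
        B.d n ^ (-(DL g s q w0 sa sb (nbS w0 sa sb v t t) - q 1 * y + ε)) := by
  have hq0 := h.qp 0
  have hq1 := h.qp 1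
  obtain ⟨η, hη, hη1, hη2⟩ : ∃ η : ℝ, 0 < η ∧ (4 + q 0 + q 1) * η ≤ ε / 4 ∧ η ≤ t / 2 := by
    refine ⟨min (ε / 4 / (4 + q 0 + q 1)) (t / 2), lt_min (by positivity) (by linarith), ?_,
      min_le_right _ _⟩
    have := min_le_left (ε / 4 / (4 + q 0 + q 1)) (t / 2)
    rw [le_div_iff₀ (by linarith)] at this
    linarith
  have key := strip_C hM h hk hk' w0 sa sb (i := fun n => flb (e1 n) (e2 n) (i n))
    (hflat.mono fun n hn => hn) (by
      filter_upwards [hunit] with n hn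
      have e : ‖vb (flb (e1 n) (e2 n) (i n))‖ ^ 2 = 1 := by
        rw [normsq2]
        have a0 : vb (flb (e1 n) (e2 n) (i n)) 0 = e1 n := rfl
        have a1 : vb (flb (e1 n) (e2 n) (i n)) 1 = e2 n := rfl
        rw [a0, a1, hn]
      have h1 := norm_nonneg (vb (flb (e1 n) (e2 n) (i n)))
      nlinarith) (t1 := fun n => -(e2 n)) (t2 := fun n => e1 n) (e1 := fun _ => 0)
    (e2 := fun _ => 1) (by
      filter_upwards [hunit] with n hn
      have b1 : |e1 n| ≤ 1 := by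
        rw [← sq_le_one_iff_abs_le_one]; nlinarith [sq_nonneg (e2 n)]
      have b2 : |e2 n| ≤ 1 := by
        rw [← sq_le_one_iff_abs_le_one]; nlinarith [sq_nonneg (e1 n)]
      refine ⟨by rwa [abs_neg], b1, ?_⟩
      have e : ‖vb (flb (e1 n) (e2 n) (i n))‖ ^ 2 = 1 := by
        rw [normsq2]
        have a0 : vb (flb (e1 n) (e2 n) (i n)) 0 = e1 n := rfl
        have a1 : vb (flb (e1 n) (e2 n) (i n)) 1 = e2 n := rfl
        rw [a0, a1, hn]
      have h1 := norm_nonneg (vb (flb (e1 n) (e2 n) (i n)))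
      have h2 : ‖vb (flb (e1 n) (e2 n) (i n))‖ ≤ 1 := by nlinarith
      have h3 : (flb (e1 n) (e2 n) (i n)).b1 * e1 n - (flb (e1 n) (e2 n) (i n)).b2 * -(e2 n) = 1 := by
        show e1 n * e1 n - e2 n * -(e2 n) = 1
        nlinarith
      rw [h3, abs_one]
      linarith)
    (Eventually.of_forall fun n => by norm_num) (v := v) (t := t - η) (y := y) (K := 2 * K)
    (by linarith) hθ hv0 hv1 hy (by linarith) (by linarith) (ε := ε / 4) (by linarith)
  filter_upwards [key, hk' η hη, hflat, hunit] with n n1 n2 n3 n4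
  have dp := fun a => Dp76.dpow_pos B n a
  have s0 := h.σp 0 n
  have s1 := h.σp 1 n
  have r0 := rho_pos (lev n 0)
  obtain ⟨R, hR⟩ : ∃ R : ℝ, R = rho (lev n 0) * B.d n ^ v := ⟨_, rfl⟩
  obtain ⟨c, hc⟩ : ∃ c : ℝ, c = σ 0 n * B.d n ^ t := ⟨_, rfl⟩
  obtain ⟨c', hc'⟩ : ∃ c' : ℝ, c' = σ 1 n * B.d n ^ t := ⟨_, rfl⟩
  obtain ⟨C, hC⟩ : ∃ C : ℝ, C = σ 0 n * B.d n ^ (t - η) := ⟨_, rfl⟩
  obtain ⟨C', hC'⟩ : ∃ C' : ℝ, C' = σ 1 n * B.d n ^ (t - η) := ⟨_, rfl⟩
  rw [← hR, ← hC, ← hC'] at n1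
  rw [← hR, ← hc, ← hc']
  have Rp : 0 < R := by rw [hR]; exact mul_pos r0 (dp _)
  have cp : 0 < c := by rw [hc]; exact mul_pos s0 (dp _)
  have cp' : 0 < c' := by rw [hc']; exact mul_pos s1 (dp _)
  have Cp : 0 < C := by rw [hC]; exact mul_pos s0 (dp _)
  have Cp' : 0 < C' := by rw [hC']; exact mul_pos s1 (dp _)
  have hK0 : 0 < K := by linarith
  have cC : c ≤ C := by
    rw [hc, hC]; exact mul_le_mul_of_nonneg_left (Dp76.dpow_le B n (by linarith)) s0.le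
  have cC' : c' ≤ C' := by
    rw [hc', hC']; exact mul_le_mul_of_nonneg_left (Dp76.dpow_le B n (by linarith)) s1.le
  have ccC : c ≤ C' := by
    rw [hc, hC']
    calc σ 0 n * B.d n ^ t ≤ (σ 1 n * B.d n ^ (-η)) * B.d n ^ t :=
          mul_le_mul_of_nonneg_right n2 (dp _).le
      _ = σ 1 n * B.d n ^ (t - η) := by
          rw [mul_assoc, ← Dp76.dpow_add, show -η + t = t - η by ring]
  refine le_trans (Nat.cast_le.2 (card_le_card fun l hl => ?_)) (n1.trans ?_)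
  · rw [mem_filter] at hl ⊢
    obtain ⟨l1, l2, l3⟩ := hl
    obtain ⟨f0, f3, f4, f5, f6, f9, f10, f11⟩ := coL_flb (e1 n) (e2 n) (inc n l) n3
    have a1 : |e1 n| ≤ 1 := by
      rw [← sq_le_one_iff_abs_le_one]; nlinarith [sq_nonneg (e2 n)]
    have a2 : |e2 n| ≤ 1 := by
      rw [← sq_le_one_iff_abs_le_one]; nlinarith [sq_nonneg (e1 n)]
    have hd1 : B.d n ^ y ≤ 1 := Real.rpow_le_one (B.pos n).le (B.lt n).le hy.le
    have up : ∀ {x X Y : ℝ}, 0 ≤ X → X ≤ Y → |x| ≤ K * X → |x| ≤ 2 * K * Y := by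
      intro x X Y hX hXY hx
      have h1 : K * X ≤ K * Y := mul_le_mul_of_nonneg_left hXY hK0.le
      have h2 : 0 ≤ K * Y := mul_nonneg hK0.le (hX.trans hXY)
      linarith
    have g10 : |coL (flb (e1 n) (e2 n) (i n)) (inc n l) 10| ≤ K * (C' * B.d n ^ y) := by
      rw [f10]
      exact l3.trans (mul_le_mul_of_nonneg_left (mul_le_mul_of_nonneg_right ccC (dp _).le) hK0.le)
    refine ⟨l1, ⟨by rw [f0]; exact up Rp.le le_rfl l2.h0, by rw [f3]; exact up cp.le cC l2.h3,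
      by rw [f4]; exact up cp.le cC l2.h4,
      by rw [f5]; exact up (by positivity) (mul_le_mul_of_nonneg_right cC Rp.le) l2.h5,
      by rw [f6]; exact up (by positivity) (mul_le_mul_of_nonneg_right cC Rp.le) l2.h6,
      by rw [f9]; exact up (by positivity) (mul_le_mul_of_nonneg_right
        (pow_le_pow_left₀ cp.le cC 2) Rp.le) l2.h9, ?_, ?_⟩, ?_⟩
    · refine g10.trans ?_
      have h1 : C' * B.d n ^ y ≤ C' * 1 := mul_le_mul_of_nonneg_left hd1 Cp'.le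
      have h2 := mul_le_mul_of_nonneg_left h1 hK0.le
      have h3 : 0 ≤ K * C' := by positivity
      linarith
    · rw [f11]
      refine (abs_add_le _ _).trans ?_
      rw [abs_mul, abs_mul]
      have b1 : |e1 n| * |coL (i n) (inc n l) 5| ≤ 1 * (K * (c * R)) :=
        mul_le_mul a1 l2.h5 (abs_nonneg _) zero_le_one
      have b2 : |e2 n| * |coL (i n) (inc n l) 6| ≤ 1 * (K * (c * R)) :=
        mul_le_mul a2 l2.h6 (abs_nonneg _) zero_le_one
      have b3 : K * (c * R) ≤ K * (C' * R) :=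
        mul_le_mul_of_nonneg_left (mul_le_mul_of_nonneg_right ccC Rp.le) hK0.le
      linarith
    · rw [zero_mul, zero_add, one_mul, abs_div, abs_of_pos Cp', div_le_iff₀ Cp']
      refine g10.trans ?_
      have h3 : 0 ≤ K * (B.d n ^ y * C') := mul_nonneg hK0.le (mul_nonneg (dp _).le Cp'.le)
      nlinarith
  · have hN0 : 0 ≤ A n * VL σ q lev n * B.d n ^ (-(1 - s)) := by
      have hA := (hM.Apos n).le
      have hV : 0 ≤ VL σ q lev n := by unfold VL; positivity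
      have := dp (-(1 - s))
      positivity
    refine mul_le_mul_of_nonneg_left (Dp76.dpow_le B n ?_) hN0
    rw [DL_nbS, DL_nbS]
    unfold FL
    nlinarith

end seq

/-! ### the uniform form -/

open Classical in
/-- **D-max for velocity strips at the box `rc`**, seen from a member -/
def N34 (B : Base) (I : ℕ → Finset (ℕ × ℝ)) (co : ∀ n : ℕ, ℕ × ℝ → ℕ × ℝ → Fin 12 → ℝ)
    (N0 : ℕ → ℝ) (rc : Fin 12 → ℝ) (y t : ℝ) : Prop :=
  ∀ K : ℝ, 1 ≤ K → ∀ ε : ℝ, 0 < ε → ∀ᶠ n in (U : Filter ℕ), ∀ y0 ∈ I n, ∀ e1 e2 : ℝ,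
    e1 ^ 2 + e2 ^ 2 = 1 →
      (((I n).filter fun j => (∀ k, Vf k → |co n y0 j k| ≤ K * B.d n ^ rc k) ∧
        |e1 * (co n y0 j 3 / B.d n ^ rc 3) + e2 * (co n y0 j 4 / B.d n ^ rc 3)| ≤
          K * B.d n ^ y).card : ℝ) ≤ N0 n * B.d n ^ (-(t + ε))

open Classical in
theorem N34.mono_set {B : Base} {I I0 : ℕ → Finset (ℕ × ℝ)}
    {co : ∀ n : ℕ, ℕ × ℝ → ℕ × ℝ → Fin 12 → ℝ} {N0 : ℕ → ℝ} {rc : Fin 12 → ℝ} {y t : ℝ}
    (h : N34 B I co N0 rc y t) (hsub : ∀ n, I0 n ⊆ I n) : N34 B I0 co N0 rc y t := by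
  intro K hK ε hε
  filter_upwards [h K hK ε hε] with n hn y0 hy0 e1 e2 he
  refine le_trans ?_ (hn y0 (hsub n hy0) e1 e2 he)
  exact Nat.cast_le.2 (card_le_card (filter_subset_filter _ (hsub n)))

section unif

variable {B : Base} {I : ℕ → Finset (ℕ × ℝ)} {G : Geo TSet (Fin 2)} {lev : ℕ → ℚ → ℕ}
    {A : ℕ → ℝ} {g s : ℝ} {θ : Fin 2 → ℝ} {f : ℕ → ℚ → ℕ → ℤ → ℕ} {b : ℕ → ℚ → ℕ → TSet}
    {vm : ℕ → ℚ → ℝ} {w : Fin 2 → ℕ → ℚ → ℝ} {q : Fin 2 → ℝ}
    {fl : ℕ → ℕ × ℝ → LInc} {M0 c0 Rg ϑ : ℝ}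

set_option maxHeartbeats 1000000 in
open Classical in
/-- **velocity strips, uniform form** -/
theorem n34_of (hM : MkA B I G lev A (fun v => g * v) (fun v => s * v)
    (fun j v => θ j * (1 - v)) f b vm w) (h : LData B I G lev fl (sN lev w) q M0 c0 Rg ϑ)
    (hwid : ∀ j (t : TSet), G.wid j t = (1 / 2 : ℝ) ^ t.1 j)
    (hk : ∀ ε : ℝ, 0 < ε → ∀ᶠ n in (U : Filter ℕ), sN lev w 1 n ≤ sN lev w 0 n * B.d n ^ (-ε))
    (hk' : ∀ ε : ℝ, 0 < ε → ∀ᶠ n in (U : Filter ℕ), sN lev w 0 n ≤ sN lev w 1 n * B.d n ^ (-ε))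
    (hflat : ∀ n x, (fl n x).et = 0 ∧ (fl n x).d = 0)
    (w0 sa sb : ℝ) {v t y : ℝ} (hθ : ϑ ≤ v) (hv0 : 0 ≤ v) (hv1 : v ≤ 1) (hy : 0 < y) (ht : 0 < t)
    (hRt : t + y < Rg) {rc : Fin 12 → ℝ}
    (r0 : rc 0 = w0 + v) (r3 : rc 3 = sa + t) (r10 : rc 10 = sb + t)
    (hr : ∀ k, Vf k → nbS w0 sa sb v t t k ≤ rc k) :
    N34 B I (PL504.coN B lev w w0 sa sb fl) (fun n => A n * vm n 0 * B.d n ^ (-(1 - s))) rc y
      (DT g s q θ w0 sa sb rc - q 1 * y) := by
  intro K hK ε hε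
  have hK0 : 0 < K := by linarith
  set Bd : ℕ → ℝ := fun n => (A n * vm n 0 * B.d n ^ (-(1 - s))) *
    B.d n ^ (-(DT g s q θ w0 sa sb rc - q 1 * y + ε)) with hBd
  have hN0 := N0_le hM h hwid w0 sa sb rc (q 1 * y) hε
  have hDL : DL g s q w0 sa sb rc = DL g s q w0 sa sb (nbS w0 sa sb v t t) := by
    rw [DL_nbS]
    unfold DL
    rw [r0, r3, r10, add_sub_cancel_left, add_sub_cancel_left, add_sub_cancel_left]
  rw [hDL] at hN0
  by_contra hcon
  rw [← Ultrafilter.eventually_not] at hcon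
  obtain ⟨S, hS⟩ : ∃ S : ∀ (n : ℕ) (y0 : ℕ × ℝ) (e1 e2 : ℝ), Finset (ℕ × ℝ),
      S = fun n y0 e1 e2 => (I n).filter fun j =>
        (∀ k, Vf k → |PL504.coN B lev w w0 sa sb fl n y0 j k| ≤ K * B.d n ^ rc k) ∧
        |e1 * (PL504.coN B lev w w0 sa sb fl n y0 j 3 / B.d n ^ rc 3) +
          e2 * (PL504.coN B lev w w0 sa sb fl n y0 j 4 / B.d n ^ rc 3)| ≤ K * B.d n ^ y :=
    ⟨_, rfl⟩
  have hex : ∀ᶠ n in (U : Filter ℕ), ∃ Z : (ℕ × ℝ) × (ℝ × ℝ),
      Z.1 ∈ I n ∧ Z.2.1 ^ 2 + Z.2.2 ^ 2 = 1 ∧ Bd n < ((S n Z.1 Z.2.1 Z.2.2).card : ℝ) := by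
    filter_upwards [hcon] with n hn
    push Not at hn
    obtain ⟨y0, hy0, e1, e2, h3, h4⟩ := hn
    refine ⟨(y0, e1, e2), hy0, h3, ?_⟩
    rw [hS]
    exact h4
  obtain ⟨F, hF⟩ := hex.choice
  have hfin := iso_seq hM h hk hk' w0 sa sb (i := fun n => fl n (F n).1)
    (Eventually.of_forall fun n => hflat n _) (e1 := fun n => (F n).2.1) (e2 := fun n => (F n).2.2)
    (hF.mono fun n hn => hn.2.1) (v := v) (t := t) (y := y) hK hθ hv0 hv1 hy ht hRt
    (ε := ε / 2) (by linarith)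
  obtain ⟨n, g1, g2, g4⟩ := (hfin.and (hF.and hN0)).exists
  have dp := fun a => Dp76.dpow_pos B n a
  have s0 := h.σp 0 n
  have s1 := h.σp 1 n
  have hsub : S n (F n).1 (F n).2.1 (F n).2.2 ⊆ (I n).filter fun l =>
        Nat8 (fl n (F n).1) (fl n l) K (rho (lev n 0) * B.d n ^ v)
          (sN lev w 0 n * B.d n ^ t) (sN lev w 1 n * B.d n ^ t) ∧
        |(F n).2.1 * coL (fl n (F n).1) (fl n l) 3 + (F n).2.2 * coL (fl n (F n).1) (fl n l) 4| ≤
          K * ((sN lev w 0 n * B.d n ^ t) * B.d n ^ y) := by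
    intro l hl
    rw [hS] at hl
    obtain ⟨l1, l2, l3⟩ := mem_filter.1 hl
    refine mem_filter.2 ⟨l1, nat8_of_near B h.σp hK0.le r0 hr l2, ?_⟩
    have u3 : ∀ k, k = 3 ∨ k = 4 → PL504.coN B lev w w0 sa sb fl n (F n).1 l k / B.d n ^ rc 3 =
        coL (fl n (F n).1) (fl n l) k / (sN lev w 0 n * B.d n ^ t) := by
      intro k hk
      rw [r3, Dp76.dpow_add]
      have z1 := (dp sa).ne'
      have z2 := (dp t).ne'
      have z3 := s0.ne'
      rcases hk with rfl | rfl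
      · show B.d n ^ sa / sN lev w 0 n * coL (fl n (F n).1) (fl n l) 3 / _ = _
        field_simp
      · show B.d n ^ sa / sN lev w 0 n * coL (fl n (F n).1) (fl n l) 4 / _ = _
        field_simp
    rw [u3 3 (Or.inl rfl), u3 4 (Or.inr rfl)] at l3
    have hc : 0 < sN lev w 0 n * B.d n ^ t := mul_pos s0 (dp _)
    have e : (F n).2.1 * (coL (fl n (F n).1) (fl n l) 3 / (sN lev w 0 n * B.d n ^ t)) +
        (F n).2.2 * (coL (fl n (F n).1) (fl n l) 4 / (sN lev w 0 n * B.d n ^ t)) =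
        ((F n).2.1 * coL (fl n (F n).1) (fl n l) 3 + (F n).2.2 * coL (fl n (F n).1) (fl n l) 4) /
          (sN lev w 0 n * B.d n ^ t) := by ring
    rw [e, abs_div, abs_of_pos hc, div_le_iff₀ hc] at l3
    refine l3.trans (le_of_eq (by ring))
  have h4 : ((S n (F n).1 (F n).2.1 (F n).2.2).card : ℝ) ≤ Bd n :=
    (Nat.cast_le.2 (card_le_card hsub)).trans (g1.trans (by
      refine le_trans (le_of_eq ?_) g4
      rfl))
  exact absurd g2.2.2 (not_lt.2 h4)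

end unif

/-! ### dead slots -/

/-- slots of the second box cost nothing if near pairs of the first box are near pairs of the
second one -/
theorem prof_dead {m : ℕ} {B : Base} {ι : ℕ → Type*} [∀ n, DecidableEq (ι n)]
    {I0 I : ∀ n, Finset (ι n)} {co : ∀ n, ι n → ι n → Fin m → ℝ} {M : Mons m} {C R : ℝ}
    {ν : (Fin m → ℝ) → ℝ} (hne : ∀ᶠ n in (U : Filter ℕ), (I n).Nonempty)
    (hsub : ∀ n, I n ⊆ I0 n) (hch : ∀ n, Chart (I0 n) (co n) M C)
    (hP : QProf B I (nlab B I0 co M C) (Leg M R) ν) {p p' : Fin m → ℝ} (hp : p ∈ Leg M R)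
    (hp' : p' ∈ Leg M R) (hd : ∀ n, ∀ i ∈ I0 n, ∀ j ∈ I0 n, ∀ k, p k < p' k → co n i j k = 0) :
    ν p ≤ ν p' := by
  classical
  refine le_of_forall_pos_le_add fun ε hε => ?_
  have hC : 0 ≤ C := (hch 0).C0
  have hK0 : 1 ≤ cK0 M C := cK0_one hC
  have hN := cN_pos M hC hK0
  have hε4 : 0 < ε / 4 := by linarith
  obtain ⟨n, hn1, hn2, hn3, hn4⟩ := ((hP.up _ hε4).and ((hP.root _ hε4).and
    ((B.ev_const_log (Real.log (cN M C (cK0 M C))) hε4).and hne))).exists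
  have hd0 := B.pos n
  have hd1 := (B.lt n).le
  have dp := fun a => Dp76.dpow_pos B n a
  have hcN : cN M C (cK0 M C) ≤ B.d n ^ (-(ε / 4)) := by
    rw [← B.exp_eq, ← Real.log_le_iff_le_exp hN]
    exact hn3
  -- labels of `p'` against labels of `p`
  have h1 : (((I n).image (nlab B I0 co M C n p')).card : ℝ) ≤
      cN M C (cK0 M C) * ((I n).image (nlab B I0 co M C n p)).card := by
    refine card_image_le_mul (I n) _ _ fun x hx => ?_
    have hxI := hsub n hx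
    have h2 := card_nlab_le (B := B) hch (n := n) hp'.1 hp'.1 le_rfl hK0 hxI
    simp only [sub_self, Finset.sum_const_zero, neg_zero, Real.rpow_zero, mul_one] at h2
    refine le_trans ?_ h2
    refine Nat.cast_le.2 (card_le_card (image_subset_image fun z hz => ?_))
    obtain ⟨z1, z2⟩ := mem_cls.1 hz
    have hzI := hsub n z1
    rw [mem_filter]
    refine ⟨hzI, fun k => ?_⟩
    have h3 := near_of_nlab hch hp.1 hxI hzI z2.symm k
    rcases lt_or_ge (p k) (p' k) with hlt | hge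
    · rw [hd n x hxI z hzI k hlt, abs_zero]
      exact mul_nonneg (by linarith) (dp _).le
    · exact h3.trans (mul_le_mul_of_nonneg_left (Dp76.dpow_le B n hge) (by linarith))
  have h2 := hn2 p hp
  -- the classes of `p'` are small
  have h3 : ((I n).card : ℝ) ≤ ((I n).image (nlab B I0 co M C n p')).card *
      B.d n ^ (-(ν p' + ε / 4)) :=
    card_le_image_mul (I n) (I n) (nlab B I0 co M C n p') subset_rfl (dp _).le fun y hy => by
      have := hn1 p' hp' y hy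
      unfold cls at this
      exact this
  have hI : (0 : ℝ) < (I n).card := by exact_mod_cast card_pos.2 hn4
  have h5 : ((I n).card : ℝ) ≤ (I n).card * B.d n ^ (-(ε / 4) + (ν p - ε / 4) + -(ν p' + ε / 4)) := by
    calc ((I n).card : ℝ) ≤ ((I n).image (nlab B I0 co M C n p')).card *
          B.d n ^ (-(ν p' + ε / 4)) := h3
      _ ≤ (B.d n ^ (-(ε / 4)) * ((I n).card * B.d n ^ (ν p - ε / 4))) *
          B.d n ^ (-(ν p' + ε / 4)) := by
          refine mul_le_mul_of_nonneg_right (h1.trans ?_) (dp _).le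
          exact mul_le_mul hcN h2 (Nat.cast_nonneg _) (dp _).le
      _ = _ := by rw [Dp76.dpow_add, Dp76.dpow_add]; ring
  have h6 : 1 ≤ B.d n ^ (-(ε / 4) + (ν p - ε / 4) + -(ν p' + ε / 4)) := by
    by_contra h7
    have := mul_lt_mul_of_pos_left (not_le.1 h7) hI
    linarith
  by_contra h7
  have h8 : 0 < -(ε / 4) + (ν p - ε / 4) + -(ν p' + ε / 4) := by
    have := not_le.1 h7
    linarith
  exact absurd h6 (not_le.2 (Real.rpow_lt_one hd0.le (B.lt n) h8))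

end Crest.Agent.R116.Gi222
end

-- ▼ part R116/Gi2_222
section

/-!
# R116, GEO-D of the light-ray chart (helper222), part 12: velocity strips, round case

* `strB_34` : `N34` at the record box ⊢ strips of the slots `3`, `4` of the classes of the sample.
* `nsW_34` : windows with base points `x l`, record boxes `rc l`, scales `h l`: `NsW W 3 4 q R0`.
-/

set_option autoImplicit false
set_option linter.unusedVariables false
set_option linter.unusedSectionVars false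

open Finset Filter Topology

namespace Crest.Agent.R116.Gi222

open Crest.Agent.R138.Defs (E2)
open Crest.Agent.R138.Ex926
open Crest.Agent.R138.Mk163 (zc zl rho alive)
open Crest.Agent.R138.Dp76 (dpow_pos dpow_add dpow_le)
open Crest.Agent.R138
open Crest.Agent.R136.MkA627
open Crest.Agent.R136.Net191
open Crest.Agent.R136.Qg926
open Crest.Agent.R136.Lq196
open Crest.Agent.R136.NSt107 (NsW)
open Crest.Agent.R116.LZg725
open Crest.Agent.R116.ChL222
open Crest.Agent.R116.PL504 (rL eL coN)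
open Crest.Agent.R116.EvL504
open Crest.Agent.R116.Gd222 (Vf NearS TSet sN DT nbS LData)
open Crest.Agent.R116.Nar192

/-- differences of the functional of the slots `3`, `4` -/
theorem sfN34 {cf : ℕ × ℝ → ℕ × ℝ → Fin 12 → ℝ} {x j l : ℕ × ℝ}
    (hadd : cf x l = comp (cf x j) (cf j l)) {θ : Par3} (hg : θ.2.2 = 0) {κA κB d : ℝ}
    (hκA : 0 < κA) (hκB : 0 < κB) {p : Fin 12 → ℝ} (h34 : p 4 = p 3) (hd : 0 < d ^ p 3) :
    SfN cf 3 4 Phi3 κA κB d p θ x l - SfN cf 3 4 Phi3 κA κB d p θ x j =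
      θ.1 / κA * (cf j l 3 / d ^ p 3) + θ.2.1 / κB * (cf j l 4 / d ^ p 3) := by
  have e3 : cf x l 3 = cf x j 3 + cf j l 3 := by rw [hadd]; rfl
  have e4 : cf x l 4 = cf x j 4 + cf j l 4 := by rw [hadd]; rfl
  unfold SfN Phi3
  rw [hg, h34, e3, e4]
  have h1 := hκA.ne'
  have h2 := hκB.ne'
  have h3 := hd.ne'
  field_simp
  ring

section light

variable {B : Base} {I0 I' : ℕ → Finset (ℕ × ℝ)} {lev : ℕ → ℚ → ℕ} {w : Fin 2 → ℕ → ℚ → ℝ}
    {w0 sa sb : ℝ} {fl : ℕ → ℕ × ℝ → LInc} {C R w0' s s' : ℝ} {kz : Fin 12}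
    {PD : Set (Fin 12 → ℝ)} {D : (Fin 12 → ℝ) → ℝ} {r o : ℝ → Fin 12 → ℝ} {E : ℝ → ℝ}
    {T : Fin 12 → Prop} {ν own : (Fin 12 → ℝ) → ℝ} {c₀ : ℝ} {N0 : ℕ → ℝ}

set_option maxHeartbeats 1000000 in
open Classical in
/-- **velocity strips of the classes of the sample** -/
theorem strB_34
    (hx : ExtQ B I0 I' (coN B lev w w0 sa sb fl) monL C R kz w0' s PD D r o E T ν own c₀)
    (hR : 0 ≤ R) (hc : CombQ B I0 I' lev (coN B lev w w0 sa sb fl) monL C R N0 c₀)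
    {κA κB : ℝ} (hκA : 0 < κA) (hκB : 0 < κB) {p rc : Fin 12 → ℝ} (hp : p ∈ Leg monL R)
    (hrc : rc ∈ Leg monL R) (h3 : p 3 = rc 3) (h4 : p 4 = rc 3) {y z t : ℝ}
    (hyR : p 3 + y ≤ R) (h1 : N34 B I0 (coN B lev w w0 sa sb fl) N0 rc y t) :
    StrB B I0 I' (coN B lev w w0 sa sb fl) monL C 3 4 Phi3 (Ok3 0) κA κB p y z
      (ν p - ν (p ⊔ rc) + c₀ + t) := by
  intro ε hε
  have hcoc := Crest.Agent.R116.Sd369.coc_N B lev w w0 sa sb fl
  have h34 : p 4 = p 3 := by rw [h3, h4]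
  have hg0 : ∀ {D : ℝ} {θ : Par3}, Ok3 0 D θ → θ.2.2 = 0 := fun {D θ} h => by
    have h2 := h.2
    rw [zero_mul] at h2
    exact abs_eq_zero.1 (le_antisymm h2 (abs_nonneg _))
  have key := strip_p (Θ := Par3) (Ok := fun n => Ok3 0 (B.d n ^ (-z)))
    (Sf := fun n θ x j => SfN (coN B lev w w0 sa sb fl n) 3 4 Phi3 κA κB (B.d n) p θ x j)
    hx hR hc Vf hp hrc (y := y) (t := t) ?_ ?_ 1 le_rfl ε hε
  · filter_upwards [key] with n hn x hxn θ hθ u
    have := hn x hxn θ hθ u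
    rw [one_mul] at this
    exact this
  · -- Lipschitz at the top
    intro K hK
    have hK0 : 0 < K := by linarith
    have hsum : 0 ≤ K / κA + K / κB := by positivity
    refine ⟨K / κA + K / κB + 1, by linarith, fun n θ hθ x hxn j hj l hl hxj hjl => ?_⟩
    have dp := fun a => dpow_pos B n a
    have e0 := sfN34 (cf := coN B lev w w0 sa sb fl n) (x := x) (j := j) (l := l)
      ((hcoc n).add x j l) (hg0 hθ) hκA hκB (p := p) h34 (dp (p 3))
    show |SfN (coN B lev w w0 sa sb fl n) 3 4 Phi3 κA κB (B.d n) p θ x l -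
        SfN (coN B lev w w0 sa sb fl n) 3 4 Phi3 κA κB (B.d n) p θ x j| ≤ _
    rw [e0]
    have he1 : |θ.1| ≤ 1 := abs_le_one_iff_mul_self_le_one.2 (by
      have := hθ.1
      nlinarith [sq_nonneg θ.2.1])
    have he2 : |θ.2.1| ≤ 1 := abs_le_one_iff_mul_self_le_one.2 (by
      have := hθ.1
      nlinarith [sq_nonneg θ.1])
    have f0 : ∀ k, |coN B lev w w0 sa sb fl n j l k / B.d n ^ p 3| ≤ K * B.d n ^ y := fun k => by
      rw [abs_div, abs_of_pos (dp _), div_le_iff₀ (dp _), mul_assoc, ← dpow_add]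
      exact (hjl k).trans (mul_le_mul_of_nonneg_left (dpow_le B n (by linarith)) hK0.le)
    have r1 : |θ.1 / κA * (coN B lev w w0 sa sb fl n j l 3 / B.d n ^ p 3)| ≤
        K / κA * B.d n ^ y := by
      rw [abs_mul, abs_div, abs_of_pos hκA]
      calc |θ.1| / κA * |coN B lev w w0 sa sb fl n j l 3 / B.d n ^ p 3| ≤
            1 / κA * (K * B.d n ^ y) :=
            mul_le_mul (div_le_div_of_nonneg_right he1 hκA.le) (f0 3) (abs_nonneg _)
              (by positivity)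
        _ = _ := by ring
    have r2 : |θ.2.1 / κB * (coN B lev w w0 sa sb fl n j l 4 / B.d n ^ p 3)| ≤
        K / κB * B.d n ^ y := by
      rw [abs_mul, abs_div, abs_of_pos hκB]
      calc |θ.2.1| / κB * |coN B lev w w0 sa sb fl n j l 4 / B.d n ^ p 3| ≤
            1 / κB * (K * B.d n ^ y) :=
            mul_le_mul (div_le_div_of_nonneg_right he2 hκB.le) (f0 4) (abs_nonneg _)
              (by positivity)
        _ = _ := by ring
    have e9 : (K / κA + K / κB + 1) * B.d n ^ y =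
        K / κA * B.d n ^ y + K / κB * B.d n ^ y + B.d n ^ y := by ring
    rw [e9]
    have := (dp y).le
    exact (abs_add_le _ _).trans (by linarith)
  · -- the count at the record box
    intro K hK ε' hε'
    have hK0 : 0 < K := by linarith
    set K2 : ℝ := κA + κB with hK2
    have hK20 : 0 < K2 := by rw [hK2]; positivity
    set K1 : ℝ := K + K * K2 with hK1
    have z2 : 0 < K * K2 := by positivity
    have hK11 : 1 ≤ K1 := by rw [hK1]; linarith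
    have hKK1 : K ≤ K1 := by rw [hK1]; linarith
    have hKK2 : K * K2 ≤ K1 := by rw [hK1]; linarith
    filter_upwards [h1 K1 hK11 ε' hε'] with n hn θ hθ x hxn y0 hy0 hnear
    have dp := fun a => dpow_pos B n a
    have b1 := e_low (e1 := θ.1) (e2 := θ.2.1) (m := 0) (M := 0) hκA hκB hθ.1 (by
      rw [abs_zero])
    rw [mul_zero, mul_zero, add_zero, add_zero, ← hK2] at b1
    set N := Real.sqrt ((θ.1 / κA) ^ 2 + (θ.2.1 / κB) ^ 2) with hN
    have hNn : 0 ≤ N := Real.sqrt_nonneg _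
    have hN0 : 0 < N := by
      rcases hNn.lt_or_eq with h | h
      · exact h
      · rw [← h, mul_zero] at b1; linarith
    have hN2 : N ^ 2 = (θ.1 / κA) ^ 2 + (θ.2.1 / κB) ^ 2 := Real.sq_sqrt (by positivity)
    have hE : ((θ.1 / κA) / N) ^ 2 + ((θ.2.1 / κB) / N) ^ 2 = 1 := by
      rw [div_pow (θ.1 / κA), div_pow (θ.2.1 / κB), ← add_div, ← hN2]
      exact div_self (pow_pos hN0 2).ne'
    refine le_trans ?_ (hn y0 hy0 _ _ hE)
    refine Nat.cast_le.2 (card_le_card fun j hj => ?_)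
    have hj' : j ∈ (I0 n).filter fun j => (∀ k, Vf k → |coN B lev w w0 sa sb fl n y0 j k| ≤
        K * B.d n ^ rc k) ∧ |SfN (coN B lev w w0 sa sb fl n) 3 4 Phi3 κA κB (B.d n) p θ x j -
          SfN (coN B lev w w0 sa sb fl n) 3 4 Phi3 κA κB (B.d n) p θ x y0| ≤ K * B.d n ^ y := by
      convert hj
    obtain ⟨j1, j2, j3⟩ := mem_filter.1 hj'
    refine mem_filter.2 ⟨j1, fun k hk => (j2 k hk).trans
      (mul_le_mul_of_nonneg_right hKK1 (dp _).le), ?_⟩
    rw [sfN34 (cf := coN B lev w w0 sa sb fl n) (x := x) (j := y0) (l := j)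
      ((hcoc n).add x y0 j) (hg0 hθ) hκA hκB (p := p) h34 (dp (p 3)), h3] at j3
    have e3 : (θ.1 / κA) / N * (coN B lev w w0 sa sb fl n y0 j 3 / B.d n ^ rc 3) +
        (θ.2.1 / κB) / N * (coN B lev w w0 sa sb fl n y0 j 4 / B.d n ^ rc 3) =
        (θ.1 / κA * (coN B lev w w0 sa sb fl n y0 j 3 / B.d n ^ rc 3) +
          θ.2.1 / κB * (coN B lev w w0 sa sb fl n y0 j 4 / B.d n ^ rc 3)) / N := by ring
    rw [e3, abs_div, abs_of_pos hN0, div_le_iff₀ hN0]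
    refine j3.trans ?_
    calc K * B.d n ^ y ≤ K * B.d n ^ y * (K2 * N) :=
          le_mul_of_one_le_right (mul_pos hK0 (dp _)).le b1
      _ = (K * K2) * B.d n ^ y * N := by ring
      _ ≤ K1 * B.d n ^ y * N :=
          mul_le_mul_of_nonneg_right (mul_le_mul_of_nonneg_right hKK2 (dp _).le) hNn

/-- side data of the stage `l` : class `p`, record box `rc`, scale `h` -/
structure St34 (B : Base) (I0 : ℕ → Finset (ℕ × ℝ))
    (co : ∀ n : ℕ, ℕ × ℝ → ℕ × ℝ → Fin 12 → ℝ) (N0 : ℕ → ℝ) (R q R0 Dv : ℝ)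
    (p rc : Fin 12 → ℝ) (h : ℝ) : Prop where
  p_leg : p ∈ Leg monL R
  rc_leg : rc ∈ Leg monL R
  e3 : p 3 = rc 3
  e4 : p 4 = rc 3
  r3 : p 3 + R0 * h ≤ R
  n34 : ∀ y : ℝ, 0 < y → y ≤ R0 * h → N34 B I0 co N0 rc y (Dv - q * y)

/-- **velocity strips of the windows** -/
theorem nsW_34
    (hx : ExtQ B I0 I' (coN B lev w w0 sa sb fl) monL C R kz w0' s PD D r o E T ν own c₀)
    (hR : 0 ≤ R) (hc : CombQ B I0 I' lev (coN B lev w w0 sa sb fl) monL C R N0 c₀)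
    {κA κB : ℝ} (hκA : 0 < κA) (hκB : 0 < κB) {q R0 : ℝ} (hq : 0 ≤ q) (hR0 : 0 < R0)
    {x rc : ℕ → Fin 12 → ℝ} {h Dv : ℕ → ℝ} (hh : ∀ l, 0 < h l)
    (hst : ∀ᶠ l in (atTop : Filter ℕ), St34 B I0 (coN B lev w w0 sa sb fl) N0 R q R0
      (Dv l) (x l) (rc l) (h l))
    (hfr : ∀ ε : ℝ, 0 < ε → ∀ᶠ l in (atTop : Filter ℕ),
      c₀ + Dv l - ν (x l ⊔ rc l) ≤ ε * h l) :
    ∃ k : ℕ → ℕ, Tendsto k U atTop ∧ ∀ k' : ℕ → ℕ, Tendsto k' U atTop →
      (∀ᶠ n in (U : Filter ℕ), k' n ≤ k n) → ∀ W : Wnd 12 (fun _ => ℕ × ℝ), W.Ok → W.I = I0 →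
        W.J = I' → W.B = B → W.co = coN B lev w w0 sa sb fl → W.M = monL → W.C = C →
        (∀ n, W.X n = x (k' n)) →
        (∀ n, W.B'.d n = B.d n ^ h (k' n)) → W.kap 3 = κA → W.kap 4 = κB →
        (∀ ε : ℝ, 0 < ε → ∀ᶠ n in (U : Filter ℕ),
          B.d n ^ (-ν (x (k' n))) * W.B'.d n ^ ε ≤ ((W.Cl n).card : ℝ)) →
        NsW W 3 4 q R0 := by
  obtain ⟨k, hk, hk2⟩ := nsG_of_stages (B := B) (I0 := I0) (I' := I')
    (co := coN B lev w w0 sa sb fl) (M := monL) (C := C) (A := 3) (Bk := 4) (Φ := Phi3)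
    (Ok := Ok3 0) (κA := κA) (κB := κB) (x := x) (h := h) (ν := ν)
    (loss := fun l => c₀ + Dv l - ν (x l ⊔ rc l)) (C1 := 0) hq le_rfl hR0 hh
    (fun D D' hDD θ hθ => ⟨hθ.1, by
      have := hθ.2
      rwa [zero_mul] at this ⊢⟩) hfr (by
      filter_upwards [hst] with l hl y hy hyR z hz hzR
      have h1 := strB_34 (y := y) (z := z) (t := Dv l - q * y) hx hR hc hκA hκB hl.p_leg
        hl.rc_leg hl.e3 hl.e4 (by linarith [hl.r3]) (hl.n34 y hy hyR)
      have e0 : ν (x l) - ν (x l ⊔ rc l) + c₀ + (Dv l - q * y) =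
          ν (x l) + (c₀ + Dv l - ν (x l ⊔ rc l)) - q * y + 0 * z := by ring
      rw [e0] at h1
      exact h1)
  refine ⟨k, hk, fun k' h1 h2 W g1 g2 g3 g4 g5 g6 g7 g8 g9 g10 g11 g12 => ?_⟩
  exact (hk2 k' h1 h2 W g1 g2 g3 g4 g5 g6 g7 g8 g9 g10 g11 g12).toNsW le_rfl (by linarith)

end light

end Crest.Agent.R116.Gi222
end

-- ▼ part R116/RfF_468
section

/-!
# R116, isotropic row (helper468), part 1: the chart of the flat flags

In the round case (`OutR`, `CtxR`) the flags are flat: `et = 0`, `d = 0`, `(b1, b2) = e_a`.  Hence, for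
ALL pairs: slots `1, 2, 7, 8` are `0`, slot `10` = component `a` of `C`, slot `11` = component `a` of
`X` (`flat_zero`, `flat_P`, `flat_F`; normalised: `coN_flat0`, `coN_flatP`, `coN_flatF`).
-/

set_option autoImplicit false
set_option linter.unusedVariables false

open Finset Filter Topology

namespace Crest.Agent.R116.RfF468

open Crest.Agent.R138.Defs (E2)
open Crest.Agent.R138.Ex926 (Base U)
open Crest.Agent.R136.MkA627
open Crest.Agent.R136.Net191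
open Crest.Agent.R136.TD627
open Crest.Agent.R136.Lq196
open Crest.Agent.R116.LZg725
open Crest.Agent.R116.ChL222
open Crest.Agent.R116.PL504 (βL eL rL oL Shift nb DN)
open Crest.Agent.R116.Gd222 (TSet sN PDL DT vb)
open Crest.Agent.R116.KI439
open Crest.Agent.R116.KF439 (PL Thin Thick frF flF scN flatc flatc_grr flatc_ny flatc_d)
open Crest.Agent.R116.Tw468
open Crest.Agent.R116.CtxB468
open Crest.Agent.R116.Xd954 (cs xs bb)

variable {a : Fin 2} {L : ℕ → ℕ → LRay} {n : ℕ} {x y : ℕ × ℝ}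

theorem flF_et : (flF a L n x).et = 0 := flatc_ny a x.2

theorem flF_d : (flF a L n x).d = 0 := flatc_d a

theorem flF_b1 : (flF a L n x).b1 = if a = 0 then 1 else 0 := by
  show Crest.Agent.R116.Bm903.grr (flatc a) (L n x.1) 0 = _
  rw [flatc_grr]
  fin_cases a <;> simp

theorem flF_b2 : (flF a L n x).b2 = if a = 0 then 0 else 1 := by
  show Crest.Agent.R116.Bm903.grr (flatc a) (L n x.1) 1 = _
  rw [flatc_grr]
  fin_cases a <;> simp

/-- slots `1, 2, 7, 8` vanish -/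
theorem flat_zero {k : Fin 12} (hk : k = 1 ∨ k = 2 ∨ k = 7 ∨ k = 8) :
    coL (flF a L n x) (flF a L n y) k = 0 := by
  unfold coL
  rcases hk with rfl | rfl | rfl | rfl
  · simp [flF_d]
  · simp [flF_d, flF_et]
  · simp [flF_d, flF_et, flF_b1]
  · simp [flF_d, flF_et, flF_b2]



variable {B : Base} {lev : ℕ → ℚ → ℕ} {w : Fin 2 → ℕ → ℚ → ℝ} {w0 sa sb : ℝ}

theorem coN_flat0 {k : Fin 12} (hk : k = 1 ∨ k = 2 ∨ k = 7 ∨ k = 8) :
    PL504.coN B lev w w0 sa sb (flF a L) n x y k = 0 := by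
  unfold PL504.coN
  rw [flat_zero hk, mul_zero]


end Crest.Agent.R116.RfF468
end

-- ▼ part R116/Gi3_222
section

/-!
# R116, GEO-D of the light-ray chart (helper222), part 13: velocity strips, round case

* **`CtxR.nsW34`** : `nsW_34` over 468's `CtxR` (flat flags, `θ 0 = θ 1`), exponent `q 1`; the flag
  slots `1, 2, 7, 8` of the base points are arbitrary (they vanish identically).
-/

set_option autoImplicit false
set_option linter.unusedVariables false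
set_option linter.unusedSectionVars false

open Finset Filter Topology

namespace Crest.Agent.R116.Gi222

open Crest.Agent.R138.Defs (E2)
open Crest.Agent.R138.Ex926
open Crest.Agent.R138.Mk163 (zc zl rho alive)
open Crest.Agent.R138.Dp76 (dpow_pos dpow_add dpow_le)
open Crest.Agent.R138
open Crest.Agent.R136.MkA627
open Crest.Agent.R136.Net191
open Crest.Agent.R136.Qg926
open Crest.Agent.R136.Lq196
open Crest.Agent.R136.NSt107 (NsW)
open Crest.Agent.R116.LZg725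
open Crest.Agent.R116.ChL222
open Crest.Agent.R116.PL504 (rL eL coN)
open Crest.Agent.R116.EvL504
open Crest.Agent.R116.Gd222 (Vf NearS TSet sN DT nbS LData)
open Crest.Agent.R116.Nar192
open Crest.Agent.R116.KF439 (Thick flF)
open Crest.Agent.R116.Tw468
open Crest.Agent.R116.KI439
open Crest.Agent.R116.CtxB468

section ctx

variable {G : Geo TSet (Fin 2)} {L : ℕ → ℕ → LRay} {r : ℕ → ℝ} {g s : ℝ} {θ q : Fin 2 → ℝ}
    {Rg : ℝ} {a : Fin 2} {B : Base}
    {I : ℕ → Finset (ℕ × ℝ)} {lev : ℕ → ℚ → ℕ} {A : ℕ → ℝ}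
    {f : ℕ → ℚ → ℕ → ℤ → ℕ} {b : ℕ → ℚ → ℕ → TSet} {vm : ℕ → ℚ → ℝ} {w : Fin 2 → ℕ → ℚ → ℝ}
    {w0 sa sb δ R : ℝ} {I0 I' : ℕ → Finset (ℕ × ℝ)} {ν own : (Fin 12 → ℝ) → ℝ} {c₀ : ℝ}

/-- the marks of level `1` are round -/
theorem hk_thick {c Λ : ℝ → ℝ} {τ : Fin 2 → ℝ → ℝ} (h : MkA B I G lev A c Λ τ f b vm w)
    (ht : Thick B w) : ∀ ε : ℝ, 0 < ε → ∀ᶠ n in (U : Filter ℕ),
      sN lev w 0 n ≤ sN lev w 1 n * B.d n ^ (-ε) := by
  intro ε hε
  filter_upwards [ht ε hε 1 zero_le_one le_rfl, h.wpos 0 1 zero_le_one le_rfl,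
    h.wpos 1 1 zero_le_one le_rfl] with n a1 p0 p1
  have r1 : 0 < rho (lev n 1) := by unfold rho; positivity
  have dp := fun a => dpow_pos B n a
  unfold sN
  rw [PL504.ps_eq (div_pos p0 r1), PL504.ps_eq (div_pos p1 r1), div_le_iff₀ r1]
  have e : w 1 n 1 / rho (lev n 1) * B.d n ^ (-ε) * rho (lev n 1) = w 1 n 1 * B.d n ^ (-ε) := by
    field_simp
  rw [e]
  have e2 : w 0 n 1 = (B.d n ^ ε * w 0 n 1) * B.d n ^ (-ε) := by
    have : B.d n ^ ε * B.d n ^ (-ε) = 1 := by rw [← dpow_add, add_neg_cancel, Real.rpow_zero]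
    calc w 0 n 1 = (B.d n ^ ε * B.d n ^ (-ε)) * w 0 n 1 := by rw [this, one_mul]
      _ = _ := by ring
  rw [e2]
  exact mul_le_mul_of_nonneg_right a1 (dp _).le

theorem nbS_eL (w0 sa sb v t : ℝ) {k : Fin 12} (hk : Vf k) :
    nbS w0 sa sb v t t k = eL (w0 + v) (sa + t) (sb + t) k := by
  obtain ⟨k1, k2, k7, k8⟩ := hk
  fin_cases k
  · have h1 : nbS w0 sa sb v t t 0 = w0 + v := rfl
    have h2 : eL (w0 + v) (sa + t) (sb + t) 0 = w0 + v := rfl
    exact h1.trans h2.symm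
  · exact absurd rfl k1
  · exact absurd rfl k2
  · have h1 : nbS w0 sa sb v t t 3 = sa + t := rfl
    have h2 : eL (w0 + v) (sa + t) (sb + t) 3 = sa + t := rfl
    exact h1.trans h2.symm
  · have h1 : nbS w0 sa sb v t t 4 = sa + t := rfl
    have h2 : eL (w0 + v) (sa + t) (sb + t) 4 = sa + t := rfl
    exact h1.trans h2.symm
  · have h1 : nbS w0 sa sb v t t 5 = w0 + v + (sa + t) := rfl
    have h2 : eL (w0 + v) (sa + t) (sb + t) 5 = w0 + v + (sa + t) := rfl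
    exact h1.trans h2.symm
  · have h1 : nbS w0 sa sb v t t 6 = w0 + v + (sa + t) := rfl
    have h2 : eL (w0 + v) (sa + t) (sb + t) 6 = w0 + v + (sa + t) := rfl
    exact h1.trans h2.symm
  · exact absurd rfl k7
  · exact absurd rfl k8
  · have h1 : nbS w0 sa sb v t t 9 = w0 + v + 2 * (sa + t) := rfl
    have h2 : eL (w0 + v) (sa + t) (sb + t) 9 = w0 + v + 2 * (sa + t) := rfl
    exact h1.trans h2.symm
  · have h1 : nbS w0 sa sb v t t 10 = sb + t := rfl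
    have h2 : eL (w0 + v) (sa + t) (sb + t) 10 = sb + t := rfl
    exact h1.trans h2.symm
  · have h1 : nbS w0 sa sb v t t 11 = w0 + v + (sb + t) := rfl
    have h2 : eL (w0 + v) (sa + t) (sb + t) 11 = w0 + v + (sb + t) := rfl
    exact h1.trans h2.symm

/-- **velocity strips at the record box, round case** -/
theorem _root_.Crest.Agent.R116.CtxB468.CtxR.n34
    (hC : CtxR G L r g s θ q Rg a B I lev A f b vm w w0 sa sb δ R I0 I' ν own c₀)
    {v y : ℝ} (hv0 : 0 ≤ v) (hv1 : v ≤ 1) (hy : 0 < y) (ht : 0 < θ 0 * (1 - v))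
    (hRt : θ 0 * (1 - v) + y < Rg) :
    N34 B I0 (coN B lev w w0 sa sb (flF a L)) (N0T B s A vm) (rL (θ 0) (θ 1) w0 sa sb v) y
      (DT g s q θ w0 sa sb (rL (θ 0) (θ 1) w0 sa sb v) - q 1 * y) := by
  have hθ := KS439.OutR.theta_eq hC.out
  have hk : ∀ ε : ℝ, 0 < ε → ∀ᶠ n in (U : Filter ℕ), sN lev w 1 n ≤ sN lev w 0 n * B.d n ^ (-ε) :=
    fun ε hε => by
      have := hC.out.win.hk0 ε hε
      rwa [zero_sub] at this
  have hr : rL (θ 0) (θ 1) w0 sa sb v = eL (w0 + v) (sa + θ 0 * (1 - v)) (sb + θ 0 * (1 - v)) := by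
    unfold rL
    rw [← hθ, add_comm (θ 0 * (1 - v)) sa, add_comm (θ 0 * (1 - v)) sb]
  refine (n34_of (q := q) hC.out.win.sys.mka hC.out.win.dat hC.out.win.isL.wid hk
    (hk_thick hC.out.win.sys.mka hC.out.thick)
    (fun n x => ⟨RfF468.flF_et, RfF468.flF_d⟩) w0 sa sb (v := v) (t := θ 0 * (1 - v)) (y := y)
    hv0 hv0 hv1 hy ht hRt (rc := rL (θ 0) (θ 1) w0 sa sb v) rfl ?_ ?_ ?_).mono_set hC.sub0
  · rw [hr]; rfl
  · rw [hr]; rfl
  · intro k hk
    rw [hr]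
    exact (nbS_eL w0 sa sb v _ hk).le

/-- **(NARROW), round case**: velocity strips of the windows; the flag slots of the base points are
arbitrary -/
theorem _root_.Crest.Agent.R116.CtxB468.CtxR.nsW34
    (hC : CtxR G L r g s θ q Rg a B I lev A f b vm w w0 sa sb δ R I0 I' ν own c₀)
    (hq : 0 < q 1) (hθ0 : 0 < θ 0) (hθR : θ 0 < Rg) {x : ℕ → Fin 12 → ℝ} {h v : ℕ → ℝ}
    (hh : ∀ l, 0 < h l) (hh0 : Tendsto h atTop (𝓝 0)) {v1 : ℝ} (hv1 : v1 < 1)
    (hx : ∀ᶠ l in (atTop : Filter ℕ), x l ∈ Leg monL R ∧ 0 ≤ v l ∧ v l ≤ v1 ∧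
      x l 3 = rL (θ 0) (θ 1) w0 sa sb (v l) 3 ∧ x l 4 = rL (θ 0) (θ 1) w0 sa sb (v l) 3 ∧
      ∀ k, Vf k → x l k ≤ rL (θ 0) (θ 1) w0 sa sb (v l) k)
    {R0 : ℝ} (hR0 : 0 < R0) {κ3 κ4 : ℝ} (hκ3 : 0 < κ3) (hκ4 : 0 < κ4) :
    ∃ k : ℕ → ℕ, Tendsto k U atTop ∧ ∀ k' : ℕ → ℕ, Tendsto k' U atTop →
      (∀ᶠ n in (U : Filter ℕ), k' n ≤ k n) → ∀ W : Wnd 12 (fun _ => ℕ × ℝ), W.Ok → W.I = I0 →
        W.J = I' → W.B = B → W.co = coN B lev w w0 sa sb (flF a L) → W.M = monL → W.C = 2 →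
        (∀ n, W.X n = x (k' n)) →
        (∀ n, W.B'.d n = B.d n ^ h (k' n)) → W.kap 3 = κ3 → W.kap 4 = κ4 →
        (∀ ε : ℝ, 0 < ε → ∀ᶠ n in (U : Filter ℕ),
          B.d n ^ (-ν (x (k' n))) * W.B'.d n ^ ε ≤ ((W.Cl n).card : ℝ)) →
        NsW W 3 4 (q 1) R0 := by
  have hRp : 0 < R := hC.sh.d0.trans_le hC.sh.R_pos
  have hθ := KS439.OutR.theta_eq hC.out
  refine nsW_34 (Dv := fun l => DT g s q θ w0 sa sb (rL (θ 0) (θ 1) w0 sa sb (v l)))
    (rc := fun l => rL (θ 0) (θ 1) w0 sa sb (v l)) hC.ext hRp.le hC.comb hκ3 hκ4 hq.le hR0 hh ?_ ?_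
  · -- the stages
    have hsm : ∀ ε : ℝ, 0 < ε → ∀ᶠ l in (atTop : Filter ℕ), R0 * h l ≤ ε := fun ε hε => by
      have h1 : Tendsto (fun l => R0 * h l) atTop (𝓝 0) := by
        simpa using hh0.const_mul R0
      exact (h1.eventually (gt_mem_nhds hε)).mono fun l hl => hl.le
    filter_upwards [hx, hsm _ hC.sh.d0, hsm _ (show 0 < (Rg - θ 0) / 2 by linarith)] with
      l hl h1 h2
    obtain ⟨a1, a2, a3, a4, a5, a6⟩ := hl
    have hv1' : v l ≤ 1 := a3.trans hv1.le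
    have hleg := hC.sh.rL_leg a2 hv1'
    refine ⟨a1, hleg, a4, a5, ?_, fun y hy hyR => ?_⟩
    · -- `rc 3 + δ ≤ R`
      rw [a4]
      have b1 := hC.sh.bD a2 hv1'
      have b2 := hC.sh.bR a2 hv1'
      have b3 := hC.sh.bc a2 hv1'
      have b4 := hC.sh.bz a2
      have b5 := hC.sh.d0
      have e : rL (θ 0) (θ 1) w0 sa sb (v l) 3 = θ 0 * (1 - v l) + sa := rfl
      rw [e]
      linarith
    · refine hC.n34 a2 hv1' hy (mul_pos hθ0 (by linarith)) ?_
      have : θ 0 * (1 - v l) ≤ θ 0 := by nlinarith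
      linarith
  · -- the freeze
    intro ε hε
    filter_upwards [hx] with l hl
    obtain ⟨a1, a2, a3, a4, a5, a6⟩ := hl
    have hv1' : v l ≤ 1 := a3.trans hv1.le
    have hleg := hC.sh.rL_leg a2 hv1'
    have h1 : ν (rL (θ 0) (θ 1) w0 sa sb (v l)) ≤ ν (x l ⊔ rL (θ 0) (θ 1) w0 sa sb (v l)) := by
      refine prof_dead hC.ext.ne hC.ext.sub hC.ext.chart hC.ext.prof hleg (Leg.sup a1 hleg) ?_
      intro n i _ j _ k hk
      refine RfF468.coN_flat0 ?_
      by_contra hcon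
      have h2 : Vf k := by
        refine ⟨fun e => hcon ?_, fun e => hcon ?_, fun e => hcon ?_, fun e => hcon ?_⟩
        · exact Or.inl e
        · exact Or.inr (Or.inl e)
        · exact Or.inr (Or.inr (Or.inl e))
        · exact Or.inr (Or.inr (Or.inr e))
      have h3 := a6 k h2
      have h4 : (x l ⊔ rL (θ 0) (θ 1) w0 sa sb (v l)) k = rL (θ 0) (θ 1) w0 sa sb (v l) k := by
        rw [Pi.sup_apply]; exact sup_eq_right.2 h3
      rw [h4] at hk
      exact lt_irrefl _ hk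
    have h2 := hC.ext.record (v l) a2 hv1'
    rw [EL_eq g s q θ w0 sa sb] at h2
    have h3 : 0 ≤ ε * h l := mul_nonneg hε.le (hh l).le
    linarith

end ctx

end Crest.Agent.R116.Gi222
end

-- ▼ part R116/Gi4_222
section

/-!
# R116, GEO-D of the light-ray chart (helper222), part 14: velocity strips, 863's form

* **`CtxR.nsT34`** : `CtxR.nsW34` as 863's `NsT B I0 I' (coN ..) 2 D ν lam X h t 3 4 (q 1)`, for
  every set of directions `D` and every function `lam`.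
-/

set_option autoImplicit false
set_option linter.unusedVariables false
set_option linter.unusedSectionVars false

open Finset Filter Topology

namespace Crest.Agent.R116.Gi222

open Crest.Agent.R138.Ex926
open Crest.Agent.R136.MkA627
open Crest.Agent.R136.Net191
open Crest.Agent.R136.Qg926
open Crest.Agent.R136.Lq196
open Crest.Agent.R136.NSt107 (NsW)
open Crest.Agent.R116.ChL222
open Crest.Agent.R116.PL504 (rL eL coN)
open Crest.Agent.R116.EvL504
open Crest.Agent.R116.Gd222 (Vf TSet sN DT)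
open Crest.Agent.R116.KF439 (Thick flF)
open Crest.Agent.R116.KI439
open Crest.Agent.R116.CtxB468
open Crest.Agent.R116.WinU954 (WinU)

variable {G : Geo TSet (Fin 2)} {L : ℕ → ℕ → LRay} {r : ℕ → ℝ} {g s : ℝ} {θ q : Fin 2 → ℝ}
    {Rg : ℝ} {a : Fin 2} {B : Base}
    {I : ℕ → Finset (ℕ × ℝ)} {lev : ℕ → ℚ → ℕ} {A : ℕ → ℝ}
    {f : ℕ → ℚ → ℕ → ℤ → ℕ} {b : ℕ → ℚ → ℕ → TSet} {vm : ℕ → ℚ → ℝ} {w : Fin 2 → ℕ → ℚ → ℝ}
    {w0 sa sb δ R : ℝ} {I0 I' : ℕ → Finset (ℕ × ℝ)} {ν own : (Fin 12 → ℝ) → ℝ} {c₀ : ℝ}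

/-- **velocity strips of the windows, round case**, 863's form -/
theorem _root_.Crest.Agent.R116.CtxB468.CtxR.nsT34
    (hC : CtxR G L r g s θ q Rg a B I lev A f b vm w w0 sa sb δ R I0 I' ν own c₀)
    (hq : 0 < q 1) (hθ0 : 0 < θ 0) (hθR : θ 0 < Rg) {X : ℕ → Fin 12 → ℝ} {h v : ℕ → ℝ}
    (hh : ∀ l, 0 < h l) (hh0 : Tendsto h atTop (𝓝 0)) {v1 : ℝ} (hv1 : v1 < 1)
    (hx : ∀ᶠ l in (atTop : Filter ℕ), X l ∈ Leg monL R ∧ 0 ≤ v l ∧ v l ≤ v1 ∧
      X l 3 = rL (θ 0) (θ 1) w0 sa sb (v l) 3 ∧ X l 4 = rL (θ 0) (θ 1) w0 sa sb (v l) 3 ∧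
      ∀ k, Vf k → X l k ≤ rL (θ 0) (θ 1) w0 sa sb (v l) k)
    {t : ℝ} (ht : 0 < t) (D : Set (Fin 12 → ℝ)) (lam : (Fin 12 → ℝ) → ℝ) :
    Nar863.NsT B I0 I' (coN B lev w w0 sa sb (flF a L)) 2 D ν lam X h t 3 4 (q 1) := by
  have hK1 : 1 ≤ cK0 monL 2 := cK0_one (by norm_num)
  have hK0 : 0 < cK0 monL 2 := by linarith
  obtain ⟨k, hk, hk2⟩ := hC.nsW34 hq hθ0 hθR hh hh0 hv1 hx ht
    (κ3 := cK0 monL 2 ^ PL504.wtL 3) (κ4 := cK0 monL 2 ^ PL504.wtL 4) (pow_pos hK0 _) (pow_pos hK0 _)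
  refine ⟨k, hk, fun k' h1 h2 W hW => ?_⟩
  refine hk2 k' h1 h2 W hW.wl.ok hW.hI hW.hJ hW.hB hW.hco hW.hM hW.hC
    (fun n => by rw [hW.hX]) hW.base (by rw [hW.hkap]) (by rw [hW.hkap]) ?_
  intro ε hε
  filter_upwards [hW.wl.ok.cls.big ε hε] with n hn
  rw [hW.hT] at hn
  exact hn

end Crest.Agent.R116.Gi222
end

-- ▼ part R116/SgI7_337
section

/-!
# R116, K-TEXT II-c, the ISOTROPIC record (helper337), part 7: (A1)

* **`a1_I`** : (A1) at a generic point of the plane of the frozen flags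
-/

set_option autoImplicit false
set_option linter.unusedVariables false

open Set Filter Topology MeasureTheory

namespace Crest.Agent.R116.SgI337

open Crest.Agent.R138.Ex926 (Base U IsTan)
open Crest.Agent.R136
open Crest.Agent.R136.Net191
open Crest.Agent.R136.Qg926
open Crest.Agent.R136.MkA627
open Crest.Agent.R136.TD627
open Crest.Agent.R136.Lq196
open Dg262 (X SupOn)
open Dg219 (Walls mw gset mem_gset gC dhC nC gC_zero gC_eq OutS)
open SgO219 (PP OO LT OutL RateP exists_lin L_sub_LT)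
open Crest.Agent.R116.ChL222
open Crest.Agent.R116.EvL504 (Coc)
open Crest.Agent.R116.KF439 (flF)
open Crest.Agent.R116.PL504 (nb rL DN eL βL oL Shift)
open Crest.Agent.R116.Gd222 (TSet sN PDL DT)
open Crest.Agent.R116.KI439
open Crest.Agent.R116.Tw468 (OutT OutR)
open Crest.Agent.R116.CtxB468
open Sg337 (bx9 coneL mem_coneL natB uC eL_bx9 SI ProfI DL sigI_all)
open Sg635 (PP_eq no_one ne_one aS aS_nonneg)
open Nar863 (a1_iso isoT)
open Crest.Agent.R116.Xd954 (cs xs)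

section ctx

variable {G : Geo TSet (Fin 2)} {L : ℕ → ℕ → LRay} {r : ℕ → ℝ} {c s : ℝ} {θ q : Fin 2 → ℝ}
    {Rg : ℝ} {a : Fin 2} {B : Base}
    {I : ℕ → Finset (ℕ × ℝ)} {lev : ℕ → ℚ → ℕ} {A : ℕ → ℝ}
    {f : ℕ → ℚ → ℕ → ℤ → ℕ} {b : ℕ → ℚ → ℕ → TSet} {vm : ℕ → ℚ → ℝ} {w : Fin 2 → ℕ → ℚ → ℝ}
    {w0 sa sb δ R : ℝ} {I0 I' : ℕ → Finset (ℕ × ℝ)} {ν own : (Fin 12 → ℝ) → ℝ} {c₀ : ℝ}

theorem iso0 (t c x : ℝ) : isoT t c x 0 = t := rfl
theorem iso5 (t c x : ℝ) : isoT t c x 5 = x := rfl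
theorem iso6 (t c x : ℝ) : isoT t c x 6 = x := rfl
theorem iso9 (t c x : ℝ) : isoT t c x 9 = 0 := rfl
theorem iso11 (t c x : ℝ) : isoT t c x 11 = 0 := rfl

/-- the increment of the positions -/
theorem eX_of {θ l : ℝ} (hl : 0 < l) (hθ' : θ ≠ 0) {lam : (Fin 12 → ℝ) → ℝ} {A : ℝ × ℝ}
    {φ : ℕ → (Fin 12 → ℝ) → ℝ} {r : ℕ → ℝ}
    (H : OutS (gC aS (bI θ)) ((mw monL).L (xI l) aS (bI θ)) (dhC aS (bI θ)) (nC aS (bI θ)) lam A
      φ r) {a : Fin 2} (hdead : DeadL ((mw monL).L (xI l) aS (bI θ)) a lam) :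
    φ (kX θ) (bx9 1 0 0 0 1 0 0 0 0) = -r (kX θ) := by
  set L : Set (Fin 12 → ℝ) := (mw monL).L (xI l) aS (bI θ) with hL
  have mX : ∀ F : ℝ, F ≤ 1 → bx9 1 0 0 0 1 0 0 0 F ∈ L := by
    intro F hF
    rw [hL, mem_LI hl]
    simp [bx9]
    exact hF
  have sumX : ∀ F : ℝ, F ≤ 1 → lam (bx9 1 0 0 0 1 0 0 0 F) =
      φ (kz θ) (bx9 1 0 0 0 1 0 0 0 0) + φ (kX θ) (bx9 1 0 0 0 1 0 0 0 F) := by
    intro F hF
    rw [H.sum _ (mX F hF), gsetI_sum hθ']
    have a1 : φ 0 (bx9 1 0 0 0 1 0 0 0 F) = 0 := H.zero _ _ fun i hi => by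
      rw [gI_zero] at hi
      fin_cases i <;> simp [bx9] at hi ⊢
    have a2 : φ (kz θ) (bx9 1 0 0 0 1 0 0 0 F) = φ (kz θ) (bx9 1 0 0 0 1 0 0 0 0) :=
      H.loc _ _ _ fun i hi => by
        rw [(grpI_slots hθ' i).1.1 hi]
        show (1:ℝ) = 1
        rfl
    have a3 : φ (kN θ) (bx9 1 0 0 0 1 0 0 0 F) = 0 := H.zero _ _ fun i hi => by
      rw [(grpI_slots hθ' i).2.2.1 hi]; rfl
    rw [a1, a2, a3]; ring
  have h1 : φ (kX θ) (bx9 1 0 0 0 1 0 0 0 1) = -(r (kX θ) * 1) :=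
    H.rate (kX θ) _ (mX 1 le_rfl) 1 fun i hi => by
      rcases (grpI_slots hθ' i).2.1.1 hi with rfl | rfl | rfl
      · rw [dhI_X.2.1]; show (1:ℝ) = 1 * 1; norm_num
      · rw [dhI_X.2.2.1]; show (1:ℝ) = 1 * 1; norm_num
      · rw [dhI_X.2.2.2.2]; show (1:ℝ) = 1 * 1; norm_num
  have k1 : lam (bx9 1 0 0 0 1 0 0 0 1) = lam (bx9 1 0 0 0 1 0 0 0 0) := by
    have hal : ∀ F F' : ℝ, ∀ k, Al k → bx9 1 0 0 0 1 0 0 0 F k = bx9 1 0 0 0 1 0 0 0 F' k := by
      rintro F F' k ⟨k1, k2, k7, k8, k10, k11⟩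
      fin_cases k <;> simp [bx9] at k11 ⊢
    refine le_antisymm ?_ ?_
    · refine hdead _ (mX 1 le_rfl) _ (mX 0 zero_le_one) (hal _ _) ?_ ?_
      · fin_cases a <;> simp [bx9, cs]
      · fin_cases a <;> simp [bx9, xs]
    · refine hdead _ (mX 0 zero_le_one) _ (mX 1 le_rfl) (hal _ _) ?_ ?_
      · fin_cases a <;> simp [bx9, cs]
      · fin_cases a <;> simp [bx9, xs]
  rw [sumX 1 le_rfl, sumX 0 zero_le_one] at k1
  linarith

/-- **(A1) at a generic point of the plane** -/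
theorem a1_I (h : CtxR G L r c s θ q Rg a B I lev A f b vm w w0 sa sb δ R I0 I' ν own c₀)
    (hθ : θ 0 = θ 1) (hθ0 : 0 < θ 0) (hRg : θ 0 < Rg) (hq1 : 0 < q 1) (hs0 : 0 ≤ s) (hs1 : s ≤ 1)
    {δ' : ℝ}
    {v0 l : ℝ} {z : ℝ × ℝ} {u k : ℕ → ℝ} {lam : (Fin 12 → ℝ) → ℝ} {A' : ℝ × ℝ}
    {φ : ℕ → (Fin 12 → ℝ) → ℝ} {rr : ℕ → ℝ}
    (H : SigI R w0 sa sb s c (q 0) (q 1) δ' θ a ν v0 l z u k lam A' φ rr) :
    2 * (1 - s) ≤ rr (kX (θ 0)) := by
  classical
  have hθ' : θ 0 ≠ 0 := hθ0.ne'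
  set LL : Set (Fin 12 → ℝ) := (mw monL).L (xI l) aS (bI (θ 0)) with hLL
  have hR0 : 0 ≤ R := by
    have h1 := h.sh.rL_leg (v := 0) le_rfl zero_le_one
    exact (h1.1.nonneg 0).trans (h1.2 0)
  have hcoc : ∀ n, Coc (PL504.coN B lev w w0 sa sb (flF a L) n) :=
    fun n => Sd369.coc_N _ _ _ _ _ _ _ _
  have hN : NProf B I0 I' (PL504.coN B lev w w0 sa sb (flF a L)) monL 2 R ν :=
    WinU954.nprof_of_ext hR0 h.ext
  have m0 : (0 : Fin 12 → ℝ) ∈ LL := by rw [hLL, mem_LI H.hl]; simp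
  have hpos : ∀ m, 0 < u m * k m := fun m => mul_pos (H.upos m) (H.kpos m)
  have hmul : Tendsto (fun m => u m * k m) atTop (𝓝 0) := by
    have := H.u0.mul H.k0
    simpa using this
  have hleg : Leg monL 1 ⊆ LL := fun p hp => cone_sub fun k e he => hp.1.wall k e he
  -- splitting
  have hsplit : ∀ p ∈ LL, lam p = φ 0 p + φ (kz (θ 0)) p + φ (kX (θ 0)) p + φ (kN (θ 0)) p :=
    fun p hp => by rw [H.out.sum _ hp, gsetI_sum hθ']
  have hlam0 : lam 0 = 0 := by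
    have hφ0 : ∀ k, φ k 0 = 0 := fun k => H.out.zero k 0 fun i _ => rfl
    rw [hsplit 0 m0, hφ0, hφ0, hφ0, hφ0]; norm_num
  -- membership
  have mem : ∀ p : Fin 12 → ℝ, p 5 ≤ p 0 + p 3 → p 6 ≤ p 0 + p 4 → p 9 ≤ p 3 + p 5 →
      p 9 ≤ p 4 + p 6 → p 11 ≤ p 0 + p 10 → p ∈ LL := fun p h1 h2 h3 h4 h5 => by
    rw [hLL, mem_LI H.hl]; exact ⟨h1, h2, h3, h4, h5⟩
  -- groups
  have gz : ∀ p p' : Fin 12 → ℝ, p 0 = p' 0 → φ (kz (θ 0)) p = φ (kz (θ 0)) p' := fun p p' hp =>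
    H.out.loc _ _ _ fun i hi => by rw [(grpI_slots hθ' i).1.1 hi]; exact hp
  have gN : ∀ p p' : Fin 12 → ℝ, p 9 = p' 9 → φ (kN (θ 0)) p = φ (kN (θ 0)) p' := fun p p' hp =>
    H.out.loc _ _ _ fun i hi => by rw [(grpI_slots hθ' i).2.2.1 hi]; exact hp
  have gX : ∀ p p' : Fin 12 → ℝ, p 5 = p' 5 → p 6 = p' 6 → p 11 = p' 11 →
      φ (kX (θ 0)) p = φ (kX (θ 0)) p' := fun p p' h5 h6 h11 =>
    H.out.loc _ _ _ fun i hi => by
      rcases (grpI_slots hθ' i).2.1.1 hi with rfl | rfl | rfl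
      · exact h5
      · exact h6
      · exact h11
  have g0 : ∀ p p' : Fin 12 → ℝ, (∀ i, i ≠ 0 → i ≠ 5 → i ≠ 6 → i ≠ 9 → i ≠ 11 → p i = p' i) →
      φ 0 p = φ 0 p' := fun p p' hp =>
    H.out.loc _ _ _ fun i hi => by
      rw [gI_zero] at hi
      refine hp i ?_ ?_ ?_ ?_ ?_ <;> rintro rfl <;> simp at hi
  have z0 : ∀ k, φ k 0 = 0 := fun k => H.out.zero k 0 fun i _ => rfl
  -- the stages
  have hst : ∀ᶠ m in (atTop : Filter ℕ),
      rL (θ 0) (θ 1) w0 sa sb v0 + u m • SI (θ 0) l z.1 z.2 ∈ Leg monL R ∧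
      0 ≤ v0 + u m * z.2 ∧ v0 + u m * z.2 ≤ (1 + v0) / 2 ∧
      (rL (θ 0) (θ 1) w0 sa sb v0 + u m • SI (θ 0) l z.1 z.2) 3 =
        rL (θ 0) (θ 1) w0 sa sb (v0 + u m * z.2) 3 ∧
      (rL (θ 0) (θ 1) w0 sa sb v0 + u m • SI (θ 0) l z.1 z.2) 4 =
        rL (θ 0) (θ 1) w0 sa sb (v0 + u m * z.2) 3 ∧
      ∀ k, Gd222.Vf k → (rL (θ 0) (θ 1) w0 sa sb v0 + u m • SI (θ 0) l z.1 z.2) k ≤
        rL (θ 0) (θ 1) w0 sa sb (v0 + u m * z.2) k := by
    have hv00 := H.v00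
    have hv01 := H.v01
    have ht : Tendsto (fun m => v0 + u m * z.2) atTop (𝓝 v0) := by
      have := (H.u0.mul_const z.2).const_add v0
      simpa using this
    filter_upwards [SgO219.tan_ev H.tan m0, ht.eventually_lt_const (show v0 < (1 + v0) / 2 by
      linarith), ht.eventually_const_lt (show 0 < v0 from hv00)] with m m1 m2 m3
    have hD : 0 ≤ u m * (z.2 - z.1) := mul_nonneg (H.upos m).le (by linarith [H.zle])
    refine ⟨by simpa using m1, m3.le, m2.le, ?_, ?_, ?_⟩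
    · show (θ 0 * (1 - v0) + sa) + u m * (-(θ 0 * z.2)) =
        θ 0 * (1 - (v0 + u m * z.2)) + sa
      ring
    · show (θ 0 * (1 - v0) + sa) + u m * (-(θ 0 * z.2)) =
        θ 0 * (1 - (v0 + u m * z.2)) + sa
      ring
    · rintro k ⟨k1, k2, k7, k8⟩
      fin_cases k
      · show (w0 + v0) + u m * z.1 ≤ w0 + (v0 + u m * z.2)
        linarith
      · exact absurd rfl k1
      · exact absurd rfl k2
      · show (θ 0 * (1 - v0) + sa) + u m * (-(θ 0 * z.2)) ≤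
          θ 0 * (1 - (v0 + u m * z.2)) + sa
        exact le_of_eq (by ring)
      · show (θ 0 * (1 - v0) + sa) + u m * (-(θ 0 * z.2)) ≤
          θ 0 * (1 - (v0 + u m * z.2)) + sa
        exact le_of_eq (by ring)
      · show ((w0 + v0) + (θ 0 * (1 - v0) + sa)) + u m * (z.1 + -(θ 0 * z.2)) ≤
          (w0 + (v0 + u m * z.2)) + (θ 0 * (1 - (v0 + u m * z.2)) + sa)
        linarith
      · show ((w0 + v0) + (θ 0 * (1 - v0) + sa)) + u m * (z.1 + -(θ 0 * z.2)) ≤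
          (w0 + (v0 + u m * z.2)) + (θ 0 * (1 - (v0 + u m * z.2)) + sa)
        linarith
      · exact absurd rfl k7
      · exact absurd rfl k8
      · show ((w0 + v0) + 2 * (θ 0 * (1 - v0) + sa)) + u m * (z.1 + 2 * (-(θ 0 * z.2))) ≤
          (w0 + (v0 + u m * z.2)) + 2 * (θ 0 * (1 - (v0 + u m * z.2)) + sa)
        linarith
      · show (θ 1 * (1 - v0) + sb) + u m * (-(θ 0 * z.2)) ≤
          θ 1 * (1 - (v0 + u m * z.2)) + sb
        rw [← hθ]
        exact le_of_eq (by ring)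
      · show ((w0 + v0) + (θ 1 * (1 - v0) + sb)) + u m * (z.1 + -(θ 0 * z.2)) ≤
          (w0 + (v0 + u m * z.2)) + (θ 1 * (1 - (v0 + u m * z.2)) + sb)
        rw [← hθ]
        linarith
  have hns := h.nsT34 hq1 hθ0 hRg (X := fun m => rL (θ 0) (θ 1) w0 sa sb v0 +
    u m • SI (θ 0) l z.1 z.2) (h := fun m => u m * k m) (v := fun m => v0 + u m * z.2) hpos hmul
    (v1 := (1 + v0) / 2) (by linarith [H.v01]) hst (t := 1) one_pos LL lam
  have key := a1_iso hN hcoc hpos H.tan one_pos hleg (σ := 1 - s) (by linarith) (by linarith)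
    ?_ ?_ (fun _ => ((0 : ℕ), (0 : ℝ))) ?_ ?_ hq1 hns (x := 1) one_pos le_rfl ?_
  · -- conclusion
    have m1 : isoT 1 0 0 ∈ LL := mem _ (by simp [isoT]) (by simp [isoT]) (by simp [isoT])
      (by simp [isoT]) (by simp [isoT])
    have m2 : isoT 1 0 1 ∈ LL := mem _ (by simp [isoT]) (by simp [isoT]) (by simp [isoT])
      (by simp [isoT]) (by simp [isoT])
    have b5 : (1:ℝ) = bx9 1 0 0 0 1 0 0 0 0 5 := rfl
    have b6 : (1:ℝ) = bx9 1 0 0 0 1 0 0 0 0 6 := rfl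
    have b11 : (0:ℝ) = bx9 1 0 0 0 1 0 0 0 0 11 := rfl
    have e1 : φ (kX (θ 0)) (isoT 1 0 1) = -rr (kX (θ 0)) := by
      rw [← eX_of H.hl hθ' H.out H.dead]
      exact gX _ _ ((iso5 _ _ _).trans b5) ((iso6 _ _ _).trans b6) ((iso11 _ _ _).trans b11)
    have e2 : φ (kX (θ 0)) (isoT 1 0 0) = 0 :=
      (gX (isoT 1 0 0) 0 (iso5 _ _ _) (iso6 _ _ _) (iso11 _ _ _)).trans (z0 _)
    rw [hsplit _ m1, hsplit _ m2, gz (isoT 1 0 0) (isoT 1 0 1) (by rw [iso0, iso0]),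
      gN (isoT 1 0 0) (isoT 1 0 1) (by rw [iso9, iso9]), e1, e2, g0 (isoT 1 0 0) (isoT 1 0 1) fun i i0 i5 i6 i9 i11 =>
        by fin_cases i <;> simp [isoT] at i0 i5 i6 i9 i11 ⊢] at key
    linarith
  · -- density
    have mt : (fun _ => (1:ℝ) : Fin 12 → ℝ) ∈ LL := by
      refine mem _ ?_ ?_ ?_ ?_ ?_ <;> norm_num
    have mc : cut {0} (fun _ => (1:ℝ)) (0 : Fin 12 → ℝ) ∈ LL := by
      refine mem _ ?_ ?_ ?_ ?_ ?_ <;> simp [cut]
    have ms : (Pi.single 0 1 : Fin 12 → ℝ) ∈ LL := by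
      refine mem _ ?_ ?_ ?_ ?_ ?_ <;> simp
    have c0 : ∀ i : Fin 12, i ≠ 0 → cut {0} (fun _ => (1:ℝ)) (0 : Fin 12 → ℝ) i = 1 := by
      intro i hi
      simp [cut, hi]
    have c00 : cut {0} (fun _ => (1:ℝ)) (0 : Fin 12 → ℝ) 0 = 0 := by simp [cut]
    have s0 : ∀ i : Fin 12, i ≠ 0 → (Pi.single 0 1 : Fin 12 → ℝ) i = 0 := fun i hi => by
      simp [hi]
    rw [hsplit _ mt, hsplit _ mc, hsplit _ ms]
    rw [g0 (fun _ => 1) (cut {0} (fun _ => (1:ℝ)) 0) fun i i0 _ _ _ _ => (c0 i i0).symm,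
      gz (fun _ => 1) (Pi.single 0 1) (by simp),
      gX (fun _ => 1) (cut {0} (fun _ => (1:ℝ)) 0) (c0 5 (by decide)).symm
        (c0 6 (by decide)).symm (c0 11 (by decide)).symm,
      gN (fun _ => 1) (cut {0} (fun _ => (1:ℝ)) 0) (c0 9 (by decide)).symm,
      gz (cut {0} (fun _ => (1:ℝ)) 0) 0 c00, z0,
      g0 (Pi.single 0 1) 0 fun i i0 _ _ _ _ => s0 i i0, z0,
      gX (Pi.single 0 1) 0 (s0 5 (by decide)) (s0 6 (by decide)) (s0 11 (by decide)), z0,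
      gN (Pi.single 0 1) 0 (s0 9 (by decide)), z0]
    linarith
  · -- own
    intro y hy hy1
    have ms : (Pi.single 0 y : Fin 12 → ℝ) ∈ LL := by
      refine mem _ ?_ ?_ ?_ ?_ ?_ <;> simp [hy]
    have h1 := H.own 0 m0 _ ms (fun i => by
      by_cases hi : i = 0
      · subst hi; simp [hy]
      · simp [hi])
    rw [hlam0, Pi.single_eq_same] at h1
    simp only [Pi.zero_apply] at h1
    linarith
  · intro m
    show ((w0 + v0) + (θ 0 * (1 - v0) + sa)) + u m * (z.1 + -(θ 0 * z.2)) =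
      ((w0 + v0) + u m * z.1) + ((θ 0 * (1 - v0) + sa) + u m * (-(θ 0 * z.2)))
    ring
  · intro m
    show ((w0 + v0) + (θ 0 * (1 - v0) + sa)) + u m * (z.1 + -(θ 0 * z.2)) =
      ((w0 + v0) + u m * z.1) + ((θ 0 * (1 - v0) + sa) + u m * (-(θ 0 * z.2)))
    ring
  · -- product
    intro c' hc hc1
    have mm : ∀ c x : ℝ, 0 ≤ c → 0 ≤ x → x ≤ 1 → isoT 1 c x ∈ LL := by
      intro c x hc hx hx1
      refine mem _ ?_ ?_ ?_ ?_ ?_
      · show x ≤ 1 + c
        linarith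
      · show x ≤ 1 + c
        linarith
      · show (0:ℝ) ≤ c + x
        linarith
      · show (0:ℝ) ≤ c + x
        linarith
      · show (0:ℝ) ≤ 1 + 0
        linarith
    rw [hsplit _ (mm 0 0 le_rfl le_rfl zero_le_one), hsplit _ (mm c' 0 hc.le le_rfl zero_le_one),
      hsplit _ (mm 0 1 le_rfl zero_le_one le_rfl), hsplit _ (mm c' 1 hc.le zero_le_one le_rfl)]
    rw [gz (isoT 1 c' 0) (isoT 1 0 0) (by rw [iso0, iso0]),
      gz (isoT 1 0 1) (isoT 1 0 0) (by rw [iso0, iso0]),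
      gz (isoT 1 c' 1) (isoT 1 0 0) (by rw [iso0, iso0]),
      gN (isoT 1 c' 0) (isoT 1 0 0) (by rw [iso9, iso9]),
      gN (isoT 1 0 1) (isoT 1 0 0) (by rw [iso9, iso9]),
      gN (isoT 1 c' 1) (isoT 1 0 0) (by rw [iso9, iso9]),
      gX (isoT 1 c' 0) (isoT 1 0 0) (by rw [iso5, iso5]) (by rw [iso6, iso6])
        (by rw [iso11, iso11]),
      gX (isoT 1 c' 1) (isoT 1 0 1) (by rw [iso5, iso5]) (by rw [iso6, iso6])
        (by rw [iso11, iso11]),
      g0 (isoT 1 0 1) (isoT 1 0 0) fun i i0 i5 i6 i9 i11 => by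
        fin_cases i <;> simp [isoT] at i0 i5 i6 i9 i11 ⊢,
      g0 (isoT 1 c' 1) (isoT 1 c' 0) fun i i0 i5 i6 i9 i11 => by
        fin_cases i <;> simp [isoT] at i0 i5 i6 i9 i11 ⊢]
    linarith

end ctx

end Crest.Agent.R116.SgI337
end

-- ▼ part R116/RowI1_387

/-!
# R116, row ISO (helper387), part 1: the top of `RowI`

* `strict_ctxR` : a round context with room above;
* `IsoB η` : the round record, `s < 1/2`, `θ 0 = θ 1`, is impossible (337);
* **`rowI_of`** : `IsoB η → RowI η`.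
-/

set_option autoImplicit false
set_option linter.unusedVariables false

open Set Filter Topology

namespace Crest.Agent.R116.RowI387

open Crest.Agent.R138.Ex926 (Base U IsTan)
open Crest.Agent.R136
open Crest.Agent.R136.MkA627
open Crest.Agent.R136.TD627
open Crest.Agent.R136.Net191
open Crest.Agent.R136.Lq196
open Crest.Agent.R116.ChL222
open Crest.Agent.R116.PL504 (nb rL DN eL βL oL Shift)
open Crest.Agent.R116.Gd222 (TSet sN PDL DT)
open Crest.Agent.R116.KI439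
open Crest.Agent.R116.KF439 (PL)
open Crest.Agent.R116.Tw468 (OutT OutR)
open Crest.Agent.R116.CtxB468
open Crest.Agent.R116.KTop387 (NumL RowI)

section ctx

variable {G : Geo TSet (Fin 2)} {L : ℕ → ℕ → LRay} {r : ℕ → ℝ} {g s : ℝ} {θ q : Fin 2 → ℝ}
    {Rg : ℝ} {a : Fin 2} {B : Base} {I : ℕ → Finset (ℕ × ℝ)} {lev : ℕ → ℚ → ℕ} {A : ℕ → ℝ}
    {f : ℕ → ℚ → ℕ → ℤ → ℕ} {b : ℕ → ℚ → ℕ → TSet} {vm : ℕ → ℚ → ℝ} {w : Fin 2 → ℕ → ℚ → ℝ}
    {w0 sa sb δ R : ℝ} {I0 I' : ℕ → Finset (ℕ × ℝ)} {ν own : (Fin 12 → ℝ) → ℝ} {c₀ : ℝ}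

/-- **a round context with room above** -/
theorem strict_ctxR
    (h : CtxR G L r g s θ q Rg a B I lev A f b vm w w0 sa sb δ R I0 I' ν own c₀) :
    ∃ (w0 sa sb δ R : ℝ) (I0 I' : ℕ → Finset (ℕ × ℝ)) (ν own : (Fin 12 → ℝ) → ℝ) (c₀ : ℝ),
      CtxR G L r g s θ q Rg a B I lev A f b vm w w0 sa sb δ R I0 I' ν own c₀ ∧
        w0 + (θ 1 + sb) < R ∧ w0 + 1 + sb < R ∧
        ∀ v : ℝ, 0 ≤ v → v ≤ 1 → ∀ k, rL (θ 0) (θ 1) w0 sa sb v k < R := by
  have sh := h.sh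
  have sh' : Shift (θ 0) (θ 1) w0 sa sb δ (R + 1) :=
    ⟨sh.d0, sh.z, sh.c0, sh.c1, sh.D0, sh.D1, by linarith [sh.R0], by linarith [sh.R1]⟩
  obtain ⟨I0, I', ν, own, c₀, C⟩ := h.out.ctx h.Rg0 sh'
  exact ⟨w0, sa, sb, δ, R + 1, I0, I', ν, own, c₀, C, by linarith [sh.R0], by linarith [sh.R1],
    fun v h0 h1 k => ((sh.rL_leg h0 h1).2 k).trans_lt (by linarith)⟩

end ctx

/-- **the open binder of the round row** (337) -/
def IsoB (η : ℝ) : Prop :=
  ∀ {G : Geo TSet (Fin 2)} {L : ℕ → ℕ → LRay} {r : ℕ → ℝ} {g s : ℝ} {θ q : Fin 2 → ℝ}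
    {Rg : ℝ} {a : Fin 2} {B : Base} {I : ℕ → Finset (ℕ × ℝ)} {lev : ℕ → ℚ → ℕ} {A : ℕ → ℝ}
    {f : ℕ → ℚ → ℕ → ℤ → ℕ} {b : ℕ → ℚ → ℕ → TSet} {vm : ℕ → ℚ → ℝ} {w : Fin 2 → ℕ → ℚ → ℝ}
    {w0 sa sb δ R : ℝ} {I0 I' : ℕ → Finset (ℕ × ℝ)} {ν own : (Fin 12 → ℝ) → ℝ} {c₀ : ℝ},
    CtxR G L r (g + 2 * s) s θ q Rg a B I lev A f b vm w w0 sa sb δ R I0 I' ν own c₀ →
    NumL η g s θ q → s < 1 / 2 → θ 0 = θ 1 → w0 + (θ 1 + sb) < R → w0 + 1 + sb < R →
    (∀ v : ℝ, 0 ≤ v → v ≤ 1 → ∀ k, rL (θ 0) (θ 1) w0 sa sb v k < R) →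
    θ 0 + |θ 1| + 1 ≤ Rg → False

/-- **THE ROUND ROW** -/
theorem rowI_of {η : ℝ} (hI : IsoB η) : RowI η := by
  intro g s θ q hN
  refine ⟨0, θ 0 + |θ 1| + 1, fun Rg hRg G L r B I lev A f b vm w hO => ?_⟩
  have habs := abs_nonneg (θ 1)
  have hθ := hN.θa
  have hRg0 : 0 < Rg := by linarith
  have e01 : θ 0 = θ 1 := KS439.OutR.theta_eq hO
  obtain ⟨w0, sa, sb, δ, R, hsh⟩ := PL504.exists_shift (θ 0) (θ 1)
  obtain ⟨I0, I', ν, own, c₀, hC⟩ := hO.ctx hRg0 hsh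
  obtain ⟨w0, sa, sb, δ, R, I0, I', ν, own, c₀, hC, hR0, hR1, hR⟩ := strict_ctxR hC
  have hap := Ap954.aprioriR hC hθ e01.le (by linarith) (by linarith) hN.qa.le hN.qb.le hN.s1
  have hs2 : s < 1 / 2 := Ap954.s_lt_half hN.gpos hN.qa.le hN.qb.le hap
  exact hI hC hN hs2 e01 hR0 hR1 hR hRg

end Crest.Agent.R116.RowI387
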