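import Crest.Agent.R116.CtxB_468
import Crest.Agent.R116.SgL2_337
import Crest.Agent.R116.SgZ_388
import Crest.Agent.R116.Sg3a_635
import Crest.Agent.R116.Fz2_708
import Crest.Agent.R116.SgF_665

-- ▼ part R116/RowU1_194
section

/-!
# R116, row U (helper194), part 1: the record tangent with the slot `D` frozen

* `mem_near`   : small offsets of `coneL` at a record point are legal
* `RecT`       : package of the record tangent
* **`exists_rec`** : context of the thin case, no visible slot, micro form of D0 ⊢ `RecT`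
-/

set_option autoImplicit false
set_option linter.unusedVariables false

open Set Filter Topology MeasureTheory
open scoped NNReal

namespace Crest.Agent.R116.RowU194

open Crest.Agent.R138.Defs (E2)
open Crest.Agent.R138.Ex926 (Base U IsTan)
open Crest.Agent.R136
open Crest.Agent.R136.MkA627
open Crest.Agent.R136.Net191
open Crest.Agent.R136.TD627
open Crest.Agent.R136.Lq196
open Crest.Agent.R116.LZg725
open Crest.Agent.R116.ChL222
open Crest.Agent.R116.PL504 (βL eL rL oL Shift nb DN)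
open Crest.Agent.R116.Gd222 (TSet sN PDL DT vb)
open Crest.Agent.R116.KI439
open Crest.Agent.R116.KF439 (PL Thin frF flF scN)
open Crest.Agent.R116.Tw468
open Crest.Agent.R116.CtxB468
open Crest.Agent.R116.Sg337 (coneL ProfL DL natB natB_smul)

/-- single direction of the slot `D` -/
abbrev e1 : Fin 12 → ℝ := Pi.single 1 1

theorem mem_near {θa θb w0 sa sb δ R v0 : ℝ} (sh : Shift θa θb w0 sa sb δ R) (hv0 : 0 ≤ v0)
    (hv1 : v0 ≤ 1) (hR : w0 + v0 + (θb * (1 - v0) + sb) < R) {h : ℕ → ℝ} (hpos : ∀ l, 0 < h l)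
    (h0 : Tendsto h atTop (𝓝 0)) (C : ℝ) :
    ∀ᶠ l in atTop, ∀ c ∈ coneL, ‖c‖ ≤ C → rL θa θb w0 sa sb v0 + h l • c ∈ Leg monL R := by
  set m : ℝ := min δ (R - (w0 + v0 + (θb * (1 - v0) + sb))) with hm
  have hm0 : 0 < m := lt_min sh.d0 (by linarith)
  have hC : (0:ℝ) < |C| + 1 := by positivity
  filter_upwards [h0.eventually_lt_const (div_pos hm0 hC)] with l hl c hc hcC
  have hh := hpos l
  have h1 : h l * (|C| + 1) < m := by rwa [lt_div_iff₀ hC] at hl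
  have h2 : ∀ k, |h l * c k| ≤ m := fun k => by
    have h3 := norm_le_pi_norm c k
    rw [Real.norm_eq_abs] at h3
    rw [abs_mul, abs_of_pos hh]
    have h4 : |c k| ≤ |C| + 1 := by linarith [le_abs_self C]
    have := mul_le_mul_of_nonneg_left h4 hh.le
    linarith
  have hr : ∀ k, rL θa θb w0 sa sb v0 k ≤ w0 + v0 + (θb * (1 - v0) + sb) := fun k =>
    PL504.eL_le (sh.d0.le.trans (sh.bz hv0)) (sh.d0.le.trans (sh.bc hv0 hv1))
      (sh.d0.le.trans (sh.bD hv0 hv1)) le_rfl k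
  refine ⟨⟨fun k => ?_, fun k e he => ?_⟩, fun k => ?_⟩
  · simp only [Pi.add_apply, Pi.smul_apply, smul_eq_mul]
    have h3 := sh.rL_pos hv0 hv1 k
    have h4 := abs_le.1 (h2 k)
    have h5 : m ≤ δ := min_le_left _ _
    linarith [h4.1]
  · simp only [Pi.add_apply, Pi.smul_apply, smul_eq_mul, mul_add, Finset.sum_add_distrib]
    have h3 := PL504.eL_wall (w0 + v0) (θa * (1 - v0) + sa) (θb * (1 - v0) + sb) k he
    change ∑ s, (e s : ℝ) * rL θa θb w0 sa sb v0 s = rL θa θb w0 sa sb v0 k at h3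
    have h4 := mul_le_mul_of_nonneg_left (hc k e he) hh.le
    rw [Finset.mul_sum] at h4
    have h5 : ∑ x, (e x : ℝ) * (h l * c x) = ∑ x, h l * ((e x : ℝ) * c x) :=
      Finset.sum_congr rfl fun x _ => by ring
    rw [h3, h5]
    linarith
  · simp only [Pi.add_apply, Pi.smul_apply, smul_eq_mul]
    have h4 := abs_le.1 (h2 k)
    have h5 : m ≤ R - (w0 + v0 + (θb * (1 - v0) + sb)) := min_le_right _ _
    linarith [h4.2, hr k]

/-- Lipschitz constant of a function with the bounds of `ExtQ.lip` -/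
theorem lip_norm {P : Set (Fin 12 → ℝ)} {ν : (Fin 12 → ℝ) → ℝ}
    (hsup : ∀ p ∈ P, ∀ q ∈ P, p ⊔ q ∈ P)
    (hl : ∀ p ∈ P, ∀ q ∈ P, p ≤ q → 0 ≤ ν p - ν q ∧ ν p - ν q ≤ ∑ k, (q k - p k)) :
    ∀ p ∈ P, ∀ q ∈ P, |ν p - ν q| ≤ 12 * ‖p - q‖ := by
  have key : ∀ p ∈ P, ∀ q ∈ P, ν p - ν q ≤ 12 * ‖p - q‖ := by
    intro p hp q hq
    have h1 := (hl p hp _ (hsup p hp q hq) le_sup_left).2
    have h2 := (hl q hq _ (hsup p hp q hq) le_sup_right).1
    have h3 : ∑ k : Fin 12, ((p ⊔ q) k - p k) ≤ ∑ _k : Fin 12, ‖p - q‖ := by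
      refine Finset.sum_le_sum fun k _ => ?_
      have h4 := norm_le_pi_norm (p - q) k
      rw [Real.norm_eq_abs, Pi.sub_apply] at h4
      rw [Pi.sup_apply]
      rcases le_total (p k) (q k) with h5 | h5
      · rw [sup_eq_right.2 h5]
        have := neg_abs_le (p k - q k); linarith
      · rw [sup_eq_left.2 h5, sub_self]; exact norm_nonneg _
    have h6 : ∑ _k : Fin 12, ‖p - q‖ = 12 * ‖p - q‖ := by simp
    linarith
  intro p hp q hq
  rw [abs_le]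
  have h1 := key q hq p hp
  rw [norm_sub_rev] at h1
  exact ⟨by linarith, key p hp q hq⟩

/-- **package of the record tangent**: fixed base `rL v0`, units `hh`, tangents `g` -/
structure RecT {J : Type*} (R w0 sa sb θa θb s c q0 q1 : ℝ) (a b : Fin 2)
    (f : J → (Fin 12 → ℝ) → ℝ) (j0 : J) (v0 : ℝ) (hh : ℕ → ℝ) (g : J → (Fin 12 → ℝ) → ℝ) :
    Prop where
  v00 : 0 < v0
  v01 : v0 < 1
  pos : ∀ l, 0 < hh l
  lim : Tendsto hh atTop (𝓝 0)
  tan : ∀ j, IsTan (Leg monL R) coneL (f j) (fun _ => rL θa θb w0 sa sb v0) hh (g j)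
  lip : ∀ j, ∀ p ∈ coneL, ∀ q ∈ coneL, |g j p - g j q| ≤ 12 * ‖p - q‖
  prof : ProfL s a b (g j0)
  dmax : ∀ v x y : ℝ, g j0 (natB v x y) ≤ DL c s q0 q1 v x y
  recd : ∀ t : ℝ, g j0 (natB t (-(θa * t)) (-(θb * t))) = DL c s q0 q1 t (-(θa * t)) (-(θb * t))
  frz : ∀ t y : ℝ, 0 ≤ y → g j0 (t • βL θa θb + y • e1) = g j0 (t • βL θa θb)

theorem isClosed_coneL : IsClosed coneL := by
  rw [← Sg635.PP_eq]
  have e : SgO219.PP (Dg219.mw monL) =
      ⋂ w, {p | p ((Dg219.mw monL).hd w) ≤ (Dg219.mw monL).rhs w p + (Dg219.mw monL).cst w} := by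
    ext p; simp [SgO219.PP]
  rw [e]
  exact isClosed_iInter fun w => isClosed_le (continuous_apply _)
    (((Dg219.mw monL).rhs_cont w).add continuous_const)

theorem zero_coneL : (0 : Fin 12 → ℝ) ∈ coneL := by
  intro k e _
  simp

theorem beta_coneL (θa θb t : ℝ) : t • βL θa θb ∈ coneL := by
  rw [← natB_smul]
  exact Sg337.natB_cone _ _ _

theorem beta_e1_coneL (θa θb t : ℝ) {y : ℝ} (hy : 0 ≤ y) : t • βL θa θb + y • e1 ∈ coneL := by
  have h := Sg337.SL_cone (θa := θa) (θb := θb) (lam := (-(θb * t) - 2 * (-(θa * t)) - t) + y)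
    (v := t) (t := t) (by linarith)
  unfold Sg337.SL at h
  rw [Sg337.frz_single, natB_smul] at h
  convert h using 3
  ring

section ext

variable {B : Base} {I0 I : ℕ → Finset (ℕ × ℝ)} {lev : ℕ → ℚ → ℕ} {inc : ℕ → ℕ × ℝ → LInc}
    {σ : Fin 2 → ℕ → ℝ} {k0 ϑ w0 sa sb g q0 q1 θa θb δ : ℝ} {a b : Fin 2}
    {C R s c₀ : ℝ} {PD : Set (Fin 12 → ℝ)} {D : (Fin 12 → ℝ) → ℝ}
    {o : ℝ → Fin 12 → ℝ} {E : ℝ → ℝ} {T : Fin 12 → Prop} {ν own : (Fin 12 → ℝ) → ℝ}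

/-- **existence of the record tangent** -/
theorem exists_rec_ext
    (h : ExtQ B I0 I (Gd222.coN B lev inc σ w0 sa sb) monL C R 0 w0 s PD D
      (rL θa θb w0 sa sb) o E T ν own c₀)
    (hF : Xd954.FlagX B I lev inc σ k0 ϑ a b)
    (sh : Shift θa θb w0 sa sb δ R)
    (ho : ∀ v : ℝ, 0 ≤ v → v ≤ 1 → ∀ k, k ≠ 0 → R ≤ o v k)
    (hoz : ∀ v : ℝ, 0 ≤ v → v ≤ 1 → o v 0 = w0 + v)
    (hD : ∀ v a b : ℝ, D (nb w0 sa sb v a b) = DN g s q0 q1 θa θb v a b)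
    (hE : ∀ v : ℝ, 0 ≤ v → v ≤ 1 → E v = DN g s q0 q1 θa θb v (θa * (1 - v)) (θb * (1 - v)))
    (hR : ∀ v : ℝ, 0 ≤ v → v ≤ 1 → w0 + v + (θb * (1 - v) + sb) < R)
    (h0t : ∀ v : ℝ, 0 < v → v < 1 → 0 < θa * (1 - v))
    (htk : ∀ v : ℝ, 0 < v → v < 1 → θa * (1 - v) < θb * (1 - v) + k0)
    (hvt : ∀ v : ℝ, 0 < v → v < 1 → ϑ < v + θa * (1 - v))
    (hPD : ∀ v0 : ℝ, 0 < v0 → v0 < 1 → ∃ κ0 : ℝ, 0 < κ0 ∧ ∀ v a b : ℝ, |v - v0| ≤ κ0 →
      |a - θa * (1 - v0)| ≤ κ0 → |b - θb * (1 - v0)| ≤ κ0 → nb w0 sa sb v a b ∈ PD)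
    (hmic : ∀ᵐ v : ℝ, v ∈ Ioo (0:ℝ) 1 → Tendsto (fun y : ℝ =>
      (ν (rL θa θb w0 sa sb v) - ν (rL θa θb w0 sa sb v + y • e1)) / y) (𝓝[>] 0) (𝓝 0))
    {J : Type*} [Finite J] {f : J → (Fin 12 → ℝ) → ℝ} {j0 : J} (hf0 : f j0 = ν)
    (hfl : ∀ j, ∀ p ∈ Leg monL R, ∀ q ∈ Leg monL R, |f j p - f j q| ≤ 12 * ‖p - q‖)
    {N : Set ℝ} (hN : ∀ᵐ v : ℝ, v ∈ N) :
    ∃ v0 ∈ N, ∃ (hh : ℕ → ℝ) (gg : J → (Fin 12 → ℝ) → ℝ),
      RecT R w0 sa sb θa θb s g q0 q1 a b f j0 v0 hh gg := by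
  -- extension of `ν`
  have hsupL : ∀ p ∈ Leg monL R, ∀ q ∈ Leg monL R, p ⊔ q ∈ Leg monL R := fun p hp q hq =>
    Leg.sup hp hq
  have hνl := lip_norm hsupL h.lip
  have hlipN : LipschitzOnWith 12 ν (Leg monL R) :=
    LipschitzOnWith.of_dist_le_mul fun p hp q hq => by
      rw [Real.dist_eq, dist_eq_norm]
      exact hνl p hp q hq
  obtain ⟨ν', hν', he⟩ := hlipN.extend_real
  have hν'' : ∀ p q, |ν' p - ν' q| ≤ 12 * dist p q := fun p q => by
    have := hν'.dist_le_mul p q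
    rwa [Real.dist_eq] at this
  have he' : ∀ p ∈ Leg monL R, ν' p = ν p := fun p hp => (he hp).symm
  set y0 : Fin 12 → ℝ := rL θa θb w0 sa sb 0 with hy0
  have hline : ∀ v : ℝ, y0 + v • βL θa θb = rL θa θb w0 sa sb v := fun v => by
    funext k
    rw [PL504.rL_lin θa θb w0 sa sb v k]
    simp only [Pi.add_apply, Pi.smul_apply, smul_eq_mul, hy0]
    ring
  have hmic' : ∀ᵐ v : ℝ, v ∈ Ioo (0:ℝ) 1 → Tendsto (fun y : ℝ =>
      (ν' (y0 + v • βL θa θb) - ν' (y0 + v • βL θa θb + y • e1)) / y) (𝓝[>] 0) (𝓝 0) := by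
    filter_upwards [hmic] with v hv hvI
    have hmem := mem_near (v0 := v) sh hvI.1.le hvI.2.le (hR v hvI.1.le hvI.2.le)
      (h := fun l : ℕ => 1 / ((l : ℝ) + 1)) (fun l => by positivity)
      tendsto_one_div_add_atTop_nhds_zero_nat 1
    -- for small `y` the box `rL v + y e1` is legal
    obtain ⟨l, hl⟩ := hmem.exists
    have hmem2 : ∀ y : ℝ, 0 ≤ y → y ≤ 1 / ((l : ℝ) + 1) →
        rL θa θb w0 sa sb v + y • e1 ∈ Leg monL R := by
      intro y hy1 hy2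
      have hl0 : (0:ℝ) < 1 / ((l : ℝ) + 1) := by positivity
      have h3 := hl ((y / (1 / ((l : ℝ) + 1))) • e1) (by
        have := beta_e1_coneL θa θb 0 (y := y / (1 / ((l : ℝ) + 1))) (div_nonneg hy1 hl0.le)
        rwa [zero_smul, zero_add] at this) (by
        rw [norm_smul, Real.norm_of_nonneg (div_nonneg hy1 hl0.le)]
        have h4 : ‖e1‖ ≤ 1 := by
          rw [pi_norm_le_iff_of_nonneg zero_le_one]
          intro i
          by_cases hi : i = 1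
          · subst hi; simp [e1]
          · simp [e1, Pi.single_eq_of_ne hi]
        have h5 : y / (1 / ((l : ℝ) + 1)) ≤ 1 := by rw [div_le_one hl0]; exact hy2
        calc _ ≤ (1:ℝ) * 1 := mul_le_mul h5 h4 (norm_nonneg _) zero_le_one
          _ = 1 := one_mul 1)
      rw [smul_smul, mul_div_cancel₀ _ hl0.ne'] at h3
      exact h3
    refine (hv hvI).congr' ?_
    have hl0 : (0:ℝ) < 1 / ((l : ℝ) + 1) := by positivity
    have h6 : ∀ᶠ y in 𝓝[>] (0 : ℝ), y ≤ 1 / ((l : ℝ) + 1) :=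
      nhdsWithin_le_nhds (Iic_mem_nhds hl0)
    filter_upwards [h6, self_mem_nhdsWithin] with y hy1 hy2
    have hy2' : (0 : ℝ) < y := hy2
    have m0 := hmem2 0 le_rfl hl0.le
    rw [zero_smul, add_zero] at m0
    rw [hline, he' _ m0, he' _ (hmem2 y hy2'.le hy1)]
  have hfz := Fz708.ae_frzAt (e := e1) (K := 12) (by norm_num) hν'' isOpen_Ioo hmic'
  -- choice of the point
  obtain ⟨v0, hvN, hv0, hv1, hfv⟩ : ∃ v0 ∈ N, 0 < v0 ∧ v0 < 1 ∧
      Fz708.FrzAt ν' y0 (βL θa θb) e1 v0 := by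
    by_contra hcon
    push Not at hcon
    have h1 : volume (Ioo (0:ℝ) 1) = 0 := by
      refine measure_mono_null (t := {v | ¬ (v ∈ N ∧ (v ∈ Ioo (0:ℝ) 1 →
        Fz708.FrzAt ν' y0 (βL θa θb) e1 v))}) (fun v hv hP => ?_) (ae_iff.1 (hN.and hfz))
      exact hcon v hP.1 hv.1 hv.2 (hP.2 hv)
    rw [Real.volume_Ioo] at h1
    simp at h1
  -- tangents at `rL v0`
  have hkpos : ∀ l : ℕ, (0:ℝ) < 1 / ((l : ℝ) + 1) := fun l => by positivity
  obtain ⟨φ, hφ, gg, hgg⟩ := Rc683.exists_tan (J := J) (P := fun _ => Leg monL R)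
    (D := fun _ => coneL) (ν := f) (fun _ => isClosed_coneL) (K := 12) (by norm_num) hfl
    (x := fun _ => rL θa θb w0 sa sb v0) hkpos
    (fun _ C => mem_near sh hv0.le hv1.le (hR v0 hv0.le hv1.le) hkpos
      tendsto_one_div_add_atTop_nhds_zero_nat C) (fun _ => zero_coneL)
  set hh : ℕ → ℝ := fun l => 1 / ((φ l : ℝ) + 1) with hhd
  have hpos : ∀ l, 0 < hh l := fun l => hkpos _
  have hh0 : Tendsto hh atTop (𝓝 0) :=
    tendsto_one_div_add_atTop_nhds_zero_nat.comp hφ.tendsto_atTop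
  have htν : IsTan (Leg monL R) coneL ν (fun _ => rL θa θb w0 sa sb v0) hh (gg j0) := by
    rw [← hf0]; exact hgg j0
  obtain ⟨κ0, hκ0, hPD0⟩ := hPD v0 hv0 hv1
  have hdm := Sg337.dmaxL_of h hD hE hv0 hv1 hκ0 hPD0 hpos hh0 htν
  refine ⟨v0, hvN, hh, gg, hv0, hv1, hpos, hh0, hgg, fun j p hp q hq => ?_,
    Sg337.profL_of h hF ho hoz hv0 hv1 (h0t v0 hv0 hv1) (htk v0 hv0 hv1) (hvt v0 hv0 hv1) hpos hh0
      htν, hdm.1, hdm.2, fun t y hy => ?_⟩
  · have := SgO219.tan_lip hpos (hgg j) (K := 12) (fun p hp q hq => by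
      rw [dist_eq_norm]; exact hfl j p hp q hq) p hp q hq
    rwa [dist_eq_norm] at this
  · have htν' : IsTan (Leg monL R) coneL ν (fun _ => y0 + v0 • βL θa θb) hh (gg j0) := by
      rw [hline]; exact htν
    exact Fz708.frz_tan hfv he' hpos hh0 htν' hy (beta_coneL θa θb t) (beta_e1_coneL θa θb t hy)

end ext

end Crest.Agent.R116.RowU194
end

-- ▼ part R116/RowU2_194

/-!
# R116, row U (helper194), part 2: the point of the plane `Σ`

* `xB`      : base boxes `rL v0 + u m • SL θa θb lam0 z.1 z.2`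
* `SigP`    : package at a generic point of the plane over the record tangent
* **`exists_sig`** : `RecT` ⊢ `SigP` (any `δ > 0`)
-/

set_option autoImplicit false
set_option linter.unusedVariables false

open Set Filter Topology MeasureTheory
open scoped NNReal

namespace Crest.Agent.R116.RowU194

open Crest.Agent.R138.Ex926 (Base U IsTan)
open Crest.Agent.R136
open Crest.Agent.R136.Net191
open Crest.Agent.R136.Lq196
open Crest.Agent.R116.ChL222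
open Crest.Agent.R116.PL504 (βL eL rL Shift)
open Crest.Agent.R116.Sg337 (coneL ProfL DL natB natB_smul bx9 uC uP uCP SL SL_le SL_rec SL_cone
  sigL_all)
open Dg262 (X SupOn)
open Dg219 (Walls mw gset mem_gset OutS gC dhC nC gC_zero gC_eq)
open SgO219 (PP OO LT)
open Sg635 (xS aS bS X_eq PP_eq L_eq LMd mem_bx OO_of full aS_nonneg SL_nat1 Nat1 no_one ne_one
  sum_congr' coneL_sub)
open SgF665 (wl wl_add wl_smul)
open SgZ388 (Pack exists_pack_dir)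

/-- base boxes over the record -/
noncomputable def xB (θa θb w0 sa sb v0 lam0 : ℝ) (z : ℝ × ℝ) (u : ℕ → ℝ) : ℕ → Fin 12 → ℝ :=
  fun m => rL θa θb w0 sa sb v0 + u m • SL θa θb lam0 z.1 z.2

/-- **package at a generic point of the plane `Σ`** -/
structure SigP {J : Type*} (R w0 sa sb θa θb s c q0 q1 δ : ℝ) (f : J → (Fin 12 → ℝ) → ℝ) (j0 : J)
    (v0 lam0 : ℝ) (z : ℝ × ℝ) (u k : ℕ → ℝ) (lam : J → (Fin 12 → ℝ) → ℝ) (A : ℝ × ℝ)
    (φ : ℕ → (Fin 12 → ℝ) → ℝ) (r : ℕ → ℝ) : Prop where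
  v00 : 0 < v0
  v01 : v0 < 1
  upos : ∀ m, 0 < u m
  u0 : Tendsto u atTop (𝓝 0)
  kpos : ∀ m, 0 < k m
  k0 : Tendsto k atTop (𝓝 0)
  lt : z.1 < z.2
  sl : (2 * θa - θb) * z.2 - z.1 < lam0
  l0 : 0 < lam0
  tan : ∀ j, IsTan (Leg monL R) ((mw monL).L (xS lam0) aS (bS θa θb)) (f j)
    (xB θa θb w0 sa sb v0 lam0 z u) (fun m => u m * k m) (lam j)
  lip : ∀ j, ∀ p ∈ (mw monL).L (xS lam0) aS (bS θa θb),
    ∀ q ∈ (mw monL).L (xS lam0) aS (bS θa θb), |lam j p - lam j q| ≤ 12 * ‖p - q‖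
  out : OutS (gC aS (bS θa θb)) ((mw monL).L (xS lam0) aS (bS θa θb)) (dhC aS (bS θa θb))
    (nC aS (bS θa θb)) (lam j0) A φ r
  sum : ∑ k ∈ (gset (gC aS (bS θa θb))).erase 0, r k ≤ 4 - s - c + δ
  own : ∀ y : ℝ, 0 < y → (1 - s) * y ≤ -lam j0 (bx9 y 0 0 0 0 0 0 0 0)
  iC : ∀ y : ℝ, 0 < y → q0 * y ≤ -lam j0 (y • uC)
  iP : ∀ y : ℝ, 0 < y → q1 * y ≤ -lam j0 (y • uP)
  iCP : ∀ y : ℝ, 0 < y → (c + q0 + q1) * y ≤ -lam j0 (y • uCP)
  /-- freeze of the slot `D` over the record boxes above the point (helper79) -/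
  fz : ∀ ε : ℝ, 0 < ε → ∀ᶠ m in atTop,
    f j0 (rL θa θb w0 sa sb v0 + u m • natB z.2 (-(θa * z.2)) (-(θb * z.2))) -
      f j0 (rL θa θb w0 sa sb v0 + u m • SL θa θb lam0 z.2 z.2) ≤ ε * (u m * k m)
  /-- own bound at every box (asked by helper665) -/
  ownG : ∀ p ∈ (mw monL).L (xS lam0) aS (bS θa θb), ∀ q ∈ (mw monL).L (xS lam0) aS (bS θa θb),
    p ≤ q → (1 - s) * (q 0 - p 0) ≤ lam j0 p - lam j0 q

theorem uC_mem : uC ∈ LMd := by
  unfold uC; rw [mem_bx]; norm_num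
theorem uP_mem : uP ∈ LMd := by
  unfold uP; rw [mem_bx]; norm_num
theorem uCP_mem : uCP ∈ LMd := by
  unfold uCP; rw [mem_bx]; norm_num

/-- **existence of a generic point of the plane `Σ`** -/
theorem exists_sig {J : Type*} [Finite J] {R w0 sa sb θa θb s c q0 q1 : ℝ} {a b : Fin 2}
    {f : J → (Fin 12 → ℝ) → ℝ} {j0 : J} {v0 : ℝ} {hh : ℕ → ℝ} {g : J → (Fin 12 → ℝ) → ℝ}
    (H : RecT R w0 sa sb θa θb s c q0 q1 a b f j0 v0 hh g) {δ : ℝ} (hδ : 0 < δ)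
    {N : Set (ℝ × ℝ)} (hN : ∀ᵐ z, z ∈ N) :
    ∃ (lam0 : ℝ) (z : ℝ × ℝ) (u k : ℕ → ℝ) (lam : J → (Fin 12 → ℝ) → ℝ) (A : ℝ × ℝ)
      (φ : ℕ → (Fin 12 → ℝ) → ℝ) (r : ℕ → ℝ), z ∈ N ∧ (∃ ψ : ℕ → ℕ, StrictMono ψ ∧ u = hh ∘ ψ) ∧
      SigP R w0 sa sb θa θb s c q0 q1 δ f j0 v0 lam0 z u k lam A φ r := by
  -- constants
  set lam0 : ℝ := 3 with hlam0
  have hl0 : lam0 ≠ 0 := by norm_num [hlam0]
  set K : ℝ := |2 * θa - θb| with hK
  have hK0 : 0 ≤ K := abs_nonneg _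
  set q : ℝ := 4 - s - c with hq
  set ε : ℝ := min (1 / 2) (δ / 2 / (|q| + 1)) with hε
  have hε0 : 0 < ε := lt_min (by norm_num) (by positivity)
  have hε1 : ε ≤ 1 / 2 := min_le_left _ _
  have hε2 : |q| * ε ≤ δ / 2 := by
    have h1 : ε ≤ δ / 2 / (|q| + 1) := min_le_right _ _
    rw [le_div_iff₀ (by positivity)] at h1
    nlinarith [abs_nonneg q]
  set η : ℝ := min (ε / 2) (1 / (4 * (K + 1))) with hη
  have hη0 : 0 < η := lt_min (by linarith) (by positivity)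
  have hη1 : η ≤ ε / 2 := min_le_left _ _
  have hη2 : K * η ≤ 1 / 4 := by
    have h1 : η ≤ 1 / (4 * (K + 1)) := min_le_right _ _
    rw [le_div_iff₀ (by positivity)] at h1
    nlinarith
  set Ω : Set (ℝ × ℝ) := {z | z.1 < z.2 ∧ (2 * θa - θb) * z.2 - z.1 + 1 / 2 < lam0} with hΩ
  have hΩO : Ω ⊆ OO (mw monL) (xS lam0) aS (bS θa θb) := fun z hz => OO_of hl0 (by linarith [hz.2])
  have hseg : ∀ w ∈ Icc (0:ℝ) 1, Metric.ball ((-1 - ε, 0) + w • ((1, 0) : ℝ × ℝ)) η ⊆ Ω := by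
    intro w hw z hz
    rw [Metric.mem_ball, Prod.dist_eq, max_lt_iff, Real.dist_eq, Real.dist_eq] at hz
    simp only [Prod.fst_add, Prod.smul_fst, smul_eq_mul, mul_one, Prod.snd_add, Prod.smul_snd,
      mul_zero, add_zero, sub_zero] at hz
    obtain ⟨h1, h2⟩ := hz
    have h1' := abs_lt.1 h1
    have h2' := abs_lt.1 h2
    have h3 : (2 * θa - θb) * z.2 ≤ K * η := by
      refine (le_abs_self _).trans ?_
      rw [abs_mul]
      exact mul_le_mul_of_nonneg_left h2.le hK0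
    refine ⟨?_, ?_⟩
    · linarith [hw.2, h1'.2, h2'.1]
    · linarith [hw.1, h1'.1]
  have hlip : ∀ j, ∀ p ∈ PP (mw monL), ∀ q ∈ PP (mw monL), |g j p - g j q| ≤ 12 * ‖p - q‖ := by
    rw [PP_eq]; exact H.lip
  have hm : ∀ p ∈ PP (mw monL), ∀ q ∈ PP (mw monL), p ≤ q →
      0 ≤ g j0 p - g j0 q ∧ g j0 p - g j0 q ≤ ∑ i, (q i - p i) := by
    rw [PP_eq]; exact H.prof.anti
  have hs : SupOn (g j0) (PP (mw monL)) := by
    rw [PP_eq]; exact fun p hp q hq hi _ => H.prof.sm p hp q hq hi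
  have hX : ∀ z : ℝ × ℝ, X (xS lam0) aS (bS θa θb) z = SL θa θb lam0 z.1 z.2 := X_eq θa θb lam0
  have hqq : g j0 (X (xS lam0) aS (bS θa θb) (-1 - ε, 0)) -
      g j0 (X (xS lam0) aS (bS θa θb) ((-1 - ε, 0) + (1:ℝ) • ((1, 0) : ℝ × ℝ))) ≤
        (q * (1 + ε)) * 1 := by
    rw [hX, hX]
    simp only [Prod.fst_add, Prod.smul_fst, smul_eq_mul, mul_one, Prod.snd_add, Prod.smul_snd,
      mul_zero, add_zero]
    have h1 := SL_le (θa := θa) (θb := θb) (lam := lam0) (v := -1 - ε) (t := 0) H.prof H.dmax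
      (by simp only [mul_zero, neg_zero, sub_zero]; linarith)
    have h2 := SL_rec (θa := θa) (θb := θb) (lam := lam0) (t := 0) H.recd H.frz
      (by simp only [mul_zero, neg_zero, sub_zero]; linarith)
    have hle : SL θa θb lam0 (-1 - ε + 1) 0 ≤ SL θa θb lam0 0 0 := by
      unfold SL Sg337.frz
      refine Sg337.bx9_le ?_ ?_ ?_ ?_ ?_ ?_ ?_ ?_ ?_ <;> linarith
    have h3 := (H.prof.anti _ (SL_cone (θa := θa) (θb := θb) (lam := lam0) (v := -1 - ε + 1)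
      (t := 0) (by simp only [mul_zero, neg_zero, sub_zero]; linarith)) _
      (SL_cone (θa := θa) (θb := θb) (lam := lam0) (v := 0) (t := 0)
      (by simp only [mul_zero, neg_zero, sub_zero]; linarith)) hle).1
    unfold DL at h1 h2
    simp only [mul_zero, neg_zero] at h1 h2
    rw [hq]
    nlinarith
  have hkpos : ∀ l : ℕ, (0:ℝ) < 1 / ((l : ℝ) + 1) := fun l => by positivity
  obtain ⟨z, hzN, hzΩ, -, θ, lam, D, φ, r, P, hsum⟩ := exists_pack_dir (mw monL) (g := g) (j0 := j0)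
    (K := 12) (by norm_num) hlip hm hs aS_nonneg (full θa θb lam0) hΩO (d := (1, 0))
    zero_lt_one hη0 hseg hqq (half_pos hδ) hN hkpos tendsto_one_div_add_atTop_nhds_zero_nat
  have ht : ∀ j, IsTan (Leg monL R) (PP (mw monL)) (f j) (fun _ => rL θa θb w0 sa sb v0) hh
      (g j) := by
    rw [PP_eq]; exact H.tan
  have hz1 := hzΩ.1
  have hz2 := hzΩ.2
  have hzz : -(θb * z.2) - 2 * (-(θa * z.2)) - z.2 ≤ lam0 := by linarith
  have hfz : ∀ m : ℕ, ∀ᶠ l in atTop,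
      f j0 (rL θa θb w0 sa sb v0 + hh l • natB z.2 (-(θa * z.2)) (-(θb * z.2))) -
        f j0 (rL θa θb w0 sa sb v0 + hh l • SL θa θb lam0 z.2 z.2) ≤
        (1 / ((m : ℝ) + 1)) * (1 / ((θ m : ℝ) + 1)) * hh l := by
    intro m
    have h1 := SgO219.tan_lim H.pos (H.tan j0) (Sg337.natB_cone z.2 (-(θa * z.2)) (-(θb * z.2)))
      (SL_cone (θa := θa) (θb := θb) (lam := lam0) (v := z.2) (t := z.2) hzz)
    have h2 : g j0 (natB z.2 (-(θa * z.2)) (-(θb * z.2))) = g j0 (SL θa θb lam0 z.2 z.2) := by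
      rw [H.recd, SL_rec H.recd H.frz hzz]
    rw [h2, sub_self] at h1
    filter_upwards [h1.eventually_lt_const
      (by positivity : (0:ℝ) < (1 / ((m : ℝ) + 1)) * (1 / ((θ m : ℝ) + 1)))] with l hl
    rw [div_lt_iff₀ (H.pos l)] at hl
    exact hl.le
  obtain ⟨ψ, hψ, hPr, hd⟩ := P.diag H.pos ht (Pr := fun m l =>
    f j0 (rL θa θb w0 sa sb v0 + hh l • natB z.2 (-(θa * z.2)) (-(θb * z.2))) -
      f j0 (rL θa θb w0 sa sb v0 + hh l • SL θa θb lam0 z.2 z.2) ≤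
      (1 / ((m : ℝ) + 1)) * (1 / ((θ m : ℝ) + 1)) * hh l) hfz
  have hL := L_eq (θa := θa) (θb := θb) hl0
  refine ⟨lam0, z, hh ∘ ψ, fun m => 1 / ((θ m : ℝ) + 1), lam, (D (1, 0), D (0, 1)), φ, r, hzN,
    ⟨ψ, hψ, rfl⟩, ⟨H.v00, H.v01, fun m => H.pos _, H.lim.comp hψ.tendsto_atTop, fun m => hkpos _,
      tendsto_one_div_add_atTop_nhds_zero_nat.comp P.mono.tendsto_atTop, hzΩ.1, by linarith,
      by norm_num [hlam0], fun j => ?_, fun j => P.lip (hlip j), P.out, ?_, fun y hy => ?_, ?_,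
      ?_, ?_, fun ε hε => ?_, P.lowS j0 0 (1 - s) (by rw [PP_eq]; exact H.prof.own)⟩⟩
  · have := hd j
    rw [hX] at this
    exact this
  · rw [P.sum]
    have h1 : -D (1, 0) ≤ q * (1 + ε) + δ / 2 := hsum
    have h2 : q * ε ≤ δ / 2 := by
      have := mul_le_mul_of_nonneg_right (le_abs_self q) hε0.le
      linarith
    linarith
  · have h0L : (0 : Fin 12 → ℝ) ∈ (mw monL).L (xS lam0) aS (bS θa θb) :=
      (Walls.cone (Q := mw monL)).zero
    have hyL : bx9 y 0 0 0 0 0 0 0 0 ∈ (mw monL).L (xS lam0) aS (bS θa θb) := by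
      rw [hL, mem_bx]
      refine ⟨?_, ?_, ?_, ?_, ?_, ?_, ?_⟩ <;> linarith
    have h1 := P.lowS j0 0 (1 - s) (by rw [PP_eq]; exact H.prof.own) 0 h0L _ hyL (fun i => by
      fin_cases i <;> simp [bx9, hy.le])
    rw [P.zero j0] at h1
    have h2 : bx9 y 0 0 0 0 0 0 0 0 0 = y := rfl
    rw [h2] at h1
    simp only [Pi.zero_apply, sub_zero] at h1
    linarith
  · refine P.incr hzΩ j0 (e := uC) (by rw [hL]; exact uC_mem) (y0 := 1 / 2) (by norm_num)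
      fun z' hz' y hy => ?_
    rw [hX]
    exact (sigL_all H.prof H.dmax H.recd H.frz (lam := lam0) (v := z'.1) (t := z'.2) (y := y)
      hz'.1.le hy.1.le (by linarith [hz'.2, hy.2])).2.2.2.1
  · refine P.incr hzΩ j0 (e := uP) (by rw [hL]; exact uP_mem) (y0 := 1 / 2) (by norm_num)
      fun z' hz' y hy => ?_
    rw [hX]
    exact (sigL_all H.prof H.dmax H.recd H.frz (lam := lam0) (v := z'.1) (t := z'.2) (y := y)
      hz'.1.le hy.1.le (by linarith [hz'.2, hy.2])).2.2.2.2.1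
  · refine P.incr hzΩ j0 (e := uCP) (by rw [hL]; exact uCP_mem) (y0 := 1 / 2) (by norm_num)
      fun z' hz' y hy => ?_
    rw [hX]
    exact (sigL_all H.prof H.dmax H.recd H.frz (lam := lam0) (v := z'.1) (t := z'.2) (y := y)
      hz'.1.le hy.1.le (by linarith [hz'.2, hy.2])).2.2.2.2.2
  · filter_upwards [tendsto_one_div_add_atTop_nhds_zero_nat.eventually_lt_const hε] with m hm
    refine (hPr m).trans ?_
    have h1 : (0:ℝ) ≤ (1 / ((θ m : ℝ) + 1)) * hh (ψ m) := mul_nonneg (hkpos _).le (H.pos _).le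
    have h2 := mul_le_mul_of_nonneg_right hm.le h1
    calc (1 / ((m : ℝ) + 1)) * (1 / ((θ m : ℝ) + 1)) * hh (ψ m) =
          (1 / ((m : ℝ) + 1)) * ((1 / ((θ m : ℝ) + 1)) * hh (ψ m)) := by ring
      _ ≤ ε * ((1 / ((θ m : ℝ) + 1)) * hh (ψ m)) := h2
      _ = _ := by rw [mul_comm (1 / ((θ m : ℝ) + 1)) (hh (ψ m))]; rfl

end Crest.Agent.R116.RowU194
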