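import Crest.Agent.R116.Sg3a_635
import Crest.Agent.R116.WinG_954
import Crest.Agent.R116.Sc3_299
import Crest.Agent.R116.Sc4a_708
import Crest.Agent.R116.Sc6_299
import Crest.Agent.R116.ThinD_954
import Crest.Agent.R116.Nar9_192
import Crest.Agent.R116.Kr14_710
import Crest.Agent.R116.Nar3f_863
import Crest.Agent.R116.RowU3_194

-- ▼ part R116/Sc5b_748
section

/-!
# R116, K-TEXT II-c, SIG2 (`σ = 2`, helper905), Sc5b: the letters of the plane `Σ` (helper748)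

Over `OutS` on the plane `Σ` (635's letters) with `θb = 2 θa`: the groups are `0`, `kz`, `kX` and
`kN = kF` (slots `9`, `11`).

* `lam_nf` : values of the tangent on boxes with `N = F`.
* `dens`, `frost`, `plat`, `decC` : the hypotheses of the window statements.
* `field` : `(1 - s) t ≤ 2 (lam pC - lam pH) - (lam p0 - lam pA)` ⊢ `1 - s ≤ r kN - r kX`.
-/

set_option autoImplicit false
set_option linter.unusedVariables false
set_option linter.unusedSectionVars false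

open Set Filter Topology

namespace Crest.Agent.R116.Sc5b748

open Crest.Agent.R136
open Crest.Agent.R136.Net191
open Dg219 (gset OutS gC dhC nC)
open Sg337 (bx9)
open Sg635 (aS bS LMd mem_bx kz kX kN kF g_zero g6 gset_sum2 dh_single kz_ne kX_ne kN_ne kF_ne
  kz_kX kz_kN kz_kF kX_kN kX_kF kN_kF)

variable {θa θb : ℝ} {lam : (Fin 12 → ℝ) → ℝ} {A : ℝ × ℝ} {φ : ℕ → (Fin 12 → ℝ) → ℝ} {r : ℕ → ℝ}

/-- the groups at `σ = 2` -/
theorem grp2 (ha : θa ≠ 0) (h2 : θb = 2 * θa) (i : Fin 12) :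
    (gC aS (bS θa θb) i = kz θa θb ↔ i = 0) ∧
    (gC aS (bS θa θb) i = kX θa θb ↔ i = 5 ∨ i = 6) ∧
    (gC aS (bS θa θb) i = kN θa θb ↔ i = 9 ∨ i = 11) := by
  have a1 : kz θa θb ≠ kX θa θb := fun h => ha (kz_kX.1 h)
  have a2 : kz θa θb ≠ kN θa θb := fun h => ha (kz_kN.1 h)
  have a4 : kX θa θb ≠ kN θa θb := fun h => ha (kX_kN.1 h)
  have b1 := (kz_ne (θa := θa) (θb := θb)).symm
  have b2 := (kX_ne (θa := θa) (θb := θb)).symm
  have b3 := (kN_ne (θa := θa) (θb := θb)).symm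
  have eF : kF θa θb = kN θa θb := (kN_kF.2 h2).symm
  by_cases hi : i ∈ ({1, 2, 3, 4, 7, 8, 10} : Finset (Fin 12))
  · have hg : gC aS (bS θa θb) i = 0 := g_zero.2 hi
    rw [hg]
    fin_cases i <;> simp at hi ⊢ <;> exact ⟨b1, b2, b3⟩
  · have e0 : gC aS (bS θa θb) 0 = kz θa θb := rfl
    have e5 : gC aS (bS θa θb) 5 = kX θa θb := rfl
    have e9 : gC aS (bS θa θb) 9 = kN θa θb := rfl
    have e11 : gC aS (bS θa θb) 11 = kN θa θb := eF
    fin_cases i <;> simp at hi ⊢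
    · simp [e0, a1, a2]
    · simp [e5, a1.symm, a4]
    · simp [g6, a1.symm, a4]
    · simp [e9, a2.symm, a4.symm]
    · simp [e11, a2.symm, a4.symm]

theorem bx0 {z E C X B P u : ℝ} (i : Fin 12)
    (hi : i ∈ ({1, 2, 3, 4, 7, 8, 10} : Finset (Fin 12))) :
    bx9 z 0 E C X B u P u i = bx9 0 0 E C 0 B 0 P 0 i := by
  simp only [Finset.mem_insert, Finset.mem_singleton] at hi
  rcases hi with rfl | rfl | rfl | rfl | rfl | rfl | rfl <;> simp [bx9]

theorem bx_vals {z E C X B P u : ℝ} :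
    bx9 z 0 E C X B u P u 0 = z ∧ bx9 z 0 E C X B u P u 5 = X ∧ bx9 z 0 E C X B u P u 6 = X ∧
    bx9 z 0 E C X B u P u 9 = u ∧ bx9 z 0 E C X B u P u 11 = u := by
  refine ⟨?_, ?_, ?_, ?_, ?_⟩ <;> simp [bx9]

/-- **values on boxes with `N = F`** -/
theorem lam_nf (H : OutS (gC aS (bS θa θb)) LMd (dhC aS (bS θa θb)) (nC aS (bS θa θb)) lam A φ r)
    (ha : θa ≠ 0) (h2 : θb = 2 * θa) {z E C X B P u : ℝ}
    (hm : bx9 z 0 E C X B u P u ∈ LMd) :
    lam (bx9 z 0 E C X B u P u) =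
      φ 0 (bx9 0 0 E C 0 B 0 P 0) - r (kz θa θb) * z - r (kX θa θb) * X - r (kN θa θb) * u := by
  obtain ⟨d0, d5, d6, d9, d11⟩ := dh_single (θa := θa) (θb := θb)
  obtain ⟨v0, v5, v6, v9, v11⟩ := bx_vals (z := z) (E := E) (C := C) (X := X) (B := B) (P := P)
    (u := u)
  have v1 : ∀ i ∈ ({1, 2, 3, 4, 7, 8, 10} : Finset (Fin 12)),
      bx9 z 0 E C X B u P u i = bx9 0 0 E C 0 B 0 P 0 i := bx0
  generalize bx9 z 0 E C X B u P u = c at *
  generalize bx9 0 0 E C 0 B 0 P 0 = c' at *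
  have hs := H.sum _ hm
  have hs2 := (gset_sum2 ha h2 fun k => φ k c).2
  have e0 : φ 0 c = φ 0 c' := H.loc 0 _ _ fun i hi => v1 i (g_zero.1 hi)
  have ez : φ (kz θa θb) c = -(r (kz θa θb) * z) := by
    refine H.rate _ _ hm z fun i hi => ?_
    rw [(grp2 ha h2 i).1.1 hi, d0, v0, mul_one]
  have eX : φ (kX θa θb) c = -(r (kX θa θb) * X) := by
    refine H.rate _ _ hm X fun i hi => ?_
    rcases (grp2 ha h2 i).2.1.1 hi with h | h
    · rw [h, d5, v5, mul_one]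
    · rw [h, d6, v6, mul_one]
  have eN : φ (kN θa θb) c = -(r (kN θa θb) * u) := by
    refine H.rate _ _ hm u fun i hi => ?_
    rcases (grp2 ha h2 i).2.2.1 hi with h | h
    · rw [h, d9, v9, mul_one]
    · rw [h, d11, v11, mul_one]
  rw [hs, hs2, e0, ez, eX, eN]
  ring

section facts

variable (H : OutS (gC aS (bS θa θb)) LMd (dhC aS (bS θa θb)) (nC aS (bS θa θb)) lam A φ r)
  (ha : θa ≠ 0) (h2 : θb = 2 * θa) {t : ℝ}

include H ha h2

theorem phi0 : φ 0 (bx9 0 0 0 0 0 0 0 0 0) = 0 :=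
  H.zero 0 _ fun i _ => by fin_cases i <;> simp [bx9]

/-- the height slot alone -/
theorem lam_z (y : ℝ) (hy : 0 ≤ y) : lam (bx9 y 0 0 0 0 0 0 0 0) = -(r (kz θa θb) * y) := by
  rw [lam_nf H ha h2 (mem_bx.2 ⟨by linarith, by linarith, by linarith, by linarith, by linarith,
    by linarith, by linarith⟩), phi0 H ha h2]
  ring

/-- the linear part: density of the window -/
theorem dens (ht : 0 ≤ t) : lam (bx9 t 0 t t t t t t t) ≤
    lam (bx9 0 0 t t t t t t t) + lam (bx9 t 0 0 0 0 0 0 0 0) := by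
  rw [lam_z H ha h2 t ht, lam_nf H ha h2 (mem_bx.2 ⟨by linarith, by linarith, by linarith,
    by linarith, by linarith, by linarith, by linarith⟩), lam_nf H ha h2 (mem_bx.2 ⟨by linarith,
    by linarith, by linarith, by linarith, by linarith, by linarith, by linarith⟩)]
  linarith

theorem frost {σ : ℝ} (hz : σ ≤ r (kz θa θb)) (y : ℝ) (hy : 0 ≤ y) :
    lam (bx9 y 0 0 0 0 0 0 0 0) ≤ -(σ * y) := by
  rw [lam_z H ha h2 y hy]
  have := mul_le_mul_of_nonneg_right hz hy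
  linarith

/-- the class slots and the position slots are decoupled: any flags `(E, C, B, P)` -/
theorem plat (ht : 0 ≤ t) {E C B P : ℝ} (hE : 0 ≤ E) (hC : 0 ≤ C) (hB : 0 ≤ B) (hP : 0 ≤ P)
    (hBE : B ≤ E + C) (hPC : P ≤ C + B) :
    lam (bx9 t 0 0 0 0 0 0 0 0) - lam (bx9 t 0 E C 0 B 0 P 0) =
      lam (bx9 t 0 0 0 t 0 t 0 t) - lam (bx9 t 0 E C t B t P t) := by
  rw [lam_z H ha h2 t ht, lam_nf H ha h2 (mem_bx.2 ⟨by linarith, by linarith, by linarith,
    by linarith, by linarith, by linarith, by linarith⟩), lam_nf H ha h2 (mem_bx.2 ⟨by linarith,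
    by linarith, by linarith, by linarith, by linarith, by linarith, by linarith⟩),
    lam_nf H ha h2 (mem_bx.2 ⟨by linarith, by linarith, by linarith, by linarith, by linarith,
    by linarith, by linarith⟩), phi0 H ha h2]
  ring


end facts

end Crest.Agent.R116.Sc5b748
end

-- ▼ part R116/Sc7_299
section

/-!
# R116, SIG2 (sigma = 2), part Sc7 (helper299): global coordinates, live slot `4`

`swf` = the symmetry `(3 4)(5 6)(7 8)` of the chart, `swG` = the configuration with exchanged slots,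
`gc_of_sw` : `GC` for `swG (W.cfg E n)` when `rel 3 = al rel 4`, `rel 5 = al rel 6`.
-/

set_option autoImplicit false
set_option linter.unusedVariables false
set_option linter.unusedSectionVars false

open Filter Topology Finset

namespace Crest.Agent.R116.Sc299

open Crest.Agent.R138.Ex926 (Base U)
open Crest.Agent.R136.Net191 Crest.Agent.R136.Qg926 Crest.Agent.R136.Gf356
open Crest.Agent.R116.ChL222 Crest.Agent.R116.PL504 Crest.Agent.R116.EvL504
open Crest.Agent.R116.Kr710 (LLaw Thin)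

/-- the symmetry `(3 4)(5 6)(7 8)` -/
def swf : Fin 12 → Fin 12 := ![0, 1, 2, 4, 3, 6, 5, 8, 7, 9, 10, 11]

theorem swf_swf (s : Fin 12) : swf (swf s) = s := by revert s; decide

theorem swf_ne_one {s : Fin 12} (h : s ≠ 1) : swf s ≠ 1 := by revert h; revert s; decide

theorem three_le_swf {s : Fin 12} (h : 3 ≤ s) : 3 ≤ swf s := by revert h; revert s; decide

/-- exchanged slots -/
def swG (G : RCfg (Fin 12)) : RCfg (Fin 12) :=
  { G with rel := fun k i l s => G.rel k i l (swf s) }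

theorem swG_z (G : RCfg (Fin 12)) (k : ℕ) : (swG G).z k = G.z k := rfl

theorem swG_rel (G : RCfg (Fin 12)) (k i l : ℕ) (s : Fin 12) :
    (swG G).rel k i l s = G.rel k i l (swf s) := rfl

/-- the law is equivariant -/
theorem cp_sw (a c : Fin 12 → ℝ) {s : Fin 12} (h2 : 2 ≤ s) :
    cp (fun j => a (swf j)) (fun j => c (swf j)) s = cp a c (swf s) := by
  fin_cases s
  · exact absurd h2 (by decide)
  · exact absurd h2 (by decide)
  · show cp _ _ 2 = cp a c 2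
    rw [cp2, cp2]; rfl
  · show cp _ _ 3 = cp a c 4
    rw [cp3, cp4]; rfl
  · show cp _ _ 4 = cp a c 3
    rw [cp3, cp4]; rfl
  · show cp _ _ 5 = cp a c 6
    rw [cp5, cp6]; rfl
  · show cp _ _ 6 = cp a c 5
    rw [cp5, cp6]; rfl
  · show cp _ _ 7 = cp a c 8
    rw [cp7, cp8]; rfl
  · show cp _ _ 8 = cp a c 7
    rw [cp7, cp8]; rfl
  · show cp _ _ 9 = cp a c 9
    rw [cp9, cp9]
    show a 9 + c 9 - a 0 * ((c 4 ^ 2 + c 3 ^ 2) / 2) + a 4 * (c 6 - a 0 * c 4) +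
      a 3 * (c 5 - a 0 * c 3) = _
    ring
  · show cp _ _ 10 = cp a c 10
    rw [cp10, cp10]
    show a 10 + c 10 - a 8 * c 4 - a 7 * c 3 - a 2 * ((c 4 ^ 2 + c 3 ^ 2) / 2) = _
    ring
  · show cp _ _ 11 = cp a c 11
    rw [cp11, cp11]
    show a 11 + c 11 - a 0 * c 10 - a 8 * (c 6 - a 0 * c 4) - a 7 * (c 5 - a 0 * c 3) -
      a 2 * (c 9 - a 0 * ((c 4 ^ 2 + c 3 ^ 2) / 2)) = _
    ring

variable {ι : ℕ → Type*} [∀ n, DecidableEq (ι n)] {W : Wnd 12 ι} {K tp : ℝ}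
  {E : ∀ n, Finset (ι n)} {x : ℝ}

/-- position -/
noncomputable def gAXs (W : Wnd 12 ι) (al : ℕ → ℝ) (n l : ℕ) : ℝ :=
  ki al n * (gv W 6 n l + al n * gv W 5 n l)

/-- velocity -/
noncomputable def gCs (W : Wnd 12 ι) (al : ℕ → ℝ) (n l : ℕ) : ℝ :=
  ki al n * (gv W 4 n l + al n * gv W 3 n l)

/-- first flag -/
noncomputable def gBs (W : Wnd 12 ι) (al : ℕ → ℝ) (n l : ℕ) : ℝ := gv W 8 n l + al n * gv W 7 n l

/-- **global coordinates, exchanged slots** -/
theorem gc_of_sw (h : WL W K tp) (h2 : (2 : Fin 12) ∉ W.S) (h7 : (7 : Fin 12) ∉ W.S)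
    (h8 : (8 : Fin 12) ∉ W.S) (t7 : tp ≤ W.top 7) (t8 : tp ≤ W.top 8)
    (hE : ∀ᶠ n in (U : Filter ℕ), Reg W E n) (hX : ∀ᶠ n in (U : Filter ℕ), FrX W K 0 tp n)
    (hx : x ≤ tp) {al : ℕ → ℝ}
    (hal : ∀ ε : ℝ, 0 < ε → ∀ᶠ n in (U : Filter ℕ), |al n| ≤ W.B'.d n ^ (-ε))
    (tc : ∀ ε : ℝ, 0 < ε → ∀ᶠ n in (U : Filter ℕ), ∀ k i l, (i, k) ∈ (W.cfg E n).I →
      (l, k) ∈ (W.cfg E n).I →
      |(W.cfg E n).rel k i l 3 - al n * (W.cfg E n).rel k i l 4| ≤ W.B'.d n ^ (x - ε))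
    (tx : ∀ ε : ℝ, 0 < ε → ∀ᶠ n in (U : Filter ℕ), ∀ k i l, (i, k) ∈ (W.cfg E n).I →
      (l, k) ∈ (W.cfg E n).I →
      |(W.cfg E n).rel k i l 5 - al n * (W.cfg E n).rel k i l 6| ≤ W.B'.d n ^ (x - ε)) :
    GC W.B' (fun n => swG (W.cfg E n)) al (gAXs W al) (gAH W al) (gv W 11) (gCs W al) (gv W 10)
      (gBs W al) (gE W) x := by
  -- the elements
  have ba : ∀ s : Fin 12, Sm W.B' (W.cfg E) 0
      (fun p : Ix => W.crd p.1 (W.s₀ p.1) (W.rep p.1 p.2.2.1 p.2.1) s) := fun s => bd_of (by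
    filter_upwards [hE] with n r
    intro k i l hi hl
    exact h.crd_le r.good r.good.s0 (r.spec hi).1 s)
  have bw : ∀ s : Fin 12, Sm W.B' (W.cfg E) 0
      (fun p : Ix => W.crd p.1 (W.s₀ p.1) (W.rep p.1 p.2.2.2 p.2.1) s) := fun s => bd_of (by
    filter_upwards [hE] with n r
    intro k i l hi hl
    exact h.crd_le r.good r.good.s0 (r.spec hl).1 s)
  have bA : ∀ s : Fin 12, Sm W.B' (W.cfg E) 0
      (fun p : Ix => gv W s p.1 p.2.2.1) := fun s => bd_of (by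
    filter_upwards [hE] with n r
    intro k i l hi hl
    exact h.crd_le r.good r.good.s0 (lrep_reg r hi).1 s)
  have bV : ∀ s : Fin 12, Sm W.B' (W.cfg E) 0
      (fun p : Ix => gv W s p.1 p.2.2.2) := fun s => bd_of (by
    filter_upwards [hE] with n r
    intro k i l hi hl
    exact h.crd_le r.good r.good.s0 (lrep_reg r hl).1 s)
  have bc : ∀ s : Fin 12, Sm W.B' (W.cfg E) 0
      (fun p : Ix => W.crd p.1 (W.rep p.1 p.2.2.1 p.2.1) (W.rep p.1 p.2.2.2 p.2.1) s) :=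
    fun s => bd_of (by
    filter_upwards [hE] with n r
    intro k i l hi hl
    exact h.crd_le r.good (r.spec hi).1 (r.spec hl).1 s)
  have bz : Sm W.B' (W.cfg E) 0 (fun p : Ix => (W.cfg E p.1).z p.2.1) := bd_of (by
    filter_upwards [hE] with n r
    intro k i l hi hl
    show |(W.cfg E n).z k| ≤ 1
    rw [r.z_eq]
    exact h.crd_le r.good r.good.s0 (r.zspec ⟨i, hi⟩).1 _)
  have bal : Sm W.B' (W.cfg E) 0 (fun p : Ix => al p.1) := by
    intro ε hε
    filter_upwards [hal ε hε] with n h1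
    intro k i l hi hl
    rw [zero_sub]
    exact h1
  have bk : Sm W.B' (W.cfg E) 0 (fun p : Ix => ki al p.1) :=
    bd_of (Eventually.of_forall fun n k i l _ _ => ki_le al n)
  have bh : Sm W.B' (W.cfg E) 0 (fun p : Ix => (1 / 2 : ℝ)) :=
    bd_of (Eventually.of_forall fun n k i l _ _ => by
      show |(1 / 2 : ℝ)| ≤ 1
      rw [abs_of_pos (by norm_num)]; norm_num)
  set ea : Fin 12 → bdR W.B' (W.cfg E) := fun s => mkB _ (ba (swf s)) with hea
  set ew : Fin 12 → bdR W.B' (W.cfg E) := fun s => mkB _ (bw (swf s)) with hew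
  set eA : Fin 12 → bdR W.B' (W.cfg E) := fun s => mkB _ (bA (swf s)) with heA
  set eV : Fin 12 → bdR W.B' (W.cfg E) := fun s => mkB _ (bV (swf s)) with heV
  set ec : Fin 12 → bdR W.B' (W.cfg E) := fun s => mkB _ (bc (swf s)) with hec
  set ez : bdR W.B' (W.cfg E) := mkB _ bz with hez
  set el : bdR W.B' (W.cfg E) := mkB _ bal with hel
  set ek : bdR W.B' (W.cfg E) := mkB _ bk with hek
  set eh : bdR W.B' (W.cfg E) := mkB _ bh with heh
  set q := Ideal.Quotient.mk (smI W.B' (W.cfg E) x) with hq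
  -- relations
  have law : ∀ (s : Fin 12), 2 ≤ s → ∀ g : bdR W.B' (W.cfg E),
      (∀ p : Ix, g.1 p = cp (fun j => (ea j).1 p) (fun j => (ec j).1 p) s) → q (ew s) = q g := by
    intro s hs g hg
    refine mk_eq.2 (sm_of hx (c := 48) ?_)
    filter_upwards [hE, hX] with n r f
    intro k i l hi hl
    have hi' := (r.spec hi).1
    have hl' := (r.spec hl).1
    have t1 := f.compW h le_rfl zero_le_one (h.crd_le r.good r.good.s0 hi')
      (h.crd_le r.good hi' hl')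
      (swf_ne_one (show s ≠ 1 by rintro rfl; exact absurd hs (by decide)))
    rw [← h.crd_add] at t1
    show |(ew s).1 (n, k, i, l) - g.1 (n, k, i, l)| ≤ _
    rw [hg]
    have e := cp_sw (W.crd n (W.s₀ n) (W.rep n i k)) (W.crd n (W.rep n i k) (W.rep n l k)) hs
    have e' : cp (fun j => (ea j).1 (n, k, i, l)) (fun j => (ec j).1 (n, k, i, l)) s =
      cp (W.crd n (W.s₀ n) (W.rep n i k)) (W.crd n (W.rep n i k) (W.rep n l k)) (swf s) := e
    rw [e']
    exact t1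
  have hz : q (ea 0) = q ez := by
    refine mk_eq.2 (sm_of hx (c := 1) ?_)
    filter_upwards [hE] with n r
    intro k i l hi hl
    obtain ⟨a1, a2, a3⟩ := r.spec hi
    obtain ⟨b1, b3⟩ := r.zspec ⟨i, hi⟩
    have e1 := h.crd_z_add (W.s₀ n) (W.zrep n k) (W.rep n i k)
    show |W.crd n (W.s₀ n) (W.rep n i k) 0 - (W.cfg E n).z k| ≤ _
    rw [r.z_eq, h.kz, e1, add_sub_cancel_left, one_mul]
    exact h.crd_z r.good b1 a1 (b3.trans a3.symm) h.z0
  have hA : ∀ s : Fin 12, 3 ≤ s → q (ea s) = q (eA s) := by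
    intro s hs
    refine mk_eq.2 (sm_of hx (c := 96) ?_)
    filter_upwards [hE, hX] with n r f
    intro k i l hi hl
    exact line_close h h7 h8 t7 t8 r f hi (Or.inr (three_le_swf hs))
  have hV : ∀ s : Fin 12, 3 ≤ s → q (ew s) = q (eV s) := by
    intro s hs
    refine mk_eq.2 (sm_of hx (c := 96) ?_)
    filter_upwards [hE, hX] with n r f
    intro k i l hi hl
    exact line_close h h7 h8 t7 t8 r f hl (Or.inr (three_le_swf hs))
  have n3 : (3 : Fin 12) ∉ W.S := h.notS (by decide)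
  have n4 : (4 : Fin 12) ∉ W.S := h.notS (by decide)
  have n5 : (5 : Fin 12) ∉ W.S := h.notS (by decide)
  have n6 : (6 : Fin 12) ∉ W.S := h.notS (by decide)
  have c4 : q (ec 4) = q el * q (ec 3) := by
    rw [← map_mul]
    refine mk_eq.2 fun ε hε => ?_
    filter_upwards [hE, tc ε hε] with n r h1
    intro k i l hi hl
    have := h1 k i l hi hl
    rw [r.rel_of n3, r.rel_of n4] at this
    exact this
  have c6 : q (ec 6) = q el * q (ec 5) := by
    rw [← map_mul]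
    refine mk_eq.2 fun ε hε => ?_
    filter_upwards [hE, tx ε hε] with n r h1
    intro k i l hi hl
    have := h1 k i l hi hl
    rw [r.rel_of n5, r.rel_of n6] at this
    exact this
  have hk : q ek * (1 + q el * q el) = 1 := by
    have e : ek * (1 + el * el) = 1 := by
      apply Subtype.ext
      funext p
      exact ki_mul al p.1
    rw [← map_one q, ← map_mul, ← map_add, ← map_mul, e]
  have hh : q eh + q eh = 1 := by
    have e : eh + eh = 1 := by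
      apply Subtype.ext
      funext p
      show (1 / 2 : ℝ) + 1 / 2 = 1
      norm_num
    rw [← map_one q, ← map_add, e]
  have w2 : q (ew 2) = q (ea 2) + q (ec 2) := by
    rw [law 2 (by decide) (ea 2 + ec 2) fun p =>
      (cp2 (fun j => (ea j).1 p) (fun j => (ec j).1 p)).symm, map_add]
  have w3 : q (ew 3) = q (ea 3) + q (ec 3) := by
    rw [law 3 (by decide) (ea 3 + ec 3) fun p =>
      (cp3 (fun j => (ea j).1 p) (fun j => (ec j).1 p)).symm, map_add]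
  have w4 : q (ew 4) = q (ea 4) + q (ec 4) := by
    rw [law 4 (by decide) (ea 4 + ec 4) fun p =>
      (cp4 (fun j => (ea j).1 p) (fun j => (ec j).1 p)).symm, map_add]
  have w5 : q (ew 5) = q (ea 5) + q (ec 5) - q ez * q (ec 3) := by
    rw [law 5 (by decide) (ea 5 + ec 5 - ea 0 * ec 3) fun p =>
      (cp5 (fun j => (ea j).1 p) (fun j => (ec j).1 p)).symm, map_sub, map_add,
      map_mul, hz]
  have w6 : q (ew 6) = q (ea 6) + q (ec 6) - q ez * q (ec 4) := by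
    rw [law 6 (by decide) (ea 6 + ec 6 - ea 0 * ec 4) fun p =>
      (cp6 (fun j => (ea j).1 p) (fun j => (ec j).1 p)).symm, map_sub, map_add,
      map_mul, hz]
  have w7 : q (ew 7) = q (ea 7) + q (ec 7) + q (ea 2) * q (ec 3) := by
    rw [law 7 (by decide) (ea 7 + ec 7 + ea 2 * ec 3) fun p =>
      (cp7 (fun j => (ea j).1 p) (fun j => (ec j).1 p)).symm, map_add, map_add,
      map_mul]
  have w8 : q (ew 8) = q (ea 8) + q (ec 8) + q (ea 2) * q (ec 4) := by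
    rw [law 8 (by decide) (ea 8 + ec 8 + ea 2 * ec 4) fun p =>
      (cp8 (fun j => (ea j).1 p) (fun j => (ec j).1 p)).symm, map_add, map_add,
      map_mul]
  have hq2 : ∀ p : Ix, eh.1 p = 1 / 2 := fun p => rfl
  have w9 : q (ew 9) = q (ea 9) + q (ec 9) -
      q ez * ((q (ec 3) * q (ec 3) + q (ec 4) * q (ec 4)) * q eh) +
      q (ea 3) * (q (ec 5) - q ez * q (ec 3)) + q (ea 4) * (q (ec 6) - q ez * q (ec 4)) := by
    rw [law 9 (by decide) (ea 9 + ec 9 - ea 0 * ((ec 3 * ec 3 + ec 4 * ec 4) * eh) +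
      ea 3 * (ec 5 - ea 0 * ec 3) + ea 4 * (ec 6 - ea 0 * ec 4)) fun p => ?_]
    · simp only [map_add, map_sub, map_mul, hz]
    · rw [cp9]
      show (ea 9).1 p + (ec 9).1 p - (ea 0).1 p * (((ec 3).1 p * (ec 3).1 p +
        (ec 4).1 p * (ec 4).1 p) * (1 / 2)) + (ea 3).1 p * ((ec 5).1 p - (ea 0).1 p * (ec 3).1 p) +
        (ea 4).1 p * ((ec 6).1 p - (ea 0).1 p * (ec 4).1 p) = _
      ring
  have w10 : q (ew 10) = q (ea 10) + q (ec 10) - q (ea 7) * q (ec 3) - q (ea 8) * q (ec 4) -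
      q (ea 2) * ((q (ec 3) * q (ec 3) + q (ec 4) * q (ec 4)) * q eh) := by
    rw [law 10 (by decide) (ea 10 + ec 10 - ea 7 * ec 3 - ea 8 * ec 4 -
      ea 2 * ((ec 3 * ec 3 + ec 4 * ec 4) * eh)) fun p => ?_]
    · simp only [map_add, map_sub, map_mul]
    · rw [cp10]
      show (ea 10).1 p + (ec 10).1 p - (ea 7).1 p * (ec 3).1 p - (ea 8).1 p * (ec 4).1 p -
        (ea 2).1 p * (((ec 3).1 p * (ec 3).1 p + (ec 4).1 p * (ec 4).1 p) * (1 / 2)) = _
      ring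
  have w11 : q (ew 11) = q (ea 11) + q (ec 11) - q ez * q (ec 10) -
      q (ea 7) * (q (ec 5) - q ez * q (ec 3)) - q (ea 8) * (q (ec 6) - q ez * q (ec 4)) -
      q (ea 2) * (q (ec 9) -
        q ez * ((q (ec 3) * q (ec 3) + q (ec 4) * q (ec 4)) * q eh)) := by
    rw [law 11 (by decide) (ea 11 + ec 11 - ea 0 * ec 10 - ea 7 * (ec 5 - ea 0 * ec 3) -
      ea 8 * (ec 6 - ea 0 * ec 4) - ea 2 * (ec 9 -
        ea 0 * ((ec 3 * ec 3 + ec 4 * ec 4) * eh))) fun p => ?_]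
    · simp only [map_add, map_sub, map_mul, hz]
    · rw [cp11]
      show (ea 11).1 p + (ec 11).1 p - (ea 0).1 p * (ec 10).1 p -
        (ea 7).1 p * ((ec 5).1 p - (ea 0).1 p * (ec 3).1 p) -
        (ea 8).1 p * ((ec 6).1 p - (ea 0).1 p * (ec 4).1 p) -
        (ea 2).1 p * ((ec 9).1 p - (ea 0).1 p *
          (((ec 3).1 p * (ec 3).1 p + (ec 4).1 p * (ec 4).1 p) * (1 / 2))) = _
      ring
  -- conclusions
  set Ci : bdR W.B' (W.cfg E) := ek * (eA 3 + el * eA 4) with hCi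
  set Cl : bdR W.B' (W.cfg E) := ek * (eV 3 + el * eV 4) with hCl
  set Xi : bdR W.B' (W.cfg E) := ek * (eA 5 + el * eA 6) + ez * Ci with hXi
  set Xl : bdR W.B' (W.cfg E) := ek * (eV 5 + el * eV 6) + ez * Cl with hXl
  set Hi : bdR W.B' (W.cfg E) := ek * eA 9 + ez * (Ci * Ci) * eh with hHi
  set Hl : bdR W.B' (W.cfg E) := ek * eV 9 + ez * (Cl * Cl) * eh with hHl
  have qCi : q Ci = q ek * (q (ea 3) + q el * q (ea 4)) := by
    rw [hCi, map_mul, map_add, map_mul, hA 3 (by decide), hA 4 (by decide)]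
  have qCl : q Cl = q ek * (q (ew 3) + q el * q (ew 4)) := by
    rw [hCl, map_mul, map_add, map_mul, hV 3 (by decide), hV 4 (by decide)]
  have s3 : q (ec 3) = q (Cl - Ci) := by
    rw [map_sub, qCi, qCl]
    exact (alg3 (a := fun s => q (ea s)) (w := fun s => q (ew s)) (c := fun s => q (ec s))
      hk w3 w4 c4).symm
  have s3' : q Cl = q Ci + q (ec 3) := by rw [s3, map_sub]; ring
  have qXi : q Xi = q ek * (q (ea 5) + q el * q (ea 6)) + q ez * q Ci := by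
    rw [hA 5 (by decide), hA 6 (by decide), hXi]
    simp only [map_add, map_mul]
  have qXl : q Xl = q ek * (q (ew 5) + q el * q (ew 6)) + q ez * q Cl := by
    rw [hV 5 (by decide), hV 6 (by decide), hXl]
    simp only [map_add, map_mul]
  have s5 : q (ec 5) = q (Xl - Xi) := by
    rw [map_sub, qXi, qXl, qCi, qCl]
    exact (alg5 (a := fun s => q (ea s)) (w := fun s => q (ew s)) (c := fun s => q (ec s))
      hk w3 w4 w5 w6 c4 c6).symm
  have qHi : q Hi = q ek * q (ea 9) + q ez * (q Ci * q Ci) * q eh := by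
    rw [hA 9 (by decide), hHi]
    simp only [map_add, map_mul]
  have qHl : q Hl = q ek * q (ew 9) + q ez * (q Cl * q Cl) * q eh := by
    rw [hV 9 (by decide), hHl]
    simp only [map_add, map_mul]
  have s9 : (1 + q el * q el) * (q Hl - q Hi - q Ci * q (ec 5)) = q (ec 9) := by
    rw [qHl, qHi]
    exact alg9 (a := fun s => q (ea s)) (w := fun s => q (ew s)) (c := fun s => q (ec s))
      hk hh w3 w4 w5 w6 w9 c4 c6 qCi s3'
  have f9 : q (ec 9) = q ((1 + el * el) * (Hl - Hi - Ci * (Xl - Xi))) := by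
    rw [map_mul, map_sub q (Hl - Hi), map_mul q Ci, ← s5, map_sub, map_add, map_mul, map_one]
    exact s9.symm
  have f7 : q (ec 7 + el * ec 8) = q ((eV 7 + el * eV 8) - (eA 7 + el * eA 8) -
      (1 + el * el) * ea 2 * (Cl - Ci)) := by
    rw [map_sub, map_mul q _ (Cl - Ci), ← s3]
    simp only [map_add, map_sub, map_mul, map_one]
    rw [← hV 7 (by decide), ← hV 8 (by decide), ← hA 7 (by decide), ← hA 8 (by decide)]
    exact (alg7 (a := fun s => q (ea s)) (w := fun s => q (ew s)) (c := fun s => q (ec s))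
      w7 w8 c4).symm
  have f10 : q (ec 10) = q (eV 10 - eA 10 + (eA 7 + el * eA 8) * (Cl - Ci) +
      (1 + el * el) * ea 2 * ((Cl - Ci) * (Cl - Ci)) * eh) := by
    rw [map_add, map_add, map_mul q _ (Cl - Ci), map_mul q _ eh, map_mul q _ ((Cl - Ci) * _),
      map_mul q (Cl - Ci), ← s3]
    simp only [map_add, map_sub, map_mul, map_one]
    rw [← hV 10 (by decide), ← hA 7 (by decide), ← hA 8 (by decide), ← hA 10 (by decide)]
    exact (alg10 (a := fun s => q (ea s)) (w := fun s => q (ew s)) (c := fun s => q (ec s))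
      w10 c4).symm
  have f11 : q (ec 11) = q (((eV 11 + ez * eV 10) - (eA 11 + ez * eA 10)) +
      (eA 7 + el * eA 8) * (Xl - Xi) +
      (1 + el * el) * ea 2 * (Hl - Hi - Ci * (Xl - Xi))) := by
    rw [map_add, map_add, map_mul q _ (Xl - Xi), map_mul q _ (Hl - Hi - _),
      map_sub q (Hl - Hi), map_mul q Ci, ← s5]
    simp only [map_add, map_sub, map_mul, map_one]
    rw [← hV 10 (by decide), ← hV 11 (by decide), ← hA 7 (by decide), ← hA 8 (by decide),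
      ← hA 10 (by decide), ← hA 11 (by decide)]
    exact (alg11 (a := fun s => q (ea s)) (w := fun s => q (ew s)) (c := fun s => q (ec s))
      w10 w11 c6 s9).symm
  refine ⟨hal, ?_, ?_, ?_, ?_, ?_, ?_, ?_, ?_⟩
  · intro ε hε
    filter_upwards [bz ε hε, (ek * (eA 5 + el * eA 6)).2 ε hε, (ek * eA 9).2 ε hε,
      bA 11 ε hε, Ci.2 ε hε, bA 10 ε hε, (eA 7 + el * eA 8).2 ε hε, ba 2 ε hε] with
      n h0 h1 h2 h3 h4 h5 h6 h7
    intro k i hi
    have e := zero_sub ε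
    rw [← e]
    exact ⟨h0 k i i hi hi, h1 k i i hi hi, h2 k i i hi hi, h3 k i i hi hi, h4 k i i hi hi,
      h5 k i i hi hi, h6 k i i hi hi, h7 k i i hi hi⟩
  · intro ε hε
    have w2' : q (ec 2) = q (ew 2 - ea 2) := by rw [map_sub, w2]; ring
    filter_upwards [hE, mk_eq.1 w2' ε hε] with n r h1
    intro k i l hi hl
    show |(W.cfg E n).rel k i l 2 - _| ≤ _
    rw [r.rel_of h2]
    exact h1 k i l hi hl
  · intro ε hε
    filter_upwards [hE, mk_eq.1 s3 ε hε] with n r h1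
    intro k i l hi hl
    show |(W.cfg E n).rel k i l 4 - _| ≤ _
    rw [r.rel_of n4]
    exact h1 k i l hi hl
  · intro ε hε
    filter_upwards [hE, mk_eq.1 s5 ε hε] with n r h1
    intro k i l hi hl
    show |(W.cfg E n).rel k i l 6 - _| ≤ _
    rw [r.rel_of n6]
    exact h1 k i l hi hl
  · intro ε hε
    filter_upwards [hE, mk_eq.1 f9 ε hε] with n r h1
    intro k i l hi hl
    refine le_trans (le_of_eq ?_) (h1 k i l hi hl)
    show |(W.cfg E n).rel k i l 9 - _| = _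
    rw [r.rel_of (h.notS (by decide))]
    congr 1
    simp only [swG_z]
    show _ = W.crd n (W.rep n i k) (W.rep n l k) 9 - (1 + al n * al n) *
      ((gAH W al n l + (W.cfg E n).z k * (gCs W al n l * gCs W al n l) * (1 / 2)) -
        (gAH W al n i + (W.cfg E n).z k * (gCs W al n i * gCs W al n i) * (1 / 2)) -
        gCs W al n i * ((gAXs W al n l + (W.cfg E n).z k * gCs W al n l) -
          (gAXs W al n i + (W.cfg E n).z k * gCs W al n i)))
    ring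
  · intro ε hε
    filter_upwards [hE, mk_eq.1 f7 ε hε] with n r h1
    intro k i l hi hl
    refine le_trans (le_of_eq ?_) (h1 k i l hi hl)
    show |((W.cfg E n).rel k i l 8 + al n * (W.cfg E n).rel k i l 7) - _| = _
    rw [r.rel_of h7, r.rel_of h8]
    congr 1
    show _ = (W.crd n (W.rep n i k) (W.rep n l k) 8 +
      al n * W.crd n (W.rep n i k) (W.rep n l k) 7) -
      (gBs W al n l - gBs W al n i - (1 + al n * al n) * gE W n k i *
        (gCs W al n l - gCs W al n i))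
    ring
  · intro ε hε
    filter_upwards [hE, mk_eq.1 f10 ε hε] with n r h1
    intro k i l hi hl
    refine le_trans (le_of_eq ?_) (h1 k i l hi hl)
    show |(W.cfg E n).rel k i l 10 - _| = _
    rw [r.rel_of (h.notS (by decide))]
    congr 1
    show _ = W.crd n (W.rep n i k) (W.rep n l k) 10 -
      (gv W 10 n l - gv W 10 n i + gBs W al n i * (gCs W al n l - gCs W al n i) +
        (1 + al n * al n) * gE W n k i * ((gCs W al n l - gCs W al n i) *
          (gCs W al n l - gCs W al n i)) * (1 / 2))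
    ring
  · intro ε hε
    filter_upwards [hE, mk_eq.1 f11 ε hε] with n r h1
    intro k i l hi hl
    refine le_trans (le_of_eq ?_) (h1 k i l hi hl)
    show |(W.cfg E n).rel k i l 11 - _| = _
    rw [r.rel_of (h.notS (by decide))]
    congr 1
    simp only [swG_z]
    show _ = W.crd n (W.rep n i k) (W.rep n l k) 11 -
      (((gv W 11 n l + (W.cfg E n).z k * gv W 10 n l) -
        (gv W 11 n i + (W.cfg E n).z k * gv W 10 n i)) +
        gBs W al n i * ((gAXs W al n l + (W.cfg E n).z k * gCs W al n l) -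
          (gAXs W al n i + (W.cfg E n).z k * gCs W al n i)) +
        (1 + al n * al n) * gE W n k i *
        ((gAH W al n l + (W.cfg E n).z k * (gCs W al n l * gCs W al n l) * (1 / 2)) -
        (gAH W al n i + (W.cfg E n).z k * (gCs W al n i * gCs W al n i) * (1 / 2)) -
        gCs W al n i * ((gAXs W al n l + (W.cfg E n).z k * gCs W al n l) -
          (gAXs W al n i + (W.cfg E n).z k * gCs W al n i))))
    ring

end Crest.Agent.R116.Sc299
end

-- ▼ part R116/Sc5m_803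
section

/-!
# R116, SIG2 (sigma = 2), plug, part 1: strips in the models (helper803)

* `addT_of_gc` : the slots `3`, `10` are additive up to the class of the second pair.
* `noStrC_A` : strips of the box `0` ⊢ strips of the box `pA` (708's `noStrC_fan`).
* `strips_A` : the same in global coordinates (708's `strips_glob`).
-/

set_option autoImplicit false
set_option linter.unusedVariables false
set_option linter.unusedSectionVars false

open Filter Topology Finset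

namespace Crest.Agent.R116.Sc5803

open Crest.Agent.R138.Ex926 (Base U)
open Crest.Agent.R136.Gf356
open Crest.Agent.R116.Sc299 (GC)
open Crest.Agent.R116.Sc708

/-- powers -/
theorem pwk (B : Base) (n : ℕ) (t ε : ℝ) (k : ℕ) :
    B.d n ^ (t - k * ε) = B.d n ^ t * (B.d n ^ (-ε)) ^ k := by
  rw [← Real.rpow_natCast (B.d n ^ (-ε)), ← Real.rpow_mul (B.pos n).le,
    ← Real.rpow_add (B.pos n)]
  congr 1; ring

section

variable {B : Base} {G : ℕ → RCfg (Fin 12)} {al : ℕ → ℝ}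
  {AX AH AF C P Bf : ℕ → ℕ → ℝ} {Ef : ℕ → ℕ → ℕ → ℝ} {x : ℝ}

set_option maxHeartbeats 1600000 in
/-- **additivity of the slots `3`, `10`** -/
theorem addT_of_gc (g : GC B G al AX AH AF C P Bf Ef x) (hb : ∀ n, (G n).ρ = B.d n)
    {p0 pC : Fin 12 → ℝ} {t : ℝ} (ht : t ≤ x) (h3 : t ≤ pC 3) : AddT B G p0 pC 3 10 6 t := by
  intro ε hε
  filter_upwards [g.al0 ε hε, g.bd ε hε, g.r3 ε hε, g.r10 ε hε,
    Crest.Agent.R136.Gf356.ev_const_le B hε 22] with n a0 bd r3 r10 h22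
  intro k i l m hi hl hm _ hlm
  have hd := B.pos n
  have hd1 := (B.lt n).le
  set M : ℝ := B.d n ^ (-ε) with hM
  set r : ℝ := B.d n ^ t with hr
  have hr0 : 0 < r := Real.rpow_pos_of_pos hd _
  have hM1 : 22 ≤ M := h22
  have hM0 : 0 < M := by linarith
  have ex : B.d n ^ (x - ε) ≤ r * M := by
    rw [hr, hM, ← Real.rpow_add hd]
    exact Real.rpow_le_rpow_of_exponent_ge hd hd1 (by linarith)
  have ec : |(G n).rel k l m 3| ≤ r * M := by
    refine (hlm 3).trans ?_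
    rw [hb, hr, hM, ← Real.rpow_add hd]
    exact Real.rpow_le_rpow_of_exponent_ge hd hd1 (by linarith)
  have e6 : B.d n ^ (t - 6 * ε) = r * M ^ 6 := by
    have := pwk B n t ε 6
    rw [hr, hM, ← this]
    norm_num
  rw [e6]
  obtain ⟨-, -, -, -, bC, -, bB, bE⟩ := bd k i hi
  obtain ⟨-, -, -, -, bC', -, bB', bE'⟩ := bd k l hl
  obtain ⟨-, -, -, -, bC'', -, -, -⟩ := bd k m hm
  have s1 := (r3 k i m hi hm).trans ex
  have s2 := (r3 k i l hi hl).trans ex
  have s3 := (r3 k l m hl hm).trans ex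
  have t1 := (r10 k i m hi hm).trans ex
  have t2 := (r10 k i l hi hl).trans ex
  have t3 := (r10 k l m hl hm).trans ex
  have hrM : 0 < r * M := mul_pos hr0 hM0
  have m2 : M ≤ M ^ 2 := by nlinarith
  have m3 : M ^ 2 ≤ M ^ 3 := by nlinarith [sq_nonneg M]
  have m4 : M ^ 3 ≤ M ^ 4 := by nlinarith [pow_pos hM0 3]
  have m5 : M ^ 4 ≤ M ^ 5 := by nlinarith [pow_pos hM0 4]
  have m6 : 22 * M ^ 5 ≤ M ^ 6 := by nlinarith [pow_pos hM0 5]
  have m15 : M ≤ M ^ 5 := by linarith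
  have m25 : M ^ 2 ≤ M ^ 5 := by linarith
  constructor
  · have e : (G n).rel k i m 3 - ((G n).rel k i l 3 + (G n).rel k l m 3) =
        ((G n).rel k i m 3 - (C n m - C n i)) - ((G n).rel k i l 3 - (C n l - C n i)) -
          ((G n).rel k l m 3 - (C n m - C n l)) := by ring
    rw [e]
    have w1 := abs_le.1 s1
    have w2 := abs_le.1 s2
    have w3 := abs_le.1 s3
    have : 3 * (r * M) ≤ r * M ^ 6 := by
      have : r * (3 * M) ≤ r * M ^ 6 := mul_le_mul_of_nonneg_left (by linarith [pow_pos hM0 5]) hr0.le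
      linarith
    rw [abs_le]
    constructor <;> linarith [w1.1, w1.2, w2.1, w2.2, w3.1, w3.2]
  · set κ : ℝ := 1 + al n ^ 2 with hκ
    have hκ0 : 0 ≤ κ := by positivity
    have hκM : κ ≤ 2 * M ^ 2 := by
      have h1 : al n ^ 2 ≤ M ^ 2 := by
        rw [← sq_abs]
        exact pow_le_pow_left₀ (abs_nonneg _) a0 2
      have h2 : 1 ≤ M ^ 2 := by nlinarith
      rw [hκ]; linarith
    have hcc : |C n m - C n l| ≤ 2 * (r * M) := by
      have e : C n m - C n l = (G n).rel k l m 3 - ((G n).rel k l m 3 - (C n m - C n l)) := by ring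
      rw [e]
      exact (abs_sub _ _).trans (by linarith)
    have e : (G n).rel k i m 10 - ((G n).rel k i l 10 + (G n).rel k l m 10) =
        (((G n).rel k i m 10 - (P n m - P n i + Bf n i * (C n m - C n i) +
            κ * Ef n k i * (C n m - C n i) ^ 2 / 2)) -
          ((G n).rel k i l 10 - (P n l - P n i + Bf n i * (C n l - C n i) +
            κ * Ef n k i * (C n l - C n i) ^ 2 / 2)) -
          ((G n).rel k l m 10 - (P n m - P n l + Bf n l * (C n m - C n l) +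
            κ * Ef n k l * (C n m - C n l) ^ 2 / 2))) +
        ((Bf n i - Bf n l) + κ / 2 * (Ef n k i * (C n m + C n l - 2 * C n i) -
          Ef n k l * (C n m - C n l))) * (C n m - C n l) := by ring
    rw [e]
    have c1 : |Bf n i - Bf n l| ≤ 2 * M := (abs_sub _ _).trans (by linarith)
    have c2 : |C n m + C n l - 2 * C n i| ≤ 4 * M := by
      have w1 := abs_le.1 bC
      have w2 := abs_le.1 bC'
      have w3 := abs_le.1 bC''
      rw [abs_le]; constructor <;> linarith [w1.1, w1.2, w2.1, w2.2, w3.1, w3.2]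
    have c3 : |C n m - C n l| ≤ 2 * M := (abs_sub _ _).trans (by linarith)
    have c4 : |Ef n k i * (C n m + C n l - 2 * C n i) - Ef n k l * (C n m - C n l)| ≤
        6 * M ^ 2 := by
      refine (abs_sub _ _).trans ?_
      rw [abs_mul, abs_mul]
      have u1 := mul_le_mul bE c2 (abs_nonneg _) hM0.le
      have u2 := mul_le_mul bE' c3 (abs_nonneg _) hM0.le
      nlinarith
    have c5 : |κ / 2 * (Ef n k i * (C n m + C n l - 2 * C n i) -
        Ef n k l * (C n m - C n l))| ≤ 6 * M ^ 4 := by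
      rw [abs_mul, abs_of_nonneg (by positivity : 0 ≤ κ / 2)]
      calc κ / 2 * _ ≤ (M ^ 2) * (6 * M ^ 2) :=
            mul_le_mul (by linarith) c4 (abs_nonneg _) (by positivity)
        _ = 6 * M ^ 4 := by ring
    have c6 : |((Bf n i - Bf n l) + κ / 2 * (Ef n k i * (C n m + C n l - 2 * C n i) -
          Ef n k l * (C n m - C n l))) * (C n m - C n l)| ≤ 16 * (r * M ^ 5) := by
      rw [abs_mul]
      have u1 : |(Bf n i - Bf n l) + κ / 2 * (Ef n k i * (C n m + C n l - 2 * C n i) -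
          Ef n k l * (C n m - C n l))| ≤ 8 * M ^ 4 := (abs_add_le _ _).trans (by linarith)
      calc _ ≤ (8 * M ^ 4) * (2 * (r * M)) :=
            mul_le_mul u1 hcc (abs_nonneg _) (by positivity)
        _ = 16 * (r * M ^ 5) := by ring
    have k1 : 3 * (r * M) ≤ 3 * (r * M ^ 5) := by
      have := mul_le_mul_of_nonneg_left m15 hr0.le
      linarith
    have k2 : 22 * (r * M ^ 5) ≤ r * M ^ 6 := by
      have := mul_le_mul_of_nonneg_left m6 hr0.le
      linarith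
    have hp5 : 0 < r * M ^ 5 := mul_pos hr0 (pow_pos hM0 5)
    have w1 := abs_le.1 t1
    have w2 := abs_le.1 t2
    have w3 := abs_le.1 t3
    have w4 := abs_le.1 c6
    rw [abs_le]
    constructor <;> linarith [w1.1, w1.2, w2.1, w2.2, w3.1, w3.2, w4.1, w4.2]

variable {Leg : Set (Fin 12 → ℝ)} {ν : (Fin 12 → ℝ) → ℝ} {D : ℝ}

/-- **strips of the box `0` ⊢ strips of the box `pA`** -/
theorem noStrC_A (H : RUnif B G Leg ν D) (g : GC B G al AX AH AF C P Bf Ef x)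
    {pA : Fin 12 → ℝ} {pC pAC : ℝ → Fin 12 → ℝ} {q R0 R1 : ℝ}
    (h0 : (0 : Fin 12 → ℝ) ∈ Leg) (hA : pA ∈ Leg) (hC : ∀ t, 0 < t → t ≤ R1 → pC t ∈ Leg)
    (hAC : ∀ t, 0 < t → t ≤ R1 → pAC t ∈ Leg)
    (hC0 : ∀ t, 0 < t → t ≤ R1 → ∀ s, 0 ≤ pC t s) (hA0 : ∀ s, 0 ≤ pA s)
    (h3 : ∀ t, 0 < t → t ≤ R1 → t ≤ pC t 3) (h10 : ∀ t, 0 < t → t ≤ R1 → t ≤ pC t 10)
    (hmax : ∀ t, 0 < t → t ≤ R1 → ∀ s, pAC t s ≤ max (pC t s) (pA s))
    (hN : NoStrC B G 0 3 10 ν q R0) (hRR : R1 ≤ R0) (hRx : R1 ≤ x)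
    (hprod : ∀ t, 0 < t → t ≤ R1 → ν 0 - ν (pC t) ≤ ν pA - ν (pAC t)) :
    NoStrC B G pA 3 10 ν q R1 :=
  noStrC_fan H h0 hA hC hAC (fun t h1 h2 s => hC0 t h1 h2 s) (fun s => hA0 s) h3 h10
    (hA0 3) hmax (by norm_num : (0 : ℝ) < 6) hN hRR
    (fun t h1 h2 => addT_of_gc g H.base (h2.trans hRx) (h3 t h1 h2)) hprod

/-- **curved strips in global coordinates** -/
theorem strips_A (H : RUnif B G Leg ν D) (g : GC B G al AX AH AF C P Bf Ef x)
    {El : ℕ → ℕ → ℝ} (hE : ∀ ε : ℝ, 0 < ε → ∀ᶠ n in (U : Filter ℕ), ∀ k l,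
      (l, k) ∈ (G n).I → |Ef n k l - El n l| ≤ B.d n ^ (x - ε))
    {pA : Fin 12 → ℝ} {q R1 : ℝ} (hx : 0 ≤ x)
    (hA : pA ∈ Leg) (hA0 : 0 ≤ pA 3) (hRx : R1 ≤ x) (hN : NoStrC B G pA 3 10 ν q R1) :
    ∃ K : ℝ, 0 ≤ K ∧ ∀ r : ℝ, 0 < r → r ≤ R1 → ∀ ε : ℝ, 0 < ε → ∀ᶠ n in (U : Filter ℕ),
      ∀ i k, (i, k) ∈ (G n).I → ∀ e b u : ℝ, |e| ≤ B.d n ^ (-ε) → |b| ≤ B.d n ^ (-ε) →
      ((((G n).box pA ε i k).filter fun l =>
        |P n l + e * C n l ^ 2 / 2 + b * C n l - u| ≤ B.d n ^ r).card : ℝ) ≤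
        B.d n ^ (-(ν pA) + q * r - K * ε) := by
  classical
  have key := strips_glob H hA hA0 hRx (by norm_num : (0 : ℝ) ≤ 6) hN C P Bf
    (fun n i => (1 + al n ^ 2) / 2 * El n i) ?_ ?_
  · convert key
  · intro ε hε
    have hε4 : 0 < ε / 4 := by positivity
    filter_upwards [g.al0 _ hε4, g.bd _ hε4, hE _ hε4, g.bd _ hε,
      Crest.Agent.R136.Gf356.ev_const_le B hε4 2] with n a0 bd he bdε h2
    intro i k hi
    obtain ⟨-, -, -, -, bC, -, bB, -⟩ := bdε k i hi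
    obtain ⟨-, -, -, -, -, -, -, bE⟩ := bd k i hi
    refine ⟨bC, bB, ?_⟩
    have hd := B.pos n
    set M : ℝ := B.d n ^ (-(ε / 4)) with hM
    have hM0 : 0 < M := by linarith
    have e4 : B.d n ^ (-ε) = M ^ 4 := by
      have := pwk B n 0 (ε / 4) 4
      rw [Real.rpow_zero, one_mul] at this
      rw [hM, ← this]
      congr 1; push_cast; ring
    rw [e4]
    have hEl : |El n i| ≤ 2 * M := by
      have h1 := he k i hi
      have h3 : B.d n ^ (x - ε / 4) ≤ M := by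
        rw [hM]
        exact Real.rpow_le_rpow_of_exponent_ge hd (B.lt n).le (by linarith)
      have e : El n i = Ef n k i - (Ef n k i - El n i) := by ring
      rw [e]
      exact (abs_sub _ _).trans (by linarith)
    have hκ : (1 + al n ^ 2) / 2 ≤ M ^ 2 := by
      have h1 : al n ^ 2 ≤ M ^ 2 := by
        rw [← sq_abs]
        exact pow_le_pow_left₀ (abs_nonneg _) a0 2
      have h2 : 1 ≤ M ^ 2 := by nlinarith
      linarith
    rw [abs_mul, abs_of_nonneg (by positivity : 0 ≤ (1 + al n ^ 2) / 2)]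
    calc (1 + al n ^ 2) / 2 * |El n i| ≤ M ^ 2 * (2 * M) :=
          mul_le_mul hκ hEl (abs_nonneg _) (by positivity)
      _ = 2 * M ^ 3 := by ring
      _ ≤ M * M ^ 3 := mul_le_mul_of_nonneg_right h2 (by positivity)
      _ = M ^ 4 := by ring
  · intro ε hε
    filter_upwards [g.al0 _ hε, g.bd _ hε, hE _ hε, g.r3 _ hε, g.r10 _ hε,
      Crest.Agent.R136.Gf356.ev_const_le B hε 5] with n a0 bd he r3 r10 h5
    intro i k l hi hl
    have hd := B.pos n
    have hd1 := (B.lt n).le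
    set M : ℝ := B.d n ^ (-ε) with hM
    set r : ℝ := B.d n ^ x with hr
    have hr0 : 0 < r := Real.rpow_pos_of_pos hd _
    have hM0 : 0 < M := by linarith
    have e1 : B.d n ^ (x - ε) = r * M := by
      rw [hr, hM, ← Real.rpow_add hd]; congr 1
    have e6 : B.d n ^ (x - 6 * ε) = r * M ^ 6 := by
      have := pwk B n x ε 6
      rw [hr, hM, ← this]
      norm_num
    obtain ⟨-, -, -, -, bC, -, -, -⟩ := bd k i hi
    obtain ⟨-, -, -, -, bC', -, -, -⟩ := bd k l hl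
    have s1 := r3 k i l hi hl
    have s2 := r10 k i l hi hl
    have s3 := he k i hi
    rw [e1] at s1 s2 s3
    rw [e6]
    have m1 : 1 ≤ M := by linarith
    have m6 : M ≤ M ^ 6 := le_self_pow₀ m1 (by norm_num)
    have m56 : 5 * M ^ 5 ≤ M ^ 6 := by nlinarith [pow_pos hM0 5]
    have m15 : M ≤ M ^ 5 := le_self_pow₀ m1 (by norm_num)
    refine ⟨s1.trans (mul_le_mul_of_nonneg_left m6 hr0.le), ?_⟩
    have hκ : (1 + al n ^ 2) / 2 ≤ M ^ 2 := by
      have h1 : al n ^ 2 ≤ M ^ 2 := by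
        rw [← sq_abs]
        exact pow_le_pow_left₀ (abs_nonneg _) a0 2
      have h2 : 1 ≤ M ^ 2 := by nlinarith
      linarith
    have hcc : (C n l - C n i) ^ 2 ≤ 4 * M ^ 2 := by
      have h1 : |C n l - C n i| ≤ 2 * M := (abs_sub _ _).trans (by linarith)
      rw [← sq_abs]
      calc |C n l - C n i| ^ 2 ≤ (2 * M) ^ 2 := pow_le_pow_left₀ (abs_nonneg _) h1 2
        _ = 4 * M ^ 2 := by ring
    have e : (G n).rel k i l 10 - ((P n l - P n i) + Bf n i * (C n l - C n i) +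
        (1 + al n ^ 2) / 2 * El n i * (C n l - C n i) ^ 2) =
        ((G n).rel k i l 10 - (P n l - P n i + Bf n i * (C n l - C n i) +
          (1 + al n ^ 2) * Ef n k i * (C n l - C n i) ^ 2 / 2)) +
        (1 + al n ^ 2) / 2 * ((Ef n k i - El n i) * (C n l - C n i) ^ 2) := by ring
    rw [e]
    have c1 : |(1 + al n ^ 2) / 2 * ((Ef n k i - El n i) * (C n l - C n i) ^ 2)| ≤
        4 * (r * M ^ 5) := by
      rw [abs_mul, abs_mul, abs_of_nonneg (by positivity : 0 ≤ (1 + al n ^ 2) / 2),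
        abs_of_nonneg (sq_nonneg (C n l - C n i))]
      have u1 : |Ef n k i - El n i| * (C n l - C n i) ^ 2 ≤ (r * M) * (4 * M ^ 2) :=
        mul_le_mul s3 hcc (sq_nonneg _) (by positivity)
      calc (1 + al n ^ 2) / 2 * (|Ef n k i - El n i| * (C n l - C n i) ^ 2) ≤
            M ^ 2 * ((r * M) * (4 * M ^ 2)) :=
            mul_le_mul hκ u1 (mul_nonneg (abs_nonneg _) (sq_nonneg _)) (by positivity)
        _ = 4 * (r * M ^ 5) := by ring
    have k1 : r * M ≤ r * M ^ 5 := mul_le_mul_of_nonneg_left m15 hr0.le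
    have k2 : 5 * (r * M ^ 5) ≤ r * M ^ 6 := by
      have := mul_le_mul_of_nonneg_left m56 hr0.le
      linarith
    refine (abs_add_le _ _).trans ?_
    linarith

end

end Crest.Agent.R116.Sc5803
end

-- ▼ part R116/Sc5n_803
section

/-!
# R116, SIG2 (sigma = 2), plug, part 2: the two orientations (helper803)

* `RUnif.swp`, `RModel.swp`, `NoStrC.swp` : the models with exchanged slots (299's `swG`).
* `thin3`, `thin4` : 954's `ThinU` ⊢ 710's `Thin` for `G`, resp. for `swG G`.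
-/

set_option autoImplicit false
set_option linter.unusedVariables false
set_option linter.unusedSectionVars false

open Filter Topology Finset

namespace Crest.Agent.R116.Sc5803

open Crest.Agent.R138.Ex926 (Base U)
open Crest.Agent.R136.Gf356
open Crest.Agent.R116.Sc299 (GC swf swf_swf swG swG_rel)
open Crest.Agent.R116.Sc708
open Crest.Agent.R116.Kr710 (Thin ThinU)

/-- exchanged exponents -/
def swe (p : Fin 12 → ℝ) : Fin 12 → ℝ := fun s => p (swf s)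


theorem loose_swp (G : RCfg (Fin 12)) (p : Fin 12 → ℝ) (ε : ℝ) (k i l : ℕ) :
    (swG G).loose p ε k i l ↔ G.loose (swe p) ε k i l := by
  constructor
  · intro h j
    have := h (swf j)
    rw [swG_rel, swf_swf] at this
    exact this
  · intro h j
    have := h (swf j)
    unfold swe at this
    rw [swf_swf] at this
    exact this

theorem slice_swp (G : RCfg (Fin 12)) (k : ℕ) : (swG G).slice k = G.slice k := rfl

theorem box_swp (G : RCfg (Fin 12)) (p : Fin 12 → ℝ) (ε : ℝ) (i k : ℕ) :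
    (swG G).box p ε i k = G.box (swe p) ε i k := by
  ext l
  rw [RCfg.mem_box, RCfg.mem_box, loose_swp, slice_swp]

section models

variable {B : Base} {G : ℕ → RCfg (Fin 12)} {Leg : Set (Fin 12 → ℝ)} {ν : (Fin 12 → ℝ) → ℝ}
  {σ R D : ℝ}

theorem RUnif.swp (H : RUnif B G Leg ν D) :
    RUnif B (fun n => swG (G n)) {p | swe p ∈ Leg} (fun p => ν (swe p)) D where
  D1 := H.D1
  base := H.base
  sub := H.sub
  nonempty := H.nonempty
  refl := fun n k i hi j => H.refl n k i hi (swf j)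
  symm := by
    intro p hp ε hε
    filter_upwards [H.symm (swe p) hp ε hε] with n h k i l hi hl h1
    exact (loose_swp _ _ _ _ _ _).2 (h k i l hi hl ((loose_swp _ _ _ _ _ _).1 h1))
  tri := by
    intro p hp ε hε
    filter_upwards [H.tri (swe p) hp ε hε] with n h k i l m hi hl hm h1 h2
    exact (loose_swp _ _ _ _ _ _).2 (h k i l m hi hl hm ((loose_swp _ _ _ _ _ _).1 h1)
      ((loose_swp _ _ _ _ _ _).1 h2))
  low := by
    intro p hp ε hε
    filter_upwards [H.low (swe p) hp ε hε] with n h i k hi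
    rw [box_swp]
    exact h i k hi
  up := by
    intro p hp ε hε
    filter_upwards [H.up (swe p) hp ε hε] with n h i k hi
    rw [box_swp]
    exact h i k hi

/-- **the model with exchanged slots** -/
theorem RModel.swp (H : RModel B G σ R Leg ν D) :
    RModel B (fun n => swG (G n)) σ R {p | swe p ∈ Leg} (fun p => ν (swe p)) D where
  toRUnif := RUnif.swp H.toRUnif
  σ_nonneg := H.σ_nonneg
  σ_le := H.σ_le
  line := H.line
  slice := H.slice
  frost := H.frost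

/-- strips of the slots `4`, `10` become strips of the slots `3`, `10` -/
theorem NoStrC.swp {q R0 : ℝ} (h : NoStrC B G 0 4 10 ν q R0) :
    NoStrC B (fun n => swG (G n)) 0 3 10 (fun p => ν (swe p)) q R0 := by
  obtain ⟨K, hK, h⟩ := h
  refine ⟨K, hK, fun t ht htR ε hε => ?_⟩
  filter_upwards [h t ht htR ε hε] with n hn i k hik b g hb hg
  have e : (swG (G n)).box 0 ε i k = (G n).box 0 ε i k := box_swp _ _ _ _ _
  have := hn i k hik b g hb hg
  rw [← e] at this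
  exact this

/-- **live slots `3, 5, 7`** -/
theorem thin3 {S : Finset (Fin 12)} {b : ℕ → Fin 2 → ℝ} {x c : ℝ} (hc : 0 < c)
    (T : ThinU B G b x) (hb : ∀ᶠ n in (U : Filter ℕ), c ≤ |b n 1|) :
    Thin B G S (fun n => -(b n 0) / b n 1) x where
  bd := by
    intro ε hε
    filter_upwards [hb, T.one, Crest.Agent.R136.Gf356.ev_const_le B hε c⁻¹] with n h1 h2 h3
    have hb0 : |b n 0| ≤ 1 := by
      rw [← sq_le_one_iff_abs_le_one]; nlinarith [sq_nonneg (b n 1)]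
    rw [abs_div, abs_neg]
    have hb1 : 0 < |b n 1| := lt_of_lt_of_le hc h1
    refine le_trans ?_ h3
    rw [div_le_iff₀ hb1]
    have : 1 ≤ c⁻¹ * |b n 1| := by
      rw [inv_mul_eq_div, le_div_iff₀ hc]; linarith
    linarith
  tc := fun ε hε => thin_aux hc hb (fun ε hε => T.tc ε hε) ε hε
  tx := fun ε hε => thin_aux hc hb (fun ε hε => T.tx ε hε) ε hε
  tb := fun ε hε => thin_aux hc hb (fun ε hε => T.tb ε hε) ε hε
where
  thin_aux {B : Base} {G : ℕ → RCfg (Fin 12)} {b : ℕ → Fin 2 → ℝ} {x c : ℝ} (hc : 0 < c)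
    (hb : ∀ᶠ n in (U : Filter ℕ), c ≤ |b n 1|) {s s' : Fin 12}
    (h : ∀ ε : ℝ, 0 < ε → ∀ᶠ n in (U : Filter ℕ), ∀ k i l, (i, k) ∈ (G n).I →
      (l, k) ∈ (G n).I →
      |b n 0 * (G n).rel k i l s + b n 1 * (G n).rel k i l s'| ≤ B.d n ^ (x - ε))
    (ε : ℝ) (hε : 0 < ε) : ∀ᶠ n in (U : Filter ℕ), ∀ k i l, (i, k) ∈ (G n).I →
      (l, k) ∈ (G n).I →
      |(G n).rel k i l s' - -(b n 0) / b n 1 * (G n).rel k i l s| ≤ B.d n ^ (x - ε) := by
    filter_upwards [hb, h (ε / 2) (by positivity),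
      Crest.Agent.R136.Gf356.ev_const_le B (half_pos hε) c⁻¹] with n h1 h2 h3 k i l hi hl
    have hb1 : 0 < |b n 1| := lt_of_lt_of_le hc h1
    have hb1' : b n 1 ≠ 0 := by
      intro h0; rw [h0, abs_zero] at hb1; exact lt_irrefl _ hb1
    have e : (G n).rel k i l s' - -(b n 0) / b n 1 * (G n).rel k i l s =
        (b n 1)⁻¹ * (b n 0 * (G n).rel k i l s + b n 1 * (G n).rel k i l s') := by
      field_simp
      ring
    rw [e, abs_mul, abs_inv]
    have h5 : |b n 1|⁻¹ ≤ c⁻¹ := inv_anti₀ hc h1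
    calc |b n 1|⁻¹ * |b n 0 * (G n).rel k i l s + b n 1 * (G n).rel k i l s'| ≤
          B.d n ^ (-(ε / 2)) * B.d n ^ (x - ε / 2) :=
          mul_le_mul (h5.trans h3) (h2 k i l hi hl) (abs_nonneg _)
            (Real.rpow_pos_of_pos (B.pos n) _).le
      _ = _ := by rw [← Real.rpow_add (B.pos n)]; congr 1; ring

/-- exchanged dead direction -/
def swb (b : ℕ → Fin 2 → ℝ) : ℕ → Fin 2 → ℝ := fun n => ![b n 1, b n 0]

/-- the thin structure of the exchanged configuration -/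
theorem thinU_swp {b : ℕ → Fin 2 → ℝ} {x : ℝ} (T : ThinU B G b x) :
    ThinU B (fun n => swG (G n)) (swb b) x where
  one := by
    filter_upwards [T.one] with n h
    show b n 1 ^ 2 + b n 0 ^ 2 = 1
    linarith
  tc := fun ε hε => by
    filter_upwards [T.tc ε hε] with n h k i l hi hl
    have := h k i l hi hl
    rw [add_comm] at this
    exact this
  tx := fun ε hε => by
    filter_upwards [T.tx ε hε] with n h k i l hi hl
    have := h k i l hi hl
    rw [add_comm] at this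
    exact this
  tb := fun ε hε => by
    filter_upwards [T.tb ε hε] with n h k i l hi hl
    have := h k i l hi hl
    rw [add_comm] at this
    exact this

/-- **live slots `4, 6, 8`** -/
theorem thin4 {S : Finset (Fin 12)} {b : ℕ → Fin 2 → ℝ} {x c : ℝ} (hc : 0 < c)
    (T : ThinU B G b x) (hb : ∀ᶠ n in (U : Filter ℕ), c ≤ |b n 0|) :
    Thin B (fun n => swG (G n)) S (fun n => -(b n 1) / b n 0) x :=
  thin3 hc (thinU_swp T) hb

end models

/-- the dead direction along the axes -/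
theorem tau_big {l : Crest.Agent.R116.ChL222.LInc} {a b : Fin 2} (hab : a ≠ b)
    (ha : |Xd954.bb l a| ≤ 2) (hb : 1 / 2 ≤ |Xd954.bb l b|) : 1 / 9 ≤ |Xd954.tau l b| := by
  have hs : Xd954.bb l 0 ^ 2 + Xd954.bb l 1 ^ 2 = Xd954.bb l a ^ 2 + Xd954.bb l b ^ 2 := by
    fin_cases a <;> fin_cases b
    · exact absurd rfl hab
    · rfl
    · show _ = Xd954.bb l 1 ^ 2 + Xd954.bb l 0 ^ 2
      ring
    · exact absurd rfl hab
  unfold Xd954.tau
  rw [hs]
  set A := |Xd954.bb l a| with hA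
  set Bb := |Xd954.bb l b| with hB
  have hA2 : Xd954.bb l a ^ 2 = A ^ 2 := (sq_abs _).symm
  have hB2 : Xd954.bb l b ^ 2 = Bb ^ 2 := (sq_abs _).symm
  rw [hA2, hB2, abs_div]
  have hA0 : 0 ≤ A := abs_nonneg _
  have hB0 : 0 < Bb := by linarith
  have hsq : Real.sqrt (A ^ 2 + Bb ^ 2) ≤ 9 * Bb := by
    rw [Real.sqrt_le_left (by positivity)]
    nlinarith
  have hsp : 0 < Real.sqrt (A ^ 2 + Bb ^ 2) := Real.sqrt_pos.2 (by positivity)
  rw [abs_of_pos hsp, ← hB, le_div_iff₀ hsp]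
  linarith

end Crest.Agent.R116.Sc5803
end

-- ▼ part R116/Sc5a_803
section

/-!
# R116, SIG2 (sigma = 2), plug, part 3: the window (helper803)

* `Sig2M` : the statement of `sig2_model` (905, 299, 858, 748), the only binder.
* `sig2_core` : one orientation.
* **`sig2_win`** : a tangent at a natural moving base point, slot `D` frozen:
  `σ t ≤ 2 (lam (t; C, B) ...)`.
-/

set_option autoImplicit false
set_option linter.unusedVariables false
set_option linter.unusedSectionVars false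

open Filter Topology Finset

namespace Crest.Agent.R116.Sc5803

open Crest.Agent.R138.Ex926
open Crest.Agent.R136.Net191 Crest.Agent.R136.Qg926 Crest.Agent.R136.Gf356
open Crest.Agent.R136.NSt107 (rich eok_rich LineC)
open Crest.Agent.R116.ChL222 Crest.Agent.R116.PL504 Crest.Agent.R116.EvL504
open Crest.Agent.R116.WinU954 Crest.Agent.R116.WinG954 Crest.Agent.R116.ThinD954
open Crest.Agent.R116.Sg337 (bx9)
open Crest.Agent.R116.Kr710 (Thin ThinU)
open Crest.Agent.R116.Sc299 (GC swf swG pJ JC JA JH JF gv gE gE_line gc_of gc_of_sw gAX gAH gC gB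
  gAXs gCs gBs)
open Crest.Agent.R116.Sc708 (NoStrC NsWc noStrC_win)
open Crest.Agent.R116.Kz710 (FlagDz winG_thin)

/-! ### the binder -/

/-- **`sig2_model`** (905's literal 20470) -/
def Sig2M : Prop :=
  ∀ (B : Base) (G : ℕ → RCfg (Fin 12)) (σ R : ℝ) (Leg : Set (Fin 12 → ℝ))
    (ν : (Fin 12 → ℝ) → ℝ) (D : ℝ) (al : ℕ → ℝ) (AX AH AF C P Bf : ℕ → ℕ → ℝ)
    (Ef : ℕ → ℕ → ℕ → ℝ) (S : Finset (Fin 12)) (x q R1 : ℝ),
    RModel B G σ R Leg ν D → GC B G al AX AH AF C P Bf Ef x → Thin B G S al x →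
    (∀ ε : ℝ, 0 < ε → ∀ᶠ n in (U : Filter ℕ), ∀ k i l, (i, k) ∈ (G n).I →
      (l, k) ∈ (G n).I → (G n).loose 0 ε k i l) →
    0 < x → x ≤ R → (0 : Fin 12 → ℝ) ∈ Leg → pJ JC x ∈ Leg → pJ JA x ∈ Leg → pJ JH x ∈ Leg →
    pJ JF x ∈ Leg → ν 0 - ν (pJ JC x) ≤ ν (pJ JA x) - ν (pJ JF x) →
    0 < q → 0 < R1 → R1 ≤ x → NoStrC B G 0 3 10 ν q R1 →
    (∃ K : ℝ, 0 ≤ K ∧ ∀ r : ℝ, 0 < r → r ≤ R1 → ∀ ε : ℝ, 0 < ε → ∀ᶠ n in (U : Filter ℕ),
      ∀ i k, (i, k) ∈ (G n).I → ∀ e b u : ℝ, |e| ≤ B.d n ^ (-ε) → |b| ≤ B.d n ^ (-ε) →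
      ((((G n).box (pJ JA x) ε i k).filter fun l =>
        |P n l + e * C n l ^ 2 / 2 + b * C n l - u| ≤ B.d n ^ r).card : ℝ) ≤
        B.d n ^ (-(ν (pJ JA x)) + q * r - K * ε)) →
    σ * x ≤ 2 * (ν (pJ JC x) - ν (pJ JH x)) - (ν 0 - ν (pJ JA x))

/-! ### boxes -/

theorem pJC_eq (x : ℝ) : pJ JC x = bx9 0 0 0 x 0 x 0 0 0 := by
  funext j; fin_cases j <;> rfl

theorem pJA_eq (x : ℝ) : pJ JA x = bx9 0 0 0 0 x 0 x 0 x := by
  funext j; fin_cases j <;> rfl

theorem pJH_eq (x : ℝ) : pJ JH x = bx9 0 0 0 x 0 x x 0 x := by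
  funext j; fin_cases j <;> rfl

theorem pJF_eq (x : ℝ) : pJ JF x = bx9 0 0 0 x x x x 0 x := by
  funext j; fin_cases j <;> rfl

theorem zero_eq : (0 : Fin 12 → ℝ) = bx9 0 0 0 0 0 0 0 0 0 := by
  funext j; fin_cases j <;> rfl

/-- the class of `C`, `P` -/
def pCP (y : ℝ) : Fin 12 → ℝ := bx9 0 0 0 y 0 0 0 y 0

/-- cells and the class of `C`, `P` -/
def pACP (x y : ℝ) : Fin 12 → ℝ := bx9 0 0 0 y x 0 x y x

theorem swe_bx (z D E C X B H P F : ℝ) : swe (bx9 z D E C X B H P F) = bx9 z D E C X B H P F := by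
  funext j; fin_cases j <;> rfl

/-! ### one orientation -/

/-- **one orientation** -/
theorem sig2_core (hM : Sig2M) {B : Base} {G : ℕ → RCfg (Fin 12)} {σ R : ℝ}
    {Leg : Set (Fin 12 → ℝ)} {ν : (Fin 12 → ℝ) → ℝ} {D : ℝ} {al : ℕ → ℝ}
    {AX AH AF C P Bf : ℕ → ℕ → ℝ} {Ef : ℕ → ℕ → ℕ → ℝ} {S : Finset (Fin 12)} {x q R0 : ℝ}
    (H : RModel B G σ R Leg ν D) (g : GC B G al AX AH AF C P Bf Ef x) (T : Thin B G S al x)
    (hall : ∀ ε : ℝ, 0 < ε → ∀ᶠ n in (U : Filter ℕ), ∀ k i l, (i, k) ∈ (G n).I →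
      (l, k) ∈ (G n).I → (G n).loose 0 ε k i l)
    {El : ℕ → ℕ → ℝ} (hE : ∀ ε : ℝ, 0 < ε → ∀ᶠ n in (U : Filter ℕ), ∀ k l,
      (l, k) ∈ (G n).I → |Ef n k l - El n l| ≤ B.d n ^ (x - ε))
    (hx : 0 < x) (hxR : x ≤ R) (l0 : (0 : Fin 12 → ℝ) ∈ Leg) (lC : pJ JC x ∈ Leg)
    (lA : pJ JA x ∈ Leg) (lH : pJ JH x ∈ Leg) (lF : pJ JF x ∈ Leg)
    (lCP : ∀ y, 0 < y → y ≤ x → pCP y ∈ Leg) (lACP : ∀ y, 0 < y → y ≤ x → pACP x y ∈ Leg)
    (hplat : ν 0 - ν (pJ JC x) ≤ ν (pJ JA x) - ν (pJ JF x))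
    (hprod : ∀ y, 0 < y → y ≤ x → ν 0 - ν (pCP y) ≤ ν (pJ JA x) - ν (pACP x y))
    (hq : 0 < q) (hR0 : 0 < R0) (hN : NoStrC B G 0 3 10 ν q R0) :
    σ * x ≤ 2 * (ν (pJ JC x) - ν (pJ JH x)) - (ν 0 - ν (pJ JA x)) := by
  set R1 := min R0 x with hR1
  have hR10 : 0 < R1 := lt_min hR0 hx
  have hR1x : R1 ≤ x := min_le_right _ _
  have hR1R : R1 ≤ R0 := min_le_left _ _
  have hA : NoStrC B G (pJ JA x) 3 10 ν q R1 := by
    refine noStrC_A H.toRUnif g (pC := pCP) (pAC := pACP x) l0 lA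
      (fun y h1 h2 => lCP y h1 (h2.trans hR1x)) (fun y h1 h2 => lACP y h1 (h2.trans hR1x))
      (fun y h1 _ s => ?_) (fun s => ?_) (fun y _ _ => le_rfl) (fun y _ _ => le_rfl)
      (fun y h1 _ s => ?_) hN hR1R hR1x (fun y h1 h2 => hprod y h1 (h2.trans hR1x))
    · unfold pCP bx9
      fin_cases s <;> simp [h1.le]
    · rw [pJA_eq]
      unfold bx9
      fin_cases s <;> simp [hx.le]
    · rw [pJA_eq]
      unfold pCP pACP bx9
      fin_cases s <;> simp [h1.le, hx.le]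
  have hstr := strips_A H.toRUnif g hE hx.le lA (by rw [pJA_eq]; exact le_rfl) hR1x hA
  refine hM B G σ R Leg ν D al AX AH AF C P Bf Ef S x q R1 H g T hall hx hxR l0 lC lA lH lF
    hplat hq hR10 hR1x ?_ hstr
  obtain ⟨K, hK, h⟩ := hN
  exact ⟨K, hK, fun t ht htR => h t ht (htR.trans hR1R)⟩

/-! ### windows -/

section win

/-- all pairs of a window model are loose of exponent `0` -/
theorem hall_of {W : Wnd 12 (fun _ : ℕ => ℕ × ℝ)} {K tp : ℝ} (h : WL W K tp)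
    {E : ℕ → Finset (ℕ × ℝ)} (hr : ∀ᶠ n in (U : Filter ℕ), Reg W E n)
    (hb : ∀ n, (W.cfg E n).ρ = W.B'.d n) {ε : ℝ} (hε : 0 < ε) :
    ∀ᶠ n in (U : Filter ℕ), ∀ k i l, (i, k) ∈ (W.cfg E n).I → (l, k) ∈ (W.cfg E n).I →
      (W.cfg E n).loose 0 ε k i l := by
  filter_upwards [hr] with n r k i l hi hl j
  refine (r.rel_le h hi hl j).trans ?_
  rw [hb]
  refine Real.one_le_rpow_of_pos_of_le_one_of_nonpos (W.B'.pos n) (W.B'.lt n).le ?_
  show (0 : ℝ) - ε ≤ 0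
  linarith

variable {B : Base} {I J : ℕ → Finset (ℕ × ℝ)}
  {co : ∀ n : ℕ, ℕ × ℝ → ℕ × ℝ → Fin 12 → ℝ} {C : ℝ} {D : Set (Fin 12 → ℝ)}
  {ν lam : (Fin 12 → ℝ) → ℝ} {X : ℕ → Fin 12 → ℝ} {h : ℕ → ℝ}

/-- the natural base points, slot `D` frozen -/
def FroX (X : ℕ → Fin 12 → ℝ) (h : ℕ → ℝ) (t : ℝ) : Prop :=
  ∀ᶠ l in atTop, ∃ z c p q : ℝ, X l = Function.update (eL z c p) 1 q ∧
    p - 2 * c - z + t * h l ≤ q

theorem frX_of {W : Wnd 12 (fun _ : ℕ => ℕ × ℝ)} {k' : ℕ → ℕ} {t : ℝ} {Mw : Mons 12}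
    {top : Fin 12 → ℝ} (w : WinG W B I J co C D ν lam X h k' t Mw top)
    (hk : Tendsto k' U atTop) (hpos : ∀ l, 0 < h l) (ht : 0 ≤ t) (fro : FroX X h t) :
    ∀ᶠ n in (U : Filter ℕ), FrX W (cK0 monL C) 0 t n := by
  filter_upwards [w.ev_of (P := fun c s => ∃ z c' p q : ℝ, c = Function.update (eL z c' p) 1 q ∧
    p - 2 * c' - z + t * s ≤ q) fro hk] with n hn
  obtain ⟨z, c, p, q, e, hq⟩ := hn
  have hw : W.w n = h (k' n) := by rw [w.hw]
  have hp := hpos (k' n)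
  rw [hw] at hq
  have hth : 0 ≤ t * h (k' n) := mul_nonneg ht hp.le
  refine FrX.of_fro w.wl e (by linarith) ?_
  rw [w.base n, w.hB, ← Real.rpow_mul (B.pos n).le]
  exact Real.rpow_le_rpow_of_exponent_ge (B.pos n) (B.lt n).le (by linarith)

theorem fro_eq {t : ℝ} (fro : FroX X h t) : (∀ᶠ l in atTop, X l 3 = X l 4) ∧
    (∀ᶠ l in atTop, X l 5 = X l 6) ∧ ∀ᶠ l in atTop, X l 7 = X l 8 := by
  refine ⟨?_, ?_, ?_⟩
  all_goals
    filter_upwards [fro] with l hl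
    obtain ⟨z, c, p, q, e, -⟩ := hl
    rw [e, Function.update_of_ne (by decide), Function.update_of_ne (by decide)]
    rfl

/-- **a window over the rich pairs without heavy curved strips**, slot `D` frozen -/
theorem exists_winD_ns {R : ℝ} (hN : NProf B I J co monL C R ν) (hcoc : ∀ n, Coc (co n))
    (hpos : ∀ l, 0 < h l) (htan : IsTan (Leg monL R) D ν X h lam) (hD : LMd ⊆ D)
    {t : ℝ} (ht : 0 < t) {σ : ℝ} (hσ0 : 0 ≤ σ) (hσ1 : σ ≤ 1)
    (dens : lam (bx9 t 0 t t t t t t t) ≤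
      lam (bx9 0 0 t t t t t t t) + lam (bx9 t 0 0 0 0 0 0 0 0))
    (frost : ∀ y, 0 ≤ y → y ≤ t → lam (bx9 y 0 0 0 0 0 0 0 0) ≤ -(σ * y))
    {cA cB : Fin 12} (hcA : cA ∉ SL) (hcB : cB ∉ SL) {q R0 : ℝ} (hq : 0 < q) (hR0 : 0 < R0)
    (hns : Nar192.NsTc B I J co C ν X h cA cB q R0) :
    ∃ (k' : ℕ → ℕ) (W : Wnd 12 (fun _ : ℕ => ℕ × ℝ)) (E : ℕ → Finset (ℕ × ℝ)),
      Tendsto k' U atTop ∧ WinG W B I J co C D ν lam X h k' t monD (topD t) ∧
      (∀ᶠ n in (U : Filter ℕ), Reg W E n) ∧ (∀ᶠ n in (U : Filter ℕ), W.Cl n ⊆ J n) ∧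
      RModel W.B' (W.cfg E) σ t W.legW W.nu W.Dc ∧
      NoStrC W.B' (W.cfg E) 0 cA cB W.nu q (min R0 t) := by
  have hst := stG_fro ht.le
  have hdens : lam (topD t) ≤ lam (cut {0} (topD t) 0) + lam (Pi.single 0 t) := by
    rw [topD_cut0, topD_eq, single_eq]
    exact dens
  obtain ⟨k1, hk1, h1⟩ := exists_winG hN hcoc hpos htan ht hst ((leg_LMd t).trans hD) hσ0 hσ1
    hdens (fun y hy hyt => by rw [single_eq]; exact frost y hy hyt)
    (fun _ _ => 1) (fun _ => Base.Sub.const one_pos) (fun _ => (0, 0))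
  obtain ⟨k2, hk2, h2⟩ := hns
  have hk : Tendsto (fun n => min (k1 n) (k2 n)) U atTop := by
    rw [tendsto_atTop] at hk1 hk2 ⊢
    intro b
    filter_upwards [hk1 b, hk2 b] with n a b
    exact le_min a b
  obtain ⟨W, w, -, a3⟩ := h1 _ hk (Eventually.of_forall fun n => min_le_left _ _)
  obtain ⟨E', g, b1, -, b3, b4⟩ := a3 (rich W) (fun _ => 1) (eok_rich w.wl.ok) (fun _ _ _ => 0)
    (fun n => (n : ℝ)) (tendsto_natCast_atTop_atTop.mono_left U_le_atTop)
  obtain ⟨c1, -⟩ := h2 _ hk (Eventually.of_forall fun n => min_le_right _ _) W D lam t monD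
    (topD t) w
  have c2 : NsWc W cA cB q (min R0 t) := by
    obtain ⟨K, hK, hh⟩ := c1
    exact ⟨K, hK, fun s hs hsR => hh s hs (hsR.trans (min_le_left _ _))⟩
  refine ⟨_, W, E', hk, w, b3, ?_, b4, ?_⟩
  · filter_upwards [w.wl.ok.cls.csub] with n hn
    rwa [w.hJ] at hn
  · refine noStrC_win w.wl.ok b1 ?_ (w.wl.notS hcA) (w.wl.notS hcB) hq.le (min_le_right R0 t) c2
      (Nar863.lineC_of w.wl hcA) (Nar863.lineC_of w.wl hcB) le_rfl
    rw [w.hlam, w.htop, w.hS, hst.cut0_top]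
    exact hdens

end win

/-- **`SIG2`, the windows**: a tangent at a natural moving base point, slot `D` frozen. -/
theorem sig2_win (hM : Sig2M) {B : Base} {I J : ℕ → Finset (ℕ × ℝ)} {lev : ℕ → ℚ → ℕ}
    {inc : ℕ → ℕ × ℝ → Crest.Agent.R116.ChL222.LInc} {σs : Fin 2 → ℕ → ℝ} {w0 sa sb C R : ℝ}
    {ν : (Fin 12 → ℝ) → ℝ}
    (hN : NProf B I J (Gd222.coN B lev inc σs w0 sa sb) monL C R ν)
    (hcoc : ∀ n, Coc (Gd222.coN B lev inc σs w0 sa sb n))
    {X : ℕ → Fin 12 → ℝ} {h : ℕ → ℝ} (hpos : ∀ l, 0 < h l) (hh : Tendsto h atTop (𝓝 0))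
    {D : Set (Fin 12 → ℝ)} {lam : (Fin 12 → ℝ) → ℝ} (htan : IsTan (Leg monL R) D ν X h lam)
    (hD : LMd ⊆ D) {t : ℝ} (ht : 0 < t) {σ : ℝ} (hσ0 : 0 ≤ σ) (hσ1 : σ ≤ 1)
    (dens : lam (bx9 t 0 t t t t t t t) ≤
      lam (bx9 0 0 t t t t t t t) + lam (bx9 t 0 0 0 0 0 0 0 0))
    (frost : ∀ y, 0 ≤ y → y ≤ t → lam (bx9 y 0 0 0 0 0 0 0 0) ≤ -(σ * y))
    (plat : lam (bx9 t 0 0 0 0 0 0 0 0) - lam (bx9 t 0 0 t 0 t 0 0 0) ≤
      lam (bx9 t 0 0 0 t 0 t 0 t) - lam (bx9 t 0 0 t t t t 0 t))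
    (prod : ∀ y, 0 < y → y ≤ t →
      lam (bx9 t 0 0 0 0 0 0 0 0) - lam (bx9 t 0 0 y 0 0 0 y 0) ≤
        lam (bx9 t 0 0 0 t 0 t 0 t) - lam (bx9 t 0 0 y t 0 t y t))
    (fro : ∀ᶠ l in atTop, ∃ z c p q : ℝ, X l = Function.update (eL z c p) 1 q ∧
      p - 2 * c - z + t * h l ≤ q)
    {k0 ϑ ζ v tt yy δ : ℝ} (hF : Kz710.FlagDz B J lev inc σs k0 ϑ ζ)
    (hm : Xd954.Mrg k0 ϑ v tt yy δ) (hty : 3 * δ ≤ ζ + tt - yy)
    (hX : ∀ s, 3 ≤ s → Tendsto (fun l => X l s) atTop (𝓝 (PL504.nb w0 sa sb v tt yy s)))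
    {a b : Fin 2} (hab : a ≠ b)
    (hbd : ∀ᶠ n in (U : Filter ℕ), ∀ x ∈ J n, |Xd954.bb (inc n x) a| ≤ 2)
    (hbig : ∀ᶠ n in (U : Filter ℕ), ∀ x ∈ J n, 1 / 2 ≤ |Xd954.bb (inc n x) b|)
    {q R0 : ℝ} (hq : 0 < q) (hR0 : 0 < R0)
    (hns : Nar192.NsTc B I J (Gd222.coN B lev inc σs w0 sa sb) C ν X h (Xd954.cs a) 10 q R0) :
    σ * t ≤ 2 * (lam (bx9 t 0 0 t 0 t 0 0 0) - lam (bx9 t 0 0 t 0 t t 0 t)) -
      (lam (bx9 t 0 0 0 0 0 0 0 0) - lam (bx9 t 0 0 0 t 0 t 0 t)) := by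
  have hcA : Xd954.cs a ∉ SL := by fin_cases a <;> decide
  obtain ⟨k', W, E, hk, w, hr, hJ, H, hNs⟩ := exists_winD_ns hN hcoc hpos htan hD ht hσ0 hσ1
    dens frost hcA (by decide : (10 : Fin 12) ∉ SL) hq hR0 hns
  obtain ⟨e3, e5, e7⟩ := fro_eq fro
  have hFr := frX_of w hk hpos ht.le fro
  have hT : ThinU W.B' (W.cfg E) (dir W inc) t :=
    winG_thin w rfl hh hk hr hJ hF hm hty hX e3 e5 e7 t
  have hR : 0 < min R0 t := lt_min hR0 ht
  have hbase : ∀ n, (W.cfg E n).ρ = W.B'.d n := H.base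
  have hall := fun (ε : ℝ) (hε : 0 < ε) => hall_of w.wl hr hbase hε
  have s2 : (2 : Fin 12) ∉ W.S := by rw [w.hS]; decide
  have s7 : (7 : Fin 12) ∉ W.S := by rw [w.hS]; decide
  have s8 : (8 : Fin 12) ∉ W.S := by rw [w.hS]; decide
  have t2 : t ≤ W.top 2 := by rw [w.htop, topD_ne t (by decide)]
  have t7 : t ≤ W.top 7 := by rw [w.htop, topD_ne t (by decide)]
  have t8 : t ≤ W.top 8 := by rw [w.htop, topD_ne t (by decide)]
  have hEl := fun (ε : ℝ) (hε : 0 < ε) =>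
    gE_line w.wl s2 s7 s8 t2 t7 t8 hr hFr (le_refl t) hε
  have hdir : ∀ᶠ n in (U : Filter ℕ), 1 / 9 ≤ |dir W inc n b| := by
    filter_upwards [w.wl.ok.ev_good, hJ, hbd, hbig] with n g g1 g2 g3
    exact tau_big hab (g2 _ (g1 g.s0)) (g3 _ (g1 g.s0))
  have m0 : bx9 0 0 0 0 0 0 0 0 0 ∈ W.legW := (w.memD ht.le).2
    ⟨rfl, ⟨le_rfl, le_rfl, le_rfl, le_rfl, le_rfl, le_rfl, le_rfl⟩,
      ⟨by linarith, by linarith, by linarith, by linarith, by linarith⟩,
      ⟨ht.le, ht.le, ht.le, ht.le, ht.le, ht.le, ht.le⟩⟩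
  have mC : bx9 0 0 0 t 0 t 0 0 0 ∈ W.legW := (w.memD ht.le).2
    ⟨rfl, ⟨le_rfl, ht.le, le_rfl, ht.le, le_rfl, le_rfl, le_rfl⟩,
      ⟨by linarith, by linarith, by linarith, by linarith, by linarith⟩,
      ⟨ht.le, le_rfl, ht.le, le_rfl, ht.le, ht.le, ht.le⟩⟩
  have mA : bx9 0 0 0 0 t 0 t 0 t ∈ W.legW := (w.memD ht.le).2
    ⟨rfl, ⟨le_rfl, le_rfl, ht.le, le_rfl, ht.le, le_rfl, ht.le⟩,
      ⟨by linarith, by linarith, by linarith, by linarith, by linarith⟩,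
      ⟨ht.le, ht.le, le_rfl, ht.le, le_rfl, ht.le, le_rfl⟩⟩
  have mH : bx9 0 0 0 t 0 t t 0 t ∈ W.legW := (w.memD ht.le).2
    ⟨rfl, ⟨le_rfl, ht.le, le_rfl, ht.le, ht.le, le_rfl, ht.le⟩,
      ⟨by linarith, by linarith, by linarith, by linarith, by linarith⟩,
      ⟨ht.le, le_rfl, ht.le, le_rfl, le_rfl, ht.le, le_rfl⟩⟩
  have mF : bx9 0 0 0 t t t t 0 t ∈ W.legW := (w.memD ht.le).2
    ⟨rfl, ⟨le_rfl, ht.le, ht.le, ht.le, ht.le, le_rfl, ht.le⟩,
      ⟨by linarith, by linarith, by linarith, by linarith, by linarith⟩,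
      ⟨ht.le, le_rfl, le_rfl, le_rfl, le_rfl, ht.le, le_rfl⟩⟩
  have mCP : ∀ y, 0 < y → y ≤ t → bx9 0 0 0 y 0 0 0 y 0 ∈ W.legW := fun y hy hyt =>
    (w.memD ht.le).2
    ⟨rfl, ⟨le_rfl, hy.le, le_rfl, le_rfl, le_rfl, hy.le, le_rfl⟩,
      ⟨by linarith, by linarith, by linarith, by linarith, by linarith⟩,
      ⟨ht.le, hyt, ht.le, ht.le, ht.le, hyt, ht.le⟩⟩
  have mACP : ∀ y, 0 < y → y ≤ t → bx9 0 0 0 y t 0 t y t ∈ W.legW := fun y hy hyt =>
    (w.memD ht.le).2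
    ⟨rfl, ⟨le_rfl, hy.le, ht.le, le_rfl, ht.le, hy.le, ht.le⟩,
      ⟨by linarith, by linarith, by linarith, by linarith, by linarith⟩,
      ⟨ht.le, hyt, le_rfl, ht.le, le_rfl, hyt, le_rfl⟩⟩
  have nu : ∀ z E C X B N P F : ℝ, W.nu (bx9 z 0 E C X B N P F) =
      lam (bx9 t 0 E C X B N P F) - lam (topD t) := fun z E C X B N P F => by
    rw [w.nu_eq, cut_topD]
  have key : σ * t ≤ 2 * (W.nu (bx9 0 0 0 t 0 t 0 0 0) - W.nu (bx9 0 0 0 t 0 t t 0 t)) -
      (W.nu (bx9 0 0 0 0 0 0 0 0 0) - W.nu (bx9 0 0 0 0 t 0 t 0 t)) := by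
    have hplat : W.nu (bx9 0 0 0 0 0 0 0 0 0) - W.nu (bx9 0 0 0 t 0 t 0 0 0) ≤
        W.nu (bx9 0 0 0 0 t 0 t 0 t) - W.nu (bx9 0 0 0 t t t t 0 t) := by
      rw [nu, nu, nu, nu]
      linarith
    have hprod : ∀ y, 0 < y → y ≤ t →
        W.nu (bx9 0 0 0 0 0 0 0 0 0) - W.nu (bx9 0 0 0 y 0 0 0 y 0) ≤
        W.nu (bx9 0 0 0 0 t 0 t 0 t) - W.nu (bx9 0 0 0 y t 0 t y t) := by
      intro y hy hyt
      rw [nu, nu, nu, nu]
      linarith [prod y hy hyt]
    fin_cases a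
    · -- live slots `3, 5, 7`
      have hb1 : b = 1 := by
        fin_cases b
        · exact absurd rfl hab
        · rfl
      subst hb1
      have T : Thin W.B' (W.cfg E) ∅ (fun n => -(dir W inc n 0) / dir W inc n 1) t :=
        thin3 (by norm_num) hT hdir
      have g := gc_of w.wl s2 s7 s8 t7 t8 hr hFr (le_refl t) T.bd T.tc T.tx
      have := sig2_core hM H g T hall (El := gv W 2) hEl ht le_rfl (by rw [zero_eq]; exact m0)
        (by rw [pJC_eq]; exact mC) (by rw [pJA_eq]; exact mA) (by rw [pJH_eq]; exact mH)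
        (by rw [pJF_eq]; exact mF) mCP mACP (by rw [pJC_eq, pJA_eq, pJF_eq, zero_eq]; exact hplat)
        (by rw [pJA_eq, zero_eq]; exact hprod) hq hR hNs
      rw [pJC_eq, pJA_eq, pJH_eq, zero_eq] at this
      exact this
    · -- live slots `4, 6, 8`
      have hb0 : b = 0 := by
        fin_cases b
        · rfl
        · exact absurd rfl hab
      subst hb0
      have T : Thin W.B' (fun n => swG (W.cfg E n)) ∅
          (fun n => -(dir W inc n 1) / dir W inc n 0) t := thin4 (by norm_num) hT hdir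
      have g := gc_of_sw w.wl s2 s7 s8 t7 t8 hr hFr (le_refl t) T.bd T.tc T.tx
      have hNs' : NoStrC W.B' (fun n => swG (W.cfg E n)) 0 3 10 (fun p => W.nu (swe p)) q
          (min R0 t) := NoStrC.swp hNs
      have hsw : ∀ z D E C X B N P F : ℝ, bx9 z D E C X B N P F ∈ W.legW →
          bx9 z D E C X B N P F ∈ {p | swe p ∈ W.legW} := fun z D E C X B N P F hh => by
        show swe _ ∈ W.legW
        rw [swe_bx]; exact hh
      have := sig2_core hM (RModel.swp H) g T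
        (fun ε hε => by
          filter_upwards [hall ε hε] with n hn k i l hi hl
          exact (loose_swp _ _ _ _ _ _).2 (hn k i l hi hl))
        (El := gv W 2) hEl ht le_rfl (by rw [zero_eq]; exact hsw _ _ _ _ _ _ _ _ _ m0)
        (by rw [pJC_eq]; exact hsw _ _ _ _ _ _ _ _ _ mC)
        (by rw [pJA_eq]; exact hsw _ _ _ _ _ _ _ _ _ mA)
        (by rw [pJH_eq]; exact hsw _ _ _ _ _ _ _ _ _ mH)
        (by rw [pJF_eq]; exact hsw _ _ _ _ _ _ _ _ _ mF)
        (fun y hy hyt => hsw _ _ _ _ _ _ _ _ _ (mCP y hy hyt))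
        (fun y hy hyt => hsw _ _ _ _ _ _ _ _ _ (mACP y hy hyt))
        (by
          rw [pJC_eq, pJA_eq, pJF_eq, zero_eq, swe_bx, swe_bx, swe_bx, swe_bx]
          exact hplat)
        (by
          intro y hy hyt
          rw [pJA_eq, zero_eq]
          show W.nu (swe _) - W.nu (swe (bx9 _ _ _ _ _ _ _ _ _)) ≤
            W.nu (swe _) - W.nu (swe (bx9 _ _ _ _ _ _ _ _ _))
          rw [swe_bx, swe_bx, swe_bx, swe_bx]
          exact hprod y hy hyt) hq hR hNs'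
      rw [pJC_eq, pJA_eq, pJH_eq, zero_eq, swe_bx, swe_bx, swe_bx, swe_bx] at this
      exact this
  rw [nu, nu, nu, nu] at key
  linarith

end Crest.Agent.R116.Sc5803
end

-- ▼ part R116/Sc5c_748

/-!
# R116, K-TEXT II-c, SIG2 (`σ = 2`), Sc5c: the field over `CtxT` + `SigP` (helper748)

* base boxes `xB`: limits, frozen form, supremum with the record box, stages (`stg_ev`).
* `nsTc_sig2` : no heavy strips along the tangent (192's `CtxT.nsTc`, freeze `SigP.fz`).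
* **`sig2_win`** : `1 - s ≤ 2 (lam pC - lam pH) - (lam p0 - lam pA)`.
* **`sig2_field`** : `1 - s ≤ r kN - r kX`; `sig2_t` : 194's / 890's form.
-/

set_option autoImplicit false
set_option linter.unusedVariables false
set_option linter.unusedSectionVars false

open Set Filter Topology

namespace Crest.Agent.R116.Sc5c748

open Crest.Agent.R138.Ex926 (Base U IsTan)
open Crest.Agent.R136
open Crest.Agent.R136.Net191
open Crest.Agent.R136.Lq196
open Crest.Agent.R136.MkA627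
open Crest.Agent.R116.LZg725
open Crest.Agent.R116.ChL222
open Crest.Agent.R116.PL504 (βL eL rL oL Shift nb)
open Crest.Agent.R116.Sg337 (natB natB_smul bx9 uC uP uCP SL frz frz_single)
open Crest.Agent.R116.Gd222
open Crest.Agent.R116.KI439
open Crest.Agent.R116.Tw468
open Crest.Agent.R116.CtxB468
open Crest.Agent.R116.RowU194 (xB xB_eq xB_nat xB_1 SigP)
open Crest.Agent.R116.Nar192 (StgM NsTc)
open Dg219 (gset OutS gC dhC nC mw)
open Sg635 (xS aS bS LMd mem_bx kz kX kN kF L_eq)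

/-! ### base boxes -/

section geo

variable {w0 sa sb θa θb v0 lam0 : ℝ} {z : ℝ × ℝ} {u k : ℕ → ℝ}

theorem xB_tend (u0 : Tendsto u atTop (𝓝 0)) (i : Fin 12) :
    Tendsto (fun m => xB θa θb w0 sa sb v0 lam0 z u m i) atTop
      (𝓝 (nb w0 sa sb v0 (θa * (1 - v0)) (θb * (1 - v0)) i)) := by
  have h1 : Tendsto (fun m => rL θa θb w0 sa sb v0 i + u m * SL θa θb lam0 z.1 z.2 i) atTop
      (𝓝 (rL θa θb w0 sa sb v0 i + 0 * SL θa θb lam0 z.1 z.2 i)) :=
    tendsto_const_nhds.add (u0.mul_const _)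
  rw [zero_mul, add_zero] at h1
  rw [← PL504.rL_nb]
  exact h1

theorem xB_fro (upos : ∀ m, 0 < u m) (kpos : ∀ m, 0 < k m) (k0 : Tendsto k atTop (𝓝 0))
    (sl : (2 * θa - θb) * z.2 - z.1 < lam0) (t : ℝ) :
    ∀ᶠ l in atTop, ∃ zz c p q : ℝ, xB θa θb w0 sa sb v0 lam0 z u l =
      Function.update (eL zz c p) 1 q ∧ p - 2 * c - zz + t * (u l * k l) ≤ q := by
  set G : ℝ := lam0 - ((2 * θa - θb) * z.2 - z.1) with hG
  have hG0 : 0 < G := by rw [hG]; linarith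
  have e1 : 0 < G / (|t| + 1) := by positivity
  filter_upwards [k0.eventually_lt_const e1] with l hl
  refine ⟨w0 + (v0 + u l * z.1), θa * (1 - v0) - θa * (u l * z.2) + sa,
    θb * (1 - v0) - θb * (u l * z.2) + sb, xB θa θb w0 sa sb v0 lam0 z u l 1, ?_, ?_⟩
  · funext i
    by_cases hi : i = 1
    · subst hi; rw [Function.update_self]
    · rw [Function.update_of_ne hi, xB_nat l i hi]
  · rw [xB_1]
    have hu := upos l
    have hk := kpos l
    rw [lt_div_iff₀ (by positivity)] at hl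
    have h3 : t * k l ≤ G := by
      have := mul_le_mul_of_nonneg_right (le_abs_self t) hk.le
      nlinarith
    have h4 : u l * (t * k l) ≤ u l * G := mul_le_mul_of_nonneg_left h3 hu.le
    have h5 : eL (w0 + (v0 + u l * z.1)) (θa * (1 - v0) - θa * (u l * z.2) + sa)
        (θb * (1 - v0) - θb * (u l * z.2) + sb) 1 =
        (θb * (1 - v0) - θb * (u l * z.2) + sb) -
          2 * (θa * (1 - v0) - θa * (u l * z.2) + sa) - (w0 + (v0 + u l * z.1)) := rfl
    rw [h5]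
    have e3 : t * (u l * k l) = u l * (t * k l) := by ring
    rw [e3]
    linarith

/-- the record box of the same time -/
theorem rL_add (m : ℕ) : rL θa θb w0 sa sb (v0 + u m * z.2) =
    rL θa θb w0 sa sb v0 + u m • natB z.2 (-(θa * z.2)) (-(θb * z.2)) := by
  funext i
  fin_cases i <;> simp [rL, eL, natB, bx9] <;> ring

theorem xB_slots (m : ℕ) :
    xB θa θb w0 sa sb v0 lam0 z u m 0 = w0 + (v0 + u m * z.1) ∧
    xB θa θb w0 sa sb v0 lam0 z u m 1 = θb * (1 - v0) + sb - 2 * (θa * (1 - v0) + sa) -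
      (w0 + v0) + u m * lam0 ∧
    xB θa θb w0 sa sb v0 lam0 z u m 2 = θb * (1 - v0) - θb * (u m * z.2) + sb -
      2 * (θa * (1 - v0) - θa * (u m * z.2) + sa) ∧
    xB θa θb w0 sa sb v0 lam0 z u m 3 = θa * (1 - v0) - θa * (u m * z.2) + sa ∧
    xB θa θb w0 sa sb v0 lam0 z u m 4 = θa * (1 - v0) - θa * (u m * z.2) + sa ∧
    xB θa θb w0 sa sb v0 lam0 z u m 5 = w0 + (v0 + u m * z.1) +
      (θa * (1 - v0) - θa * (u m * z.2) + sa) ∧
    xB θa θb w0 sa sb v0 lam0 z u m 6 = w0 + (v0 + u m * z.1) +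
      (θa * (1 - v0) - θa * (u m * z.2) + sa) ∧
    xB θa θb w0 sa sb v0 lam0 z u m 7 = θb * (1 - v0) - θb * (u m * z.2) + sb -
      (θa * (1 - v0) - θa * (u m * z.2) + sa) ∧
    xB θa θb w0 sa sb v0 lam0 z u m 8 = θb * (1 - v0) - θb * (u m * z.2) + sb -
      (θa * (1 - v0) - θa * (u m * z.2) + sa) ∧
    xB θa θb w0 sa sb v0 lam0 z u m 9 = w0 + (v0 + u m * z.1) +
      2 * (θa * (1 - v0) - θa * (u m * z.2) + sa) ∧
    xB θa θb w0 sa sb v0 lam0 z u m 10 = θb * (1 - v0) - θb * (u m * z.2) + sb ∧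
    xB θa θb w0 sa sb v0 lam0 z u m 11 = w0 + (v0 + u m * z.1) +
      (θb * (1 - v0) - θb * (u m * z.2) + sb) := by
  refine ⟨?_, ?_, ?_, ?_, ?_, ?_, ?_, ?_, ?_, ?_, ?_, ?_⟩
  · rw [xB_nat m _ (by decide)]; rfl
  · rw [xB_1]
    have h5 : eL (w0 + (v0 + u m * z.1)) (θa * (1 - v0) - θa * (u m * z.2) + sa)
        (θb * (1 - v0) - θb * (u m * z.2) + sb) 1 =
        (θb * (1 - v0) - θb * (u m * z.2) + sb) -
          2 * (θa * (1 - v0) - θa * (u m * z.2) + sa) - (w0 + (v0 + u m * z.1)) := rfl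
    rw [h5]; ring
  all_goals rw [xB_nat m _ (by decide)]; rfl

/-- the supremum with the record box of the same time -/
theorem xB_sup (m : ℕ) (hu : 0 < u m) (lt : z.1 < z.2)
    (sl : (2 * θa - θb) * z.2 - z.1 < lam0) :
    xB θa θb w0 sa sb v0 lam0 z u m ⊔ rL θa θb w0 sa sb (v0 + u m * z.2) =
      rL θa θb w0 sa sb v0 + u m • SL θa θb lam0 z.2 z.2 := by
  obtain ⟨s0, s1, s2, s3, s4, s5, s6, s7, s8, s9, s10, s11⟩ :=
    xB_slots (w0 := w0) (sa := sa) (sb := sb) (θa := θa) (θb := θb) (v0 := v0) (lam0 := lam0)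
      (z := z) (u := u) m
  have h1 : u m * z.1 ≤ u m * z.2 := mul_le_mul_of_nonneg_left lt.le hu.le
  have h2 : u m * ((2 * θa - θb) * z.2 - z.1) ≤ u m * lam0 := mul_le_mul_of_nonneg_left sl.le hu.le
  funext i
  rw [Pi.sup_apply]
  fin_cases i
  · show xB θa θb w0 sa sb v0 lam0 z u m 0 ⊔ _ = _
    rw [s0, sup_eq_right.2 (by simp [rL, eL]; linarith)]
    simp [rL, eL, SL, frz, bx9]; ring
  · show xB θa θb w0 sa sb v0 lam0 z u m 1 ⊔ _ = _
    rw [s1, sup_eq_left.2 (by simp [rL, eL]; linarith)]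
    simp [rL, eL, SL, frz, bx9]; try ring
  · show xB θa θb w0 sa sb v0 lam0 z u m 2 ⊔ _ = _
    rw [s2, sup_eq_right.2 (by simp [rL, eL]; linarith)]
    simp [rL, eL, SL, frz, bx9]; ring
  · show xB θa θb w0 sa sb v0 lam0 z u m 3 ⊔ _ = _
    rw [s3, sup_eq_right.2 (by simp [rL, eL]; linarith)]
    simp [rL, eL, SL, frz, bx9]; ring
  · show xB θa θb w0 sa sb v0 lam0 z u m 4 ⊔ _ = _
    rw [s4, sup_eq_right.2 (by simp [rL, eL]; linarith)]
    simp [rL, eL, SL, frz, bx9]; ring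
  · show xB θa θb w0 sa sb v0 lam0 z u m 5 ⊔ _ = _
    rw [s5, sup_eq_right.2 (by simp [rL, eL]; linarith)]
    simp [rL, eL, SL, frz, bx9]; ring
  · show xB θa θb w0 sa sb v0 lam0 z u m 6 ⊔ _ = _
    rw [s6, sup_eq_right.2 (by simp [rL, eL]; linarith)]
    simp [rL, eL, SL, frz, bx9]; ring
  · show xB θa θb w0 sa sb v0 lam0 z u m 7 ⊔ _ = _
    rw [s7, sup_eq_right.2 (by simp [rL, eL]; linarith)]
    simp [rL, eL, SL, frz, bx9]; ring
  · show xB θa θb w0 sa sb v0 lam0 z u m 8 ⊔ _ = _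
    rw [s8, sup_eq_right.2 (by simp [rL, eL]; linarith)]
    simp [rL, eL, SL, frz, bx9]; ring
  · show xB θa θb w0 sa sb v0 lam0 z u m 9 ⊔ _ = _
    rw [s9, sup_eq_right.2 (by simp [rL, eL]; linarith)]
    simp [rL, eL, SL, frz, bx9]; ring
  · show xB θa θb w0 sa sb v0 lam0 z u m 10 ⊔ _ = _
    rw [s10, sup_eq_right.2 (by simp [rL, eL]; linarith)]
    simp [rL, eL, SL, frz, bx9]; ring
  · show xB θa θb w0 sa sb v0 lam0 z u m 11 ⊔ _ = _
    rw [s11, sup_eq_right.2 (by simp [rL, eL]; linarith)]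
    simp [rL, eL, SL, frz, bx9]; ring

end geo

section ctx

variable {G : Geo TSet (Fin 2)} {L : ℕ → ℕ → LRay} {r : ℕ → ℝ} {g s : ℝ} {θ q : Fin 2 → ℝ}
    {Rg : ℝ} {B : Base} {I : ℕ → Finset (ℕ × ℝ)} {lev : ℕ → ℚ → ℕ} {A : ℕ → ℝ}
    {f : ℕ → ℚ → ℕ → ℤ → ℕ} {b : ℕ → ℚ → ℕ → TSet} {vm : ℕ → ℚ → ℝ} {w : Fin 2 → ℕ → ℚ → ℝ}
    {fr : ℕ → ℚ → ℕ × ℝ → LInc} {fl : ℕ → ℕ × ℝ → LInc} {sc : Fin 12 → ℕ → ℝ}
    {w0 sa sb δ R : ℝ} {I0 I' : ℕ → Finset (ℕ × ℝ)} {ν own : (Fin 12 → ℝ) → ℝ} {c₀ : ℝ}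
    {J : Type*} {c δ' : ℝ} {F : J → (Fin 12 → ℝ) → ℝ} {j0 : J} {v0 lam0 : ℝ} {z : ℝ × ℝ}
    {u k : ℕ → ℝ} {lam : J → (Fin 12 → ℝ) → ℝ} {A' : ℝ × ℝ} {φ : ℕ → (Fin 12 → ℝ) → ℝ}
    {rr : ℕ → ℝ}

/-- the base boxes are legal -/
theorem leg_ev (H : SigP R w0 sa sb (θ 0) (θ 1) s c (q 0) (q 1) δ' F j0 v0 lam0 z u k lam A' φ rr) :
    ∀ᶠ l in (atTop : Filter ℕ), xB (θ 0) (θ 1) w0 sa sb v0 lam0 z u l ∈ Leg monL R := by
  have h0L : (0 : Fin 12 → ℝ) ∈ (mw monL).L (xS lam0) aS (bS (θ 0) (θ 1)) := by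
    rw [L_eq H.hl0]
    intro k e he _
    simp
  filter_upwards [H.tan j0 0 1 one_pos] with l hl
  have := (hl 0 h0L (by simp)).1
  simpa using this

/-- stages of the base boxes -/
theorem stg_ev
    (h : CtxT G L r g s θ q Rg B I lev A f b vm w fr fl sc w0 sa sb δ R I0 I' ν own c₀)
    (H : SigP R w0 sa sb (θ 0) (θ 1) s c (q 0) (q 1) δ' F j0 v0 lam0 z u k lam A' φ rr)
    (hθ : 0 < θ 0) (hRa : θ 0 < Rg) (hRb : |θ 1| < Rg) {sC : Fin 12} (hsC : sC = 3 ∨ sC = 4) :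
    ∃ t0 : ℝ, 0 < t0 ∧ ∀ᶠ l in (atTop : Filter ℕ), ∃ v t yy : ℝ,
      StgM w0 sa sb R Rg t0 sC (xB (θ 0) (θ 1) w0 sa sb v0 lam0 z u l)
        (rL (θ 0) (θ 1) w0 sa sb (v0 + u l * z.2)) v t yy := by
  have hv0 := H.v00
  have hv1 := H.v01
  set m0 : ℝ := θ 0 * (1 - v0) / 2 with hm0
  have hm0p : 0 < m0 := by
    have : 0 < θ 0 * (1 - v0) := mul_pos hθ (by linarith)
    positivity
  set t0 : ℝ := min (min δ m0) (min (Rg - θ 0) (Rg - |θ 1|)) with ht0d
  have ht0 : 0 < t0 := lt_min (lt_min h.sh.d0 hm0p) (lt_min (by linarith) (by linarith))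
  have t1 : t0 ≤ δ := (min_le_left _ _).trans (min_le_left _ _)
  have t2 : t0 ≤ m0 := (min_le_left _ _).trans (min_le_right _ _)
  have t3 : t0 ≤ Rg - θ 0 := (min_le_right _ _).trans (min_le_left _ _)
  have t4 : t0 ≤ Rg - |θ 1| := (min_le_right _ _).trans (min_le_right _ _)
  refine ⟨t0, ht0, ?_⟩
  have u1 : Tendsto (fun l => u l * z.1) atTop (𝓝 0) := by simpa using H.u0.mul_const z.1
  have u2 : Tendsto (fun l => u l * z.2) atTop (𝓝 0) := by simpa using H.u0.mul_const z.2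
  have u3 : Tendsto (fun l => θ 0 * (u l * z.2)) atTop (𝓝 0) := by simpa using u2.const_mul (θ 0)
  have a1 : ∀ᶠ l in (atTop : Filter ℕ), -v0 < u l * z.1 := u1.eventually_const_lt (by linarith)
  have a2 : ∀ᶠ l in (atTop : Filter ℕ), -v0 < u l * z.2 := u2.eventually_const_lt (by linarith)
  have a3 : ∀ᶠ l in (atTop : Filter ℕ), u l * z.2 < 1 - v0 := u2.eventually_lt_const (by linarith)
  have a4 : ∀ᶠ l in (atTop : Filter ℕ), θ 0 * (u l * z.2) < m0 := u3.eventually_lt_const hm0p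
  filter_upwards [leg_ev H, a1, a2, a3, a4] with l hl b1 b2 b3 b4
  obtain ⟨s0, s1, s2, s3, s4, s5, s6, s7, s8, s9, s10, s11⟩ :=
    xB_slots (w0 := w0) (sa := sa) (sb := sb) (θa := θ 0) (θb := θ 1) (v0 := v0) (lam0 := lam0)
      (z := z) (u := u) l
  have e1 : θ 0 * (1 - v0) = 2 * m0 := by rw [hm0]; ring
  have hu := H.upos l
  have h1 : u l * z.1 ≤ u l * z.2 := mul_le_mul_of_nonneg_left H.lt.le hu.le
  have h2 : u l * ((2 * θ 0 - θ 1) * z.2 - z.1) ≤ u l * lam0 :=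
    mul_le_mul_of_nonneg_left H.sl.le hu.le
  refine ⟨v0 + u l * z.2, _, _, StgM.of_rec h.sh ht0 t1 (by linarith) (by linarith) hθ.le
    (by linarith) (by linarith) ?_ hl hsC ?_ ?_ ?_ ?_ ?_ ?_ ?_ ?_ ?_ ?_ ?_ ?_⟩
  · have : θ 0 * (1 - (v0 + u l * z.2)) = θ 0 * (1 - v0) - θ 0 * (u l * z.2) := by ring
    linarith
  · rcases hsC with e | e
    · rw [e, s3]; ring
    · rw [e, s4]; ring
  · rw [s10]; ring
  · rw [s0]; linarith
  · rw [s3]; linarith
  · rw [s4]; linarith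
  · rw [s5]; linarith
  · rw [s6]; linarith
  · rw [s9]; linarith
  · rw [s1]; linarith
  · rw [s2]; linarith
  · rw [s7]; linarith
  · rw [s8]; linarith

/-- **no heavy strips along the tangent** (192) -/
theorem nsTc_sig2
    (h : CtxT G L r g s θ q Rg B I lev A f b vm w fr fl sc w0 sa sb δ R I0 I' ν own c₀)
    (hq0 : 0 < q 0) (hq1 : 0 < q 1)
    (H : SigP R w0 sa sb (θ 0) (θ 1) s c (q 0) (q 1) δ' F j0 v0 lam0 z u k lam A' φ rr)
    (hf : F j0 = ν)
    (hθ : 0 < θ 0) (hRa : θ 0 < Rg) (hRb : |θ 1| < Rg) {a b' : Fin 2} (hab : a ≠ b')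
    (ha : ∀ᶠ n in (U : Filter ℕ), ∀ x ∈ I n, |vb (fl n x) a| ≤ 2)
    (hb : ∀ᶠ n in (U : Filter ℕ), ∀ x ∈ I n, 1 / 2 ≤ |vb (fl n x) b'|) {R0 : ℝ} (hR0 : 0 < R0) :
    NsTc B I0 I' (PL504.coN B lev w w0 sa sb fl) 2 ν (xB (θ 0) (θ 1) w0 sa sb v0 lam0 z u)
      (fun m => u m * k m) (Xd954.cs a) 10 (gam q) R0 := by
  have hsC : Xd954.cs a = 3 ∨ Xd954.cs a = 4 := by
    fin_cases a
    · exact Or.inl rfl
    · exact Or.inr rfl
  obtain ⟨t0, ht0, hst⟩ := stg_ev h H hθ hRa hRb hsC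
  have u2 : Tendsto (fun l => u l * z.2) atTop (𝓝 0) := by simpa using H.u0.mul_const z.2
  have a2 : ∀ᶠ l in (atTop : Filter ℕ), -v0 < u l * z.2 :=
    u2.eventually_const_lt (by linarith [H.v00])
  have a3 : ∀ᶠ l in (atTop : Filter ℕ), u l * z.2 < 1 - v0 :=
    u2.eventually_lt_const (by linarith [H.v01])
  refine h.nsTc hq0 hq1 hsC (Nar192.hax_of hab ha hb) H.hpos H.h0 ht0 hst
    (h.frz_rec (v := fun l => v0 + u l * z.2) ?_ fun ε hε => ?_) hR0
  · filter_upwards [a2, a3] with l h1 h2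
    constructor <;> linarith
  · filter_upwards [H.fz ε hε] with l hl
    rw [xB_sup l (H.upos l) H.lt H.sl, rL_add l, ← hf]
    exact hl

/-- **the inequality of the window at the origin of the plane, `σ = 2`** -/
theorem sig2_win (hM : Sc5803.Sig2M)
    (h : CtxT G L r g s θ q Rg B I lev A f b vm w fr fl sc w0 sa sb δ R I0 I' ν own c₀)
    (hq0 : 0 < q 0) (hq1 : 0 < q 1)
    (H : SigP R w0 sa sb (θ 0) (θ 1) s c (q 0) (q 1) δ' F j0 v0 lam0 z u k lam A' φ rr)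
    (hf : F j0 = ν)
    (hθ : 0 < θ 0) (h2 : θ 1 = 2 * θ 0) (hRa : θ 0 < Rg) (hRb : |θ 1| < Rg) :
    (1 - s) * 1 ≤ 2 * (lam j0 (bx9 1 0 0 1 0 1 0 0 0) - lam j0 (bx9 1 0 0 1 0 1 1 0 1)) -
      (lam j0 (bx9 1 0 0 0 0 0 0 0 0) - lam j0 (bx9 1 0 0 0 1 0 1 0 1)) := by
  have hR : 0 ≤ R := h.sh.d0.le.trans h.sh.R_pos
  have hL := L_eq (θa := θ 0) (θb := θ 1) H.hl0
  have hO := H.out
  rw [hL] at hO
  have hT := H.tan j0
  rw [hL, hf] at hT
  have ha : θ 0 ≠ 0 := hθ.ne'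
  have hv0 := H.v00
  have hv1 := H.v01
  have hkz : 1 - s ≤ rr (kz (θ 0) (θ 1)) := by
    have h1 := H.own 1 one_pos
    rw [Sc5b748.lam_z hO ha h2 1 zero_le_one] at h1
    linarith
  -- axes
  obtain ⟨bx, hbx⟩ := h.out.ax
  have hab : 1 - bx ≠ bx := by fin_cases bx <;> decide
  have hbd : ∀ᶠ n in (U : Filter ℕ), ∀ x ∈ I n, |vb (fl n x) (1 - bx)| ≤ 2 := by
    filter_upwards [hbx] with n hn x hx using (hn x hx).2 _
  have hbg : ∀ᶠ n in (U : Filter ℕ), ∀ x ∈ I n, 1 / 2 ≤ |vb (fl n x) bx| := by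
    filter_upwards [hbx] with n hn x hx using (hn x hx).1
  -- flags
  have hF : Kz710.FlagDz B I' lev fl (sN lev w) 0 0 (θ 1 - θ 0) :=
    { fe := h.fE h.sub' 0
      fn := h.nz h.sub' hθ.le
      ge := by
        filter_upwards [hbg] with n hn x hx
        have h1 := hn x (h.sub' n hx)
        rw [bb_vb, bb_vb]
        have h3 : (1:ℝ) / 4 ≤ (vb (fl n x) bx) ^ 2 := by
          rw [← sq_abs]
          nlinarith
        fin_cases bx
        · have h4 : (1:ℝ) / 4 ≤ (vb (fl n x) 0) ^ 2 := h3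
          nlinarith [sq_nonneg (vb (fl n x) 1)]
        · have h4 : (1:ℝ) / 4 ≤ (vb (fl n x) 1) ^ 2 := h3
          nlinarith [sq_nonneg (vb (fl n x) 0)] }
  -- margins
  set dm : ℝ := min (θ 0 * (1 - v0)) (θ 0 * v0) / 3 with hdm
  have p1 : 0 < θ 0 * (1 - v0) := mul_pos hθ (by linarith)
  have p2 : 0 < θ 0 * v0 := mul_pos hθ hv0
  have d1 : 3 * dm ≤ θ 0 * (1 - v0) := by
    have := min_le_left (θ 0 * (1 - v0)) (θ 0 * v0)
    rw [hdm]; linarith
  have d2 : 3 * dm ≤ θ 0 * v0 := by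
    have := min_le_right (θ 0 * (1 - v0)) (θ 0 * v0)
    rw [hdm]; linarith
  have hm : Xd954.Mrg 0 0 v0 (θ 0 * (1 - v0)) (θ 1 * (1 - v0)) dm :=
    { pos := by rw [hdm]; exact div_pos (lt_min p1 p2) (by norm_num)
      mt := d1
      mkk := by rw [h2]; linarith
      mv := by linarith }
  have hty : 3 * dm ≤ (θ 1 - θ 0) + θ 0 * (1 - v0) - θ 1 * (1 - v0) := by
    rw [h2]; linarith
  have ns := nsTc_sig2 h hq0 hq1 H hf hθ hRa hRb hab hbd hbg one_pos
  have hs0 := h.ext.s0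
  have hs1 := h.ext.s1
  exact Sc5803.sig2_win hM (B := B) (lev := lev) (inc := fl) (σs := sN lev w) (w0 := w0)
    (sa := sa) (sb := sb) (WinU954.nprof_of_ext hR h.ext)
    (fun n => Sd369.coc_N B lev w w0 sa sb fl n) H.hpos H.h0 hT
    (fun p hp => hp) one_pos (by linarith) (by linarith)
    (Sc5b748.dens hO ha h2 zero_le_one)
    (fun y hy _ => Sc5b748.frost hO ha h2 hkz y hy)
    (Sc5b748.plat hO ha h2 zero_le_one le_rfl zero_le_one zero_le_one le_rfl (by norm_num)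
      (by norm_num)).le
    (fun y hy _ => (Sc5b748.plat hO ha h2 zero_le_one le_rfl hy.le le_rfl hy.le (by linarith)
      (by linarith)).le)
    (xB_fro H.upos H.kpos H.k0 H.sl 1) hF hm hty
    (fun i _ => xB_tend H.u0 i) hab
    (by filter_upwards [hbd] with n hn x hx; rw [bb_vb]; exact hn x (h.sub' n hx))
    (by filter_upwards [hbg] with n hn x hx; rw [bb_vb]; exact hn x (h.sub' n hx))
    (gam_pos hq0 hq1) one_pos ns


/-- **SIG2, 194's / 890's literal** -/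
theorem sig2_t (hM : Sc5803.Sig2M)
    (h : CtxT G L r g s θ q Rg B I lev A f b vm w fr fl sc w0 sa sb δ R I0 I' ν own c₀)
    (hq0 : 0 < q 0) (hq1 : 0 < q 1)
    (H : SigP R w0 sa sb (θ 0) (θ 1) s c (q 0) (q 1) δ' F j0 v0 lam0 z u k lam A' φ rr)
    (hf : F j0 = ν)
    (hθ : 0 < θ 0) (h2 : θ 1 = 2 * θ 0) (hRa : θ 0 < Rg) (hRb : |θ 1| < Rg) :
    ∃ t : ℝ, 0 < t ∧ (1 - s) * t ≤
      2 * (lam j0 (bx9 t 0 0 t 0 t 0 0 0) - lam j0 (bx9 t 0 0 t 0 t t 0 t)) -
        (lam j0 (bx9 t 0 0 0 0 0 0 0 0) - lam j0 (bx9 t 0 0 0 t 0 t 0 t)) :=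
  ⟨1, one_pos, sig2_win hM h hq0 hq1 H hf hθ h2 hRa hRb⟩

end ctx

end Crest.Agent.R116.Sc5c748
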