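import Crest.Agent.R116.SgO4_890
import Crest.Agent.R116.Sg3a_635
import Crest.Agent.R116.Sg3a_665

-- ▼ part R116/Sg3p_890
section

/-!
# R116 (K side, LEMMA SIG), resonant slopes: tools (helper890)

* `exists_posn_y`   : position near a natural path at any scale `y`
* `seg_ge`          : rates `≥ q` at all differentiability points near a segment ⊢ increment `≥ q y`
* `psi_lip`         : the function of a pair group is Lipschitz
* `rateP_of_diff`   : rates at a differentiability point of a pair function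
* `ae_line`         : for a.e. `v` the function `ψ` is differentiable at `(ζ, ζ + v i)`, a.e. `ζ`
* `exists_line`     : and there is such a `ζ` with directional rate `≤ r + δ`
-/

set_option autoImplicit false
set_option linter.unusedSectionVars false
set_option linter.unusedVariables false

open Set Filter Topology Metric MeasureTheory
open scoped NNReal

namespace Crest.Agent.R116.SgO219

open Crest.Agent.R136
open Crest.Agent.R138
open Dg219 (Walls OutS)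
open Sg388 (ind ind_eq_smul exists_rate_on exists_deriv_ge)

variable {ι W κ : Type*} [Fintype ι] [DecidableEq ι] [Fintype W] [DecidableEq κ]

/-- change of scale in `RateP` -/
theorem RateP.unscale {d : ℕ} {φ : (ι → ℝ) → ℝ} {c0 : ι → ℝ} {T : (Fin d → ℝ) →L[ℝ] (ι → ℝ)}
    {y : ℝ} (hy : 0 < y) {G : Fin d → ℝ} (h : RateP φ c0 (y • T) G) :
    RateP φ c0 T (fun i => G i / y) := by
  intro u
  have h1 := h (y⁻¹ • u)
  have e1 : (y • T) (y⁻¹ • u) = T u := by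
    rw [ContinuousLinearMap.smul_apply, map_smul, smul_smul, mul_inv_cancel₀ hy.ne', one_smul]
  have e2 : ∑ i, G i * (y⁻¹ • u) i = ∑ i, G i / y * u i := Finset.sum_congr rfl fun i _ => by
    rw [Pi.smul_apply, smul_eq_mul]; field_simp
  rw [e2] at h1
  refine h1.congr fun t => ?_
  rw [e1]

section

variable {Q : Walls ι W} {x0 a b : ι → ℝ} {grp : ι → κ}
  {dh : ι → ℝ} {n : κ → ℝ × ℝ} {A : ℝ × ℝ} {lam : (ι → ℝ) → ℝ} {φ : κ → (ι → ℝ) → ℝ} {r : κ → ℝ}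

/-- **POSITION NEAR A NATURAL PATH, ANY SCALE** -/
theorem exists_posn_y (H : OutS grp (Q.L x0 a b) dh n lam A φ r) (k : κ) {d : ℕ}
    {T : (Fin d → ℝ) →L[ℝ] (ι → ℝ)} (hT : ∀ i l, 0 ≤ T (Pi.single i 1) l) {β : ι → ℝ}
    (hβ : ∀ i, grp i = k → β i = 0) {D : Set (Fin d → ℝ)} (hDo : IsOpen D)
    (hDL : ∀ v ∈ D, β + T v ∈ Q.L x0 a b) {S : Finset (Fin d)} {w0 : Fin d → ℝ} {y : ℝ}
    (hy : 0 < y)
    (hw : ∀ ε : ℝ, 0 < ε → ∀ t ∈ Icc (0:ℝ) y, ε • w0 + ind S t ∈ D) {q δ η : ℝ}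
    (hq : q * y ≤ φ k 0 - φ k (T (ind S y))) (hδ : 0 < δ) (hη : 0 < η)
    {N : Set (Fin d → ℝ)} (hN : ∀ᵐ v, v ∈ N) :
    ∃ v ∈ N, v ∈ D ∧ (∃ t ∈ Icc (0:ℝ) y, ‖v - ind S t‖ < η) ∧ ∃ G : Fin d → ℝ,
      (∀ i, 0 ≤ G i) ∧
      (∀ i, G i ≤ ∑ l ∈ Finset.univ.filter (fun l => grp l = k), T (Pi.single i 1) l) ∧
      q - δ ≤ ∑ i ∈ S, G i ∧ RateP (φ k) (β + T v) T G := by
  have hN' : ∀ᵐ v : Fin d → ℝ, v ∈ {v | y • v ∈ N} := by
    have h1 : (volume : Measure (Fin d → ℝ)) Nᶜ = 0 := hN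
    have h2 : (volume : Measure (Fin d → ℝ)) ((fun v => y • v) ⁻¹' Nᶜ) = 0 := by
      rw [Measure.addHaar_preimage_smul _ hy.ne', h1, mul_zero]
    exact h2
  obtain ⟨v, hvN, hvD, ⟨t, ht, htv⟩, G, hG0, hG1, hG2, hG3⟩ := exists_posn H k (T := y • T)
    (fun i l => by
      rw [ContinuousLinearMap.smul_apply, Pi.smul_apply, smul_eq_mul]
      exact mul_nonneg hy.le (hT i l)) hβ (D := {v | y • v ∈ D}) (hDo.preimage
      (continuous_const_smul y)) (fun v hv => by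
      rw [ContinuousLinearMap.smul_apply, ← map_smul]; exact hDL _ hv) (S := S) (w0 := w0)
    (fun ε hε t ht => by
      have h1 := hw (y * ε) (mul_pos hy hε.1) (y * t)
        ⟨mul_nonneg hy.le ht.1, by nlinarith [ht.2]⟩
      change y • (ε • w0 + ind S t) ∈ D
      have e : y • (ε • w0 + ind S t) = (y * ε) • w0 + ind S (y * t) := by
        rw [smul_add, smul_smul, ind_eq_smul S t, smul_smul, ← ind_eq_smul]
      rw [e]; exact h1) (q := q * y) (δ := δ * y) (η := η / y) (by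
      have e : (y • T) (ind S 1) = T (ind S y) := by
        rw [ContinuousLinearMap.smul_apply, ← map_smul, ← ind_eq_smul]
      rw [e]; exact hq) (mul_pos hδ hy) (div_pos hη hy) hN'
  have hv0 : v ∈ {v : Fin d → ℝ | y • v ∈ D} := hvD
  refine ⟨y • v, hvN, hv0, ⟨y * t, ⟨mul_nonneg hy.le ht.1, by nlinarith [ht.2]⟩, ?_⟩,
    fun i => G i / y, fun i => div_nonneg (hG0 i) hy.le, fun i => ?_, ?_, ?_⟩
  · have e : y • v - ind S (y * t) = y • (v - ind S t) := by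
      rw [ind_eq_smul S t, smul_sub, smul_smul, ← ind_eq_smul]
    rw [e, norm_smul, Real.norm_of_nonneg hy.le]
    rw [lt_div_iff₀ hy] at htv
    linarith
  · rw [div_le_iff₀ hy]
    refine (hG1 i).trans (le_of_eq ?_)
    rw [Finset.sum_mul]
    refine Finset.sum_congr rfl fun l _ => ?_
    rw [ContinuousLinearMap.smul_apply, Pi.smul_apply, smul_eq_mul, mul_comm]
  · rw [← Finset.sum_div, le_div_iff₀ hy]
    linarith
  · have e : β + T (y • v) = β + (y • T) v := by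
      rw [ContinuousLinearMap.smul_apply, map_smul]
    rw [e]
    exact RateP.unscale hy hG3

/-- **the function of a group over the moves `T` is Lipschitz** if the points have common
backgrounds -/
theorem psi_lip (H : OutS grp (Q.L x0 a b) dh n lam A φ r) (k : κ) {d : ℕ}
    (T : (Fin d → ℝ) →L[ℝ] (ι → ℝ))
    (hbg : ∀ M : ℝ, ∃ β : ι → ℝ, (∀ i, grp i = k → β i = 0) ∧
      ∀ u : Fin d → ℝ, ‖u‖ ≤ M → β + T u ∈ Q.L x0 a b) :
    LipschitzWith (Real.toNNReal ((Fintype.card ι : ℝ) * ‖T‖)) (fun u => φ k (T u)) := by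
  refine LipschitzWith.of_dist_le_mul fun u u' => ?_
  rw [Real.dist_eq, Real.coe_toNNReal _ (by positivity)]
  obtain ⟨β, hβ, hL⟩ := hbg (max ‖u‖ ‖u'‖)
  have e : ∀ u : Fin d → ℝ, φ k (T u) = φ k (β + T u) := fun u => H.loc k _ _ fun i hi => by
    rw [Pi.add_apply, hβ i hi, zero_add]
  rw [e u, e u']
  refine (OutS.lip_piece H k (hL u (le_max_left _ _)) (hL u' (le_max_right _ _))).trans ?_
  rw [add_sub_add_left_eq_sub, ← map_sub, mul_assoc, dist_eq_norm]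
  exact mul_le_mul_of_nonneg_left (T.le_opNorm _) (Nat.cast_nonneg _)

/-- rates at a differentiability point -/
theorem rateP_of_diff (H : OutS grp (Q.L x0 a b) dh n lam A φ r) (k : κ) {d : ℕ}
    {T : (Fin d → ℝ) →L[ℝ] (ι → ℝ)} {u : Fin d → ℝ}
    (hu : DifferentiableAt ℝ (fun u => φ k (T u)) u) {c0 : ι → ℝ}
    (hc : ∀ i, grp i = k → c0 i = T u i) :
    RateP (φ k) c0 T (fun i => -fderiv ℝ (fun u => φ k (T u)) u (Pi.single i 1)) := by
  refine RateP.transfer (c := T u) H ?_ hc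
  intro w
  have h1 := dir_of_fderiv hu w
  rw [clm_eq_sum (fderiv ℝ (fun u => φ k (T u)) u) w] at h1
  have e : -∑ i, -fderiv ℝ (fun u => φ k (T u)) u (Pi.single i 1) * w i =
      ∑ i, fderiv ℝ (fun u => φ k (T u)) u (Pi.single i 1) * w i := by
    rw [← Finset.sum_neg_distrib]
    exact Finset.sum_congr rfl fun i _ => by ring
  rw [e]
  refine h1.congr fun t => ?_
  simp only [map_add, map_smul]

end

/-- **rates `≥ q` near a segment ⊢ increment `≥ q y`** -/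
theorem seg_ge {d : ℕ} {Φ : (Fin d → ℝ) → ℝ} {K : ℝ≥0} {D : Set (Fin d → ℝ)}
    (hΦ : LipschitzOnWith K Φ D) (hD : IsOpen D) {p e : Fin d → ℝ} {y q : ℝ} (hy : 0 < y)
    (hseg : ∀ t ∈ Icc (0:ℝ) y, p + t • e ∈ D)
    (h : ∀ x ∈ D, DifferentiableAt ℝ Φ x → q ≤ -fderiv ℝ Φ x e) :
    q * y ≤ Φ p - Φ (p + y • e) := by
  by_contra hcon
  push Not at hcon
  have hcomp : IsCompact ((fun t : ℝ => p + t • e) '' Icc 0 y) :=
    isCompact_Icc.image (by fun_prop)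
  obtain ⟨ρ, hρ, hρD⟩ := hcomp.exists_thickening_subset_open hD (by
    rintro _ ⟨t, ht, rfl⟩; exact hseg t ht)
  set q' : ℝ := (Φ p - Φ (p + y • e)) / y with hq'
  have hq'y : q' * y = Φ p - Φ (p + y • e) := by rw [hq']; field_simp
  have hlt : q' < q := by
    rw [hq', div_lt_iff₀ hy]; exact hcon
  obtain ⟨x, -, hxD, -, hxd, hx⟩ := exists_rate_on (μ := (volume : Measure (Fin d → ℝ))) hΦ
    (p := p) (v := e) (y := y) (a := -q') (δ := (q - q') / 2) (η := ρ) hy hρ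
    (fun t ht x hx => hρD (by
      rw [mem_thickening_iff]
      exact ⟨_, ⟨t, ht, rfl⟩, hx⟩)) (by linarith) (by linarith) (N := univ)
    (Eventually.of_forall fun _ => mem_univ _)
  have := h x hxD hxd
  linarith

/-- a.e. `v` : `ψ` is differentiable at `(ζ, ζ + v i)` for a.e. `ζ` -/
theorem ae_line {ψ : (Fin 2 → ℝ) → ℝ} {K : ℝ≥0} (hψ : LipschitzWith K ψ) {d : ℕ} (i : Fin d) :
    ∀ᵐ v : Fin d → ℝ, ∀ᵐ ζ : ℝ, DifferentiableAt ℝ ψ ![ζ, ζ + v i] := by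
  have h1 : ∀ᵐ x : Fin 2 → ℝ, DifferentiableAt ℝ ψ x := hψ.ae_differentiableAt
  -- the map `(p, ζ) ↦ ![ζ, ζ + p]`
  have h2 : MeasurePreserving (fun z : ℝ × ℝ => (z.2, z.2 + z.1)) (volume.prod volume)
      (volume.prod volume) := measurePreserving_prod_add_swap volume volume
  have h3 : MeasurePreserving (MeasurableEquiv.finTwoArrow (α := ℝ)).symm
      (volume.prod volume) (volume : Measure (Fin 2 → ℝ)) :=
    (volume_preserving_finTwoArrow ℝ).symm _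
  have h4 := (h3.comp h2).quasiMeasurePreserving.ae h1
  have h5 : ∀ᵐ z : ℝ × ℝ ∂(volume.prod volume), DifferentiableAt ℝ ψ ![z.2, z.2 + z.1] := h4
  have h6 := Measure.ae_ae_of_ae_prod h5
  have h7 := (Measure.quasiMeasurePreserving_eval (fun _ : Fin d => (volume : Measure ℝ)) i).ae h6
  exact h7

/-- **a point of the line `(ζ, ζ + p)` with directional rate `≤ r + δ`** -/
theorem exists_line {ψ : (Fin 2 → ℝ) → ℝ} {K : ℝ≥0} (hψ : LipschitzWith K ψ) {r p δ : ℝ}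
    (hδ : 0 < δ) (hr : ∀ u : ℝ, ψ ![u, u] = -(r * u))
    (hd : ∀ᵐ ζ : ℝ, DifferentiableAt ℝ ψ ![ζ, ζ + p]) :
    ∃ ζ : ℝ, DifferentiableAt ℝ ψ ![ζ, ζ + p] ∧
      (-fderiv ℝ ψ ![ζ, ζ + p] (Pi.single 0 1)) + (-fderiv ℝ ψ ![ζ, ζ + p] (Pi.single 1 1)) ≤
        r + δ := by
  set Y : ℝ := (4 * K * |p| + 1) / δ with hY
  have hYpos : 0 < Y := by positivity
  have hYd : Y * δ = 4 * K * |p| + 1 := by rw [hY]; field_simp
  set g : ℝ → ℝ := fun ζ => ψ ![ζ, ζ + p] with hg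
  have hline : ∀ ζ : ℝ, (![ζ, ζ + p] : Fin 2 → ℝ) = ![0, p] + ζ • ![1, 1] := by
    intro ζ
    funext i
    fin_cases i <;> simp [add_comm]
  have hgl : LipschitzOnWith K g (Icc 0 Y) := by
    refine LipschitzOnWith.of_dist_le_mul fun x _ x' _ => ?_
    refine (hψ.dist_le_mul _ _).trans ?_
    refine mul_le_mul_of_nonneg_left ?_ K.2
    rw [dist_pi_le_iff dist_nonneg]
    intro i
    fin_cases i <;> simp [dist_eq_norm]
  have hdist : ∀ u : ℝ, |ψ ![u, u + p] - ψ ![u, u]| ≤ K * |p| := by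
    intro u
    have h1 := hψ.dist_le_mul ![u, u + p] ![u, u]
    rw [Real.dist_eq] at h1
    refine h1.trans (mul_le_mul_of_nonneg_left ?_ K.2)
    rw [dist_pi_le_iff (abs_nonneg _)]
    intro i
    fin_cases i <;> simp [dist_eq_norm]
  have d1 := abs_le.1 (hdist Y)
  have d0 := abs_le.1 (hdist 0)
  have hK0 : (0:ℝ) ≤ K * |p| := by positivity
  obtain ⟨ζ, -, hζ, hζd, hζr⟩ := exists_deriv_ge hgl hYpos (a := -(r + δ / 2)) (δ := δ / 2) (by
    have e0 := hr 0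
    have eY := hr Y
    simp only [hg]
    have e1 : Y * δ / 2 = 2 * (K * |p|) + 1 / 2 := by rw [hYd]; ring
    nlinarith [d1.1, d0.2]) (by linarith) (N := {ζ | DifferentiableAt ℝ ψ ![ζ, ζ + p]})
    (hd.mono fun ζ h _ => h)
  refine ⟨ζ, hζ, ?_⟩
  have hζ' : DifferentiableAt ℝ ψ ![ζ, ζ + p] := hζ
  have hder : HasDerivAt g (fderiv ℝ ψ ![ζ, ζ + p] ![1, 1]) ζ := by
    have h1 : HasDerivAt (fun ζ : ℝ => (![0, p] : Fin 2 → ℝ) + ζ • ![1, 1]) ![1, 1] ζ := by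
      have := ((hasDerivAt_id ζ).smul_const (![1, 1] : Fin 2 → ℝ)).const_add (![0, p] : Fin 2 → ℝ)
      simpa using this
    have h2 : HasFDerivAt ψ (fderiv ℝ ψ ![ζ, ζ + p]) (![0, p] + ζ • ![1, 1]) := by
      rw [← hline]; exact hζ'.hasFDerivAt
    have h3 := h2.comp_hasDerivAt ζ h1
    refine h3.congr_of_eventuallyEq (Eventually.of_forall fun x => ?_)
    simp only [hg, Function.comp]
    rw [hline]
  rw [hder.deriv] at hζr
  have e : (![1, 1] : Fin 2 → ℝ) = Pi.single 0 1 + Pi.single 1 1 := by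
    funext i
    fin_cases i <;> simp
  rw [e, map_add] at hζr
  linarith

end Crest.Agent.R116.SgO219
end

-- ▼ part R116/SgP_890
section

/-!
# R116 (K side, LEMMA SIG): the facts at a position, common interface of the cases (helper890)

* `RateBx lam c0 rz .. gB` : one-sided directional derivatives of `lam` at `c0`, all bx-directions
* `PosF lam s`             : the facts K1 F1 H1 K2 F2 S1 S2 at all positions `bg z X N F + T4 v`
* `rate_single`, `rate_zero`, `rate_pair` : rates of the groups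
* `rateBx_sum`             : from the groups to `RateBx`
* `slots0`, `slots2`       : the slots of the groups at `σ = 0`, `σ = 2`
-/

set_option autoImplicit false
set_option linter.unusedVariables false

open Set Filter Topology

namespace Crest.Agent.R116.SgP890

open Crest.Agent.R136
open Dg219 (Walls mw gset mem_gset gC dhC nC gC_zero gC_eq OutS)
open SgO219 (RateP)
open Sg337 (bx9)
open Sg635

/-- directional derivatives of `lam` at `c0` along the bx-directions of the cone -/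
def RateBx (lam : (Fin 12 → ℝ) → ℝ) (c0 : Fin 12 → ℝ) (rz rX rH rF gC gP gE gB : ℝ) : Prop :=
  ∀ z C p E B x H F : ℝ, bx9 z 0 E C x B H p F ∈ LMd →
    Tendsto (fun t : ℝ => (lam (c0 + t • bx9 z 0 E C x B H p F) - lam c0) / t) (𝓝[>] 0)
      (𝓝 (-(rz * z + rX * x + rH * H + rF * F + gC * C + gP * p + gE * E + gB * B)))

/-- the facts at the positions -/
structure PosF (lam : (Fin 12 → ℝ) → ℝ) (s : ℝ) : Prop where
  K1 : ∀ v ∈ Pos, ∀ z X N F : ℝ, bg z X N F + T4 v ∈ LMd → ∀ rz rX rH rF gC gP gE gB : ℝ,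
    RateBx lam (bg z X N F + T4 v) rz rX rH rF gC gP gE gB → X = z + v 0 →
    (0 < gC → 1 - s ≤ rX) ∧ (s < gC → 1 ≤ rX)
  H1 : ∀ v ∈ Pos, ∀ z X N F : ℝ, bg z X N F + T4 v ∈ LMd → ∀ rz rX rH rF gC gP gE gB : ℝ,
    RateBx lam (bg z X N F + T4 v) rz rX rH rF gC gP gE gB → N = v 0 + X → 0 < gC → rX ≤ rH
  K2 : ∀ v ∈ Pos, ∀ z X N F : ℝ, bg z X N F + T4 v ∈ LMd → ∀ rz rX rH rF gC gP gE gB : ℝ,
    RateBx lam (bg z X N F + T4 v) rz rX rH rF gC gP gE gB → F = z + v 1 →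
    (0 < gP → 1 - s ≤ rF) ∧ (s < gP → 1 ≤ rF)
  S1 : ∀ v ∈ Pos, ∀ z X N F : ℝ, bg z X N F + T4 v ∈ LMd → ∀ rz rX rH rF gC gP gE gB : ℝ,
    RateBx lam (bg z X N F + T4 v) rz rX rH rF gC gP gE gB → F = X + v 3 → 0 < gB → rX ≤ rF
  S2 : ∀ v ∈ Pos, ∀ z X N F : ℝ, bg z X N F + T4 v ∈ LMd → ∀ rz rX rH rF gC gP gE gB : ℝ,
    RateBx lam (bg z X N F + T4 v) rz rX rH rF gC gP gE gB → F = v 2 + N → 0 < gE → rH ≤ rF

/-! ### the cone -/

theorem LMd_add {p q : Fin 12 → ℝ} (hp : p ∈ LMd) (hq : q ∈ LMd) : p + q ∈ LMd := by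
  intro k e he h1
  have a := hp k e he h1
  have b := hq k e he h1
  have e1 : ∑ s, (e s : ℝ) * (p + q) s = ∑ s, (e s : ℝ) * p s + ∑ s, (e s : ℝ) * q s := by
    rw [← Finset.sum_add_distrib]
    exact Finset.sum_congr rfl fun s _ => by rw [Pi.add_apply]; ring
  rw [e1, Pi.add_apply]
  exact add_le_add a b

theorem LMd_smul {p : Fin 12 → ℝ} (hp : p ∈ LMd) {t : ℝ} (ht : 0 ≤ t) : t • p ∈ LMd := by
  intro k e he h1
  have a := hp k e he h1
  have e1 : ∑ s, (e s : ℝ) * (t • p) s = t * ∑ s, (e s : ℝ) * p s := by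
    rw [Finset.mul_sum]
    exact Finset.sum_congr rfl fun s _ => by rw [Pi.smul_apply, smul_eq_mul]; ring
  rw [e1, Pi.smul_apply, smul_eq_mul]
  exact mul_le_mul_of_nonneg_left a ht

theorem LMd_line {p c : Fin 12 → ℝ} (hp : p ∈ LMd) (hc : c ∈ LMd) {t : ℝ} (ht : 0 ≤ t) :
    p + t • c ∈ LMd := LMd_add hp (LMd_smul hc ht)

section

variable {θa θb : ℝ} {lam : (Fin 12 → ℝ) → ℝ} {A : ℝ × ℝ} {φ : ℕ → (Fin 12 → ℝ) → ℝ} {r : ℕ → ℝ}

/-- the splitting on `LMd` -/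
abbrev Out (θa θb : ℝ) (lam : (Fin 12 → ℝ) → ℝ) (A : ℝ × ℝ) (φ : ℕ → (Fin 12 → ℝ) → ℝ)
    (r : ℕ → ℝ) : Prop :=
  OutS (gC aS (bS θa θb)) LMd (dhC aS (bS θa θb)) (nC aS (bS θa θb)) lam A φ r

theorem Out.sum_lim (H : Out θa θb lam A φ r) {c0 c : Fin 12 → ℝ} (hc0 : c0 ∈ LMd) (hc : c ∈ LMd)
    {ρ : ℕ → ℝ} (hρ : ∀ k ∈ gset (gC aS (bS θa θb)),
      Tendsto (fun t : ℝ => (φ k (c0 + t • c) - φ k c0) / t) (𝓝[>] 0) (𝓝 (ρ k))) :
    Tendsto (fun t : ℝ => (lam (c0 + t • c) - lam c0) / t) (𝓝[>] 0)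
      (𝓝 (∑ k ∈ gset (gC aS (bS θa θb)), ρ k)) := by
  refine (tendsto_finsetSum _ hρ).congr' ?_
  filter_upwards [self_mem_nhdsWithin] with t ht
  rw [H.sum _ (LMd_line hc0 hc (le_of_lt ht)), H.sum _ hc0, ← Finset.sum_sub_distrib,
    Finset.sum_div]

/-- rate of a single group (all slots of the group have `dh = 1` and equal entries) -/
theorem Out.rate_single (H : Out θa θb lam A φ r) {k : ℕ} {c0 c : Fin 12 → ℝ} (hc0 : c0 ∈ LMd)
    (hc : c ∈ LMd) {u0 u : ℝ} (h0 : ∀ i, gC aS (bS θa θb) i = k → c0 i = u0 * dhC aS (bS θa θb) i)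
    (h1 : ∀ i, gC aS (bS θa θb) i = k → c i = u * dhC aS (bS θa θb) i) :
    Tendsto (fun t : ℝ => (φ k (c0 + t • c) - φ k c0) / t) (𝓝[>] 0) (𝓝 (-(r k * u))) := by
  refine tendsto_const_nhds.congr' ?_
  filter_upwards [self_mem_nhdsWithin] with t ht
  have ht' : (0:ℝ) < t := ht
  rw [H.rate k _ (LMd_line hc0 hc ht'.le) (u0 + t * u) (fun i hi => by
    rw [Pi.add_apply, Pi.smul_apply, smul_eq_mul, h0 i hi, h1 i hi]; ring),
    H.rate k _ hc0 u0 h0]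
  field_simp
  ring

/-- rate of the group `0` -/
theorem Out.rate_zero (H : Out θa θb lam A φ r) {c0 : Fin 12 → ℝ} {G : Fin 4 → ℝ}
    (hG : RateP (φ 0) c0 T4 G) (z C p E B x N F : ℝ) :
    Tendsto (fun t : ℝ => (φ 0 (c0 + t • bx9 z 0 E C x B N p F) - φ 0 c0) / t) (𝓝[>] 0)
      (𝓝 (-(G 0 * C + G 1 * p + G 2 * E + G 3 * B))) := by
  have h1 := hG ![C, p, E, B]
  have e : -∑ i, G i * (![C, p, E, B] : Fin 4 → ℝ) i =
      -(G 0 * C + G 1 * p + G 2 * E + G 3 * B) := by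
    simp [Fin.sum_univ_succ]; ring
  rw [e] at h1
  refine h1.congr fun t => ?_
  rw [H.loc 0 (c0 + t • T4 ![C, p, E, B]) (c0 + t • bx9 z 0 E C x B N p F) fun i hi => ?_]
  have hi' := g_zero.1 hi
  simp only [Pi.add_apply, Pi.smul_apply, smul_eq_mul]
  rw [T4_apply]
  fin_cases i <;> simp [bx9] at hi' ⊢

/-- rate of a pair group -/
theorem Out.rate_pair (H : Out θa θb lam A φ r) {k : ℕ} {c0 c : Fin 12 → ℝ}
    {T : (Fin 2 → ℝ) →L[ℝ] (Fin 12 → ℝ)} {G : Fin 2 → ℝ}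
    (hG : RateP (φ k) c0 T G) {u : Fin 2 → ℝ} (hc : ∀ i, gC aS (bS θa θb) i = k → c i = T u i) :
    Tendsto (fun t : ℝ => (φ k (c0 + t • c) - φ k c0) / t) (𝓝[>] 0)
      (𝓝 (-(G 0 * u 0 + G 1 * u 1))) := by
  have h1 := hG u
  have e : -∑ i, G i * u i = -(G 0 * u 0 + G 1 * u 1) := by
    rw [Fin.sum_univ_two]
  rw [e] at h1
  refine h1.congr fun t => ?_
  rw [H.loc k (c0 + t • T u) (c0 + t • c) fun i hi => by
    simp only [Pi.add_apply, Pi.smul_apply, smul_eq_mul]; rw [hc i hi]]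

/-! ### slots -/

theorem slots0 (ha : θa ≠ 0) (h0 : θb = 0) (i : Fin 12) :
    (gC aS (bS θa θb) i = kz θa θb ↔ i = 0 ∨ i = 11) ∧
    (gC aS (bS θa θb) i = kX θa θb ↔ i = 5 ∨ i = 6) ∧
    (gC aS (bS θa θb) i = kN θa θb ↔ i = 9) := by
  have a1 : kz θa θb ≠ kX θa θb := fun h => ha (kz_kX.1 h)
  have a2 : kz θa θb ≠ kN θa θb := fun h => ha (kz_kN.1 h)
  have a3 : kF θa θb = kz θa θb := (kz_kF.2 h0).symm
  have a4 : kX θa θb ≠ kN θa θb := fun h => ha (kX_kN.1 h)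
  have b1 := (kz_ne (θa := θa) (θb := θb)).symm
  have b2 := (kX_ne (θa := θa) (θb := θb)).symm
  have b3 := (kN_ne (θa := θa) (θb := θb)).symm
  by_cases hi : i ∈ ({1, 2, 3, 4, 7, 8, 10} : Finset (Fin 12))
  · have hg : gC aS (bS θa θb) i = 0 := g_zero.2 hi
    rw [hg]
    fin_cases i <;> simp at hi ⊢ <;> exact ⟨b1, b2, b3⟩
  · have e0 : gC aS (bS θa θb) 0 = kz θa θb := rfl
    have e5 : gC aS (bS θa θb) 5 = kX θa θb := rfl
    have e9 : gC aS (bS θa θb) 9 = kN θa θb := rfl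
    have e11 : gC aS (bS θa θb) 11 = kz θa θb := a3
    fin_cases i <;> simp at hi ⊢
    · simp [e0, a1, a2]
    · simp [e5, a1.symm, a4]
    · simp [g6, a1.symm, a4]
    · simp [e9, a2.symm, a4.symm]
    · simp [e11, a1, a2]

theorem slots2 (ha : θa ≠ 0) (h2 : θb = 2 * θa) (i : Fin 12) :
    (gC aS (bS θa θb) i = kz θa θb ↔ i = 0) ∧
    (gC aS (bS θa θb) i = kX θa θb ↔ i = 5 ∨ i = 6) ∧
    (gC aS (bS θa θb) i = kN θa θb ↔ i = 9 ∨ i = 11) := by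
  have a1 : kz θa θb ≠ kX θa θb := fun h => ha (kz_kX.1 h)
  have a2 : kz θa θb ≠ kN θa θb := fun h => ha (kz_kN.1 h)
  have a3 : kF θa θb = kN θa θb := (kN_kF.2 h2).symm
  have a4 : kX θa θb ≠ kN θa θb := fun h => ha (kX_kN.1 h)
  have b1 := (kz_ne (θa := θa) (θb := θb)).symm
  have b2 := (kX_ne (θa := θa) (θb := θb)).symm
  have b3 := (kN_ne (θa := θa) (θb := θb)).symm
  by_cases hi : i ∈ ({1, 2, 3, 4, 7, 8, 10} : Finset (Fin 12))
  · have hg : gC aS (bS θa θb) i = 0 := g_zero.2 hi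
    rw [hg]
    fin_cases i <;> simp at hi ⊢ <;> exact ⟨b1, b2, b3⟩
  · have e0 : gC aS (bS θa θb) 0 = kz θa θb := rfl
    have e5 : gC aS (bS θa θb) 5 = kX θa θb := rfl
    have e9 : gC aS (bS θa θb) 9 = kN θa θb := rfl
    have e11 : gC aS (bS θa θb) 11 = kN θa θb := a3
    fin_cases i <;> simp at hi ⊢
    · simp [e0, a1, a2]
    · simp [e5, a1.symm, a4]
    · simp [g6, a1.symm, a4]
    · simp [e9, a2.symm, a4.symm]
    · simp [e11, a2.symm, a4.symm]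

/-! ### pair moves -/

/-- moves of the pair `(z, F)` -/
def Tzl : (Fin 2 → ℝ) →ₗ[ℝ] (Fin 12 → ℝ) where
  toFun := fun u => bx9 (u 0) 0 0 0 0 0 0 0 (u 1)
  map_add' := fun v w => by funext k; fin_cases k <;> simp [bx9]
  map_smul' := fun c v => by funext k; fin_cases k <;> simp [bx9]

noncomputable def Tz : (Fin 2 → ℝ) →L[ℝ] (Fin 12 → ℝ) := LinearMap.toContinuousLinearMap Tzl

theorem Tz_apply (u : Fin 2 → ℝ) : Tz u = bx9 (u 0) 0 0 0 0 0 0 0 (u 1) := rfl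

/-- moves of the pair `(N, F)` -/
def Tnl : (Fin 2 → ℝ) →ₗ[ℝ] (Fin 12 → ℝ) where
  toFun := fun u => bx9 0 0 0 0 0 0 (u 0) 0 (u 1)
  map_add' := fun v w => by funext k; fin_cases k <;> simp [bx9]
  map_smul' := fun c v => by funext k; fin_cases k <;> simp [bx9]

noncomputable def Tn : (Fin 2 → ℝ) →L[ℝ] (Fin 12 → ℝ) := LinearMap.toContinuousLinearMap Tnl

theorem Tn_apply (u : Fin 2 → ℝ) : Tn u = bx9 0 0 0 0 0 0 (u 0) 0 (u 1) := rfl

theorem pv (z X N F : ℝ) (v : Fin 4 → ℝ) : (bg z X N F + T4 v) 0 = z ∧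
    (bg z X N F + T4 v) 5 = X ∧ (bg z X N F + T4 v) 6 = X ∧ (bg z X N F + T4 v) 9 = N ∧
    (bg z X N F + T4 v) 11 = F := by
  rw [bg_add]
  exact ⟨rfl, rfl, rfl, rfl, rfl⟩

theorem cv (z D E C X B N P F : ℝ) : bx9 z D E C X B N P F 0 = z ∧
    bx9 z D E C X B N P F 5 = X ∧ bx9 z D E C X B N P F 6 = X ∧ bx9 z D E C X B N P F 9 = N ∧
    bx9 z D E C X B N P F 11 = F := ⟨rfl, rfl, rfl, rfl, rfl⟩

end

end Crest.Agent.R116.SgP890
end

-- ▼ part R116/SgP2_890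
section

/-!
# R116 (K side, LEMMA SIG): rates at a position for `σ = 0`, `σ = 2`; `PosF` from `LinFacts`
(helper890)

* `Out.rateBx0`, `Out.rateBx2` : all rates at a position from the rates of the group `0` and of the
  pair group
* **`posF_of`** : `LinFacts` (665) + moving natural base ⊢ `PosF`
-/

set_option autoImplicit false
set_option linter.unusedVariables false

open Set Filter Topology

namespace Crest.Agent.R116.SgP890

open Crest.Agent.R136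
open Crest.Agent.R138
open Crest.Agent.R136.Net191
open Crest.Agent.R116.ChL222
open Dg219 (Walls mw gset mem_gset gC dhC nC gC_zero gC_eq OutS)
open SgO219 (RateP)
open Sg337 (bx9)
open Sg635
open SgF665 (LM0 wl LinTan LinFacts lin_at wl_add wl_smul)

theorem Tzv (u : Fin 2 → ℝ) : Tz u 0 = u 0 ∧ Tz u 11 = u 1 := by
  rw [Tz_apply]
  exact ⟨(cv _ _ _ _ _ _ _ _ _).1, (cv _ _ _ _ _ _ _ _ _).2.2.2.2⟩

theorem Tnv (u : Fin 2 → ℝ) : Tn u 9 = u 0 ∧ Tn u 11 = u 1 := by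
  rw [Tn_apply]
  exact ⟨(cv _ _ _ _ _ _ _ _ _).2.2.2.1, (cv _ _ _ _ _ _ _ _ _).2.2.2.2⟩

section

variable {θa θb : ℝ} {lam : (Fin 12 → ℝ) → ℝ} {A : ℝ × ℝ} {φ : ℕ → (Fin 12 → ℝ) → ℝ} {r : ℕ → ℝ}

/-- all rates at a position, `σ = 0` -/
theorem Out.rateBx0 (H : Out θa θb lam A φ r) (ha : θa ≠ 0) (h0 : θb = 0) {v : Fin 4 → ℝ}
    {ζ X N f : ℝ} (hc0 : bg ζ X N f + T4 v ∈ LMd) {G : Fin 4 → ℝ} {G2 : Fin 2 → ℝ}
    (hG : RateP (φ 0) (bg ζ X N f + T4 v) T4 G)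
    (hG2 : RateP (φ (kz θa θb)) (bg ζ X N f + T4 v) Tz G2) :
    RateBx lam (bg ζ X N f + T4 v) (G2 0) (r (kX θa θb)) (r (kN θa θb)) (G2 1)
      (G 0) (G 1) (G 2) (G 3) := by
  intro z C p E B x Nn F hc
  obtain ⟨d0, d5, d6, d9, d11⟩ := dh_single (θa := θa) (θb := θb)
  have hs := slots0 (θa := θa) (θb := θb) ha h0
  have e0 : (![z, F] : Fin 2 → ℝ) 0 = z := rfl
  have e1 : (![z, F] : Fin 2 → ℝ) 1 = F := rfl
  have l0 := H.rate_zero hG z C p E B x Nn F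
  have lz := H.rate_pair (c := bx9 z 0 E C x B Nn p F) hG2 (u := ![z, F]) (fun i hi => by
    rcases (hs i).1.1 hi with rfl | rfl
    · rw [(Tzv _).1, (cv z 0 E C x B Nn p F).1, e0]
    · rw [(Tzv _).2, (cv z 0 E C x B Nn p F).2.2.2.2, e1])
  rw [e0, e1] at lz
  have lX := H.rate_single (k := kX θa θb) hc0 hc (u0 := X) (u := x) (fun i hi => by
    rcases (hs i).2.1.1 hi with rfl | rfl
    · rw [d5, mul_one, (pv ζ X N f v).2.1]
    · rw [d6, mul_one, (pv ζ X N f v).2.2.1]) (fun i hi => by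
    rcases (hs i).2.1.1 hi with rfl | rfl
    · rw [d5, mul_one, (cv z 0 E C x B Nn p F).2.1]
    · rw [d6, mul_one, (cv z 0 E C x B Nn p F).2.2.1])
  have lN := H.rate_single (k := kN θa θb) hc0 hc (u0 := N) (u := Nn) (fun i hi => by
    rw [(hs i).2.2.1 hi, d9, mul_one, (pv ζ X N f v).2.2.2.1]) (fun i hi => by
    rw [(hs i).2.2.1 hi, d9, mul_one, (cv z 0 E C x B Nn p F).2.2.2.1])
  have hR' : ∀ k ∈ gset (gC aS (bS θa θb)), ∃ R : ℝ, Tendsto (fun t : ℝ =>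
      (φ k (bg ζ X N f + T4 v + t • bx9 z 0 E C x B Nn p F) - φ k (bg ζ X N f + T4 v)) / t)
      (𝓝[>] 0) (𝓝 R) := by
    intro k hk
    rw [gset_eq] at hk
    simp only [Finset.mem_insert, Finset.mem_singleton] at hk
    rcases hk with h | h | h | h | h
    · rw [h]; exact ⟨_, l0⟩
    · rw [h]; exact ⟨_, lz⟩
    · rw [h]; exact ⟨_, lX⟩
    · rw [h]; exact ⟨_, lN⟩
    · rw [h, ← kz_kF.2 h0]; exact ⟨_, lz⟩
  choose! R hR using hR'
  have key := Out.sum_lim H hc0 hc hR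
  rw [(gset_sum0 (θa := θa) (θb := θb) ha h0 R).2] at key
  have m0 : (0:ℕ) ∈ gset (gC aS (bS θa θb)) := by rw [gset_eq]; simp
  have mz : kz θa θb ∈ gset (gC aS (bS θa θb)) := by rw [gset_eq]; simp
  have mX : kX θa θb ∈ gset (gC aS (bS θa θb)) := by rw [gset_eq]; simp
  have mN : kN θa θb ∈ gset (gC aS (bS θa θb)) := by rw [gset_eq]; simp
  rw [tendsto_nhds_unique (hR 0 m0) l0, tendsto_nhds_unique (hR _ mz) lz,
    tendsto_nhds_unique (hR _ mX) lX, tendsto_nhds_unique (hR _ mN) lN] at key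
  have e : -(G 0 * C + G 1 * p + G 2 * E + G 3 * B) + -(G2 0 * z + G2 1 * F) +
      -(r (kX θa θb) * x) + -(r (kN θa θb) * Nn) =
      -(G2 0 * z + r (kX θa θb) * x + r (kN θa θb) * Nn + G2 1 * F + G 0 * C + G 1 * p +
        G 2 * E + G 3 * B) := by ring
  rw [e] at key
  exact key

/-- all rates at a position, `σ = 2` -/
theorem Out.rateBx2 (H : Out θa θb lam A φ r) (ha : θa ≠ 0) (h2 : θb = 2 * θa) {v : Fin 4 → ℝ}
    {ζ X N f : ℝ} (hc0 : bg ζ X N f + T4 v ∈ LMd) {G : Fin 4 → ℝ} {G2 : Fin 2 → ℝ}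
    (hG : RateP (φ 0) (bg ζ X N f + T4 v) T4 G)
    (hG2 : RateP (φ (kN θa θb)) (bg ζ X N f + T4 v) Tn G2) :
    RateBx lam (bg ζ X N f + T4 v) (r (kz θa θb)) (r (kX θa θb)) (G2 0) (G2 1)
      (G 0) (G 1) (G 2) (G 3) := by
  intro z C p E B x Nn F hc
  obtain ⟨d0, d5, d6, d9, d11⟩ := dh_single (θa := θa) (θb := θb)
  have hs := slots2 (θa := θa) (θb := θb) ha h2
  have e0 : (![Nn, F] : Fin 2 → ℝ) 0 = Nn := rfl
  have e1 : (![Nn, F] : Fin 2 → ℝ) 1 = F := rfl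
  have l0 := H.rate_zero hG z C p E B x Nn F
  have lN := H.rate_pair (c := bx9 z 0 E C x B Nn p F) hG2 (u := ![Nn, F]) (fun i hi => by
    rcases (hs i).2.2.1 hi with rfl | rfl
    · rw [(Tnv _).1, (cv z 0 E C x B Nn p F).2.2.2.1, e0]
    · rw [(Tnv _).2, (cv z 0 E C x B Nn p F).2.2.2.2, e1])
  rw [e0, e1] at lN
  have lX := H.rate_single (k := kX θa θb) hc0 hc (u0 := X) (u := x) (fun i hi => by
    rcases (hs i).2.1.1 hi with rfl | rfl
    · rw [d5, mul_one, (pv ζ X N f v).2.1]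
    · rw [d6, mul_one, (pv ζ X N f v).2.2.1]) (fun i hi => by
    rcases (hs i).2.1.1 hi with rfl | rfl
    · rw [d5, mul_one, (cv z 0 E C x B Nn p F).2.1]
    · rw [d6, mul_one, (cv z 0 E C x B Nn p F).2.2.1])
  have lz := H.rate_single (k := kz θa θb) hc0 hc (u0 := ζ) (u := z) (fun i hi => by
    rw [(hs i).1.1 hi, d0, mul_one, (pv ζ X N f v).1]) (fun i hi => by
    rw [(hs i).1.1 hi, d0, mul_one, (cv z 0 E C x B Nn p F).1])
  have hR' : ∀ k ∈ gset (gC aS (bS θa θb)), ∃ R : ℝ, Tendsto (fun t : ℝ =>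
      (φ k (bg ζ X N f + T4 v + t • bx9 z 0 E C x B Nn p F) - φ k (bg ζ X N f + T4 v)) / t)
      (𝓝[>] 0) (𝓝 R) := by
    intro k hk
    rw [gset_eq] at hk
    simp only [Finset.mem_insert, Finset.mem_singleton] at hk
    rcases hk with h | h | h | h | h
    · rw [h]; exact ⟨_, l0⟩
    · rw [h]; exact ⟨_, lz⟩
    · rw [h]; exact ⟨_, lX⟩
    · rw [h]; exact ⟨_, lN⟩
    · rw [h, ← kN_kF.2 h2]; exact ⟨_, lN⟩
  choose! R hR using hR'
  have key := Out.sum_lim H hc0 hc hR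
  rw [(gset_sum2 (θa := θa) (θb := θb) ha h2 R).2] at key
  have m0 : (0:ℕ) ∈ gset (gC aS (bS θa θb)) := by rw [gset_eq]; simp
  have mz : kz θa θb ∈ gset (gC aS (bS θa θb)) := by rw [gset_eq]; simp
  have mX : kX θa θb ∈ gset (gC aS (bS θa θb)) := by rw [gset_eq]; simp
  have mN : kN θa θb ∈ gset (gC aS (bS θa θb)) := by rw [gset_eq]; simp
  rw [tendsto_nhds_unique (hR 0 m0) l0, tendsto_nhds_unique (hR _ mz) lz,
    tendsto_nhds_unique (hR _ mX) lX, tendsto_nhds_unique (hR _ mN) lN] at key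
  have e : -(G 0 * C + G 1 * p + G 2 * E + G 3 * B) + -(r (kz θa θb) * z) +
      -(r (kX θa θb) * x) + -(G2 0 * Nn + G2 1 * F) =
      -(r (kz θa θb) * z + r (kX θa θb) * x + G2 0 * Nn + G2 1 * F + G 0 * C + G 1 * p +
        G 2 * E + G 3 * B) := by ring
  rw [e] at key
  exact key

end

/-! ### `PosF` from `LinFacts` -/


/-- the slots of a position -/
theorem posv (z X N F : ℝ) (v : Fin 4 → ℝ) : (bg z X N F + T4 v) 0 = z ∧
    (bg z X N F + T4 v) 2 = v 2 ∧ (bg z X N F + T4 v) 3 = v 0 ∧ (bg z X N F + T4 v) 4 = v 0 ∧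
    (bg z X N F + T4 v) 5 = X ∧ (bg z X N F + T4 v) 6 = X ∧ (bg z X N F + T4 v) 7 = v 3 ∧
    (bg z X N F + T4 v) 8 = v 3 ∧ (bg z X N F + T4 v) 9 = N ∧ (bg z X N F + T4 v) 10 = v 1 ∧
    (bg z X N F + T4 v) 11 = F := by
  rw [bg_add]
  exact ⟨rfl, rfl, rfl, rfl, rfl, rfl, rfl, rfl, rfl, rfl, rfl⟩

/-- walls at the natural base points -/
theorem walls_of {x : Fin 12 → ℝ} (hx : ∀ k, ∀ e ∈ monL.mon k, e 1 = 0 → x k = wl e x) :
    x 5 = x 0 + x 3 ∧ x 6 = x 0 + x 4 ∧ x 9 = x 3 + x 5 ∧ x 9 = x 4 + x 6 ∧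
    x 11 = x 0 + x 10 ∧ x 11 = x 7 + x 5 ∧ x 11 = x 8 + x 6 ∧ x 11 = x 2 + x 9 := by
  have g : ∀ (k : Fin 12) (e : Fin 12 → ℕ), e ∈ mfL k → e 1 = 0 → x k = wl e x := hx
  have a1 := g 5 ![1, 0, 0, 1, 0, 0, 0, 0, 0, 0, 0, 0] (by decide) rfl
  have a2 := g 6 ![1, 0, 0, 0, 1, 0, 0, 0, 0, 0, 0, 0] (by decide) rfl
  have b3 := g 9 ![0, 0, 0, 1, 0, 1, 0, 0, 0, 0, 0, 0] (by decide) rfl
  have b4 := g 9 ![0, 0, 0, 0, 1, 0, 1, 0, 0, 0, 0, 0] (by decide) rfl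
  have d1 := g 11 ![1, 0, 0, 0, 0, 0, 0, 0, 0, 0, 1, 0] (by decide) rfl
  have d2 := g 11 ![0, 0, 0, 0, 0, 1, 0, 1, 0, 0, 0, 0] (by decide) rfl
  have d3 := g 11 ![0, 0, 0, 0, 0, 0, 1, 0, 1, 0, 0, 0] (by decide) rfl
  have d6 := g 11 ![0, 0, 1, 0, 0, 0, 0, 0, 0, 1, 0, 0] (by decide) rfl
  simp [wl, Fin.sum_univ_succ] at a1 a2 b3 b4 d1 d2 d3 d6
  refine ⟨?_, ?_, ?_, ?_, ?_, ?_, ?_, ?_⟩ <;> linarith

/-- **`PosF` FROM `LinFacts`** -/
theorem posF_of {P : Set (Fin 12 → ℝ)} {θa θb lam0 : ℝ} (hl0 : lam0 ≠ 0)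
    {A : ℝ × ℝ} {φ : ℕ → (Fin 12 → ℝ) → ℝ} {r : ℕ → ℝ}
    {J : Type*} [Finite J] {f lam : J → (Fin 12 → ℝ) → ℝ} {j0 : J} {x : ℕ → Fin 12 → ℝ}
    {h : ℕ → ℝ} {K : ℝ} (hK : 0 ≤ K) (hpos : ∀ l, 0 < h l) (h0 : Tendsto h atTop (𝓝 0))
    (hx : ∀ l, ∀ k, ∀ e ∈ monL.mon k, e 1 = 0 → x l k = wl e (x l))
    (hxD : ∀ k, ∀ e ∈ monL.mon k, e 1 ≠ 0 → ∀ K : ℝ, ∀ᶠ l in atTop,
      x l k + K * h l ≤ wl e (x l))
    (ht : ∀ j, Ex926.IsTan P ((mw monL).L (xS lam0) aS (bS θa θb)) (f j) x h (lam j))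
    (hlip : ∀ j, ∀ p ∈ (mw monL).L (xS lam0) aS (bS θa θb), ∀ q ∈ (mw monL).L (xS lam0) aS
      (bS θa θb), |lam j p - lam j q| ≤ K * ‖p - q‖)
    (H : OutS (gC aS (bS θa θb)) ((mw monL).L (xS lam0) aS (bS θa θb)) (dhC aS (bS θa θb))
      (nC aS (bS θa θb)) (lam j0) A φ r)
    {sc : ℕ → ℝ} (spos : ∀ m, 0 < sc m) (s0 : Tendsto sc atTop (𝓝 0))
    {Bs : (ℕ → Fin 12 → ℝ) → (ℕ → ℝ) → Prop}
    (hBs : ∀ c0 ∈ LMd, c0 3 = c0 4 → c0 5 = c0 6 → c0 7 = c0 8 → ∀ ψ θ : ℕ → ℕ,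
      StrictMono ψ → StrictMono θ →
      Bs (fun m => x (ψ m) + h (ψ m) • c0) (fun m => h (ψ m) * sc (θ m)))
    {s : ℝ} (HL : LinFacts P f j0 Bs s) : PosF (lam j0) s := by
  have key : ∀ v ∈ Pos, ∀ z X N F : ℝ, bg z X N F + T4 v ∈ LMd →
      ∀ rz rX rH rF gC gP gE gB : ℝ, RateBx (lam j0) (bg z X N F + T4 v) rz rX rH rF gC gP gE gB →
      ∃ ψ θ : ℕ → ℕ, Bs (fun m => x (ψ m) + h (ψ m) • (bg z X N F + T4 v))
        (fun m => h (ψ m) * sc (θ m)) ∧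
        LinTan P f j0 (fun m => x (ψ m) + h (ψ m) • (bg z X N F + T4 v))
          (fun m => h (ψ m) * sc (θ m)) rz rX rH rF gC gP gE gB := by
    intro v hv z X N F hc rz rX rH rF gC gP gE gB hR
    obtain ⟨ψ, θ, hψ, hθ, hL⟩ := lin_at hK hpos h0 (L_eq hl0) hx hxD ht hlip H
      (c0 := bg z X N F + T4 v) hc spos s0 hR
    obtain ⟨p0, p2, p3, p4, p5, p6, p7, p8, p9, p10, p11⟩ := posv z X N F v
    exact ⟨ψ, θ, hBs _ hc (p3.trans p4.symm) (p5.trans p6.symm) (p7.trans p8.symm) ψ θ hψ hθ, hL⟩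
  refine ⟨?_, ?_, ?_, ?_, ?_⟩
  · intro v hv z X N F hc rz rX rH rF gC gP gE gB hR hX
    obtain ⟨ψ, θ, hB, hL⟩ := key v hv z X N F hc _ _ _ _ _ _ _ _ hR
    obtain ⟨p0, p2, p3, p4, p5, p6, p7, p8, p9, p10, p11⟩ := posv z X N F v
    refine HL.K1 _ _ _ _ _ _ _ _ _ _ hB hL (fun n => ?_) (fun n => ?_)
    · have w := walls_of (hx (ψ n))
      simp only [Pi.add_apply (x (ψ n)), Pi.smul_apply, smul_eq_mul, p0, p3, p5]
      rw [w.1, hX]; ring
    · have w := walls_of (hx (ψ n))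
      simp only [Pi.add_apply (x (ψ n)), Pi.smul_apply, smul_eq_mul, p0, p4, p6]
      rw [w.2.1, hX]; ring
  · intro v hv z X N F hc rz rX rH rF gC gP gE gB hR hX
    obtain ⟨ψ, θ, hB, hL⟩ := key v hv z X N F hc _ _ _ _ _ _ _ _ hR
    obtain ⟨p0, p2, p3, p4, p5, p6, p7, p8, p9, p10, p11⟩ := posv z X N F v
    refine HL.H1 _ _ _ _ _ _ _ _ _ _ hB hL (fun n => ?_) (fun n => ?_)
    · have w := (walls_of (hx (ψ n))).2.2.1
      simp only [Pi.add_apply (x (ψ n)), Pi.smul_apply, smul_eq_mul, p3, p5, p9]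
      rw [w, hX]; ring
    · have w := (walls_of (hx (ψ n))).2.2.2.1
      simp only [Pi.add_apply (x (ψ n)), Pi.smul_apply, smul_eq_mul, p4, p6, p9]
      rw [w, hX]; ring
  · intro v hv z X N F hc rz rX rH rF gC gP gE gB hR hX
    obtain ⟨ψ, θ, hB, hL⟩ := key v hv z X N F hc _ _ _ _ _ _ _ _ hR
    obtain ⟨p0, p2, p3, p4, p5, p6, p7, p8, p9, p10, p11⟩ := posv z X N F v
    refine HL.K2 _ _ _ _ _ _ _ _ _ _ hB hL (fun n => ?_)
    have w := (walls_of (hx (ψ n))).2.2.2.2.1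
    simp only [Pi.add_apply (x (ψ n)), Pi.smul_apply, smul_eq_mul, p0, p10, p11]
    rw [w, hX]; ring
  · intro v hv z X N F hc rz rX rH rF gC gP gE gB hR hX
    obtain ⟨ψ, θ, hB, hL⟩ := key v hv z X N F hc _ _ _ _ _ _ _ _ hR
    obtain ⟨p0, p2, p3, p4, p5, p6, p7, p8, p9, p10, p11⟩ := posv z X N F v
    refine HL.S1 _ _ _ _ _ _ _ _ _ _ hB hL (fun n => ?_) (fun n => ?_)
    · have w := (walls_of (hx (ψ n))).2.2.2.2.2.1
      simp only [Pi.add_apply (x (ψ n)), Pi.smul_apply, smul_eq_mul, p5, p7, p11]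
      rw [w, hX]; ring
    · have w := (walls_of (hx (ψ n))).2.2.2.2.2.2.1
      simp only [Pi.add_apply (x (ψ n)), Pi.smul_apply, smul_eq_mul, p6, p8, p11]
      rw [w, hX]; ring
  · intro v hv z X N F hc rz rX rH rF gC gP gE gB hR hX
    obtain ⟨ψ, θ, hB, hL⟩ := key v hv z X N F hc _ _ _ _ _ _ _ _ hR
    obtain ⟨p0, p2, p3, p4, p5, p6, p7, p8, p9, p10, p11⟩ := posv z X N F v
    refine HL.S2 _ _ _ _ _ _ _ _ _ _ hB hL (fun n => ?_)
    have w := (walls_of (hx (ψ n))).2.2.2.2.2.2.2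
    simp only [Pi.add_apply (x (ψ n)), Pi.smul_apply, smul_eq_mul, p2, p9, p11]
    rw [w, hX]; ring

end Crest.Agent.R116.SgP890
end

-- ▼ part R116/Sg3c_890

/-!
# R116 (K side, LEMMA SIG), `σ = 0` and `σ = 2` (helper890; docs 2383, 439's positions, 905's SIG2)

* `sig0_core`, `sig2_core` : over `PosF`
-/

set_option autoImplicit false
set_option linter.unusedVariables false

open Set Filter Topology MeasureTheory

namespace Crest.Agent.R116.SgP890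

open Crest.Agent.R136
open Crest.Agent.R138
open Crest.Agent.R136.Net191
open Crest.Agent.R116.ChL222
open Dg219 (Walls mw gset mem_gset gC dhC nC gC_zero gC_eq OutS)
open SgO219 (RateP exists_posn_y psi_lip rateP_of_diff seg_ge ae_line exists_line)
open Sg337 (bx9 uC uP uCP)
open Sg388 (ind)
open Sg635

/-- `bg` vanishes on the group `0` -/
theorem bg_zero {θa θb : ℝ} {z X N F : ℝ} {i : Fin 12} (hi : gC aS (bS θa θb) i = 0) :
    bg z X N F i = 0 := by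
  have h := g_zero.1 hi
  revert h
  fin_cases i <;> simp [bg, bx9]

section

variable {θa θb : ℝ} {lam : (Fin 12 → ℝ) → ℝ} {A : ℝ × ℝ} {φ : ℕ → (Fin 12 → ℝ) → ℝ} {r : ℕ → ℝ}

theorem zero_mem : (0 : Fin 12 → ℝ) ∈ LMd := by
  have := mem_bx (z := 0) (D := 0) (E := 0) (C := 0) (X := 0) (B := 0) (N := 0) (P := 0) (F := 0)
  have e : bx9 0 0 0 0 0 0 0 0 0 = (0 : Fin 12 → ℝ) := by
    funext k; fin_cases k <;> rfl
  rw [e] at this
  exact this.2 (by simp)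

/-- transfer of the rates of the group `0` to a position with background -/
theorem Out.rate0_bg (H : Out θa θb lam A φ r) {v : Fin 4 → ℝ} {G : Fin 4 → ℝ}
    (hG : RateP (φ 0) (0 + T4 v) T4 G) (z X N F : ℝ) :
    RateP (φ 0) (bg z X N F + T4 v) T4 G := by
  refine RateP.transfer (Q := mw monL) (x0 := xS 1) (a := aS) (b := bS θa θb) (lam := lam)
    (A := A) (r := r) (grp := gC aS (bS θa θb)) (dh := dhC aS (bS θa θb))
    (n := nC aS (bS θa θb)) (by rw [L_eq one_ne_zero]; exact H) hG fun i hi => ?_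
  rw [Pi.add_apply, Pi.add_apply, bg_zero hi, Pi.zero_apply]

/-- **positions of the group `0`** -/
theorem Out.pos4 (H : Out θa θb lam A φ r) {S : Finset (Fin 4)}
    (hS : S = {0} ∨ S = {0, 1} ∨ S = {1, 2, 3}) {D : Set (Fin 4 → ℝ)} (hDo : IsOpen D)
    (hDP : D ⊆ Pos) (hDs : ∀ ε : ℝ, 0 < ε → ∀ t : ℝ, 0 ≤ t →
      ε • (fun _ => (1:ℝ)) + ind S t ∈ D) {y q δ η : ℝ} (hy : 0 < y)
    (hq : q * y ≤ φ 0 0 - φ 0 (T4 (ind S y))) (hδ : 0 < δ) (hη : 0 < η)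
    {N : Set (Fin 4 → ℝ)} (hN : ∀ᵐ v, v ∈ N) :
    ∃ v ∈ N, v ∈ D ∧ (∃ t ∈ Icc (0:ℝ) y, ‖v - ind S t‖ < η) ∧ ∃ G : Fin 4 → ℝ,
      (∀ i, 0 ≤ G i) ∧ q - δ ≤ ∑ i ∈ S, G i ∧ RateP (φ 0) (0 + T4 v) T4 G := by
  obtain ⟨v, h1, h2, h3, G, h4, -, h5, h6⟩ := exists_posn_y (Q := mw monL) (x0 := xS 1) (a := aS)
    (b := bS θa θb) (lam := lam) (A := A) (r := r) (grp := gC aS (bS θa θb))
    (dh := dhC aS (bS θa θb)) (n := nC aS (bS θa θb)) (φ := φ)
    (by rw [L_eq one_ne_zero]; exact H) 0 (T := T4) T4_nonneg (β := 0) (fun i _ => rfl)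
    (D := D) hDo (fun v hv => by
      rw [L_eq one_ne_zero, zero_add]; exact pos_mem (hDP hv)) (S := S)
    (w0 := fun _ => (1:ℝ)) hy (fun ε hε t ht => hDs ε hε t ht.1) hq hδ hη hN
  exact ⟨v, h1, h2, h3, G, h4, h5, h6⟩

/-- increments of `lam` in the group `0` are increments of `φ 0` -/
theorem Out.lam_zero (H : Out θa θb lam A φ r) {c : Fin 12 → ℝ} (hc : c ∈ LMd)
    (h : ∀ i, gC aS (bS θa θb) i ≠ 0 → c i = 0) : lam c = φ 0 c := by
  rw [H.sum c hc]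
  have m0 : (0:ℕ) ∈ gset (gC aS (bS θa θb)) := by rw [gset_eq]; simp
  rw [← Finset.add_sum_erase _ _ m0, Finset.sum_eq_zero, add_zero]
  intro k hk
  refine H.zero k c fun i hi => h i ?_
  rw [hi]
  exact Finset.ne_of_mem_erase hk

theorem T4_off {v : Fin 4 → ℝ} {i : Fin 12} (hi : gC aS (bS θa θb) i ≠ 0) : T4 v i = 0 := by
  rw [T4_apply]
  rw [Ne, g_zero] at hi
  revert hi
  fin_cases i <;> simp [bx9]

theorem ind_mem {S : Finset (Fin 4)} (hS : S = {0} ∨ S = {0, 1} ∨ S = {1, 2, 3}) {y : ℝ}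
    (hy : 0 ≤ y) : T4 (ind S y) ∈ LMd := by
  rw [T4_apply, mem_bx]
  rcases hS with rfl | rfl | rfl <;> simp [ind] <;> (try constructor) <;> linarith

/-- increments of `φ 0` from increments of `lam` -/
theorem Out.incr0 (H : Out θa θb lam A φ r) {S : Finset (Fin 4)}
    (hS : S = {0} ∨ S = {0, 1} ∨ S = {1, 2, 3}) {y q : ℝ} (hy : 0 < y)
    (hq : q * y ≤ -lam (T4 (ind S y))) : q * y ≤ φ 0 0 - φ 0 (T4 (ind S y)) := by
  rw [H.lam_zero (ind_mem hS hy.le) fun i hi => T4_off hi] at hq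
  rw [H.zero 0 0 fun i _ => rfl]
  linarith

/-- difference of `lam` = difference of one group function -/
theorem Out.lam_diff (H : Out θa θb lam A φ r) {k : ℕ} (hk : k ∈ gset (gC aS (bS θa θb)))
    {c c' : Fin 12 → ℝ} (hc : c ∈ LMd) (hc' : c' ∈ LMd)
    (h : ∀ i, gC aS (bS θa θb) i ≠ k → c i = c' i) : lam c - lam c' = φ k c - φ k c' := by
  rw [H.sum c hc, H.sum c' hc', ← Finset.add_sum_erase _ _ hk, ← Finset.add_sum_erase _ _ hk]
  have e : ∑ j ∈ (gset (gC aS (bS θa θb))).erase k, φ j c =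
      ∑ j ∈ (gset (gC aS (bS θa θb))).erase k, φ j c' :=
    Finset.sum_congr rfl fun j hj => H.loc j c c' fun i hi => h i (by
      rw [hi]; exact Finset.ne_of_mem_erase hj)
  rw [e]; ring

/-! ### `σ = 0` -/

/-- background for the pair `(z, F)` -/
theorem bgz_mem {M : ℝ} {u : Fin 2 → ℝ} (hu : ‖u‖ ≤ M) :
    bx9 0 0 (2 * M) M 0 (2 * M) 0 (2 * M) 0 + Tz u ∈ LMd := by
  have h0 := (norm_le_pi_norm u 0).trans hu
  have h1 := (norm_le_pi_norm u 1).trans hu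
  rw [Real.norm_eq_abs, abs_le] at h0 h1
  have e : bx9 0 0 (2 * M) M 0 (2 * M) 0 (2 * M) 0 + Tz u =
      bx9 (u 0) 0 (2 * M) M 0 (2 * M) 0 (2 * M) (u 1) := by
    rw [Tz_apply]; funext k; fin_cases k <;> simp [bx9]
  rw [e, mem_bx]
  refine ⟨?_, ?_, ?_, ?_, ?_, ?_, ?_⟩ <;> linarith [h0.1, h0.2, h1.1, h1.2]

/-- background for the pair `(N, F)` -/
theorem bgn_mem {M : ℝ} {u : Fin 2 → ℝ} (hu : ‖u‖ ≤ M) :
    bx9 (4 * M) 0 (2 * M) M (2 * M) (2 * M) 0 (2 * M) 0 + Tn u ∈ LMd := by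
  have h0 := (norm_le_pi_norm u 0).trans hu
  have h1 := (norm_le_pi_norm u 1).trans hu
  rw [Real.norm_eq_abs, abs_le] at h0 h1
  have e : bx9 (4 * M) 0 (2 * M) M (2 * M) (2 * M) 0 (2 * M) 0 + Tn u =
      bx9 (4 * M) 0 (2 * M) M (2 * M) (2 * M) (u 0) (2 * M) (u 1) := by
    rw [Tn_apply]; funext k; fin_cases k <;> simp [bx9]
  rw [e, mem_bx]
  refine ⟨?_, ?_, ?_, ?_, ?_, ?_, ?_⟩ <;> linarith [h0.1, h0.2, h1.1, h1.2]

theorem bgz_off (ha : θa ≠ 0) (h0 : θb = 0) (M : ℝ) {i : Fin 12}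
    (hi : gC aS (bS θa θb) i = kz θa θb) :
    bx9 0 0 (2 * M) M 0 (2 * M) 0 (2 * M) 0 i = 0 := by
  rcases (slots0 ha h0 i).1.1 hi with rfl | rfl
  · exact (cv _ _ _ _ _ _ _ _ _).1
  · exact (cv _ _ _ _ _ _ _ _ _).2.2.2.2

theorem bgn_off (ha : θa ≠ 0) (h2 : θb = 2 * θa) (M : ℝ) {i : Fin 12}
    (hi : gC aS (bS θa θb) i = kN θa θb) :
    bx9 (4 * M) 0 (2 * M) M (2 * M) (2 * M) 0 (2 * M) 0 i = 0 := by
  rcases (slots2 ha h2 i).2.2.1 hi with rfl | rfl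
  · exact (cv _ _ _ _ _ _ _ _ _).2.2.2.1
  · exact (cv _ _ _ _ _ _ _ _ _).2.2.2.2

theorem Out.lipz (H : Out θa θb lam A φ r) (ha : θa ≠ 0) (h0 : θb = 0) :
    LipschitzWith (Real.toNNReal ((Fintype.card (Fin 12) : ℝ) * ‖Tz‖))
      (fun u => φ (kz θa θb) (Tz u)) :=
  psi_lip (Q := mw monL) (x0 := xS 1) (a := aS) (b := bS θa θb) (lam := lam) (A := A) (r := r)
    (grp := gC aS (bS θa θb)) (dh := dhC aS (bS θa θb)) (n := nC aS (bS θa θb)) (φ := φ)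
    (by rw [L_eq one_ne_zero]; exact H) (kz θa θb) Tz fun M =>
    ⟨_, fun i hi => bgz_off ha h0 M hi, fun u hu => by rw [L_eq one_ne_zero]; exact bgz_mem hu⟩

theorem Out.lipn (H : Out θa θb lam A φ r) (ha : θa ≠ 0) (h2 : θb = 2 * θa) :
    LipschitzWith (Real.toNNReal ((Fintype.card (Fin 12) : ℝ) * ‖Tn‖))
      (fun u => φ (kN θa θb) (Tn u)) :=
  psi_lip (Q := mw monL) (x0 := xS 1) (a := aS) (b := bS θa θb) (lam := lam) (A := A) (r := r)
    (grp := gC aS (bS θa θb)) (dh := dhC aS (bS θa θb)) (n := nC aS (bS θa θb)) (φ := φ)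
    (by rw [L_eq one_ne_zero]; exact H) (kN θa θb) Tn fun M =>
    ⟨_, fun i hi => bgn_off ha h2 M hi, fun u hu => by rw [L_eq one_ne_zero]; exact bgn_mem hu⟩

theorem Out.ratez (H : Out θa θb lam A φ r) (ha : θa ≠ 0) (h0 : θb = 0) (u : ℝ) :
    φ (kz θa θb) (Tz ![u, u]) = -(r (kz θa θb) * u) := by
  obtain ⟨d0, d5, d6, d9, d11⟩ := dh_single (θa := θa) (θb := θb)
  set M : ℝ := ‖(![u, u] : Fin 2 → ℝ)‖ with hM
  have h1 := H.rate (kz θa θb) _ (bgz_mem (M := M) (u := ![u, u]) le_rfl) u (fun i hi => by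
    rw [Pi.add_apply, bgz_off ha h0 M hi, zero_add]
    rcases (slots0 ha h0 i).1.1 hi with rfl | rfl
    · rw [d0, mul_one, (Tzv _).1]; rfl
    · rw [d11, mul_one, (Tzv _).2]; rfl)
  rw [← h1]
  exact H.loc _ _ _ fun i hi => by rw [Pi.add_apply, bgz_off ha h0 M hi, zero_add]

theorem Out.raten (H : Out θa θb lam A φ r) (ha : θa ≠ 0) (h2 : θb = 2 * θa) (u : ℝ) :
    φ (kN θa θb) (Tn ![u, u]) = -(r (kN θa θb) * u) := by
  obtain ⟨d0, d5, d6, d9, d11⟩ := dh_single (θa := θa) (θb := θb)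
  set M : ℝ := ‖(![u, u] : Fin 2 → ℝ)‖ with hM
  have h1 := H.rate (kN θa θb) _ (bgn_mem (M := M) (u := ![u, u]) le_rfl) u (fun i hi => by
    rw [Pi.add_apply, bgn_off ha h2 M hi, zero_add]
    rcases (slots2 ha h2 i).2.2.1 hi with rfl | rfl
    · rw [d9, mul_one, (Tnv _).1]; rfl
    · rw [d11, mul_one, (Tnv _).2]; rfl)
  rw [← h1]
  exact H.loc _ _ _ fun i hi => by rw [Pi.add_apply, bgn_off ha h2 M hi, zero_add]

/-- own rate of `z` at a point of the pair `(z, F)` -/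
theorem Out.own_rate (H : Out θa θb lam A φ r) (ha : θa ≠ 0) (h0 : θb = 0) {s : ℝ}
    (hown : ∀ p ∈ LMd, ∀ q ∈ LMd, p ≤ q → (1 - s) * (q 0 - p 0) ≤ lam p - lam q)
    {u : Fin 2 → ℝ} (hu : DifferentiableAt ℝ (fun u => φ (kz θa θb) (Tz u)) u) :
    1 - s ≤ -fderiv ℝ (fun u => φ (kz θa θb) (Tz u)) u (Pi.single 0 1) := by
  have h1 := SgO219.dir_of_fderiv hu (Pi.single 0 1)
  have h2 : fderiv ℝ (fun u => φ (kz θa θb) (Tz u)) u (Pi.single 0 1) ≤ -(1 - s) := by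
    refine le_of_tendsto h1 ?_
    filter_upwards [Ioo_mem_nhdsGT (zero_lt_one' ℝ)] with t ht
    rw [div_le_iff₀ ht.1]
    set M : ℝ := ‖u‖ + 1 with hM
    have b1 : ‖u‖ ≤ M := by rw [hM]; linarith
    have b2 : ‖u + t • (Pi.single 0 1 : Fin 2 → ℝ)‖ ≤ M := by
      refine (norm_add_le _ _).trans ?_
      rw [norm_smul, Real.norm_of_nonneg ht.1.le, hM]
      have : ‖(Pi.single 0 1 : Fin 2 → ℝ)‖ ≤ 1 := by
        rw [Pi.norm_single]; simp
      nlinarith [ht.1, ht.2]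
    have m1 := bgz_mem b1
    have m2 := bgz_mem b2
    have hle : bx9 0 0 (2 * M) M 0 (2 * M) 0 (2 * M) 0 + Tz u ≤
        bx9 0 0 (2 * M) M 0 (2 * M) 0 (2 * M) 0 + Tz (u + t • (Pi.single 0 1 : Fin 2 → ℝ)) := by
      refine add_le_add le_rfl ?_
      rw [Tz_apply, Tz_apply]
      refine Sg337.bx9_le ?_ le_rfl le_rfl le_rfl le_rfl le_rfl le_rfl le_rfl ?_
      · simp [ht.1.le]
      · simp
    have h3 := hown _ m1 _ m2 hle
    have e0 : (bx9 0 0 (2 * M) M 0 (2 * M) 0 (2 * M) 0 +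
        Tz (u + t • (Pi.single 0 1 : Fin 2 → ℝ))) 0 -
        (bx9 0 0 (2 * M) M 0 (2 * M) 0 (2 * M) 0 + Tz u) 0 = t := by
      rw [Pi.add_apply, Pi.add_apply, (Tzv _).1, (Tzv _).1]
      simp
    rw [e0, H.lam_diff (k := kz θa θb) (by rw [gset_eq]; simp) m1 m2 (fun i hi => by
      rw [Pi.add_apply, Pi.add_apply]
      congr 1
      have hi' : i ≠ 0 ∧ i ≠ 11 := by
        constructor
        · intro h; exact hi ((slots0 ha h0 i).1.2 (Or.inl h))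
        · intro h; exact hi ((slots0 ha h0 i).1.2 (Or.inr h))
      rw [Tz_apply, Tz_apply]
      revert hi'
      fin_cases i <;> simp [bx9])] at h3
    have l1 : φ (kz θa θb) (bx9 0 0 (2 * M) M 0 (2 * M) 0 (2 * M) 0 + Tz u) =
        φ (kz θa θb) (Tz u) := H.loc _ _ _ fun i hi => by
      rw [Pi.add_apply, bgz_off ha h0 M hi, zero_add]
    have l2 : φ (kz θa θb) (bx9 0 0 (2 * M) M 0 (2 * M) 0 (2 * M) 0 +
        Tz (u + t • (Pi.single 0 1 : Fin 2 → ℝ))) =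
        φ (kz θa θb) (Tz (u + t • (Pi.single 0 1 : Fin 2 → ℝ))) := H.loc _ _ _ fun i hi => by
      rw [Pi.add_apply, bgz_off ha h0 M hi, zero_add]
    rw [l1, l2] at h3
    linarith
  linarith

end

end Crest.Agent.R116.SgP890
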