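import Crest.Agent.R116.Sg3a_665
import Crest.Agent.R116.Sg3a_635
import Crest.Agent.R116.RowU4_194
import Crest.Agent.R116.Sg3c_890

-- ▼ part R116/Sg3b_665
section

/-!
# R116 (K side, LEMMA SIG, generic `σ`), junction 2 (helper665; doc 2383 of 194)

* `Gen` : the slots `z, X, N, F` are single groups; `facts_gen` : the seven implications at a
  position of the group `0`; `posn` : positions for `{C}`, `{C, P}`, `{P, E, B}`
* **`sig_false`** : three increments + total rate + `LinFacts` ⊢ `False`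
-/

set_option autoImplicit false
set_option linter.unusedVariables false

open Set Filter Topology Metric

namespace Crest.Agent.R116.SgF665

open Crest.Agent.R136
open Crest.Agent.R138
open Crest.Agent.R136.Net191
open Crest.Agent.R116.ChL222
open Crest.Agent.R116.Sg337 (bx9)
open Dg219 (Walls gset mem_gset OutS gC dhC nC gC_zero gC_eq)
open SgO219 (LT L_sub_LT OutL exists_lin RateP exists_pos)
open Sg388 (ind)

section

variable {a b : Fin 12 → ℝ}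

theorem Gen.g0 (G : Gen a b) {i : Fin 12}
    (h : i = 1 ∨ i = 2 ∨ i = 3 ∨ i = 4 ∨ i = 7 ∨ i = 8 ∨ i = 10) : gC a b i = 0 :=
  gC_zero.2 (G.a0 i h)

theorem Gen.ne0 (G : Gen a b) {i : Fin 12} (h : i = 0 ∨ i = 5 ∨ i = 6 ∨ i = 9 ∨ i = 11) :
    a i ≠ 0 := by rw [G.a1 i h]; exact one_ne_zero

theorem Gen.eq_iff (G : Gen a b) {i j : Fin 12} (hi : i = 0 ∨ i = 5 ∨ i = 6 ∨ i = 9 ∨ i = 11)
    (hj : j = 0 ∨ j = 5 ∨ j = 6 ∨ j = 9 ∨ j = 11) : gC a b i = gC a b j ↔ b i = b j := by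
  rw [gC_eq (G.ne0 hi) (G.ne0 hj), G.a1 i hi, G.a1 j hj, div_one, div_one]

theorem Gen.e56 (G : Gen a b) : gC a b 6 = gC a b 5 :=
  (G.eq_iff (by decide) (by decide)).2 G.b56.symm

/-- the slots of each group -/
theorem Gen.cases (G : Gen a b) (i : Fin 12) :
    (gC a b i = 0 ∧ (i = 1 ∨ i = 2 ∨ i = 3 ∨ i = 4 ∨ i = 7 ∨ i = 8 ∨ i = 10)) ∨
    (i = 0) ∨ (i = 5 ∨ i = 6) ∨ (i = 9) ∨ (i = 11) := by
  by_cases h : i = 1 ∨ i = 2 ∨ i = 3 ∨ i = 4 ∨ i = 7 ∨ i = 8 ∨ i = 10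
  · exact Or.inl ⟨G.g0 h, h⟩
  · right
    revert h
    revert i
    decide

theorem Gen.pos (G : Gen a b) {i : Fin 12} (h : i = 0 ∨ i = 5 ∨ i = 6 ∨ i = 9 ∨ i = 11) :
    gC a b i ≠ 0 := fun h1 => G.ne0 h (gC_zero.1 h1)

theorem Gen.dh (G : Gen a b) {i : Fin 12} (h : i = 0 ∨ i = 5 ∨ i = 6 ∨ i = 9 ∨ i = 11) :
    dhC a b i = 1 := by
  unfold dhC; rw [if_neg (G.ne0 h), G.a1 i h]

theorem Gen.gset_eq (G : Gen a b) : gset (gC a b) =
    {0, gC a b 0, gC a b 5, gC a b 9, gC a b 11} := by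
  ext k
  simp only [Finset.mem_insert, Finset.mem_singleton]
  constructor
  · intro hk
    obtain ⟨i, -, hi⟩ := Finset.mem_image.1 hk
    rcases G.cases i with h | h | (h | h) | h | h
    · left; rw [← hi, h.1]
    · subst h; right; left; exact hi.symm
    · subst h; right; right; left; exact hi.symm
    · subst h; right; right; left; rw [← hi, G.e56]
    · subst h; right; right; right; left; exact hi.symm
    · subst h; right; right; right; right; exact hi.symm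
  · rintro (h | h | h | h | h)
    · rw [h, ← G.g0 (i := 1) (by decide)]; exact mem_gset 1
    · rw [h]; exact mem_gset 0
    · rw [h]; exact mem_gset 5
    · rw [h]; exact mem_gset 9
    · rw [h]; exact mem_gset 11

theorem Gen.sum_eq (G : Gen a b) (R : ℕ → ℝ) : ∑ k ∈ gset (gC a b), R k =
    R 0 + R (gC a b 0) + R (gC a b 5) + R (gC a b 9) + R (gC a b 11) := by
  have h1 : gC a b 0 ≠ gC a b 5 := fun h => G.n05 ((G.eq_iff (by decide) (by decide)).1 h)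
  have h2 : gC a b 0 ≠ gC a b 9 := fun h => G.n09 ((G.eq_iff (by decide) (by decide)).1 h)
  have h3 : gC a b 0 ≠ gC a b 11 := fun h => G.n011 ((G.eq_iff (by decide) (by decide)).1 h)
  have h4 : gC a b 5 ≠ gC a b 9 := fun h => G.n59 ((G.eq_iff (by decide) (by decide)).1 h)
  have h5 : gC a b 5 ≠ gC a b 11 := fun h => G.n511 ((G.eq_iff (by decide) (by decide)).1 h)
  have h6 : gC a b 9 ≠ gC a b 11 := fun h => G.n911 ((G.eq_iff (by decide) (by decide)).1 h)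
  have p0 := (G.pos (i := 0) (by decide)).symm
  have p5 := (G.pos (i := 5) (by decide)).symm
  have p9 := (G.pos (i := 9) (by decide)).symm
  have p11 := (G.pos (i := 11) (by decide)).symm
  rw [G.gset_eq, Finset.sum_insert (by simp [p0, p5, p9, p11]), Finset.sum_insert
    (by simp [h1, h2, h3]), Finset.sum_insert (by simp [h4, h5]), Finset.sum_insert (by simp [h6]),
    Finset.sum_singleton]
  ring

theorem Gen.sum_eq' (G : Gen a b) (R : ℕ → ℝ) : ∑ k ∈ (gset (gC a b)).erase 0, R k =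
    R (gC a b 0) + R (gC a b 5) + R (gC a b 9) + R (gC a b 11) := by
  have h1 : (0:ℕ) ∈ gset (gC a b) := by rw [G.gset_eq]; simp
  have h2 := Finset.add_sum_erase _ R h1
  rw [G.sum_eq] at h2
  linarith

end

section

variable {W : Type*} [Fintype W] {Q : Walls (Fin 12) W} {x0 a b : Fin 12 → ℝ}
  {A : ℝ × ℝ} {lam0 : (Fin 12 → ℝ) → ℝ} {φ : ℕ → (Fin 12 → ℝ) → ℝ} {r : ℕ → ℝ}

/-- directional derivatives at an offset, from the rates of the group `0` -/
theorem dir_gen (G : Gen a b) (hQ : Q.L x0 a b = LM0)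
    (H : OutS (gC a b) (Q.L x0 a b) (dhC a b) (nC a b) lam0 A φ r)
    {z C p E B x H' F : ℝ} (hc0 : bx9 z 0 E C x B H' p F ∈ LM0) {g : Fin 4 → ℝ}
    (hR : RateP (φ 0) (bx9 z 0 E C x B H' p F) T4 g)
    {z' C' p' E' B' x' H'' F' : ℝ} (hc : bx9 z' 0 E' C' x' B' H'' p' F' ∈ LM0) :
    Tendsto (fun t : ℝ => (lam0 (bx9 z 0 E C x B H' p F + t • bx9 z' 0 E' C' x' B' H'' p' F') -
        lam0 (bx9 z 0 E C x B H' p F)) / t) (𝓝[>] 0)
      (𝓝 (-(r (gC a b 0) * z' + r (gC a b 5) * x' + r (gC a b 9) * H'' + r (gC a b 11) * F' +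
        g 0 * C' + g 1 * p' + g 2 * E' + g 3 * B'))) := by
  have hmem : ∀ t : ℝ, 0 ≤ t → bx9 z 0 E C x B H' p F + t • bx9 z' 0 E' C' x' B' H'' p' F' ∈
      Q.L x0 a b := fun t ht => by rw [hQ]; exact LM0_add hc0 (LM0_smul hc ht)
  have hm0 : bx9 z 0 E C x B H' p F ∈ Q.L x0 a b := by rw [hQ]; exact hc0
  have sing : ∀ k : ℕ, ∀ v v' : ℝ, (∀ i, gC a b i = k → dhC a b i = 1 ∧
      bx9 z 0 E C x B H' p F i = v ∧ bx9 z' 0 E' C' x' B' H'' p' F' i = v') →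
      Tendsto (fun t : ℝ => (φ k (bx9 z 0 E C x B H' p F + t • bx9 z' 0 E' C' x' B' H'' p' F') -
        φ k (bx9 z 0 E C x B H' p F)) / t) (𝓝[>] 0) (𝓝 (-(r k * v'))) := by
    intro k v v' hk
    refine tendsto_const_nhds.congr' ?_
    filter_upwards [self_mem_nhdsWithin] with t ht
    have ht' : (0:ℝ) < t := ht
    rw [H.rate k _ (hmem t ht'.le) (v + t * v') fun i hi => by
      obtain ⟨h1, h2, h3⟩ := hk i hi
      rw [Pi.add_apply, Pi.smul_apply, smul_eq_mul, h1, h2, h3, mul_one],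
      H.rate k _ hm0 v fun i hi => by
        obtain ⟨h1, h2, h3⟩ := hk i hi
        rw [h1, h2, mul_one]]
    field_simp
    ring
  have h0 : Tendsto (fun t : ℝ => (φ 0 (bx9 z 0 E C x B H' p F +
      t • bx9 z' 0 E' C' x' B' H'' p' F') - φ 0 (bx9 z 0 E C x B H' p F)) / t) (𝓝[>] 0)
      (𝓝 (-(g 0 * C' + g 1 * p' + g 2 * E' + g 3 * B'))) := by
    have h1 := hR ![C', p', E', B']
    have e1 : -∑ i, g i * ![C', p', E', B'] i = -(g 0 * C' + g 1 * p' + g 2 * E' + g 3 * B') := by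
      simp [Fin.sum_univ_succ]; ring
    rw [e1] at h1
    refine h1.congr fun t => ?_
    rw [H.loc 0 (bx9 z 0 E C x B H' p F + t • T4 ![C', p', E', B'])
      (bx9 z 0 E C x B H' p F + t • bx9 z' 0 E' C' x' B' H'' p' F') fun i hi => ?_]
    have hi' : i = 1 ∨ i = 2 ∨ i = 3 ∨ i = 4 ∨ i = 7 ∨ i = 8 ∨ i = 10 := by
      rcases G.cases i with h | h | h | h | h
      · exact h.2
      · exact absurd hi (G.pos (by rw [h]; decide))
      · exact absurd hi (G.pos (by rcases h with h | h <;> rw [h] <;> decide))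
      · exact absurd hi (G.pos (by rw [h]; decide))
      · exact absurd hi (G.pos (by rw [h]; decide))
    rw [T4_apply]
    rcases hi' with h | h | h | h | h | h | h <;> subst h <;> simp [bx9]
  have only : ∀ i j : Fin 12, (j = 0 ∨ j = 5 ∨ j = 9 ∨ j = 11) → gC a b i = gC a b j →
      (i = j ∨ (j = 5 ∧ i = 6)) := by
    intro i j hj hij
    have hj' : j = 0 ∨ j = 5 ∨ j = 6 ∨ j = 9 ∨ j = 11 := by
      rcases hj with h | h | h | h <;> rw [h] <;> decide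
    have hi' : i = 0 ∨ i = 5 ∨ i = 6 ∨ i = 9 ∨ i = 11 := by
      rcases G.cases i with h | h | h | h | h
      · exact absurd (by rw [← hij, h.1]) (G.pos hj')
      · rw [h]; decide
      · rcases h with h | h <;> rw [h] <;> decide
      · rw [h]; decide
      · rw [h]; decide
    have hb := (G.eq_iff hi' hj').1 hij
    have n05 := G.n05; have n09 := G.n09; have n011 := G.n011; have n59 := G.n59
    have n511 := G.n511; have n911 := G.n911; have b56 := G.b56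
    rcases hj with h | h | h | h <;> rcases hi' with h' | h' | h' | h' | h' <;> subst h <;>
      subst h' <;> first
      | (left; rfl)
      | (right; exact ⟨rfl, rfl⟩)
      | (exfalso; first
          | exact n05 hb | exact n05 hb.symm | exact n09 hb | exact n09 hb.symm
          | exact n011 hb | exact n011 hb.symm | exact n59 hb | exact n59 hb.symm
          | exact n511 hb | exact n511 hb.symm | exact n911 hb | exact n911 hb.symm
          | exact n05 (b56.trans hb).symm | exact n59 (b56.trans hb)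
          | exact n511 (b56.trans hb))
  have s0 := sing (gC a b 0) z z' fun i hi => by
    rcases only i 0 (by decide) hi with h | h
    · subst h; exact ⟨G.dh (by decide), rfl, rfl⟩
    · exact absurd h.1 (by decide)
  have s5 := sing (gC a b 5) x x' fun i hi => by
    rcases only i 5 (by decide) hi with h | h
    · subst h; exact ⟨G.dh (by decide), rfl, rfl⟩
    · rw [h.2]; exact ⟨G.dh (by decide), rfl, rfl⟩
  have s9 := sing (gC a b 9) H' H'' fun i hi => by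
    rcases only i 9 (by decide) hi with h | h
    · subst h; exact ⟨G.dh (by decide), rfl, rfl⟩
    · exact absurd h.1 (by decide)
  have s11 := sing (gC a b 11) F F' fun i hi => by
    rcases only i 11 (by decide) hi with h | h
    · subst h; exact ⟨G.dh (by decide), rfl, rfl⟩
    · exact absurd h.1 (by decide)
  have hR' : ∀ k ∈ gset (gC a b), ∃ R : ℝ, Tendsto (fun t : ℝ =>
      (φ k (bx9 z 0 E C x B H' p F + t • bx9 z' 0 E' C' x' B' H'' p' F') -
        φ k (bx9 z 0 E C x B H' p F)) / t) (𝓝[>] 0) (𝓝 R) := by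
    intro k hk
    rw [G.gset_eq] at hk
    simp only [Finset.mem_insert, Finset.mem_singleton] at hk
    rcases hk with h | h | h | h | h <;> rw [h]
    exacts [⟨_, h0⟩, ⟨_, s0⟩, ⟨_, s5⟩, ⟨_, s9⟩, ⟨_, s11⟩]
  choose! R hRR using hR'
  have hsum := dir_sum H hm0 (fun t ht => hmem t ht.le) hRR
  rw [G.sum_eq] at hsum
  have m0 : (0:ℕ) ∈ gset (gC a b) := by rw [G.gset_eq]; simp
  have u0 := tendsto_nhds_unique (hRR 0 m0) h0
  have u1 := tendsto_nhds_unique (hRR _ (mem_gset 0)) s0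
  have u5 := tendsto_nhds_unique (hRR _ (mem_gset 5)) s5
  have u9 := tendsto_nhds_unique (hRR _ (mem_gset 9)) s9
  have u11 := tendsto_nhds_unique (hRR _ (mem_gset 11)) s11
  rw [u0, u1, u5, u9, u11] at hsum
  refine hsum.congr' ?_ |>.mono_right ?_
  · exact Filter.EventuallyEq.rfl
  · apply le_of_eq; congr 1; ring

end

end Crest.Agent.R116.SgF665
end

-- ▼ part R116/Sg3g_665
section

/-!
# R116 (K side, LEMMA SIG, generic `σ`), junction 3 (helper665; doc 2383 of 194)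

* `SigD` : data of the tangent at the point `z0` of the plane `Σ`
* `facts_gen` : the seven implications at a position of the group `0`
* `posn` : positions for `{C}`, `{C, P}`, `{P, E, B}`
* **`sig_false`** : three increments + total rate + `LinFacts` ⊢ `False`
-/

set_option autoImplicit false
set_option linter.unusedVariables false
set_option linter.unusedSectionVars false

open Set Filter Topology Metric

namespace Crest.Agent.R116.SgF665

open Crest.Agent.R136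
open Crest.Agent.R138
open Crest.Agent.R136.Net191
open Crest.Agent.R116.ChL222
open Crest.Agent.R116.Sg337 (bx9)
open Dg219 (Walls gset mem_gset OutS gC dhC nC gC_zero gC_eq)
open SgO219 (LT L_sub_LT OutL exists_lin RateP exists_pos)
open Sg388 (ind)

/-- data of the tangent at the point `z0` of the plane `Σ` -/
structure SigD {W J : Type*} [Fintype W] (Q : Walls (Fin 12) W) (P : Set (Fin 12 → ℝ))
    (x0 a b : Fin 12 → ℝ) (f lam : J → (Fin 12 → ℝ) → ℝ) (j0 : J) (x : ℕ → Fin 12 → ℝ)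
    (h sc : ℕ → ℝ) (A : ℝ × ℝ) (φ : ℕ → (Fin 12 → ℝ) → ℝ) (r : ℕ → ℝ)
    (Bs : (ℕ → Fin 12 → ℝ) → (ℕ → ℝ) → Prop) (s : ℝ) : Prop where
  hpos : ∀ l, 0 < h l
  h0 : Tendsto h atTop (𝓝 0)
  hQ : Q.L x0 a b = LM0
  hx : ∀ l, ∀ k, ∀ e ∈ monL.mon k, e 1 = 0 → x l k = wl e (x l)
  hxD : ∀ k, ∀ e ∈ monL.mon k, e 1 ≠ 0 → ∀ K : ℝ, ∀ᶠ l in atTop, x l k + K * h l ≤ wl e (x l)
  ht : ∀ j, Ex926.IsTan P (Q.L x0 a b) (f j) x h (lam j)
  hlip : ∃ K : ℝ, 0 ≤ K ∧ ∀ j, ∀ p ∈ Q.L x0 a b, ∀ q ∈ Q.L x0 a b,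
    |lam j p - lam j q| ≤ K * ‖p - q‖
  H : OutS (gC a b) (Q.L x0 a b) (dhC a b) (nC a b) (lam j0) A φ r
  facts : LinFacts P f j0 Bs s
  spos : ∀ m, 0 < sc m
  s0 : Tendsto sc atTop (𝓝 0)
  hBs : ∀ c0 ∈ LM0, c0 3 = c0 4 → c0 5 = c0 6 → c0 7 = c0 8 → ∀ ψ θ : ℕ → ℕ,
    StrictMono ψ → StrictMono θ →
    Bs (fun m => x (ψ m) + h (ψ m) • c0) (fun m => h (ψ m) * sc (θ m))

/-- the equalities of a natural base -/
theorem nat_eqs {p : Fin 12 → ℝ} (hx : ∀ k, ∀ e ∈ monL.mon k, e 1 = 0 → p k = wl e p) :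
    p 5 = p 0 + p 3 ∧ p 6 = p 0 + p 4 ∧ p 9 = p 3 + p 5 ∧ p 9 = p 4 + p 6 ∧ p 11 = p 0 + p 10 ∧
      p 11 = p 7 + p 5 ∧ p 11 = p 8 + p 6 ∧ p 11 = p 2 + p 9 := by
  have g : ∀ (k : Fin 12) (e : Fin 12 → ℕ), e ∈ mfL k → e 1 = 0 → p k = wl e p := hx
  have a1 := g 5 ![1, 0, 0, 1, 0, 0, 0, 0, 0, 0, 0, 0] (by decide) rfl
  have a2 := g 6 ![1, 0, 0, 0, 1, 0, 0, 0, 0, 0, 0, 0] (by decide) rfl
  have b3 := g 9 ![0, 0, 0, 1, 0, 1, 0, 0, 0, 0, 0, 0] (by decide) rfl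
  have b4 := g 9 ![0, 0, 0, 0, 1, 0, 1, 0, 0, 0, 0, 0] (by decide) rfl
  have d1 := g 11 ![1, 0, 0, 0, 0, 0, 0, 0, 0, 0, 1, 0] (by decide) rfl
  have d2 := g 11 ![0, 0, 0, 0, 0, 1, 0, 1, 0, 0, 0, 0] (by decide) rfl
  have d3 := g 11 ![0, 0, 0, 0, 0, 0, 1, 0, 1, 0, 0, 0] (by decide) rfl
  have d6 := g 11 ![0, 0, 1, 0, 0, 0, 0, 0, 0, 1, 0, 0] (by decide) rfl
  simp [wl, Fin.sum_univ_succ] at a1 a2 b3 b4 d1 d2 d3 d6
  refine ⟨a1, a2, b3, b4, d1, ?_, ?_, d6⟩ <;> linarith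

section

variable {W J : Type*} [Fintype W] [Finite J] {Q : Walls (Fin 12) W} {P : Set (Fin 12 → ℝ)}
  {x0 a b : Fin 12 → ℝ} {f lam : J → (Fin 12 → ℝ) → ℝ} {j0 : J} {x : ℕ → Fin 12 → ℝ} {h sc : ℕ → ℝ}
  {A : ℝ × ℝ} {φ : ℕ → (Fin 12 → ℝ) → ℝ} {r : ℕ → ℝ}
  {Bs : (ℕ → Fin 12 → ℝ) → (ℕ → ℝ) → Prop} {s : ℝ}

/-- **a linear tangent of the facts at an offset** -/
theorem SigD.tan (D : SigD Q P x0 a b f lam j0 x h sc A φ r Bs s) {c0 : Fin 12 → ℝ}
    (hc0 : c0 ∈ LM0) (p3 : c0 3 = c0 4) (p5 : c0 5 = c0 6) (p7 : c0 7 = c0 8)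
    {rz rX rH rF gC gP gE gB : ℝ}
    (hdir : ∀ z C p E B x H F : ℝ, bx9 z 0 E C x B H p F ∈ LM0 →
      Tendsto (fun t : ℝ => (lam j0 (c0 + t • bx9 z 0 E C x B H p F) - lam j0 c0) / t) (𝓝[>] 0)
        (𝓝 (-(rz * z + rX * x + rH * H + rF * F + gC * C + gP * p + gE * E + gB * B)))) :
    ∃ (X : ℕ → Fin 12 → ℝ) (u : ℕ → ℝ), Bs X u ∧ LinTan P f j0 X u rz rX rH rF gC gP gE gB ∧
      (c0 5 = c0 0 + c0 3 → ∀ n, X n 5 = X n 0 + X n 3) ∧
      (c0 6 = c0 0 + c0 4 → ∀ n, X n 6 = X n 0 + X n 4) ∧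
      (c0 9 = c0 3 + c0 5 → ∀ n, X n 9 = X n 3 + X n 5) ∧
      (c0 9 = c0 4 + c0 6 → ∀ n, X n 9 = X n 4 + X n 6) ∧
      (c0 11 = c0 0 + c0 10 → ∀ n, X n 11 = X n 0 + X n 10) ∧
      (c0 11 = c0 7 + c0 5 → ∀ n, X n 11 = X n 7 + X n 5) ∧
      (c0 11 = c0 8 + c0 6 → ∀ n, X n 11 = X n 8 + X n 6) ∧
      (c0 11 = c0 2 + c0 9 → ∀ n, X n 11 = X n 2 + X n 9) := by
  obtain ⟨K, hK, hlip⟩ := D.hlip
  obtain ⟨ψ, θ, hψ, hθ, hl⟩ := lin_at (s := sc) hK D.hpos D.h0 D.hQ D.hx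
    D.hxD D.ht hlip D.H hc0 D.spos D.s0 hdir
  refine ⟨_, _, D.hBs c0 hc0 p3 p5 p7 ψ θ hψ hθ, hl, ?_⟩
  refine ⟨fun hc n => ?_, fun hc n => ?_, fun hc n => ?_, fun hc n => ?_, fun hc n => ?_,
    fun hc n => ?_, fun hc n => ?_, fun hc n => ?_⟩ <;>
  · obtain ⟨e1, e2, e3, e4, e5, e6, e7, e8⟩ := nat_eqs (D.hx (ψ n))
    simp only [Pi.add_apply, Pi.smul_apply, smul_eq_mul]
    rw [hc]
    linarith

/-- **the seven implications at a position of the group `0`** -/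
theorem facts_gen (D : SigD Q P x0 a b f lam j0 x h sc A φ r Bs s) (G : Gen a b) {C p E B : ℝ}
    (h1 : B < E + C) (h2 : p < B + C) {g : Fin 4 → ℝ} {β : Fin 12 → ℝ}
    (hβ : ∀ i, gC a b i = 0 → β i = bx9 0 0 E C 0 B 0 p 0 i) (hR : RateP (φ 0) β T4 g) :
    ((0 < g 0 → 1 - s ≤ r (gC a b 5)) ∧ (s < g 0 → 1 ≤ r (gC a b 5))) ∧
    (0 < g 0 → r (gC a b 5) ≤ r (gC a b 9)) ∧
    ((0 < g 1 → 1 - s ≤ r (gC a b 11)) ∧ (s < g 1 → 1 ≤ r (gC a b 11))) ∧
    (0 < g 3 → r (gC a b 5) ≤ r (gC a b 11)) ∧ (0 < g 2 → r (gC a b 9) ≤ r (gC a b 11)) := by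
  have hi : ∀ i, gC a b i = 0 → (i = 1 ∨ i = 2 ∨ i = 3 ∨ i = 4 ∨ i = 7 ∨ i = 8 ∨ i = 10) := by
    intro i hi
    rcases G.cases i with h | h | h | h | h
    · exact h.2
    · exact absurd hi (G.pos (by rw [h]; decide))
    · exact absurd hi (G.pos (by rcases h with h | h <;> rw [h] <;> decide))
    · exact absurd hi (G.pos (by rw [h]; decide))
    · exact absurd hi (G.pos (by rw [h]; decide))
  have hR' : ∀ z x' H' F : ℝ, RateP (φ 0) (bx9 z 0 E C x' B H' p F) T4 g := by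
    intro z x' H' F
    refine RateP.transfer D.H hR fun i hi0 => ?_
    rw [hβ i hi0]
    rcases hi i hi0 with h | h | h | h | h | h | h <;> subst h <;> simp [bx9]
  have m1 : bx9 0 0 E C C B (2 * C) p p ∈ LM0 := bx9_mem.2
    ⟨by linarith, h1.le, by linarith, h2.le, by linarith, h2.le, by linarith⟩
  have m2 : bx9 (B + C - p) 0 E C C B (2 * C) p (B + C) ∈ LM0 := bx9_mem.2
    ⟨by linarith, h1.le, by linarith, h2.le, by linarith, by linarith, by linarith⟩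
  have m3 : bx9 (B + C - p) 0 E C C B (B + C - E) p (B + C) ∈ LM0 := bx9_mem.2
    ⟨by linarith, h1.le, by linarith, h2.le, by linarith, by linarith, by linarith⟩
  obtain ⟨X, u, hb, hl, t1, t2, t3, t4, t5, -, -, -⟩ := D.tan (rz := r (gC a b 0))
    (rX := r (gC a b 5)) (rH := r (gC a b 9)) (rF := r (gC a b 11)) (gC := g 0) (gP := g 1)
    (gE := g 2) (gB := g 3) m1 (by simp [bx9]) (by simp [bx9]) (by simp [bx9]) 
      fun z' C' p' E' B' x'' H'' F' hc => dir_gen G D.hQ D.H m1 (hR' _ _ _ _) hc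
  obtain ⟨X', u', hb', hl', -, -, -, -, -, t6', t7', -⟩ := D.tan (rz := r (gC a b 0))
    (rX := r (gC a b 5)) (rH := r (gC a b 9)) (rF := r (gC a b 11)) (gC := g 0) (gP := g 1)
    (gE := g 2) (gB := g 3) m2 (by simp [bx9]) (by simp [bx9]) (by simp [bx9]) 
      fun z' C' p' E' B' x'' H'' F' hc => dir_gen G D.hQ D.H m2 (hR' _ _ _ _) hc
  obtain ⟨X'', u'', hb'', hl'', -, -, -, -, -, -, -, t8''⟩ := D.tan (rz := r (gC a b 0))
    (rX := r (gC a b 5)) (rH := r (gC a b 9)) (rF := r (gC a b 11)) (gC := g 0) (gP := g 1)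
    (gE := g 2) (gB := g 3) m3 (by simp [bx9]) (by simp [bx9]) (by simp [bx9]) 
      fun z' C' p' E' B' x'' H'' F' hc => dir_gen G D.hQ D.H m3 (hR' _ _ _ _) hc
  refine ⟨D.facts.K1 _ _ _ _ _ _ _ _ _ _ hb hl (t1 ?_) (t2 ?_),
    D.facts.H1 _ _ _ _ _ _ _ _ _ _ hb hl (t3 ?_) (t4 ?_),
    D.facts.K2 _ _ _ _ _ _ _ _ _ _ hb hl (t5 ?_),
    D.facts.S1 _ _ _ _ _ _ _ _ _ _ hb' hl' (t6' ?_) (t7' ?_),
    D.facts.S2 _ _ _ _ _ _ _ _ _ _ hb'' hl'' (t8'' ?_)⟩
  · change C = 0 + C; ring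
  · change C = 0 + C; ring
  · change 2 * C = C + C; ring
  · change 2 * C = C + C; ring
  · change p = 0 + p; ring
  · change B + C = B + C; rfl
  · change B + C = B + C; rfl
  · change B + C = E + (B + C - E); ring

end

end Crest.Agent.R116.SgF665
end

-- ▼ part R116/Sg3h_665
section

/-!
# R116 (K side, LEMMA SIG, generic `σ`), junction 3 (helper665; doc 2383 of 194)

* `SigD` : data of the tangent at the point `z0` of the plane `Σ`
* `facts_gen` : the seven implications at a position of the group `0`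
* `posn` : positions for `{C}`, `{C, P}`, `{P, E, B}`
* **`sig_false`** : three increments + total rate + `LinFacts` ⊢ `False`
-/

set_option autoImplicit false
set_option linter.unusedVariables false
set_option linter.unusedSectionVars false

open Set Filter Topology Metric

namespace Crest.Agent.R116.SgF665

open Crest.Agent.R136
open Crest.Agent.R138
open Crest.Agent.R136.Net191
open Crest.Agent.R116.ChL222
open Crest.Agent.R116.Sg337 (bx9)
open Dg219 (Walls gset mem_gset OutS gC dhC nC gC_zero gC_eq)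
open SgO219 (LT L_sub_LT OutL exists_lin RateP exists_pos)
open Sg388 (ind)

section

variable {W J : Type*} [Fintype W] [Finite J] {Q : Walls (Fin 12) W} {P : Set (Fin 12 → ℝ)}
  {x0 a b : Fin 12 → ℝ} {f lam : J → (Fin 12 → ℝ) → ℝ} {j0 : J} {x : ℕ → Fin 12 → ℝ} {h sc : ℕ → ℝ}
  {A : ℝ × ℝ} {φ : ℕ → (Fin 12 → ℝ) → ℝ} {r : ℕ → ℝ}
  {Bs : (ℕ → Fin 12 → ℝ) → (ℕ → ℝ) → Prop} {s : ℝ}

theorem T4_norm (v : Fin 4 → ℝ) : ‖T4 v‖ ≤ ‖v‖ := by
  rw [pi_norm_le_iff_of_nonneg (norm_nonneg _)]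
  intro i
  rw [T4_apply]
  have h := norm_le_pi_norm v
  have h0 := norm_nonneg v
  fin_cases i <;> simp [bx9] <;> first | exact h _ | exact h0 | (simpa using h _)

theorem T4_zero_of (G : Gen a b) {k : ℕ} (hk : k ≠ 0) (v : Fin 4 → ℝ) (i : Fin 12)
    (hi : gC a b i = k) : T4 v i = 0 := by
  rcases G.cases i with h | h | h | h | h
  · exact absurd (hi.symm.trans h.1) hk
  · subst h; rw [T4_apply]; simp [bx9]
  · rcases h with h | h <;> subst h <;> rw [T4_apply] <;> simp [bx9]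
  · subst h; rw [T4_apply]; simp [bx9]
  · subst h; rw [T4_apply]; simp [bx9]

/-- the group function of the group `0` on the moves -/
theorem lam_T4 (H : OutS (gC a b) (Q.L x0 a b) (dhC a b) (nC a b) (lam j0) A φ r) (G : Gen a b)
    {v : Fin 4 → ℝ} (hv : T4 v ∈ Q.L x0 a b) : lam j0 (T4 v) = φ 0 (T4 v) := by
  rw [H.sum _ hv, G.sum_eq,
    H.zero (gC a b 0) _ (T4_zero_of G (G.pos (by decide)) v),
    H.zero (gC a b 5) _ (T4_zero_of G (G.pos (by decide)) v),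
    H.zero (gC a b 9) _ (T4_zero_of G (G.pos (by decide)) v),
    H.zero (gC a b 11) _ (T4_zero_of G (G.pos (by decide)) v)]
  ring

/-- **positions** -/
theorem posn (H : OutS (gC a b) (Q.L x0 a b) (dhC a b) (nC a b) (lam j0) A φ r) (G : Gen a b)
    (hQ : Q.L x0 a b = LM0) {S : Finset (Fin 4)} (hS : S = {0} ∨ S = {0, 1} ∨ S = {1, 2, 3})
    {q δ : ℝ} (hq : q ≤ -lam j0 (T4 (ind S 1))) (hδ : 0 < δ) :
    ∃ v : Fin 4 → ℝ, v 3 < v 2 + v 0 ∧ v 1 < v 3 + v 0 ∧ ∃ (g : Fin 4 → ℝ) (β : Fin 12 → ℝ),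
      (∀ i, gC a b i = 0 → β i = bx9 0 0 (v 2) (v 0) 0 (v 3) 0 (v 1) 0 i) ∧
      RateP (φ 0) β T4 g ∧ (∀ i, 0 ≤ g i) ∧ q - δ ≤ ∑ i ∈ S, g i := by
  set ε : ℝ := min 1 (δ / 100) with hε
  have ε0 : 0 < ε := lt_min one_pos (by positivity)
  have ε1 : ε ≤ 1 := min_le_left _ _
  have ε2 : ε ≤ δ / 100 := min_le_right _ _
  set p : Fin 4 → ℝ := ![ε, 0, 0, 0] with hp
  set β : Fin 12 → ℝ := bx9 20 0 0 0 0 0 (-20) 0 (-60) with hβ
  set D : Set (Fin 4 → ℝ) := {v | (∀ i, |v i| < 4) ∧ v 3 < v 2 + v 0 ∧ v 1 < v 3 + v 0} with hD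
  have hDo : IsOpen D := by
    have e : D = (⋂ i, {v : Fin 4 → ℝ | |v i| < 4}) ∩ ({v | v 3 < v 2 + v 0} ∩
      {v | v 1 < v 3 + v 0}) := by
      ext v; simp [hD]
    rw [e]
    refine (isOpen_iInter_of_finite fun i => isOpen_lt (by fun_prop) continuous_const).inter
      ((isOpen_lt (by fun_prop) (by fun_prop)).inter (isOpen_lt (by fun_prop) (by fun_prop)))
  have hβT : ∀ v : Fin 4 → ℝ, β + T4 v = bx9 20 0 (v 2) (v 0) 0 (v 3) (-20) (v 1) (-60) := by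
    intro v
    rw [T4_apply]
    funext k
    fin_cases k <;> simp [hβ, bx9]
  have hDL : ∀ v ∈ D, β + T4 v ∈ Q.L x0 a b := by
    intro v hv
    obtain ⟨h1, h2, h3⟩ := hv
    have a0 := abs_lt.1 (h1 0)
    have a1 := abs_lt.1 (h1 1)
    have a2 := abs_lt.1 (h1 2)
    have a3 := abs_lt.1 (h1 3)
    rw [hQ, hβT, bx9_mem]
    refine ⟨by linarith, h2.le, by linarith, h3.le, by linarith, by linarith, by linarith⟩
  have hT : ∀ (i : Fin 4) (l : Fin 12), 0 ≤ T4 (Pi.single i 1) l := by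
    intro i l
    rw [T4_apply]
    fin_cases i <;> fin_cases l <;> simp [bx9, Pi.single_apply]
  have hβ0 : ∀ i, gC a b i = 0 → β i = 0 := by
    intro i hi
    rcases G.cases i with h | h | h | h | h
    · rcases h.2 with h | h | h | h | h | h | h <;> subst h <;> simp [hβ, bx9]
    · exact absurd hi (G.pos (by rw [h]; decide))
    · exact absurd hi (G.pos (by rcases h with h | h <;> rw [h] <;> decide))
    · exact absurd hi (G.pos (by rw [h]; decide))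
    · exact absurd hi (G.pos (by rw [h]; decide))
  have hloc : ∀ v : Fin 4 → ℝ, φ 0 (β + T4 v) = φ 0 (T4 v) := fun v =>
    H.loc 0 _ _ fun i hi => by rw [Pi.add_apply, hβ0 i hi, zero_add]
  have hcoord : ∀ t ∈ Icc (0:ℝ) 1, ∀ v : Fin 4 → ℝ, v ∈ ball (p + ind S t) (ε / 4) → ∀ i,
      |v i - (p i + ind S t i)| < ε / 4 := by
    intro t ht v hv i
    have h1 := norm_le_pi_norm (v - (p + ind S t)) i
    rw [Real.norm_eq_abs, Pi.sub_apply, Pi.add_apply] at h1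
    exact h1.trans_lt (by rwa [mem_ball, dist_eq_norm] at hv)
  have hball : ∀ t ∈ Icc (0:ℝ) 1, ball (p + ind S t) (ε / 4) ⊆ D := by
    intro t ht v hv
    have h1 := hcoord t ht v hv
    have p0 : p 0 = ε := rfl
    have p1 : p 1 = 0 := rfl
    have p2 : p 2 = 0 := rfl
    have p3 : p 3 = 0 := rfl
    have c0 := abs_lt.1 (h1 0)
    have c1 := abs_lt.1 (h1 1)
    have c2 := abs_lt.1 (h1 2)
    have c3 := abs_lt.1 (h1 3)
    rw [p0] at c0; rw [p1] at c1; rw [p2] at c2; rw [p3] at c3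
    have ht0 := ht.1
    have ht1 := ht.2
    rcases hS with h | h | h
    · have i0 : ind S t 0 = t := by simp [ind, h]
      have i1 : ind S t 1 = 0 := by simp [ind, h]
      have i2 : ind S t 2 = 0 := by simp [ind, h]
      have i3 : ind S t 3 = 0 := by simp [ind, h]
      rw [i0] at c0; rw [i1] at c1; rw [i2] at c2; rw [i3] at c3
      refine ⟨fun i => ?_, by linarith, by linarith⟩
      rw [abs_lt]
      fin_cases i
      · exact ⟨by change -4 < v 0; linarith, by change v 0 < 4; linarith⟩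
      · exact ⟨by change -4 < v 1; linarith, by change v 1 < 4; linarith⟩
      · exact ⟨by change -4 < v 2; linarith, by change v 2 < 4; linarith⟩
      · exact ⟨by change -4 < v 3; linarith, by change v 3 < 4; linarith⟩
    · have i0 : ind S t 0 = t := by simp [ind, h]
      have i1 : ind S t 1 = t := by simp [ind, h]
      have i2 : ind S t 2 = 0 := by simp [ind, h]
      have i3 : ind S t 3 = 0 := by simp [ind, h]
      rw [i0] at c0; rw [i1] at c1; rw [i2] at c2; rw [i3] at c3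
      refine ⟨fun i => ?_, by linarith, by linarith⟩
      rw [abs_lt]
      fin_cases i
      · exact ⟨by change -4 < v 0; linarith, by change v 0 < 4; linarith⟩
      · exact ⟨by change -4 < v 1; linarith, by change v 1 < 4; linarith⟩
      · exact ⟨by change -4 < v 2; linarith, by change v 2 < 4; linarith⟩
      · exact ⟨by change -4 < v 3; linarith, by change v 3 < 4; linarith⟩
    · have i0 : ind S t 0 = 0 := by simp [ind, h]
      have i1 : ind S t 1 = t := by simp [ind, h]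
      have i2 : ind S t 2 = t := by simp [ind, h]
      have i3 : ind S t 3 = t := by simp [ind, h]
      rw [i0] at c0; rw [i1] at c1; rw [i2] at c2; rw [i3] at c3
      refine ⟨fun i => ?_, by linarith, by linarith⟩
      rw [abs_lt]
      fin_cases i
      · exact ⟨by change -4 < v 0; linarith, by change v 0 < 4; linarith⟩
      · exact ⟨by change -4 < v 1; linarith, by change v 1 < 4; linarith⟩
      · exact ⟨by change -4 < v 2; linarith, by change v 2 < 4; linarith⟩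
      · exact ⟨by change -4 < v 3; linarith, by change v 3 < 4; linarith⟩
  have hpn : ‖p‖ = ε := by
    apply le_antisymm
    · rw [pi_norm_le_iff_of_nonneg ε0.le]
      intro i
      fin_cases i <;> simp [hp, abs_of_pos ε0, ε0.le]
    · have := norm_le_pi_norm p 0
      have e : ‖p 0‖ = ε := by
        change ‖ε‖ = ε
        rw [Real.norm_eq_abs, abs_of_pos ε0]
      rwa [e] at this
  have m0 : T4 (0 : Fin 4 → ℝ) ∈ Q.L x0 a b := by
    rw [map_zero, hQ]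
    intro k e he h1
    simp [wl]
  have m1 : T4 p ∈ Q.L x0 a b := by
    rw [hQ, T4_apply, bx9_mem]
    change (0:ℝ) ≤ 0 + ε ∧ (0:ℝ) ≤ 0 + ε ∧ (0:ℝ) ≤ ε + 0 ∧ (0:ℝ) ≤ 0 + ε ∧ (0:ℝ) ≤ 0 + 0 ∧
      (0:ℝ) ≤ 0 + 0 ∧ (0:ℝ) ≤ 0 + 0
    refine ⟨?_, ?_, ?_, ?_, ?_, ?_, ?_⟩ <;> linarith
  have m2 : T4 (ind S 1) ∈ Q.L x0 a b := by
    rw [hQ, T4_apply, bx9_mem]
    rcases hS with h | h | h <;> subst h <;> simp [ind] <;> norm_num
  have m3 : T4 (p + ind S 1) ∈ Q.L x0 a b := by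
    rw [map_add, hQ]
    rw [hQ] at m1 m2
    exact LM0_add m1 m2
  have l1 := SgO219.OutS.lip_piece H 0 m1 m0
  have l2 := SgO219.OutS.lip_piece H 0 m3 m2
  have n1 : ‖T4 p - T4 (0 : Fin 4 → ℝ)‖ ≤ ε := by
    rw [map_zero, sub_zero]; exact (T4_norm p).trans hpn.le
  have n2 : ‖T4 (p + ind S 1) - T4 (ind S 1)‖ ≤ ε := by
    rw [← map_sub, add_sub_cancel_right]; exact (T4_norm p).trans hpn.le
  have z0 : φ 0 (T4 (0 : Fin 4 → ℝ)) = 0 := by
    rw [map_zero]; exact H.zero 0 _ fun _ _ => rfl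
  have hq' : (q - δ / 2) * 1 ≤ φ 0 (β + T4 p) - φ 0 (β + T4 (p + ind S 1)) := by
    rw [hloc, hloc]
    rw [lam_T4 H G m2] at hq
    rw [z0] at l1
    simp only [Fintype.card_fin] at l1 l2
    push_cast at l1 l2
    have k1 := abs_le.1 l1
    have k2 := abs_le.1 l2
    nlinarith [k1.1, k1.2, k2.1, k2.2]
  obtain ⟨v, -, hvD, -, g, g0, -, g1, g2⟩ := exists_pos H 0 (T := T4) (β := β) hDo hDL hT
    (p := p) (S := S) (y := 1) (q := q - δ / 2) (δ := δ / 2) (η := ε / 4) one_pos (by positivity)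
    hball hq' (by positivity) (N := univ) (Eventually.of_forall fun _ => mem_univ _)
  refine ⟨v, hvD.2.1, hvD.2.2, g, β + T4 v, fun i hi => ?_, g2, g0, by linarith⟩
  rw [Pi.add_apply, hβ0 i hi, zero_add, T4_apply]

end

end Crest.Agent.R116.SgF665
end

-- ▼ part R116/Sg3i_665
section

/-!
# R116 (K side, LEMMA SIG, generic `σ`), junction 3 (helper665; doc 2383 of 194)

* `SigD` : data of the tangent at the point `z0` of the plane `Σ`
* `facts_gen` : the seven implications at a position of the group `0`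
* `posn` : positions for `{C}`, `{C, P}`, `{P, E, B}`
* **`sig_false`** : three increments + total rate + `LinFacts` ⊢ `False`
-/

set_option autoImplicit false
set_option linter.unusedVariables false
set_option linter.unusedSectionVars false

open Set Filter Topology Metric

namespace Crest.Agent.R116.SgF665

open Crest.Agent.R136
open Crest.Agent.R138
open Crest.Agent.R136.Net191
open Crest.Agent.R116.ChL222
open Crest.Agent.R116.Sg337 (bx9)
open Dg219 (Walls gset mem_gset OutS gC dhC nC gC_zero gC_eq)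
open SgO219 (LT L_sub_LT OutL exists_lin RateP exists_pos)
open Sg388 (ind)

section

variable {W J : Type*} [Fintype W] [Finite J] {Q : Walls (Fin 12) W} {P : Set (Fin 12 → ℝ)}
  {x0 a b : Fin 12 → ℝ} {f lam : J → (Fin 12 → ℝ) → ℝ} {j0 : J} {x : ℕ → Fin 12 → ℝ} {h sc : ℕ → ℝ}
  {A : ℝ × ℝ} {φ : ℕ → (Fin 12 → ℝ) → ℝ} {r : ℕ → ℝ}
  {Bs : (ℕ → Fin 12 → ℝ) → (ℕ → ℝ) → Prop} {s : ℝ}

/-- **LEMMA SIG, generic `σ`** -/
theorem sig_false (D : SigD Q P x0 a b f lam j0 x h sc A φ r Bs s) (G : Gen a b)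
    {g q0 q1 δ : ℝ} (hs : 0 ≤ s) (hδ : 0 ≤ δ) (hg : 2 * s + δ < g) (hq0 : 0 < q0) (hq1 : 0 < q1)
    (hz : 1 - s ≤ -lam j0 (bx9 1 0 0 0 0 0 0 0 0))
    (hC : q0 ≤ -lam j0 (bx9 0 0 0 1 0 0 0 0 0))
    (hCP : g + q0 + q1 ≤ -lam j0 (bx9 0 0 0 1 0 0 0 1 0))
    (hP : q1 ≤ -lam j0 (bx9 0 0 1 0 0 1 0 1 0))
    (hsum : ∑ k ∈ (gset (gC a b)).erase 0, r k ≤ 4 - s - g + δ) : False := by
  rw [G.sum_eq'] at hsum
  have iC : T4 (ind {0} 1) = bx9 0 0 0 1 0 0 0 0 0 := by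
    rw [T4_apply]; simp [ind]
  have iCP : T4 (ind {0, 1} 1) = bx9 0 0 0 1 0 0 0 1 0 := by
    rw [T4_apply]; simp [ind]
  have iP : T4 (ind {1, 2, 3} 1) = bx9 0 0 1 0 0 1 0 1 0 := by
    rw [T4_apply]; simp [ind]
  -- the z-rate
  have hz0 : bx9 1 0 0 0 0 0 0 0 0 ∈ Q.L x0 a b := by
    rw [D.hQ, bx9_mem]; norm_num
  have hrz : lam j0 (bx9 1 0 0 0 0 0 0 0 0) = -r (gC a b 0) := by
    have zr : ∀ j : Fin 12, (j = 5 ∨ j = 9 ∨ j = 11) →
        φ (gC a b j) (bx9 1 0 0 0 0 0 0 0 0) = 0 := by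
      intro j hj
      refine D.H.zero _ _ fun i hi => ?_
      have hj' : j = 0 ∨ j = 5 ∨ j = 6 ∨ j = 9 ∨ j = 11 := by
        rcases hj with h | h | h <;> rw [h] <;> decide
      rcases G.cases i with h | h | h | h | h
      · rcases h.2 with h | h | h | h | h | h | h <;> subst h <;> simp [bx9]
      · exfalso
        subst h
        have hb := (G.eq_iff (by decide) hj').1 hi
        rcases hj with h | h | h <;> subst h
        · exact G.n05 hb
        · exact G.n09 hb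
        · exact G.n011 hb
      · rcases h with h | h <;> subst h <;> simp [bx9]
      · subst h; simp [bx9]
      · subst h; simp [bx9]
    have z0 : φ 0 (bx9 1 0 0 0 0 0 0 0 0) = 0 := by
      refine D.H.zero _ _ fun i hi => ?_
      rcases G.cases i with h | h | h | h | h
      · rcases h.2 with h | h | h | h | h | h | h <;> subst h <;> simp [bx9]
      · subst h; exact absurd hi (G.pos (by decide))
      · rcases h with h | h <;> subst h <;> simp [bx9]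
      · subst h; simp [bx9]
      · subst h; simp [bx9]
    have zz : φ (gC a b 0) (bx9 1 0 0 0 0 0 0 0 0) = -(r (gC a b 0) * 1) := by
      refine D.H.rate _ _ hz0 1 fun i hi => ?_
      rcases G.cases i with h | h | h | h | h
      · exact absurd (by rw [← hi, h.1]) (G.pos (i := 0) (by decide))
      · subst h; rw [G.dh (by decide)]; simp [bx9]
      · exfalso
        rcases h with h | h <;> subst h
        · exact G.n05 ((G.eq_iff (by decide) (by decide)).1 hi).symm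
        · exact G.n05 (G.b56.trans ((G.eq_iff (by decide) (by decide)).1 hi)).symm
      · subst h; exact absurd ((G.eq_iff (by decide) (by decide)).1 hi).symm G.n09
      · subst h; exact absurd ((G.eq_iff (by decide) (by decide)).1 hi).symm G.n011
    rw [D.H.sum _ hz0, G.sum_eq, z0, zz, zr 5 (by decide), zr 9 (by decide), zr 11 (by decide)]
    ring
  rw [hrz] at hz
  set rX := r (gC a b 5) with hrX
  set rH := r (gC a b 9) with hrH
  set rF := r (gC a b 11) with hrF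
  -- a)
  have A1 : 1 - s ≤ rX ∧ 1 - s ≤ rH := by
    obtain ⟨v, v1, v2, gg, β, hβ, hR, g0, g1⟩ := posn D.H G D.hQ (S := {0}) (Or.inl rfl)
      (q := q0) (δ := q0 / 2) (by rw [iC]; exact hC) (by positivity)
    obtain ⟨f1, f2, f3, f4, f5⟩ := facts_gen D G v1 v2 hβ hR
    rw [Finset.sum_singleton] at g1
    have hp : 0 < gg 0 := by linarith
    exact ⟨f1.1 hp, (f1.1 hp).trans (f2 hp)⟩
  -- b)
  have B1 : 1 ≤ rX ∧ 1 ≤ rH := by
    obtain ⟨v, v1, v2, gg, β, hβ, hR, g0, g1⟩ := posn D.H G D.hQ (S := {0, 1})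
      (Or.inr (Or.inl rfl)) (q := g + q0 + q1) (δ := q0) (by rw [iCP]; exact hCP) hq0
    obtain ⟨f1, f2, f3, f4, f5⟩ := facts_gen D G v1 v2 hβ hR
    rw [Finset.sum_pair (by decide)] at g1
    by_cases h1 : s < gg 1
    · have := f3.2 h1
      exfalso
      linarith [A1.1, A1.2]
    · have h2 : s < gg 0 := by linarith
      exact ⟨f1.2 h2, (f1.2 h2).trans (f2 (by linarith))⟩
  -- c)
  obtain ⟨v, v1, v2, gg, β, hβ, hR, g0, g1⟩ := posn D.H G D.hQ (S := {1, 2, 3})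
    (Or.inr (Or.inr rfl)) (q := q1) (δ := q1 / 2) (by rw [iP]; exact hP) (by positivity)
  obtain ⟨f1, f2, f3, f4, f5⟩ := facts_gen D G v1 v2 hβ hR
  have e3 : ∑ i ∈ ({1, 2, 3} : Finset (Fin 4)), gg i = gg 1 + gg 2 + gg 3 := by
    rw [Finset.sum_insert (by decide), Finset.sum_pair (by decide)]; ring
  rw [e3] at g1
  by_cases h1 : 0 < gg 1
  · have := f3.1 h1
    linarith [B1.1, B1.2]
  by_cases h2 : 0 < gg 2
  · have := f5 h2
    linarith [B1.1, B1.2]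
  have h3 : 0 < gg 3 := by linarith
  have := f4 h3
  linarith [B1.1, B1.2]

end

end Crest.Agent.R116.SgF665
end

-- ▼ part R116/Sg3j_665
section

/-!
# R116 (K side, LEMMA SIG, generic `σ`): `sigG_false` in the letters of 635 (helper665)

Same binder list as 332's `sig1_false`.
-/

set_option autoImplicit false
set_option linter.unusedVariables false
set_option linter.unusedSectionVars false

open Set Filter Topology Metric

namespace Crest.Agent.R116.SgF665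

open Crest.Agent.R136
open Crest.Agent.R138
open Crest.Agent.R136.Net191
open Crest.Agent.R116.ChL222
open Crest.Agent.R116.Sg337 (bx9 uC uP uCP)
open Crest.Agent.R116.Sg635 (xS aS bS LMd L_eq)
open Dg219 (Walls mw gset mem_gset OutS gC dhC nC gC_zero gC_eq)

theorem gen_of {θa θb : ℝ} (ha : θa ≠ 0) (h0 : θb ≠ 0) (h1 : θb ≠ θa) (h2 : θb ≠ 2 * θa) :
    Gen aS (bS θa θb) where
  a0 := fun i h => by
    rcases h with h | h | h | h | h | h | h <;> subst h <;> simp [aS, bx9]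
  a1 := fun i h => by
    rcases h with h | h | h | h | h <;> subst h <;> simp [aS, bx9]
  b56 := by simp [bS, bx9]
  n05 := by
    simp only [bS, bx9]
    intro h
    apply ha
    have h' : (0:ℝ) = -θa := by simpa using h
    linarith
  n09 := by
    intro h
    apply ha
    have h' : (0:ℝ) = -(2 * θa) := by simpa [bS, bx9] using h
    linarith
  n011 := by
    intro h
    apply h0
    have h' : (0:ℝ) = -θb := by simpa [bS, bx9] using h
    linarith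
  n59 := by
    intro h
    apply ha
    have h' : -θa = -(2 * θa) := by simpa [bS, bx9] using h
    linarith
  n511 := by
    intro h
    apply h1
    have h' : -θa = -θb := by simpa [bS, bx9] using h
    linarith
  n911 := by
    intro h
    apply h2
    have h' : -(2 * θa) = -θb := by simpa [bS, bx9] using h
    linarith

variable {J : Type*} [Finite J] {P : Set (Fin 12 → ℝ)} {θa θb lam0 K : ℝ}
  {f lam : J → (Fin 12 → ℝ) → ℝ} {j0 : J} {x : ℕ → Fin 12 → ℝ} {h sc : ℕ → ℝ}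
  {A : ℝ × ℝ} {φ : ℕ → (Fin 12 → ℝ) → ℝ} {r : ℕ → ℝ}
  {Bs : (ℕ → Fin 12 → ℝ) → (ℕ → ℝ) → Prop} {s : ℝ}

/-- **LEMMA SIG, generic `σ`** -/
theorem sigG_false (hK : 0 ≤ K) (hpos : ∀ l, 0 < h l) (h0 : Tendsto h atTop (𝓝 0))
    (hl0 : lam0 ≠ 0) (ha : θa ≠ 0) (hσ0 : θb ≠ 0) (hσ1 : θb ≠ θa) (hσ2 : θb ≠ 2 * θa)
    (hx : ∀ l, ∀ k, ∀ e ∈ monL.mon k, e 1 = 0 → x l k = wl e (x l))
    (hxD : ∀ k, ∀ e ∈ monL.mon k, e 1 ≠ 0 → ∀ K : ℝ, ∀ᶠ l in atTop,
      x l k + K * h l ≤ wl e (x l))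
    (ht : ∀ j, Ex926.IsTan P ((mw monL).L (xS lam0) aS (bS θa θb)) (f j) x h (lam j))
    (hlip : ∀ j, ∀ p ∈ (mw monL).L (xS lam0) aS (bS θa θb),
      ∀ q ∈ (mw monL).L (xS lam0) aS (bS θa θb), |lam j p - lam j q| ≤ K * ‖p - q‖)
    (H : OutS (gC aS (bS θa θb)) ((mw monL).L (xS lam0) aS (bS θa θb)) (dhC aS (bS θa θb))
      (nC aS (bS θa θb)) (lam j0) A φ r)
    (spos : ∀ m, 0 < sc m) (s0 : Tendsto sc atTop (𝓝 0))
    (hBs : ∀ c0 ∈ LMd, c0 3 = c0 4 → c0 5 = c0 6 → c0 7 = c0 8 → ∀ ψ θ : ℕ → ℕ,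
      StrictMono ψ → StrictMono θ →
      Bs (fun m => x (ψ m) + h (ψ m) • c0) (fun m => h (ψ m) * sc (θ m)))
    (HL : LinFacts P f j0 Bs s)
    {c q0 q1 δ : ℝ} (hs : 0 ≤ s) (hc : 2 * s < c) (hq0 : 0 < q0) (hq1 : 0 < q1)
    (hδ : δ ≤ (c - 2 * s) / 2)
    (hsum : ∑ k ∈ (gset (gC aS (bS θa θb))).erase 0, r k ≤ 4 - s - c + δ)
    (hown : ∀ y : ℝ, 0 < y → (1 - s) * y ≤ -lam j0 (bx9 y 0 0 0 0 0 0 0 0))
    (iC : ∀ y : ℝ, 0 < y → q0 * y ≤ -lam j0 (y • uC))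
    (iP : ∀ y : ℝ, 0 < y → q1 * y ≤ -lam j0 (y • uP))
    (iCP : ∀ y : ℝ, 0 < y → (c + q0 + q1) * y ≤ -lam j0 (y • uCP)) : False := by
  have hL : (mw monL).L (xS lam0) aS (bS θa θb) = LM0 := L_eq hl0
  have D : SigD (mw monL) P (xS lam0) aS (bS θa θb) f lam j0 x h sc A φ r Bs s :=
    { hpos := hpos, h0 := h0, hQ := hL, hx := hx, hxD := hxD, ht := ht, hlip := ⟨K, hK, hlip⟩
      H := H, facts := HL, spos := spos, s0 := s0, hBs := fun c0 hc0 => hBs c0 hc0 }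
  have e1 := hown 1 one_pos
  have e2 := iC 1 one_pos
  have e3 := iP 1 one_pos
  have e4 := iCP 1 one_pos
  rw [one_smul, mul_one] at e2 e3 e4
  rw [mul_one] at e1
  refine sig_false D (gen_of ha hσ0 hσ1 hσ2) (g := c) (q0 := q0) (q1 := q1)
    (δ := max δ 0) hs (le_max_right _ _) ?_ hq0 hq1 e1 e2 e4 e3
    (hsum.trans (by linarith [le_max_left δ 0]))
  rcases max_cases δ 0 with h1 | h1 <;> rw [h1.1] <;> linarith

end Crest.Agent.R116.SgF665
end

-- ▼ part R116/RowU5_194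
section

/-!
# R116, row U (helper194), part 5: generic `σ`

* `sigP_falseG` : `SigP` + facts at `θb ∉ {0, θa, 2 θa}` ⊢ `False`
-/

set_option autoImplicit false
set_option linter.unusedVariables false

open Set Filter Topology MeasureTheory
open scoped NNReal

namespace Crest.Agent.R116.RowU194

open Crest.Agent.R138.Ex926 (Base U IsTan)
open Crest.Agent.R136
open Crest.Agent.R136.Net191
open Crest.Agent.R136.Lq196
open Crest.Agent.R116.ChL222
open Crest.Agent.R116.PL504 (βL eL rL Shift)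
open Crest.Agent.R116.Sg337 (coneL ProfL DL natB natB_smul bx9 uC uP uCP SL frz frz_single)
open Dg262 (X SupOn)
open Dg219 (Walls mw gset mem_gset OutS gC dhC nC gC_zero gC_eq)
open Sg635 (xS aS bS X_eq PP_eq L_eq LMd mem_bx)
open SgF665 (LinFacts)

variable {J : Type*} [Finite J] {R w0 sa sb θa θb s c q0 q1 δ : ℝ} {f : J → (Fin 12 → ℝ) → ℝ}
    {j0 : J} {v0 lam0 : ℝ} {z : ℝ × ℝ} {u k : ℕ → ℝ} {lam : J → (Fin 12 → ℝ) → ℝ} {A : ℝ × ℝ}
    {φ : ℕ → (Fin 12 → ℝ) → ℝ} {r : ℕ → ℝ}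

/-- **generic `σ`** -/
theorem sigP_falseG (H : SigP R w0 sa sb θa θb s c q0 q1 δ f j0 v0 lam0 z u k lam A φ r)
    (ha : θa ≠ 0) (hσ0 : θb ≠ 0) (hσ1 : θb ≠ θa) (hσ2 : θb ≠ 2 * θa) (hs : 0 ≤ s)
    (hc : 2 * s < c) (hq0 : 0 < q0) (hq1 : 0 < q1) (hδ : δ ≤ (c - 2 * s) / 2)
    (HL : LinFacts (Leg monL R) f j0 (Bs0 θa θb w0 sa sb v0 lam0 z u k) s) : False :=
  SgF665.sigG_false (K := 12) (x := xB θa θb w0 sa sb v0 lam0 z u) (h := fun m => u m * k m)
    (sc := fun n => 1 / ((n : ℝ) + 1)) (by norm_num) H.hpos H.h0 H.hl0 ha hσ0 hσ1 hσ2 H.hx H.hxD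
    H.tan H.lip H.out (fun n => by positivity) tendsto_one_div_add_atTop_nhds_zero_nat
    (fun c0 hc0 h3 h5 h7 ψ θ hψ hθ => Bs0.mk' hc0 h3 h5 h7 hψ hθ) HL hs hc hq0 hq1 hδ H.sum H.own
    H.iC H.iP H.iCP

end Crest.Agent.R116.RowU194
end

-- ▼ part R116/Sg3d_890

/-!
# R116 (K side, LEMMA SIG), `σ = 0` (helper890; docs 2383, 439's positions)

* `Out.facts0` : the facts at a position, `σ = 0`
* **`sig0_core`** : `PosF` + own + increments ⊢ `False` at `θb = 0`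
* **`sig0_false`** : the same over `LinFacts` (665), binders of 332's `sig1_false` (own in the
  form `ownG`)
-/

set_option autoImplicit false
set_option linter.unusedVariables false

open Set Filter Topology MeasureTheory

namespace Crest.Agent.R116.SgP890

open Crest.Agent.R136
open Crest.Agent.R138
open Crest.Agent.R136.Net191
open Crest.Agent.R116.ChL222
open Dg219 (Walls mw gset mem_gset gC dhC nC gC_zero gC_eq OutS)
open SgO219 (RateP exists_posn_y psi_lip rateP_of_diff seg_ge ae_line exists_line)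
open Sg337 (bx9 uC uP uCP)
open Sg388 (ind)
open Sg635
open SgF665 (LM0 wl LinTan LinFacts)

section

variable {θa θb : ℝ} {lam : (Fin 12 → ℝ) → ℝ} {A : ℝ × ℝ} {φ : ℕ → (Fin 12 → ℝ) → ℝ} {r : ℕ → ℝ}

/-- the facts at a position, `σ = 0` -/
theorem Out.facts0 (H : Out θa θb lam A φ r) (ha : θa ≠ 0) (h0 : θb = 0) {s : ℝ}
    (hP : PosF lam s)
    (hown : ∀ p ∈ LMd, ∀ q ∈ LMd, p ≤ q → (1 - s) * (q 0 - p 0) ≤ lam p - lam q)
    {v : Fin 4 → ℝ} (hv : v ∈ Pos) {G : Fin 4 → ℝ} (hG : RateP (φ 0) (0 + T4 v) T4 G)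
    (hd : ∀ᵐ ζ : ℝ, DifferentiableAt ℝ (fun u => φ (kz θa θb) (Tz u)) ![ζ, ζ + v 1])
    {δ : ℝ} (hδ : 0 < δ) :
    ∃ rz rF : ℝ, 1 - s ≤ rz ∧ rz + rF ≤ r (kz θa θb) + δ ∧
      (0 < G 0 → 1 - s ≤ r (kX θa θb)) ∧ (s < G 0 → 1 ≤ r (kX θa θb)) ∧
      (0 < G 0 → r (kX θa θb) ≤ r (kN θa θb)) ∧
      (0 < G 1 → 1 - s ≤ rF) ∧ (s < G 1 → 1 ≤ rF) ∧
      (0 < G 3 → r (kX θa θb) ≤ rF) ∧ (0 < G 2 → r (kN θa θb) ≤ rF) := by
  obtain ⟨ζ, hζ, hr⟩ := exists_line (H.lipz ha h0) hδ (fun u => H.ratez ha h0 u) hd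
  set G2 : Fin 2 → ℝ :=
    fun i => -fderiv ℝ (fun u => φ (kz θa θb) (Tz u)) ![ζ, ζ + v 1] (Pi.single i 1) with hG2
  have hbase : ∀ X N : ℝ, bg ζ X N (ζ + v 1) + T4 v ∈ LMd →
      RateBx lam (bg ζ X N (ζ + v 1) + T4 v) (G2 0) (r (kX θa θb)) (r (kN θa θb)) (G2 1)
        (G 0) (G 1) (G 2) (G 3) := by
    intro X N hc0
    refine H.rateBx0 ha h0 hc0 (H.rate0_bg hG _ _ _ _) ?_
    refine rateP_of_diff (Q := mw monL) (x0 := xS 1) (a := aS) (b := bS θa θb) (lam := lam)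
      (A := A) (r := r) (grp := gC aS (bS θa θb)) (dh := dhC aS (bS θa θb))
      (n := nC aS (bS θa θb)) (by rw [L_eq one_ne_zero]; exact H) (kz θa θb) hζ fun i hi => ?_
    rcases (slots0 ha h0 i).1.1 hi with rfl | rfl
    · rw [(pv _ _ _ _ v).1, (Tzv _).1]; rfl
    · rw [(pv _ _ _ _ v).2.2.2.2, (Tzv _).2]; rfl
  obtain ⟨hv0, hv1, hv2⟩ := hv
  have hv : v ∈ Pos := ⟨hv0, hv1, hv2⟩
  have p0 := hv0 0
  have p1 := hv0 1
  have p2 := hv0 2
  have p3 := hv0 3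
  -- the corner
  have m1 : bg ζ (ζ + v 0) (v 0 + (ζ + v 0)) (ζ + v 1) + T4 v ∈ LMd :=
    (bg_mem hv).2 ⟨le_rfl, le_rfl, le_rfl, by linarith, by linarith⟩
  have m2 : bg ζ (ζ + v 1 - v 3) (v 0 + (ζ + v 1 - v 3)) (ζ + v 1) + T4 v ∈ LMd :=
    (bg_mem hv).2 ⟨by linarith, le_rfl, le_rfl, by linarith, by linarith⟩
  have m3 : bg ζ (ζ + v 0) (ζ + v 1 - v 2) (ζ + v 1) + T4 v ∈ LMd :=
    (bg_mem hv).2 ⟨le_rfl, by linarith, le_rfl, by linarith, by linarith⟩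
  have K1 := hP.K1 v hv _ _ _ _ m1 _ _ _ _ _ _ _ _ (hbase _ _ m1) rfl
  have H1 := hP.H1 v hv _ _ _ _ m1 _ _ _ _ _ _ _ _ (hbase _ _ m1) rfl
  have K2 := hP.K2 v hv _ _ _ _ m1 _ _ _ _ _ _ _ _ (hbase _ _ m1) rfl
  have S1 := hP.S1 v hv _ _ _ _ m2 _ _ _ _ _ _ _ _ (hbase _ _ m2) (by ring)
  have S2 := hP.S2 v hv _ _ _ _ m3 _ _ _ _ _ _ _ _ (hbase _ _ m3) (by ring)
  exact ⟨G2 0, G2 1, H.own_rate ha h0 hown hζ, hr, K1.1, K1.2, H1, K2.1, K2.2, S1, S2⟩

/-- **`σ = 0`** -/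
theorem sig0_core (H : Out θa θb lam A φ r) (ha : θa ≠ 0) (h0 : θb = 0) {s c q0 q1 δ : ℝ}
    (hP : PosF lam s)
    (hown : ∀ p ∈ LMd, ∀ q ∈ LMd, p ≤ q → (1 - s) * (q 0 - p 0) ≤ lam p - lam q)
    (hs : 0 ≤ s) (hc : 2 * s < c) (hq0 : 0 < q0) (hq1 : 0 < q1) (hδ : δ ≤ (c - 2 * s) / 2)
    (hsum : ∑ k ∈ (gset (gC aS (bS θa θb))).erase 0, r k ≤ 4 - s - c + δ)
    (iC : ∀ y : ℝ, 0 < y → q0 * y ≤ -lam (y • uC))
    (iCP : ∀ y : ℝ, 0 < y → (c + q0 + q1) * y ≤ -lam (y • uCP))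
    (iP : ∀ y : ℝ, 0 < y → q1 * y ≤ -lam (y • uP)) : False := by
  -- the sum of the rates
  have hS : r (kz θa θb) + r (kX θa θb) + r (kN θa θb) ≤ 4 - s - c + δ := by
    have h1 := (gset_sum0 (θa := θa) (θb := θb) ha h0 r).2
    have m0 : (0:ℕ) ∈ gset (gC aS (bS θa θb)) := by rw [gset_eq]; simp
    rw [← Finset.add_sum_erase _ _ m0] at h1
    linarith
  have hN := ae_line (H.lipz ha h0) (d := 4) 1
  have e1 : 0 < (c - 2 * s) / 4 := by linarith
  -- position `C`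
  obtain ⟨v1, hN1, hv1, -, G1, g1, b1, f1⟩ := H.pos4 (S := {0}) (Or.inl rfl) pos_open
    (Subset.refl _) (fun ε hε t ht => pos_path (Or.inl rfl) hε ht) one_pos
    (H.incr0 (Or.inl rfl) one_pos (by rw [T4_C]; exact iC 1 one_pos)) (half_pos hq0) one_pos hN
  rw [Finset.sum_singleton] at b1
  obtain ⟨rz1, rF1, -, -, k1, -, h1, -, -, -, -⟩ := H.facts0 ha h0 hP hown hv1 f1 hN1 e1
  have x1 := k1 (by linarith)
  have x2 := h1 (by linarith)
  -- position `C + P`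
  obtain ⟨v2, hN2, hv2, -, G2, g2, b2, f2⟩ := H.pos4 (S := {0, 1}) (Or.inr (Or.inl rfl)) pos_open
    (Subset.refl _) (fun ε hε t ht => pos_path (Or.inr (Or.inl rfl)) hε ht) one_pos
    (H.incr0 (Or.inr (Or.inl rfl)) one_pos (by rw [T4_CP]; exact iCP 1 one_pos))
    (add_pos hq0 hq1) one_pos hN
  rw [Finset.sum_pair (by decide)] at b2
  obtain ⟨rz2, rF2, o2, t2, k2, k2', h2, l2, l2', -, -⟩ :=
    H.facts0 ha h0 hP hown hv2 f2 hN2 e1
  rcases lt_or_ge s (G2 1) with c1 | c1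
  · have := l2' c1
    linarith
  have c2 : s < G2 0 := by linarith
  have x3 := k2' c2
  have x4 := h2 (by linarith)
  -- position `P + E + B`
  obtain ⟨v3, hN3, hv3, -, G3, g3, b3, f3⟩ := H.pos4 (S := {1, 2, 3}) (Or.inr (Or.inr rfl))
    pos_open (Subset.refl _) (fun ε hε t ht => pos_path (Or.inr (Or.inr rfl)) hε ht) one_pos
    (H.incr0 (Or.inr (Or.inr rfl)) one_pos (by rw [T4_P]; exact iP 1 one_pos))
    (half_pos hq1) one_pos hN
  rw [Finset.sum_insert (by decide), Finset.sum_pair (by decide)] at b3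
  obtain ⟨rz3, rF3, o3, t3, -, -, -, l3, -, s1, s2⟩ := H.facts0 ha h0 hP hown hv3 f3 hN3 e1
  have hF : 1 - s ≤ rF3 := by
    rcases lt_or_ge 0 (G3 1) with d1 | d1
    · exact l3 d1
    rcases lt_or_ge 0 (G3 3) with d2 | d2
    · linarith [s1 d2]
    · linarith [s2 (by linarith)]
  linarith

end

/-- **`σ = 0` over the facts** -/
theorem sig0_false {P : Set (Fin 12 → ℝ)} {θa θb lam0 : ℝ} {A : ℝ × ℝ}
    {φ : ℕ → (Fin 12 → ℝ) → ℝ} {r : ℕ → ℝ} {J : Type*} [Finite J]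
    {f lam : J → (Fin 12 → ℝ) → ℝ} {j0 : J} {x : ℕ → Fin 12 → ℝ} {h : ℕ → ℝ} {K : ℝ}
    {sc : ℕ → ℝ} {Bs : (ℕ → Fin 12 → ℝ) → (ℕ → ℝ) → Prop} {s : ℝ}
    (hK : 0 ≤ K) (hpos : ∀ l, 0 < h l) (h0 : Tendsto h atTop (𝓝 0))
    (hl0 : lam0 ≠ 0) (ha : θa ≠ 0) (hσ : θb = 0)
    (hx : ∀ l, ∀ k, ∀ e ∈ monL.mon k, e 1 = 0 → x l k = wl e (x l))
    (hxD : ∀ k, ∀ e ∈ monL.mon k, e 1 ≠ 0 → ∀ K : ℝ, ∀ᶠ l in atTop,
      x l k + K * h l ≤ wl e (x l))
    (ht : ∀ j, Ex926.IsTan P ((mw monL).L (xS lam0) aS (bS θa θb)) (f j) x h (lam j))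
    (hlip : ∀ j, ∀ p ∈ (mw monL).L (xS lam0) aS (bS θa θb),
      ∀ q ∈ (mw monL).L (xS lam0) aS (bS θa θb), |lam j p - lam j q| ≤ K * ‖p - q‖)
    (H : OutS (gC aS (bS θa θb)) ((mw monL).L (xS lam0) aS (bS θa θb)) (dhC aS (bS θa θb))
      (nC aS (bS θa θb)) (lam j0) A φ r)
    (spos : ∀ m, 0 < sc m) (s0 : Tendsto sc atTop (𝓝 0))
    (hBs : ∀ c0 ∈ LMd, c0 3 = c0 4 → c0 5 = c0 6 → c0 7 = c0 8 → ∀ ψ θ : ℕ → ℕ,
      StrictMono ψ → StrictMono θ →
      Bs (fun m => x (ψ m) + h (ψ m) • c0) (fun m => h (ψ m) * sc (θ m)))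
    (HL : LinFacts P f j0 Bs s)
    {c q0 q1 δ : ℝ} (hs : 0 ≤ s) (hc : 2 * s < c) (hq0 : 0 < q0) (hq1 : 0 < q1)
    (hδ : δ ≤ (c - 2 * s) / 2)
    (hsum : ∑ k ∈ (gset (gC aS (bS θa θb))).erase 0, r k ≤ 4 - s - c + δ)
    (hown : ∀ p ∈ (mw monL).L (xS lam0) aS (bS θa θb),
      ∀ q ∈ (mw monL).L (xS lam0) aS (bS θa θb), p ≤ q →
      (1 - s) * (q 0 - p 0) ≤ lam j0 p - lam j0 q)
    (iC : ∀ y : ℝ, 0 < y → q0 * y ≤ -lam j0 (y • uC))
    (iP : ∀ y : ℝ, 0 < y → q1 * y ≤ -lam j0 (y • uP))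
    (iCP : ∀ y : ℝ, 0 < y → (c + q0 + q1) * y ≤ -lam j0 (y • uCP)) : False := by
  have hP := posF_of hl0 hK hpos h0 hx hxD ht hlip H spos s0 hBs HL
  have H' : Out θa θb (lam j0) A φ r := by
    rw [L_eq hl0] at H
    exact H
  rw [L_eq hl0] at hown
  exact sig0_core H' ha hσ hP hown hs hc hq0 hq1 hδ hsum iC iCP iP

end Crest.Agent.R116.SgP890
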