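import Crest.Agent.R116.SgL2_337
import Crest.Agent.R116.Sg3a_635
import Crest.Agent.R116.SgZ_388

-- ▼ part R116/SgI1_337
section

/-!
# R116, K-TEXT II-c, the ISOTROPIC record over the record tangent (helper337), part 1

All flag slots are dead (flat flags), `P`, `F` are dead as long as they are not finer than `C`, `X`.
`ProfI` = what is used; `sigI_all` : with
`SI θ l v t = bx9 v (3l) (2l) (-θt) (v-θt) l (v-2θt) (-θt) (v-θt)` (flag slots frozen)
`(c + q0 + q1) y ≤ g (SI v t) - g (SI v t + y C)` for `v ≤ t`.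
-/

set_option autoImplicit false

open Finset Filter Topology

namespace Crest.Agent.R116.Sg337

open Crest.Agent.R136.Net191
open Crest.Agent.R116.ChL222
open Crest.Agent.R116.PL504 (eL)
open Crest.Agent.R116.Xd954 (cs xs)

/-- what is used of the record tangent of a round record -/
structure ProfI (s : ℝ) (a : Fin 2) (g : (Fin 12 → ℝ) → ℝ) : Prop where
  anti : ∀ p ∈ coneL, ∀ q ∈ coneL, p ≤ q → 0 ≤ g p - g q ∧ g p - g q ≤ ∑ k, (q k - p k)
  sm : ∀ p ∈ coneL, ∀ q ∈ coneL, p ⊓ q ∈ coneL → g p + g q ≤ g (p ⊔ q) + g (p ⊓ q)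
  own : ∀ p ∈ coneL, ∀ q ∈ coneL, p ≤ q → (1 - s) * (q 0 - p 0) ≤ g p - g q
  dead : ∀ p ∈ coneL, ∀ q ∈ coneL, (∀ k, k ≠ 1 → k ≠ 2 → k ≠ 7 → k ≠ 8 → p k = q k) → g p = g q
  deadP : ∀ p ∈ coneL, ∀ q ∈ coneL, (∀ k, k ≠ 1 → k ≠ 2 → k ≠ 7 → k ≠ 8 → k ≠ 10 → k ≠ 11 →
    p k = q k) → (q 10 ≤ p 10 ∨ q 10 ≤ p (cs a)) → (q 11 ≤ p 11 ∨ q 11 ≤ p (xs a)) → g p ≤ g q

/-- frozen flags -/
def SI (θ l v t : ℝ) : Fin 12 → ℝ :=
  bx9 v (3 * l) (2 * l) (-(θ * t)) (v + -(θ * t)) l (v + 2 * (-(θ * t))) (-(θ * t)) (v + -(θ * t))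

/-- perturbed box with frozen flags -/
def pI (l z C y1 y3 y4 y6 y7 y8 : ℝ) : Fin 12 → ℝ :=
  bx9 (z + y1) (3 * l) (2 * l) (C + y3) (z + C + y4) l (z + 2 * C + y6) (C + y7) (z + C + y8)

theorem SI_pI (θ l v t : ℝ) : SI θ l v t = pI l v (-(θ * t)) 0 0 0 0 0 0 := by
  unfold SI pI; simp only [add_zero]

section core

variable {s q0 q1 c l z C y : ℝ} {a : Fin 2} {g : (Fin 12 → ℝ) → ℝ}

theorem pI_cone {y1 y3 y4 y6 y7 y8 : ℝ} (hX : y4 ≤ y1 + y3) (hN : y6 ≤ y3 + y4)
    (hF : y8 ≤ y1 + y7) (h1 : -l ≤ z + y1) (h2 : -l ≤ C + y3) (h3 : -l ≤ z + C + y4)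
    (h4 : y7 - y3 ≤ l) (h5 : -l ≤ z + C + y6 - y7) (h6 : y8 - y4 ≤ l) (h7 : -l ≤ C + y6 - y8)
    (hl : 0 ≤ l) : pI l z C y1 y3 y4 y6 y7 y8 ∈ coneL := by
  refine cone9 ⟨?_, ?_, ?_, ?_, ?_, ?_, ?_, ?_, ?_, ?_⟩ <;> linarith

theorem pI_add (y : ℝ) : pI l z C 0 y 0 0 0 0 = pI l z C 0 0 0 0 0 0 + y • uC := by
  funext k
  fin_cases k <;> simp [pI, uC, bx9]

theorem dead9 (H : ProfI s a g) {z D E C X B N P F D' E' B' : ℝ}
    (h : bx9 z D E C X B N P F ∈ coneL) (h' : bx9 z D' E' C X B' N P F ∈ coneL) :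
    g (bx9 z D E C X B N P F) = g (bx9 z D' E' C X B' N P F) := by
  refine H.dead _ h _ h' fun k h1 h2 h7 h8 => ?_
  fin_cases k
  exacts [show z = z from rfl, absurd rfl h1, absurd rfl h2, show C = C from rfl,
    show C = C from rfl, show X = X from rfl, show X = X from rfl, absurd rfl h7, absurd rfl h8,
    show N = N from rfl, show P = P from rfl, show F = F from rfl]

theorem deadP9 (H : ProfI s a g) {z D E C X B N P F P' : ℝ}
    (h : bx9 z D E C X B N P F ∈ coneL) (h' : bx9 z D E C X B N P' F ∈ coneL) (hP : P' ≤ C) :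
    g (bx9 z D E C X B N P F) ≤ g (bx9 z D E C X B N P' F) := by
  refine H.deadP _ h _ h' (fun k h1 h2 h7 h8 h10 h11 => ?_) (Or.inr ?_)
    (Or.inl (show F ≤ F from le_rfl))
  · fin_cases k
    exacts [show z = z from rfl, absurd rfl h1, absurd rfl h2, show C = C from rfl,
      show C = C from rfl, show X = X from rfl, show X = X from rfl, absurd rfl h7, absurd rfl h8,
      show N = N from rfl, absurd rfl h10, absurd rfl h11]
  · fin_cases a <;> exact hP

/-- the record inequality, round case -/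
theorem recI (H : ProfI s a g) (y0 : 0 ≤ y) (hz : |z| + y ≤ l / 4) (hC : |C| + y ≤ l / 4)
    (hrec : DL c s q0 q1 z C C ≤ g (natB z C C))
    (hD : g (natB (z - y) (C + y) (C + y)) ≤ DL c s q0 q1 (z - y) (C + y) (C + y)) :
    (c + q0 + q1) * y ≤ g (pI l z C 0 0 0 0 0 0) - g (pI l z C 0 y 0 0 0 0) := by
  have z1 := neg_abs_le z
  have z2 := le_abs_self z
  have C1 := neg_abs_le C
  have C2 := le_abs_self C
  have az := abs_nonneg z
  have aC := abs_nonneg C
  have m0 : pI l z C 0 0 0 0 0 0 ∈ coneL := pI_cone (by linarith) (by linarith) (by linarith)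
    (by linarith) (by linarith) (by linarith) (by linarith) (by linarith) (by linarith)
    (by linarith) (by linarith)
  have mC : pI l z C 0 y 0 0 0 0 ∈ coneL := pI_cone (by linarith) (by linarith) (by linarith)
    (by linarith) (by linarith) (by linarith) (by linarith) (by linarith) (by linarith)
    (by linarith) (by linarith)
  have m3 : pI l z C 0 y 0 0 y 0 ∈ coneL := pI_cone (by linarith) (by linarith) (by linarith)
    (by linarith) (by linarith) (by linarith) (by linarith) (by linarith) (by linarith)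
    (by linarith) (by linarith)
  have m1 : pI l z C (-y) y 0 0 y 0 ∈ coneL := pI_cone (by linarith) (by linarith) (by linarith)
    (by linarith) (by linarith) (by linarith) (by linarith) (by linarith) (by linarith)
    (by linarith) (by linarith)
  have m2 : pI l z C (-y) y 0 y y 0 ∈ coneL := pI_cone (by linarith) (by linarith) (by linarith)
    (by linarith) (by linarith) (by linarith) (by linarith) (by linarith) (by linarith)
    (by linarith) (by linarith)
  -- flags are dead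
  have e1 : g (pI l z C 0 0 0 0 0 0) = g (natB z C C) := by
    have e0 : natB z C C = bx9 (z + 0) (C - 2 * C - z) (C - 2 * C) (C + 0) (z + C + 0) (C - C)
        (z + 2 * C + 0) (C + 0) (z + C + 0) := by
      unfold natB; simp only [add_zero]
    have e0' := natB_cone z C C
    rw [e0] at e0' ⊢
    exact dead9 H m0 e0'
  have e2 : g (pI l z C (-y) y 0 y y 0) = g (natB (z - y) (C + y) (C + y)) := by
    have e0 : natB (z - y) (C + y) (C + y) = bx9 (z + -y) ((C + y) - 2 * (C + y) - (z - y))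
        ((C + y) - 2 * (C + y)) (C + y) (z + C + 0) ((C + y) - (C + y)) (z + 2 * C + y) (C + y)
        (z + C + 0) := by
      unfold natB; congr 1 <;> ring
    have e0' := natB_cone (z - y) (C + y) (C + y)
    rw [e0] at e0' ⊢
    exact dead9 H m2 e0'
  -- `P` is dead
  have e3 : g (pI l z C 0 y 0 0 0 0) ≤ g (pI l z C 0 y 0 0 y 0) := deadP9 H mC m3 le_rfl
  have hc := (H.anti _ m1 _ m2 (bx9_le le_rfl le_rfl le_rfl le_rfl le_rfl le_rfl (by linarith)
    le_rfl le_rfl)).2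
  have e4 : ∑ k, (pI l z C (-y) y 0 y y 0 k - pI l z C (-y) y 0 0 y 0 k) = y := by
    simp [Fin.sum_univ_succ, pI, bx9]
  rw [e4] at hc
  have ho := H.own _ m1 _ m3
    (bx9_le (by linarith) le_rfl le_rfl le_rfl le_rfl le_rfl le_rfl le_rfl le_rfl)
  have e5 : pI l z C 0 y 0 0 y 0 0 - pI l z C (-y) y 0 0 y 0 0 = y := by
    show (z + 0) - (z + -y) = y
    ring
  rw [e5] at ho
  rw [e1]
  unfold DL at hrec hD
  nlinarith

/-- coarser heights -/
theorem coarseI (H : ProfI s a g) {z' : ℝ} (hz : z' ≤ z) (y0 : 0 ≤ y)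
    (m0 : pI l z C 0 0 0 0 0 0 ∈ coneL) (m0' : pI l z' C 0 0 0 0 0 0 ∈ coneL)
    (m1' : pI l z' C 0 y 0 0 0 0 ∈ coneL) :
    g (pI l z C 0 0 0 0 0 0) - g (pI l z C 0 y 0 0 0 0) ≤
      g (pI l z' C 0 0 0 0 0 0) - g (pI l z' C 0 y 0 0 0 0) := by
  have e1 : pI l z C 0 0 0 0 0 0 ⊓ pI l z' C 0 y 0 0 0 0 = pI l z' C 0 0 0 0 0 0 := by
    unfold pI
    rw [bx9_inf]
    congr 1 <;> first | exact min_self _ | exact min_eq_left (by linarith) |
      exact min_eq_right (by linarith)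
  have e2 : pI l z C 0 0 0 0 0 0 ⊔ pI l z' C 0 y 0 0 0 0 = pI l z C 0 y 0 0 0 0 := by
    unfold pI
    rw [bx9_sup]
    congr 1 <;> first | exact max_self _ | exact max_eq_left (by linarith) |
      exact max_eq_right (by linarith)
  have h1 := H.sm _ m0 _ m1' (by rw [e1]; exact m0')
  rw [e1, e2] at h1
  linarith

/-- **the isotropic plane, over the record tangent** -/
theorem sigI_all {θ : ℝ} (H : ProfI s a g) (hD : ∀ v x : ℝ, g (natB v x x) ≤ DL c s q0 q1 v x x)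
    (hR : ∀ t : ℝ, g (natB t (-(θ * t)) (-(θ * t))) = DL c s q0 q1 t (-(θ * t)) (-(θ * t)))
    {v t : ℝ} (hvt : v ≤ t) (y0 : 0 ≤ y) (hv : |v| + y ≤ l / 4) (ht : |t| + y ≤ l / 4)
    (hθ : |θ * t| + y ≤ l / 4) :
    SI θ l v t ∈ coneL ∧ SI θ l v t + y • uC ∈ coneL ∧
      g (SI θ l v t) ≤ DL c s q0 q1 v (-(θ * t)) (-(θ * t)) ∧
      (c + q0 + q1) * y ≤ g (SI θ l v t) - g (SI θ l v t + y • uC) := by
  have v1 := neg_abs_le v
  have v2 := le_abs_self v
  have t1 := neg_abs_le t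
  have t2 := le_abs_self t
  have θ1 := neg_abs_le (θ * t)
  have θ2 := le_abs_self (θ * t)
  have av := abs_nonneg v
  have at' := abs_nonneg t
  have aθ := abs_nonneg (θ * t)
  have mt : pI l t (-(θ * t)) 0 0 0 0 0 0 ∈ coneL := pI_cone (by linarith) (by linarith)
    (by linarith) (by linarith) (by linarith) (by linarith) (by linarith) (by linarith)
    (by linarith) (by linarith) (by linarith)
  have mv : pI l v (-(θ * t)) 0 0 0 0 0 0 ∈ coneL := pI_cone (by linarith) (by linarith)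
    (by linarith) (by linarith) (by linarith) (by linarith) (by linarith) (by linarith)
    (by linarith) (by linarith) (by linarith)
  have mv' : pI l v (-(θ * t)) 0 y 0 0 0 0 ∈ coneL := pI_cone (by linarith) (by linarith)
    (by linarith) (by linarith) (by linarith) (by linarith) (by linarith) (by linarith)
    (by linarith) (by linarith) (by linarith)
  rw [SI_pI, ← pI_add]
  refine ⟨mv, mv', ?_, ?_⟩
  · refine (le_of_eq ?_).trans (hD v _)
    have e0 : natB v (-(θ * t)) (-(θ * t)) = bx9 (v + 0) (-(θ * t) - 2 * (-(θ * t)) - v)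
        (-(θ * t) - 2 * (-(θ * t))) (-(θ * t) + 0) (v + -(θ * t) + 0) (-(θ * t) - -(θ * t))
        (v + 2 * (-(θ * t)) + 0) (-(θ * t) + 0) (v + -(θ * t) + 0) := by
      unfold natB; simp only [add_zero]
    have e0' := natB_cone v (-(θ * t)) (-(θ * t))
    rw [e0] at e0' ⊢
    exact dead9 H mv e0'
  · have c1 := recI (l := l) (z := t) (C := -(θ * t)) (y := y) H y0 ht
      (by rw [abs_neg]; exact hθ) (hR t).ge (hD _ _)
    exact c1.trans (coarseI H hvt y0 mt mv mv')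

end core

end Crest.Agent.R116.Sg337
end

-- ▼ part R116/SgI2_337

/-!
# R116, K-TEXT II-c, the ISOTROPIC record (helper337), part 2: geometry of the plane

Walls `mw monL`; plane `xI l + v aS + t bI θ = SI θ l v t` (337), flag slots frozen.

* `X_eqI`, `actI_iff`, `mem_LI`, `OOI`
* groups: `0` = `{1,2,3,4,7,8,10}`, `kz`, `kX = {5,6,11}`, `kN`; `gsetI_sum`
* positions `T5` : `(α, β, γ, κ)` with `C = (α+γ, β+γ)`, `X = (β+κ, α+κ)`
-/

set_option autoImplicit false
set_option linter.unusedVariables false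

open Set Filter Topology

namespace Crest.Agent.R116.SgI337

open Crest.Agent.R136
open Crest.Agent.R136.Net191
open Dg262 (X)
open Dg219 (Walls mw gset mem_gset gC dhC nC gC_zero gC_eq)
open SgO219 (PP OO LT)
open ChL222 (monL mfL)
open PL504 (eL eL_wall)
open Sg337 (bx9 coneL mem_coneL natB uC eL_bx9 SI)
open Sg635 (PP_eq no_one ne_one aS aS_nonneg)

/-! ### the plane -/

/-- base of the plane -/
def xI (l : ℝ) : Fin 12 → ℝ := bx9 0 (3 * l) (2 * l) 0 0 l 0 0 0
/-- slopes in the record height -/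
def bI (θ : ℝ) : Fin 12 → ℝ := bx9 0 0 0 (-θ) (-θ) 0 (-(2 * θ)) (-θ) (-θ)

theorem X_eqI (θ l : ℝ) (z : ℝ × ℝ) : X (xI l) aS (bI θ) z = SI θ l z.1 z.2 := by
  funext k
  fin_cases k <;> simp [X, xI, aS, bI, SI, bx9] <;> ring

theorem fullI (θ l : ℝ) : (mw monL).Full (xI l) aS (bI θ) := Dg219.mw_full _ _ _ _

/-! ### walls -/

/-- no flag slots -/
def nf (e : Fin 12 → ℕ) : Prop := e 1 = 0 ∧ e 2 = 0 ∧ e 7 = 0 ∧ e 8 = 0

theorem nf_slot {k : Fin 12} {e : Fin 12 → ℕ} (he : e ∈ monL.mon k) (h : nf e) :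
    k ≠ 1 ∧ k ≠ 2 ∧ k ≠ 7 ∧ k ≠ 8 := by
  obtain ⟨h1, h2, h7, h8⟩ := h
  refine ⟨ne_one he, ?_, ?_, ?_⟩
  · rintro rfl
    change e ∈ mfL 2 at he
    simp [mfL] at he
    subst he
    simp at h1
  · rintro rfl
    change e ∈ mfL 7 at he
    simp [mfL] at he
    rcases he with rfl | rfl
    · simp at h2
    · simp at h1
  · rintro rfl
    change e ∈ mfL 8 at he
    simp [mfL] at he
    rcases he with rfl | rfl
    · simp at h2
    · simp at h1

/-- slots which are not flags -/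
def NF (i : Fin 12) : Prop := i ≠ 1 ∧ i ≠ 2 ∧ i ≠ 7 ∧ i ≠ 8

theorem sum_nf {e : Fin 12 → ℕ} (h : nf e) {p q : Fin 12 → ℝ} (hpq : ∀ i, NF i → p i = q i) :
    ∑ s, (e s : ℝ) * p s = ∑ s, (e s : ℝ) * q s := by
  obtain ⟨h1, h2, h7, h8⟩ := h
  refine Finset.sum_congr rfl fun s _ => ?_
  by_cases hs : NF s
  · rw [hpq s hs]
  · have : (e s : ℝ) = 0 := by
      unfold NF at hs
      by_cases a1 : s = 1
      · rw [a1, h1]; simp
      by_cases a2 : s = 2
      · rw [a2, h2]; simp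
      by_cases a7 : s = 7
      · rw [a7, h7]; simp
      by_cases a8 : s = 8
      · rw [a8, h8]; simp
      exact absurd ⟨a1, a2, a7, a8⟩ hs
    rw [this, zero_mul, zero_mul]

theorem eq_nf {v c p : ℝ} {x : Fin 12 → ℝ} (hx : ∀ i, NF i → x i = eL v c p i) {k : Fin 12}
    {e : Fin 12 → ℕ} (he : e ∈ monL.mon k) (h : nf e) : x k = ∑ s, (e s : ℝ) * x s := by
  rw [hx k (nf_slot he h), sum_nf h hx, eL_wall v c p k he]

theorem aS_natI (i : Fin 12) (hi : NF i) : aS i = eL 1 0 0 i := by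
  obtain ⟨h1, h2, h7, h8⟩ := hi
  fin_cases i <;> simp [aS, bx9, eL] at h1 h2 h7 h8 ⊢

theorem bI_natI (θ : ℝ) (i : Fin 12) (hi : NF i) : bI θ i = eL 0 (-θ) (-θ) i := by
  obtain ⟨h1, h2, h7, h8⟩ := hi
  fin_cases i <;> simp [bI, bx9, eL] at h1 h2 h7 h8 ⊢

theorem xI_natI (l : ℝ) (i : Fin 12) (hi : NF i) : xI l i = eL 0 0 0 i := by
  obtain ⟨h1, h2, h7, h8⟩ := hi
  fin_cases i <;> simp [xI, bx9, eL] at h1 h2 h7 h8 ⊢

theorem actI_iff {θ l : ℝ} (hl : 0 < l) (w : Σ k : Fin 12, {e // e ∈ monL.mon k}) :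
    (mw monL).Act (xI l) aS (bI θ) w ↔ nf w.2.1 := by
  obtain ⟨k, e, he⟩ := w
  constructor
  · rintro ⟨h1, -, -⟩
    change xI l k = ∑ s, (e s : ℝ) * xI l s + 0 at h1
    change nf e
    have h2 : ∑ s, (e s : ℝ) * xI l s = l * (3 * e 1 + 2 * e 2 + e 7 + e 8) := by
      simp [Fin.sum_univ_succ, xI, bx9]; ring
    rw [h2, add_zero] at h1
    have key : ∀ n1 n2 n7 n8 : ℕ, l * (3 * (n1:ℝ) + 2 * (n2:ℝ) + n7 + n8) = 0 →
        n1 = 0 ∧ n2 = 0 ∧ n7 = 0 ∧ n8 = 0 := by
      intro n1 n2 n7 n8 h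
      have h3 : (3 * (n1:ℝ) + 2 * (n2:ℝ) + n7 + n8) = 0 := by
        rcases mul_eq_zero.1 h with h | h
        · exact absurd h hl.ne'
        · exact h
      have h4 : 3 * n1 + 2 * n2 + n7 + n8 = 0 := by exact_mod_cast h3
      omega
    have h0 : (k = 2 ∨ k = 7 ∨ k = 8) ∨ xI l k = 0 := by
      have := ne_one he
      fin_cases k <;> simp [xI, bx9] at this ⊢
    rcases h0 with (rfl | rfl | rfl) | h0
    · exfalso
      change e ∈ mfL 2 at he
      simp [mfL] at he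
      subst he
      simp [xI, bx9] at h1
      linarith
    · exfalso
      change e ∈ mfL 7 at he
      simp [mfL] at he
      rcases he with rfl | rfl <;> simp [xI, bx9] at h1 <;> linarith
    · exfalso
      change e ∈ mfL 8 at he
      simp [mfL] at he
      rcases he with rfl | rfl <;> simp [xI, bx9] at h1 <;> linarith
    · rw [h0] at h1
      exact key _ _ _ _ h1.symm
  · intro h
    change nf e at h
    refine ⟨?_, ?_, ?_⟩
    · change xI l k = ∑ s, (e s : ℝ) * xI l s + 0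
      rw [add_zero]; exact eq_nf (xI_natI l) he h
    · exact eq_nf aS_natI he h
    · exact eq_nf (bI_natI θ) he h

theorem sum12 (e : Fin 12 → ℕ) (p : Fin 12 → ℝ) : ∑ s, (e s : ℝ) * p s =
    e 0 * p 0 + e 1 * p 1 + e 2 * p 2 + e 3 * p 3 + e 4 * p 4 + e 5 * p 5 + e 6 * p 6 +
      e 7 * p 7 + e 8 * p 8 + e 9 * p 9 + e 10 * p 10 + e 11 * p 11 := by
  simp [Fin.sum_univ_succ]
  ring

/-- **the cone of the plane** -/
theorem mem_LI {θ l : ℝ} (hl : 0 < l) {p : Fin 12 → ℝ} :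
    p ∈ (mw monL).L (xI l) aS (bI θ) ↔
      p 5 ≤ p 0 + p 3 ∧ p 6 ≤ p 0 + p 4 ∧ p 9 ≤ p 3 + p 5 ∧ p 9 ≤ p 4 + p 6 ∧
        p 11 ≤ p 0 + p 10 := by
  have hw : p ∈ (mw monL).L (xI l) aS (bI θ) ↔
      ∀ k, ∀ e ∈ monL.mon k, nf e → p k ≤ ∑ s, (e s : ℝ) * p s := by
    constructor
    · intro h k e he h1
      exact h ⟨k, e, he⟩ ((actI_iff hl ⟨k, e, he⟩).2 h1)
    · intro h w hw
      exact h w.1 w.2.1 w.2.2 ((actI_iff hl w).1 hw)
  rw [hw]
  simp only [sum12]
  constructor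
  · intro w
    refine ⟨?_, ?_, ?_, ?_, ?_⟩
    · simpa using w 5 ![1, 0, 0, 1, 0, 0, 0, 0, 0, 0, 0, 0] (by decide) (by simp [nf])
    · simpa using w 6 ![1, 0, 0, 0, 1, 0, 0, 0, 0, 0, 0, 0] (by decide) (by simp [nf])
    · simpa using w 9 ![0, 0, 0, 1, 0, 1, 0, 0, 0, 0, 0, 0] (by decide) (by simp [nf])
    · simpa using w 9 ![0, 0, 0, 0, 1, 0, 1, 0, 0, 0, 0, 0] (by decide) (by simp [nf])
    · simpa using w 11 ![1, 0, 0, 0, 0, 0, 0, 0, 0, 0, 1, 0] (by decide) (by simp [nf])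
  · rintro ⟨w1, w2, w3, w4, w5⟩ k e he h1
    change e ∈ mfL k at he
    fin_cases k <;> simp [mfL] at he
    all_goals (first
      | (subst he; first | (simp [nf] at h1; done) | (simp; linarith))
      | (rcases he with rfl | rfl <;>
          first | (simp [nf] at h1; done) | (simp; linarith))
      | (rcases he with rfl | rfl | rfl | rfl <;>
          first | (simp [nf] at h1; done) | (simp; linarith))
      | (rcases he with rfl | rfl | rfl | rfl | rfl | rfl | rfl <;>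
          first | (simp [nf] at h1; done) | (simp; linarith))
      | (rcases he with rfl | rfl | rfl | rfl | rfl | rfl | rfl | rfl | rfl | rfl | rfl | rfl |
          rfl <;>
          first | (simp [nf] at h1; done) | (simp; linarith)))

set_option maxHeartbeats 2000000 in
/-- **interior points of the plane** -/
theorem OOI {θ l : ℝ} (hl : 0 < l) {z : ℝ × ℝ} (hv : |z.1| ≤ l / 4) (ht : |θ * z.2| ≤ l / 4) :
    z ∈ OO (mw monL) (xI l) aS (bI θ) := by
  intro w
  by_cases h1 : nf w.2.1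
  · exact Or.inl ((actI_iff hl w).2 h1)
  · right
    obtain ⟨k, e, he⟩ := w
    change ¬ nf e at h1
    rw [X_eqI]
    change SI θ l z.1 z.2 k < ∑ s, (e s : ℝ) * SI θ l z.1 z.2 s + 0
    rw [add_zero, sum12]
    set C : ℝ := -(θ * z.2) with hC
    have hC' : |C| ≤ l / 4 := by rw [hC, abs_neg]; exact ht
    obtain ⟨a1, a2⟩ := abs_le.1 hv
    obtain ⟨a3, a4⟩ := abs_le.1 hC'
    have e0 : SI θ l z.1 z.2 0 = z.1 := rfl
    have e1 : SI θ l z.1 z.2 1 = 3 * l := rfl
    have e2 : SI θ l z.1 z.2 2 = 2 * l := rfl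
    have e3 : SI θ l z.1 z.2 3 = C := rfl
    have e4 : SI θ l z.1 z.2 4 = C := rfl
    have e5 : SI θ l z.1 z.2 5 = z.1 + C := rfl
    have e6 : SI θ l z.1 z.2 6 = z.1 + C := rfl
    have e7 : SI θ l z.1 z.2 7 = l := rfl
    have e8 : SI θ l z.1 z.2 8 = l := rfl
    have e9 : SI θ l z.1 z.2 9 = z.1 + 2 * C := rfl
    have e10 : SI θ l z.1 z.2 10 = C := rfl
    have e11 : SI θ l z.1 z.2 11 = z.1 + C := rfl
    rw [e0, e1, e2, e3, e4, e5, e6, e7, e8, e9, e10, e11]
    change e ∈ mfL k at he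
    fin_cases k <;> simp [mfL] at he
    all_goals (first
      | (subst he; first | (exfalso; apply h1; simp [nf]; done) | (simp [e2, e5, e6]; linarith))
      | (rcases he with rfl | rfl <;>
          first | (exfalso; apply h1; simp [nf]; done) | (simp [e7, e8]; linarith))
      | (rcases he with rfl | rfl | rfl | rfl <;>
          first | (exfalso; apply h1; simp [nf]; done) | (simp [e9]; linarith))
      | (rcases he with rfl | rfl | rfl | rfl | rfl | rfl | rfl <;>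
          first | (exfalso; apply h1; simp [nf]; done) | (simp [e10]; linarith))
      | (rcases he with rfl | rfl | rfl | rfl | rfl | rfl | rfl | rfl | rfl | rfl | rfl | rfl |
          rfl <;>
          first | (exfalso; apply h1; simp [nf]; done) | (simp [e11]; linarith)))

/-! ### groups -/

section grp

variable (θ : ℝ)

/-- group of `z` -/
noncomputable def kz : ℕ := gC aS (bI θ) 0
/-- group of `X` -/
noncomputable def kX : ℕ := gC aS (bI θ) 5
/-- group of `N` -/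
noncomputable def kN : ℕ := gC aS (bI θ) 9

variable {θ}

theorem gI_zero {i : Fin 12} :
    gC aS (bI θ) i = 0 ↔ i ∈ ({1, 2, 3, 4, 7, 8, 10} : Finset (Fin 12)) := by
  rw [gC_zero]
  fin_cases i <;> simp [aS, bx9]

theorem gI6 : gC aS (bI θ) 6 = kX θ := by
  unfold kX
  rw [gC_eq (by simp [aS, bx9]) (by simp [aS, bx9])]
  simp [aS, bI, bx9]

theorem gI11 : gC aS (bI θ) 11 = kX θ := by
  unfold kX
  rw [gC_eq (by simp [aS, bx9]) (by simp [aS, bx9])]
  simp [aS, bI, bx9]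

theorem kz_ne : kz θ ≠ 0 := by
  unfold kz; rw [Ne, gI_zero]; decide
theorem kX_ne : kX θ ≠ 0 := by
  unfold kX; rw [Ne, gI_zero]; decide
theorem kN_ne : kN θ ≠ 0 := by
  unfold kN; rw [Ne, gI_zero]; decide

theorem kz_kX (h : θ ≠ 0) : kz θ ≠ kX θ := by
  unfold kz kX
  rw [Ne, gC_eq (by simp [aS, bx9]) (by simp [aS, bx9])]
  simp only [aS, bI, bx9]
  simp [h]

theorem kz_kN (h : θ ≠ 0) : kz θ ≠ kN θ := by
  unfold kz kN
  rw [Ne, gC_eq (by simp [aS, bx9]) (by simp [aS, bx9])]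
  simp only [aS, bI, bx9]
  simp [h]

theorem kX_kN (h : θ ≠ 0) : kX θ ≠ kN θ := by
  unfold kX kN
  rw [Ne, gC_eq (by simp [aS, bx9]) (by simp [aS, bx9])]
  simp only [aS, bI, bx9]
  simp
  intro h1
  exact h (by linarith)

theorem gsetI_eq : gset (gC aS (bI θ)) = {0, kz θ, kX θ, kN θ} := by
  ext k
  simp only [Finset.mem_insert, Finset.mem_singleton]
  constructor
  · intro h
    obtain ⟨i, -, rfl⟩ := Finset.mem_image.1 h
    by_cases hi : gC aS (bI θ) i = 0
    · exact Or.inl hi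
    · rw [gI_zero] at hi
      fin_cases i <;> simp at hi ⊢
      · right; left; rfl
      · right; right; left; rfl
      · right; right; left; exact gI6
      · right; right; right; rfl
      · right; right; left; exact gI11
  · rintro (rfl | rfl | rfl | rfl)
    · have : gC aS (bI θ) 1 = 0 := gI_zero.2 (by decide)
      rw [← this]; exact mem_gset 1
    · exact mem_gset 0
    · exact mem_gset 5
    · exact mem_gset 9

theorem gsetI_sum (h : θ ≠ 0) (F : ℕ → ℝ) :
    ∑ k ∈ gset (gC aS (bI θ)), F k = F 0 + F (kz θ) + F (kX θ) + F (kN θ) := by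
  have b1 := (kz_ne (θ := θ)).symm
  have b2 := (kX_ne (θ := θ)).symm
  have b3 := (kN_ne (θ := θ)).symm
  rw [gsetI_eq, Finset.sum_insert (by simp [b1, b2, b3]),
    Finset.sum_insert (by simp [kz_kX h, kz_kN h]), Finset.sum_pair (kX_kN h)]
  ring

theorem gsetI_sum' (h : θ ≠ 0) (F : ℕ → ℝ) :
    ∑ k ∈ (gset (gC aS (bI θ))).erase 0, F k = F (kz θ) + F (kX θ) + F (kN θ) := by
  have h0 : (0:ℕ) ∈ gset (gC aS (bI θ)) := by rw [gsetI_eq]; simp
  have h1 := Finset.add_sum_erase _ F h0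
  rw [gsetI_sum h] at h1
  linarith

/-- the slots of a group -/
theorem grpI_slots (h : θ ≠ 0) (i : Fin 12) :
    (gC aS (bI θ) i = kz θ ↔ i = 0) ∧
    (gC aS (bI θ) i = kX θ ↔ i = 5 ∨ i = 6 ∨ i = 11) ∧
    (gC aS (bI θ) i = kN θ ↔ i = 9) := by
  have a1 := kz_kX h
  have a2 := kz_kN h
  have a4 := kX_kN h
  have b1 := (kz_ne (θ := θ)).symm
  have b2 := (kX_ne (θ := θ)).symm
  have b3 := (kN_ne (θ := θ)).symm
  by_cases hi : i ∈ ({1, 2, 3, 4, 7, 8, 10} : Finset (Fin 12))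
  · have hg : gC aS (bI θ) i = 0 := gI_zero.2 hi
    rw [hg]
    fin_cases i <;> simp at hi ⊢ <;> exact ⟨b1, b2, b3⟩
  · have e0 : gC aS (bI θ) 0 = kz θ := rfl
    have e5 : gC aS (bI θ) 5 = kX θ := rfl
    have e9 : gC aS (bI θ) 9 = kN θ := rfl
    fin_cases i <;> simp at hi ⊢
    · simp [e0, a1, a2]
    · simp [e5, a1.symm, a4]
    · simp [gI6, a1.symm, a4]
    · simp [e9, a2.symm, a4.symm]
    · simp [gI11, a1.symm, a4]

theorem dhI_X : dhC aS (bI θ) 0 = 1 ∧ dhC aS (bI θ) 5 = 1 ∧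
    dhC aS (bI θ) 6 = 1 ∧ dhC aS (bI θ) 9 = 1 ∧ dhC aS (bI θ) 11 = 1 := by
  refine ⟨?_, ?_, ?_, ?_, ?_⟩ <;> simp [dhC, aS, bx9]

end grp

end Crest.Agent.R116.SgI337
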