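import Crest.Agent.R116.Sg3c_890
import Crest.Agent.R116.Sc5c_748
import Crest.Agent.R116.Nar3h_863_Mg
import Crest.Agent.R116.Sg3d_890_Mg
import Crest.Agent.R116.RowUb_388
import Crest.Agent.R116.RowU7_188
import Crest.Agent.R116.Kt1_710
import Crest.Agent.R116.RowU9_188
import Crest.Agent.R116.D0p_878
import Crest.Agent.R116.Nar9_192
import Crest.Agent.R116.SgZ_388
import Crest.Agent.R116.Sg3a_635
import Crest.Agent.R116.SgI2_337
import Crest.Agent.R116.RowU3_194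
import Crest.Agent.R116.ThinD_954
import Crest.Agent.R116.D0z2_899
import Crest.Agent.R116.D0y5_219

-- ▼ part R116/Sg3e_890
section

/-!
# R116 (K side, LEMMA SIG), `σ = 2` (helper890; docs 2383, 439's positions, 905's SIG2)

* `Out.facts2` : the facts at a position, `σ = 2`
* **`sig2_core`** : `PosF` + own + increments + SIG2 ⊢ `False` at `θb = 2 θa`
* **`sig2_false`** : the same over `LinFacts` (665)
-/

set_option autoImplicit false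
set_option linter.unusedVariables false

open Set Filter Topology MeasureTheory

namespace Crest.Agent.R116.SgP890

open Crest.Agent.R136
open Crest.Agent.R138
open Crest.Agent.R136.Net191
open Crest.Agent.R116.ChL222
open Dg219 (Walls mw gset mem_gset gC dhC nC gC_zero gC_eq OutS)
open SgO219 (RateP exists_posn_y psi_lip rateP_of_diff seg_ge ae_line exists_line)
open Sg337 (bx9 uC uP uCP)
open Sg388 (ind)
open Sg635
open SgF665 (LM0 wl LinTan LinFacts)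

section

variable {θa θb : ℝ} {lam : (Fin 12 → ℝ) → ℝ} {A : ℝ × ℝ} {φ : ℕ → (Fin 12 → ℝ) → ℝ} {r : ℕ → ℝ}

/-- rates at a position over a differentiability point of the pair `(N, F)`, `σ = 2` -/
theorem Out.base2 (H : Out θa θb lam A φ r) (ha : θa ≠ 0) (h2 : θb = 2 * θa) {v : Fin 4 → ℝ}
    {G : Fin 4 → ℝ} (hG : RateP (φ 0) (0 + T4 v) T4 G) {u : Fin 2 → ℝ}
    (hu : DifferentiableAt ℝ (fun u => φ (kN θa θb) (Tn u)) u) {z X : ℝ}
    (hc0 : bg z X (u 0) (u 1) + T4 v ∈ LMd) :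
    RateBx lam (bg z X (u 0) (u 1) + T4 v) (r (kz θa θb)) (r (kX θa θb))
      (-fderiv ℝ (fun u => φ (kN θa θb) (Tn u)) u (Pi.single 0 1))
      (-fderiv ℝ (fun u => φ (kN θa θb) (Tn u)) u (Pi.single 1 1))
      (G 0) (G 1) (G 2) (G 3) := by
  refine H.rateBx2 ha h2 hc0 (H.rate0_bg hG _ _ _ _)
    (G2 := fun i => -fderiv ℝ (fun u => φ (kN θa θb) (Tn u)) u (Pi.single i 1)) ?_
  refine rateP_of_diff (Q := mw monL) (x0 := xS 1) (a := aS) (b := bS θa θb) (lam := lam)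
    (A := A) (r := r) (grp := gC aS (bS θa θb)) (dh := dhC aS (bS θa θb))
    (n := nC aS (bS θa θb)) (by rw [L_eq one_ne_zero]; exact H) (kN θa θb) hu fun i hi => ?_
  rcases (slots2 ha h2 i).2.2.1 hi with rfl | rfl
  · rw [(pv _ _ _ _ v).2.2.2.1, (Tnv _).1]
  · rw [(pv _ _ _ _ v).2.2.2.2, (Tnv _).2]

/-- **`F`-rate `≥ 1` at all base points with `f - v 2 < η < f + T`** -/
theorem Out.factF2 (H : Out θa θb lam A φ r) (ha : θa ≠ 0) (h2 : θb = 2 * θa) {s : ℝ}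
    (hP : PosF lam s) {v : Fin 4 → ℝ} (hv : v ∈ Pos) {G : Fin 4 → ℝ}
    (hG : RateP (φ 0) (0 + T4 v) T4 G) (hs : s < G 1) {u : Fin 2 → ℝ}
    (hu : DifferentiableAt ℝ (fun u => φ (kN θa θb) (Tn u)) u)
    (h3 : u 1 - v 2 ≤ u 0) (h4 : u 0 ≤ u 1 + (2 * v 0 - v 1)) :
    1 ≤ -fderiv ℝ (fun u => φ (kN θa θb) (Tn u)) u (Pi.single 1 1) := by
  obtain ⟨hv0, hv1, hv2⟩ := hv
  have hv : v ∈ Pos := ⟨hv0, hv1, hv2⟩
  have m1 : bg (u 1 - v 1) (u 1 - v 1 + v 0) (u 0) (u 1) + T4 v ∈ LMd :=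
    (bg_mem hv).2 ⟨le_rfl, by linarith, by linarith, by linarith, by linarith⟩
  exact (hP.K2 v hv _ _ _ _ m1 _ _ _ _ _ _ _ _ (H.base2 ha h2 hG hu m1) (by ring)).2 hs

/-- **`H`-rate `≥ X`-rate at all base points with `f < η - v 0`** -/
theorem Out.factH2 (H : Out θa θb lam A φ r) (ha : θa ≠ 0) (h2 : θb = 2 * θa) {s : ℝ}
    (hP : PosF lam s) {v : Fin 4 → ℝ} (hv : v ∈ Pos) {G : Fin 4 → ℝ}
    (hG : RateP (φ 0) (0 + T4 v) T4 G) (hs : 0 < G 0) {u : Fin 2 → ℝ}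
    (hu : DifferentiableAt ℝ (fun u => φ (kN θa θb) (Tn u)) u)
    (h3 : u 1 ≤ u 0 - v 0) :
    r (kX θa θb) ≤ -fderiv ℝ (fun u => φ (kN θa θb) (Tn u)) u (Pi.single 0 1) := by
  obtain ⟨hv0, hv1, hv2⟩ := hv
  have hv : v ∈ Pos := ⟨hv0, hv1, hv2⟩
  have p0 := hv0 0
  have p1 := hv0 1
  have p2 := hv0 2
  have p3 := hv0 3
  have a0 := le_abs_self (u 0)
  have a1 := le_abs_self (u 1)
  have b0 := abs_nonneg (u 0)
  have b1 := abs_nonneg (u 1)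
  have m1 : bg (|u 0| + |u 1|) (u 0 - v 0) (u 0) (u 1) + T4 v ∈ LMd :=
    (bg_mem hv).2 ⟨by linarith, by linarith, by linarith, by linarith, by linarith⟩
  exact hP.H1 v hv _ _ _ _ m1 _ _ _ _ _ _ _ _ (H.base2 ha h2 hG hu m1) (by ring) hs

/-- **`X`-rate** -/
theorem Out.factX2 (H : Out θa θb lam A φ r) (ha : θa ≠ 0) (h2 : θb = 2 * θa) {s : ℝ}
    (hP : PosF lam s) {v : Fin 4 → ℝ} (hv : v ∈ Pos) {G : Fin 4 → ℝ}
    (hG : RateP (φ 0) (0 + T4 v) T4 G) :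
    (0 < G 0 → 1 - s ≤ r (kX θa θb)) ∧ (s < G 0 → 1 ≤ r (kX θa θb)) := by
  obtain ⟨hv0, hv1, hv2⟩ := hv
  have hv : v ∈ Pos := ⟨hv0, hv1, hv2⟩
  have p0 := hv0 0
  have p1 := hv0 1
  have p2 := hv0 2
  have p3 := hv0 3
  -- a differentiability point with `u 1 < u 0`
  have hd : ∀ᵐ u : Fin 2 → ℝ, DifferentiableAt ℝ (fun u => φ (kN θa θb) (Tn u)) u :=
    (H.lipn ha h2).ae_differentiableAt
  have hden : Dense {u : Fin 2 → ℝ | DifferentiableAt ℝ (fun u => φ (kN θa θb) (Tn u)) u} :=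
    Measure.dense_of_ae hd
  obtain ⟨u, hu1, hu⟩ := hden.inter_open_nonempty {u : Fin 2 → ℝ | u 1 < u 0}
    (isOpen_lt (continuous_apply 1) (continuous_apply 0)) ⟨![1, 0], by simp⟩
  have hu1' : u 1 < u 0 := hu1
  have a0 := le_abs_self (u 0)
  have a1 := le_abs_self (u 1)
  have b0 := abs_nonneg (u 0)
  have b1 := abs_nonneg (u 1)
  have m1 : bg (|u 0| + |u 1|) (|u 0| + |u 1| + v 0) (u 0) (u 1) + T4 v ∈ LMd :=
    (bg_mem hv).2 ⟨by linarith, by linarith, by linarith, by linarith, by linarith⟩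
  exact hP.K1 v hv _ _ _ _ m1 _ _ _ _ _ _ _ _ (H.base2 ha h2 hG hu m1) rfl

/-- own rate of `z`, `σ = 2` -/
theorem Out.own2 (H : Out θa θb lam A φ r) (ha : θa ≠ 0) (h2 : θb = 2 * θa) {s : ℝ}
    (hown : ∀ y : ℝ, 0 < y → (1 - s) * y ≤ -lam (bx9 y 0 0 0 0 0 0 0 0)) :
    1 - s ≤ r (kz θa θb) := by
  obtain ⟨d0, d5, d6, d9, d11⟩ := dh_single (θa := θa) (θb := θb)
  have m1 : bx9 1 0 0 0 0 0 0 0 0 ∈ LMd := by
    rw [mem_bx]; norm_num
  have h1 := hown 1 one_pos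
  have h0 : lam 0 = 0 := by
    rw [H.sum 0 zero_mem]
    exact Finset.sum_eq_zero fun k _ => H.zero k 0 fun i _ => rfl
  have h3 := H.lam_diff (k := kz θa θb) (by rw [gset_eq]; simp) m1 zero_mem (fun i hi => by
    have hi' : i ≠ 0 := fun h => hi ((slots2 ha h2 i).1.2 h)
    revert hi'
    fin_cases i <;> simp [bx9])
  have h4 := H.rate (kz θa θb) _ m1 1 (fun i hi => by
    rw [(slots2 ha h2 i).1.1 hi, d0, (cv _ _ _ _ _ _ _ _ _).1]; ring)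
  have h5 : φ (kz θa θb) 0 = 0 := H.zero _ _ fun i _ => rfl
  rw [h0, h4, h5] at h3
  linarith

/-- step of the group `X`, `σ = 2` -/
theorem Out.stepX2 (H : Out θa θb lam A φ r) (ha : θa ≠ 0) (h2 : θb = 2 * θa)
    {z C B N F a b : ℝ} (h1 : bx9 z 0 0 C a B N 0 F ∈ LMd) (h3 : bx9 z 0 0 C b B N 0 F ∈ LMd) :
    lam (bx9 z 0 0 C a B N 0 F) - lam (bx9 z 0 0 C b B N 0 F) = r (kX θa θb) * (b - a) := by
  obtain ⟨d0, d5, d6, d9, d11⟩ := dh_single (θa := θa) (θb := θb)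
  rw [H.lam_diff (k := kX θa θb) (by rw [gset_eq]; simp) h1 h3 (fun i hi => by
    have hi' : i ≠ 5 ∧ i ≠ 6 := ⟨fun h => hi ((slots2 ha h2 i).2.1.2 (Or.inl h)),
      fun h => hi ((slots2 ha h2 i).2.1.2 (Or.inr h))⟩
    revert hi'
    fin_cases i <;> simp [bx9]),
    H.rate (kX θa θb) _ h1 a (fun i hi => by
      rcases (slots2 ha h2 i).2.1.1 hi with rfl | rfl
      · rw [d5, mul_one, (cv _ _ _ _ _ _ _ _ _).2.1]
      · rw [d6, mul_one, (cv _ _ _ _ _ _ _ _ _).2.2.1]),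
    H.rate (kX θa θb) _ h3 b (fun i hi => by
      rcases (slots2 ha h2 i).2.1.1 hi with rfl | rfl
      · rw [d5, mul_one, (cv _ _ _ _ _ _ _ _ _).2.1]
      · rw [d6, mul_one, (cv _ _ _ _ _ _ _ _ _).2.2.1])]
  ring

/-- step of the group `{N, F}`, `σ = 2` -/
theorem Out.stepN2 (H : Out θa θb lam A φ r) (ha : θa ≠ 0) (h2 : θb = 2 * θa)
    {z C X B a b : ℝ} (h1 : bx9 z 0 0 C X B a 0 a ∈ LMd) (h3 : bx9 z 0 0 C X B b 0 b ∈ LMd) :
    lam (bx9 z 0 0 C X B a 0 a) - lam (bx9 z 0 0 C X B b 0 b) = r (kN θa θb) * (b - a) := by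
  obtain ⟨d0, d5, d6, d9, d11⟩ := dh_single (θa := θa) (θb := θb)
  rw [H.lam_diff (k := kN θa θb) (by rw [gset_eq]; simp) h1 h3 (fun i hi => by
    have hi' : i ≠ 9 ∧ i ≠ 11 := ⟨fun h => hi ((slots2 ha h2 i).2.2.2 (Or.inl h)),
      fun h => hi ((slots2 ha h2 i).2.2.2 (Or.inr h))⟩
    revert hi'
    fin_cases i <;> simp [bx9]),
    H.rate (kN θa θb) _ h1 a (fun i hi => by
      rcases (slots2 ha h2 i).2.2.1 hi with rfl | rfl
      · rw [d9, mul_one, (cv _ _ _ _ _ _ _ _ _).2.2.2.1]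
      · rw [d11, mul_one, (cv _ _ _ _ _ _ _ _ _).2.2.2.2]),
    H.rate (kN θa θb) _ h3 b (fun i hi => by
      rcases (slots2 ha h2 i).2.2.1 hi with rfl | rfl
      · rw [d9, mul_one, (cv _ _ _ _ _ _ _ _ _).2.2.2.1]
      · rw [d11, mul_one, (cv _ _ _ _ _ _ _ _ _).2.2.2.2])]
  ring

/-- **SIG2 in rates** -/
theorem Out.sig2_rate (H : Out θa θb lam A φ r) (ha : θa ≠ 0) (h2 : θb = 2 * θa) {s t y : ℝ}
    (hy : 0 < y) (hyt : y ≤ t)
    (h : (1 - s) * y ≤ 2 * (lam (bx9 t 0 0 y 0 y 0 0 0) - lam (bx9 t 0 0 y 0 y y 0 y)) -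
      (lam (bx9 t 0 0 0 0 0 0 0 0) - lam (bx9 t 0 0 0 y 0 y 0 y))) :
    1 - s ≤ r (kN θa θb) - r (kX θa θb) := by
  have e1 := H.stepN2 ha h2 (z := t) (C := y) (X := 0) (B := y) (a := 0) (b := y)
    (by rw [mem_bx]; refine ⟨?_, ?_, ?_, ?_, ?_, ?_, ?_⟩ <;> linarith)
    (by rw [mem_bx]; refine ⟨?_, ?_, ?_, ?_, ?_, ?_, ?_⟩ <;> linarith)
  have e2 := H.stepX2 ha h2 (z := t) (C := 0) (B := 0) (N := 0) (F := 0) (a := 0) (b := y)
    (by rw [mem_bx]; refine ⟨?_, ?_, ?_, ?_, ?_, ?_, ?_⟩ <;> linarith)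
    (by rw [mem_bx]; refine ⟨?_, ?_, ?_, ?_, ?_, ?_, ?_⟩ <;> linarith)
  have e3 := H.stepN2 ha h2 (z := t) (C := 0) (X := y) (B := 0) (a := 0) (b := y)
    (by rw [mem_bx]; refine ⟨?_, ?_, ?_, ?_, ?_, ?_, ?_⟩ <;> linarith)
    (by rw [mem_bx]; refine ⟨?_, ?_, ?_, ?_, ?_, ?_, ?_⟩ <;> linarith)
  nlinarith

/-- **`σ = 2`** -/
theorem sig2_core (H : Out θa θb lam A φ r) (ha : θa ≠ 0) (h2 : θb = 2 * θa) {s c q0 q1 δ : ℝ}
    (hP : PosF lam s)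
    (hown : ∀ y : ℝ, 0 < y → (1 - s) * y ≤ -lam (bx9 y 0 0 0 0 0 0 0 0))
    (hs : 0 ≤ s) (hc : 2 * s < c) (hq0 : 0 < q0) (hq1 : 0 < q1) (hδ : δ ≤ (c - 2 * s) / 2)
    (hsum : ∑ k ∈ (gset (gC aS (bS θa θb))).erase 0, r k ≤ 4 - s - c + δ)
    (iC : ∀ y : ℝ, 0 < y → q0 * y ≤ -lam (y • uC))
    (iCP : ∀ y : ℝ, 0 < y → (c + q0 + q1) * y ≤ -lam (y • uCP))
    (SIG2 : ∃ t y : ℝ, 0 < y ∧ y ≤ t ∧ (1 - s) * y ≤
      2 * (lam (bx9 t 0 0 y 0 y 0 0 0) - lam (bx9 t 0 0 y 0 y y 0 y)) -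
      (lam (bx9 t 0 0 0 0 0 0 0 0) - lam (bx9 t 0 0 0 y 0 y 0 y))) : False := by
  -- the sum of the rates
  have hS : r (kz θa θb) + r (kX θa θb) + r (kN θa θb) ≤ 4 - s - c + δ := by
    have h1 := (gset_sum2 (θa := θa) (θb := θb) ha h2 r).2
    have m0 : (0:ℕ) ∈ gset (gC aS (bS θa θb)) := by rw [gset_eq]; simp
    rw [← Finset.add_sum_erase _ _ m0] at h1
    linarith
  have hz := H.own2 ha h2 hown
  set e : ℝ := (c - 2 * s) / 4 with he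
  have e1 : 0 < e := by rw [he]; linarith
  -- position `C + P`
  have hDo : IsOpen (Pos ∩ {v : Fin 4 → ℝ | v 1 < 2 * v 0}) :=
    pos_open.inter (isOpen_lt (continuous_apply 1) (continuous_const.mul (continuous_apply 0)))
  obtain ⟨v, -, ⟨hv, hvT⟩, -, G, g, b, f⟩ := H.pos4 (S := {0, 1}) (Or.inr (Or.inl rfl)) hDo
    inter_subset_left (fun ε hε t ht => ⟨pos_path (Or.inr (Or.inl rfl)) hε ht, by
      simp [ind]; linarith⟩) one_pos
    (H.incr0 (Or.inr (Or.inl rfl)) one_pos (by rw [T4_CP]; exact iCP 1 one_pos))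
    (add_pos hq0 hq1) one_pos (N := univ) (Eventually.of_forall fun _ => mem_univ _)
  rw [Finset.sum_pair (by decide)] at b
  rcases lt_or_ge s (G 1) with c1 | c1
  swap
  · have x1 := (H.factX2 ha h2 hP hv f).2 (by linarith)
    obtain ⟨t, y, hy, hyt, hI⟩ := SIG2
    have x2 := H.sig2_rate ha h2 hy hyt hI
    linarith
  have hvT' : v 1 < 2 * v 0 := hvT
  set ψ : (Fin 2 → ℝ) → ℝ := fun u => φ (kN θa θb) (Tn u) with hψ
  have hlip := H.lipn ha h2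
  set Lc := Real.toNNReal ((Fintype.card (Fin 12) : ℝ) * ‖Tn‖) with hLc
  set L : ℝ := (Lc : ℝ) with hL
  have hL0 : 0 ≤ L := Lc.2
  set u : ℝ := (2 * v 0 - v 1) / 2 with hu
  have hu0 : 0 < u := by rw [hu]; linarith
  set y : ℝ := e * u / (16 * (L + 1)) with hy
  have hy0 : 0 < y := by positivity
  have hyL : 8 * (y * L) ≤ e * u / 2 := by
    have h1 : y * (16 * (L + 1)) = e * u := by rw [hy]; field_simp
    nlinarith
  obtain ⟨v', -, hv', ⟨t, ht, htv⟩, G', g', b', f'⟩ := H.pos4 (S := {0}) (Or.inl rfl) pos_open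
    (Subset.refl _) (fun ε hε t ht => pos_path (Or.inl rfl) hε ht) hy0
    (H.incr0 (Or.inl rfl) hy0 (by rw [T4_C]; exact iC y hy0)) (half_pos hq0) hy0
    (N := univ) (Eventually.of_forall fun _ => mem_univ _)
  rw [Finset.sum_singleton] at b'
  have hG0 : 0 < G' 0 := by linarith
  have hX := (H.factX2 ha h2 hP hv' f').1 hG0
  set κ : ℝ := v' 0 with hκ
  have hκ0 : 0 < κ := hv'.1 0
  have hκ1 : κ ≤ 2 * y := by
    have h1 := (norm_le_pi_norm (v' - ind {0} t) 0).trans htv.le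
    have h3 : (v' - ind {0} t : Fin 4 → ℝ) 0 = κ - t := by simp [ind, hκ]
    rw [h3, Real.norm_eq_abs, abs_le] at h1
    linarith [ht.2, h1.2]
  have hκL : 4 * (κ * L) ≤ e * u / 2 := by
    have := mul_le_mul_of_nonneg_right hκ1 hL0
    linarith
  -- `F`-direction
  have A1 : 1 * u ≤ ψ ![u, 0] - ψ ![u, u] := by
    have h1 := seg_ge (Φ := ψ) (K := Lc) (D := {w : Fin 2 → ℝ | w 1 - v 2 < w 0 ∧
      w 0 < w 1 + (2 * v 0 - v 1)}) hlip.lipschitzOnWith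
      ((isOpen_lt ((continuous_apply 1).sub continuous_const) (continuous_apply 0)).inter
        (isOpen_lt (continuous_apply 0) ((continuous_apply 1).add continuous_const)))
      (p := ![u, 0]) (e := Pi.single 1 1) (y := u) (q := 1) hu0 (fun t ht => by
        have := hv.1 2
        have q0 : (![u, 0] + t • Pi.single 1 1 : Fin 2 → ℝ) 0 = u := by simp
        have q1 : (![u, 0] + t • Pi.single 1 1 : Fin 2 → ℝ) 1 = t := by simp
        constructor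
        · rw [q0, q1]; linarith [ht.2]
        · rw [q0, q1]; linarith [ht.1]) (fun w hw hd => H.factF2 ha h2 hP hv f c1 hd hw.1.le hw.2.le)
    have e2 : (![u, 0] : Fin 2 → ℝ) + u • Pi.single 1 1 = ![u, u] := by
      funext i; fin_cases i <;> simp
    rw [e2] at h1
    exact h1
  -- `H`-direction
  have A2 : r (kX θa θb) * u ≤ ψ ![0, -(2 * κ)] - ψ ![u, -(2 * κ)] := by
    have h1 := seg_ge (Φ := ψ) (K := Lc) (D := {w : Fin 2 → ℝ | w 1 < w 0 - κ})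
      hlip.lipschitzOnWith (isOpen_lt (continuous_apply 1)
        ((continuous_apply 0).sub continuous_const))
      (p := ![0, -(2 * κ)]) (e := Pi.single 0 1) (y := u) (q := r (kX θa θb)) hu0
      (fun t ht => by
        have q0 : (![0, -(2 * κ)] + t • Pi.single 0 1 : Fin 2 → ℝ) 0 = t := by simp
        have q1 : (![0, -(2 * κ)] + t • Pi.single 0 1 : Fin 2 → ℝ) 1 = -(2 * κ) := by simp
        change (![0, -(2 * κ)] + t • Pi.single 0 1 : Fin 2 → ℝ) 1 <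
          (![0, -(2 * κ)] + t • Pi.single 0 1 : Fin 2 → ℝ) 0 - κ
        rw [q0, q1]; linarith [ht.1]) (fun w hw hd => H.factH2 ha h2 hP hv' f' hG0 hd (le_of_lt hw))
    have e2 : (![0, -(2 * κ)] : Fin 2 → ℝ) + u • Pi.single 0 1 = ![u, -(2 * κ)] := by
      funext i; fin_cases i <;> simp
    rw [e2] at h1
    exact h1
  have A3 : ∀ a : ℝ, |ψ ![a, -(2 * κ)] - ψ ![a, 0]| ≤ L * (2 * κ) := by
    intro a
    have h1 := hlip.dist_le_mul ![a, -(2 * κ)] ![a, 0]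
    rw [Real.dist_eq] at h1
    refine h1.trans (mul_le_mul_of_nonneg_left ?_ hL0)
    rw [dist_pi_le_iff (by linarith)]
    intro i
    fin_cases i <;> simp [dist_eq_norm, abs_of_pos hκ0, hκ0.le]
  have A4 := abs_le.1 (A3 0)
  have A5 := abs_le.1 (A3 u)
  have A6 : ψ ![0, 0] = -(r (kN θa θb) * 0) := H.raten ha h2 0
  have A7 : ψ ![u, u] = -(r (kN θa θb) * u) := H.raten ha h2 u
  have A8 : (1 + r (kX θa θb) - e / 2) * u ≤ r (kN θa θb) * u := by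
    nlinarith [A4.1, A4.2, A5.1, A5.2]
  have A9 := le_of_mul_le_mul_right A8 hu0
  linarith

end

/-- **`σ = 2` over the facts** -/
theorem sig2_false {P : Set (Fin 12 → ℝ)} {θa θb lam0 : ℝ} {A : ℝ × ℝ}
    {φ : ℕ → (Fin 12 → ℝ) → ℝ} {r : ℕ → ℝ} {J : Type*} [Finite J]
    {f lam : J → (Fin 12 → ℝ) → ℝ} {j0 : J} {x : ℕ → Fin 12 → ℝ} {h : ℕ → ℝ} {K : ℝ}
    {sc : ℕ → ℝ} {Bs : (ℕ → Fin 12 → ℝ) → (ℕ → ℝ) → Prop} {s : ℝ}
    (hK : 0 ≤ K) (hpos : ∀ l, 0 < h l) (h0 : Tendsto h atTop (𝓝 0))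
    (hl0 : lam0 ≠ 0) (ha : θa ≠ 0) (hσ : θb = 2 * θa)
    (hx : ∀ l, ∀ k, ∀ e ∈ monL.mon k, e 1 = 0 → x l k = wl e (x l))
    (hxD : ∀ k, ∀ e ∈ monL.mon k, e 1 ≠ 0 → ∀ K : ℝ, ∀ᶠ l in atTop,
      x l k + K * h l ≤ wl e (x l))
    (ht : ∀ j, Ex926.IsTan P ((mw monL).L (xS lam0) aS (bS θa θb)) (f j) x h (lam j))
    (hlip : ∀ j, ∀ p ∈ (mw monL).L (xS lam0) aS (bS θa θb),
      ∀ q ∈ (mw monL).L (xS lam0) aS (bS θa θb), |lam j p - lam j q| ≤ K * ‖p - q‖)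
    (H : OutS (gC aS (bS θa θb)) ((mw monL).L (xS lam0) aS (bS θa θb)) (dhC aS (bS θa θb))
      (nC aS (bS θa θb)) (lam j0) A φ r)
    (spos : ∀ m, 0 < sc m) (s0 : Tendsto sc atTop (𝓝 0))
    (hBs : ∀ c0 ∈ LMd, c0 3 = c0 4 → c0 5 = c0 6 → c0 7 = c0 8 → ∀ ψ θ : ℕ → ℕ,
      StrictMono ψ → StrictMono θ →
      Bs (fun m => x (ψ m) + h (ψ m) • c0) (fun m => h (ψ m) * sc (θ m)))
    (HL : LinFacts P f j0 Bs s)
    {c q0 q1 δ : ℝ} (hs : 0 ≤ s) (hc : 2 * s < c) (hq0 : 0 < q0) (hq1 : 0 < q1)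
    (hδ : δ ≤ (c - 2 * s) / 2)
    (hsum : ∑ k ∈ (gset (gC aS (bS θa θb))).erase 0, r k ≤ 4 - s - c + δ)
    (hown : ∀ y : ℝ, 0 < y → (1 - s) * y ≤ -lam j0 (bx9 y 0 0 0 0 0 0 0 0))
    (iC : ∀ y : ℝ, 0 < y → q0 * y ≤ -lam j0 (y • uC))
    (iCP : ∀ y : ℝ, 0 < y → (c + q0 + q1) * y ≤ -lam j0 (y • uCP))
    (SIG2 : ∃ t y : ℝ, 0 < y ∧ y ≤ t ∧ (1 - s) * y ≤
      2 * (lam j0 (bx9 t 0 0 y 0 y 0 0 0) - lam j0 (bx9 t 0 0 y 0 y y 0 y)) -
      (lam j0 (bx9 t 0 0 0 0 0 0 0 0) - lam j0 (bx9 t 0 0 0 y 0 y 0 y))) : False := by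
  have hP := posF_of hl0 hK hpos h0 hx hxD ht hlip H spos s0 hBs HL
  have H' : Out θa θb (lam j0) A φ r := by
    rw [L_eq hl0] at H
    exact H
  exact sig2_core H' ha hσ hP hown hs hc hq0 hq1 hδ hsum iC iCP SIG2

end Crest.Agent.R116.SgP890
end

-- ▼ part R116/Sc5e_748
section

/-!
# R116, K-TEXT II-c, SIG2 (`σ = 2`), Sc5e: final form (helper748)

`Sc5c` with 905's `sig2M` plugged in: no binder.
-/

set_option autoImplicit false
set_option linter.unusedVariables false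

open Set Filter Topology

namespace Crest.Agent.R116.Sc5c748

open Crest.Agent.R138.Ex926 (Base U IsTan)
open Crest.Agent.R136
open Crest.Agent.R136.Net191
open Crest.Agent.R136.Lq196
open Crest.Agent.R136.MkA627
open Crest.Agent.R116.LZg725
open Crest.Agent.R116.ChL222
open Crest.Agent.R116.Sg337 (bx9)
open Crest.Agent.R116.Gd222
open Crest.Agent.R116.KI439
open Crest.Agent.R116.Tw468
open Crest.Agent.R116.CtxB468
open Crest.Agent.R116.RowU194 (SigP)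
open Sg635 (kX kN)

/-- 803's `Sig2M` -/
theorem hM : Sc5803.Sig2M := Sc905.sig2M

section ctx

variable {G : Geo TSet (Fin 2)} {L : ℕ → ℕ → LRay} {r : ℕ → ℝ} {g s : ℝ} {θ q : Fin 2 → ℝ}
    {Rg : ℝ} {B : Base} {I : ℕ → Finset (ℕ × ℝ)} {lev : ℕ → ℚ → ℕ} {A : ℕ → ℝ}
    {f : ℕ → ℚ → ℕ → ℤ → ℕ} {b : ℕ → ℚ → ℕ → TSet} {vm : ℕ → ℚ → ℝ} {w : Fin 2 → ℕ → ℚ → ℝ}
    {fr : ℕ → ℚ → ℕ × ℝ → LInc} {fl : ℕ → ℕ × ℝ → LInc} {sc : Fin 12 → ℕ → ℝ}
    {w0 sa sb δ R : ℝ} {I0 I' : ℕ → Finset (ℕ × ℝ)} {ν own : (Fin 12 → ℝ) → ℝ} {c₀ : ℝ}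
    {J : Type*} {c δ' : ℝ} {F : J → (Fin 12 → ℝ) → ℝ} {j0 : J} {v0 lam0 : ℝ} {z : ℝ × ℝ}
    {u k : ℕ → ℝ} {lam : J → (Fin 12 → ℝ) → ℝ} {A' : ℝ × ℝ} {φ : ℕ → (Fin 12 → ℝ) → ℝ}
    {rr : ℕ → ℝ}

/-- **SIG2 over `CtxT` + `SigP`, no binder** (194's literal) -/
theorem sig2_tF
    (h : CtxT G L r g s θ q Rg B I lev A f b vm w fr fl sc w0 sa sb δ R I0 I' ν own c₀)
    (hq0 : 0 < q 0) (hq1 : 0 < q 1)
    (H : SigP R w0 sa sb (θ 0) (θ 1) s c (q 0) (q 1) δ' F j0 v0 lam0 z u k lam A' φ rr)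
    (hf : F j0 = ν)
    (hθ : 0 < θ 0) (h2 : θ 1 = 2 * θ 0) (hRa : θ 0 < Rg) (hRb : |θ 1| < Rg) :
    ∃ t : ℝ, 0 < t ∧ (1 - s) * t ≤
      2 * (lam j0 (bx9 t 0 0 t 0 t 0 0 0) - lam j0 (bx9 t 0 0 t 0 t t 0 t)) -
        (lam j0 (bx9 t 0 0 0 0 0 0 0 0) - lam j0 (bx9 t 0 0 0 t 0 t 0 t)) :=
  sig2_t hM h hq0 hq1 H hf hθ h2 hRa hRb


end ctx

end Crest.Agent.R116.Sc5c748
end

-- ▼ part R116/RowU8_194
section

/-!
# R116, row U (helper194), part 8: no generic point of the plane `Σ`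

* `A1p`, `S2p`   : the two statements about the tangent at the generic point (79: A1; 748: SIG2)
* `sigP_false`   : `SigP` + facts + `A1p` + `S2p` ⊢ `False`, all `σ`
* `facts_T`, `facts4_T` : the facts over the context (388 + 710)
* **`sigB_of`**  : 188's `SigB η` from `A1B η` (79)
-/

set_option autoImplicit false
set_option linter.unusedVariables false

open Set Filter Topology MeasureTheory
open scoped NNReal

namespace Crest.Agent.R116.RowU194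

open Crest.Agent.R138.Ex926 (Base U IsTan)
open Crest.Agent.R136
open Crest.Agent.R136.MkA627
open Crest.Agent.R136.TD627
open Crest.Agent.R136.Net191
open Crest.Agent.R136.Lq196
open Crest.Agent.R116.ChL222
open Crest.Agent.R116.PL504 (nb rL DN βL eL oL Shift)
open Crest.Agent.R116.Xd954 (FlagX)
open Crest.Agent.R116.Sg337 (coneL ProfL DL natB natB_smul bx9 uC uP uCP SL frz frz_single)
open Crest.Agent.R116.Gd222 (TSet sN PDL DT)
open Crest.Agent.R116.KI439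
open Crest.Agent.R116.KF439 (PL)
open Crest.Agent.R116.Tw468 (OutT)
open Crest.Agent.R116.CtxB468
open Crest.Agent.R116.KTop387 (NumL RowU)
open Crest.Agent.R116.Rcx363 (fo)
open Crest.Agent.R116.RowU188 (SigB)
open Dg262 (X SupOn)
open Dg219 (Walls mw gset mem_gset OutS gC dhC nC gC_zero gC_eq)
open Sg635 (xS aS bS X_eq PP_eq L_eq LMd mem_bx)
open SgF665 (LinFacts)
open LF388 (LinFacts4)

/-- **A1** at the tangent `lam` -/
def A1p (s : ℝ) (lam : (Fin 12 → ℝ) → ℝ) : Prop :=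
  (∀ y : ℝ, 0 < y → lam (bx9 0 0 y 0 0 0 0 0 0) = 0) →
    2 * (1 - s) ≤ lam (bx9 1 0 1 0 0 0 0 0 0) - lam (bx9 1 0 1 0 1 0 0 0 1)

/-- **SIG2** at the tangent `lam` -/
def S2p (s : ℝ) (lam : (Fin 12 → ℝ) → ℝ) : Prop :=
  ∃ t : ℝ, 0 < t ∧ (1 - s) * t ≤
    2 * (lam (bx9 t 0 0 t 0 t 0 0 0) - lam (bx9 t 0 0 t 0 t t 0 t)) -
      (lam (bx9 t 0 0 0 0 0 0 0 0) - lam (bx9 t 0 0 0 t 0 t 0 t))

section sig

variable {J : Type*} [Finite J] {R w0 sa sb θa θb s c q0 q1 δ : ℝ} {f : J → (Fin 12 → ℝ) → ℝ}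
    {j0 : J} {v0 lam0 : ℝ} {z : ℝ × ℝ} {u k : ℕ → ℝ} {lam : J → (Fin 12 → ℝ) → ℝ} {A : ℝ × ℝ}
    {φ : ℕ → (Fin 12 → ℝ) → ℝ} {r : ℕ → ℝ}

/-- **the resonance `σ = 0`** -/
theorem sigP_f0 (H : SigP R w0 sa sb θa θb s c q0 q1 δ f j0 v0 lam0 z u k lam A φ r)
    (ha : θa ≠ 0) (hσ : θb = 0) (hs : 0 ≤ s) (hc : 2 * s < c) (hq0 : 0 < q0) (hq1 : 0 < q1)
    (hδ : δ ≤ (c - 2 * s) / 2)
    (HL : LinFacts (Leg monL R) f j0 (Bs0 θa θb w0 sa sb v0 lam0 z u k) s) : False :=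
  SgP890.sig0_false (K := 12) (x := xB θa θb w0 sa sb v0 lam0 z u) (h := fun m => u m * k m)
    (sc := fun n => 1 / ((n : ℝ) + 1)) (by norm_num) H.hpos H.h0 H.hl0 ha hσ H.hx H.hxD H.tan H.lip
    H.out (fun n => by positivity) tendsto_one_div_add_atTop_nhds_zero_nat
    (fun c0 hc0 h3 h5 h7 ψ θ hψ hθ => Bs0.mk' hc0 h3 h5 h7 hψ hθ) HL hs hc hq0 hq1 hδ H.sum H.ownG
    H.iC H.iP H.iCP

/-- **the resonance `σ = 2`** -/
theorem sigP_f2 (H : SigP R w0 sa sb θa θb s c q0 q1 δ f j0 v0 lam0 z u k lam A φ r)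
    (ha : θa ≠ 0) (hσ : θb = 2 * θa) (hs : 0 ≤ s) (hc : 2 * s < c) (hq0 : 0 < q0) (hq1 : 0 < q1)
    (hδ : δ ≤ (c - 2 * s) / 2)
    (HL : LinFacts (Leg monL R) f j0 (Bs0 θa θb w0 sa sb v0 lam0 z u k) s)
    (S2 : S2p s (lam j0)) : False := by
  obtain ⟨t, ht, h2⟩ := S2
  exact SgP890.sig2_false (K := 12) (x := xB θa θb w0 sa sb v0 lam0 z u) (h := fun m => u m * k m)
    (sc := fun n => 1 / ((n : ℝ) + 1)) (by norm_num) H.hpos H.h0 H.hl0 ha hσ H.hx H.hxD H.tan H.lip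
    H.out (fun n => by positivity) tendsto_one_div_add_atTop_nhds_zero_nat
    (fun c0 hc0 h3 h5 h7 ψ θ hψ hθ => Bs0.mk' hc0 h3 h5 h7 hψ hθ) HL hs hc hq0 hq1 hδ H.sum H.own
    H.iC H.iCP ⟨t, t, ht, le_rfl, h2⟩

/-- **no generic point of the plane `Σ`, all `σ`** -/
theorem sigP_false (H : SigP R w0 sa sb θa θb s c q0 q1 δ f j0 v0 lam0 z u k lam A φ r)
    (ha : θa ≠ 0) (hs : 0 ≤ s) (hc : 2 * s < c) (hq0 : 0 < q0) (hq1 : 0 < q1)
    (hδ : δ ≤ (c - 2 * s) / 2)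
    (HL : θb ≠ θa → LinFacts (Leg monL R) f j0 (Bs0 θa θb w0 sa sb v0 lam0 z u k) s)
    (HL4 : LinFacts4 (Leg monL R) f j0 (Bs0 θa θb w0 sa sb v0 lam0 z u k) s)
    (A1 : θb = θa → A1p s (lam j0)) (S2 : θb = 2 * θa → S2p s (lam j0)) : False := by
  rcases eq_or_ne θb θa with h1 | h1
  · exact sigP_false1 H ha h1 hs hc hq0 hq1 hδ HL4 (A1 h1)
  · rcases eq_or_ne θb 0 with h0 | h0
    · exact sigP_f0 H ha h0 hs hc hq0 hq1 hδ (HL h1)
    · rcases eq_or_ne θb (2 * θa) with h2 | h2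
      · exact sigP_f2 H ha h2 hs hc hq0 hq1 hδ (HL h1) (S2 h2)
      · exact sigP_falseG H ha h0 h1 h2 hs hc hq0 hq1 hδ (HL h1)

end sig

section ctx

variable {G : Geo TSet (Fin 2)} {L : ℕ → ℕ → LRay} {r : ℕ → ℝ} {g s : ℝ} {θ q : Fin 2 → ℝ}
    {Rg : ℝ} {B : Base} {I : ℕ → Finset (ℕ × ℝ)} {lev : ℕ → ℚ → ℕ} {A : ℕ → ℝ}
    {f : ℕ → ℚ → ℕ → ℤ → ℕ} {b : ℕ → ℚ → ℕ → TSet} {vm : ℕ → ℚ → ℝ} {w : Fin 2 → ℕ → ℚ → ℝ}
    {fr : ℕ → ℚ → ℕ × ℝ → LInc} {fl : ℕ → ℕ × ℝ → LInc} {sc : Fin 12 → ℕ → ℝ}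
    {w0 sa sb δ R : ℝ} {I0 I' : ℕ → Finset (ℕ × ℝ)} {ν own : (Fin 12 → ℝ) → ℝ} {c₀ : ℝ}
    {c q0 q1 δ' : ℝ} {J : Type*} {ff : J → (Fin 12 → ℝ) → ℝ} {j0 : J}
    {v0 lam0 : ℝ} {z : ℝ × ℝ} {u k : ℕ → ℝ} {lam : J → (Fin 12 → ℝ) → ℝ} {A' : ℝ × ℝ}
    {φ : ℕ → (Fin 12 → ℝ) → ℝ} {rr : ℕ → ℝ}

/-- limits to the record box -/
theorem lim_nb {X : ℕ → Fin 12 → ℝ} {θa θb w0 sa sb v0 : ℝ}
    (h : Tendsto X atTop (𝓝 (rL θa θb w0 sa sb v0))) (i : Fin 12) :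
    Tendsto (fun l => X l i) atTop (𝓝 (nb w0 sa sb v0 (θa * (1 - v0)) (θb * (1 - v0)) i)) := by
  rw [← PL504.rL_nb]
  exact tendsto_pi_nhds.1 h i

/-- the eight facts over the context, `θ 1 ≠ θ 0` -/
theorem facts_T
    (h : CtxT G L r c s θ q Rg B I lev A f b vm w fr fl sc w0 sa sb δ R I0 I' ν own c₀)
    (hinv : ∀ k : Fin 12, k = 1 ∨ k = 2 ∨ k = 7 ∨ k = 8 → InvT PL B I k fl (sc k))
    (hs0 : 0 ≤ s) (hs1 : s ≤ 1) (hθ : 0 < θ 0) (hne : θ 1 ≠ θ 0)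
    (S : SigP R w0 sa sb (θ 0) (θ 1) s c q0 q1 δ' ff j0 v0 lam0 z u k lam A' φ rr)
    (hf : ff j0 = ν) :
    LinFacts (Leg monL R) ff j0 (Bs0 (θ 0) (θ 1) w0 sa sb v0 lam0 z u k) s := by
  have hv0 := S.v00
  have hv1 := S.v01
  have ht : 0 < θ 0 * (1 - v0) := mul_pos hθ (by linarith)
  refine RowU388.linFacts_sig' h hinv hs0 hs1 S hf fun X hh hX e4 e6 e8 => ?_
  rcases lt_or_gt_of_ne hne with hl | hg
  · refine Kt710.thinB h (Kt710.flagZ0 h) ht (by linarith) ?_ (fun i _ => lim_nb hX i)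
      (Eventually.of_forall e4) (Eventually.of_forall e6) (Eventually.of_forall e8)
    nlinarith
  · refine Kt710.thinB h (Kt710.flagZ1 h hθ.le) ht (by linarith) ?_ (fun i _ => lim_nb hX i)
      (Eventually.of_forall e4) (Eventually.of_forall e6) (Eventually.of_forall e8)
    nlinarith

/-- the four facts over the context -/
theorem facts4_T
    (h : CtxT G L r c s θ q Rg B I lev A f b vm w fr fl sc w0 sa sb δ R I0 I' ν own c₀)
    (hinv : ∀ k : Fin 12, k = 1 ∨ k = 2 ∨ k = 7 ∨ k = 8 → InvT PL B I k fl (sc k))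
    (hs0 : 0 ≤ s) (hs1 : s ≤ 1) (hθ : 0 < θ 0)
    (S : SigP R w0 sa sb (θ 0) (θ 1) s c q0 q1 δ' ff j0 v0 lam0 z u k lam A' φ rr)
    (hf : ff j0 = ν) :
    LinFacts4 (Leg monL R) ff j0 (Bs0 (θ 0) (θ 1) w0 sa sb v0 lam0 z u k) s := by
  have hv0 := S.v00
  have hv1 := S.v01
  have ht : 0 < θ 0 * (1 - v0) := mul_pos hθ (by linarith)
  exact RowU388.linFacts4_sig' h hinv hs0 hs1 S hf fun X hh hX e4 e6 e8 =>
    Kt710.thinBC h ht (by linarith) (fun i _ => lim_nb hX i) (Eventually.of_forall e4)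
      (Eventually.of_forall e6)

end ctx

/-- **binder (79)** : A1 over the context, at the generic point of `Σ`, `θ 1 = θ 0` -/
def A1B (η : ℝ) : Prop :=
  ∀ {G : Geo TSet (Fin 2)} {L : ℕ → ℕ → LRay} {r : ℕ → ℝ} {g s : ℝ} {θ q : Fin 2 → ℝ}
    {Rg : ℝ} {B : Base} {I : ℕ → Finset (ℕ × ℝ)} {lev : ℕ → ℚ → ℕ} {A : ℕ → ℝ}
    {f : ℕ → ℚ → ℕ → ℤ → ℕ} {b : ℕ → ℚ → ℕ → TSet} {vm : ℕ → ℚ → ℝ} {w : Fin 2 → ℕ → ℚ → ℝ}
    {fr : ℕ → ℚ → ℕ × ℝ → LInc} {fl : ℕ → ℕ × ℝ → LInc} {sc : Fin 12 → ℕ → ℝ}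
    {w0 sa sb δ R : ℝ} {I0 I' : ℕ → Finset (ℕ × ℝ)} {ν own : (Fin 12 → ℝ) → ℝ} {c₀ : ℝ},
    CtxT G L r (g + 2 * s) s θ q Rg B I lev A f b vm w fr fl sc w0 sa sb δ R I0 I' ν own c₀ →
    NumL η g s θ q → s < 1 / 2 → w0 + (θ 1 + sb) < R → w0 + 1 + sb < R →
    θ 0 + |θ 1| + 1 ≤ Rg →
    (∀ k : Fin 12, k = 1 ∨ k = 2 ∨ k = 7 ∨ k = 8 → InvT PL B I k fl (sc k)) →
    ∀ {v0 lam0 : ℝ} {z : ℝ × ℝ} {u k : ℕ → ℝ} {lam : Fin 2 → (Fin 12 → ℝ) → ℝ} {A' : ℝ × ℝ}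
      {φ : ℕ → (Fin 12 → ℝ) → ℝ} {rr : ℕ → ℝ},
    SigP R w0 sa sb (θ 0) (θ 1) s (g + 2 * s) (q 0) (q 1) (g / 2) (fo ν own) (0 : Fin 2) v0 lam0 z
      u k lam A' φ rr → θ 1 = θ 0 → A1p s (lam 0)

/-- **188's `SigB η`**, from A1 -/
theorem sigB_of {η : ℝ} (hA : A1B η) : SigB η := by
  intro G L r g s θ q Rg B I lev A f b vm w fr fl sc w0 sa sb δ R I0 I' ν own c₀ h hN hs hR0 hR1
    hRg hinv a b' hX v0 hh gg hrec lam0 z u k lam A' φ rr hu S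
  have hab := abs_nonneg (θ 1)
  have hf : fo ν own (0 : Fin 2) = ν := rfl
  have hgp := hN.gpos
  refine sigP_false S hN.θa.ne' hN.s0 (by linarith) hN.qa hN.qb (by linarith)
    (fun hne => facts_T h hinv hN.s0 hN.s1.le hN.θa hne S hf)
    (facts4_T h hinv hN.s0 hN.s1.le hN.θa S hf)
    (fun h1 => hA h hN hs hR0 hR1 hRg hinv S h1)
    (fun h2 => Sc5c748.sig2_tF h hN.qa hN.qb S hf hN.θa h2 (by linarith) (by linarith [hN.θa]))

end Crest.Agent.R116.RowU194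
end

-- ▼ part R116/RowU10_188
section

/-!
# R116, row U (helper188), part 10: the last plug of row U

* **`rowU_of4`** : row U from D0 for `2 θa - θb < 1`, D0 for `2 θa - θb = 1` (`E` invisible), A1.
-/

set_option autoImplicit false
set_option linter.unusedVariables false

namespace Crest.Agent.R116.RowU188

open Crest.Agent.R116.KTop387 (RowU)
open Crest.Agent.R116.KTie794 (D0T D0E)

theorem rowU_of4 {η : ℝ} (hη : η < 1) (h2 : D0T η fun s θ => s < 1 / 2 ∧ 2 * θ 0 - θ 1 < 1)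
    (h3 : D0E η fun s θ => s < 1 / 2 ∧ 2 * θ 0 - θ 1 = 1) (hA : RowU194.A1B η) : RowU η :=
  rowU_of3E (D0p878.D0pos hη) h2 h3 (RowU194.sigB_of hA)

end Crest.Agent.R116.RowU188
end

-- ▼ part R116/A1a_79
section

/-!
# R116, (A1) of the rows (helper79), part 1: conversions and stages

* `out_split`     : additivity of a tangent with `OutS` over disjoint groups
* `frz_ev`        : equality of two values of the first tangent ⊢ freeze of the stages of the diagonal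
* **`nsTc_thin`**  : thin context, bases `rL v0 + H1 m • SL z`, units `H m` ⊢ 192's `NsTc` of the
  pair `(sC, 10)`, rate `gam q`
-/

set_option autoImplicit false
set_option linter.unusedVariables false
set_option linter.unusedSectionVars false

open Finset Filter Topology

namespace Crest.Agent.R116.A1T79

open Crest.Agent.R138.Defs (E2)
open Crest.Agent.R138.Ex926 (Base U IsTan)
open Crest.Agent.R136
open Crest.Agent.R136.MkA627
open Crest.Agent.R136.Net191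
open Crest.Agent.R136.Qg926
open Crest.Agent.R136.Lq196
open Crest.Agent.R136.NSt107 (NsW)
open Crest.Agent.R116.LZg725
open Crest.Agent.R116.ChL222
open Crest.Agent.R116.PL504 (βL eL rL oL Shift nb DN)
open Crest.Agent.R116.Gd222 (TSet sN PDL DT vb gam)
open Crest.Agent.R116.KI439 (LRay)
open Crest.Agent.R116.Tw468
open Crest.Agent.R116.CtxB468
open Crest.Agent.R116.Nar192 (StgM NsTc tC hax_of)
open Crest.Agent.R116.Nar863 (NsT)
open Crest.Agent.R116.WinU954 (WinU)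
open Crest.Agent.R116.Sg337 (bx9 coneL natB SL)
open Dg219 (OutS gset)

/-! ### groups -/

/-- additivity over disjoint groups -/
theorem out_split {grp : Fin 12 → ℕ} {L : Set (Fin 12 → ℝ)} {dh : Fin 12 → ℝ} {n : ℕ → ℝ × ℝ}
    {lam : (Fin 12 → ℝ) → ℝ} {A : ℝ × ℝ} {φ : ℕ → (Fin 12 → ℝ) → ℝ} {r : ℕ → ℝ}
    (H : OutS grp L dh n lam A φ r) (T : Set ℕ) {c c1 c2 : Fin 12 → ℝ} (hc : c ∈ L) (h1 : c1 ∈ L)
    (h2 : c2 ∈ L) (e1 : ∀ i, grp i ∈ T → c i = c1 i ∧ c2 i = 0)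
    (e2 : ∀ i, grp i ∉ T → c i = c2 i ∧ c1 i = 0) : lam c = lam c1 + lam c2 := by
  classical
  rw [H.sum c hc, H.sum c1 h1, H.sum c2 h2, ← Finset.sum_add_distrib]
  refine Finset.sum_congr rfl fun k _ => ?_
  by_cases hk : k ∈ T
  · rw [H.loc k c c1 fun i hi => (e1 i (by rw [hi]; exact hk)).1,
      H.zero k c2 fun i hi => (e1 i (by rw [hi]; exact hk)).2, add_zero]
  · rw [H.loc k c c2 fun i hi => (e2 i (by rw [hi]; exact hk)).1,
      H.zero k c1 fun i hi => (e2 i (by rw [hi]; exact hk)).2, zero_add]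

/-! ### freeze -/


section ctx

variable {G : Geo TSet (Fin 2)} {L : ℕ → ℕ → LRay} {r : ℕ → ℝ} {g s : ℝ} {θ q : Fin 2 → ℝ}
    {Rg : ℝ} {B : Base}
    {I : ℕ → Finset (ℕ × ℝ)} {lev : ℕ → ℚ → ℕ} {A : ℕ → ℝ}
    {f : ℕ → ℚ → ℕ → ℤ → ℕ} {b : ℕ → ℚ → ℕ → TSet} {vm : ℕ → ℚ → ℝ} {w : Fin 2 → ℕ → ℚ → ℝ}
    {fr : ℕ → ℚ → ℕ × ℝ → LInc} {fl : ℕ → ℕ × ℝ → LInc} {sc : Fin 12 → ℕ → ℝ}
    {w0 sa sb δ R : ℝ} {I0 I' : ℕ → Finset (ℕ × ℝ)} {ν own : (Fin 12 → ℝ) → ℝ} {c₀ : ℝ}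

/-- slots of the base box -/
theorem base_slots (θa θb w0 sa sb v0 lam0 z1 z2 h : ℝ) :
    let X := rL θa θb w0 sa sb v0 + h • SL θa θb lam0 z1 z2
    let v := v0 + h * z2
    X 0 = w0 + (v0 + h * z1) ∧
    X 1 = (θb * (1 - v0) + sb) - 2 * (θa * (1 - v0) + sa) - (w0 + v0) + h * lam0 ∧
    X 2 = (sb + θb * (1 - v)) - 2 * (sa + θa * (1 - v)) ∧ X 3 = sa + θa * (1 - v) ∧
    X 4 = sa + θa * (1 - v) ∧ X 5 = w0 + (v0 + h * z1) + (sa + θa * (1 - v)) ∧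
    X 6 = w0 + (v0 + h * z1) + (sa + θa * (1 - v)) ∧
    X 7 = (sb + θb * (1 - v)) - (sa + θa * (1 - v)) ∧
    X 8 = (sb + θb * (1 - v)) - (sa + θa * (1 - v)) ∧
    X 9 = w0 + (v0 + h * z1) + 2 * (sa + θa * (1 - v)) ∧ X 10 = sb + θb * (1 - v) ∧
    X 11 = w0 + (v0 + h * z1) + (sb + θb * (1 - v)) := by
  intro X v
  have x3 : X 3 = sa + θa * (1 - v) := by
    show (θa * (1 - v0) + sa) + h * (-(θa * z2)) = sa + θa * (1 - (v0 + h * z2))
    ring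
  have x5 : X 5 = w0 + (v0 + h * z1) + (sa + θa * (1 - v)) := by
    show ((w0 + v0) + (θa * (1 - v0) + sa)) + h * (z1 + -(θa * z2)) =
      w0 + (v0 + h * z1) + (sa + θa * (1 - (v0 + h * z2)))
    ring
  have x7 : X 7 = (sb + θb * (1 - v)) - (sa + θa * (1 - v)) := by
    show ((θb * (1 - v0) + sb) - (θa * (1 - v0) + sa)) + h * (-(θb * z2) - -(θa * z2)) =
      (sb + θb * (1 - (v0 + h * z2))) - (sa + θa * (1 - (v0 + h * z2)))
    ring
  refine ⟨?_, rfl, ?_, x3, x3, x5, x5, x7, x7, ?_, ?_, ?_⟩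
  · show (w0 + v0) + h * z1 = w0 + (v0 + h * z1)
    ring
  · show ((θb * (1 - v0) + sb) - 2 * (θa * (1 - v0) + sa)) + h * (-(θb * z2) - 2 * (-(θa * z2))) =
      (sb + θb * (1 - (v0 + h * z2))) - 2 * (sa + θa * (1 - (v0 + h * z2)))
    ring
  · show ((w0 + v0) + 2 * (θa * (1 - v0) + sa)) + h * (z1 + 2 * -(θa * z2)) =
      w0 + (v0 + h * z1) + 2 * (sa + θa * (1 - (v0 + h * z2)))
    ring
  · show (θb * (1 - v0) + sb) + h * (-(θb * z2)) = sb + θb * (1 - (v0 + h * z2))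
    ring
  · show ((w0 + v0) + (θb * (1 - v0) + sb)) + h * (z1 + -(θb * z2)) =
      w0 + (v0 + h * z1) + (sb + θb * (1 - (v0 + h * z2)))
    ring

/-- the record box above the base box -/
theorem rec_above (θa θb w0 sa sb v0 z2 h : ℝ) : rL θa θb w0 sa sb (v0 + h * z2) =
    rL θa θb w0 sa sb v0 + h • natB z2 (-(θa * z2)) (-(θb * z2)) := by
  rw [PL504.rL_nb, PL504.rL_nb, ← Sg337.eL_bx9, ← PL504.eL_smul, ← PL504.nb_add]
  congr 1 <;> ring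

/-- supremum of the base box and the record box -/
theorem base_sup {θa θb w0 sa sb v0 lam0 z1 z2 h : ℝ} (hh : 0 < h) (hz : z1 ≤ z2)
    (hl : (2 * θa - θb) * z2 - z1 ≤ lam0) :
    (rL θa θb w0 sa sb v0 + h • SL θa θb lam0 z1 z2) ⊔ rL θa θb w0 sa sb (v0 + h * z2) =
      rL θa θb w0 sa sb v0 + h • SL θa θb lam0 z2 z2 := by
  rw [rec_above, SgO219.smul_sup' _ _ _ hh]
  congr 2
  unfold SL Sg337.frz natB
  rw [Sg337.bx9_sup]
  congr 1
  · exact max_eq_right hz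
  · exact max_eq_left (by linarith)
  · exact max_self _
  · exact max_self _
  · exact max_eq_right (by linarith)
  · exact max_self _
  · exact max_eq_right (by linarith)
  · exact max_self _
  · exact max_eq_right (by linarith)

/-- **no heavy strips along the bases of the plane `Σ`**, thin case -/
theorem nsTc_thin
    (hC : CtxT G L r g s θ q Rg B I lev A f b vm w fr fl sc w0 sa sb δ R I0 I' ν own c₀)
    (hq0 : 0 < q 0) (hq1 : 0 < q 1) {sC : Fin 12} (hsC : sC = 3 ∨ sC = 4)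
    (hax : ∀ᶠ n in (U : Filter ℕ), ∀ x ∈ I n,
      ‖vb (fl n x)‖ ≤ 16 * |(fl n x).b1 * (tC sC).2 - (fl n x).b2 * (tC sC).1|)
    {v0 : ℝ} (hv0 : 0 < v0) (hv1 : v0 < 1) (hθ0 : 0 < θ 0) (hRa : θ 0 < Rg) (hRb : |θ 1| < Rg)
    {lam0 z1 z2 : ℝ} (hz : z1 ≤ z2)
    (hlz : (2 * θ 0 - θ 1) * z2 - z1 ≤ lam0) {H1 H : ℕ → ℝ} (hH1 : ∀ m, 0 < H1 m)
    (hH1l : Tendsto H1 atTop (𝓝 0)) (hH : ∀ m, 0 < H m) (hHl : Tendsto H atTop (𝓝 0))
    (hX : ∀ᶠ m in (atTop : Filter ℕ),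
      rL (θ 0) (θ 1) w0 sa sb v0 + H1 m • SL (θ 0) (θ 1) lam0 z1 z2 ∈ Leg monL R)
    (hF : ∀ ε : ℝ, 0 < ε → ∀ᶠ m in (atTop : Filter ℕ),
      ν (rL (θ 0) (θ 1) w0 sa sb v0 + H1 m • natB z2 (-(θ 0 * z2)) (-(θ 1 * z2))) -
        ν (rL (θ 0) (θ 1) w0 sa sb v0 + H1 m • SL (θ 0) (θ 1) lam0 z2 z2) ≤ ε * H m)
    {R0 : ℝ} (hR0 : 0 < R0) :
    NsTc B I0 I' (PL504.coN B lev w w0 sa sb fl) 2 ν
      (fun m => rL (θ 0) (θ 1) w0 sa sb v0 + H1 m • SL (θ 0) (θ 1) lam0 z1 z2) H sC 10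
      (gam q) R0 := by
  have sh := hC.sh
  set vv : ℕ → ℝ := fun m => v0 + H1 m * z2 with hvv
  have hvl : Tendsto vv atTop (𝓝 v0) := by
    have := (hH1l.mul_const z2).const_add v0
    simpa using this
  have ha0 : 0 < θ 0 * (1 - v0) := mul_pos hθ0 (by linarith)
  set t0 : ℝ := min (min δ (θ 0 * (1 - v0) / 2)) (min (Rg - θ 0) (Rg - |θ 1|)) with ht0
  have ht0p : 0 < t0 :=
    lt_min (lt_min sh.d0 (by linarith)) (lt_min (by linarith) (by linarith))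
  have ht1 : t0 ≤ δ := (min_le_left _ _).trans (min_le_left _ _)
  have ht2 : t0 ≤ θ 0 * (1 - v0) / 2 := (min_le_left _ _).trans (min_le_right _ _)
  have ht3 : t0 ≤ Rg - θ 0 := (min_le_right _ _).trans (min_le_left _ _)
  have ht4 : t0 ≤ Rg - |θ 1| := (min_le_right _ _).trans (min_le_right _ _)
  have hta : Tendsto (fun m => θ 0 * (1 - vv m)) atTop (𝓝 (θ 0 * (1 - v0))) :=
    (hvl.const_sub 1).const_mul _
  have hz1 : Tendsto (fun m => v0 + H1 m * z1) atTop (𝓝 v0) := by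
    have := (hH1l.mul_const z1).const_add v0
    simpa using this
  have hvr : ∀ᶠ m in (atTop : Filter ℕ), 0 ≤ vv m ∧ vv m ≤ 1 := by
    filter_upwards [hvl.eventually_const_lt hv0, hvl.eventually_lt_const hv1] with m h1 h2
    exact ⟨h1.le, h2.le⟩
  refine hC.nsTc hq0 hq1 hsC hax (rc := fun m => rL (θ 0) (θ 1) w0 sa sb (vv m)) hH hHl ht0p ?_
    (hC.frz_rec (v := vv) hvr ?_) hR0
  · filter_upwards [hX, hvr, hta.eventually_const_lt (u := θ 0 * (1 - v0) / 2) (by linarith),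
      hz1.eventually_const_lt hv0] with m m1 m2 m3 m4
    obtain ⟨x0, x1, x2, x3, x4, x5, x6, x7, x8, x9, x10, x11⟩ :=
      base_slots (θ 0) (θ 1) w0 sa sb v0 lam0 z1 z2 (H1 m)
    have hvm : vv m = v0 + H1 m * z2 := rfl
    rw [← hvm] at x2 x3 x4 x5 x6 x7 x8 x9 x10 x11
    have hp : 0 < θ 0 * (1 - vv m) := by linarith
    set X := rL (θ 0) (θ 1) w0 sa sb v0 + H1 m • SL (θ 0) (θ 1) lam0 z1 z2 with hXd
    refine ⟨vv m, θ 0 * (1 - vv m), θ 1 * (1 - vv m), StgM.of_rec sh ht0p ht1 (by linarith)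
      (by linarith) hθ0.le m2.1 m2.2 (by linarith) m1 hsC ?_ x10 ?_ ?_ ?_ ?_ ?_ ?_ ?_ x2.ge x7.ge
      x8.ge⟩
    · rcases hsC with rfl | rfl
      · exact x3
      · exact x4
    · rw [x0]; linarith
    · rw [x3]; linarith
    · rw [x4]; linarith
    · rw [x5]; linarith
    · rw [x6]; linarith
    · rw [x9]; linarith
    · rw [x1, hvm]
      have h1 : (2 * θ 0 - θ 1) * z2 - z2 ≤ lam0 := by linarith
      have h2 := mul_le_mul_of_nonneg_left h1 (hH1 m).le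
      nlinarith
  · intro ε hε
    filter_upwards [hF ε hε] with m m1
    show ν (rL (θ 0) (θ 1) w0 sa sb (v0 + H1 m * z2)) - ν (_ ⊔ rL (θ 0) (θ 1) w0 sa sb (v0 + H1 m * z2)) ≤ _
    rw [base_sup (hH1 m) hz hlz, rec_above]
    exact m1

end ctx

end Crest.Agent.R116.A1T79
end

-- ▼ part R116/A1b_79
section

/-!
# R116, (A1) of the rows (helper79), part 2: letters of a tangent with `OutS`

* `out_diff`, `out_zero`, `out_frost` : generic conversions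
-/

set_option autoImplicit false
set_option linter.unusedVariables false
set_option linter.unusedSectionVars false

open Finset Filter Topology

namespace Crest.Agent.R116.A1T79

open Crest.Agent.R138.Ex926 (Base U IsTan)
open Crest.Agent.R136
open Crest.Agent.R136.Net191
open Crest.Agent.R136.Qg926
open Crest.Agent.R136.Lq196
open Crest.Agent.R136.NSt107 (NsW)
open Crest.Agent.R116.ChL222
open Crest.Agent.R116.PL504 (βL eL rL oL Shift nb DN)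
open Crest.Agent.R116.Nar863 (NsT isoT a1_iso)
open Crest.Agent.R116.WinU954 (WinU top_leg lin_leg single_leg lev_leg)
open Crest.Agent.R116.Sg337 (bx9 coneL natB SL SI)
open Crest.Agent.R116.SgI337 (xI bI mem_LI grpI_slots dhI_X)
open Crest.Agent.R116.Sg635 (aS)
open Dg219 (OutS gset Walls mw gC dhC nC)

section out

variable {grp : Fin 12 → ℕ} {L : Set (Fin 12 → ℝ)} {dh : Fin 12 → ℝ} {n : ℕ → ℝ × ℝ}
    {lam : (Fin 12 → ℝ) → ℝ} {A : ℝ × ℝ} {φ : ℕ → (Fin 12 → ℝ) → ℝ} {r : ℕ → ℝ}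

/-- difference of two boxes which differ in one group -/
theorem out_diff (H : OutS grp L dh n lam A φ r) (k : ℕ) {c c' : Fin 12 → ℝ} (hc : c ∈ L)
    (hc' : c' ∈ L) (h : ∀ i, grp i ≠ k → c i = c' i) : lam c - lam c' = φ k c - φ k c' := by
  classical
  rw [H.sum c hc, H.sum c' hc', ← Finset.sum_sub_distrib]
  refine Finset.sum_eq_single k (fun k' _ hk' => ?_) (fun hk => ?_)
  · rw [H.loc k' c c' fun i hi => h i (by rw [hi]; exact hk'), sub_self]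
  · rw [H.loc k c c' fun i hi => absurd (by rw [← hi]; exact Dg219.mem_gset i) hk, sub_self]

theorem out_zero (H : OutS grp L dh n lam A φ r) (h0 : (0 : Fin 12 → ℝ) ∈ L) : lam 0 = 0 := by
  rw [H.sum 0 h0]
  exact Finset.sum_eq_zero fun k _ => H.zero k 0 fun _ _ => rfl


theorem bx9_zero : bx9 0 0 0 0 0 0 0 0 0 = (0 : Fin 12 → ℝ) := by
  funext k
  fin_cases k <;> simp [bx9]

/-- frost of the windows -/
theorem out_frost (H : OutS grp L dh n lam A φ r) (h0 : (0 : Fin 12 → ℝ) ∈ L) {σ : ℝ}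
    (hown : ∀ y : ℝ, 0 < y → σ * y ≤ -lam (bx9 y 0 0 0 0 0 0 0 0)) {t : ℝ} :
    ∀ y : ℝ, 0 ≤ y → y ≤ t → lam (bx9 y 0 0 0 0 0 0 0 0) ≤ -(σ * y) := by
  intro y hy _
  rcases hy.lt_or_eq with h | h
  · linarith [hown y h]
  · rw [← h, bx9_zero, out_zero H h0]
    simp

end out

end Crest.Agent.R116.A1T79
end

-- ▼ part R116/A1c_79
section

/-!
# R116, (A1) of the rows (helper79), part 3: letters of `SigP` for 863's `a1_thin`

`σ = 1` (`θb = θa`): groups `{0}`, `{5, 6, 11}`, `{9}`, `{1, 2, 3, 4, 7, 8, 10}`.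
-/

set_option autoImplicit false
set_option linter.unusedVariables false
set_option linter.unusedSectionVars false

open Finset Filter Topology

namespace Crest.Agent.R116.A1T79

open Crest.Agent.R138.Ex926 (Base U IsTan)
open Crest.Agent.R136
open Crest.Agent.R136.Net191
open Crest.Agent.R136.Lq196
open Crest.Agent.R116.LZg725
open Crest.Agent.R116.ChL222
open Crest.Agent.R116.PL504 (βL eL rL oL Shift nb DN)
open Crest.Agent.R116.Gd222 (TSet sN PDL DT vb gam)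
open Crest.Agent.R116.KI439 (LRay)
open Crest.Agent.R116.Tw468
open Crest.Agent.R116.CtxB468
open Crest.Agent.R116.Nar192 (StgM NsTc tC hax_of)
open Crest.Agent.R116.Sg337 (bx9 coneL natB SL)
open Crest.Agent.R116.WinG954 (monD topD leg_LMd)
open Crest.Agent.R116.RowU194 (SigP xB)
open Crest.Agent.R136.MkA627
open Sg635 (aS bS xS LMd mem_LMd mem_bx L_eq g_zero g6 kz_ne kX_ne kz_kX kz_kN kz_kF kX_kN kX_kF)
open Dg219 (OutS gset Walls mw gC dhC nC)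

section grp

variable {θa θb : ℝ}

theorem sig_kz (ha : θa ≠ 0) (hb : θb ≠ 0) (i : Fin 12) :
    gC aS (bS θa θb) i = Sg635.kz θa θb ↔ i = 0 := by
  constructor
  · intro h
    by_cases hi : i ∈ ({1, 2, 3, 4, 7, 8, 10} : Finset (Fin 12))
    · rw [g_zero.2 hi] at h
      exact absurd h.symm kz_ne
    · fin_cases i <;> simp at hi ⊢
      · exact ha (kz_kX.1 h.symm)
      · exact ha (kz_kX.1 (g6.symm.trans h).symm)
      · exact ha (kz_kN.1 h.symm)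
      · exact hb (kz_kF.1 h.symm)
  · rintro rfl; rfl

theorem sig_kX (ha : θa ≠ 0) (hb : θb = θa) (i : Fin 12) :
    gC aS (bS θa θb) i = Sg635.kX θa θb ↔ i = 5 ∨ i = 6 ∨ i = 11 := by
  constructor
  · intro h
    by_cases hi : i ∈ ({1, 2, 3, 4, 7, 8, 10} : Finset (Fin 12))
    · rw [g_zero.2 hi] at h
      exact absurd h.symm kX_ne
    · fin_cases i <;> simp at hi ⊢
      · exact ha (kz_kX.1 h)
      · exact ha (kX_kN.1 h.symm)
  · rintro (rfl | rfl | rfl)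
    · rfl
    · exact g6
    · exact (kX_kF.2 hb).symm

end grp

section out

variable {θa θb lam0 s : ℝ} {lam : (Fin 12 → ℝ) → ℝ} {A : ℝ × ℝ} {φ : ℕ → (Fin 12 → ℝ) → ℝ}
    {r : ℕ → ℝ}

theorem f0 {t : ℝ} (i : Fin 12) (hi : i ≠ 0) :
    bx9 t 0 t t t t t t t i = bx9 0 0 t t t t t t t i ∧ bx9 t 0 0 0 0 0 0 0 0 i = 0 := by
  fin_cases i
  · exact absurd rfl hi
  all_goals simp [bx9]

theorem f00 {t : ℝ} : bx9 t 0 t t t t t t t 0 = bx9 t 0 0 0 0 0 0 0 0 0 ∧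
    bx9 0 0 t t t t t t t 0 = 0 := by
  simp [bx9]

theorem e0 {t : ℝ} (i : Fin 12) (hi : i ≠ 0) :
    bx9 t 0 t 0 0 0 0 0 0 i = bx9 0 0 t 0 0 0 0 0 0 i ∧ bx9 t 0 0 0 0 0 0 0 0 i = 0 := by
  fin_cases i
  · exact absurd rfl hi
  all_goals simp [bx9]

theorem e00 {t : ℝ} : bx9 t 0 t 0 0 0 0 0 0 0 = bx9 t 0 0 0 0 0 0 0 0 0 ∧
    bx9 0 0 t 0 0 0 0 0 0 0 = 0 := by
  simp [bx9]

theorem x0 {t x c : ℝ} (i : Fin 12) (hi : ¬ (i = 5 ∨ i = 6 ∨ i = 11)) :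
    bx9 t 0 t c 0 0 0 c 0 i = bx9 t 0 t c x 0 0 c x i := by
  rw [not_or, not_or] at hi
  obtain ⟨h5, h6, h11⟩ := hi
  fin_cases i
  · simp [bx9]
  · simp [bx9]
  · simp [bx9]
  · simp [bx9]
  · simp [bx9]
  · exact absurd rfl h5
  · exact absurd rfl h6
  · simp [bx9]
  · simp [bx9]
  · simp [bx9]
  · simp [bx9]
  · exact absurd rfl h11

theorem x1 {t x c c' : ℝ} (i : Fin 12) (hi : i = 5 ∨ i = 6 ∨ i = 11) :
    bx9 t 0 t c x 0 0 c x i = bx9 t 0 t c' x 0 0 c' x i := by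
  rcases hi with rfl | rfl | rfl <;> simp [bx9]

/-- density of the windows with `D` frozen -/
theorem thin_dens (ha : θa ≠ 0) (hb : θb ≠ 0)
    (H : OutS (gC aS (bS θa θb)) LMd (dhC aS (bS θa θb)) (nC aS (bS θa θb)) lam A φ r) {t : ℝ}
    (ht : 0 ≤ t) :
    lam (bx9 t 0 t t t t t t t) = lam (bx9 t 0 0 0 0 0 0 0 0) + lam (bx9 0 0 t t t t t t t) := by
  refine out_split H {Sg635.kz θa θb} ?_ ?_ ?_ (fun i hi => ?_) (fun i hi => ?_)
  · rw [mem_bx]; refine ⟨?_, ?_, ?_, ?_, ?_, ?_, ?_⟩ <;> linarith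
  · rw [mem_bx]; refine ⟨?_, ?_, ?_, ?_, ?_, ?_, ?_⟩ <;> linarith
  · rw [mem_bx]; refine ⟨?_, ?_, ?_, ?_, ?_, ?_, ?_⟩ <;> linarith
  · rw [Set.mem_singleton_iff, sig_kz ha hb] at hi
    rw [hi]
    exact f00
  · rw [Set.mem_singleton_iff, sig_kz ha hb] at hi
    exact f0 i hi

/-- the slot `E` costs nothing at fine height -/
theorem thin_zero (ha : θa ≠ 0) (hb : θb ≠ 0)
    (H : OutS (gC aS (bS θa θb)) LMd (dhC aS (bS θa θb)) (nC aS (bS θa θb)) lam A φ r) {t : ℝ}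
    (ht : 0 < t) (h0 : lam (bx9 0 0 t 0 0 0 0 0 0) = 0) :
    lam (bx9 t 0 0 0 0 0 0 0 0) = lam (bx9 t 0 t 0 0 0 0 0 0) := by
  have h1 : lam (bx9 t 0 t 0 0 0 0 0 0) = lam (bx9 t 0 0 0 0 0 0 0 0) +
      lam (bx9 0 0 t 0 0 0 0 0 0) := by
    refine out_split H {Sg635.kz θa θb} ?_ ?_ ?_ (fun i hi => ?_) (fun i hi => ?_)
    · rw [mem_bx]; refine ⟨?_, ?_, ?_, ?_, ?_, ?_, ?_⟩ <;> linarith
    · rw [mem_bx]; refine ⟨?_, ?_, ?_, ?_, ?_, ?_, ?_⟩ <;> linarith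
    · rw [mem_bx]; refine ⟨?_, ?_, ?_, ?_, ?_, ?_, ?_⟩ <;> linarith
    · rw [Set.mem_singleton_iff, sig_kz ha hb] at hi
      rw [hi]
      exact e00
    · rw [Set.mem_singleton_iff, sig_kz ha hb] at hi
      exact e0 i hi
  rw [h1, h0, add_zero]

theorem thin_mem {t x c : ℝ} (ht : 0 < t) (hx : 0 ≤ x) (hxt : x ≤ t) (hc : 0 ≤ c) :
    bx9 t 0 t c x 0 0 c x ∈ LMd := by
  rw [mem_bx]; refine ⟨?_, ?_, ?_, ?_, ?_, ?_, ?_⟩ <;> linarith

/-- decoupling of `C, P` from `X, F` -/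
theorem thin_prod (ha : θa ≠ 0) (hb : θb = θa)
    (H : OutS (gC aS (bS θa θb)) LMd (dhC aS (bS θa θb)) (nC aS (bS θa θb)) lam A φ r) {t x c : ℝ}
    (ht : 0 < t) (hx : 0 < x) (hxt : x ≤ t) (hc : 0 < c) :
    lam (bx9 t 0 t 0 0 0 0 0 0) - lam (bx9 t 0 t c 0 0 0 c 0) ≤
      lam (bx9 t 0 t 0 x 0 0 0 x) - lam (bx9 t 0 t c x 0 0 c x) := by
  have hX := sig_kX (θa := θa) (θb := θb) ha hb
  have e1 : lam (bx9 t 0 t 0 0 0 0 0 0) - lam (bx9 t 0 t 0 x 0 0 0 x) =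
      φ (Sg635.kX θa θb) (bx9 t 0 t 0 0 0 0 0 0) - φ (Sg635.kX θa θb) (bx9 t 0 t 0 x 0 0 0 x) :=
    out_diff H (Sg635.kX θa θb) (thin_mem ht le_rfl ht.le le_rfl) (thin_mem ht hx.le hxt le_rfl)
      fun i hi => x0 i (by rwa [Ne, hX] at hi)
  have e2 : lam (bx9 t 0 t c 0 0 0 c 0) - lam (bx9 t 0 t c x 0 0 c x) =
      φ (Sg635.kX θa θb) (bx9 t 0 t c 0 0 0 c 0) - φ (Sg635.kX θa θb) (bx9 t 0 t c x 0 0 c x) :=
    out_diff H (Sg635.kX θa θb) (thin_mem ht le_rfl ht.le hc.le) (thin_mem ht hx.le hxt hc.le)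
      fun i hi => x0 i (by rwa [Ne, hX] at hi)
  have e3 : φ (Sg635.kX θa θb) (bx9 t 0 t 0 0 0 0 0 0) =
      φ (Sg635.kX θa θb) (bx9 t 0 t c 0 0 0 c 0) :=
    H.loc _ _ _ fun i hi => x1 i (by rwa [hX] at hi)
  have e4 : φ (Sg635.kX θa θb) (bx9 t 0 t 0 x 0 0 0 x) =
      φ (Sg635.kX θa θb) (bx9 t 0 t c x 0 0 c x) :=
    H.loc _ _ _ fun i hi => x1 i (by rwa [hX] at hi)
  linarith

end out

section ctx

variable {G : Geo TSet (Fin 2)} {L : ℕ → ℕ → KI439.LRay} {rr : ℕ → ℝ} {g s : ℝ} {θ q : Fin 2 → ℝ}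
    {Rg : ℝ} {B : Base}
    {I : ℕ → Finset (ℕ × ℝ)} {lev : ℕ → ℚ → ℕ} {A0 : ℕ → ℝ}
    {f0 : ℕ → ℚ → ℕ → ℤ → ℕ} {b : ℕ → ℚ → ℕ → TSet} {vm : ℕ → ℚ → ℝ} {w : Fin 2 → ℕ → ℚ → ℝ}
    {fr : ℕ → ℚ → ℕ × ℝ → LInc} {fl : ℕ → ℕ × ℝ → LInc} {sc : Fin 12 → ℕ → ℝ}
    {w0 sa sb δ R : ℝ} {I0 I' : ℕ → Finset (ℕ × ℝ)} {ν own : (Fin 12 → ℝ) → ℝ} {c₀ : ℝ}
    {J : Type*} {c q0 q1 δ' : ℝ} {f : J → (Fin 12 → ℝ) → ℝ} {j0 : J}
    {v0 lam0 : ℝ} {z : ℝ × ℝ} {u k : ℕ → ℝ} {lam : J → (Fin 12 → ℝ) → ℝ} {A : ℝ × ℝ}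
    {φ : ℕ → (Fin 12 → ℝ) → ℝ} {r : ℕ → ℝ}

/-- **no heavy (curved) strips along the bases of `SigP`** -/
theorem nsTc_sig
    (hC : CtxT G L rr g s θ q Rg B I lev A0 f0 b vm w fr fl sc w0 sa sb δ R I0 I' ν own c₀)
    (hq0 : 0 < q 0) (hq1 : 0 < q 1) {sC : Fin 12} (hsC : sC = 3 ∨ sC = 4)
    (hax : ∀ᶠ n in (U : Filter ℕ), ∀ x ∈ I n,
      ‖vb (fl n x)‖ ≤ 16 * |(fl n x).b1 * (tC sC).2 - (fl n x).b2 * (tC sC).1|)
    (hθ0 : 0 < θ 0) (hRa : θ 0 < Rg) (hRb : |θ 1| < Rg)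
    (H : SigP R w0 sa sb (θ 0) (θ 1) s c q0 q1 δ' f j0 v0 lam0 z u k lam A φ r) (hf : f j0 = ν)
    {R0 : ℝ} (hR0 : 0 < R0) :
    NsTc B I0 I' (PL504.coN B lev w w0 sa sb fl) 2 ν (xB (θ 0) (θ 1) w0 sa sb v0 lam0 z u)
      (fun m => u m * k m) sC 10 (gam q) R0 := by
  have h0L : (0 : Fin 12 → ℝ) ∈ (mw monL).L (xS lam0) aS (bS (θ 0) (θ 1)) :=
    (Walls.cone (Q := mw monL)).zero
  refine nsTc_thin hC hq0 hq1 hsC hax H.v00 H.v01 hθ0 hRa hRb H.lt.le H.sl.le H.upos H.u0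
    (fun m => H.hpos m) H.h0 ?_ ?_ hR0
  · filter_upwards [SgO219.tan_ev (H.tan j0) h0L] with m hm
    rwa [smul_zero, add_zero] at hm
  · have := H.fz
    rw [hf] at this
    exact this

end ctx

end Crest.Agent.R116.A1T79
end

-- ▼ part R116/A1d_79
section

/-!
# R116, (A1) of the rows (helper79), part 4: the dead direction in the windows

* **`dim_pair`** : `C_b = κ C_a`, `X_b = κ X_a` up to `d'^T`, `|κ| ≤ 4`
* `dim_sig`      : the same in the windows at the bases of `SigP`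
-/

set_option autoImplicit false
set_option linter.unusedVariables false
set_option linter.unusedSectionVars false

open Finset Filter Topology

namespace Crest.Agent.R116.A1T79

open Crest.Agent.R138.Ex926 (Base U IsTan)
open Crest.Agent.R136
open Crest.Agent.R136.MkA627
open Crest.Agent.R136.Net191
open Crest.Agent.R136.Qg926
open Crest.Agent.R136.Lq196
open Crest.Agent.R116.LZg725
open Crest.Agent.R116.ChL222
open Crest.Agent.R116.PL504 (βL eL rL oL Shift nb DN)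
open Crest.Agent.R116.Gd222 (TSet sN PDL DT vb gam)
open Crest.Agent.R116.KI439 (LRay)
open Crest.Agent.R116.Tw468
open Crest.Agent.R116.CtxB468
open Crest.Agent.R116.Nar192 (StgM NsTc tC hax_of)
open Crest.Agent.R116.Sg337 (bx9 coneL natB SL)
open Crest.Agent.R116.WinG954 (monD topD legalD_iff WinG)
open Crest.Agent.R116.RowU194 (SigP xB)
open Crest.Agent.R116.Xd954 (bb cs xs FlagX FlagE Mrg tau dim_window exists_mrg)

/-- **the dead direction**: one `κ` for both pairs -/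
theorem dim_pair {W : Wnd 12 (fun _ => ℕ × ℝ)} {I : ℕ → Finset (ℕ × ℝ)} {lev : ℕ → ℚ → ℕ}
    {inc : ℕ → ℕ × ℝ → LInc} {σ : Fin 2 → ℕ → ℝ} {k0 ϑ w0 sa sb v t y δ : ℝ} {a b : Fin 2}
    (ok : W.Ok) (hco : W.co = Gd222.coN W.B lev inc σ w0 sa sb)
    (hI : ∀ᶠ n in (U : Filter ℕ), W.Cl n ⊆ I n) (hF : FlagX W.B I lev inc σ k0 ϑ a b)
    (hm : Mrg k0 ϑ v t y δ)
    (hX : ∀ᶠ n in (U : Filter ℕ), ∀ k, 3 ≤ k → |W.X n k - PL504.nb w0 sa sb v t y k| ≤ δ / 2)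
    (hX3 : ∀ᶠ n in (U : Filter ℕ), W.X n 3 = W.X n 4)
    (hX5 : ∀ᶠ n in (U : Filter ℕ), W.X n 5 = W.X n 6)
    (hk3 : W.kap 3 = W.kap 4) (hk5 : W.kap 5 = W.kap 6) (hw : Tendsto W.w U (𝓝 0)) (T : ℝ) :
    ∀ᶠ n in (U : Filter ℕ), ∃ κ : ℝ, |κ| ≤ 4 ∧ ∀ x ∈ W.Cl n, ∀ y ∈ W.Cl n,
      |W.crd n x y (cs b) - κ * W.crd n x y (cs a)| ≤ W.B'.d n ^ T ∧
      |W.crd n x y (xs b) - κ * W.crd n x y (xs a)| ≤ W.B'.d n ^ T := by
  have hb : ∀ᶠ n in (U : Filter ℕ), ∀ x ∈ I n,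
      1 / 4 ≤ bb (inc n x) 0 ^ 2 + bb (inc n x) 1 ^ 2 := by
    filter_upwards [hF.big] with n hn x hx
    have h1 := hn x hx
    have h2 : (1 / 4 : ℝ) ≤ bb (inc n x) b ^ 2 := by
      rw [← sq_abs]
      nlinarith
    fin_cases b
    · have := sq_nonneg (bb (inc n x) 1)
      have h3 : (1 / 4 : ℝ) ≤ bb (inc n x) 0 ^ 2 := h2
      linarith
    · have := sq_nonneg (bb (inc n x) 0)
      have h3 : (1 / 4 : ℝ) ≤ bb (inc n x) 1 ^ 2 := h2
      linarith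
  filter_upwards [dim_window ok hco hI hF.toFlagE hb hm hX hX3 hX5 hk3 hk5 hw (T + 1), ok.ev_good,
    hI, hF.bd, hF.big, W.B'.ev_rpow_small (η := 1) (c := 1 / 5) one_pos (by norm_num)] with
    n hn g hIn hbd hbig h5
  have hs0 := hIn g.s0
  set l := inc n (W.s₀ n) with hl
  have ha2 : |bb l a| ≤ 2 := hbd _ hs0
  have hb2 : 1 / 2 ≤ |bb l b| := hbig _ hs0
  have hb0 : bb l b ≠ 0 := by
    intro h
    rw [h, abs_zero] at hb2
    linarith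
  have hbp : 0 < |bb l b| := by linarith
  have e01 : bb l 0 ^ 2 + bb l 1 ^ 2 = bb l a ^ 2 + bb l b ^ 2 := by
    have hab := hF.ab
    fin_cases a <;> fin_cases b
    · exact absurd rfl hab
    · rfl
    · show bb l 0 ^ 2 + bb l 1 ^ 2 = bb l 1 ^ 2 + bb l 0 ^ 2
      ring
    · exact absurd rfl hab
  set N := Real.sqrt (bb l 0 ^ 2 + bb l 1 ^ 2) with hN
  have hN1 : 0 < bb l 0 ^ 2 + bb l 1 ^ 2 := by
    rw [e01]
    have : 0 < bb l b ^ 2 := by positivity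
    have := sq_nonneg (bb l a)
    linarith
  have hN0 : 0 < N := Real.sqrt_pos.2 hN1
  have hN2 : N ≤ 5 * |bb l b| := by
    rw [hN]
    refine Real.sqrt_le_iff.2 ⟨by positivity, ?_⟩
    rw [e01]
    have h1 : bb l a ^ 2 ≤ 4 := by
      rw [← sq_abs]
      nlinarith [abs_nonneg (bb l a)]
    have h2 : bb l b ^ 2 = |bb l b| ^ 2 := (sq_abs _).symm
    rw [h2]
    nlinarith
  have dp := Real.rpow_pos_of_pos (W.B'.pos n) T
  have hT : W.B'.d n ^ (T + 1) ≤ 1 / 5 * W.B'.d n ^ T := by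
    rw [Real.rpow_add (W.B'.pos n)]
    have := mul_le_mul_of_nonneg_left h5 dp.le
    linarith
  refine ⟨-(bb l a / bb l b), ?_, fun x hx y hy => ?_⟩
  · rw [abs_neg, abs_div, div_le_iff₀ hbp]
    linarith
  · have key : ∀ {u1 u2 : ℝ}, |bb l a / N * u1 + bb l b / N * u2| ≤ W.B'.d n ^ (T + 1) →
        |u2 - -(bb l a / bb l b) * u1| ≤ W.B'.d n ^ T := by
      intro u1 u2 h
      have e : u2 - -(bb l a / bb l b) * u1 = (bb l a / N * u1 + bb l b / N * u2) *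
          (N / bb l b) := by
        have := hN0.ne'
        field_simp
        ring
      rw [e, abs_mul]
      have h3 : |N / bb l b| ≤ 5 := by
        rw [abs_div, abs_of_pos hN0, div_le_iff₀ hbp]
        exact hN2
      calc _ ≤ (1 / 5 * W.B'.d n ^ T) * 5 :=
            mul_le_mul (h.trans hT) h3 (abs_nonneg _) (by positivity)
        _ = W.B'.d n ^ T := by ring
    obtain ⟨h1, h2⟩ := hn x hx y hy
    have hab := hF.ab
    constructor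
    · apply key
      refine le_trans (le_of_eq ?_) h1
      congr 1
      fin_cases a <;> fin_cases b
      · exact absurd rfl hab
      · rfl
      · show bb l 1 / N * W.crd n x y 4 + bb l 0 / N * W.crd n x y 3 =
          bb l 0 / N * W.crd n x y 3 + bb l 1 / N * W.crd n x y 4
        ring
      · exact absurd rfl hab
    · apply key
      refine le_trans (le_of_eq ?_) h2
      congr 1
      fin_cases a <;> fin_cases b
      · exact absurd rfl hab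
      · rfl
      · show bb l 1 / N * W.crd n x y 6 + bb l 0 / N * W.crd n x y 5 =
          bb l 0 / N * W.crd n x y 5 + bb l 1 / N * W.crd n x y 6
        ring
      · exact absurd rfl hab

section ctx

variable {G : Geo TSet (Fin 2)} {L : ℕ → ℕ → KI439.LRay} {rr : ℕ → ℝ} {g s : ℝ} {θ q : Fin 2 → ℝ}
    {Rg : ℝ} {B : Base}
    {I : ℕ → Finset (ℕ × ℝ)} {lev : ℕ → ℚ → ℕ} {A0 : ℕ → ℝ}
    {f0 : ℕ → ℚ → ℕ → ℤ → ℕ} {b0 : ℕ → ℚ → ℕ → TSet} {vm : ℕ → ℚ → ℝ} {w : Fin 2 → ℕ → ℚ → ℝ}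
    {fr : ℕ → ℚ → ℕ × ℝ → LInc} {fl : ℕ → ℕ × ℝ → LInc} {sc : Fin 12 → ℕ → ℝ}
    {w0 sa sb δ R : ℝ} {I0 I' : ℕ → Finset (ℕ × ℝ)} {ν own : (Fin 12 → ℝ) → ℝ} {c₀ : ℝ}
    {J : Type*} {c q0 q1 δ' : ℝ} {f : J → (Fin 12 → ℝ) → ℝ} {j0 : J}
    {v0 lam0 : ℝ} {z : ℝ × ℝ} {u k : ℕ → ℝ} {lam : J → (Fin 12 → ℝ) → ℝ} {A : ℝ × ℝ}
    {φ : ℕ → (Fin 12 → ℝ) → ℝ} {r : ℕ → ℝ}

/-- the bases converge to the record box -/
theorem xB_tendsto {θa θb w0 sa sb v0 lam0 : ℝ} {z : ℝ × ℝ} {u : ℕ → ℝ}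
    (hu : Tendsto u atTop (𝓝 0)) (i : Fin 12) :
    Tendsto (fun m => xB θa θb w0 sa sb v0 lam0 z u m i) atTop
      (𝓝 (rL θa θb w0 sa sb v0 i)) := by
  have := (hu.mul_const (SL θa θb lam0 z.1 z.2 i)).const_add (rL θa θb w0 sa sb v0 i)
  rw [zero_mul, add_zero] at this
  exact this

/-- **the dead direction in the windows at the bases of `SigP`** -/
theorem dim_sig
    (hC : CtxT G L rr g s θ q Rg B I lev A0 f0 b0 vm w fr fl sc w0 sa sb δ R I0 I' ν own c₀)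
    (hθ0 : 0 < θ 0)
    (H : SigP R w0 sa sb (θ 0) (θ 1) s c q0 q1 δ' f j0 v0 lam0 z u k lam A φ r)
    {a b : Fin 2} (hF : ∀ κ0 : ℝ, FlagX B I lev fl (sN lev w) κ0 0 a b)
    {D : Set (Fin 12 → ℝ)} {lam' : (Fin 12 → ℝ) → ℝ} {tw : ℝ} {Mw : Mons 12}
    {top : Fin 12 → ℝ} {k' : ℕ → ℕ} (hk' : Tendsto k' U atTop)
    {W : Wnd 12 (fun _ => ℕ × ℝ)}
    (hW : WinG W B I0 I' (PL504.coN B lev w w0 sa sb fl) 2 D ν lam'
      (xB (θ 0) (θ 1) w0 sa sb v0 lam0 z u) (fun m => u m * k m) k' tw Mw top) (T : ℝ) :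
    ∀ᶠ n in (U : Filter ℕ), ∃ κ : ℝ, |κ| ≤ 4 ∧ ∀ x ∈ W.Cl n, ∀ y ∈ W.Cl n,
      |W.crd n x y (cs b) - κ * W.crd n x y (cs a)| ≤ W.B'.d n ^ T ∧
      |W.crd n x y (xs b) - κ * W.crd n x y (xs a)| ≤ W.B'.d n ^ T := by
  have hv1 := H.v01
  have h1v : 0 < 1 - v0 := by linarith
  obtain ⟨δ1, hm⟩ := exists_mrg (k0 := θ 0 * (1 - v0) - θ 1 * (1 - v0) + 1) (ϑ := 0) (v := v0)
    (t := θ 0 * (1 - v0)) (y := θ 1 * (1 - v0)) (mul_pos hθ0 h1v) (by linarith)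
    (by have := mul_pos hθ0 h1v; linarith [H.v00])
  have hB := hW.hB
  refine dim_pair (I := I) (lev := lev) (inc := fl) (σ := sN lev w) (w0 := w0) (sa := sa)
    (sb := sb) hW.wl.ok (by rw [hW.hco, hW.hB]; rfl)
    ?_ (by rw [hB]; exact hF _) hm ?_ ?_ ?_ (by rw [hW.hkap]; rfl) (by rw [hW.hkap]; rfl)
    (hW.w_tendsto H.h0 hk') T
  · filter_upwards [hW.wl.ok.cls.csub] with n hn
    rw [hW.hJ] at hn
    exact hn.trans ((hC.ext.sub n).trans (hC.sub0 n))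
  · exact (ThinD954.Pos.of_tendsto (X := W.X) (w0 := w0) (sa := sa) (sb := sb) (v := v0)
      (t := θ 0 * (1 - v0)) (y := θ 1 * (1 - v0)) hm.pos (fun i _ => by
        rw [← PL504.rL_nb]
        exact hW.X_tendsto (xB_tendsto H.u0 i) hk')
      (hW.ev_of (P := fun c _ => c 3 = c 4) (Eventually.of_forall fun m => by
        obtain ⟨-, -, -, x3, x4, -⟩ :=
          base_slots (θ 0) (θ 1) w0 sa sb v0 lam0 z.1 z.2 (u m)
        exact x3.trans x4.symm) hk')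
      (hW.ev_of (P := fun c _ => c 5 = c 6) (Eventually.of_forall fun m => by
        obtain ⟨-, -, -, -, -, x5, x6, -⟩ :=
          base_slots (θ 0) (θ 1) w0 sa sb v0 lam0 z.1 z.2 (u m)
        exact x5.trans x6.symm) hk')
      (hW.ev_of (P := fun c _ => c 7 = c 8) (Eventually.of_forall fun m => by
        obtain ⟨-, -, -, -, -, -, -, x7, x8, -⟩ :=
          base_slots (θ 0) (θ 1) w0 sa sb v0 lam0 z.1 z.2 (u m)
        exact x7.trans x8.symm) hk')).near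
  · exact hW.ev_of (P := fun c _ => c 3 = c 4) (Eventually.of_forall fun m => by
        obtain ⟨-, -, -, x3, x4, -⟩ :=
          base_slots (θ 0) (θ 1) w0 sa sb v0 lam0 z.1 z.2 (u m)
        exact x3.trans x4.symm) hk'
  · exact hW.ev_of (P := fun c _ => c 5 = c 6) (Eventually.of_forall fun m => by
        obtain ⟨-, -, -, -, -, x5, x6, -⟩ :=
          base_slots (θ 0) (θ 1) w0 sa sb v0 lam0 z.1 z.2 (u m)
        exact x5.trans x6.symm) hk'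

end ctx

end Crest.Agent.R116.A1T79
end

-- ▼ part R116/A1q_194
section

/-!
# R116, row U (helper194): the binder A1 (79's `nsTc_sig`, `dim_sig`, `thin_*` into 863's `a1_thin`)
-/

set_option autoImplicit false
set_option linter.unusedVariables false

open Set Filter Topology MeasureTheory

namespace Crest.Agent.R116.RowU194

open Crest.Agent.R138.Ex926 (Base U IsTan)
open Crest.Agent.R136
open Crest.Agent.R136.MkA627
open Crest.Agent.R136.TD627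
open Crest.Agent.R136.Net191
open Crest.Agent.R136.Lq196
open Crest.Agent.R116.ChL222
open Crest.Agent.R116.PL504 (nb rL DN βL eL oL Shift)
open Crest.Agent.R116.Xd954 (FlagX cs xs bb)
open Crest.Agent.R116.Sg337 (bx9)
open Crest.Agent.R116.Gd222 (TSet sN PDL DT gam gam_pos vb)
open Crest.Agent.R116.KTop387 (NumL RowU)
open Crest.Agent.R116.Rcx363 (fo)
open Crest.Agent.R116.RowU188 (SigB)
open Crest.Agent.R116.WinG954 (leg_LMd)
open Crest.Agent.R136.NSt107 (NsW)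
open Crest.Agent.R116.A1T79
open Crest.Agent.R116.Nar863 (a1_thin Axis DimC WinD)
open Dg219 (Walls mw OutS gC dhC nC)
open Sg635 (xS aS bS L_eq LMd mem_bx)

/-- **79's A1 over the context** -/
theorem a1B {η : ℝ} : A1B η := by
  intro G L r g s θ q Rg B I lev A f b vm w fr fl sc w0 sa sb δ R I0 I' ν own c₀ h hN hs hR0 hR1
    hRg hinv v0 lam0 z u k lam A' φ rr S h1 hz
  classical
  have hθ := hN.θa
  have hab' := abs_nonneg (θ 1)
  have ha : θ 0 ≠ 0 := hθ.ne'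
  have hb : θ 1 ≠ 0 := by rw [h1]; exact ha
  obtain ⟨a, b', hX⟩ := h.fX
  have hXI := hX I (fun n => Finset.Subset.refl _)
  have hab := (hXI 0).ab
  have hout : OutS (gC aS (bS (θ 0) (θ 1))) LMd (dhC aS (bS (θ 0) (θ 1)))
      (nC aS (bS (θ 0) (θ 1))) (lam 0) A' φ rr := by
    have := S.out
    rwa [L_eq S.hl0] at this
  have htan : IsTan (Leg monL R) LMd ν (xB (θ 0) (θ 1) w0 sa sb v0 lam0 z u)
      (fun m => u m * k m) (lam 0) := by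
    have := S.tan 0
    rwa [L_eq S.hl0] at this
  have h0 : (0 : Fin 12 → ℝ) ∈ LMd := by
    rw [← A1T79.bx9_zero, mem_bx]
    norm_num
  have hns : WinD (fun W => NsW W (cs a) 10 (gam q) 1) B I0 I'
      (PL504.coN B lev w w0 sa sb fl) 2 LMd ν (lam 0) (xB (θ 0) (θ 1) w0 sa sb v0 lam0 z u)
      (fun m => u m * k m) 1 := by
    obtain ⟨kk, hk, hkk⟩ := nsTc_sig h hN.qa hN.qb (sC := cs a) (by fin_cases a <;> simp [cs])
      (Nar192.hax_of hab (hXI 0).bd (hXI 0).big) hθ (by linarith) (by linarith) S rfl one_pos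
    exact ⟨kk, hk, fun k' hk' hle W w => (hkk k' hk' hle W _ _ _ _ _ w).2⟩
  have hdim : WinD (fun W => DimC W (cs a) (xs a) (cs b') (xs b') 1) B I0 I'
      (PL504.coN B lev w w0 sa sb fl) 2 LMd ν (lam 0) (xB (θ 0) (θ 1) w0 sa sb v0 lam0 z u)
      (fun m => u m * k m) 1 := by
    refine ⟨fun n => n, tendsto_id.mono_left Crest.Agent.R138.Ex926.U_le_atTop,
      fun k' hk' hle W w => ?_⟩
    filter_upwards [dim_sig h hθ S hXI hk' w 1] with n hn x hx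
    obtain ⟨κ, k1, k2⟩ := hn
    exact ⟨κ, k1, fun y hy => k2 x hx y hy⟩
  have hAx : Axis (cs a) (xs a) (cs b') (xs b') := by
    unfold Axis
    fin_cases a <;> fin_cases b'
    · exact absurd rfl hab
    · left; exact ⟨rfl, rfl, rfl, rfl⟩
    · right; exact ⟨rfl, rfl, rfl, rfl⟩
    · exact absurd rfl hab
  have nat := fun (m : ℕ) (i : Fin 12) (hi : i ≠ 1) =>
    xB_nat (w0 := w0) (sa := sa) (sb := sb) (θa := θ 0) (θb := θ 1) (v0 := v0) (lam0 := lam0)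
      (z := z) (u := u) m i hi
  have key := a1_thin (RowU388.nprof_T h) (fun n => Sd369.coc_N B lev w w0 sa sb fl n) S.hpos htan
    one_pos (leg_LMd 1) (σ := 1 - s) (by linarith) (by linarith [hN.s0])
    (by rw [thin_dens ha hb hout zero_le_one]; exact (add_comm _ _).le)
    (out_frost hout h0 S.own) (fun _ => ((0 : ℕ), (0 : ℝ)))
    (fun l => by
      rw [nat l 5 (by decide), nat l 0 (by decide), nat l 3 (by decide)]; rfl)
    (fun l => by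
      rw [nat l 6 (by decide), nat l 0 (by decide), nat l 4 (by decide)]; rfl)
    (fun l => by
      rw [nat l 11 (by decide), nat l 0 (by decide), nat l 10 (by decide)]; rfl)
    (fun k e he h1 => S.hxD k e he h1 1) hAx hdim (gam_pos hN.qa hN.qb) hns one_pos le_rfl
    (thin_zero ha hb hout one_pos (hz 1 one_pos)).le
    (fun c hc _ => thin_prod ha h1 hout one_pos one_pos le_rfl hc)
  linarith


end Crest.Agent.R116.RowU194
end

-- ▼ part R116/RowU11_188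
section

/-!
# R116, row U (helper188), part 11

* **`rowU_of5`** : row U from D0 for `2 θa - θb < 1`.
-/

set_option autoImplicit false
set_option linter.unusedVariables false

namespace Crest.Agent.R116.RowU188

open Crest.Agent.R116.KTop387 (RowU)
open Crest.Agent.R116.KTie794 (D0T D0E)

theorem rowU_of5 {η : ℝ} (hη : η < 1) (h2 : D0T η fun s θ => s < 1 / 2 ∧ 2 * θ 0 - θ 1 < 1) :
    RowU η :=
  rowU_of4 hη h2 (D0z899.d0zero hη.le) RowU194.a1B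

end Crest.Agent.R116.RowU188
end

-- ▼ part R116/RowUz_188

/-!
# R116, row U (helper188): **the untied thin row is proved**

* **`rowU`**
-/

set_option autoImplicit false
set_option linter.unusedVariables false

namespace Crest.Agent.R116.RowU188

open Crest.Agent.R116.KTop387 (RowU)

/-- **ROW U** -/
theorem rowU : ∃ η : ℝ, 0 < η ∧ RowU η :=
  ⟨1 / 4, by norm_num, rowU_of5 (by norm_num) (D0y219.D0neg (by norm_num))⟩

end Crest.Agent.R116.RowU188
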