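import Crest.Agent.R116.DeG2_295
import Crest.Agent.R116.F1c2_124
import Crest.Agent.R116.DeDef_295
import Crest.Agent.R116.Tr1_126

-- ▼ part R116/Dc1_295
section

/-!
# R116 (S0155), wave side, DECc, part 3: greedy data with classes, labels (helper295)

Port of `Wpk13_685` (R138).
-/

set_option autoImplicit false
set_option linter.unusedSectionVars false
set_option linter.unusedVariables false

open MeasureTheory FourierTransform
open scoped ContDiff ENNReal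

namespace Crest.Agent.R116.De295

open Crest.Agent.R138.Defs (E2 ee)
open Crest.Agent.R138.Wpk685 (cen caps sg sg_ge sg_mono sg_le_one exists_side rp_facts levelsM
  X_antiM A_uniqM X_partM k1 k2 k1_pair k2_pair k_self LamC mem_LamC lab la0 la1 lj la0_lab la1_lab
  lj_lab lab_self mem_Lam)
open Crest.Agent.R116.CDef480
open Crest.Agent.R116.WC188
open Crest.Agent.R116.LZg725 (Cf)
open Crest.Agent.R116.Bas367 (Bsc)

/-! ### greedy data -/

/-- phase box as a subset of phase space. -/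
def PB3 (κ r : ℝ) (p : Ts) : Set Ph3 := {w | w.2 ∈ pbt κ r p w.1}

theorem PB3_meas (κ r : ℝ) (p : Ts) : MeasurableSet (PB3 κ r p) :=
  meas_of_sli3 fun m => pbx_meas _ _ _ _ _ _ _ _ m

/-- test set of a pair (member, class). -/
def TC (κ r : ℝ) (cls : Cf E2 → ℤ × ℤ → E3 → ℕ) (p : Ts × ℕ) : Set Ph3 :=
  PB3 κ r p.1 ∩ {w | cls p.1.f w.1 w.2 = p.2}

theorem TC_meas (κ r : ℝ) {cls : Cf E2 → ℤ × ℤ → E3 → ℕ} (hc : ∀ f m, Measurable (cls f m))
    (p : Ts × ℕ) : MeasurableSet (TC κ r cls p) :=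
  (PB3_meas κ r p.1).inter (meas_of_sli3 fun m => hc p.1.f m (measurableSet_singleton _))

theorem rpq3 {r : ℝ} (hr : 1 ≤ r) (q : ℝ) : (r ^ (-(1/2) : ℝ)) ^ q * r ^ (q / 2) = 1 := by
  have hr0 : 0 < r := by linarith
  rw [← Real.rpow_mul hr0.le, ← Real.rpow_add hr0]
  have : -(1/2) * q + q / 2 = 0 := by ring
  rw [this, Real.rpow_zero]

/-- default test set. -/
noncomputable def ts0 : Ts := ⟨0, 0, ⟨0, 0, 0, 0, 0⟩, 0, 0⟩

theorem greedy3 {M κ q r : ℝ} (hq : 0 ≤ q) (hr : 1 ≤ r) {g : E3 → ℂ} (n nb : ℕ)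
    {cls : Cf E2 → ℤ × ℤ → E3 → ℕ} (hc : ∀ f m, Measurable (cls f m))
    {X0 : Set Ph3} (hX0 : MeasurableSet X0) {E0 : ℝ} (hE0 : 0 ≤ E0)
    (H0 : mu3 (r ^ (-(1/2) : ℝ)) g X0 ≤ ENNReal.ofReal E0) :
    ∃ (X : ℕ → Set Ph3) (nn : ℕ → ℕ) (P : ℕ → ℕ → Ts) (ka : ℕ → ℕ → ℕ) (A : ℕ → ℕ → Set Ph3),
      X 0 = X0 ∧ (∀ j, MeasurableSet (X j)) ∧
      (∀ j, ∀ i < nn j, MeasurableSet (A j i) ∧ A j i ⊆ X j ∧ OkT M κ r n (P j i) ∧
        ka j i < nb ∧ A j i ⊆ TC κ r cls (P j i, ka j i) ∧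
        ENNReal.ofReal (E0 * r ^ (q / 2) / 2 ^ (j + 1) * cs3 q κ r (P j i).a0 (P j i).a1) <
          mu3 (r ^ (-(1/2) : ℝ)) g (A j i)) ∧
      (∀ j, ∀ i < nn j, ∀ i' < nn j, i ≠ i' → Disjoint (A j i) (A j i')) ∧
      (∀ j, ∀ x, x ∈ X (j + 1) ↔ x ∈ X j ∧ ∀ i < nn j, x ∉ A j i) ∧
      ∀ j, ∀ p : Ts, OkT M κ r n p → ∀ β < nb,
        mu3 (r ^ (-(1/2) : ℝ)) g (X j ∩ TC κ r cls (p, β)) ≤
          ENNReal.ofReal (E0 * r ^ (q / 2) / 2 ^ j * cs3 q κ r p.a0 p.a1) := by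
  classical
  obtain ⟨hρ, hρ1, hρ2⟩ := rp_facts hr
  have hr0 : 0 < r := by linarith
  have hqr := rpq3 hr q
  have hcg := cs3_ge (κ := κ) hq hr
  set ρ : ℝ := r ^ (-(1/2) : ℝ) with hρdef
  have hρq : 0 < ρ ^ q := Real.rpow_pos_of_pos hρ _
  have hrq : 0 < r ^ (q / 2) := Real.rpow_pos_of_pos hr0 _
  obtain ⟨X, nn, P, A, hXz, H⟩ := levelsM (mu3 ρ g) (TC κ r cls) (TC_meas κ r hc)
    (fun j p => if OkT M κ r n p.1 ∧ p.2 < nb then
      ENNReal.ofReal (E0 * r ^ (q / 2) / 2 ^ (j + 1) * cs3 q κ r p.1.a0 p.1.a1) else ⊤)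
    (fun j => ENNReal.ofReal (E0 / 2 ^ (j + 1))) (fun j => ENNReal.ofReal_ne_top) (by
      intro j p
      split_ifs
      · refine ENNReal.ofReal_le_ofReal ?_
        calc E0 / 2 ^ (j + 1) = E0 / 2 ^ (j + 1) * (ρ ^ q * r ^ (q / 2)) := by rw [hqr, mul_one]
          _ = E0 * r ^ (q / 2) / 2 ^ (j + 1) * ρ ^ q := by ring
          _ ≤ _ := by
            have := hcg p.1.a0 p.1.a1
            gcongr
      · exact le_top) X0 hX0 (fun j => 2 ^ (j + 1)) (by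
      intro j
      refine H0.trans ?_
      have h1 : ((2 ^ (j + 1) : ℕ) : ℝ≥0∞) = ENNReal.ofReal (2 ^ (j + 1)) := by
        rw [ENNReal.ofReal_pow (by norm_num), ENNReal.ofReal_ofNat]
        push_cast
        rfl
      rw [h1, ← ENNReal.ofReal_mul (by positivity)]
      refine ENNReal.ofReal_le_ofReal (le_of_eq ?_)
      field_simp)
  refine ⟨X, nn, fun j i => ((P j i).getD (ts0, 0)).1, fun j i => ((P j i).getD (ts0, 0)).2, A,
    hXz, fun j => (H j).1, ?_, fun j => (H j).2.2.1, fun j => (H j).2.2.2.1, ?_⟩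
  · intro j i hi
    obtain ⟨h0, h1, p, hp, h2, h3⟩ := (H j).2.1 i hi
    simp only [hp, Option.getD_some]
    by_cases hc : OkT M κ r n p.1 ∧ p.2 < nb
    · simp only [if_pos hc] at h3
      exact ⟨h0, h1, hc.1, hc.2, h2, h3⟩
    · simp only [if_neg hc] at h3
      exact absurd h3 not_top_lt
  · intro j
    rcases j with _ | j
    · intro p _ β _
      rw [hXz, pow_zero, div_one]
      refine (measure_mono Set.inter_subset_left).trans (H0.trans (ENNReal.ofReal_le_ofReal ?_))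
      calc E0 = E0 * (ρ ^ q * r ^ (q / 2)) := by rw [hqr, mul_one]
        _ = E0 * r ^ (q / 2) * ρ ^ q := by ring
        _ ≤ _ := by
          have := hcg p.a0 p.a1
          gcongr
    · intro p h1 β hβ
      have h3 := (H j).2.2.2.2 (p, β)
      simp only [if_pos (And.intro h1 hβ)] at h3
      exact h3

theorem de_of3 {M κ q r : ℝ} (hq : 0 ≤ q) (hr : 1 ≤ r) {g : E3 → ℂ} {n nb : ℕ}
    {cls : Cf E2 → ℤ × ℤ → E3 → ℕ}
    (hcb : ∀ f m y, cls f m y < nb) {X : Set Ph3} (hX : MeasurableSet X) {Δ : ℝ} (hΔ : 0 ≤ Δ)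
    (H : ∀ p : Ts, OkT M κ r n p → ∀ β < nb,
        mu3 (r ^ (-(1/2) : ℝ)) g (X ∩ TC κ r cls (p, β)) ≤
          ENNReal.ofReal (Δ * cs3 q κ r p.a0 p.a1)) :
    DE3 M κ q r g n (sli3 X) (nb * Δ) := by
  classical
  obtain ⟨hρ, hρ1, hρ2⟩ := rp_facts hr
  have hr0 : 0 < r := by linarith
  intro p h1
  have e1 : (fun m => sli3 X m ∩ pbt κ r p m) = sli3 (X ∩ PB3 κ r p) := rfl
  rw [e1, ← mu3_apply _ _ (hX.inter (PB3_meas κ r p))]
  have h3 : X ∩ PB3 κ r p ⊆ ⋃ β ∈ Finset.range nb, X ∩ TC κ r cls (p, β) := by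
    intro w hw
    refine Set.mem_biUnion (Finset.mem_coe.2 (Finset.mem_range.2 (hcb p.f w.1 w.2))) ?_
    exact ⟨hw.1, hw.2, rfl⟩
  refine (measure_mono h3).trans ((measure_biUnion_finset_le _ _).trans ?_)
  refine (Finset.sum_le_sum fun β hβ => H p h1 β (Finset.mem_range.1 hβ)).trans ?_
  have hc : 0 < cs3 q κ r p.a0 p.a1 := cs3_pos hr _ _
  rw [Finset.sum_const, Finset.card_range, nsmul_eq_mul, ← ENNReal.ofReal_natCast,
    ← ENNReal.ofReal_mul (by positivity), mul_assoc]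

/-! ### labels -/

section labM

variable (nn : ℕ → ℕ) (P : ℕ → ℕ → Ts) (ka : ℕ → ℕ → ℕ) (A : ℕ → ℕ → Set Ph3)

/-- plates of a label. -/
def II3 (k : ℕ) : Finset ℕ :=
  (Finset.range (nn (lj (k1 k)))).filter (fun i => (P (lj (k1 k)) i).a0 = la0 (k1 k) ∧
    (P (lj (k1 k)) i).a1 = la1 (k1 k) ∧ ka (lj (k1 k)) i = k2 k)

/-- phase points of a label. -/
def XX3 (k : ℕ) : Set Ph3 := ⋃ i ∈ II3 nn P ka k, A (lj (k1 k)) i

variable {nn P ka A}

theorem mem_II3 {k i : ℕ} : i ∈ II3 nn P ka k ↔ i < nn (lj (k1 k)) ∧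
    (P (lj (k1 k)) i).a0 = la0 (k1 k) ∧ (P (lj (k1 k)) i).a1 = la1 (k1 k) ∧
    ka (lj (k1 k)) i = k2 k := by
  unfold II3
  rw [Finset.mem_filter, Finset.mem_range]

theorem mem_XX3 {k : ℕ} {x : Ph3} :
    x ∈ XX3 nn P ka A k ↔ ∃ i ∈ II3 nn P ka k, x ∈ A (lj (k1 k)) i := by
  unfold XX3
  simp only [Set.mem_iUnion, exists_prop]

variable {X : ℕ → Set Ph3}
  (hA : ∀ j, ∀ i < nn j, A j i ⊆ X j)
  (hd : ∀ j, ∀ i < nn j, ∀ i' < nn j, i ≠ i' → Disjoint (A j i) (A j i'))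
  (hX : ∀ j, ∀ x, x ∈ X (j + 1) ↔ x ∈ X j ∧ ∀ i < nn j, x ∉ A j i)

include hA in
theorem XX3_sub (k : ℕ) : XX3 nn P ka A k ⊆ X (lj (k1 k)) := by
  intro x hx
  obtain ⟨i, hi, h4⟩ := mem_XX3.1 hx
  exact hA _ i (mem_II3.1 hi).1 h4

include hA hd hX in
theorem XX3_disj {k k' : ℕ} (hne : k ≠ k') :
    Disjoint (XX3 nn P ka A k) (XX3 nn P ka A k') := by
  rw [Set.disjoint_left]
  intro x hx hx'
  obtain ⟨i, h, h4⟩ := mem_XX3.1 hx
  obtain ⟨i', h', h4'⟩ := mem_XX3.1 hx'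
  obtain ⟨h1, h2, h3, h5⟩ := mem_II3.1 h
  obtain ⟨h1', h2', h3', h5'⟩ := mem_II3.1 h'
  obtain ⟨e1, e2⟩ := A_uniqM hA hd hX h1 h1' h4 h4'
  apply hne
  rw [← k_self k, ← k_self k']
  have e3 : k1 k = k1 k' := by
    rw [← lab_self (k1 k), ← lab_self (k1 k'), ← h2, ← h3, ← h2', ← h3', ← e2, ← e1]
  have e4 : k2 k = k2 k' := by
    rw [← h5, ← h5', ← e2, ← e1]
  rw [e3, e4]

include hA hX in
theorem XX3_union {n J nb : ℕ} (hP : ∀ j, ∀ i < nn j, (P j i).a0 ≤ (P j i).a1 ∧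
    (P j i).a1 ≤ n ∧ ka j i < nb)
    (x : Ph3) : x ∈ X 0 \ X J ↔ ∃ k ∈ LamC n J nb, x ∈ XX3 nn P ka A k := by
  rw [Set.mem_sdiff, X_partM hA hX J]
  constructor
  · rintro ⟨h1 | ⟨j, hj, i, hi, h1⟩, h2⟩
    · exact absurd h1 h2
    · refine ⟨Nat.pair (lab ((P j i).a0) ((P j i).a1) j) (ka j i), ?_, ?_⟩
      · rw [mem_LamC, k1_pair, k2_pair, mem_Lam, la0_lab, la1_lab, lj_lab]
        exact ⟨⟨(hP j i hi).1, (hP j i hi).2.1, hj⟩, (hP j i hi).2.2⟩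
      · rw [mem_XX3]
        refine ⟨i, ?_, ?_⟩
        · rw [mem_II3, k1_pair, k2_pair, la0_lab, la1_lab, lj_lab]
          exact ⟨hi, rfl, rfl, rfl⟩
        · rw [k1_pair, lj_lab]
          exact h1
  · rintro ⟨k, hk, hx⟩
    obtain ⟨i, hi, h4⟩ := mem_XX3.1 hx
    rw [mem_LamC, mem_Lam] at hk
    have h1 := (mem_II3.1 hi).1
    refine ⟨Or.inr ⟨lj (k1 k), hk.1.2.2, i, h1, h4⟩, fun h5 => ?_⟩
    have h6 := X_antiM hX (Nat.succ_le_of_lt hk.1.2.2) h5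
    exact ((hX (lj (k1 k)) x).1 h6).2 i h1 h4

end labM

/-! ### the inequality (D6) for one plate -/

theorem d6_3 {q s2 r V Δ : ℝ} {e : ℝ≥0∞} (hs2 : 0 < s2) (hV : 0 < V) (hr : 0 < r)
    (hΔ : 0 ≤ Δ) (het : e ≠ ⊤)
    (he : ENNReal.ofReal (Δ / 2 * (s2 ^ q * V)) ≤ e) :
    ENNReal.ofReal (Real.sqrt Δ * r) * e ≤ ENNReal.ofReal (Real.sqrt 2) *
      (ENNReal.ofReal (s2 ^ (-q / 2)) * (ENNReal.ofReal ((r * V) ^ (-(1/2) : ℝ)) *
        (ENNReal.ofReal r * e) ^ (3 / 2 : ℝ))) := by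
  have e1 : V / (s2 * r ^ 2) * s2 * r ^ 2 = V := by field_simp
  have e2 : V / (s2 * r ^ 2) * s2 * r ^ 3 = r * V := by field_simp
  have h := Crest.Agent.R138.Wpk685.d6_enn (q := q) (s1 := V / (s2 * r ^ 2)) (s2 := s2) (r := r)
    (Δ := Δ) (e := e) (by positivity) hs2 hr hΔ het (by rw [e1]; exact he)
  rw [e2] at h
  exact h

end Crest.Agent.R116.De295
end

-- ▼ part R116/Dc2_295
section

/-!
# R116 (S0155), wave side, DECc, part 4: the decomposition from its inputs (helper295)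

Port of `Wpk14_685` (R138).
-/

set_option autoImplicit false
set_option linter.unusedSectionVars false
set_option linter.unusedVariables false

open MeasureTheory FourierTransform
open scoped ContDiff ENNReal

namespace Crest.Agent.R116.De295

open Crest.Agent.R138.Defs (E2 ee)
open Crest.Agent.R138.Wpk685 (cen caps sg sg_ge sg_mono sg_le_one exists_side rp_facts levelsM
  X_antiM A_uniqM X_partM k1 k2 k1_pair k2_pair k_self LamC mem_LamC lab la0 la1 lj la0_lab la1_lab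
  lj_lab lab_self mem_Lam Lam card_LamC two_pow_logb)
open Crest.Agent.R116.CDef480
open Crest.Agent.R116.WC188
open Crest.Agent.R116.LZg725 (Cf)
open Crest.Agent.R116.Bas367 (Bsc Gd)

/-! ### elementary facts -/

theorem lintEnc {f : E3 → ℂ} (hf : MemLp f 2) : ∫⁻ ξ, ‖f ξ‖ₑ ^ 2 = ENNReal.ofReal (Enc f) := by
  unfold Enc
  rw [ofReal_integral_eq_lintegral_ofReal hf.norm.integrable_sq
    (Filter.Eventually.of_forall fun _ => by positivity)]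
  refine lintegral_congr fun ξ => ?_
  rw [ENNReal.ofReal_pow (norm_nonneg _), ofReal_norm]

theorem Enc_nn (g : E3 → ℂ) : 0 ≤ Enc g := integral_nonneg fun _ => by positivity

theorem Enc_sub_le {f g : E3 → ℂ} (hf : MemLp f 2) (hg : MemLp g 2) :
    Enc (fun ξ => f ξ - g ξ) ≤ 2 * Enc f + 2 * Enc g := by
  unfold Enc
  rw [← integral_const_mul, ← integral_const_mul, ← integral_add]
  · refine integral_mono_of_nonneg (Filter.Eventually.of_forall fun _ => by positivity) ?_ ?_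
    · exact (hf.norm.integrable_sq.const_mul 2).add (hg.norm.integrable_sq.const_mul 2)
    · refine Filter.Eventually.of_forall fun ξ => ?_
      have h1 := norm_sub_le (f ξ) (g ξ)
      have h2 := norm_nonneg (f ξ - g ξ)
      simp only
      nlinarith [sq_nonneg (‖f ξ‖ - ‖g ξ‖)]
  · exact hf.norm.integrable_sq.const_mul 2
  · exact hg.norm.integrable_sq.const_mul 2

theorem lint_sq_le3 {f g : E3 → ℝ≥0∞} (hf : AEMeasurable f) (hg : AEMeasurable g) :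
    (∫⁻ y, f y * g y) ^ 2 ≤ (∫⁻ y, g y) * ∫⁻ y, f y ^ 2 * g y := by
  have h1 : ∀ y, f y * g y = (fun y => g y ^ (1 / 2 : ℝ)) y * (fun y => f y * g y ^ (1 / 2 : ℝ)) y := by
    intro y
    simp only
    have : g y ^ (1 / 2 : ℝ) * g y ^ (1 / 2 : ℝ) = g y := by
      rw [← ENNReal.rpow_add_of_nonneg _ _ (by norm_num) (by norm_num)]
      norm_num
    calc f y * g y = f y * (g y ^ (1 / 2 : ℝ) * g y ^ (1 / 2 : ℝ)) := by rw [this]
      _ = _ := by ring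
  have h2 := ENNReal.lintegral_mul_le_Lp_mul_Lq volume (Real.HolderConjugate.two_two)
    (f := fun y => g y ^ (1 / 2 : ℝ)) (g := fun y => f y * g y ^ (1 / 2 : ℝ))
    (hg.pow_const _) (hf.mul (hg.pow_const _))
  have h3 : ∀ y, (g y ^ (1 / 2 : ℝ)) ^ (2:ℝ) = g y := by
    intro y
    rw [← ENNReal.rpow_mul]; norm_num
  have h4 : ∀ y, (f y * g y ^ (1 / 2 : ℝ)) ^ (2:ℝ) = f y ^ 2 * g y := by
    intro y
    rw [ENNReal.mul_rpow_of_nonneg _ _ (by norm_num), h3]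
    norm_num
  simp only [h3, h4] at h2
  have h5 : ∫⁻ y, f y * g y ≤ (∫⁻ y, g y) ^ (1 / 2 : ℝ) * (∫⁻ y, f y ^ 2 * g y) ^ (1 / 2 : ℝ) := by
    refine le_trans (le_of_eq (lintegral_congr h1)) h2
  calc (∫⁻ y, f y * g y) ^ 2 ≤
      ((∫⁻ y, g y) ^ (1 / 2 : ℝ) * (∫⁻ y, f y ^ 2 * g y) ^ (1 / 2 : ℝ)) ^ 2 :=
        pow_le_pow_left₀ zero_le h5 2
    _ = _ := by
        rw [mul_pow, ← ENNReal.rpow_natCast, ← ENNReal.rpow_natCast, ← ENNReal.rpow_mul,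
          ← ENNReal.rpow_mul]
        norm_num

/-- pointwise bound of all coefficients by the energy, compact supports. -/
theorem umc_sup (L : ℝ) : ∃ C : ℝ, 0 ≤ C ∧ ∀ F : E3 → ℂ, Integrable F → MemLp F 2 →
    (∀ ξ, L < ‖ξ‖ → F ξ = 0) → ∀ (ρ : ℝ) (z : E3 × ℝ) (m : ℤ × ℤ) (y : E3),
      ‖umc ρ (trc z F) m y‖ ≤ C * Real.sqrt (Enc F) := by
  set V : ℝ≥0∞ := volume (Metric.closedBall (0 : E3) L) with hV
  have hVt : V ≠ ⊤ := measure_closedBall_lt_top.ne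
  refine ⟨Real.sqrt V.toReal, by positivity, ?_⟩
  intro F hFi hF hs ρ z m y
  rw [← Real.sqrt_mul ENNReal.toReal_nonneg]
  refine Crest.Agent.R138.Wpk685.norm_le_of_enorm_sq
    (mul_nonneg ENNReal.toReal_nonneg (Enc_nn F)) ?_
  rw [ENNReal.ofReal_mul ENNReal.toReal_nonneg, ENNReal.ofReal_toReal hVt, ← lintEnc hF]
  have h1 : ‖umc ρ (trc z F) m y‖ₑ ≤ ∫⁻ ξ, ‖F ξ‖ₑ * (Metric.closedBall (0 : E3) L).indicator 1 ξ := by
    have h0 := Bas367.umc_bound (Bas367.trc_int hFi z) ρ m y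
    simp only [Bas367.norm_trc] at h0
    rw [← ofReal_norm]
    refine (ENNReal.ofReal_le_ofReal h0).trans ?_
    rw [ofReal_integral_eq_lintegral_ofReal hFi.norm
      (Filter.Eventually.of_forall fun _ => norm_nonneg _)]
    refine lintegral_mono fun ξ => ?_
    simp only
    rw [ofReal_norm]
    by_cases hξ : ξ ∈ Metric.closedBall (0 : E3) L
    · rw [Set.indicator_of_mem hξ, Pi.one_apply, mul_one]
    · rw [hs ξ (by rw [Metric.mem_closedBall, dist_zero_right] at hξ; exact not_le.1 hξ)]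
      simp
  have hm : Measurable ((Metric.closedBall (0 : E3) L).indicator (1 : E3 → ℝ≥0∞)) :=
    measurable_one.indicator Metric.isClosed_closedBall.measurableSet
  refine (pow_le_pow_left₀ zero_le h1 2).trans ?_
  refine (lint_sq_le3 hF.1.enorm hm.aemeasurable).trans ?_
  rw [lintegral_indicator_one Metric.isClosed_closedBall.measurableSet]
  refine mul_le_mul_right ?_ _
  refine lintegral_mono fun ξ => ?_
  calc ‖F ξ‖ₑ ^ 2 * (Metric.closedBall (0 : E3) L).indicator 1 ξ ≤ ‖F ξ‖ₑ ^ 2 * 1 := by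
        gcongr
        exact Set.indicator_le_self' (fun _ _ => zero_le) ξ
    _ = _ := mul_one _

theorem PBx_mono {M κ q r : ℝ} {g : E3 → ℂ} {D D' : ℝ} (hr : 1 ≤ r) (h : PBx M κ q r g D)
    (hD : D ≤ D') : PBx M κ q r g D' := by
  intro c X0 f s1 s2 hsd hadm
  obtain ⟨hρ, _, _⟩ := rp_facts hr
  have hs1 : 0 < s1 := hρ.trans_le hsd.lo
  have hs2 : 0 < s2 := hs1.trans_le hsd.le
  have hV := scost_pos (κ := κ) hs1 hs2 (by linarith : 0 < r)
  refine (h c X0 f s1 s2 hsd hadm).trans (ENNReal.ofReal_le_ofReal ?_)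
  gcongr

theorem Dsc_mono {M κ q r : ℝ} {g : E3 → ℂ} {S S' : ℤ × ℤ → Set E3} {D D' : ℝ} (hr : 1 ≤ r)
    (h : Dsc M κ q r g S D) (hS : ∀ m ∈ caps (r ^ (-(1/2) : ℝ)), S' m ⊆ S m) (hD : D ≤ D') :
    Dsc M κ q r g S' D' := by
  intro c X0 f s1 s2 hsd hadm
  obtain ⟨hρ, _, _⟩ := rp_facts hr
  have hs1 : 0 < s1 := hρ.trans_le hsd.lo
  have hs2 : 0 < s2 := hs1.trans_le hsd.le
  have hV := scost_pos (κ := κ) hs1 hs2 (by linarith : 0 < r)
  refine ((Bas367.enc_mono g fun m hm => Set.inter_subset_inter_left _ (hS m hm)).trans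
    (h c X0 f s1 s2 hsd hadm)).trans (ENNReal.ofReal_le_ofReal ?_)
  gcongr

theorem Dsc_anti {M M' κ q r : ℝ} {g : E3 → ℂ} {S : ℤ × ℤ → Set E3} {D : ℝ} (hr : 1 ≤ r)
    (hκ : 0 < κ) (hM : M ≤ M') (h : Dsc M' κ q r g S D) : Dsc M κ q r g S D := by
  intro c X0 f s1 s2 hsd hadm
  obtain ⟨hρ, _, _⟩ := rp_facts hr
  have hs1 : 0 < s1 := hρ.trans_le hsd.lo
  have hs2 : 0 < s2 := hs1.trans_le hsd.le
  have hT := TT_pos (κ := κ) (r := r) hs2
  exact h c X0 f s1 s2 hsd (adm_mono hadm hM hκ hs1 hs2 hT (by linarith))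

theorem St.fg {M κ q a b M0 η0 : ℝ} {C0 : E2} {σ : ℝ} {g : E3 → ℂ} {R D : ℝ}
    (h : Ss M κ q a b M0 η0 C0 σ g R D) : Fg a b η0 κ g :=
  ⟨h.meas, h.bdd, fun ζ hζ => ⟨(h.supp ζ hζ).1, (h.supp ζ hζ).2.1, (h.supp ζ hζ).2.2.1⟩, h.slc⟩

theorem Fg.trc {a b η0 κ : ℝ} {g : E3 → ℂ} (h : Fg a b η0 κ g) (z : E3 × ℝ) :
    Fg a b η0 κ (CDef480.trc z g) := by
  obtain ⟨L, hL⟩ := h.bdd
  refine ⟨?_, ⟨L, fun ζ => by rw [Bas367.norm_trc]; exact hL ζ⟩,
    fun ζ hζ => h.supp ζ (Bas367.trc_ne.1 hζ), Bas367.trc_slc h.slc z⟩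
  rw [Bas367.trc_eq]
  exact (Bas367.measurable_phase z).mul h.meas

theorem Fg.gd {a b η0 κ : ℝ} {g : E3 → ℂ} (ha : 1 ≤ a) (h : Fg a b η0 κ g) : Gd g :=
  Bas367.gd_of_supp h.meas h.bdd fun ζ hζ =>
    ⟨(inv_pos.2 (by linarith)).trans_le (h.supp ζ hζ).1, (h.supp ζ hζ).2.1, (h.supp ζ hζ).2.2⟩

theorem Bas367_lat (y : E3) : ‖lat y‖ ≤ ‖y‖ := by
  have h3 := normsq3 y
  have h4 : ‖lat y‖ ^ 2 ≤ ‖y‖ ^ 2 := by nlinarith [sq_nonneg (y 2)]
  exact (sq_le_sq₀ (norm_nonneg _) (norm_nonneg _)).1 h4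

end Crest.Agent.R116.De295
end

-- ▼ part R116/Dc3_295
section

/-!
# R116 (S0155), wave side, DECc, part 5: assembly of the decomposition (helper295)

Port of `Wpk14_685` (R138): `decc_of`.
-/

set_option autoImplicit false
set_option linter.unusedSectionVars false
set_option linter.unusedVariables false

open MeasureTheory FourierTransform
open scoped ContDiff ENNReal

namespace Crest.Agent.R116.De295

open Crest.Agent.R138.Defs (E2 ee)
open Crest.Agent.R138.Wpk685 (cen caps sg sg_ge sg_mono sg_le_one exists_side rp_facts levelsM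
  X_antiM A_uniqM X_partM k1 k2 k1_pair k2_pair k_self LamC mem_LamC lab la0 la1 lj la0_lab la1_lab
  lj_lab lab_self mem_Lam Lam card_LamC two_pow_logb)
open Crest.Agent.R116.CDef480
open Crest.Agent.R116.WC188
open Crest.Agent.R116.LZg725 (Cf)
open Crest.Agent.R116.Bas367 (Bsc Gd)

set_option maxHeartbeats 2000000 in
theorem big3 {M q : ℝ} (hM : 2 ≤ M) (hq : 0 ≤ q) {a b A M0 : ℝ} (ha : 1 ≤ a) (hb : 0 < b)
    (hb2 : b < 2) (hA : 1 ≤ A) {K : ℕ}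
    {C1 C2 C3 C4 C5 C6 Cv K0 : ℝ}
    (hC1 : 0 ≤ C1) (hC2 : 0 ≤ C2) (hC3 : 0 ≤ C3) (hC4 : 0 ≤ C4) (hC5 : 0 ≤ C5) (hC6 : 0 ≤ C6)
    (hCv : 0 ≤ Cv) (hK0 : 1 ≤ K0)
    (H1 : ∀ κ η0 r : ℝ, 0 < κ → 8 * a * κ ≤ 1 → 1 ≤ r → r ^ (-(1/4) : ℝ) ≤ κ →
      ∀ g : E3 → ℂ, Fg a b η0 κ g → ∀ S : ℤ × ℤ → Set E3, Bsc (r ^ (-(1/2) : ℝ)) S →
      ∀ D : ℝ, 0 ≤ D → Dsc M κ q r g S D →
        PBx M κ q r (selc η0 κ (r ^ (-(1/2) : ℝ)) g S) (C1 * D))
    (H2 : ∀ η0 κ ρ : ℝ, 0 < κ → 0 < ρ → ρ ≤ 1 →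
      ∀ g : E3 → ℂ, Integrable g → MemLp g 2 → ∀ S : ℤ × ℤ → Set E3, Bsc ρ S →
        ENNReal.ofReal (Enc (selc η0 κ ρ g S)) ≤ ENNReal.ofReal C2 * enc ρ g S)
    (H3 : ∀ ρ : ℝ, 0 < ρ → ρ ≤ 1 →
      ∀ g : E3 → ℂ, Integrable g → MemLp g 2 → ∀ S : ℤ × ℤ → Set E3,
        enc ρ g S ≤ ENNReal.ofReal (C3 * Enc g))
    (H4 : ∀ κ η0 r : ℝ, 0 < κ → 8 * a * κ ≤ 1 → 1 ≤ r → r ^ (-(1/4) : ℝ) ≤ κ →
      ∀ g : E3 → ℂ, Fg a b η0 κ g → ∀ S : ℤ × ℤ → Set E3, Bsc (r ^ (-(1/2) : ℝ)) S →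
      (∀ m ∈ caps (r ^ (-(1/2) : ℝ)), Metric.closedBall 0 (K0 * r) ⊆ S m) →
      ∀ r', 1 ≤ r' → r' ≤ r → ∀ z' ∈ cylc (A * r), ∀ m, ∀ y : E3, ‖y‖ ≤ A * r →
        ‖umc (r' ^ (-(1/2) : ℝ)) (trc z' (fun ζ => g ζ - selc η0 κ (r ^ (-(1/2) : ℝ)) g S ζ)) m y‖ ≤
          C4 * r ^ (-((2 * K : ℕ) : ℝ)) * Real.sqrt (Enc g))
    (H5 : ∀ κ r : ℝ, 1 ≤ r → 0 < κ → κ ≤ 1 → r ^ (-(1/4) : ℝ) ≤ κ →
      ∀ (g : E3 → ℂ) (S : ℤ × ℤ → Set E3) (D : ℝ), (∀ m, MeasurableSet (S m)) → 0 ≤ D →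
        Dsc 1 κ q r g S D → Dsc M κ q r g S (C5 * D))
    (Hv : ∀ F : E3 → ℂ, Integrable F → MemLp F 2 →
      (∀ ξ, 12 * a < ‖ξ‖ → F ξ = 0) → ∀ (ρ : ℝ) (z : E3 × ℝ) (m : ℤ × ℤ) (y : E3),
      ‖umc ρ (trc z F) m y‖ ≤ Cv * Real.sqrt (Enc F))
    {ε : ℝ} (hε : 0 < ε)
    (H6 : ∀ R : ℝ, 1 ≤ R → ((Lam ⌈Real.logb 2 R⌉₊
      ((2 * K + ⌈q / 2⌉₊ + 3) * ⌈Real.logb 2 R⌉₊)).card : ℝ) ≤ C6 * R ^ ε)
    {N7 Cd Cp : ℝ} (hN7 : N7 = NB3 K0) (hCd : Cd = (C5 + 1) * 2 ^ (q + 4))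
    (hCp : Cp = (C1 + 1) * Cd + C2 * N7)
    {A' : ℝ} (hA' : A' = 2 * K0 + 9)
    {C : ℝ} (hCC6 : C6 ≤ C) (hCC1 : 2 * Cp ≤ C) (hCCe : C2 ≤ C)
    (hCC2 : C2 * Real.sqrt Cp * Real.sqrt 2 ≤ C)
    (hCC3 : 2 + 2 * (C2 * C3) ≤ C)
    (hCC4 : C4 + Cv * Real.sqrt (C2 * (N7 * C3)) ≤ C)
    {R r κ : ℝ} (hR : 1 ≤ R) (hRr : R ^ (1/2 : ℝ) ≤ r) (hrR : r ≤ R) (hb3 : b + 3 * r ^ (-(1/2) : ℝ) ≤ 2)
    (hκ : 0 < κ) (hκa : 8 * a * κ ≤ 1) (hκr : r ^ (-(1/4) : ℝ) ≤ κ)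
    {nb : ℕ} (hnb : 1 ≤ nb) :
    ∃ (Λ : Finset ℕ) (s : ℕ → ℝ × ℝ) (cl : ℕ → ℕ), (Λ.card : ℝ) ≤ C * R ^ ε * nb ∧
    (∀ k ∈ Λ, Sd r (s k).1 (s k).2) ∧ (∀ k ∈ Λ, cl k < nb) ∧
    ∀ η0 C0 σ g D, Ss M κ q a b M0 η0 C0 σ g R D → ∀ z ∈ cylc R,
      ∀ cls : Cf E2 → ℤ × ℤ → E3 → ℕ,
        (∀ f m, Measurable (cls f m)) → (∀ f m y, cls f m y < nb) →
        ∃ (G : ℕ → E3 → ℂ) (D' : ℕ → ℝ) (rest : E3 → ℂ) (I : ℕ → Finset ℕ) (P : ℕ → ℕ → Plate),
          DecOut M κ q A A' a b C nb K η0 C0 σ g R r z cls Λ s cl G D' rest I P := by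
  classical
  have hR0 : 0 < R := by linarith
  have hr1 : 1 ≤ r := (Real.one_le_rpow hR (by norm_num)).trans hRr
  have hr0 : 0 < r := by linarith
  have hRe : 1 ≤ R ^ ε := Real.one_le_rpow hR hε.le
  have hC0 : 0 ≤ C := hC6.trans hCC6
  have hN70 : 0 ≤ N7 := by rw [hN7]; positivity
  have hCd0 : 0 ≤ Cd := by rw [hCd]; positivity
  have hCp0 : 0 ≤ Cp := by rw [hCp]; positivity
  have hnb' : (1:ℝ) ≤ nb := by exact_mod_cast hnb
  have hnb0 : (0:ℝ) < nb := by linarith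
  have hM0 : 0 ≤ M := by linarith
  have hK00 : 0 ≤ K0 := by linarith
  have hκ8 : ∀ c : ℝ, c ≤ 8 * a → c * κ ≤ 1 := fun c hc =>
    (mul_le_mul_of_nonneg_right hc hκ.le).trans hκa
  have hκ1 : κ ≤ 1 := by
    have := hκ8 1 (by linarith)
    rwa [one_mul] at this
  have hκr1 : 1 ≤ κ * r := by
    have h1 : r ^ (-(1/4) : ℝ) * r ≤ κ * r := by gcongr
    refine le_trans ?_ h1
    nth_rw 2 [← Real.rpow_one r]
    rw [← Real.rpow_add hr0]
    exact Real.one_le_rpow hr1 (by norm_num)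
  have hsnb : Real.sqrt nb ≤ nb := by
    rw [Real.sqrt_le_left hnb0.le]
    exact le_self_pow₀ hnb' two_ne_zero
  obtain ⟨hρ, hρ1, hρ2⟩ := rp_facts hr1
  obtain ⟨ρ, hρe⟩ : ∃ ρ : ℝ, ρ = r ^ (-(1/2) : ℝ) := ⟨_, rfl⟩
  rw [← hρe] at hρ hρ1 hρ2 hb3
  set n : ℕ := ⌈Real.logb 2 R⌉₊ with hn
  have hRn : R ≤ 2 ^ n := two_pow_logb hR
  have hnρ : 1 ≤ 2 ^ n * ρ := by
    have h1 : 1 ≤ r * ρ := by
      refine (sq_le_sq₀ zero_le_one (by positivity)).1 ?_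
      rw [mul_pow, hρ2]
      have : r ^ 2 * r⁻¹ = r := by field_simp
      rw [this]; linarith
    calc (1:ℝ) ≤ r * ρ := h1
      _ ≤ 2 ^ n * ρ := by
        have := hrR.trans hRn
        gcongr
  set T : ℕ := 2 * K + ⌈q / 2⌉₊ + 3 with hT
  set J : ℕ := T * n with hJ
  have hJR : R ^ T ≤ 2 ^ J := by
    rw [hJ, mul_comm, pow_mul]
    gcongr
  refine ⟨LamC n J nb, fun k => (sg ρ (la0 (k1 k)), sg ρ (la1 (k1 k))), k2, ?_, ?_, ?_, ?_⟩
  · have h1 : ((LamC n J nb).card : ℝ) ≤ ((Lam n J).card : ℝ) * nb := by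
      exact_mod_cast card_LamC n J nb
    refine h1.trans ?_
    have h2 := H6 R hR
    gcongr
    exact h2.trans (by gcongr)
  · intro k hk
    rw [mem_LamC, mem_Lam] at hk
    refine ⟨?_, sg_mono hρ hk.1.1, sg_le_one _ _⟩
    rw [← hρe]
    exact sg_ge hρ hρ1 _
  · intro k hk
    exact (mem_LamC.1 hk).2
  intro η0 C0 σ g D hSt z hz cls hcm hcb
  have hFg : Fg a b η0 κ g := St.fg hSt
  obtain ⟨g', hg'⟩ : ∃ g', g' = trc z g := ⟨_, rfl⟩
  have hFg' : Fg a b η0 κ g' := by rw [hg']; exact hFg.trc z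
  have hgd : Gd g' := hFg'.gd ha
  have hgi : Integrable g' := hgd.int
  have hg2 : MemLp g' 2 := hgd.memLp 2
  have hEn : Enc g' = Enc g := by rw [hg', Bas367.Enc_trc]
  have hκ6 : 6 * a * κ ≤ 1 := hκ8 _ (by linarith)
  have hsupg : ∀ ζ, g' ζ ≠ 0 → a⁻¹ ≤ ζ 2 ∧ ζ 2 ≤ a ∧ ‖slp ζ‖ ≤ b ∧ ‖slp ζ - C0‖ ≤ σ := by
    intro ζ hζ
    rw [hg', Bas367.trc_ne] at hζ
    exact hSt.supp ζ hζ
  -- phase space
  set X0 : Set Ph3 := {w | w.1 ∈ caps ρ ∧ ‖w.2‖ ≤ K0 * r} with hX0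
  have hX0m : MeasurableSet X0 := by
    refine meas_of_sli3 fun m => ?_
    by_cases hm : m ∈ caps ρ
    · have : sli3 X0 m = Metric.closedBall 0 (K0 * r) := by
        ext y
        rw [mem_sli3, hX0, Metric.mem_closedBall, dist_zero_right]
        exact and_iff_right hm
      rw [this]
      exact Metric.isClosed_closedBall.measurableSet
    · have : sli3 X0 m = ∅ := by
        ext y
        rw [mem_sli3, hX0]
        simp [hm]
      rw [this]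
      exact MeasurableSet.empty
  obtain ⟨E0, hE0⟩ : ∃ E0 : ℝ, E0 = C3 * Enc g' := ⟨_, rfl⟩
  have hE00 : 0 ≤ E0 := by rw [hE0]; exact mul_nonneg hC3 (Enc_nn g')
  have hmu0 : mu3 ρ g' X0 ≤ ENNReal.ofReal E0 := by
    rw [mu3_apply _ _ hX0m, hE0]
    exact H3 ρ hρ hρ1 g' hgi hg2 _
  obtain ⟨X, nn, P, ka, Ac, hXz, hXm, hAc, hdis, hXs, hDD⟩ :
      ∃ (X : ℕ → Set Ph3) (nn : ℕ → ℕ) (P : ℕ → ℕ → Ts) (ka : ℕ → ℕ → ℕ) (A : ℕ → ℕ → Set Ph3),
      X 0 = X0 ∧ (∀ j, MeasurableSet (X j)) ∧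
      (∀ j, ∀ i < nn j, MeasurableSet (A j i) ∧ A j i ⊆ X j ∧ OkT M κ r n (P j i) ∧
        ka j i < nb ∧ A j i ⊆ TC κ r cls (P j i, ka j i) ∧
        ENNReal.ofReal (E0 * r ^ (q / 2) / 2 ^ (j + 1) * cs3 q κ r (P j i).a0 (P j i).a1) <
          mu3 ρ g' (A j i)) ∧
      (∀ j, ∀ i < nn j, ∀ i' < nn j, i ≠ i' → Disjoint (A j i) (A j i')) ∧
      (∀ j, ∀ x, x ∈ X (j + 1) ↔ x ∈ X j ∧ ∀ i < nn j, x ∉ A j i) ∧
      ∀ j, ∀ p : Ts, OkT M κ r n p → ∀ β < nb,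
        mu3 ρ g' (X j ∩ TC κ r cls (p, β)) ≤
          ENNReal.ofReal (E0 * r ^ (q / 2) / 2 ^ j * cs3 q κ r p.a0 p.a1) := by
    have h0 := greedy3 (M := M) (κ := κ) hq hr1 (g := g') n nb hcm hX0m hE00
      (by rw [← hρe]; exact hmu0)
    rw [← hρe] at h0
    exact h0
  set Δ0 : ℝ := E0 * r ^ (q / 2) with hΔ0
  have hrq : 0 < r ^ (q / 2) := Real.rpow_pos_of_pos hr0 _
  have hΔ00 : 0 ≤ Δ0 := mul_nonneg hE00 hrq.le
  have hΔj : ∀ j : ℕ, 0 ≤ Δ0 / 2 ^ j := fun j => by positivity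
  have hAX : ∀ j, ∀ i < nn j, Ac j i ⊆ X j := fun j i hi => (hAc j i hi).2.1
  have hAm : ∀ j, ∀ i < nn j, MeasurableSet (Ac j i) := fun j i hi => (hAc j i hi).1
  have hXX0 : ∀ j, X j ⊆ X0 := fun j => by
    rw [← hXz]; exact X_antiM hXs (Nat.zero_le j)
  have hDE : ∀ j, DE3 M κ q r g' n (sli3 (X j)) (nb * (Δ0 / 2 ^ j)) := fun j =>
    de_of3 hq hr1 hcb (hXm j) (hΔj j) (by rw [← hρe]; exact hDD j)
  -- bounded selections
  have hBs' : ∀ S : ℤ × ℤ → Set E3, (∀ m ∈ caps ρ, MeasurableSet (S m)) →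
      (∀ m ∈ caps ρ, S m ⊆ sli3 X0 m) → Bsc ρ S := fun S h1 h2 =>
    ⟨h1, fun m hm => (Metric.isBounded_closedBall (x := (0:E3)) (r := K0 * r)).subset fun y hy => by
      rw [Metric.mem_closedBall, dist_zero_right]
      exact (h2 m hm hy).2⟩
  have hBs : ∀ U : Set Ph3, MeasurableSet U → U ⊆ X0 → Bsc ρ (sli3 U) := fun U h1 h2 =>
    hBs' _ (fun m _ => sli3_meas h1 m) (fun m _ y hy => h2 hy)
  set Y : Set Ph3 := X 0 \ X J with hY
  have hYm : MeasurableSet Y := (hXm 0).diff (hXm J)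
  have hYX : Y ⊆ X0 := fun w hw => by rw [← hXz]; exact hw.1
  -- energies
  have hselEn : ∀ S : ℤ × ℤ → Set E3, Bsc ρ S →
      ENNReal.ofReal (Enc (selc η0 κ ρ g' S)) ≤ ENNReal.ofReal C2 * enc ρ g' S := by
    intro S hS
    exact H2 η0 κ ρ hκ hρ hρ1 g' hgi hg2 _ hS
  have hselEn' : ∀ S : ℤ × ℤ → Set E3, Bsc ρ S →
      Enc (selc η0 κ ρ g' S) ≤ C2 * C3 * Enc g' := by
    intro S hS
    have h1 := hselEn S hS
    have h2 := H3 ρ hρ hρ1 g' hgi hg2 S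
    have h3 : ENNReal.ofReal (Enc (selc η0 κ ρ g' S)) ≤ ENNReal.ofReal (C2 * C3 * Enc g') := by
      rw [mul_assoc, ENNReal.ofReal_mul hC2]
      exact h1.trans (by gcongr)
    rwa [ENNReal.ofReal_le_ofReal_iff (mul_nonneg (mul_nonneg hC2 hC3) (Enc_nn g'))] at h3
  have hselD : ∀ (S : ℤ × ℤ → Set E3) (j : ℕ), Bsc ρ S → (∀ m ∈ caps ρ, S m ⊆ sli3 (X j) m) →
      Enc (selc η0 κ ρ g' S) ≤ C2 * (N7 * (nb * (Δ0 / 2 ^ j) * r ^ 3)) := by
    intro S j hS hSj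
    have h1 := hselEn S hS
    have h2 : enc ρ g' S ≤ ENNReal.ofReal (N7 * (nb * (Δ0 / 2 ^ j) * r ^ 3)) := by
      rw [hρe, hN7]
      refine tot_le3 (M := M) (κ := κ) hM0 hκ hr1 hκr1 (n := n) (by rw [← hρe]; exact hnρ) hK00 ?_
        (mul_nonneg hnb0.le (hΔj j)) (q := q) ?_
      · intro m hm y hy
        rw [← hρe] at hm
        exact (hXX0 j (hSj m hm hy)).2
      · exact (hDE j).mono (by rw [← hρe]; exact hSj)
    have h3 : ENNReal.ofReal (Enc (selc η0 κ ρ g' S)) ≤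
        ENNReal.ofReal (C2 * (N7 * (nb * (Δ0 / 2 ^ j) * r ^ 3))) := by
      rw [ENNReal.ofReal_mul hC2]
      exact h1.trans (by gcongr)
    have := hΔj j
    rwa [ENNReal.ofReal_le_ofReal_iff (by positivity)] at h3
  -- the selections of a label
  obtain ⟨Pl, hPl⟩ : ∃ Pl : ℕ → ℕ → Plate, Pl = fun k i =>
    ⟨z, (P (lj (k1 k)) i).c, (P (lj (k1 k)) i).X0, (P (lj (k1 k)) i).f,
      sli3 (Ac (lj (k1 k)) i)⟩ := ⟨_, rfl⟩
  have hPS : ∀ k i, (Pl k i).S = sli3 (Ac (lj (k1 k)) i) := fun k i => by rw [hPl]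
  have hPz : ∀ k i, (Pl k i).z = z := fun k i => by rw [hPl]
  have hPc : ∀ k i, (Pl k i).c = (P (lj (k1 k)) i).c := fun k i => by rw [hPl]
  have hPX : ∀ k i, (Pl k i).X0 = (P (lj (k1 k)) i).X0 := fun k i => by rw [hPl]
  have hPf : ∀ k i, (Pl k i).f = (P (lj (k1 k)) i).f := fun k i => by rw [hPl]
  set I : ℕ → Finset ℕ := fun k => II3 nn P ka k with hI
  have hU : ∀ k, uS (I k) (Pl k) = sli3 (XX3 nn P ka Ac k) := by
    intro k
    funext m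
    ext y
    unfold uS
    simp only [Set.mem_iUnion, exists_prop, hPS, mem_sli3]
    exact mem_XX3.symm
  have hXMm : ∀ k, MeasurableSet (XX3 nn P ka Ac k) := fun k =>
    Finset.measurableSet_biUnion _ fun i hi => hAm _ i (mem_II3.1 hi).1
  have hXMs : ∀ k, XX3 nn P ka Ac k ⊆ X (lj (k1 k)) := fun k => XX3_sub hAX k
  have hXM0 : ∀ k, XX3 nn P ka Ac k ⊆ X0 := fun k => (hXMs k).trans (hXX0 _)
  have hBsk : ∀ k, Bsc ρ (uS (I k) (Pl k)) := fun k => by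
    rw [hU]; exact hBs _ (hXMm k) (hXM0 k)
  have hSub : ∀ k, ∀ S' : ℤ × ℤ → Set E3, (∀ m, MeasurableSet (S' m)) →
      (∀ m, S' m ⊆ uS (I k) (Pl k) m) → Bsc ρ S' ∧
        DE3 M κ q r g' n S' (nb * (Δ0 / 2 ^ (lj (k1 k)))) := by
    intro k S' h1 h2
    have h3 : ∀ m, S' m ⊆ sli3 (XX3 nn P ka Ac k) m := fun m => by rw [← hU]; exact h2 m
    exact ⟨hBs' S' (fun m _ => h1 m) (fun m _ y hy => hXM0 k (h3 m hy)),
      (hDE _).mono fun m _ y hy => hXMs k (h3 m hy)⟩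
  have hUm : ∀ k m, MeasurableSet (uS (I k) (Pl k) m) := fun k m => by
    rw [hU]; exact sli3_meas (hXMm k) m
  -- density bounds
  obtain ⟨Dk, hDk⟩ : ∃ Dk : ℕ → ℝ, Dk = fun k => Cp * (nb * (Δ0 / 2 ^ lj (k1 k))) := ⟨_, rfl⟩
  have hxk : ∀ k : ℕ, 0 ≤ nb * (Δ0 / 2 ^ lj (k1 k)) := fun k => mul_nonneg hnb0.le (hΔj _)
  have hDk0 : ∀ k, 0 ≤ Dk k := fun k => by
    rw [hDk]; exact mul_nonneg hCp0 (hxk k)
  have hsubDens : ∀ k, ∀ S' : ℤ × ℤ → Set E3, (∀ m, MeasurableSet (S' m)) →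
      (∀ m, S' m ⊆ uS (I k) (Pl k) m) →
      Dsc M κ q r g' S' (Cd * (nb * (Δ0 / 2 ^ lj (k1 k)))) := by
    intro k S' h1 h2
    have h3 : DE3 (2 * (M / 2)) κ q r g' n S' (nb * (Δ0 / 2 ^ (lj (k1 k)))) := by
      have e : 2 * (M / 2) = M := by ring
      rw [e]
      exact (hSub k S' h1 h2).2
    have h4 := dsc_of_de3 (M := M / 2) (by linarith) hκ hq hr1 (n := n)
      (by rw [← hρe]; exact hnρ) (hxk k) h3
    have h5 := Dsc_anti (M := 1) hr1 hκ (by linarith) h4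
    have hx0 : 0 ≤ 2 ^ (q + 4) * (nb * (Δ0 / 2 ^ lj (k1 k))) :=
      mul_nonneg (by positivity) (hxk k)
    have h6 := H5 κ r hr1 hκ hκ1 hκr g' S' _ h1 hx0 h5
    refine Dsc_mono hr1 h6 (fun _ _ => Set.Subset.refl _) ?_
    rw [hCd]
    have h7 : C5 * (2 ^ (q + 4) * (nb * (Δ0 / 2 ^ lj (k1 k)))) ≤
        (C5 + 1) * (2 ^ (q + 4) * (nb * (Δ0 / 2 ^ lj (k1 k)))) :=
      mul_le_mul_of_nonneg_right (by linarith) hx0
    refine h7.trans (le_of_eq ?_)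
    ring
  have hCdCp : Cd ≤ Cp := by
    rw [hCp]
    have h1 : 0 ≤ C1 * Cd := mul_nonneg hC1 hCd0
    have h2 : 0 ≤ C2 * N7 := mul_nonneg hC2 hN70
    have h3 : (C1 + 1) * Cd = C1 * Cd + Cd := by ring
    linarith
  have hC1Cp : C1 * Cd ≤ Cp := by
    rw [hCp]
    have h2 : 0 ≤ C2 * N7 := mul_nonneg hC2 hN70
    have h3 : (C1 + 1) * Cd = C1 * Cd + Cd := by ring
    linarith
  have hC2Cp : C2 * N7 ≤ Cp := by
    rw [hCp]
    have h1 : 0 ≤ (C1 + 1) * Cd := mul_nonneg (by linarith) hCd0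
    linarith
  have hsubPB : ∀ k, ∀ S' : ℤ × ℤ → Set E3, (∀ m, MeasurableSet (S' m)) →
      (∀ m, S' m ⊆ uS (I k) (Pl k) m) → PBx M κ q r (selc η0 κ ρ g' S') (Dk k) := by
    intro k S' h1 h2
    have h3 := H1 κ η0 r hκ hκa hr1 hκr g' hFg' S' (by rw [← hρe]; exact (hSub k S' h1 h2).1)
      (Cd * (nb * (Δ0 / 2 ^ lj (k1 k)))) (mul_nonneg hCd0 (hxk k)) (hsubDens k S' h1 h2)
    rw [← hρe] at h3
    refine PBx_mono hr1 h3 ?_
    rw [hDk]
    calc C1 * (Cd * (nb * (Δ0 / 2 ^ lj (k1 k)))) = (C1 * Cd) * (nb * (Δ0 / 2 ^ lj (k1 k))) := by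
          ring
      _ ≤ Cp * (nb * (Δ0 / 2 ^ lj (k1 k))) := mul_le_mul_of_nonneg_right hC1Cp (hxk k)
  -- decompositions
  have hdisU : ∀ k, ∀ k', k ≠ k' → ∀ m, Disjoint (uS (I k) (Pl k) m) (uS (I k') (Pl k') m) := by
    intro k k' hne m
    rw [hU, hU]
    have := XX3_disj (P := P) (ka := ka) hAX hdis hXs hne
    rw [Set.disjoint_left] at this ⊢
    exact fun y hy hy' => this hy hy'
  have hsum1 : ∀ ξ, selc η0 κ ρ g' (sli3 Y) ξ =
      ∑ k ∈ LamC n J nb, selc η0 κ ρ g' (uS (I k) (Pl k)) ξ := by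
    intro ξ
    refine Bas367.selc_sum hgi (LamC n J nb) (fun k _ => hBsk k)
      (fun k _ k' _ hne m _ => hdisU k k' hne m) ?_ ξ
    intro m _
    ext y
    rw [Set.mem_iUnion₂]
    simp only [hU, mem_sli3]
    rw [hY, XX3_union hAX hXs (n := n) (J := J) (nb := nb) (fun j i hi =>
      ⟨(hAc j i hi).2.2.1.1, (hAc j i hi).2.2.1.2.1, (hAc j i hi).2.2.2.1⟩) (m, y)]
    simp only [exists_prop]
  have hsubJ : X J ⊆ X 0 := X_antiM hXs (Nat.zero_le J)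
  have hsum2 : ∀ ξ, selc η0 κ ρ g' (sli3 X0) ξ =
      selc η0 κ ρ g' (sli3 Y) ξ + selc η0 κ ρ g' (sli3 (X J)) ξ := by
    intro ξ
    refine Bas367.selc_add hgi (hBs Y hYm hYX) (hBs (X J) (hXm J) (hXX0 J)) ?_ ?_ ξ
    · intro m _
      exact Set.disjoint_left.2 fun y hy hy' => hy.2 hy'
    · intro m _
      ext y
      constructor
      · intro hx
        by_cases h2 : (m, y) ∈ X J
        · exact Or.inr h2
        · exact Or.inl ⟨by rw [hXz]; exact hx, h2⟩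
      · rintro (hb | hb)
        · exact hYX hb
        · exact hXX0 J hb
  have hselgd : ∀ S : ℤ × ℤ → Set E3, Bsc ρ S → Gd (selc η0 κ ρ g' S) := by
    intro S hS
    refine Bas367.selc_gd' (a := a) hκ ?_ hρ hgi hFg'.slc (fun ζ hζ => (hFg'.supp ζ hζ).1) hS
    rw [inv_eq_one_div, le_div_iff₀ (by linarith)]
    have h1 := hκ8 (3 * a) (by linarith)
    have h2 : 3 * κ * a = 3 * a * κ := by ring
    rw [h2]
    exact h1
  have hselsup : ∀ S : ℤ × ℤ → Set E3, ∀ ζ, selc η0 κ ρ g' S ζ ≠ 0 →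
      (2 * a)⁻¹ ≤ ζ 2 ∧ ζ 2 ≤ 2 * a ∧ ‖slp ζ‖ ≤ b + 3 * ρ ∧ ‖slp ζ - C0‖ ≤ σ + 3 * ρ := by
    intro S ζ hζ
    exact Bas367.selc_supp ha hκ hκ6 hρ hFg'.slc hsupg hζ
  have hmem : ∀ k, ∀ i ∈ I k, i < nn (lj (k1 k)) ∧ (P (lj (k1 k)) i).a0 = la0 (k1 k) ∧
      (P (lj (k1 k)) i).a1 = la1 (k1 k) ∧ ka (lj (k1 k)) i = k2 k := fun k i hi => mem_II3.1 hi
  have hs1 : ∀ k, 0 < sg ρ (la0 (k1 k)) := fun k => hρ.trans_le (sg_ge hρ hρ1 _)
  have hs2 : ∀ k, 0 < sg ρ (la1 (k1 k)) := fun k => hρ.trans_le (sg_ge hρ hρ1 _)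
  have hVp : ∀ k, 0 < scost κ (sg ρ (la0 (k1 k))) (sg ρ (la1 (k1 k))) r := fun k =>
    scost_pos (hs1 k) (hs2 k) hr0
  have hDkn : ∀ k, ∀ i ∈ I k, ENNReal.ofReal (Δ0 / 2 ^ lj (k1 k) / 2 *
      ((sg ρ (la1 (k1 k))) ^ q * scost κ (sg ρ (la0 (k1 k))) (sg ρ (la1 (k1 k))) r)) ≤
      enc ρ g' (Pl k i).S := by
    intro k i hi
    obtain ⟨hi1, hi2, hi3, hi4⟩ := hmem k i hi
    have h1 := (hAc _ i hi1).2.2.2.2.2
    rw [hPS, ← mu3_apply _ _ (hAm _ i hi1)]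
    refine le_trans (le_of_eq ?_) h1.le
    unfold cs3
    rw [hi2, hi3, pow_succ, ← hρe]
    congr 2
    ring
  have hensum : ∀ k, enc ρ g' (uS (I k) (Pl k)) = ∑ i ∈ I k, enc ρ g' (Pl k i).S := by
    intro k
    refine Bas367.enc_biUnion (I k) (fun i => (Pl k i).S) ?_ ?_
    · intro i hi m
      rw [hPS]
      exact sli3_meas (hAm _ i (hmem k i hi).1) m
    · intro i hi j hj hij m
      rw [hPS, hPS]
      have := hdis _ i (hmem k i hi).1 j (hmem k j hj).1 hij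
      rw [Set.disjoint_left] at this ⊢
      exact fun y hy hy' => this hy hy'
  have hYgd := hselgd _ (hBs Y hYm hYX)
  refine ⟨fun k => selc η0 κ ρ g' (uS (I k) (Pl k)), Dk,
    fun ξ => g' ξ - selc η0 κ ρ g' (sli3 Y) ξ, I, Pl, ?_⟩
  refine { sum := ?_, eq := ?_, st := ?_, slc := ?_, sub := ?_, dens := ?_, bd := ?_, cp := ?_,
           disj := ?_, pl := ?_, cls := ?_, dense := ?_, energy := ?_, ss := ?_, rmeas := ?_,
           rbdd := ?_, rsupp := ?_, ren := ?_, small := ?_ }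
  · intro ξ
    rw [← hg', ← hsum1]
    ring
  · intro k _
    rw [← hρe, ← hg']
  · -- states
    intro k hk
    have hkgd := hselgd _ (hBsk k)
    refine ⟨hkgd.meas, hkgd.bdd, ?_, hr1, hDk0 k,
      hsubPB k _ (hUm k) (fun m => Set.Subset.refl _), ?_⟩
    · rw [← hρe]; exact hselsup _
    · refine (hselD _ (lj (k1 k)) (hBsk k) (fun m _ => by
        rw [hU]; exact fun y hy => hXMs k hy)).trans ?_
      have h4 : r ^ (4 : ℝ) = r ^ 4 := by
        rw [← Real.rpow_natCast]; norm_num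
      rw [h4, hDk]
      have h5 : r ^ 3 ≤ r ^ 4 := pow_le_pow_right₀ hr1 (by norm_num)
      have h7 := hxk k
      calc C2 * (N7 * (nb * (Δ0 / 2 ^ lj (k1 k)) * r ^ 3)) =
            r ^ 3 * ((C2 * N7) * (nb * (Δ0 / 2 ^ lj (k1 k)))) := by ring
        _ ≤ r ^ 4 * (Cp * (nb * (Δ0 / 2 ^ lj (k1 k)))) :=
            mul_le_mul h5 (mul_le_mul_of_nonneg_right hC2Cp h7)
              (mul_nonneg (mul_nonneg hC2 hN70) h7) (by positivity)
  · intro k _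
    exact Bas367.selc_slc hκ hρ
  · intro k hk S' h1 h2
    rw [← hρe, ← hg']
    exact hsubPB k S' h1 h2
  · -- densities
    intro k hk c Y0 f s1 s2 hsd hadm
    rw [← hg']
    have h0 := Dsc_mono hr1 (hsubDens k _ (hUm k) (fun m => Set.Subset.refl _))
      (fun _ _ => Set.Subset.refl _) (D' := Dk k)
      (by rw [hDk]; exact mul_le_mul_of_nonneg_right hCdCp (hxk k))
    exact h0 c Y0 f s1 s2 hsd hadm
  · intro k hk m y hy
    rw [hU] at hy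
    rw [Metric.mem_closedBall, dist_zero_right]
    refine ((hXM0 k hy).2).trans ?_
    have : K0 ≤ A' := by linarith
    gcongr
  · intro k hk m hm
    rw [← hρe] at hm
    rw [Set.eq_empty_iff_forall_notMem]
    intro y hy
    rw [hU] at hy
    exact hm (hXM0 k hy).1
  · intro k _ k' _ hne m
    exact hdisU k k' hne m
  · -- plates
    intro k hk
    have hfr : ∀ i ∈ I k, ‖(Pl k i).X0‖ ≤ A' * r ∧ ‖(Pl k i).c‖ ≤ A' := by
      intro i hi
      obtain ⟨hi1, hi2, hi3, hi4⟩ := hmem k i hi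
      obtain ⟨h1, h2, h3, h5, h6, h7⟩ := hAc _ i hi1
      have hne : (Ac (lj (k1 k)) i).Nonempty := by
        by_contra hne
        rw [Set.not_nonempty_iff_eq_empty] at hne
        rw [hne, measure_empty] at h7
        exact not_lt_zero h7
      obtain ⟨w, hw⟩ := hne
      have h8 := (h6 hw).1
      have h9 := hXX0 _ (h2 hw)
      have hcap := Crest.Agent.R138.Wpk685.caps_norm hρ hρ1 _ h9.1
      obtain ⟨b1, b2, b3, _, _⟩ := h8
      rw [← hρe] at b1 b2 b3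
      simp only [one_mul] at b1 b2 b3
      have hsl1 := sg_le_one ρ (P (lj (k1 k)) i).a1
      have hsl0 : 0 < sg ρ (P (lj (k1 k)) i).a1 := hρ.trans_le (sg_ge hρ hρ1 _)
      have hTT1 := TT_le_one (κ := κ) (r := r) hsl0.le hsl1 hκr1
      rw [hPX, hPc]
      have hy := h9.2
      have e1 : ‖(P (lj (k1 k)) i).c‖ ≤ 7 := by
        have e : (P (lj (k1 k)) i).c = cen ρ w.1 - (cen ρ w.1 - (P (lj (k1 k)) i).c) := by abel
        rw [e]
        refine (norm_sub_le _ _).trans ?_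
        linarith
      have e2 : ‖lat w.2 - lat (P (lj (k1 k)) i).X0‖ ≤ r :=
        b2.trans (mul_le_of_le_one_left hr0.le hsl1)
      have e3 : |nrm (P (lj (k1 k)) i).c w.2 0 - nrm (P (lj (k1 k)) i).c (P (lj (k1 k)) i).X0 0| ≤
          r := b3.trans (mul_le_of_le_one_left hr0.le hTT1)
      have e4 : ‖lat w.2‖ ≤ K0 * r := (Bas367_lat w.2).trans hy
      have e5 : |w.2 2| ≤ K0 * r := (PiLp.norm_apply_le w.2 2).trans hy
      have e6 : ‖lat (P (lj (k1 k)) i).X0‖ ≤ (K0 + 1) * r := by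
        have e : lat (P (lj (k1 k)) i).X0 = lat w.2 - (lat w.2 - lat (P (lj (k1 k)) i).X0) := by
          abel
        rw [e]
        refine (norm_sub_le _ _).trans ?_
        linarith
      have e7 : |(P (lj (k1 k)) i).X0 2| ≤ (K0 + 8) * r := by
        have e8 : (P (lj (k1 k)) i).X0 2 = w.2 2 +
            inner ℝ (P (lj (k1 k)) i).c (lat w.2 - lat (P (lj (k1 k)) i).X0) -
            (nrm (P (lj (k1 k)) i).c w.2 0 -
              nrm (P (lj (k1 k)) i).c (P (lj (k1 k)) i).X0 0) := by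
          unfold nrm
          rw [inner_sub_right]
          ring
        have e9 : |inner ℝ (P (lj (k1 k)) i).c (lat w.2 - lat (P (lj (k1 k)) i).X0)| ≤ 7 * r := by
          refine (abs_real_inner_le_norm _ _).trans ?_
          gcongr
        rw [e8]
        have t1 := abs_sub (w.2 2 +
            inner ℝ (P (lj (k1 k)) i).c (lat w.2 - lat (P (lj (k1 k)) i).X0))
            (nrm (P (lj (k1 k)) i).c w.2 0 -
              nrm (P (lj (k1 k)) i).c (P (lj (k1 k)) i).X0 0)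
        have t2 := abs_add_le (w.2 2)
          (inner ℝ (P (lj (k1 k)) i).c (lat w.2 - lat (P (lj (k1 k)) i).X0))
        linarith
      refine ⟨(Bas367.norm_le_of e6 e7).trans (le_of_eq ?_), e1.trans ?_⟩
      · rw [hA']; ring
      · rw [hA']; linarith
    refine ⟨⟨fun i _ => by rw [hPz]; exact hz, fun i _ j _ => Or.inl (by rw [hPz, hPz]),
      fun i hi => (hfr i hi).1, fun i hi => (hfr i hi).2, fun i hi => ?_, fun i hi m => ?_,
      fun i hi m y hy => ?_, ?_⟩, fun i _ => hPz k i⟩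
    · obtain ⟨hi1, hi2, hi3, hi4⟩ := hmem k i hi
      have h3 := (hAc _ i hi1).2.2.1.2.2
      rw [hPc, hPX, hPf]
      rw [← hρe, hi2, hi3] at h3
      exact h3
    · rw [hPS]
      exact sli3_meas (hAm _ i (hmem k i hi).1) m
    · obtain ⟨hi1, hi2, hi3, hi4⟩ := hmem k i hi
      rw [hPS] at hy
      have h6 := ((hAc _ i hi1).2.2.2.2.1 hy).1
      have h7 : y ∈ pbt κ r (P (lj (k1 k)) i) m := h6
      unfold pbt at h7
      rw [← hρe, hi2, hi3] at h7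
      rw [hPc, hPX, hPf]
      exact pbx_mono hr0.le zero_le_one (by linarith) (hs1 k).le (hs2 k) le_rfl le_rfl h7
    · intro i hi j hj hij _ m
      rw [hPS, hPS]
      have := hdis _ i (hmem k i hi).1 j (hmem k j hj).1 hij
      rw [Set.disjoint_left] at this ⊢
      exact fun y hy hy' => this hy hy'
  · -- classes
    intro k hk i hi m y hy
    obtain ⟨hi1, hi2, hi3, hi4⟩ := hmem k i hi
    rw [hPS] at hy
    have h6 := ((hAc _ i hi1).2.2.2.2.1 hy).2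
    rw [hPf, ← hi4]
    exact h6
  · -- dense
    intro k hk i hi
    rw [← hρe, ← hg']
    simp only
    have h1 := hDkn k i hi
    have h3 := hΔj (lj (k1 k))
    have e1 := hs1 k
    have e2 := hs2 k
    have e3 := hVp k
    rw [hDk]
    simp only
    calc ENNReal.ofReal (Cp * (nb * (Δ0 / 2 ^ lj (k1 k))) *
          (sg ρ (la1 (k1 k))) ^ q * scost κ (sg ρ (la0 (k1 k))) (sg ρ (la1 (k1 k))) r) =
        ENNReal.ofReal (2 * Cp * nb) * ENNReal.ofReal (Δ0 / 2 ^ lj (k1 k) / 2 *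
          ((sg ρ (la1 (k1 k))) ^ q * scost κ (sg ρ (la0 (k1 k))) (sg ρ (la1 (k1 k))) r)) := by
          rw [← ENNReal.ofReal_mul (by positivity)]
          congr 1
          ring
      _ ≤ _ := by
          refine mul_le_mul' (ENNReal.ofReal_le_ofReal ?_) h1
          gcongr
  · -- energy
    intro k hk
    rw [← hρe, ← hg', ← hensum]
    exact (hselEn _ (hBsk k)).trans (mul_le_mul' (ENNReal.ofReal_le_ofReal hCCe) le_rfl)
  · -- D6
    intro k hk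
    have h1 := hselEn _ (hBsk k)
    rw [hensum] at h1
    have hcase : ∀ i ∈ I k, ENNReal.ofReal (Real.sqrt (Δ0 / 2 ^ lj (k1 k)) * r) *
        enc ρ g' (Pl k i).S ≤ ENNReal.ofReal (Real.sqrt 2) *
        (ENNReal.ofReal ((sg ρ (la1 (k1 k))) ^ (-q / 2)) *
          (ENNReal.ofReal ((r * scost κ (sg ρ (la0 (k1 k))) (sg ρ (la1 (k1 k))) r) ^
            (-(1/2) : ℝ)) * (ENNReal.ofReal r * enc ρ g' (Pl k i).S) ^ (3 / 2 : ℝ))) := by
      intro i hi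
      refine d6_3 (hs2 k) (hVp k) hr0 (hΔj _) ?_ (hDkn k i hi)
      exact ne_of_lt ((H3 ρ hρ hρ1 g' hgi hg2 _).trans_lt ENNReal.ofReal_lt_top)
    have h7 : SS (selc η0 κ ρ g' (uS (I k) (Pl k))) r (Dk k) =
        Real.sqrt Cp * Real.sqrt nb * ((Real.sqrt (Δ0 / 2 ^ lj (k1 k)) * r) *
          Enc (selc η0 κ ρ g' (uS (I k) (Pl k)))) := by
      unfold SS
      rw [hDk]
      simp only
      rw [Real.sqrt_mul hCp0, Real.sqrt_mul hnb0.le]
      ring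
    have hval : val κ g r (sg ρ (la0 (k1 k))) (sg ρ (la1 (k1 k))) (I k) (Pl k) =
        ∑ i ∈ I k, (ENNReal.ofReal ((r * scost κ (sg ρ (la0 (k1 k))) (sg ρ (la1 (k1 k))) r) ^
          (-(1/2) : ℝ)) * (ENNReal.ofReal r * enc ρ g' (Pl k i).S) ^ (3 / 2 : ℝ)) := by
      unfold val
      refine Finset.sum_congr rfl fun i hi => ?_
      rw [hPz, ← hg', ← hρe]
    simp only
    rw [hval, h7, ENNReal.ofReal_mul (by positivity : 0 ≤ Real.sqrt Cp * Real.sqrt nb),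
      ENNReal.ofReal_mul (by positivity : 0 ≤ Real.sqrt (Δ0 / 2 ^ lj (k1 k)) * r)]
    calc ENNReal.ofReal (Real.sqrt Cp * Real.sqrt nb) *
          (ENNReal.ofReal (Real.sqrt (Δ0 / 2 ^ lj (k1 k)) * r) *
          ENNReal.ofReal (Enc (selc η0 κ ρ g' (uS (I k) (Pl k))))) ≤
        ENNReal.ofReal (Real.sqrt Cp * Real.sqrt nb) *
          (ENNReal.ofReal (Real.sqrt (Δ0 / 2 ^ lj (k1 k)) * r) *
          (ENNReal.ofReal C2 * ∑ i ∈ I k, enc ρ g' (Pl k i).S)) := by gcongr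
      _ = ENNReal.ofReal C2 * ENNReal.ofReal (Real.sqrt Cp * Real.sqrt nb) * (∑ i ∈ I k,
          ENNReal.ofReal (Real.sqrt (Δ0 / 2 ^ lj (k1 k)) * r) * enc ρ g' (Pl k i).S) := by
          rw [← Finset.mul_sum]; ring
      _ ≤ ENNReal.ofReal C2 * ENNReal.ofReal (Real.sqrt Cp * Real.sqrt nb) * (∑ i ∈ I k,
          ENNReal.ofReal (Real.sqrt 2) * (ENNReal.ofReal ((sg ρ (la1 (k1 k))) ^ (-q / 2)) *
          (ENNReal.ofReal ((r * scost κ (sg ρ (la0 (k1 k))) (sg ρ (la1 (k1 k))) r) ^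
            (-(1/2) : ℝ)) *
          (ENNReal.ofReal r * enc ρ g' (Pl k i).S) ^ (3 / 2 : ℝ)))) := by
          exact mul_le_mul' le_rfl (Finset.sum_le_sum fun i hi => hcase i hi)
      _ = ENNReal.ofReal (C2 * (Real.sqrt Cp * Real.sqrt nb) * Real.sqrt 2) *
          (ENNReal.ofReal ((sg ρ (la1 (k1 k))) ^ (-q / 2)) * ∑ i ∈ I k,
          (ENNReal.ofReal ((r * scost κ (sg ρ (la0 (k1 k))) (sg ρ (la1 (k1 k))) r) ^
            (-(1/2) : ℝ)) *
          (ENNReal.ofReal r * enc ρ g' (Pl k i).S) ^ (3 / 2 : ℝ))) := by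
          have hCs : ENNReal.ofReal (C2 * (Real.sqrt Cp * Real.sqrt nb) * Real.sqrt 2) =
              ENNReal.ofReal C2 * ENNReal.ofReal (Real.sqrt Cp * Real.sqrt nb) *
                ENNReal.ofReal (Real.sqrt 2) := by
            rw [← ENNReal.ofReal_mul hC2, ← ENNReal.ofReal_mul (mul_nonneg hC2
              (mul_nonneg (Real.sqrt_nonneg _) (Real.sqrt_nonneg _)))]
          rw [← Finset.mul_sum, ← Finset.mul_sum, hCs]
          ring
      _ ≤ _ := by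
          refine mul_le_mul' (ENNReal.ofReal_le_ofReal ?_) le_rfl
          calc C2 * (Real.sqrt Cp * Real.sqrt nb) * Real.sqrt 2 =
                C2 * Real.sqrt Cp * Real.sqrt 2 * Real.sqrt nb := by ring
            _ ≤ C * nb := by gcongr
  · exact hgd.meas.sub hYgd.meas
  · exact (hgd.sub hYgd).bdd
  · intro ξ hξ
    by_cases h1 : g' ξ = 0
    · have h2 : selc η0 κ ρ g' (sli3 Y) ξ ≠ 0 := by
        intro h2
        exact hξ (by rw [h1, h2, sub_zero])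
      obtain ⟨s1, s2, s3, _⟩ := hselsup _ ξ h2
      exact ⟨s1, s2, s3.trans hb3⟩
    · obtain ⟨s1, s2, s3, _⟩ := hsupg ξ h1
      refine ⟨le_trans ?_ s1, s2.trans (by linarith), s3.trans hb2.le⟩
      exact inv_anti₀ (by linarith) (by linarith)
  · refine (Enc_sub_le hg2 (hYgd.memLp 2)).trans ?_
    have h1 := hselEn' _ (hBs Y hYm hYX)
    rw [hEn] at h1 ⊢
    have h2 := Enc_nn g
    calc 2 * Enc g + 2 * Enc (selc η0 κ ρ g' (sli3 Y)) ≤ 2 * Enc g + 2 * (C2 * C3 * Enc g) := by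
          gcongr
      _ = (2 + 2 * (C2 * C3)) * Enc g := by ring
      _ ≤ C * Enc g := by gcongr
  · -- the rest is small
    intro r' hr'1 hr'2 z' hz' m y hy
    have hBJ := hBs (X J) (hXm J) (hXX0 J)
    have hB0 := hBs X0 hX0m (Set.Subset.refl _)
    have h1 : trc z' (fun ξ => g' ξ - selc η0 κ ρ g' (sli3 Y) ξ) = fun ξ =>
        trc z' (fun ζ => g' ζ - selc η0 κ ρ g' (sli3 X0) ζ) ξ +
          trc z' (selc η0 κ ρ g' (sli3 (X J))) ξ := by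
      funext ξ
      unfold trc
      beta_reduce
      rw [hsum2 ξ]
      ring
    have hi1 : Integrable (trc z' (fun ζ => g' ζ - selc η0 κ ρ g' (sli3 X0) ζ)) :=
      ((hgd.sub (hselgd _ hB0)).trc z').int
    have hi2 : Integrable (trc z' (selc η0 κ ρ g' (sli3 (X J)))) := ((hselgd _ hBJ).trc z').int
    rw [h1, Bas367.umc_add hi1 hi2]
    have hRM : 0 < R ^ (-(K : ℝ)) := Real.rpow_pos_of_pos hR0 _
    have e0 : R ^ (-(K : ℝ)) = (R ^ K)⁻¹ := by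
      rw [Real.rpow_neg hR0.le, Real.rpow_natCast]
    -- first part
    have h2 := H4 κ η0 r hκ hκa hr1 hκr g' hFg' (sli3 X0) (by rw [← hρe]; exact hB0) (by
      intro m hm y hy
      rw [← hρe] at hm
      rw [Metric.mem_closedBall, dist_zero_right] at hy
      exact ⟨hm, hy⟩) r' hr'1 hr'2 z' hz' m y hy
    rw [← hρe, hEn] at h2
    have hrM : r ^ (-((2 * K : ℕ) : ℝ)) ≤ R ^ (-(K : ℝ)) := by
      rw [e0, Real.rpow_neg hr0.le, Real.rpow_natCast, pow_mul]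
      have h4 : R ≤ r ^ 2 := by
        calc R = (R ^ (1/2 : ℝ)) ^ 2 := by
              rw [← Real.rpow_natCast, ← Real.rpow_mul hR0.le]; norm_num
          _ ≤ r ^ 2 := by gcongr
      exact inv_anti₀ (by positivity) (by gcongr)
    have hsE := Real.sqrt_nonneg (Enc g)
    have h4 : ‖umc (r' ^ (-(1/2) : ℝ))
        (trc z' (fun ζ => g' ζ - selc η0 κ ρ g' (sli3 X0) ζ)) m y‖ ≤
        C4 * R ^ (-(K : ℝ)) * Real.sqrt (Enc g) := by
      refine h2.trans ?_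
      gcongr
    -- second part
    have h5 := Hv (selc η0 κ ρ g' (sli3 (X J))) (hselgd _ hBJ).int ((hselgd _ hBJ).memLp 2)
      (by
        intro ξ hξ
        by_contra hne
        obtain ⟨s1, s2, s3, _⟩ := hselsup _ ξ hne
        have ha0 : 0 < a := by linarith
        have s0 : 0 < ξ 2 := lt_of_lt_of_le (inv_pos.2 (by linarith)) s1
        have s4 : ‖slp ξ‖ ≤ 2 := s3.trans hb3
        have s5 : ‖lat ξ‖ ≤ 2 * a * 2 := by
          rw [lat_slp s0.ne', norm_smul, Real.norm_eq_abs, abs_of_pos s0]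
          exact mul_le_mul s2 s4 (norm_nonneg _) (by linarith)
        have s6 : |ξ 2| ≤ 2 * a := by rw [abs_of_pos s0]; exact s2
        have s7 := Bas367.norm_le_of s5 s6
        linarith) (r' ^ (-(1/2) : ℝ)) z' m y
    have h6 := hselD (sli3 (X J)) J hBJ (fun m _ => Set.Subset.refl _)
    have h7 : C2 * (N7 * (nb * (Δ0 / 2 ^ J) * r ^ 3)) ≤
        nb ^ 2 * (C2 * (N7 * C3) * (((R ^ K)⁻¹) ^ 2 * Enc g)) := by
      have e2 : r ^ (q / 2) ≤ R ^ ⌈q / 2⌉₊ := by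
        calc r ^ (q / 2) ≤ R ^ (q / 2) := Real.rpow_le_rpow hr0.le hrR (by positivity)
          _ ≤ R ^ ((⌈q / 2⌉₊ : ℕ) : ℝ) := Real.rpow_le_rpow_of_exponent_le hR (Nat.le_ceil _)
          _ = _ := Real.rpow_natCast _ _
      have e4 : r ^ (q / 2) * r ^ 3 / 2 ^ J ≤ ((R ^ K)⁻¹) ^ 2 := by
        rw [inv_pow, div_le_iff₀ (by positivity), ← div_eq_inv_mul, le_div_iff₀ (by positivity)]
        calc r ^ (q / 2) * r ^ 3 * (R ^ K) ^ 2 ≤ R ^ ⌈q / 2⌉₊ * R ^ 3 * (R ^ K) ^ 2 := by gcongr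
          _ = R ^ T := by rw [hT]; ring
          _ ≤ 2 ^ J := hJR
      have h8 := Enc_nn g
      have h9 : (nb:ℝ) ≤ nb ^ 2 := le_self_pow₀ hnb' two_ne_zero
      rw [hΔ0, hE0, hEn]
      calc C2 * (N7 * (nb * (C3 * Enc g * r ^ (q / 2) / 2 ^ J) * r ^ 3)) =
          nb * (C2 * (N7 * C3) * (r ^ (q / 2) * r ^ 3 / 2 ^ J * Enc g)) := by ring
        _ ≤ _ := by gcongr
    have h8 : ‖umc (r' ^ (-(1/2) : ℝ)) (trc z' (selc η0 κ ρ g' (sli3 (X J)))) m y‖ ≤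
        Cv * Real.sqrt (C2 * (N7 * C3)) * (nb * (R ^ (-(K : ℝ)) * Real.sqrt (Enc g))) := by
      refine h5.trans ?_
      have h9 : Real.sqrt (Enc (selc η0 κ ρ g' (sli3 (X J)))) ≤
          Real.sqrt (C2 * (N7 * C3)) * (nb * (R ^ (-(K : ℝ)) * Real.sqrt (Enc g))) := by
        refine (Real.sqrt_le_sqrt (h6.trans h7)).trans (le_of_eq ?_)
        rw [Real.sqrt_mul (by positivity : (0:ℝ) ≤ nb ^ 2), Real.sqrt_sq hnb0.le,
          Real.sqrt_mul (by positivity : 0 ≤ C2 * (N7 * C3)),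
          Real.sqrt_mul (by positivity : 0 ≤ ((R ^ K)⁻¹) ^ 2), Real.sqrt_sq (by positivity), e0]
        ring
      calc Cv * Real.sqrt (Enc (selc η0 κ ρ g' (sli3 (X J)))) ≤
          Cv * (Real.sqrt (C2 * (N7 * C3)) * (nb * (R ^ (-(K : ℝ)) * Real.sqrt (Enc g)))) := by
            gcongr
        _ = _ := by ring
    have h10 : C4 * R ^ (-(K : ℝ)) * Real.sqrt (Enc g) ≤
        C4 * (nb * (R ^ (-(K : ℝ)) * Real.sqrt (Enc g))) := by
      have h11 : 0 ≤ R ^ (-(K : ℝ)) * Real.sqrt (Enc g) := by positivity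
      have h12 : R ^ (-(K : ℝ)) * Real.sqrt (Enc g) ≤
          nb * (R ^ (-(K : ℝ)) * Real.sqrt (Enc g)) := le_mul_of_one_le_left h11 hnb'
      rw [mul_assoc]
      gcongr
    calc ‖umc (r' ^ (-(1/2) : ℝ)) (trc z' (fun ζ => g' ζ - selc η0 κ ρ g' (sli3 X0) ζ)) m y +
          umc (r' ^ (-(1/2) : ℝ)) (trc z' (selc η0 κ ρ g' (sli3 (X J)))) m y‖ ≤
        C4 * (nb * (R ^ (-(K : ℝ)) * Real.sqrt (Enc g))) +
          Cv * Real.sqrt (C2 * (N7 * C3)) * (nb * (R ^ (-(K : ℝ)) * Real.sqrt (Enc g))) :=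
          (norm_add_le _ _).trans (add_le_add (h4.trans h10) h8)
      _ = (C4 + Cv * Real.sqrt (C2 * (N7 * C3))) * nb * R ^ (-(K : ℝ)) *
          Real.sqrt (Enc g) := by ring
      _ ≤ _ := by gcongr

end Crest.Agent.R116.De295
end

-- ▼ part R116/Dc4_295
section

/-!
# R116 (S0155), wave side: `DECc M q` from its inputs (helper295)
-/

set_option autoImplicit false

open MeasureTheory FourierTransform
open scoped ContDiff ENNReal

namespace Crest.Agent.R116.De295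

open Crest.Agent.R138.Defs (E2 ee)
open Crest.Agent.R138.Wpk685 (cen caps Lam card_bound)
open Crest.Agent.R116.CDef480
open Crest.Agent.R116.WC188
open Crest.Agent.R116.Bas367 (Bsc Gd)

/-- **DECc from its inputs**. -/
theorem decc_of {M q : ℝ} (hM : 2 ≤ M) (hq : 0 ≤ q) (hST : STABc q) (hSU : SUBc M q)
    (hRE : RESTc) (hE1 : EN1c) (hE2 : EN2c) : DECc M q := by
  intro a b A ε M0 ha hb hb2 hA hε K
  obtain ⟨C1, hC1, H1⟩ := hSU a b ha hb hb2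
  obtain ⟨C2, hC2, H2⟩ := hE1
  obtain ⟨C3, hC3, H3⟩ := hE2
  obtain ⟨K0, hK0, H4'⟩ := hRE a b A ha hb hb2 hA
  obtain ⟨C4, hC4, H4⟩ := H4' (2 * K)
  obtain ⟨C5, p, hC5, H5'⟩ := hST M (by linarith)
  obtain ⟨Cv, hCv, Hv⟩ := umc_sup (12 * a)
  obtain ⟨C6, hC6, H6⟩ := card_bound hε (2 * K + ⌈q / 2⌉₊ + 3)
  have H5 : ∀ κ r : ℝ, 1 ≤ r → 0 < κ → κ ≤ 1 → r ^ (-(1/4) : ℝ) ≤ κ →
      ∀ (g : E3 → ℂ) (S : ℤ × ℤ → Set E3) (D : ℝ), (∀ m, MeasurableSet (S m)) → 0 ≤ D →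
        Dsc 1 κ q r g S D → Dsc M κ q r g S (C5 * D) := by
    intro κ r hr hκ hκ1 hκr g S D hS hD h
    have h1 := H5' 1 κ r le_rfl hr hκ hκ1 hκr g S D hS hD h
    rw [one_pow, mul_one] at h1
    exact h1
  set N7 : ℝ := ((NB3 K0 : ℕ) : ℝ) with hN7
  have hN70 : 0 ≤ N7 := by rw [hN7]; positivity
  set Cd : ℝ := (C5 + 1) * 2 ^ (q + 4) with hCd
  have hCd0 : 0 ≤ Cd := by rw [hCd]; positivity
  set Cp : ℝ := (C1 + 1) * Cd + C2 * N7 with hCp
  have hCp0 : 0 ≤ Cp := by rw [hCp]; positivity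
  have t1 : 0 ≤ C2 * Real.sqrt Cp * Real.sqrt 2 := by positivity
  have t2 : 0 ≤ 2 + 2 * (C2 * C3) := by positivity
  have t3 : 0 ≤ C4 + Cv * Real.sqrt (C2 * (N7 * C3)) := by positivity
  have hb3 : 0 < 3 / (2 - b) := div_pos (by norm_num) (by linarith)
  refine ⟨2 * K0 + 9, C6 + 2 * Cp + C2 + C2 * Real.sqrt Cp * Real.sqrt 2 + (2 + 2 * (C2 * C3)) +
    (C4 + Cv * Real.sqrt (C2 * (N7 * C3))), max 1 ((3 / (2 - b)) ^ 4), by linarith,
    by positivity, le_max_left _ _, ?_⟩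
  intro R r κ hR0 hRr hrR hκ hκa hκR nb hnb
  have hR : 1 ≤ R := (le_max_left _ _).trans hR0
  have hRp : 0 < R := by linarith
  have hR4 : (3 / (2 - b)) ^ 4 ≤ R := (le_max_right _ _).trans hR0
  have hr1 : 1 ≤ r := (Real.one_le_rpow hR (by norm_num)).trans hRr
  have hr0 : 0 < r := by linarith
  have hκr : r ^ (-(1/4) : ℝ) ≤ κ := by
    refine le_trans ?_ hκR
    have h1 : (R ^ (1/2 : ℝ)) ^ (-(1/4) : ℝ) = R ^ (-(1/8) : ℝ) := by
      rw [← Real.rpow_mul hRp.le]; norm_num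
    rw [← h1]
    exact Real.rpow_le_rpow_of_nonpos (Real.rpow_pos_of_pos hRp _) hRr (by norm_num)
  have hb4 : b + 3 * r ^ (-(1/2) : ℝ) ≤ 2 := by
    have h1 : r ^ (-(1/2) : ℝ) ≤ (2 - b) / 3 := by
      have h2 : r ^ (-(1/2) : ℝ) ≤ (R ^ (1/2 : ℝ)) ^ (-(1/2) : ℝ) :=
        Real.rpow_le_rpow_of_nonpos (Real.rpow_pos_of_pos hRp _) hRr (by norm_num)
      have h3 : (R ^ (1/2 : ℝ)) ^ (-(1/2) : ℝ) = R ^ (-(1/4) : ℝ) := by
        rw [← Real.rpow_mul hRp.le]; norm_num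
      have h4 : R ^ (-(1/4) : ℝ) ≤ ((3 / (2 - b)) ^ 4) ^ (-(1/4) : ℝ) :=
        Real.rpow_le_rpow_of_nonpos (by positivity) hR4 (by norm_num)
      have h5 : ((3 / (2 - b)) ^ 4) ^ (-(1/4) : ℝ) = (2 - b) / 3 := by
        rw [← Real.rpow_natCast, ← Real.rpow_mul hb3.le]
        norm_num
        rw [Real.rpow_neg_one, inv_div]
      rw [← h5]
      exact (h2.trans (le_of_eq h3)).trans h4
    linarith
  exact big3 hM hq ha hb hb2 hA hC1 hC2 hC3 hC4 hC5 hC6 hCv hK0 H1 H2 H3 H4 H5 Hv hε H6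
    hN7 hCd hCp rfl (by linarith) (by linarith) (by linarith) (by linarith) (by linarith)
    (by linarith) hR hRr hrR hb4 hκ hκa hκr hnb

end Crest.Agent.R116.De295
end

-- ▼ part R116/Rst1_126

/-!
# R116 (S0155), wave side, DECc: the input `RESTc` of `DeDef_295` (helper126)

`rest : RESTc`.  The rest `g - selc η0 κ ρ g S` in the frame `z'` at level `ρ' ≥ ρ` is, by 124's
exact formulas `f1_root_eq` / `f1_sel_eq`, the sum over the near caps of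
`∫_{y ∉ S m} umc ρ g m y * Kn (X + z'.1 - y)`, and there `|X + z'.1 + z'.2 vel C - y| ≥ r`.
-/

set_option autoImplicit false

open MeasureTheory FourierTransform
open scoped ContDiff ENNReal

namespace Crest.Agent.R116.Rst126

open Crest.Agent.R138.Defs (E2 ee)
open Crest.Agent.R138.Wpk685 (win fat cen caps)
open Crest.Agent.R138.Wf448
open Crest.Agent.R138.Loc878 (Near nearL mem_nearL)
open Crest.Agent.R116.CWp480 Crest.Agent.R116.CDef480 Crest.Agent.R116.CWc480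
open Crest.Agent.R116.CWd480 Crest.Agent.R116.F1c124 Crest.Agent.R116.De295
open Crest.Agent.R116.Bas367 (Bsc)

/-! ### geometry -/

theorem norm2_le {x : E2} {a : ℝ} (h0 : |x 0| ≤ a) (h1 : |x 1| ≤ a) : ‖x‖ ≤ 2 * a := by
  have ha : 0 ≤ a := (abs_nonneg _).trans h0
  have h := normsq2 x
  have e0 := sq_abs (x 0)
  have e1 := sq_abs (x 1)
  have f0 := abs_nonneg (x 0)
  have f1 := abs_nonneg (x 1)
  have : ‖x‖ ^ 2 ≤ (2 * a) ^ 2 := by
    rw [h, ← e0, ← e1]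
    nlinarith
  exact le_of_sq_le_sq this (by positivity)

theorem norm3_le (X : E3) : ‖X‖ ≤ ‖lat X‖ + |X 2| := by
  have h := normsq3 X
  have e0 := sq_abs (X 2)
  have : ‖X‖ ^ 2 ≤ (‖lat X‖ + |X 2|) ^ 2 := by
    rw [h, ← e0]
    nlinarith [norm_nonneg (lat X), abs_nonneg (X 2)]
  exact le_of_sq_le_sq this (by positivity)

theorem norm_cen_caps {ρ : ℝ} (hρ : 0 < ρ) (hρ1 : ρ ≤ 1) {m : ℤ × ℤ} (hm : m ∈ caps ρ) :
    ‖cen ρ m‖ ≤ 8 := by
  unfold caps at hm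
  rw [Finset.mem_product, Finset.mem_Icc, Finset.mem_Icc] at hm
  have hc : (⌈2 / ρ⌉ : ℝ) < 2 / ρ + 1 := Int.ceil_lt_add_one _
  have key : ∀ k : ℤ, -⌈2 / ρ⌉ - 1 ≤ k → k ≤ ⌈2 / ρ⌉ + 1 → |ρ * k| ≤ 4 := by
    intro k h1 h2
    have h3 : (k : ℝ) ≤ 2 / ρ + 2 := by
      have : (k : ℝ) ≤ ⌈2 / ρ⌉ + 1 := by exact_mod_cast h2
      linarith
    have h4 : -(2 / ρ + 2) ≤ (k : ℝ) := by
      have : (-⌈2 / ρ⌉ - 1 : ℝ) ≤ k := by exact_mod_cast h1
      linarith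
    have h5 : ρ * (2 / ρ + 2) = 2 + 2 * ρ := by field_simp
    rw [abs_le]
    constructor
    · nlinarith
    · nlinarith
  have := norm2_le (x := cen ρ m) (a := 4)
    (by rw [Crest.Agent.R138.Wpk685.cen_zero]; exact key _ hm.1.1 hm.1.2)
    (by rw [Crest.Agent.R138.Wpk685.cen_one]; exact key _ hm.2.1 hm.2.2)
  linarith

theorem norm_vel_le {C : E2} (h : ‖C‖ ≤ 8) : ‖vel C‖ ≤ 40 := by
  refine (norm3_le _).trans ?_
  unfold vel
  rw [lat_pt, pt_two, abs_div, abs_neg, abs_of_nonneg (sq_nonneg ‖C‖), abs_two]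
  have := norm_nonneg C
  nlinarith

/-- lower bound of the plate norm. -/
theorem norm_Pl_ge {ρ κ : ℝ} (hρ : 0 < ρ) (hκ : ρ ≤ κ) {C : E2} (hC : ‖C‖ ≤ 8) (W : E3) :
    ρ * ‖W‖ ≤ 10 * ‖pt (ρ • lat W) (κ * (W 2 + inner ℝ C (lat W)))‖ := by
  set P := pt (ρ • lat W) (κ * (W 2 + inner ℝ C (lat W))) with hP
  have h1 : ρ * ‖lat W‖ ≤ ‖P‖ := by
    have := norm_lat_le P
    rw [hP, lat_pt, norm_smul, Real.norm_eq_abs, abs_of_pos hρ, ← hP] at this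
    exact this
  have h2 : κ * |W 2 + inner ℝ C (lat W)| ≤ ‖P‖ := by
    have := abs_two_le P
    rw [hP, pt_two, abs_mul, abs_of_pos (lt_of_lt_of_le hρ hκ), ← hP] at this
    exact this
  have h3 : |inner ℝ C (lat W)| ≤ 8 * ‖lat W‖ :=
    (abs_real_inner_le_norm _ _).trans (mul_le_mul_of_nonneg_right hC (norm_nonneg _))
  have h4 : |W 2| ≤ |W 2 + inner ℝ C (lat W)| + |inner ℝ C (lat W)| := by
    have := abs_sub (W 2 + inner ℝ C (lat W)) (inner ℝ C (lat W))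
    rw [add_sub_cancel_right] at this
    exact this
  have h5 := norm3_le W
  have h6 : ρ * |W 2 + inner ℝ C (lat W)| ≤ κ * |W 2 + inner ℝ C (lat W)| :=
    mul_le_mul_of_nonneg_right hκ (abs_nonneg _)
  have h7 : ρ * ‖W‖ ≤ ρ * (‖lat W‖ + (|W 2 + inner ℝ C (lat W)| + 8 * ‖lat W‖)) := by
    apply mul_le_mul_of_nonneg_left _ hρ.le
    linarith
  nlinarith

/-! ### the kernel far away -/

theorem lint_kc {ρ κ : ℝ} (hρ : 0 < ρ) (hκ : 0 < κ) (C : E2) (x : E3) :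
    ∫⁻ y, ENNReal.ofReal (kc (dd E3) ρ κ C (x - y)) = ENNReal.ofReal (cd3 E3) := by
  have h1 : ∀ y, ENNReal.ofReal (kc (dd E3) ρ κ C (x - y)) =
      ENNReal.ofReal (adet (Pl ρ κ hρ hκ C : E3 →L[ℝ] E3)) * dec3 (Pl ρ κ hρ hκ C (x - y)) := by
    intro y
    rw [kc_eq _ hρ hκ, ENNReal.ofReal_mul (adet0 _).le]
    rfl
  simp only [h1]
  rw [lintegral_const_mul' _ _ ENNReal.ofReal_ne_top, lintegral_scale (Pl ρ κ hρ hκ C) dec3 x,
    lintegral_dec3, ← mul_assoc, ← ENNReal.ofReal_mul (adet0 _).le,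
    mul_inv_cancel₀ (adet0 _).ne', ENNReal.ofReal_one, one_mul]

theorem kc_far {n : ℕ} {ρ κ r : ℝ} (hρ : 0 < ρ) (hκ : ρ ≤ κ) (hr : 0 < r) {C : E2} (hC : ‖C‖ ≤ 8)
    {W : E3} (hW : r ≤ ‖W‖) :
    kc (n + dd E3) ρ κ C W ≤ (10 * (ρ * r)⁻¹) ^ n * kc (dd E3) ρ κ C W := by
  unfold kc
  set P := ‖pt (ρ • lat W) (κ * (W 2 + inner ℝ C (lat W)))‖ with hP
  have h1 : ρ * r ≤ 10 * P :=
    (mul_le_mul_of_nonneg_left hW hρ.le).trans (norm_Pl_ge hρ hκ hC W)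
  have h0 : 0 < ρ * r := by positivity
  have hP0 : 0 < P := by linarith
  have h2 : (1 + P)⁻¹ ≤ 10 * (ρ * r)⁻¹ := by
    rw [← div_eq_mul_inv, inv_eq_one_div, div_le_div_iff₀ (by positivity) h0]
    linarith
  have h3 : ((1 + P) ^ (n + dd E3))⁻¹ ≤ (10 * (ρ * r)⁻¹) ^ n * ((1 + P) ^ dd E3)⁻¹ := by
    rw [pow_add, mul_inv, ← inv_pow]
    exact mul_le_mul_of_nonneg_right (pow_le_pow_left₀ (by positivity) h2 n) (by positivity)
  have hκ0 : 0 < κ := lt_of_lt_of_le hρ hκ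
  calc ρ ^ 2 * κ * ((1 + P) ^ (n + dd E3))⁻¹
      ≤ ρ ^ 2 * κ * ((10 * (ρ * r)⁻¹) ^ n * ((1 + P) ^ dd E3)⁻¹) := by gcongr
    _ = _ := by ring

/-! ### the L¹ norm -/

theorem lint_norm_le {a b : ℝ} (ha : 1 ≤ a) (hb : 0 ≤ b) {g : E3 → ℂ} (hg : Tr126.Sp a b g)
    (hm : Measurable g) {L : ℝ} (hL : ∀ ζ, ‖g ζ‖ ≤ L) :
    ∫⁻ ζ, ‖g ζ‖ₑ ≤ ENNReal.ofReal
      (Real.sqrt (volume (Metric.closedBall (0 : E3) (a * (b + 1)))).toReal *
        Real.sqrt (Enc g)) := by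
  set B := Metric.closedBall (0 : E3) (a * (b + 1)) with hB
  have hBf : volume B ≠ ⊤ := measure_closedBall_lt_top.ne
  have h1 := lint_sq_le (f := fun ζ : E3 => ‖g ζ‖ₑ) (g := B.indicator 1)
    hm.enorm.aemeasurable
    ((measurable_one.indicator Metric.isClosed_closedBall.measurableSet).aemeasurable)
  have h2 : ∀ y, ‖g y‖ₑ * B.indicator (1 : E3 → ℝ≥0∞) y = ‖g y‖ₑ := by
    intro y
    by_cases h : g y = 0
    · rw [h]; simp
    · rw [Set.indicator_of_mem]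
      · simp
      · rw [hB, mem_closedBall_zero_iff]; exact hg.norm_le ha hb h
  simp only [h2] at h1
  have h3 : ∫⁻ y, B.indicator (1 : E3 → ℝ≥0∞) y = ENNReal.ofReal (volume B).toReal := by
    rw [lintegral_indicator_one Metric.isClosed_closedBall.measurableSet,
      ENNReal.ofReal_toReal hBf]
  have h4 : ∫⁻ y, ‖g y‖ₑ ^ 2 * B.indicator (1 : E3 → ℝ≥0∞) y ≤ ENNReal.ofReal (Enc g) := by
    rw [Tr126.ofReal_Enc (Tr126.memLp_of ha hb hg hm hL 2)]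
    refine lintegral_mono fun y => ?_
    by_cases h : y ∈ B
    · rw [Set.indicator_of_mem h]; simp
    · rw [Set.indicator_of_notMem h]; simp
  rw [h3] at h1
  have h5 : (∫⁻ ζ, ‖g ζ‖ₑ) ^ 2 ≤ (ENNReal.ofReal
      (Real.sqrt (volume B).toReal * Real.sqrt (Enc g))) ^ 2 := by
    refine h1.trans ((mul_le_mul_right h4 _).trans ?_)
    rw [← ENNReal.ofReal_mul ENNReal.toReal_nonneg, ← ENNReal.ofReal_pow (by positivity), mul_pow,
      Real.sq_sqrt ENNReal.toReal_nonneg, Real.sq_sqrt (Tr126.Enc_nonneg g)]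
  exact (ENNReal.pow_le_pow_left_iff (by norm_num)).1 h5

/-! ### the rest: exact formula and bound -/

theorem Pc_int {N : ℕ} {Q ρ ρ' τ : ℝ} {e : E3 → ℂ} {C C' : E2} {B : E3 ≃L[ℝ] E3} {c : E3}
    (h : Pc N Q ρ ρ' τ e C C' B c) : Integrable (Kn e ρ ρ' τ C C') := by
  obtain ⟨a, ha, hk, _⟩ := h.kn
  have e1 : Kn e ρ ρ' τ C C' = fun x => 𝓕⁻ (CWp480.cap a c B) (x + τ • vel C) := funext hk
  rw [e1]
  exact (Kf_int ha c B).comp_add_right _

/-- exact formula of the rest. -/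
theorem rest_eq {N : ℕ} {Q ρ ρ' κ η0 : ℝ} (hρ : 0 < ρ) (hρ' : ρ ≤ ρ') (hκ : 0 < κ)
    {z : E3 × ℝ} {m' : ℤ × ℤ} {B : ℤ × ℤ → E3 ≃L[ℝ] E3} {c : ℤ × ℤ → E3}
    (hP : ∀ m ∈ nearL ρ ρ' m', Pc N Q ρ ρ' z.2 (etw η0 κ) (cen ρ m) (cen ρ' m') (B m) (c m))
    {g : E3 → ℂ} (hg : Integrable g) (hs : ∀ ζ, g ζ ≠ 0 → etw η0 κ ζ = 1 ∧ ‖slp ζ‖ ≤ 2)
    {S : ℤ × ℤ → Set E3} (hS : Bsc ρ S) (X : E3) :
    umc ρ' (trc z (fun ζ => g ζ - selc η0 κ ρ g S ζ)) m' X = ∑ m ∈ nearL ρ ρ' m',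
      ∫ y, (S m)ᶜ.indicator (umc ρ g m) y *
        Kn (etw η0 κ) ρ ρ' z.2 (cen ρ m) (cen ρ' m') (X + z.1 - y) := by
  have hsel := (Bas367.selc_int (η0 := η0) hκ hρ hg hS).1
  have e0 : trc z (fun ζ => g ζ - selc η0 κ ρ g S ζ) =
      fun ζ => trc z g ζ + (-1) * trc z (selc η0 κ ρ g S) ζ := by
    funext ζ
    unfold trc
    ring
  have hi1 : Integrable (trc z g) := Bas367.trc_int hg z
  have hi2 : Integrable (fun ζ => (-1) * trc z (selc η0 κ ρ g S) ζ) :=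
    (Bas367.trc_int hsel z).const_mul (-1)
  have hind : ∀ m ∈ caps ρ, Integrable ((S m).indicator (umc ρ g m)) := fun m hm =>
    ind_int hg ρ m (hS.meas m hm) (hS.bdd m hm)
  rw [e0, Bas367.umc_add hi1 hi2, Bas367.umc_const_mul, f1_root_eq hρ hρ' hP hg hs X,
    f1_sel_eq hρ hρ' hP hind X, neg_one_mul, ← sub_eq_add_neg, ← Finset.sum_sub_distrib]
  refine Finset.sum_congr rfl fun m hm => ?_
  have hmc : m ∈ caps ρ := (mem_nearL.1 hm).1
  have hK : Integrable (fun y => Kn (etw η0 κ) ρ ρ' z.2 (cen ρ m) (cen ρ' m') (X + z.1 - y)) :=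
    (Pc_int (hP m hm)).comp_sub_left _
  obtain ⟨L, _, hL⟩ := Bas367.umc_bdd ρ g m
  have hc := Bas367.umc_cont hg ρ m
  have h1 : Integrable (fun y => umc ρ g m y *
      Kn (etw η0 κ) ρ ρ' z.2 (cen ρ m) (cen ρ' m') (X + z.1 - y)) :=
    hK.bdd_mul (c := L) hc.aestronglyMeasurable (Filter.Eventually.of_forall hL)
  have h2 : Integrable (fun y => (S m).indicator (umc ρ g m) y *
      Kn (etw η0 κ) ρ ρ' z.2 (cen ρ m) (cen ρ' m') (X + z.1 - y)) :=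
    hK.bdd_mul (c := L) (hc.measurable.indicator (hS.meas m hmc)).aestronglyMeasurable
      (Filter.Eventually.of_forall fun y => (norm_indicator_le_norm_self _ _).trans (hL y))
  rw [← integral_sub h1 h2]
  congr 1
  funext y
  by_cases hy : y ∈ S m
  · rw [Set.indicator_of_mem hy, Set.indicator_of_notMem (by simpa using hy)]
    ring
  · rw [Set.indicator_of_notMem hy, Set.indicator_of_mem (by simpa using hy)]
    ring

/-- **D4 (REST)** of `DeDef_295`. -/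
theorem rest : RESTc := by
  intro a b A ha hb hb2 hA
  refine ⟨43 * A, by linarith, fun K => ?_⟩
  obtain ⟨Q, K1, hK1, hkn⟩ := kn_sliced (a := 2 * a) (by linarith) (2 * K + 2 + dd E3) A
  set vB : ℝ := Real.sqrt (volume (Metric.closedBall (0 : E3) (a * (b + 1)))).toReal with hvB
  refine ⟨K1 * (81 * (10 ^ (2 * K + 2) * cd3 E3 * vB)), by
    have := cd3_nonneg (V := E3)
    positivity, ?_⟩
  intro κ η0 r hκ hκa hr hκr g hg S hS hSb r' hr'1 hr' z hz m' X hX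
  have hr0 : 0 < r := by linarith
  have hr'0 : 0 < r' := by linarith
  set ρ : ℝ := r ^ (-(1/2) : ℝ) with hρd
  set ρ' : ℝ := r' ^ (-(1/2) : ℝ) with hρ'd
  have hρ : 0 < ρ := Real.rpow_pos_of_pos hr0 _
  have hρ1 : ρ ≤ 1 := Real.rpow_le_one_of_one_le_of_nonpos hr (by norm_num)
  have hρρ' : ρ ≤ ρ' := Real.rpow_le_rpow_of_nonpos hr'0 hr' (by norm_num)
  have hρκ : ρ ≤ κ := by
    refine le_trans ?_ hκr
    exact Real.rpow_le_rpow_of_exponent_le hr (by norm_num)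
  have hρ2 : ρ ^ 2 = r⁻¹ := by
    have := Tr126.rpow_half_sq hr0
    rw [← hρd, inv_pow] at this
    rw [← this, inv_inv]
  have hρr : (ρ * r)⁻¹ = ρ := by
    have h1 : ρ * (ρ * r) = 1 := by
      rw [← mul_assoc, ← pow_two, hρ2, inv_mul_cancel₀ hr0.ne']
    exact inv_eq_of_mul_eq_one_left h1
  have hRHS : 0 ≤ K1 * (81 * (10 ^ (2 * K + 2) * cd3 E3 * vB)) * r ^ (-(K : ℝ)) *
      Real.sqrt (Enc g) := by
    have := cd3_nonneg (V := E3)
    positivity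
  by_cases hne : ∃ ξ, g ξ ≠ 0
  swap
  · push Not at hne
    have h1 : (fun ζ => g ζ - selc η0 κ ρ g S ζ) = fun _ => 0 := by
      funext ζ
      rw [hne ζ, zero_sub, neg_eq_zero]
      by_contra h2
      obtain ⟨-, ξ, hξ, -⟩ := Bas367.selc_near hκ hρ h2
      exact hξ (hne ξ)
    have h2 : trc z (fun _ : E3 => (0 : ℂ)) = fun _ => 0 := by
      funext ζ
      unfold trc
      rw [zero_mul]
    rw [h1, h2, Bas367.umc_zero, norm_zero]
    exact hRHS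
  obtain ⟨ξ, hξ⟩ := hne
  obtain ⟨L, hL⟩ := hg.bdd
  have hsp : Tr126.Sp a b g := hg.supp
  have hgi : Integrable g := memLp_one_iff_integrable.1 (Tr126.memLp_of ha hb.le hsp hg.meas hL 1)
  have ha0 : 0 < a := by linarith
  have hκ8 : κ ≤ (8 * a)⁻¹ := by
    rw [inv_eq_one_div, le_div_iff₀ (by positivity)]
    linarith
  have hai : a⁻¹ = 8 * (8 * a)⁻¹ := by field_simp
  have h2ai : (2 * a)⁻¹ = 4 * (8 * a)⁻¹ := by field_simp; norm_num
  have hη1 : (2 * a)⁻¹ ≤ η0 := by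
    have := Bas367.eta_lower (fun ζ h => (hg.supp ζ h).1) hg.slc hξ
    rw [h2ai]; rw [hai] at this
    have : 0 < (8 * a)⁻¹ := by positivity
    linarith
  have hη2 : η0 ≤ 2 * a := by
    have := Bas367.eta_upper (fun ζ h => (hg.supp ζ h).2.1) hg.slc hξ
    have h8 : (8 * a)⁻¹ ≤ 1 := inv_le_one_of_one_le₀ (by linarith)
    linarith
  have hτ : |z.2| * ρ ^ 2 ≤ A := by
    rw [hρ2, ← div_eq_mul_inv, div_le_iff₀ hr0]
    exact hz.2
  have hP := fun m (hm : m ∈ nearL ρ ρ' m') =>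
    hkn η0 κ hη1 hη2 hκ (by rw [show 4 * (2 * a) = 8 * a by ring]; exact hκ8) ρ ρ' z.2 hρ hρρ' hτ
      (cen ρ m) (cen ρ' m') (mem_nearL.1 hm).2.le
  have hgs : ∀ ζ, g ζ ≠ 0 → etw η0 κ ζ = 1 ∧ ‖slp ζ‖ ≤ 2 := fun ζ hζ =>
    ⟨Bas367.etw_one hκ ((hg.slc ζ hζ).trans (by linarith)), (hg.supp ζ hζ).2.2.trans hb2.le⟩
  have key : ‖umc ρ' (trc z (fun ζ => g ζ - selc η0 κ ρ g S ζ)) m' X‖ₑ ≤
      ENNReal.ofReal (K1 * (81 * (10 ^ (2 * K + 2) * cd3 E3 * vB)) * r ^ (-(K : ℝ)) *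
      Real.sqrt (Enc g)) := by
    rw [rest_eq hρ hρρ' hκ (fun m hm => (hP m hm).1) hgi hgs hS X]
    refine (enorm_sum_conv _ hK1
      (b := fun m x => kc (2 * K + 2 + dd E3) ρ κ (cen ρ m) (x + z.2 • vel (cen ρ m)))
      (fun m hm x => (hP m hm).2 x) (X + z.1)).trans ?_
    have hterm : ∀ m ∈ nearL ρ ρ' m', ∫⁻ y, ENNReal.ofReal
        (kc (2 * K + 2 + dd E3) ρ κ (cen ρ m) (X + z.1 - y + z.2 • vel (cen ρ m))) *
          ‖(S m)ᶜ.indicator (umc ρ g m) y‖ₑ ≤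
        ENNReal.ofReal ((10 * ρ) ^ (2 * K + 2) * cd3 E3 * (vB * Real.sqrt (Enc g))) := by
      intro m hm
      have hmc : m ∈ caps ρ := (mem_nearL.1 hm).1
      have hC := norm_cen_caps hρ hρ1 hmc
      have hpt : ∀ y, ENNReal.ofReal
        (kc (2 * K + 2 + dd E3) ρ κ (cen ρ m) (X + z.1 - y + z.2 • vel (cen ρ m))) *
          ‖(S m)ᶜ.indicator (umc ρ g m) y‖ₑ ≤
          ENNReal.ofReal ((10 * ρ) ^ (2 * K + 2) * (vB * Real.sqrt (Enc g))) *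
            ENNReal.ofReal (kc (dd E3) ρ κ (cen ρ m) (X + z.1 + z.2 • vel (cen ρ m) - y)) := by
        intro y
        by_cases hy : y ∈ S m
        · rw [Set.indicator_of_notMem (by simpa using hy)]
          simp
        · rw [Set.indicator_of_mem (by simpa using hy)]
          have hy2 : 43 * A * r < ‖y‖ := by
            by_contra hc
            push Not at hc
            exact hy (hSb m hmc (by rw [mem_closedBall_zero_iff]; exact hc))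
          have h1 : ‖X + z.1 + z.2 • vel (cen ρ m)‖ ≤ 42 * A * r := by
            have e1 := norm_add_le (X + z.1) (z.2 • vel (cen ρ m))
            have e2 := norm_add_le X z.1
            have e3 : ‖z.2 • vel (cen ρ m)‖ ≤ (A * r) * 40 := by
              rw [norm_smul, Real.norm_eq_abs]
              exact mul_le_mul hz.2 (norm_vel_le hC) (norm_nonneg _) (by positivity)
            have e4 := hz.1
            linarith
          have h2 : r ≤ ‖X + z.1 + z.2 • vel (cen ρ m) - y‖ := by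
            have e1 := norm_sub_norm_le y (X + z.1 + z.2 • vel (cen ρ m))
            rw [norm_sub_rev] at e1
            have e2 : r ≤ A * r := le_mul_of_one_le_left hr0.le hA
            linarith
          have h3 := kc_far (n := 2 * K + 2) hρ hρκ hr0 hC h2
          rw [hρr] at h3
          have h4 : ‖umc ρ g m y‖ₑ ≤ ENNReal.ofReal (vB * Real.sqrt (Enc g)) := by
            refine le_trans ?_ (lint_norm_le ha hb.le hsp hg.meas hL)
            rw [← ofReal_norm]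
            refine (ENNReal.ofReal_le_ofReal (Bas367.umc_bound hgi ρ m y)).trans (le_of_eq ?_)
            rw [ofReal_integral_eq_lintegral_ofReal hgi.norm
              (Filter.Eventually.of_forall fun _ => norm_nonneg _)]
            simp only [ofReal_norm]
          rw [show X + z.1 - y + z.2 • vel (cen ρ m) = X + z.1 + z.2 • vel (cen ρ m) - y by abel]
          refine (mul_le_mul' (ENNReal.ofReal_le_ofReal h3) h4).trans (le_of_eq ?_)
          rw [← ENNReal.ofReal_mul (mul_nonneg (by positivity) (kc_nonneg _ hκ.le _ _)),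
            ← ENNReal.ofReal_mul (by positivity)]
          congr 1
          ring
      refine (lintegral_mono hpt).trans (le_of_eq ?_)
      rw [lintegral_const_mul' _ _ ENNReal.ofReal_ne_top, lint_kc hρ hκ,
        ← ENNReal.ofReal_mul (by positivity)]
      congr 1
      ring
    refine (mul_le_mul_right (Finset.sum_le_sum hterm) _).trans ?_
    have hcd := cd3_nonneg (V := E3)
    rw [Finset.sum_const, nsmul_eq_mul, ← ENNReal.ofReal_natCast,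
      ← ENNReal.ofReal_mul (by positivity), ← ENNReal.ofReal_mul hK1]
    apply ENNReal.ofReal_le_ofReal
    have hcard : ((nearL ρ ρ' m').card : ℝ) ≤ 81 * r := by
      have h1 : (nearL ρ ρ' m').card ≤ (caps ρ).card :=
        Finset.card_le_card fun m hm => (mem_nearL.1 hm).1
      have h2 := Tr126.card_caps hρ hρ1
      rw [Tr126.rpow_half_sq hr0] at h2
      exact le_trans (by exact_mod_cast h1) h2
    have hpow : r * ρ ^ (2 * K + 2) = r ^ (-(K : ℝ)) := by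
      rw [show 2 * K + 2 = 2 * (K + 1) by ring, pow_mul, hρ2, Real.rpow_neg hr0.le,
        Real.rpow_natCast, pow_succ, inv_pow]
      field_simp
    calc K1 * ((nearL ρ ρ' m').card * ((10 * ρ) ^ (2 * K + 2) * cd3 E3 *
          (vB * Real.sqrt (Enc g))))
        ≤ K1 * ((81 * r) * ((10 * ρ) ^ (2 * K + 2) * cd3 E3 * (vB * Real.sqrt (Enc g)))) := by
          gcongr
      _ = K1 * (81 * (10 ^ (2 * K + 2) * cd3 E3 * vB)) * (r * ρ ^ (2 * K + 2)) *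
          Real.sqrt (Enc g) := by
          rw [mul_pow]; ring
      _ = _ := by rw [hpow]
  rw [← ofReal_norm] at key
  exact (ENNReal.ofReal_le_ofReal_iff hRHS).1 key

end Crest.Agent.R116.Rst126
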