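import Crest.Agent.R116.RbM2_219
import Crest.Agent.R116.Rcx5_363
import Crest.Agent.R116.Rcx6_363

-- ▼ part R116/Rz1_460
section

/-!
# R116 (K side, ties), `k' = 1` exactly (`2 θa - θb = 1`): the slice `D = record level` (helper460)

The natural level of `D` is constant along the record line and on the `κ`-tie plane.  So `D` is frozen
at the level `0` EXACTLY (`RL8` at `t = 0`); no deadness of `D` is used.

* `Leg80`, `RL8_mem0`; `y8_zero`, `r8_eq_r9`, `L8_zero'`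
* **`ae_rates8z`** : rates at the record, `t = 0`
-/

set_option autoImplicit false
set_option linter.unusedSectionVars false
set_option linter.unusedVariables false

open Set Filter Topology Metric MeasureTheory

namespace Crest.Agent.R116.Rz460

open Crest.Agent.R136
open Crest.Agent.R138
open Net191 (Mons Legal Leg)
open Dg262 (X X_cont SupOn)
open Dg219 (Tn lf Cone Walls mw mw_P)
open Sl741 (slice xt rs)
open SgO219 (PP)
open RbK219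
open RbM219
open Rc146 (RecOut)
open ChL222 (monL legalL_iff mfL)
open PL504 (eL eL_wall)

/-- legal class vectors, `D` frozen at the level `0` -/
structure Leg80 (d : Fin 8 → ℝ) : Prop extends Leg8 d where
  G : d 7 ≤ d 0
  BD : d 6 ≤ d 3
  PD : d 2 ≤ d 5

theorem Leg80.leg8 {d : Fin 8 → ℝ} (h : Leg80 d) : Leg8 d := h.toLeg8

/-- natural offsets with constant `D` -/
theorem leg80_nat {v c p : ℝ} (h : p = 2 * c + v) : Leg80 (nat8 v c p) := by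
  subst h
  refine ⟨leg8_nat _ _ _, ?_, ?_, ?_⟩ <;> simp [nat8] <;> linarith

theorem y8_zero : y8 0 = 0 := by
  funext i
  unfold y8
  by_cases hi : i = 1
  · subst hi; rw [Function.update_self]; rfl
  · rw [Function.update_of_ne hi]

theorem r8_eq_r9 {θa θb : ℝ} (hβ : 2 * θa - θb - 1 = 0) : r8 θa θb = r9 θa θb := by
  unfold r8 r9
  funext i
  by_cases hi : i = 1
  · subst hi
    rw [Function.update_self]
    change (0:ℝ) = -θb - 2 * -θa - 1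
    linarith
  · rw [Function.update_of_ne hi]

theorem L8_z {θa θb : ℝ} (hβ : 2 * θa - θb - 1 = 0) : L8 θa θb 0 = PP (mw monL) := by
  unfold L8
  rw [y8_zero, r8_eq_r9 hβ]
  exact L9 θa θb

/-- **legality of class vectors at the record line, `t = 0`** -/
theorem RL8_mem0 {a : K8 → ℝ} {d : Fin 8 → ℝ} (hd : Leg80 d) :
    RL8.vec d ∈ (slice (mw monL) kp (y8 0) kp_hd).L (rs kp (y8 0)) a 0 := by
  intro w hw
  set c : Fin 12 → ℝ := xt kp 0 (RL8.vec d) with hc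
  have hcD : c 1 = 0 := by
    rw [hc, Sl741.xt_off (p := kp) _ _ (by simp [kp])]; rfl
  have hck : ∀ i : Fin 12, i ≠ 1 → c i = d (cl8 i) := fun i hi => by
    rw [hc, Sl741.xt_in (p := kp) _ _ hi]; simp [RS.vec, RL8]
  have hcP : c ∈ PP (mw monL) := by
    rw [mem_cone]
    have k0 := hck 0 (by decide)
    have k2 := hck 2 (by decide)
    have k3 := hck 3 (by decide)
    have k4 := hck 4 (by decide)
    have k5 := hck 5 (by decide)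
    have k6 := hck 6 (by decide)
    have k7 := hck 7 (by decide)
    have k8 := hck 8 (by decide)
    have k9 := hck 9 (by decide)
    have k10 := hck 10 (by decide)
    have k11 := hck 11 (by decide)
    have q0 : cl8 0 = 0 := rfl
    have q2 : cl8 2 = 7 := rfl
    have q3 : cl8 3 = 1 := rfl
    have q4 : cl8 4 = 1 := rfl
    have q5 : cl8 5 = 3 := rfl
    have q6 : cl8 6 = 3 := rfl
    have q7 : cl8 7 = 6 := rfl
    have q8 : cl8 8 = 6 := rfl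
    have q9 : cl8 9 = 5 := rfl
    have q10 : cl8 10 = 2 := rfl
    have q11 : cl8 11 = 4 := rfl
    rw [q0] at k0
    rw [q2] at k2
    rw [q3] at k3
    rw [q4] at k4
    rw [q5] at k5
    rw [q6] at k6
    rw [q7] at k7
    rw [q8] at k8
    rw [q9] at k9
    rw [q10] at k10
    rw [q11] at k11
    unfold Wl
    rw [k0, k2, k3, k4, k5, k6, k7, k8, k9, k10, k11, hcD]
    obtain ⟨⟨f1, f2, f3, f4, f5, f6, f7⟩, f8, f9, f10⟩ := hd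
    refine ⟨?_, ?_, ?_, ?_, ?_, ?_, ?_, ?_, ?_, ?_, ?_, ?_, ?_, ?_, ?_, ?_⟩ <;> linarith
  have h1 := (mem_PP.1 hcP) w.1 w.2.1 w.2.2
  have h2 : (slice (mw monL) kp (y8 0) kp_hd).rhs w (RL8.vec d) =
      ∑ s, (w.2.1 s : ℝ) * c s := by
    have h3 := Sl741.rhs_xt (Q := mw monL) (p := kp) (v := y8 0) (hp := kp_hd) w
      (0 : Fin 12 → ℝ) (RL8.vec d)
    have h4 : ∑ s : {i // ¬ kp i}, (((mw monL).co w s.1 : ℕ) : ℝ) *
        (0 : Fin 12 → ℝ) s.1 = 0 := by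
      refine Finset.sum_eq_zero fun s _ => ?_
      simp
    rw [h4, add_zero] at h3
    rw [← h3]
    rfl
  rw [h2]
  have h6 : RL8.vec d ((slice (mw monL) kp (y8 0) kp_hd).hd w) = c w.1 := by
    rw [hck w.1 (kp_hd w)]
    simp only [RS.vec, RL8, one_mul]
    rfl
  rw [h6]
  exact h1

theorem ae_rates8z_box {J : Type*} [Finite J] {g : J → (Fin 12 → ℝ) → ℝ} {j0 : J}
    {K : ℝ} (hK : 0 ≤ K)
    (hg : ∀ j, ∀ p ∈ PP (mw monL), ∀ q ∈ PP (mw monL), |g j p - g j q| ≤ K * dist p q)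
    (hm : ∀ p ∈ PP (mw monL), ∀ q ∈ PP (mw monL), p ≤ q →
      0 ≤ g j0 p - g j0 q ∧ g j0 p - g j0 q ≤ ∑ i, (q i - p i))
    (hs : SupOn (g j0) (PP (mw monL))) {θa θb : ℝ} (hβ : 2 * θa - θb - 1 = 0)
    {T : Type*} [Countable T]
    {B : T → Fin 8 → ℝ} {sg : T → ℝ} (hS : ∀ s, SOk (nat8 1 (-θa) (-θb)) (B s) (sg s))
    (hB : ∀ s, Leg80 (B s)) {S : ℝ} (hS0 : 0 ≤ S) :
    ∀ᵐ ξ : ℝ, ξ ∈ {ξ : ℝ | (ξ, (0:ℝ)) ∈ (mw monL).O (fun _ => -S) (fun _ => S) (y8 0)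
        (r8 θa θb) 0} → ∃ c0 : T → ℝ, (∀ s, 0 < c0 s) ∧
      (∀ s, (srf8 θa θb 0 (B s) (sg s)).LW (Q8 0) (c0 s) ⊆
        (Q8 0).L (rs kp (y8 0)) (rs kp (r8 θa θb)) 0) ∧
      ∀ k : ℕ → ℝ, (∀ l, 0 < k l) → Tendsto k atTop (𝓝 0) →
      ∃ (y k' : ℕ → ℝ) (lam : J → (Fin 12 → ℝ) → ℝ), Tendsto y atTop (𝓝 ξ) ∧
        (∀ m, 0 < k' m) ∧ Tendsto k' atTop (𝓝 0) ∧
        (∀ j, Ex926.IsTan (PP (mw monL)) (L8 θa θb 0) (g j)
          (fun m => y8 0 + y m • r8 θa θb) k' (lam j)) ∧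
        ∀ s, Rec8 θa θb 0 (B s) (sg s) (c0 s) (lam j0) ∧
          ∃ ρ, Rates8 θa θb 0 (B s) (sg s) (c0 s) (lam j0) ρ := by
  have hPP : ∀ S : ℝ, (mw monL).P (fun _ => -S) (fun _ => S) ⊆ PP (mw monL) :=
    fun S p hp => hp.2
  have hbox : ∀ i, ¬ kp i → -S ≤ y8 0 i ∧ y8 0 i ≤ S := by
    intro i hi
    rw [y8_zero]
    constructor
    · change -S ≤ (0:ℝ); linarith
    · change (0:ℝ) ≤ S; linarith
  have h1 := ae_rates (Q := mw monL) (p := kp) (hp := kp_hd) (lo := fun _ => -S)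
    (hi := fun _ => S) (y0 := y8 0) (ρ0 := r8 θa θb) (fun i hi => hbox i hi) (fun i hi => by
      have hi' : i = 1 := not_not.1 hi
      subst hi'
      unfold r8; rw [Function.update_self]) (R := RL8) (A := nat8 1 (-θa) (-θb)) (rs_r8 _ _)
    hS (fun s => RL8_full) (fun s => RL8_mem0 (hB s)) (f := g) (j0 := j0) hK
    (fun j p hp q hq => hg j p (hPP _ hp) q (hPP _ hq))
    (fun p hp q hq => hm p (hPP _ hp) q (hPP _ hq))
    (fun p hp q hq h1 h2 => hs p (hPP _ hp) q (hPP _ hq) (hPP _ h1) (hPP _ h2))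
    (U := {ξ : ℝ | (ξ, (0:ℝ)) ∈ (mw monL).O (fun _ => -S) (fun _ => S) (y8 0)
      (r8 θa θb) 0}) (fun ξ hξ => hξ)
  filter_upwards [h1] with ξ hξ hξU
  obtain ⟨c0, hc0, hsub, H⟩ := hξ hξU
  refine ⟨c0, hc0, hsub, fun k kpos k0 => ?_⟩
  obtain ⟨y, k', lam, hy, hk', hk0, hT, hR⟩ := H k kpos k0
  exact ⟨y, k', lam, hy, hk', hk0, fun j => Rc683.tan_mono (hT j) (hPP _) Subset.rfl, hR⟩

theorem r9_mem (θa θb ξ : ℝ) : ξ • r9 θa θb ∈ PP (mw monL) := by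
  rw [r9_vec, ← RS.vec_smul]
  apply RL9_mem
  have e : ξ • nat9 1 (-θa) (-θb) = nat9 (ξ * 1) (ξ * -θa) (ξ * -θb) := by
    funext i
    fin_cases i <;> simp [nat9] <;> ring
  rw [e]
  exact leg9_nat _ _ _

/-- **RATES AT THE RECORD, light chart, `D` frozen at the record level, `2 θa - θb = 1`** -/
theorem ae_rates8z {P : Set (Fin 12 → ℝ)} {J : Type*} [Finite J]
    {f g : J → (Fin 12 → ℝ) → ℝ} {j0 : J} {x : ℕ → Fin 12 → ℝ} {h : ℕ → ℝ}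
    (hpos : ∀ l, 0 < h l) (ht : ∀ j, Ex926.IsTan P (PP (mw monL)) (f j) x h (g j))
    {K : ℝ} (hK : 0 ≤ K)
    (hg : ∀ j, ∀ p ∈ PP (mw monL), ∀ q ∈ PP (mw monL), |g j p - g j q| ≤ K * dist p q)
    (hm : ∀ p ∈ PP (mw monL), ∀ q ∈ PP (mw monL), p ≤ q →
      0 ≤ g j0 p - g j0 q ∧ g j0 p - g j0 q ≤ ∑ i, (q i - p i))
    (hs : SupOn (g j0) (PP (mw monL))) {θa θb : ℝ} (hβ : 2 * θa - θb - 1 = 0)
    {T : Type*} [Countable T]
    {B : T → Fin 8 → ℝ} {sg : T → ℝ} (hS : ∀ s, SOk (nat8 1 (-θa) (-θb)) (B s) (sg s))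
    (hB : ∀ s, Leg80 (B s)) :
    ∀ᵐ ξ : ℝ, ∃ c0 : T → ℝ, (∀ s, 0 < c0 s) ∧
      (∀ s, (srf8 θa θb 0 (B s) (sg s)).LW (Q8 0) (c0 s) ⊆
        (Q8 0).L (rs kp (y8 0)) (rs kp (r8 θa θb)) 0) ∧
      ∀ k : ℕ → ℝ, (∀ l, 0 < k l) → Tendsto k atTop (𝓝 0) →
      ∃ (y k' : ℕ → ℝ) (ψ : ℕ → ℕ) (lam : J → (Fin 12 → ℝ) → ℝ), Tendsto y atTop (𝓝 ξ) ∧
        (∀ m, 0 < k' m) ∧ Tendsto k' atTop (𝓝 0) ∧ StrictMono ψ ∧
        (∀ j, Ex926.IsTan (PP (mw monL)) (PP (mw monL)) (g j)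
          (fun m => y m • r9 θa θb) k' (lam j)) ∧
        (∀ j, Ex926.IsTan P (PP (mw monL)) (f j)
          (fun m => x (ψ m) + h (ψ m) • (y m • r9 θa θb))
          (fun m => h (ψ m) * k' m) (lam j)) ∧
        ∀ s, Rec8 θa θb 0 (B s) (sg s) (c0 s) (lam j0) ∧
          ∃ ρ, Rates8 θa θb 0 (B s) (sg s) (c0 s) (lam j0) ρ := by
  have key := ae_all_iff.2 fun N : ℕ => ae_rates8z_box (S := (N:ℝ)) hK hg hm hs hβ hS hB
    (Nat.cast_nonneg N)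
  filter_upwards [key] with ξ hξ
  obtain ⟨N, hN⟩ := exists_nat_gt ‖ξ • r9 θa θb‖
  have hO : ξ ∈ {ξ : ℝ | (ξ, (0:ℝ)) ∈ (mw monL).O (fun _ => -(N:ℝ)) (fun _ => (N:ℝ)) (y8 0)
        (r8 θa θb) 0} := by
    change (ξ, (0:ℝ)) ∈ (mw monL).O (fun _ => -(N:ℝ)) (fun _ => (N:ℝ)) (y8 0) (r8 θa θb) 0
    rw [y8_zero, r8_eq_r9 hβ]
    exact mem_O9 hN
  obtain ⟨c0, hc0, hsub, H⟩ := hξ N hO
  refine ⟨c0, hc0, hsub, fun k kpos k0 => ?_⟩
  obtain ⟨y, k', lam, hy, hk', hk0, hT, hR⟩ := H k kpos k0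
  have hT' : ∀ j, Ex926.IsTan (PP (mw monL)) (PP (mw monL)) (g j)
      (fun m => y m • r9 θa θb) k' (lam j) := by
    intro j
    have h1 := hT j
    rw [L8_z hβ] at h1
    have e : (fun m => y8 0 + y m • r8 θa θb) = fun m => y m • r9 θa θb := by
      funext m; rw [y8_zero, zero_add, r8_eq_r9 hβ]
    rwa [e] at h1
  obtain ⟨ψ, hψ, -, hD⟩ := diagM (J := J) (P := fun _ => P) (L := fun _ => PP (mw monL))
    (L' := fun _ => PP (mw monL)) hpos ht (y := fun m => y m • r9 θa θb)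
    (fun _ m => r9_mem _ _ _) (fun m => hk' _) hT' (A := fun _ _ => True)
    (fun _ => Eventually.of_forall fun _ => trivial)
  exact ⟨y, k', ψ, lam, hy, fun m => hk' _, hk0, hψ, hT', hD, hR⟩

end Crest.Agent.R116.Rz460
end

-- ▼ part R116/Rz2_460

/-!
# R116 (K side, TIES), `k' = 1` exactly: the producer without D0 (helper460)

* `Out8z`  : 363's `Out8` with `D` at the record level EXACTLY (`t = 0`), tangents on the full cone;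
* **`recz8`**, **`exists_out8z`** : `CtxT` + `2 θ 0 - θ 1 = 1` ⊢ `Out8z` (no D0)
* **`half8z`** : 647's generic point of a half plane; **`z8z_out`** : 363's `z8_out`
* `b8_mem0`, `b8_anti0`, `b8_own0`, `base8z_val`, `base8z_one`
-/

set_option autoImplicit false
set_option linter.unusedVariables false

open Set Filter Topology MeasureTheory

namespace Crest.Agent.R116.Rz460

open Crest.Agent.R138.Ex926 (Base U IsTan)
open Crest.Agent.R136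
open Crest.Agent.R136.MkA627
open Crest.Agent.R136.TD627
open Crest.Agent.R136.Net191
open Crest.Agent.R136.Lq196
open Crest.Agent.R116.ChL222
open Crest.Agent.R116.PL504 (nb rL DN eL βL oL Shift)
open Crest.Agent.R116.Xd954 (cs xs FlagX Mrg)
open Crest.Agent.R116.Sg337 (coneL DL natB eL_bx9)
open Crest.Agent.R116.Gd222 (TSet sN PDL DT)
open Crest.Agent.R116.KI439
open Crest.Agent.R116.KF439 (PL)
open Crest.Agent.R116.Tw468 (OutT OutR)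
open Crest.Agent.R116.CtxB468
open Crest.Agent.R116.RbM219
open Crest.Agent.R116.RbK219 (SOk RS)
open Crest.Agent.R116.SgO219 (PP tan_lim tan_ev)
open Crest.Agent.R116.Kz647
open Crest.Agent.R116.Rcx363
open Dg262 (SupOn)
open Dg219 (mw)
open Sl741 (slice xt rs)

theorem L8_cone {θa θb : ℝ} (hβ : 2 * θa - θb - 1 = 0) : L8 θa θb 0 = coneL := by
  rw [L8_z hβ, coneL_PP]

/-- **output, `D` at the record level** (`2 θa - θb = 1`) -/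
structure Out8z (R s : ℝ) (a b : Fin 2) (Vis : Fin 12 → Prop) (θa θb g qa qb : ℝ) {T : Type*}
    (B : T → Fin 8 → ℝ) (sg : T → ℝ) (x0 : Fin 12 → ℝ) (f : Fin 2 → (Fin 12 → ℝ) → ℝ)
    (x : ℕ → Fin 12 → ℝ) (hh : ℕ → ℝ) (lam : Fin 2 → (Fin 12 → ℝ) → ℝ) : Prop where
  pos : ∀ m, 0 < hh m
  lim : Tendsto hh atTop (𝓝 0)
  base : ∃ (H y : ℕ → ℝ) (ξ : ℝ), (∀ m, 0 < H m) ∧ Tendsto H atTop (𝓝 0) ∧
    Tendsto y atTop (𝓝 ξ) ∧ ∀ m, x m = x0 + H m • (y m • r9 θa θb)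
  xlim : Tendsto x atTop (𝓝 x0)
  tan : ∀ j, IsTan (Leg monL R) coneL (f j) x hh (lam j)
  lip : ∀ j, ∀ p ∈ coneL, ∀ q ∈ coneL, |lam j p - lam j q| ≤ (12:ℝ) * dist p q
  zero : ∀ j, lam j 0 = 0
  surf : ∀ i, ∃ c0 : ℝ, 0 < c0 ∧ (srf8 θa θb 0 (B i) (sg i)).LW (Q8 0) c0 ⊆
      (Q8 0).L (rs kp (y8 0)) (rs kp (r8 θa θb)) 0 ∧
    Rec8 θa θb 0 (B i) (sg i) c0 (lam 0) ∧ ∃ ρ, Rates8 θa θb 0 (B i) (sg i) c0 (lam 0) ρ
  rx : Rx coneL eL s a b Vis θa θb g qa qb (lam 0)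

section ctx

variable {G : Geo TSet (Fin 2)} {L : ℕ → ℕ → LRay} {r : ℕ → ℝ} {g s : ℝ} {θ q : Fin 2 → ℝ}
    {Rg : ℝ} {B : Base} {I : ℕ → Finset (ℕ × ℝ)} {lev : ℕ → ℚ → ℕ} {A : ℕ → ℝ}
    {f : ℕ → ℚ → ℕ → ℤ → ℕ} {b : ℕ → ℚ → ℕ → TSet} {vm : ℕ → ℚ → ℝ} {w : Fin 2 → ℕ → ℚ → ℝ}
    {fr : ℕ → ℚ → ℕ × ℝ → LInc} {fl : ℕ → ℕ × ℝ → LInc} {sc : Fin 12 → ℕ → ℝ}
    {w0 sa sb δ R : ℝ} {I0 I' : ℕ → Finset (ℕ × ℝ)} {ν own : (Fin 12 → ℝ) → ℝ} {c₀ : ℝ}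

/-- **THE PRODUCER, `D` at the record level, `2 θ 0 - θ 1 = 1`** -/
theorem recz8
    (h : CtxT G L r g s θ q Rg B I lev A f b vm w fr fl sc w0 sa sb δ R I0 I' ν own c₀)
    (hR0 : w0 + (θ 1 + sb) < R) (hR1 : w0 + 1 + sb < R) (hθ : 0 < θ 0)
    (hRg : θ 0 + |θ 1| < Rg) {a b' : Fin 2}
    (hX : ∀ κ0 : ℝ, FlagX B I' lev fl (sN lev w) κ0 0 a b')
    {v0 : ℝ} (hv0 : 0 < v0) (hv1 : v0 < 1) (hβ : 2 * θ 0 - θ 1 - 1 = 0)
    {T : Type*} [Countable T] {Bs : T → Fin 8 → ℝ} {sg : T → ℝ}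
    (hS : ∀ i, SOk (nat8 1 (-(θ 0)) (-(θ 1))) (Bs i) (sg i)) (hB : ∀ i, Leg80 (Bs i)) :
    ∃ x hh lam, Out8z R s a b' (VisT B I fl sc) (θ 0) (θ 1) g (q 0) (q 1) Bs sg
      (rL (θ 0) (θ 1) w0 sa sb v0) (fo ν own) x hh lam := by
  set hh : ℕ → ℝ := fun l => 1 / ((l : ℝ) + 1) with hhh
  have hpos : ∀ l, 0 < hh l := fun l => by rw [hhh]; positivity
  have hh0 : Tendsto hh atTop (𝓝 0) := tendsto_one_div_add_atTop_nhds_zero_nat
  obtain ⟨φ, hφ, g1, hg1⟩ := first_tan h hR0 hR1 hv0.le hv1.le hpos hh0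
  have hpos' : ∀ l, 0 < hh (φ l) := fun l => hpos _
  have hh0' : Tendsto (fun l => hh (φ l)) atTop (𝓝 0) := hh0.comp hφ.tendsto_atTop
  obtain ⟨hP, hDm, hRc⟩ := first_prf h hR0 hR1 hθ hRg hX hv0 hv1 hpos' hh0' (g1 := g1 0) (hg1 0)
  have hg1' : ∀ j, IsTan (Leg monL R) (PP (mw monL)) (fo ν own j)
      (fun _ => rL (θ 0) (θ 1) w0 sa sb v0) (fun l => hh (φ l)) (g1 j) := fun j => by
    rw [← coneL_PP]; exact hg1 j
  have hlip1 : ∀ j, ∀ p ∈ PP (mw monL), ∀ q ∈ PP (mw monL), |g1 j p - g1 j q| ≤ (12:ℝ) * dist p q :=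
    fun j => SgO219.tan_lip hpos' (hg1' j) (fo_lip h j)
  have hae := ae_rates8z hpos' hg1' (j0 := (0 : Fin 2)) (K := 12) (by norm_num) hlip1
    (by rw [← coneL_PP]; exact hP.anti) (by rw [← coneL_PP]; exact hP.sm) hβ hS hB
  obtain ⟨ξ, c0, hc0, hsub, H⟩ := hae.exists
  obtain ⟨y, k', ψ, lam, hy, hk', hk0, hψ, hT, hTP, hR⟩ := H hh hpos hh0
  have hrx := rx9 hP hDm hRc hk' hk0 (hT 0)
  have hHt : Tendsto (fun m => hh (φ (ψ m))) atTop (𝓝 0) := hh0'.comp hψ.tendsto_atTop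
  refine ⟨fun m => rL (θ 0) (θ 1) w0 sa sb v0 + hh (φ (ψ m)) • (y m • r9 (θ 0) (θ 1)),
    fun m => hh (φ (ψ m)) * k' m, lam, ⟨fun m => mul_pos (hpos' _) (hk' m), ?_,
    ⟨_, y, ξ, fun m => hpos' (ψ m), hHt, hy, fun m => rfl⟩, ?_, ?_, ?_, ?_,
    fun i => ⟨c0 i, hc0 i, hsub i, hR i⟩, hrx⟩⟩
  · have := hHt.mul hk0
    simpa using this
  · have := base_lim (x0 := rL (θ 0) (θ 1) w0 sa sb v0) (u := 0) (v := r9 (θ 0) (θ 1)) hHt hy
    simpa using this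
  · intro j
    rw [coneL_PP]; exact hTP j
  · intro j
    rw [coneL_PP]; exact SgO219.tan_lip hk' (hT j) (hlip1 j)
  · intro j
    refine Sg337.tan_zero hk' (hT j) ?_
    rw [← coneL_PP]; exact zero_coneL

/-- **`Out8z` from `CtxT`** (no D0) -/
theorem exists_out8z
    (h : CtxT G L r g s θ q Rg B I lev A f b vm w fr fl sc w0 sa sb δ R I0 I' ν own c₀)
    (hR0 : w0 + (θ 1 + sb) < R) (hR1 : w0 + 1 + sb < R) (hθ : 0 < θ 0)
    (hRg : θ 0 + |θ 1| < Rg) (hβ : 2 * θ 0 - θ 1 - 1 = 0) {T : Type*} [Countable T]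
    {Bs : T → Fin 8 → ℝ} {sg : T → ℝ}
    (hS : ∀ i, SOk (nat8 1 (-(θ 0)) (-(θ 1))) (Bs i) (sg i)) (hB : ∀ i, Leg80 (Bs i))
    {N : Set ℝ} (hN : ∀ᵐ v : ℝ, v ∈ N) :
    ∃ v0 ∈ N, 0 < v0 ∧ v0 < 1 ∧ ∃ (a b' : Fin 2) (x : ℕ → Fin 12 → ℝ) (hh : ℕ → ℝ)
      (lam : Fin 2 → (Fin 12 → ℝ) → ℝ),
      (∀ κ0 : ℝ, FlagX B I' lev fl (sN lev w) κ0 0 a b') ∧
      Out8z R s a b' (VisT B I fl sc) (θ 0) (θ 1) g (q 0) (q 1) Bs sg
        (rL (θ 0) (θ 1) w0 sa sb v0) (fo ν own) x hh lam := by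
  obtain ⟨a, b', hX⟩ := h.fX
  have hX' : ∀ κ0 : ℝ, FlagX B I' lev fl (sN lev w) κ0 0 a b' := hX I' h.sub'
  obtain ⟨v0, hvN, hv0, hv1⟩ : ∃ v0 ∈ N, 0 < v0 ∧ v0 < 1 := by
    by_contra hcon
    push Not at hcon
    have h1 : volume (Ioo (0:ℝ) 1) = 0 := by
      refine measure_mono_null (t := {v | ¬ v ∈ N}) (fun v hv hP => ?_) (ae_iff.1 hN)
      exact absurd hv.2 (not_lt.2 (hcon v hP hv.1))
    rw [Real.volume_Ioo] at h1
    simp at h1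
  obtain ⟨x, hh, lam, hO⟩ := recz8 h hR0 hR1 hθ hRg hX' hv0 hv1 hβ hS hB
  exact ⟨v0, hvN, hv0, hv1, a, b', x, hh, lam, hX', hO⟩

end ctx

/-! ### class level -/

section cls

variable {s : ℝ} {a b : Fin 2} {Vis Vis' : Fin 12 → Prop} {θa θb g qa qb : ℝ}

theorem b8_mem0 {w : Fin 8 → ℝ} (hw : Leg80 w) : b8 w ∈ coneL := by
  rw [coneL_PP, mem_cone]
  obtain ⟨⟨f1, f2, f3, f4, f5, f6, f7⟩, f8, f9, f10⟩ := hw
  have hv : ∀ i : Fin 12, i ≠ 1 → b8 w i = w (cl8 i) := fun i hi => b8_val w hi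
  have q0 : b8 w 0 = w 0 := hv 0 (by decide)
  have q1 : b8 w 1 = 0 := b8_one w
  have q2 : b8 w 2 = w 7 := hv 2 (by decide)
  have q3 : b8 w 3 = w 1 := hv 3 (by decide)
  have q4 : b8 w 4 = w 1 := hv 4 (by decide)
  have q5 : b8 w 5 = w 3 := hv 5 (by decide)
  have q6 : b8 w 6 = w 3 := hv 6 (by decide)
  have q7 : b8 w 7 = w 6 := hv 7 (by decide)
  have q8 : b8 w 8 = w 6 := hv 8 (by decide)
  have q9 : b8 w 9 = w 5 := hv 9 (by decide)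
  have q10 : b8 w 10 = w 2 := hv 10 (by decide)
  have q11 : b8 w 11 = w 4 := hv 11 (by decide)
  unfold Wl
  rw [q0, q1, q2, q3, q4, q5, q6, q7, q8, q9, q10, q11]
  refine ⟨?_, ?_, ?_, ?_, ?_, ?_, ?_, ?_, ?_, ?_, ?_, ?_, ?_, ?_, ?_, ?_⟩ <;> linarith

theorem leg80_smul {w : Fin 8 → ℝ} (hw : Leg80 w) {y : ℝ} (hy : 0 ≤ y) : Leg80 (y • w) := by
  obtain ⟨f0, f8, f9, f10⟩ := hw
  refine ⟨leg8_smul f0 hy, ?_, ?_, ?_⟩ <;> simp only [Pi.smul_apply, smul_eq_mul] <;>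
    nlinarith



/-- natural boxes whose `D` is not finer than the record are below the class box -/
theorem eL_le_b8 {v c p : ℝ} (hD : p ≤ 2 * c + v) {w : Fin 8 → ℝ} (hn : nat8 v c p ≤ w) :
    eL v c p ≤ b8 w := by
  intro k
  by_cases hk : k = 1
  · subst hk
    rw [b8_one]
    change p - 2 * c - v ≤ 0
    linarith
  · rw [b8_val w hk]
    have h1 := hn (cl8 k)
    refine le_trans (le_of_eq ?_) h1
    fin_cases k <;> first | rfl | exact absurd rfl hk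

/-- **generic point of a half plane, `D` at the record level** -/
theorem half8z {J : Type*} [Finite J] {lam : J → (Fin 12 → ℝ) → ℝ}
    {j0 : J} {K : ℝ} (hL : RecTan (L8 θa θb 0) lam j0 K) {B : Fin 8 → ℝ} {sg : ℝ}
    (hS : SOk (nat8 1 (-θa) (-θb)) B sg) (hB : Leg80 B) {c0 : ℝ} (hc0 : 0 < c0) {ρ : Fin 8 → ℝ}
    (hR : Rates8 θa θb 0 B sg c0 (lam j0) ρ) {κ y : ℝ} (hy : 0 < y)
    (hκ : lam j0 (xt kp 0 (RL8.vec (y • B))) ≤ κ * y) {N : Set (ℝ × ℝ)}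
    (hN : ∀ᵐ z : ℝ × ℝ, z ∈ N) :
    ∃ l α : ℝ, 0 < l ∧ l < y ∧ ((l * sg, α) : ℝ × ℝ) ∈ N ∧ z8 θa θb B l α ∈ L8 θa θb 0 ∧
      ∀ h' : ℕ → ℝ, (∀ m, 0 < h' m) → Tendsto h' atTop (𝓝 0) →
        ∃ (θ : ℕ → ℕ) (lam2 : J → (Fin 12 → ℝ) → ℝ) (ρ2 : Fin 8 → ℝ), StrictMono θ ∧
          (∀ j, IsTan (L8 θa θb 0) (L8B θa θb 0 B sg) (lam j) (fun _ => z8 θa θb B l α)
            (fun m => h' (θ m)) (lam2 j)) ∧
          Half8 θa θb 0 B sg lam j0 ρ κ l α (fun m => h' (θ m)) lam2 ρ2 := by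
  have hp1 : ∀ i, ¬ kp i → r8 θa θb i = 0 := fun i hi => by
    have hi' : i = 1 := not_not.1 hi
    subst hi'
    unfold r8; rw [Function.update_self]
  refine exists_half_xt (Q := mw monL) (p := kp) (hp := kp_hd) (y0 := y8 0) (ρ0 := r8 θa θb)
    (rs_r8 _ _) hp1 hS RL8_full (RL8_mem0 hB) hL.K0 hL.lip hL.mono hL.sup hc0 hR hy ?_ hN
  rw [hL.zero, sub_zero]
  exact hκ

end cls

section out

variable {R s : ℝ} {a b : Fin 2} {Vis Vis' : Fin 12 → Prop} {θa θb g qa qb : ℝ} {T : Type*}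
    {Bs : T → Fin 8 → ℝ} {sgs : T → ℝ} {x0 : Fin 12 → ℝ} {f : Fin 2 → (Fin 12 → ℝ) → ℝ}
    {x : ℕ → Fin 12 → ℝ} {hh : ℕ → ℝ} {lam : Fin 2 → (Fin 12 → ℝ) → ℝ} {B : Fin 8 → ℝ} {sg : ℝ}

theorem Out8z.recTan (O : Out8z R s a b Vis θa θb g qa qb Bs sgs x0 f x hh lam)
    (hβ : 2 * θa - θb - 1 = 0) : RecTan (L8 θa θb 0) lam 0 12 := by
  rw [L8_cone hβ]
  exact ⟨by norm_num, O.lip, O.rx.prf.anti, O.rx.prf.sm, O.zero 0⟩

/-- slope of the D-max bound along an offset which is finer than a natural one -/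
theorem Out8z.kap (O : Out8z R s a b Vis θa θb g qa qb Bs sgs x0 f x hh lam)
    (hL : Leg80 B) {v c p : ℝ} (hn : nat8 v c p ≤ B) (hD : p ≤ 2 * c + v) {y : ℝ} (hy : 0 ≤ y) :
    lam 0 (xt kp 0 (RL8.vec (y • B))) ≤ DL g s qa qb v c p * y := by
  have e : nat8 (y * v) (y * c) (y * p) = y • nat8 v c p := by
    funext i
    fin_cases i <;> simp [nat8] <;> ring
  have h1 : y • nat8 v c p ≤ y • B := by
    intro i
    simp only [Pi.smul_apply, smul_eq_mul]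
    exact mul_le_mul_of_nonneg_left (hn i) hy
  have h2 : eL (y * v) (y * c) (y * p) ≤ b8 (y • B) := by
    refine eL_le_b8 (by nlinarith) ?_
    rw [e]; exact h1
  have hm : eL (y * v) (y * c) (y * p) ∈ coneL := by rw [eL_bx9]; exact natB_mem _ _ _
  have h3 := (O.rx.prf.anti _ hm _ (b8_mem0 (leg80_smul hL hy)) h2).1
  have h4 := O.rx.dmax (y * v) (y * c) (y * p)
  rw [DL_smul] at h4
  unfold b8 at h3
  linarith

/-- **THE GENERIC POINT OF A HALF PLANE, `D` at the record level**: for every sequence of scales,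
tangents of `f = (ν, own)` at the bases `X m = rL (v0 + V m) + E m • B` (slots `≠ 1`), slot `D` =
record level -/
theorem z8z_out (O : Out8z R s a b Vis θa θb g qa qb Bs sgs x0 f x hh lam)
    (hβ : 2 * θa - θb - 1 = 0)
    (hS : SOk (nat8 1 (-θa) (-θb)) B sg) (hL : Leg80 B) {c0 : ℝ} (hc0 : 0 < c0) {ρ : Fin 8 → ℝ}
    (hR : Rates8 θa θb 0 B sg c0 (lam 0) ρ) {v c p : ℝ} (hn : nat8 v c p ≤ B)
    (hD : p ≤ 2 * c + v) (hV1 : ¬ Vis 1)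
    (hV : ∀ k, Vis k → (Vis' k ∧ B (cl8 k) ≤ B 0 * βL θa θb k) ∨ B (cl8 k) < B 0 * βL θa θb k)
    {N : Set (ℝ × ℝ)} (hN : ∀ᵐ z : ℝ × ℝ, z ∈ N) {y : ℝ} (hy : 0 < y) :
    ∃ l α : ℝ, 0 < l ∧ l < y ∧ ((l * sg, α) : ℝ × ℝ) ∈ N ∧ z8 θa θb B l α ∈ coneL ∧
      ∀ k : ℕ → ℝ, (∀ m, 0 < k m) → Tendsto k atTop (𝓝 0) →
        ∀ Pr : ℕ → ℕ → Prop, (∀ m, ∀ᶠ l in atTop, Pr m l) →
        ∃ (φ : ℕ → ℕ) (lam2 : Fin 2 → (Fin 12 → ℝ) → ℝ) (ρ2 : Fin 8 → ℝ) (ψ : ℕ → ℕ),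
          StrictMono φ ∧
          Half8 θa θb 0 B sg lam 0 ρ (DL g s qa qb v c p) l α (fun m => k (φ m)) lam2 ρ2 ∧
          (∀ j, IsTan (L8 θa θb 0) (L8B θa θb 0 B sg) (lam j) (fun _ => z8 θa θb B l α)
            (fun m => k (φ m)) (lam2 j)) ∧
          StrictMono ψ ∧ (∀ m, Pr m (ψ m)) ∧
          (∀ j, IsTan (Leg monL R) (L8B θa θb 0 B sg) (f j)
            (fun m => x (ψ m) + hh (ψ m) • z8 θa θb B l α) (fun m => hh (ψ m) * k (φ m))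
            (lam2 j)) ∧
          Prf (L8B θa θb 0 B sg) s a b Vis' (βL θa θb) (lam2 0) := by
  obtain ⟨l, α, hl, hly, hzN, hzL, H⟩ := half8z (O.recTan hβ) hS hL hc0 hR hy
    (O.kap hL hn hD hy.le) hN
  refine ⟨l, α, hl, hly, hzN, by rwa [L8_cone hβ] at hzL, fun k hk hk0 Pr hPr => ?_⟩
  obtain ⟨φ, lam2, ρ2, hφ, hT, hH⟩ := H k hk hk0
  have hpos' : ∀ m, 0 < k (φ m) := fun m => hk _
  have h0' : Tendsto (fun m => k (φ m)) atTop (𝓝 0) := hk0.comp hφ.tendsto_atTop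
  have hOt : ∀ j, IsTan (Leg monL R) (L8 θa θb 0) (f j) x hh (lam j) := fun j => by
    rw [L8_cone hβ]; exact O.tan j
  obtain ⟨ψ, hψ, hPψ, hTT⟩ := diag_at O.pos hOt hzL hpos' hT hPr
  have hPrf : Prf (L8 θa θb 0) s a b Vis (βL θa θb) (lam 0) := by
    rw [L8_cone hβ]; exact O.rx.prf
  exact ⟨φ, lam2, ρ2, ψ, hφ, hH, hT, hψ, hPψ, hTT, prf_z8 hPrf hl hpos' h0' (hT 0) hV1 hV⟩

/-- the bases, slots `≠ 1` -/
theorem base8z_val {w0 sa sb v0 H y hm l α : ℝ} {k : Fin 12} (hk : k ≠ 1) :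
    (rL θa θb w0 sa sb v0 + H • (y • r9 θa θb) + hm • z8 θa θb B l α) k =
      rL θa θb w0 sa sb (v0 + (H * y + hm * α)) k + hm * l * B (cl8 k) := by
  rw [rL_add]
  simp only [Pi.add_apply, Pi.smul_apply, smul_eq_mul]
  rw [z8_val l α hk]
  have h1 : r9 θa θb k = βL θa θb k := rfl
  rw [h1]
  ring


end out

end Crest.Agent.R116.Rz460
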