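import Crest.Agent.R138.WpkDef_685

-- ▼ part R116/Sl1_850
section

/-!
# R116 (S0155), wave side: eta-slicing, part 1 (helper850): multipliers in the last frequency
variable as averages over translations in the last position variable.

`ex h g X s = ∫ g ζ ee(⟨X,ζ⟩ + s h ζ)` on `E3`, any measurable phase `h`; `ey` = last unit vector;
`φ (ζ₂/κ - l) g` has `ex = ∫ K(u) ee(-u l) ex h g (X + (u/κ) ey) s du`, `K` = Fourier transform of
`φ`, rapidly decreasing.
-/

set_option autoImplicit false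

open MeasureTheory FourierTransform
open scoped ContDiff ENNReal

namespace Crest.Agent.R116.Sl850

open Crest.Agent.R138.Defs Crest.Agent.R138.Wpk685

/-- three-space of frequencies and of positions at fixed time. -/
abbrev E3 := EuclideanSpace ℝ (Fin 3)

/-- the extension operator in `ℝ³ × ℝ` with phase `h`. -/
noncomputable def ex (h : E3 → ℝ) (g : E3 → ℂ) (X : E3) (s : ℝ) : ℂ :=
  ∫ ζ, g ζ * ee (inner ℝ X ζ + s * h ζ)

/-- last unit vector. -/
noncomputable def ey : E3 := EuclideanSpace.single 2 1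

theorem inner_ey (ζ : E3) : inner ℝ ey ζ = ζ 2 := by
  unfold ey
  rw [EuclideanSpace.inner_single_left]
  simp


/-! ### one dimensional kernels -/

theorem kern {φ : ℝ → ℂ} (h1 : HasCompactSupport φ) (h2 : ContDiff ℝ ∞ φ) :
    ∃ K : ℝ → ℂ, Continuous K ∧ Integrable K ∧
      (∀ N : ℕ, ∃ C : ℝ, 0 ≤ C ∧ ∀ u, ‖K u‖ ≤ C * ((1 + |u|) ^ N)⁻¹) ∧
      ∀ x, φ x = ∫ u, K u * ee (u * x) := by
  set f : SchwartzMap ℝ ℂ := h1.toSchwartzMap h2 with hf
  set F : SchwartzMap ℝ ℂ := 𝓕 f with hF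
  refine ⟨F, F.continuous, F.integrable, fun N => ?_, fun x => ?_⟩
  · refine ⟨2 ^ N * (Finset.Iic (N, 0)).sup (fun m => SchwartzMap.seminorm ℝ m.1 m.2) F,
      by positivity, fun u => ?_⟩
    have h := SchwartzMap.one_add_le_sup_seminorm_apply (𝕜 := ℝ) (m := (N, 0)) (k := N) (n := 0)
      le_rfl le_rfl F u
    rw [norm_iteratedFDeriv_zero, Real.norm_eq_abs, mul_comm] at h
    rw [← div_eq_mul_inv, le_div_iff₀ (by positivity)]
    exact h
  · have e1 : φ x = 𝓕⁻ F x := by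
      rw [hF, FourierTransform.fourierInv_fourier_eq]
      rfl
    rw [e1, SchwartzMap.fourierInv_coe, Real.fourierInv_eq']
    congr 1
    ext u
    rw [smul_eq_mul, mul_comm]
    unfold ee
    congr 2
    simp only [RCLike.inner_apply, conj_trivial]
    push_cast
    ring

/-! ### multipliers in the last frequency variable -/

theorem ex_shift (h : E3 → ℝ) (g : E3 → ℂ) (X : E3) (s a : ℝ) :
    ex h g (X + a • ey) s = ∫ ζ, g ζ * ee (inner ℝ X ζ + s * h ζ) * ee (a * ζ 2) := by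
  unfold ex
  congr 1
  ext ζ
  rw [inner_add_left, inner_smul_left, inner_ey, mul_assoc, ← ee_add]
  congr 2
  simp only [conj_trivial]
  ring

/-- the basic formula. -/
theorem ex_mult {h : E3 → ℝ} (hh : Measurable h) {φ K : ℝ → ℂ} (hK : Integrable K)
    (hφ : ∀ x, φ x = ∫ u, K u * ee (u * x)) {g : E3 → ℂ} (hg : Integrable g) (κ l : ℝ)
    (X : E3) (s : ℝ) :
    ex h (fun ζ => φ (ζ 2 / κ - l) * g ζ) X s =
      ∫ u, K u * ee (-(u * l)) * ex h g (X + (u / κ) • ey) s := by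
  have e1 : ∀ ζ : E3, φ (ζ 2 / κ - l) * g ζ * ee (inner ℝ X ζ + s * h ζ) =
      ∫ u, K u * ee (-(u * l)) * (g ζ * ee (inner ℝ X ζ + s * h ζ) * ee (u / κ * ζ 2)) := by
    intro ζ
    rw [hφ, mul_assoc, ← integral_mul_const]
    congr 1
    ext u
    have : ee (u * (ζ 2 / κ - l)) = ee (-(u * l)) * ee (u / κ * ζ 2) := by
      rw [← ee_add]
      congr 1
      ring
    rw [this]
    ring
  have hm : Integrable (Function.uncurry fun (ζ : E3) (u : ℝ) =>
      K u * ee (-(u * l)) * (g ζ * ee (inner ℝ X ζ + s * h ζ) * ee (u / κ * ζ 2)))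
      ((volume : Measure E3).prod (volume : Measure ℝ)) := by
    have h1 : Integrable (fun z : E3 × ℝ => g z.1 * K z.2)
        ((volume : Measure E3).prod (volume : Measure ℝ)) := hg.mul_prod hK
    refine h1.congr' ?_ ?_
    · have hm1 : AEStronglyMeasurable (fun z : E3 × ℝ => g z.1)
          ((volume : Measure E3).prod (volume : Measure ℝ)) := hg.aestronglyMeasurable.comp_fst
      have hm2 : AEStronglyMeasurable (fun z : E3 × ℝ => K z.2)
          ((volume : Measure E3).prod (volume : Measure ℝ)) := hK.aestronglyMeasurable.comp_snd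
      have hme : Measurable ee := continuous_ee.measurable
      have c1 : AEStronglyMeasurable (fun z : E3 × ℝ => ee (-(z.2 * l)))
          ((volume : Measure E3).prod (volume : Measure ℝ)) :=
        (hme.comp (by fun_prop)).aestronglyMeasurable
      have c2 : AEStronglyMeasurable (fun z : E3 × ℝ => ee (inner ℝ X z.1 + s * h z.1))
          ((volume : Measure E3).prod (volume : Measure ℝ)) :=
        (hme.comp (by fun_prop)).aestronglyMeasurable
      have c3 : AEStronglyMeasurable (fun z : E3 × ℝ => ee (z.2 / κ * z.1 2))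
          ((volume : Measure E3).prod (volume : Measure ℝ)) :=
        (hme.comp (by fun_prop)).aestronglyMeasurable
      exact (hm2.mul c1).mul ((hm1.mul c2).mul c3)
    · refine Filter.Eventually.of_forall fun z => ?_
      simp only [Function.uncurry, norm_mul, norm_ee, mul_one]
      ring
  calc ex h (fun ζ => φ (ζ 2 / κ - l) * g ζ) X s
      = ∫ ζ, ∫ u, K u * ee (-(u * l)) *
          (g ζ * ee (inner ℝ X ζ + s * h ζ) * ee (u / κ * ζ 2)) := by
        unfold ex
        exact integral_congr_ae (Filter.Eventually.of_forall e1)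
    _ = ∫ u, ∫ ζ, K u * ee (-(u * l)) *
          (g ζ * ee (inner ℝ X ζ + s * h ζ) * ee (u / κ * ζ 2)) := integral_integral_swap hm
    _ = _ := by
        congr 1
        ext u
        rw [integral_const_mul, ex_shift]

/-- the formula at a displaced point. -/
theorem ex_mult_shift {h : E3 → ℝ} (hh : Measurable h) {φ K : ℝ → ℂ} (hK : Integrable K)
    (hφ : ∀ x, φ x = ∫ u, K u * ee (u * x)) {g : E3 → ℂ} (hg : Integrable g) {κ : ℝ} (hκ : κ ≠ 0)
    (l : ℝ) (X : E3) (s v : ℝ) :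
    ex h (fun ζ => φ (ζ 2 / κ - l) * g ζ) (X + v • ey) s =
      ∫ u, K (u - κ * v) * ee (-((u - κ * v) * l)) * ex h g (X + (u / κ) • ey) s := by
  rw [ex_mult hh hK hφ hg κ l (X + v • ey) s,
    ← integral_sub_right_eq_self (fun u => K u * ee (-(u * l)) *
      ex h g (X + v • ey + (u / κ) • ey) s) (κ * v)]
  congr 1
  ext u
  congr 2
  have : X + v • ey + ((u - κ * v) / κ) • ey = X + (u / κ) • ey := by
    rw [add_assoc, ← add_smul]
    congr 2
    field_simp
    ring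
  exact this

end Crest.Agent.R116.Sl850
end

-- ▼ part R116/Sl2_850

/-!
# R116 (S0155), wave side: eta-slicing, part 2 (helper850): weighted `L^p` bounds for multipliers in
the last frequency variable (Jensen), in pointwise, weighted and set form.
-/

set_option autoImplicit false

open MeasureTheory FourierTransform
open scoped ContDiff ENNReal

namespace Crest.Agent.R116.Sl850

open Crest.Agent.R138.Defs Crest.Agent.R138.Wpk685

/-! ### Jensen with a weight -/

theorem jensen {α : Type*} [MeasurableSpace α] {μ : Measure α} {p : ℝ} (hp : 1 ≤ p)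
    {k F : α → ℝ≥0∞} (hk : AEMeasurable k μ) (hF : AEMeasurable F μ) :
    (∫⁻ a, k a * F a ∂μ) ^ p ≤ (∫⁻ a, k a ∂μ) ^ (p - 1) * ∫⁻ a, k a * F a ^ p ∂μ := by
  rcases hp.eq_or_lt with h1 | h1
  · subst h1
    simp
  have hpq : p.HolderConjugate (Real.conjExponent p) := Real.HolderConjugate.conjExponent h1
  set q := Real.conjExponent p with hq
  have hq0 : 0 < q := hpq.symm.pos
  have hp0 : 0 < p := by linarith
  have h2 := ENNReal.lintegral_mul_le_Lp_mul_Lq μ hpq.symm (f := fun a => k a ^ (1 / q))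
    (g := fun a => k a ^ (1 / p) * F a) (hk.pow_const _) ((hk.pow_const _).mul hF)
  have e1 : ∀ a, ((fun a => k a ^ (1 / q)) * fun a => k a ^ (1 / p) * F a) a = k a * F a := by
    intro a
    simp only [Pi.mul_apply]
    rw [← mul_assoc, ← ENNReal.rpow_add_of_nonneg _ _ (by positivity) (by positivity)]
    have : 1 / q + 1 / p = 1 := by
      have := hpq.symm.inv_add_inv_eq_one
      simpa [one_div] using this
    rw [this, ENNReal.rpow_one]
  have e2 : ∀ a, (k a ^ (1 / q)) ^ q = k a := by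
    intro a
    rw [← ENNReal.rpow_mul, one_div, inv_mul_cancel₀ hq0.ne', ENNReal.rpow_one]
  have e3 : ∀ a, (k a ^ (1 / p) * F a) ^ p = k a * F a ^ p := by
    intro a
    rw [ENNReal.mul_rpow_of_nonneg _ _ hp0.le, ← ENNReal.rpow_mul, one_div,
      inv_mul_cancel₀ hp0.ne', ENNReal.rpow_one]
  rw [lintegral_congr e1, lintegral_congr e2, lintegral_congr e3] at h2
  calc (∫⁻ a, k a * F a ∂μ) ^ p
      ≤ ((∫⁻ a, k a ∂μ) ^ (1 / q) * (∫⁻ a, k a * F a ^ p ∂μ) ^ (1 / p)) ^ p := by gcongr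
    _ = _ := by
      rw [ENNReal.mul_rpow_of_nonneg _ _ hp0.le, ← ENNReal.rpow_mul, ← ENNReal.rpow_mul, one_div p,
        inv_mul_cancel₀ hp0.ne', ENNReal.rpow_one]
      congr 2
      have h3 := hpq.symm.inv_add_inv_eq_one
      have h4 : q⁻¹ = 1 - p⁻¹ := by linarith
      rw [one_div, h4]
      field_simp

/-! ### the rapidly decreasing weight -/

/-- the weight. -/
noncomputable def wN (N : ℕ) (u : ℝ) : ℝ≥0∞ := ENNReal.ofReal (((1 + |u|) ^ N)⁻¹)

theorem wN_meas (N : ℕ) : Measurable (wN N) := by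
  unfold wN
  fun_prop

theorem wN_ne_top (N : ℕ) (u : ℝ) : wN N u ≠ ⊤ := ENNReal.ofReal_ne_top

theorem wN_shift (N : ℕ) {u v : ℝ} (hv : |v| ≤ 1) : wN N (u - v) ≤ ENNReal.ofReal (2 ^ N) * wN N u := by
  unfold wN
  rw [← ENNReal.ofReal_mul (by positivity)]
  refine ENNReal.ofReal_le_ofReal ?_
  have h1 : 1 + |u| ≤ 2 * (1 + |u - v|) := by
    have : |u| ≤ |u - v| + |v| := by
      calc |u| = |(u - v) + v| := by ring_nf
        _ ≤ _ := abs_add_le _ _
    linarith [abs_nonneg (u - v)]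
  rw [← div_eq_mul_inv, le_div_iff₀ (by positivity)]
  calc ((1 + |u - v|) ^ N)⁻¹ * (1 + |u|) ^ N ≤ ((1 + |u - v|) ^ N)⁻¹ * (2 * (1 + |u - v|)) ^ N := by
        gcongr
    _ = 2 ^ N := by
        rw [mul_pow]
        field_simp

theorem wN_anti {M N : ℕ} (h : M ≤ N) (u : ℝ) : wN N u ≤ wN M u := by
  unfold wN
  refine ENNReal.ofReal_le_ofReal (inv_anti₀ (by positivity) ?_)
  exact pow_le_pow_right₀ (by linarith [abs_nonneg u]) h

theorem wN_int {N : ℕ} (hN : 2 ≤ N) : ∫⁻ u, wN N u < ⊤ := by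
  refine (lintegral_mono fun u => wN_anti hN u).trans_lt ?_
  have h1 : ∫⁻ s : ℝ, ENNReal.ofReal ((1 + ‖s‖) ^ (-(2:ℝ))) < ⊤ := by
    apply finite_integral_one_add_norm
    norm_num
  refine (lintegral_mono fun u => ?_).trans_lt h1
  unfold wN
  rw [Real.rpow_neg (by positivity), Real.rpow_two, Real.norm_eq_abs]

/-! ### continuity -/

theorem ex_cont {h : E3 → ℝ} (hh : Measurable h) {g : E3 → ℂ} (hg : Integrable g) :
    Continuous fun p : E3 × ℝ => ex h g p.1 p.2 := by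
  unfold ex
  refine continuous_of_dominated (bound := fun ζ => ‖g ζ‖) ?_ ?_ hg.norm ?_
  · intro p
    refine hg.aestronglyMeasurable.mul ?_
    exact (continuous_ee.measurable.comp (by fun_prop)).aestronglyMeasurable
  · intro p
    refine Filter.Eventually.of_forall fun ζ => ?_
    rw [norm_mul, norm_ee, mul_one]
  · refine Filter.Eventually.of_forall fun ζ => ?_
    refine continuous_const.mul (continuous_ee.comp ?_)
    fun_prop

theorem ex_cont_comp {α : Type*} [TopologicalSpace α] {h : E3 → ℝ} (hh : Measurable h)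
    {g : E3 → ℂ} (hg : Integrable g) {f : α → E3} {k : α → ℝ} (hf : Continuous f)
    (hk : Continuous k) : Continuous fun a => ex h g (f a) (k a) := by
  have h1 : Continuous fun a => (f a, k a) := hf.prodMk hk
  have h2 := (ex_cont hh hg).comp h1
  exact h2


/-! ### the pointwise bound -/

/-- the multiplier `φ(ζ₂/κ - l)`. -/
noncomputable def mul2 (φ : ℝ → ℂ) (κ l : ℝ) (g : E3 → ℂ) (ζ : E3) : ℂ := φ (ζ 2 / κ - l) * g ζ

theorem point_p {φ : ℝ → ℂ} (h1 : HasCompactSupport φ) (h2 : ContDiff ℝ ∞ φ) {p : ℝ} (hp : 1 ≤ p)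
    (N : ℕ) : ∃ C : ℝ, 0 ≤ C ∧ ∀ h : E3 → ℝ, Measurable h → ∀ g : E3 → ℂ, Integrable g →
      ∀ κ : ℝ, 0 < κ → ∀ (l : ℝ) (X : E3) (s v : ℝ), |v| ≤ κ⁻¹ →
      ‖ex h (mul2 φ κ l g) (X + v • ey) s‖ₑ ^ p ≤
        ENNReal.ofReal C * ∫⁻ u, wN N u * ‖ex h g (X + (u / κ) • ey) s‖ₑ ^ p := by
  obtain ⟨K, hKc, hKi, hKd, hφ⟩ := kern h1 h2
  obtain ⟨C, hC, hCd⟩ := hKd N
  have hp0 : 0 < p := by linarith
  have hfin : ∫⁻ u, ‖K u‖ₑ ≠ ⊤ := hKi.hasFiniteIntegral.ne
  refine ⟨(∫⁻ u, ‖K u‖ₑ).toReal ^ (p - 1) * (C * 2 ^ N), by positivity, ?_⟩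
  intro h hh g hg κ hκ l X s v hv
  have e1 : ex h (mul2 φ κ l g) (X + v • ey) s =
      ∫ u, K (u - κ * v) * ee (-((u - κ * v) * l)) * ex h g (X + (u / κ) • ey) s :=
    ex_mult_shift hh hKi hφ hg hκ.ne' l X s v
  have hcx : Continuous fun u : ℝ => ex h g (X + (u / κ) • ey) s :=
    ex_cont_comp hh hg (by fun_prop) continuous_const
  have e2 : ‖ex h (mul2 φ κ l g) (X + v • ey) s‖ₑ ≤
      ∫⁻ u, ‖K (u - κ * v)‖ₑ * ‖ex h g (X + (u / κ) • ey) s‖ₑ := by
    rw [e1]
    refine (enorm_integral_le_lintegral_enorm _).trans_eq ?_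
    refine lintegral_congr fun u => ?_
    have : ‖ee (-((u - κ * v) * l))‖ₑ = 1 := by
      rw [← ofReal_norm, norm_ee, ENNReal.ofReal_one]
    rw [enorm_mul, enorm_mul, this, mul_one]
  have hkm : Measurable fun u : ℝ => ‖K (u - κ * v)‖ₑ :=
    (hKc.comp (by fun_prop)).measurable.enorm
  have e3 : ∫⁻ u, ‖K (u - κ * v)‖ₑ = ∫⁻ u, ‖K u‖ₑ :=
    lintegral_sub_right_eq_self (fun u => ‖K u‖ₑ) (κ * v)
  have hkv : |κ * v| ≤ 1 := by
    rw [abs_mul, abs_of_pos hκ]
    calc κ * |v| ≤ κ * κ⁻¹ := by gcongr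
      _ = 1 := mul_inv_cancel₀ hκ.ne'
  have e4 : ∀ u, ‖K (u - κ * v)‖ₑ ≤ ENNReal.ofReal (C * 2 ^ N) * wN N u := by
    intro u
    have h3 : ‖K (u - κ * v)‖ₑ ≤ ENNReal.ofReal C * wN N (u - κ * v) := by
      rw [← ofReal_norm]
      unfold wN
      rw [← ENNReal.ofReal_mul hC]
      exact ENNReal.ofReal_le_ofReal (hCd _)
    refine h3.trans ?_
    rw [ENNReal.ofReal_mul hC, mul_assoc]
    gcongr
    exact wN_shift N hkv
  calc ‖ex h (mul2 φ κ l g) (X + v • ey) s‖ₑ ^ p
      ≤ (∫⁻ u, ‖K (u - κ * v)‖ₑ * ‖ex h g (X + (u / κ) • ey) s‖ₑ) ^ p := by gcongr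
    _ ≤ (∫⁻ u, ‖K (u - κ * v)‖ₑ) ^ (p - 1) *
        ∫⁻ u, ‖K (u - κ * v)‖ₑ * ‖ex h g (X + (u / κ) • ey) s‖ₑ ^ p :=
      jensen hp hkm.aemeasurable hcx.measurable.enorm.aemeasurable
    _ ≤ (∫⁻ u, ‖K u‖ₑ) ^ (p - 1) *
        ∫⁻ u, ENNReal.ofReal (C * 2 ^ N) * (wN N u * ‖ex h g (X + (u / κ) • ey) s‖ₑ ^ p) := by
      rw [e3]
      refine mul_le_mul_right (lintegral_mono fun u => ?_) _
      rw [← mul_assoc]
      exact mul_le_mul_left (e4 u) _
    _ = _ := by
      rw [lintegral_const_mul' _ _ ENNReal.ofReal_ne_top, ← mul_assoc]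
      congr 1
      rw [ENNReal.ofReal_mul (p := (∫⁻ u, ‖K u‖ₑ).toReal ^ (p - 1)) (by positivity),
        ← ENNReal.ofReal_rpow_of_nonneg ENNReal.toReal_nonneg (by linarith), ENNReal.ofReal_toReal hfin]



end Crest.Agent.R116.Sl850
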