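import Crest.Agent.R116.GlC_210
import Crest.Agent.R116.PDf2_299
import Crest.Agent.R116.StepC1_367
import Crest.Agent.R116.TuL_890
import Crest.Agent.R138.Chi_101
import Crest.Agent.R116.AlB3_888
import Crest.Agent.R116.Lk1_367
import Crest.Agent.R116.F1c4_124

-- ▼ part R116/SlbC1_367
section

/-!
# R116 (S0155), WAVE side, `SLAB` from `STEP_C` (helper367), part 1: the class of a phase point

`clsC` = class of a child phase point `(m, y)`: dyadic index of the density `Adc` and of the coherence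
count `potc` (with respect to its own normal).  Port of `Chi_101`, `Stp1_210` to the cone.
-/

set_option autoImplicit false

open MeasureTheory FourierTransform
open scoped ENNReal

namespace Crest.Agent.R116.Slb367

open Crest.Agent.R138.Defs (E2 ee)
open Crest.Agent.R138.Wpk685 (cen caps)
open Crest.Agent.R138.Rect779 (RectF orth)
open Crest.Agent.R138.Acl101 (clsA pcnt pr dy)
open Crest.Agent.R138.Loc878 (nearL)
open Crest.Agent.R116.CDef480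
open Crest.Agent.R116.LZg725 (Cf)
open Crest.Agent.R116.Gc192 (un crs)
open Crest.Agent.R116.AlB888 (Adc potc)
open Crest.Agent.R116.WC188
open Crest.Agent.R116.PC299
open Crest.Agent.R116.Bas367
open Crest.Agent.R116.GlC210 (Lev LevOk Next Aux Cls Tow AuxF trn Acl Rg Kp argc AuxOk)

/-! ### the rectangle relation -/

/-- rectangle relation of `potc`. -/
def RcC (θ' θ'' : ℝ) (N : E2) (m m' : ℤ × ℤ) : Prop :=
  cen θ' m' ∈ RectF N (cen θ' m) (16 * θ'') (64 * θ')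

theorem RcC_refl {θ' θ'' : ℝ} (h1 : 0 ≤ θ') (h2 : 0 ≤ θ'') (N : E2) (m : ℤ × ℤ) :
    RcC θ' θ'' N m m := by
  unfold RcC RectF
  simp only [Set.mem_ofPred_eq, sub_self, norm_zero]
  refine ⟨by positivity, ?_⟩
  unfold orth
  simp only [inner_zero_right, zero_smul, sub_self, norm_zero]
  positivity

theorem measurable_orth (v : E2) : Measurable fun N : E2 => orth N v := by
  unfold orth
  have h1 : Continuous fun N : E2 => inner ℝ N v := continuous_id.inner continuous_const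
  exact (h1.smul continuous_id).measurable.const_sub v

theorem RcC_meas (θ' θ'' : ℝ) (m m' : ℤ × ℤ) {N : E3 → E2} (hN : Measurable N) :
    MeasurableSet {y | RcC θ' θ'' (N y) m m'} := by
  have h : {y | RcC θ' θ'' (N y) m m'} = {_y : E3 | ‖cen θ' m' - cen θ' m‖ ≤ 16 * θ''} ∩
      {y | ‖orth (N y) (cen θ' m' - cen θ' m)‖ ≤ 64 * θ'} := rfl
  rw [h]
  exact (MeasurableSet.const _).inter
    (measurableSet_le ((measurable_orth _).comp hN).norm measurable_const)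

/-- the density at the displaced point. -/
noncomputable def Ay (n : ℕ) (θ κ θ' : ℝ) (g : E3 → ℂ) (S : ℤ × ℤ → Set E3) (Z : E3 × ℝ)
    (m : ℤ × ℤ) (y : E3) : ℝ≥0∞ := Adc n θ κ θ' g S m (Z.1 + y) Z.2

theorem potc_eq (n : ℕ) (θ κ θ' θ'' K0 : ℝ) (g : E3 → ℂ) (S : ℤ × ℤ → Set E3) (N : E2)
    (Z : E3 × ℝ) (m : ℤ × ℤ) (y : E3) :
    potc n θ κ θ' θ'' K0 g S N m (Z.1 + y) Z.2 =
      pcnt (caps θ') (Ay n θ κ θ' g S Z) (RcC θ' θ'') (ENNReal.ofReal K0) N m y := rfl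

/-! ### the class -/

/-- **the class** of a child phase point `(m, y)` in the relative frame `Z`, with respect to its own
normal. -/
noncomputable def clsC (nA : ℕ) (T0 K0 : ℝ) (n : ℕ) (θ κ θ' θ'' : ℝ) (g : E3 → ℂ)
    (S : ℤ × ℤ → Set E3) (Z : E3 × ℝ) (f : Cf E2) (m : ℤ × ℤ) (y : E3) : ℕ :=
  clsA nA (ENNReal.ofReal T0) (caps θ') (Ay n θ κ θ' g S Z) (RcC θ' θ'') (ENNReal.ofReal K0)
    (nP θ' f m y) m y

theorem Ay_meas {n : ℕ} {θ κ θ' : ℝ} {g : E3 → ℂ} (hg : Integrable g) (S : ℤ × ℤ → Set E3)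
    (Z : E3 × ℝ) (m : ℤ × ℤ) : Measurable (Ay n θ κ θ' g S Z m) := by
  unfold Ay Adc Cad538.Acc
  exact (Cad538.Den_meas (fun m' _ => umc_meas_sq hg θ m') Z.2).comp (measurable_const_add Z.1)

variable {nA : ℕ} {T0 K0 : ℝ} {n : ℕ} {θ κ θ' θ'' : ℝ} {g : E3 → ℂ} {S : ℤ × ℤ → Set E3}

theorem pcnt_meas (hg : Integrable g) (Z : E3 × ℝ) (f : Cf E2) (m : ℤ × ℤ) :
    Measurable fun y => pcnt (caps θ') (Ay n θ κ θ' g S Z) (RcC θ' θ'') (ENNReal.ofReal K0)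
      (nP θ' f m y) m y := by
  classical
  have e : (fun y => pcnt (caps θ') (Ay n θ κ θ' g S Z) (RcC θ' θ'') (ENNReal.ofReal K0)
      (nP θ' f m y) m y) = fun y => ∑ m' ∈ caps θ',
      if RcC θ' θ'' (nP θ' f m y) m m' ∧ Ay n θ κ θ' g S Z m y ≤
        ENNReal.ofReal K0 * Ay n θ κ θ' g S Z m' y then 1 else 0 := by
    funext y
    unfold pcnt
    rw [Finset.card_filter]
  rw [e]
  refine Finset.measurable_fun_sum _ fun m' _ => ?_
  refine Measurable.ite ?_ measurable_const measurable_const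
  exact (RcC_meas θ' θ'' m m' (StepC367.nP_meas θ' f m)).inter
    (measurableSet_le (Ay_meas hg S Z m) ((Ay_meas hg S Z m').const_mul _))

theorem clsC_meas (hg : Integrable g) (Z : E3 × ℝ) (f : Cf E2) (m : ℤ × ℤ) :
    Measurable (clsC nA T0 K0 n θ κ θ' θ'' g S Z f m) := by
  unfold clsC clsA pr
  have h1 : Measurable fun y => Nat.log 2 (pcnt (caps θ') (Ay n θ κ θ' g S Z) (RcC θ' θ'')
      (ENNReal.ofReal K0) (nP θ' f m y) m y) :=
    (measurable_from_top (f := Nat.log 2)).comp (pcnt_meas hg Z f m)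
  exact ((Crest.Agent.R138.Acl101.measurable_dy nA _).comp (Ay_meas hg S Z m)).add
    (h1.const_mul _)

theorem clsC_lt (Z : E3 × ℝ) (f : Cf E2) (m : ℤ × ℤ) (y : E3) :
    clsC nA T0 K0 n θ κ θ' θ'' g S Z f m y < (nA + 1) * (Nat.log 2 (caps θ').card + 1) :=
  Crest.Agent.R138.Acl101.clsA_lt _ m y

/-- the density of the class `c`. -/
noncomputable def A0 (nA : ℕ) (T0 : ℝ) (c : ℕ) : ℝ := T0 / 2 ^ (c % (nA + 1) + 1)

/-- the coherence number of the class `c`. -/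
noncomputable def p0 (nA : ℕ) (c : ℕ) : ℝ := 2 ^ (c / (nA + 1))

theorem A0_nonneg (hT0 : 0 ≤ T0) (c : ℕ) : 0 ≤ A0 nA T0 c := by unfold A0; positivity

theorem p0_ge (c : ℕ) : 1 ≤ p0 nA c := one_le_pow₀ (by norm_num)

theorem ofReal_A0 (c : ℕ) :
    ENNReal.ofReal (A0 nA T0 c) = ENNReal.ofReal T0 / 2 ^ (c % (nA + 1) + 1) := by
  unfold A0
  rw [ENNReal.ofReal_div_of_pos (by positivity), ENNReal.ofReal_pow (by norm_num)]
  norm_num

/-- **density and count of a point of the class `c`** (not clipped). -/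
theorem cls_point (h1 : 0 ≤ θ') (h2 : 0 ≤ θ'') (hK0 : 1 ≤ K0)
    {Z : E3 × ℝ} {f : Cf E2} {m : ℤ × ℤ} {y : E3} {c : ℕ}
    (hc : clsC nA T0 K0 n θ κ θ' θ'' g S Z f m y = c) (hcn : c % (nA + 1) < nA)
    (hT : Adc n θ κ θ' g S m (Z.1 + y) Z.2 ≤ ENNReal.ofReal T0) (hm : m ∈ caps θ') :
    ENNReal.ofReal (A0 nA T0 c) ≤ Adc n θ κ θ' g S m (Z.1 + y) Z.2 ∧
      Adc n θ κ θ' g S m (Z.1 + y) Z.2 ≤ ENNReal.ofReal (2 * A0 nA T0 c) ∧
      p0 nA c ≤ (potc n θ κ θ' θ'' K0 g S (nP θ' f m y) m (Z.1 + y) Z.2 : ℝ) ∧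
      (potc n θ κ θ' θ'' K0 g S (nP θ' f m y) m (Z.1 + y) Z.2 : ℝ) < 2 * p0 nA c := by
  obtain ⟨a1, a2, a3, a4⟩ := Crest.Agent.R138.Acl101.clsA_spec (A := Ay n θ κ θ' g S Z) hc hcn hT hm
    (RcC_refl h1 h2 (nP θ' f m y) m) (ENNReal.one_le_ofReal.2 hK0)
  rw [ofReal_A0, ENNReal.ofReal_mul (by norm_num), ofReal_A0, ENNReal.ofReal_ofNat, potc_eq]
  refine ⟨a1.le, a2, ?_, ?_⟩
  · unfold p0; exact_mod_cast a3
  · unfold p0; exact_mod_cast a4

/-- tiny class: the density is at most `T0 / 2 ^ nA`. -/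
theorem cls_tiny {Z : E3 × ℝ} {f : Cf E2} {m : ℤ × ℤ} {y : E3} {c : ℕ}
    (hc : clsC nA T0 K0 n θ κ θ' θ'' g S Z f m y = c) (hcn : ¬ c % (nA + 1) < nA)
    (hT : Adc n θ κ θ' g S m (Z.1 + y) Z.2 ≤ ENNReal.ofReal T0) :
    Adc n θ κ θ' g S m (Z.1 + y) Z.2 ≤ ENNReal.ofReal (T0 / 2 ^ nA) := by
  have h := Crest.Agent.R138.Acl101.clsA_tiny (A := Ay n θ κ θ' g S Z) hc hcn hT
  rw [ENNReal.ofReal_div_of_pos (by positivity), ENNReal.ofReal_pow (by norm_num),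
    ENNReal.ofReal_ofNat]
  exact h

/-! ### trivial bound of the coherence count -/

/-- constant of the trivial bound of the coherence count. -/
noncomputable def CP : ℝ := 35 * 259 ^ 2


theorem orth_zero (v : E2) : orth 0 v = v := by
  unfold orth
  rw [inner_zero_left, zero_smul, sub_zero]

theorem potc_le (hθ' : 0 < θ') (hθ : θ' ≤ θ'') {N : E2} (hN : ‖N‖ = 1 ∨ N = 0)
    (m : ℤ × ℤ) (X : E3) (t : ℝ) :
    (potc n θ κ θ' θ'' K0 g S N m X t : ℝ) ≤ CP * (θ'' / θ') := by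
  classical
  have h1 : 1 ≤ θ'' / θ' := by rwa [le_div_iff₀ hθ', one_mul]
  unfold potc
  rcases hN with hN | hN
  · refine (Crest.Agent.R138.Chi101.card_rect_le (N := N) hN hθ' (ξ0 := cen θ' m)
      (L := 16 * θ'') (K := 64) (by linarith) (by norm_num)
      fun m' hm' => (Finset.mem_filter.1 hm').2.1).trans ?_
    rw [mul_div_assoc]
    unfold CP
    have : (2 * (16 * (θ'' / θ') + 1) + 1 : ℝ) ≤ 35 * (θ'' / θ') := by linarith
    calc (2 * (16 * (θ'' / θ') + 1) + 1) * (2 * (1 + 2 * 64) + 1) ^ 2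
        ≤ 35 * (θ'' / θ') * (2 * (1 + 2 * 64) + 1) ^ 2 := by gcongr
      _ = _ := by ring
  · refine (Crest.Agent.R138.Rect779.card_caps_le hθ' (K := 64) (by norm_num) (ξ0 := cen θ' m)
      fun m' hm' => ?_).trans ?_
    · have h2 := ((Finset.mem_filter.1 hm').2.1).2
      rwa [hN, orth_zero] at h2
    · unfold CP
      nlinarith

theorem norm_nP (θ' : ℝ) (f : Cf E2) (m : ℤ × ℤ) (y : E3) : ‖nP θ' f m y‖ = 1 ∨ nP θ' f m y = 0 := by
  unfold nP un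
  by_cases h : f.gr (cen θ' m) (lat y) 0 = 0
  · right
    rw [h, smul_zero]
  · left
    rw [norm_smul, norm_inv, norm_norm, inv_mul_cancel₀ (norm_ne_zero_iff.2 h)]

theorem an_div {r dl : ℝ} (hr : 0 < r) (hd : 0 < dl) :
    an (dl * r) / an r = dl ^ (-(1/2) : ℝ) := by
  unfold an
  rw [Real.mul_rpow hd.le hr.le]
  exact mul_div_cancel_right₀ _ (Real.rpow_pos_of_pos hr _).ne'

/-- the coherence number is bounded by `CP dl^(-1/2)` as soon as the class has a point. -/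
theorem p0_le {r dl : ℝ} (hr : 0 < r) (hd : 0 < dl) (hd1 : dl ≤ 1) (hK0 : 1 ≤ K0)
    {Z : E3 × ℝ} {f : Cf E2} {m : ℤ × ℤ} {y : E3} {c : ℕ}
    (hc : clsC nA T0 K0 n θ κ (an r) (an (dl * r)) g S Z f m y = c) (hcn : c % (nA + 1) < nA)
    (hT : Adc n θ κ (an r) g S m (Z.1 + y) Z.2 ≤ ENNReal.ofReal T0) (hm : m ∈ caps (an r)) :
    p0 nA c ≤ CP * dl ^ (-(1/2) : ℝ) := by
  have h1 : 0 < an r := Real.rpow_pos_of_pos hr _
  have h2 : 0 < an (dl * r) := Real.rpow_pos_of_pos (mul_pos hd hr) _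
  have h3 : an r ≤ an (dl * r) := by
    unfold an
    exact Real.rpow_le_rpow_of_nonpos (mul_pos hd hr) (mul_le_of_le_one_left hr.le hd1)
      (by norm_num)
  refine (cls_point h1.le h2.le hK0 hc hcn hT hm).2.2.1.trans ?_
  rw [← an_div hr hd]
  exact potc_le h1 h3 (norm_nP _ _ _ _) m _ _

/-- the potential: `p0`, truncated at `CP dl^(-1/2)`. -/
noncomputable def pv (nA : ℕ) (dl : ℝ) (c : ℕ) : ℝ := min (p0 nA c) (CP * dl ^ (-(1/2) : ℝ))

theorem pv_ge {dl : ℝ} (hd : 0 < dl) (hd1 : dl ≤ 1) (c : ℕ) : 1 ≤ pv nA dl c := by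
  refine le_min (p0_ge c) ?_
  have h1 : (1:ℝ) ≤ dl ^ (-(1/2) : ℝ) := Real.one_le_rpow_of_pos_of_le_one_of_nonpos hd hd1 (by norm_num)
  unfold CP
  linarith

theorem pv_le (dl : ℝ) (c : ℕ) : pv nA dl c ≤ CP * dl ^ (-(1/2) : ℝ) := min_le_right _ _

theorem pv_eq {dl : ℝ} {c : ℕ} (hc : p0 nA c ≤ CP * dl ^ (-(1/2) : ℝ)) : pv nA dl c = p0 nA c :=
  min_eq_left hc

/-! ### number of classes -/

/-- number of dyadic classes of the density. -/
noncomputable def nAR (Ma : ℕ) (R : ℝ) : ℕ := Ma * ⌈Real.logb 2 R⌉₊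

/-- number of auxiliary classes. -/
noncomputable def naR (Ma : ℕ) (R : ℝ) : ℕ := 8 * ((nAR Ma R + 1) * (Nat.log 2 ⌊R⌋₊ + 1))

theorem naR_pos (Ma : ℕ) (R : ℝ) : 1 ≤ naR Ma R := by
  unfold naR
  have : 0 < (nAR Ma R + 1) * (Nat.log 2 ⌊R⌋₊ + 1) := by positivity
  omega

theorem naR_le (Ma : ℕ) (hMa : 1 ≤ Ma) {η : ℝ} (hη : 0 < η) :
    ∃ C : ℝ, ∀ R, 1 ≤ R → (naR Ma R : ℝ) ≤ C * R ^ η := by
  obtain ⟨C, hC, H⟩ := Crest.Agent.R138.Acl101.nb_bound hη Ma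
  refine ⟨8 * C, fun R hR => ?_⟩
  have h1 : ((⌊R⌋₊ : ℕ) : ℝ) ≤ R ^ Ma := by
    refine (Nat.floor_le (by linarith)).trans ?_
    calc R = R ^ 1 := (pow_one R).symm
      _ ≤ R ^ Ma := pow_le_pow_right₀ hR hMa
  have h2 := H R ⌊R⌋₊ hR h1
  unfold naR nAR
  push_cast at h2 ⊢
  linarith

theorem log_caps {R r' : ℝ} (hr : 1 ≤ r') (hrR : r' ≤ R) :
    Nat.log 2 (caps (an r')).card + 1 ≤ 8 * (Nat.log 2 ⌊R⌋₊ + 1) := by
  have hr0 : 0 < r' := by linarith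
  have h0 : 0 < an r' := Real.rpow_pos_of_pos hr0 _
  have h1 : an r' ≤ 1 := Real.rpow_le_one_of_one_le_of_nonpos hr (by norm_num)
  have h2 := Crest.Agent.R138.Acl101.card_caps h0 h1
  have h3 : ((an r')⁻¹) ^ 2 = r' := by
    unfold an
    rw [← Real.rpow_neg hr0.le, neg_neg, ← Real.rpow_natCast, ← Real.rpow_mul hr0.le]
    norm_num
  rw [h3] at h2
  set l := Nat.log 2 ⌊R⌋₊ with hl
  have h4 : (⌊R⌋₊ : ℕ) < 2 ^ (l + 1) := Nat.lt_pow_succ_log_self (by norm_num) _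
  have h5 : R < 2 ^ (l + 1) := by
    have := Nat.lt_floor_add_one R
    have h6 : ((⌊R⌋₊ : ℕ) : ℝ) + 1 ≤ 2 ^ (l + 1) := by exact_mod_cast h4
    linarith
  have h6 : (caps (an r')).card < 2 ^ (l + 8) := by
    have : ((caps (an r')).card : ℝ) < 2 ^ (l + 8) := by
      calc ((caps (an r')).card : ℝ) ≤ 81 * r' := h2
        _ ≤ 81 * R := by gcongr
        _ < 128 * 2 ^ (l + 1) := by
            have : (0:ℝ) < 2 ^ (l + 1) := by positivity
            linarith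
        _ = 2 ^ (l + 8) := by rw [show l + 8 = (l + 1) + 7 by ring, pow_add]; norm_num; ring
    exact_mod_cast this
  have h7 : Nat.log 2 (caps (an r')).card < l + 8 := by
    rcases Nat.eq_zero_or_pos (caps (an r')).card with h | h
    · rw [h]; simp
    · exact (Nat.log_lt_iff_lt_pow (by norm_num) h.ne').2 h6
  omega

theorem clsC_lt' {Ma : ℕ} {R r' : ℝ} (hr : 1 ≤ r') (hrR : r' ≤ R) (Z : E3 × ℝ) (f : Cf E2)
    (m : ℤ × ℤ) (y : E3) :
    clsC (nAR Ma R) T0 K0 n θ κ (an r') θ'' g S Z f m y < naR Ma R := by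
  refine (clsC_lt _ _ _ _).trans_le ?_
  unfold naR
  calc (nAR Ma R + 1) * (Nat.log 2 (caps (an r')).card + 1)
      ≤ (nAR Ma R + 1) * (8 * (Nat.log 2 ⌊R⌋₊ + 1)) :=
        Nat.mul_le_mul_left _ (log_caps hr hrR)
    _ = _ := by ring

end Crest.Agent.R116.Slb367
end

-- ▼ part R116/SlbC2_367
section

/-!
# R116 (S0155), WAVE side, `SLAB` from `STEP_C` (helper367), part 2: the class functional

`AF Ma n Cc e1` : the auxiliary class of a phase point of level `j` = the class `clsC` relative to the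
selection of the dominating label of level `j - 1`, with `K0 = Cc (R^e1)^n`.
-/

set_option autoImplicit false

open MeasureTheory FourierTransform
open scoped ENNReal

namespace Crest.Agent.R116.Slb367

open Crest.Agent.R138.Defs (E2 ee)
open Crest.Agent.R138.Wpk685 (cen caps)
open Crest.Agent.R116.CDef480
open Crest.Agent.R116.LZg725 (Cf)
open Crest.Agent.R116.AlB888 (Adc potc)
open Crest.Agent.R116.WC188
open Crest.Agent.R116.PC299
open Crest.Agent.R116.Bas367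
open Crest.Agent.R116.GlC210 (Lev LevOk Next Aux Cls Tow AuxF trn Acl Rg Kp argc AuxOk)

/-- the parent label which dominates. -/
noncomputable def kap (P : Lev) (r' : ℝ) (z : E3 × ℝ) (m : ℤ × ℤ) (y : E3) : ℕ :=
  argc (an r') (P.pf z) P.n m y

/-- the class relative to the parent level `P`. -/
noncomputable def clsL (Ma n : ℕ) (K0 κ : ℝ) (g : E3 → ℂ) (R dl : ℝ) (P : Lev) (z : E3 × ℝ)
    (f : Cf E2) (m : ℤ × ℤ) (y : E3) : ℕ :=
  clsC (nAR Ma R) (Enc g) K0 n (an P.r) κ (an (dl * P.r)) (an (dl * (dl * P.r))) (trc (P.ζ z) g)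
    (P.sl (P.ζ z) (kap P (dl * P.r) z m y)) (z - P.ζ z) f m y

open Classical in
/-- **the class functional**. -/
noncomputable def AF (Ma n : ℕ) (Cc e1 : ℝ) : AuxF := fun κ _ g R dl L j z f m y =>
  if z ∈ cylc R ∧ clsL Ma n (Cc * (R ^ e1) ^ n) κ g R dl (L (j - 1)) z f m y < naR Ma R then
    clsL Ma n (Cc * (R ^ e1) ^ n) κ g R dl (L (j - 1)) z f m y
  else 0

theorem AF_lt (Ma n : ℕ) (Cc e1 κ η0 : ℝ) (g : E3 → ℂ) (R dl : ℝ) (L : ℕ → Lev) (j : ℕ)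
    (z : E3 × ℝ) (f : Cf E2) (m : ℤ × ℤ) (y : E3) :
    AF Ma n Cc e1 κ η0 g R dl L j z f m y < naR Ma R := by
  classical
  unfold AF
  split_ifs with h
  · exact h.2
  · exact naR_pos Ma R

/-! ### facts of the levels -/

section lev

variable {M κ q A A' a b Cn : ℝ} {K : ℕ} {η0 : ℝ} {C0 : E2} {σ : ℝ} {g : E3 → ℂ} {R : ℝ} {L : Lev}


/-- the functions of a level are good. -/
theorem lev_gd (h : LevOk M κ q A A' a b Cn K η0 C0 σ g R L) (ha : 0 < a) {z : E3 × ℝ}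
    (hz : z ∈ L.Z) {k : ℕ} (hk : k < L.n) : Gd (L.G z k) := by
  obtain ⟨cls, hd⟩ := h.dec z hz
  exact Bas367.St.gd (a := 2 * a) (by linarith) (hd.st k (Finset.mem_range.2 hk))

theorem lev_pf_int (h : LevOk M κ q A A' a b Cn K η0 C0 σ g R L) (ha : 0 < a) {z : E3 × ℝ}
    (hz : z ∈ cylc R) {k : ℕ} (hk : k < L.n) : Integrable (L.pf z k) :=
  trc_int (lev_gd h ha (h.near z hz).1 hk).int _

theorem lev_sl_meas (h : LevOk M κ q A A' a b Cn K η0 C0 σ g R L) {z : E3 × ℝ}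
    (hz : z ∈ L.Z) {k : ℕ} (hk : k < L.n) (m : ℤ × ℤ) : MeasurableSet (L.sl z k m) := by
  obtain ⟨cls, hd⟩ := h.dec z hz
  exact Finset.measurableSet_biUnion _ fun i hi =>
    (hd.pl k (Finset.mem_range.2 hk)).1.meas i hi m


theorem lev_caps (h : LevOk M κ q A A' a b Cn K η0 C0 σ g R L) {z : E3 × ℝ}
    (hz : z ∈ L.Z) {k : ℕ} (hk : k < L.n) {i : ℕ} (hi : i ∈ L.I z k) {m : ℤ × ℤ} {y : E3}
    (hy : y ∈ (L.P z k i).S m) : m ∈ caps (an L.r) := by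
  obtain ⟨cls, hd⟩ := h.dec z hz
  by_contra hcon
  have h1 := hd.cp k (Finset.mem_range.2 hk) m hcon
  have h2 : y ∈ uS (L.I z k) (L.P z k) m := Set.mem_biUnion (x := i) hi hy
  rw [h1] at h2
  exact h2

theorem ss_gd {M0 D : ℝ} (ha : 0 < a) (h : Ss M κ q a b M0 η0 C0 σ g R D) : Gd g :=
  Bas367.St.gd ha h.toSt

/-- the density is at most the energy. -/
theorem Adc_le {M0 D : ℝ} (ha : 1 ≤ a) (hb : b ≤ 2) (hst : St M κ q a b M0 C0 σ g R D)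
    {θ κ' θ' : ℝ} (hθ : 0 < θ) (hθ1 : θ ≤ 1) (_hκ0 : 0 ≤ κ') (hκ1 : κ' ≤ 1) (n : ℕ) (w : E3 × ℝ)
    (S : ℤ × ℤ → Set E3) (m : ℤ × ℤ) (X : E3) (t : ℝ) :
    Adc n θ κ' θ' (trc w g) S m X t ≤ ENNReal.ofReal (Enc g) := by
  classical
  unfold Adc Cad538.Acc
  refine (Cad538.Den_le X t).trans ?_
  have h1 : ENNReal.ofReal (θ ^ 2 * κ') ≤ 1 := by
    refine ENNReal.ofReal_le_one.2 ?_
    have : θ ^ 2 ≤ 1 := pow_le_one₀ hθ.le hθ1
    nlinarith [sq_nonneg θ]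
  refine (mul_le_mul' h1 le_rfl).trans ?_
  rw [one_mul]
  refine le_trans ?_ (TuL890.enc_le_Enc ha hb hst hθ w S)
  unfold enc
  exact Finset.sum_le_sum_of_subset fun m' hm' => (Crest.Agent.R138.Loc878.mem_nearL.1 hm').1

end lev

/-! ### measurability -/

theorem measurable_sel_nat {X : Type*} [MeasurableSpace X] {κ : X → ℕ} (hκ : Measurable κ)
    {F : ℕ → X → ℕ} (hF : ∀ k, Measurable (F k)) : Measurable fun x => F (κ x) x := by
  have h1 : Measurable fun p : ℕ × X => F p.1 p.2 :=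
    measurable_from_prod_countable_right (fun k => hF k)
  exact h1.comp (hκ.prodMk measurable_id)

theorem clsL_meas (Ma n : ℕ) (K0 : ℝ) {M κ q A A' a b Cn : ℝ} {K : ℕ} {η0 : ℝ} {C0 : E2} {σ : ℝ}
    {g : E3 → ℂ} {R D M0 : ℝ} {L : Lev} (ha : 0 < a) (hg : Ss M κ q a b M0 η0 C0 σ g R D)
    (h : LevOk M κ q A A' a b Cn K η0 C0 σ g R L) (κ' dl : ℝ) {z : E3 × ℝ} (hz : z ∈ cylc R)
    (f : Cf E2) (m : ℤ × ℤ) : Measurable (clsL Ma n K0 κ' g R dl L z f m) := by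
  unfold clsL
  refine measurable_sel_nat (κ := kap L (dl * L.r) z m)
    (F := fun k y => clsC (nAR Ma R) (Enc g) K0 n (an L.r) κ' (an (dl * L.r))
      (an (dl * (dl * L.r))) (trc (L.ζ z) g) (L.sl (L.ζ z) k) (z - L.ζ z) f m y) ?_ (fun k => ?_)
  · exact GlC210.measurable_argc h.n1 (fun k hk => lev_pf_int h ha hz hk) m
  · exact clsC_meas (trc_int (ss_gd ha hg).int _) _ _ _

theorem AF_meas (Ma n : ℕ) (Cc e1 : ℝ) {M κ q A A' a b Cn : ℝ} {K : ℕ} {η0 : ℝ} {C0 : E2} {σ : ℝ}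
    {g : E3 → ℂ} {R D M0 : ℝ} {L : ℕ → Lev} {t : ℕ} (ha : 0 < a)
    (hg : Ss M κ q a b M0 η0 C0 σ g R D)
    (h : LevOk M κ q A A' a b Cn K η0 C0 σ g R (L t)) (dl : ℝ) (z : E3 × ℝ)
    (f : Cf E2) (m : ℤ × ℤ) : Measurable (AF Ma n Cc e1 κ η0 g R dl L (t + 1) z f m) := by
  classical
  by_cases hz : z ∈ cylc R
  · have hm := clsL_meas Ma n (Cc * (R ^ e1) ^ n) ha hg h κ dl hz f m
    have e : AF Ma n Cc e1 κ η0 g R dl L (t + 1) z f m = fun y =>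
        if clsL Ma n (Cc * (R ^ e1) ^ n) κ g R dl (L t) z f m y < naR Ma R then
          clsL Ma n (Cc * (R ^ e1) ^ n) κ g R dl (L t) z f m y else 0 := by
      funext y
      unfold AF
      rw [Nat.add_sub_cancel]
      simp only [hz, true_and]
    rw [e]
    exact Measurable.ite (measurableSet_lt hm measurable_const) hm measurable_const
  · have e : AF Ma n Cc e1 κ η0 g R dl L (t + 1) z f m = fun _ => 0 := by
      funext y
      unfold AF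
      rw [if_neg fun h => hz h.1]
    rw [e]
    exact measurable_const

theorem auxok (Ma n : ℕ) (hMa : 1 ≤ Ma) (Cc e1 M q a b M0 : ℝ) (ha : 0 < a) :
    AuxOk (AF Ma n Cc e1) (naR Ma) M q a b M0 := by
  refine ⟨naR_pos Ma, fun η hη => naR_le Ma hMa hη,
    fun κ η0 g R dl L j z f m y => AF_lt Ma n Cc e1 κ η0 g R dl L j z f m y, ?_⟩
  intro κ η0 C0 σ g R D hS _ A A' Cn dl ν K t L _ _ hT _ z f m
  exact AF_meas Ma n Cc e1 ha hS (hT.ok t le_rfl) dl z f m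

/-! ### the classes of the points of the tower -/

theorem trn_self (L : ℕ → Lev) (t : ℕ) : trn L (t + 1) t = L t := by
  unfold trn
  rw [if_pos (Nat.lt_succ_self t)]

theorem tow_step {M κ q A A' a b Cn : ℝ} {K : ℕ} {η0 : ℝ} {C0 : E2} {σ : ℝ} {g : E3 → ℂ} {R : ℝ}
    {dl ν : ℝ} {N : ℕ} {L : ℕ → Lev} (hT : Tow M κ q A A' a b Cn K η0 C0 σ g R dl ν N L) {t : ℕ}
    (ht : t < N) : (L (t + 1)).r = dl * (L t).r := by
  rw [hT.rad (t + 1) ht, hT.rad t ht.le, pow_succ]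
  ring

/-- **the class of a point** of the plates of the level `t + 1`. -/
theorem pts {Ma n : ℕ} {Cc e1 : ℝ} {M κ q A A' a b Cn : ℝ} {K : ℕ} {η0 : ℝ} {C0 : E2} {σ : ℝ}
    {g : E3 → ℂ} {R D M0 : ℝ} {dl ν : ℝ} {N : ℕ} {L : ℕ → Lev} {ac : ℕ → ℕ → ℕ} (ha : 1 ≤ a)
    (hb : b ≤ 2) (hκ0 : 0 ≤ κ) (hκ1 : κ ≤ 1) (hS : Ss M κ q a b M0 η0 C0 σ g R D)
    (hT : Tow M κ q A A' a b Cn K η0 C0 σ g R dl ν N L)
    (hA : Acl (AF Ma n Cc e1) κ η0 g R dl N L ac) {t : ℕ} (ht : t < N) {z : E3 × ℝ}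
    (hz : z ∈ (L (t + 1)).Z) {k : ℕ} (hk : k < (L (t + 1)).n) {i : ℕ}
    (hi : i ∈ (L (t + 1)).I z k) {m : ℤ × ℤ} {y : E3} (hy : y ∈ ((L (t + 1)).P z k i).S m) :
    clsC (nAR Ma R) (Enc g) (Cc * (R ^ e1) ^ n) n (an (L t).r) κ (an (dl * (L t).r))
        (an (dl * (dl * (L t).r))) (trc ((L t).ζ z) g)
        ((L t).sl ((L t).ζ z) ((L (t + 1)).par k)) (z - (L t).ζ z) ((L (t + 1)).P z k i).f m y =
      ac (t + 1) k ∧
    Adc n (an (L t).r) κ (an (dl * (L t).r)) (trc ((L t).ζ z) g)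
        ((L t).sl ((L t).ζ z) ((L (t + 1)).par k)) m ((z - (L t).ζ z).1 + y) (z - (L t).ζ z).2 ≤
      ENNReal.ofReal (Enc g) ∧
    m ∈ caps (an (dl * (L t).r)) := by
  have hR := hS.R1
  have hok := hT.ok t ht.le
  have hok' := hT.ok (t + 1) ht
  have hrs := tow_step hT ht
  have hr1 : 1 ≤ (L t).r := TuL890.lev_r1 hok hR
  have hr1' : 1 ≤ (L (t + 1)).r := TuL890.lev_r1 hok' hR
  have hzc : z ∈ cylc R := hok'.net.mem z hz
  have hth : 0 < an (L t).r := Real.rpow_pos_of_pos (by linarith) _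
  have hth1 : an (L t).r ≤ 1 := Real.rpow_le_one_of_one_le_of_nonpos hr1 (by norm_num)
  refine ⟨?_, Adc_le ha hb hS.toSt hth hth1 hκ0 hκ1 n _ _ m _ _, ?_⟩
  · have h1 := hA t ht z hz k hk i hi m y hy
    have h2 := (hT.next t ht).arg z hz k hk i hi m y hy
    unfold AF at h1
    rw [Nat.add_sub_cancel, trn_self] at h1
    have h3 : clsL Ma n (Cc * (R ^ e1) ^ n) κ g R dl (L t) z ((L (t + 1)).P z k i).f m y <
        naR Ma R := by
      unfold clsL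
      refine clsC_lt' ?_ ?_ _ _ _ _
      · rw [← hrs]; exact hr1'
      · rw [← hrs]; exact hok'.hi
    rw [if_pos ⟨hzc, h3⟩] at h1
    unfold clsL kap at h1
    have h4 : argc (an (dl * (L t).r)) ((L t).pf z) (L t).n m y = (L (t + 1)).par k := by
      rw [← hrs]; exact h2
    rwa [h4] at h1
  · rw [← hrs]
    exact lev_caps hok' hz hk hi hy

end Crest.Agent.R116.Slb367
end

-- ▼ part R116/SlbC3_367
section

/-!
# R116 (S0155), WAVE side, `SLAB` from `STEP_C` (helper367), part 3: the local hypotheses from the tower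

* `parC_of` : the parent class of one label in one frame;
* `coh_lev` : the coherence bound of a level from its classes (relative to the previous level);
* `chi_lev` : the child class of the plates of one label seen from a parent frame.
-/

set_option autoImplicit false

open MeasureTheory FourierTransform
open scoped ENNReal

namespace Crest.Agent.R116.Slb367

open Crest.Agent.R138.Defs (E2 ee)
open Crest.Agent.R138.Wpk685 (cen caps)
open Crest.Agent.R116.CDef480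
open Crest.Agent.R116.LZg725 (Cf)
open Crest.Agent.R116.AlB888 (Adc potc)
open Crest.Agent.R116.WC188
open Crest.Agent.R116.PC299
open Crest.Agent.R116.Bas367
open Crest.Agent.R116.GlC210 (Lev LevOk Next Aux Cls Tow AuxF trn Acl Rg Kp argc AuxOk)
open Crest.Agent.R116.Lk367 (shf)

/-- the parent class of one label in one frame. -/
theorem parC_of {M κ q A A' a b Cn M0 D : ℝ} {K : ℕ} {η0 : ℝ} {C0 : E2} {σ : ℝ} {g : E3 → ℂ}
    {R : ℝ} {L : Lev} (hS : Ss M κ q a b M0 η0 C0 σ g R D)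
    (h : LevOk M κ q A A' a b Cn K η0 C0 σ g R L) {w : E3 × ℝ} (hw : w ∈ L.Z) {k : ℕ}
    (hk : k < L.n) :
    ParC M κ q a b A' (1 / max 1 (Cn * L.nb)) η0 (trc w g) L.r (L.s k).1 (L.s k).2 (L.D w k)
      (L.I w k) (L.P w k) := by
  obtain ⟨cls, hd⟩ := h.dec w hw
  have hkΛ : k ∈ Finset.range L.n := Finset.mem_range.2 hk
  obtain ⟨hpl, hz⟩ := hd.pl k hkΛ
  have hne : ∀ ζ, trc w g ζ ≠ 0 → g ζ ≠ 0 := fun ζ hζ h0 => hζ (by
    unfold trc; rw [h0, zero_mul])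
  refine
    { gm := GlC210.measurable_trc hS.meas w
      gb := ?_
      gs := fun ζ hζ => ?_
      slc := fun ζ hζ => hS.slc ζ (hne ζ hζ)
      D0 := (hd.st k hkΛ).D0
      sd := h.sd k hk
      meas := hpl.meas
      cp := hd.cp k hkΛ
      bd := hd.bd k hkΛ
      disj := fun i hi j hj hij m => hpl.disj i hi j hj hij ((hz i hi).trans (hz j hj).symm) m
      adm := hpl.adm
      box := hpl.box
      dens := hd.dens k hkΛ
      dense := fun i hi => ?_ }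
  · obtain ⟨B, hB⟩ := hS.bdd
    exact ⟨B, fun ζ => by rw [GlC210.norm_trc]; exact hB ζ⟩
  · have h1 := hS.supp ζ (hne ζ hζ)
    exact ⟨h1.1, h1.2.1, h1.2.2.1⟩
  · have h1 := hd.dense k hkΛ i hi
    have hm : 0 < max 1 (Cn * L.nb) := lt_max_of_lt_left one_pos
    rw [ENNReal.ofReal_mul (by positivity)]
    refine (mul_le_mul_right h1 _).trans ?_
    rw [← mul_assoc, ← ENNReal.ofReal_mul (by positivity)]
    refine (mul_le_mul_left (ENNReal.ofReal_le_one.2 ?_) _).trans (one_mul _).le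
    rw [one_div, inv_mul_le_iff₀ hm, mul_one]
    exact le_max_right _ _

/-- not tiny. -/
def Nt (Ma : ℕ) (R : ℝ) (c : ℕ) : Prop := c % (nAR Ma R + 1) < nAR Ma R

/-- the classes of the points: density and coherence count. -/
theorem pts2 {Ma n : ℕ} {Cc e1 : ℝ} {M κ q A A' a b Cn : ℝ} {K : ℕ} {η0 : ℝ} {C0 : E2} {σ : ℝ}
    {g : E3 → ℂ} {R D M0 : ℝ} {dl ν : ℝ} {N : ℕ} {L : ℕ → Lev} {ac : ℕ → ℕ → ℕ} (ha : 1 ≤ a)
    (hb : b ≤ 2) (hκ0 : 0 ≤ κ) (hκ1 : κ ≤ 1) (hdl : 0 < dl) (hdl1 : dl ≤ 1)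
    (hS : Ss M κ q a b M0 η0 C0 σ g R D)
    (hK0 : 1 ≤ Cc * (R ^ e1) ^ n)
    (hT : Tow M κ q A A' a b Cn K η0 C0 σ g R dl ν N L)
    (hA : Acl (AF Ma n Cc e1) κ η0 g R dl N L ac) {t : ℕ} (ht : t < N) {z : E3 × ℝ}
    (hz : z ∈ (L (t + 1)).Z) {k : ℕ} (hk : k < (L (t + 1)).n) (hnt : Nt Ma R (ac (t + 1) k)) {i : ℕ}
    (hi : i ∈ (L (t + 1)).I z k) {m : ℤ × ℤ} {y : E3} (hy : y ∈ ((L (t + 1)).P z k i).S m) :
    ENNReal.ofReal (A0 (nAR Ma R) (Enc g) (ac (t + 1) k)) ≤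
      Adc n (an (L t).r) κ (an (dl * (L t).r)) (trc ((L t).ζ z) g)
        ((L t).sl ((L t).ζ z) ((L (t + 1)).par k)) m ((z - (L t).ζ z).1 + y) (z - (L t).ζ z).2 ∧
    Adc n (an (L t).r) κ (an (dl * (L t).r)) (trc ((L t).ζ z) g)
        ((L t).sl ((L t).ζ z) ((L (t + 1)).par k)) m ((z - (L t).ζ z).1 + y) (z - (L t).ζ z).2 ≤
      ENNReal.ofReal (8 * A0 (nAR Ma R) (Enc g) (ac (t + 1) k)) ∧
    pv (nAR Ma R) dl (ac (t + 1) k) ≤
      (potc n (an (L t).r) κ (an (dl * (L t).r)) (an (dl * (dl * (L t).r))) (Cc * (R ^ e1) ^ n)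
        (trc ((L t).ζ z) g) ((L t).sl ((L t).ζ z) ((L (t + 1)).par k))
        (nP (an (dl * (L t).r)) ((L (t + 1)).P z k i).f m y) m ((z - (L t).ζ z).1 + y)
        (z - (L t).ζ z).2 : ℝ) ∧
    (potc n (an (L t).r) κ (an (dl * (L t).r)) (an (dl * (dl * (L t).r))) (Cc * (R ^ e1) ^ n)
        (trc ((L t).ζ z) g) ((L t).sl ((L t).ζ z) ((L (t + 1)).par k))
        (nP (an (dl * (L t).r)) ((L (t + 1)).P z k i).f m y) m ((z - (L t).ζ z).1 + y)
        (z - (L t).ζ z).2 : ℝ) ≤ 2 * pv (nAR Ma R) dl (ac (t + 1) k) := by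
  obtain ⟨h1, h2, h3⟩ := pts ha hb hκ0 hκ1 hS hT hA ht hz hk hi hy
  have hR := hS.R1
  have hok := hT.ok t ht.le
  have hok' := hT.ok (t + 1) ht
  have hrs := tow_step hT ht
  have hr1 : 1 ≤ (L t).r := TuL890.lev_r1 hok hR
  have hr1' : 1 ≤ (L (t + 1)).r := TuL890.lev_r1 hok' hR
  have hrj : 0 < dl * (L t).r := by rw [← hrs]; linarith
  have e1 : an (dl * (L t).r) = an ((L (t + 1)).r) := by rw [hrs]
  have hE : 0 ≤ A0 (nAR Ma R) (Enc g) (ac (t + 1) k) := A0_nonneg (TuT890.Enc_nn g) _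
  obtain ⟨a1, a2, a3, a4⟩ := cls_point (an_pos hrj).le (an_pos (mul_pos hdl hrj)).le hK0 h1 hnt h2 h3
  have h5 := p0_le hrj hdl hdl1 hK0 h1 hnt h2 h3
  have h6 := pv_eq (dl := dl) h5
  refine ⟨a1, a2.trans (ENNReal.ofReal_le_ofReal (by linarith)), ?_, ?_⟩
  · rw [h6]; exact a3
  · rw [h6]; exact a4.le

/-- **the coherence bound of a level** from its classes. -/
theorem coh_lev (hC : COHu_C) : ∃ dc : ℝ, 0 < dc ∧ dc ≤ 1 ∧ ∀ n : ℕ, ∃ Cc : ℝ, 1 ≤ Cc ∧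
    ∀ (Ma : ℕ) (e1 M κ q A A' a b Cn : ℝ) (K : ℕ) (η0 : ℝ) (C0 : E2) (σ : ℝ)
    (g : E3 → ℂ) (R D M0 : ℝ) (dl ν : ℝ) (N : ℕ) (L : ℕ → Lev) (ac : ℕ → ℕ → ℕ),
    0 ≤ e1 → 1 ≤ a → b ≤ 2 → 0 < κ → κ ≤ 1 → 0 < dl → dl ≤ dc → κ ≤ dl ^ (4 : ℕ) →
    R ^ e1 ≤ dl ^ (-(1/4) : ℝ) →
    Ss M κ q a b M0 η0 C0 σ g R D →
    Tow M κ q A A' a b Cn K η0 C0 σ g R dl ν N L →
    Acl (AF Ma n Cc e1) κ η0 g R dl N L ac → ∀ t < N, ∀ w ∈ (L (t + 1)).Z, ∀ k < (L (t + 1)).n,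
    Nt Ma R (ac (t + 1) k) → 8 * (M * A' * ((L (t + 1)).s k).1) ≤ ((L (t + 1)).s k).2 →
    Coh (an (L (t + 1)).r) (an (dl * (L (t + 1)).r)) κ (dl ^ (1/2 : ℝ)) (R ^ e1)
      (2 * (L (t + 1)).r) ((L (t + 1)).I w k) ((L (t + 1)).P w k)
      (2 * pv (nAR Ma R) dl (ac (t + 1) k)) := by
  obtain ⟨dc, hdc, hdc1, H⟩ := hC
  refine ⟨dc, hdc, hdc1, fun n => ?_⟩
  obtain ⟨Cc, hCc, H⟩ := H n
  refine ⟨Cc, hCc, ?_⟩
  intro Ma e1 M κ q A A' a b Cn K η0 C0 σ g R D M0 dl ν N L ac he1 ha hb hκ0 hκ1 hdl hdlc hκ4 hYd hS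
    hT hA t ht w hw k hk hnt h8
  have hR := hS.R1
  have hdl1 : dl ≤ 1 := hdlc.trans hdc1
  have hok := hT.ok t ht.le
  have hok' := hT.ok (t + 1) ht
  have hrs := tow_step hT ht
  have hr1 : 1 ≤ (L t).r := TuL890.lev_r1 hok hR
  have hr1' : 1 ≤ (L (t + 1)).r := TuL890.lev_r1 hok' hR
  have hY1 : 1 ≤ R ^ e1 := Real.one_le_rpow hR he1
  have hK0 : 1 ≤ Cc * (R ^ e1) ^ n := by
    have := one_le_pow₀ hY1 (n := n)
    nlinarith
  have hwc : w ∈ cylc R := hok'.net.mem w hw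
  have hnear := hok.near w hwc
  have hpv := pv_ge (nA := nAR Ma R) hdl hdl1 (ac (t + 1) k)
  have hmain := H (L t).r dl (R ^ e1) (Cc * (R ^ e1) ^ n) (A0 (nAR Ma R) (Enc g) (ac (t + 1) k))
    (2 * pv (nAR Ma R) dl (ac (t + 1) k)) κ (trc ((L t).ζ w) g)
    ((L t).sl ((L t).ζ w) ((L (t + 1)).par k)) (w - (L t).ζ w) ((L (t + 1)).I w k)
    ((L (t + 1)).P w k) (by rw [← hrs]; exact hr1') hdl hdlc hY1 hYd le_rfl hnear.2.2
    (A0_nonneg (TuT890.Enc_nn g) _) (by linarith) hκ0 hκ4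
    (fun m => lev_sl_meas hok hnear.1 ((hT.next t ht).par_lt k hk) m)
    (fun i hi m y hy => by
      obtain ⟨h1, h2, -, h4⟩ := pts2 ha hb hκ0.le hκ1 hdl hdl1 hS hK0 hT hA ht hw hk hnt hi hy
      exact ⟨h1, h2, h4⟩)
    (fun i hi m y hy => by
      obtain ⟨cls, hd⟩ := hok'.dec w hw
      obtain ⟨hpl, -⟩ := hd.pl k (Finset.mem_range.2 hk)
      rw [← hrs]
      exact (gr_ge (hpl.adm i hi) (hok'.sd k hk) hr1' hκ0 (hpl.box i hi m hy) h8).1)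
  rw [← hrs] at hmain
  exact hmain

/-- **the child class** of the plates of one label seen from a parent frame. -/
theorem chi_lev {Ma n : ℕ} {Cc e1 : ℝ} {M κ q A A' a b Cn : ℝ} {K : ℕ} {η0 : ℝ} {C0 : E2} {σ : ℝ}
    {g : E3 → ℂ} {R D M0 : ℝ} {dl ν : ℝ} {N : ℕ} {L : ℕ → Lev} {ac : ℕ → ℕ → ℕ} (ha : 1 ≤ a)
    (hb : b ≤ 2) (hκ0 : 0 ≤ κ) (hκ1 : κ ≤ 1) (hdl : 0 < dl) (hdl1 : dl ≤ 1)
    (hS : Ss M κ q a b M0 η0 C0 σ g R D)
    (hK0 : 1 ≤ Cc * (R ^ e1) ^ n)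
    (hT : Tow M κ q A A' a b Cn K η0 C0 σ g R dl ν N L)
    (hA : Acl (AF Ma n Cc e1) κ η0 g R dl N L ac) {t : ℕ} (ht : t < N)
    {k : ℕ} (hk : k < (L (t + 1)).n) (hnt : Nt Ma R (ac (t + 1) k)) (w : E3 × ℝ)
    (I' : Finset ℕ) (P' : ℕ → Plate)
    (hP' : ∀ j ∈ I', ∃ z ∈ (L (t + 1)).Z, (L t).ζ z = w ∧ ∃ i ∈ (L (t + 1)).I z k,
      P' j = shf w ((L (t + 1)).P z k i)) :
    Chi n (Cc * (R ^ e1) ^ n) κ (trc w g) dl (L t).r (A0 (nAR Ma R) (Enc g) (ac (t + 1) k))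
      (pv (nAR Ma R) dl (ac (t + 1) k))
      (uS ((L t).I w ((L (t + 1)).par k)) ((L t).P w ((L (t + 1)).par k))) I' P' := by
  have key : ∀ j ∈ I', ∀ m, ∀ y ∈ (P' j).S m,
      ENNReal.ofReal (A0 (nAR Ma R) (Enc g) (ac (t + 1) k)) ≤
        Adc n (an (L t).r) κ (an (dl * (L t).r)) (trc w g)
          (uS ((L t).I w ((L (t + 1)).par k)) ((L t).P w ((L (t + 1)).par k))) m
          ((P' j).z.1 + y) (P' j).z.2 ∧
      Adc n (an (L t).r) κ (an (dl * (L t).r)) (trc w g)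
          (uS ((L t).I w ((L (t + 1)).par k)) ((L t).P w ((L (t + 1)).par k))) m
          ((P' j).z.1 + y) (P' j).z.2 ≤
        ENNReal.ofReal (8 * A0 (nAR Ma R) (Enc g) (ac (t + 1) k)) ∧
      pv (nAR Ma R) dl (ac (t + 1) k) ≤
        (potc n (an (L t).r) κ (an (dl * (L t).r)) (an (dl * (dl * (L t).r))) (Cc * (R ^ e1) ^ n)
          (trc w g) (uS ((L t).I w ((L (t + 1)).par k)) ((L t).P w ((L (t + 1)).par k)))
          (nP (an (dl * (L t).r)) (P' j).f m y) m ((P' j).z.1 + y) (P' j).z.2 : ℝ) := by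
    intro j hj m y hy
    obtain ⟨z, hz, hzw, i, hi, hPe⟩ := hP' j hj
    rw [hPe] at hy ⊢
    have h1 := pts2 ha hb hκ0 hκ1 hdl hdl1 hS hK0 hT hA ht hz hk hnt hi (m := m) (y := y) hy
    have hzz : (shf w ((L (t + 1)).P z k i)).z = z - w := by
      obtain ⟨cls, hd⟩ := (hT.ok (t + 1) ht).dec z hz
      show ((L (t + 1)).P z k i).z - w = z - w
      rw [(hd.pl k (Finset.mem_range.2 hk)).2 i hi]
    rw [hzz]
    rw [hzw] at h1
    exact ⟨h1.1, h1.2.1, h1.2.2.1⟩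
  exact ⟨fun j hj m y hy => (key j hj m y hy).1, fun j hj m y hy => (key j hj m y hy).2.1,
    fun j hj m y hy => (key j hj m y hy).2.2⟩

end Crest.Agent.R116.Slb367
end

-- ▼ part R116/SlbC4_367
section

/-!
# R116 (S0155), WAVE side, `SLAB` from `STEP_C` (helper367), part 4: the slab step for the tower
-/

set_option autoImplicit false

open MeasureTheory FourierTransform
open scoped ENNReal

namespace Crest.Agent.R116.Slb367

open Crest.Agent.R138.Defs (E2 ee)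
open Crest.Agent.R138.Wpk685 (cen caps)
open Crest.Agent.R116.CDef480
open Crest.Agent.R116.LZg725 (Cf)
open Crest.Agent.R116.AlB888 (Adc potc)
open Crest.Agent.R116.WC188
open Crest.Agent.R116.PC299
open Crest.Agent.R116.Bas367
open Crest.Agent.R116.GlC210 (Lev LevOk Next Aux Cls Tow AuxF trn Acl Rg Kp argc AuxOk Thin Wide)
open Crest.Agent.R116.Lk367 (shf)

/-! ### numerology -/

/-- the main factor. -/
theorem main_num {CQ R r1 ε Cc Cn ν G' G dl δ p1 p2 e1 nb : ℝ} {n Kg : ℕ} (hCQ : 0 ≤ CQ)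
    (hR : 1 ≤ R) (hr1 : 1 ≤ r1) (hrR : r1 ≤ R) (hε : 0 < ε) (hCc : 1 ≤ Cc) (hCn : 1 ≤ Cn)
    (hν : 1 ≤ ν) (_hnb0 : 0 ≤ nb) (hnb : nb ≤ ν) (hG' : 0 ≤ G') (hKg : G' ≤ Kg) (hdl : 0 < dl)
    (_he1 : 0 ≤ e1)
    (he : e1 * (1 + n) * G' ≤ ε / 2) (hp1 : 1 ≤ p1) (hp2 : 1 ≤ p2) :
    CQ * r1 ^ (ε / 2) * (R ^ e1 * (Cc * (R ^ e1) ^ n) / (1 / max 1 (Cn * nb))) ^ G' *
        (dl ^ (-δ)) ^ G * ((2 * p1 / p2) ^ (1/2 : ℝ) + dl ^ (1/2 : ℝ)) ≤
      2 * CQ * (Cc * Cn) ^ G' * ν ^ Kg * R ^ ε * dl ^ (-(G * δ)) *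
        ((p1 / p2) ^ (1/2 : ℝ) + dl ^ (1/2 : ℝ)) := by
  have hR0 : 0 < R := by linarith
  have hmax : max 1 (Cn * nb) ≤ Cn * ν := by
    refine max_le ?_ ?_
    · nlinarith
    · gcongr
  have hm0 : 0 < max 1 (Cn * nb) := lt_max_of_lt_left one_pos
  have e1' : R ^ e1 * (Cc * (R ^ e1) ^ n) / (1 / max 1 (Cn * nb)) =
      Cc * max 1 (Cn * nb) * R ^ (e1 * (1 + n)) := by
    have e2 : R ^ (e1 * (1 + n)) = R ^ e1 * (R ^ e1) ^ n := by
      rw [← Real.rpow_natCast (R ^ e1) n, ← Real.rpow_mul hR0.le, ← Real.rpow_add hR0]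
      congr 1; ring
    rw [e2]
    field_simp
  have h1 : r1 ^ (ε / 2) ≤ R ^ (ε / 2) := Real.rpow_le_rpow (by linarith) hrR (by linarith)
  have h2 : (R ^ e1 * (Cc * (R ^ e1) ^ n) / (1 / max 1 (Cn * nb))) ^ G' ≤
      (Cc * Cn) ^ G' * ν ^ Kg * R ^ (ε / 2) := by
    rw [e1']
    calc (Cc * max 1 (Cn * nb) * R ^ (e1 * (1 + n))) ^ G'
        ≤ (Cc * (Cn * ν) * R ^ (e1 * (1 + n))) ^ G' := by gcongr
      _ = (Cc * Cn) ^ G' * ν ^ G' * R ^ (e1 * (1 + n) * G') := by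
          rw [← mul_assoc, Real.mul_rpow (by positivity) (by positivity),
            Real.mul_rpow (by positivity) (by positivity), ← Real.rpow_mul hR0.le]
      _ ≤ (Cc * Cn) ^ G' * ν ^ (Kg : ℝ) * R ^ (ε / 2) := by
          gcongr
      _ = _ := by rw [Real.rpow_natCast]
  have h3 : (dl ^ (-δ)) ^ G = dl ^ (-(G * δ)) := by
    rw [← Real.rpow_mul hdl.le]; congr 1; ring
  have h4 : (2 * p1 / p2) ^ (1/2 : ℝ) ≤ 2 * (p1 / p2) ^ (1/2 : ℝ) := by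
    rw [mul_div_assoc, Real.mul_rpow (by norm_num) (by positivity)]
    refine mul_le_mul_of_nonneg_right ?_ (by positivity)
    calc (2:ℝ) ^ (1/2 : ℝ) ≤ 2 ^ (1 : ℝ) :=
          Real.rpow_le_rpow_of_exponent_le (by norm_num) (by norm_num)
      _ = 2 := Real.rpow_one _
  have h5 : (2 * p1 / p2) ^ (1/2 : ℝ) + dl ^ (1/2 : ℝ) ≤
      2 * ((p1 / p2) ^ (1/2 : ℝ) + dl ^ (1/2 : ℝ)) := by
    have : 0 ≤ dl ^ (1/2 : ℝ) := Real.rpow_nonneg hdl.le _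
    linarith
  rw [h3]
  calc _ ≤ CQ * R ^ (ε / 2) * ((Cc * Cn) ^ G' * ν ^ Kg * R ^ (ε / 2)) * dl ^ (-(G * δ)) *
        (2 * ((p1 / p2) ^ (1/2 : ℝ) + dl ^ (1/2 : ℝ))) := by gcongr
    _ = 2 * CQ * (Cc * Cn) ^ G' * ν ^ Kg * (R ^ (ε / 2) * R ^ (ε / 2)) * dl ^ (-(G * δ)) *
        ((p1 / p2) ^ (1/2 : ℝ) + dl ^ (1/2 : ℝ)) := by ring
    _ = _ := by rw [← Real.rpow_add hR0]; norm_num

/-- the tail. -/
theorem tail_num {CQ R D r1 ε Cc G' e1 E M0 T F : ℝ} {n Mt : ℕ} (hCQ : 0 ≤ CQ)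
    (hR : 1 ≤ R) (hr1 : 1 ≤ r1) (hrR : r1 ≤ R) (hCc : 1 ≤ Cc) (hG' : 0 ≤ G') (he1 : 0 ≤ e1)
    (he : e1 * (1 + n) * G' ≤ ε / 2) (hE : 0 ≤ E) (hnd : E ≤ R ^ M0 * D) (hF0 : 0 ≤ F)
    (hF : F ≤ 1296 * R ^ (4 : ℝ))
    (hMt : 24 + ε + |M0| + |T| ≤ e1 * Mt) (hε : 0 < ε) :
    ENNReal.ofReal F * (ENNReal.ofReal (CQ * (Cc * (R ^ e1) ^ n) ^ G' * r1 ^ (20 : ℕ) *
      ((R ^ e1) ^ Mt)⁻¹) * (ENNReal.ofReal E) ^ (3/2 : ℝ)) ≤
      ENNReal.ofReal (1296 * CQ * Cc ^ G' * (R ^ (-T) * (R * E * √D))) := by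
  have hR0 : 0 < R := by linarith
  rw [ENNReal.ofReal_rpow_of_nonneg hE (by norm_num), ← ENNReal.ofReal_mul (by positivity),
    ← ENNReal.ofReal_mul hF0]
  refine ENNReal.ofReal_le_ofReal ?_
  have a1 : (Cc * (R ^ e1) ^ n) ^ G' ≤ Cc ^ G' * R ^ (ε / 2) := by
    have e2 : (R ^ e1) ^ n = R ^ (e1 * n) := by
      rw [← Real.rpow_natCast (R ^ e1) n, ← Real.rpow_mul hR0.le]
    rw [e2, Real.mul_rpow (by linarith) (by positivity), ← Real.rpow_mul hR0.le]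
    have : e1 * n * G' ≤ ε / 2 := by
      have : 0 ≤ e1 * G' := by positivity
      nlinarith
    gcongr
  have a4 : r1 ^ (20 : ℕ) ≤ R ^ (20 : ℝ) := by
    rw [show (20:ℝ) = ((20:ℕ):ℝ) by norm_num, Real.rpow_natCast]
    gcongr
  have a5 : ((R ^ e1) ^ Mt)⁻¹ = R ^ (-(e1 * Mt)) := by
    rw [← Real.rpow_natCast, ← Real.rpow_mul hR0.le, ← Real.rpow_neg hR0.le]
  have a6 : E ^ (3/2 : ℝ) ≤ E * (R ^ (M0 / 2) * √D) := by
    have h5 : E ^ (3 / 2 : ℝ) = E * √E := by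
      rw [show (3 / 2 : ℝ) = 1 + 1 / 2 by norm_num, Real.rpow_add_of_nonneg hE (by norm_num)
        (by norm_num), Real.rpow_one, Real.sqrt_eq_rpow]
    rw [h5]
    gcongr
    refine (Real.sqrt_le_sqrt hnd).trans ?_
    rw [Real.sqrt_mul (by positivity)]
    gcongr
    rw [Real.sqrt_eq_rpow, ← Real.rpow_mul hR0.le]
    apply le_of_eq; congr 1; ring
  rw [a5]
  calc F * (CQ * (Cc * (R ^ e1) ^ n) ^ G' * r1 ^ (20 : ℕ) * R ^ (-(e1 * Mt)) * E ^ (3/2 : ℝ))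
      ≤ (1296 * R ^ (4 : ℝ)) * (CQ * (Cc ^ G' * R ^ (ε / 2)) * R ^ (20 : ℝ) * R ^ (-(e1 * Mt)) *
          (E * (R ^ (M0 / 2) * √D))) := by gcongr
    _ = 1296 * CQ * Cc ^ G' * ((R ^ (4 : ℝ) * R ^ (ε / 2) * R ^ (20 : ℝ) * R ^ (-(e1 * Mt)) *
          R ^ (M0 / 2)) * (E * √D)) := by ring
    _ ≤ 1296 * CQ * Cc ^ G' * (R ^ (-T + 1) * (E * √D)) := by
        rw [← Real.rpow_add hR0, ← Real.rpow_add hR0, ← Real.rpow_add hR0, ← Real.rpow_add hR0]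
        have h1 := le_abs_self M0
        have h2 := abs_nonneg M0
        have h4 := le_abs_self T
        have h5 : R ^ (4 + ε / 2 + 20 + -(e1 * Mt) + M0 / 2) ≤ R ^ (-T + 1) :=
          Real.rpow_le_rpow_of_exponent_le hR (by linarith)
        have h6 : 0 ≤ E * √D := by positivity
        have h7 : 0 ≤ 1296 * CQ * Cc ^ G' := by positivity
        exact mul_le_mul_of_nonneg_left (mul_le_mul_of_nonneg_right h5 h6) h7
    _ = _ := by
        rw [Real.rpow_add hR0, Real.rpow_one]; ring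

/-! ### the step -/

set_option maxHeartbeats 1000000 in
/-- **the slab step for the tower**. -/
theorem step_of {M q : ℝ} (hM : 0 ≤ M) (hq : 0 ≤ q) (HS : STEP_C M q) :
    ∃ Cw : ℝ, 1 ≤ Cw ∧ ∀ ε : ℝ, 0 < ε → ∃ (nw Kν : ℕ) (Cc e1 : ℝ), 1 ≤ Cc ∧ 0 < e1 ∧
    ∀ a b M0 T : ℝ, 1 ≤ a → 0 < b → b < 2 → ∃ K1 : ℕ, ∀ K : ℕ, K1 ≤ K →
    ∀ A' Cn : ℝ, 1 ≤ A' → 1 ≤ Cn → ∃ C : ℝ, 1 ≤ C ∧
    ∀ (Ma : ℕ) (A κ η0 : ℝ) (C0 : E2) (σ : ℝ) (g : E3 → ℂ) (R D : ℝ), 1 ≤ A →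
      Ss M κ q a b M0 η0 C0 σ g R D → Kp a R κ → C ≤ R →
    ∀ dl ν : ℝ, 0 < dl → C * dl ≤ 1 → dl ≤ R ^ (-ε) → κ ≤ dl ^ (4 : ℝ) → 1 ≤ ν → ν ≤ R →
    ∀ (N : ℕ) (L : ℕ → Lev) (ac : ℕ → ℕ → ℕ), Tow M κ q A A' a b Cn K η0 C0 σ g R dl ν N L →
      Acl (AF Ma nw Cc e1) κ η0 g R dl N L ac → dl ^ (-Cw) ≤ R * dl ^ N →
    ∀ t, t + 2 ≤ N → ∀ k < (L (t + 2)).n, Nt Ma R (ac (t + 2) k) →
      Nt Ma R (ac (t + 1) ((L (t + 2)).par k)) → ∀ δ : ℝ, 0 ≤ δ → δ ≤ 1/4 →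
      Thin dl δ (L (t + 2)).r ((L (t + 2)).s k).1 → Wide dl Cw (L (t + 2)).r ((L (t + 2)).s k).2 →
      Thin dl δ (L (t + 1)).r ((L (t + 1)).s ((L (t + 2)).par k)).1 →
      Wide dl Cw (L (t + 1)).r ((L (t + 1)).s ((L (t + 2)).par k)).2 →
      (L (t + 2)).S g k ≤ ENNReal.ofReal (C * ν ^ Kν * R ^ ε * dl ^ (-(Cw * δ)) *
          ((pv (nAR Ma R) dl (ac (t + 1) ((L (t + 2)).par k)) /
            pv (nAR Ma R) dl (ac (t + 2) k)) ^ (1/2 : ℝ) + dl ^ (1/2 : ℝ))) *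
          (L (t + 1)).S g ((L (t + 2)).par k) +
        ENNReal.ofReal (C * ν ^ Kν * R ^ (-T) * SS g R D) := by
  obtain ⟨G, hG, HS⟩ := HS
  obtain ⟨dc, hdc, hdc1, HC⟩ := coh_lev AlB888.cohu_c
  refine ⟨G, hG, fun ε hε => ?_⟩
  obtain ⟨nw, HS⟩ := HS (ε / 2) (by linarith)
  obtain ⟨G', hG', HS⟩ := HS nw le_rfl
  obtain ⟨Cc, hCc, HC⟩ := HC nw
  set e1 : ℝ := min (ε / 4) (ε / (2 * (1 + nw) * (G' + 1))) with he1d
  have hden : (0:ℝ) < 2 * (1 + nw) * (G' + 1) := by positivity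
  have he1 : 0 < e1 := lt_min (by linarith) (by positivity)
  have he1a : e1 ≤ ε / 4 := min_le_left _ _
  have he1b : e1 * (1 + nw) * G' ≤ ε / 2 := by
    have h1 : e1 ≤ ε / (2 * (1 + nw) * (G' + 1)) := min_le_right _ _
    rw [le_div_iff₀ hden] at h1
    have h2 : 0 ≤ e1 * (1 + nw) := by positivity
    nlinarith
  refine ⟨nw, 4 + ⌈G'⌉₊, Cc, e1, hCc, he1, ?_⟩
  intro a b M0 T ha hb hb2
  refine ⟨⌈15 + |M0| + |T| + q⌉₊, fun K hK A' Cn hA' hCn => ?_⟩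
  have hK' : 15 + |M0| + |T| + q ≤ K := (Nat.le_ceil _).trans (by exact_mod_cast hK)
  obtain ⟨d0, hd0, hd01, HS⟩ := HS a b A' ha hb hb2 hA'
  set Mt : ℕ := ⌈(24 + ε + |M0| + |T|) / e1⌉₊ with hMtd
  have hMt : 24 + ε + |M0| + |T| ≤ e1 * Mt := by
    have h1 : (24 + ε + |M0| + |T|) / e1 ≤ Mt := Nat.le_ceil _
    rw [div_le_iff₀ he1] at h1
    rw [mul_comm e1]
    exact h1
  obtain ⟨CQ, hCQ, HS⟩ := HS Mt
  obtain ⟨Cl, hCl, HL⟩ := Lk367.link q a b A' Cn M0 T ha hb2.le hq hA' (by linarith)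
  set C : ℝ := max (max (Cl * (2 * CQ * (Cc * Cn) ^ G')) (Cl * (1296 * CQ * Cc ^ G') + Cl))
    (max (max d0⁻¹ dc⁻¹) (max A' ((8 * (M * A')) ^ 2))) with hCd
  have hC1 : Cl * (2 * CQ * (Cc * Cn) ^ G') ≤ C := (le_max_left _ _).trans (le_max_left _ _)
  have hC2 : Cl * (1296 * CQ * Cc ^ G') + Cl ≤ C := (le_max_right _ _).trans (le_max_left _ _)
  have hC3 : d0⁻¹ ≤ C := ((le_max_left _ _).trans (le_max_left _ _)).trans (le_max_right _ _)
  have hC4 : dc⁻¹ ≤ C := ((le_max_right _ _).trans (le_max_left _ _)).trans (le_max_right _ _)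
  have hC5 : A' ≤ C := ((le_max_left _ _).trans (le_max_right _ _)).trans (le_max_right _ _)
  have hC6 : (8 * (M * A')) ^ 2 ≤ C :=
    ((le_max_right _ _).trans (le_max_right _ _)).trans (le_max_right _ _)
  refine ⟨C, hA'.trans hC5, ?_⟩
  intro Ma A κ η0 C0 σ g R D hA hS hKp hCR dl ν hdl hCdl hdlR hκ4 hν hνR N L ac hT hAc hCw t ht k hk
    hnt2 hnt1 δ hδ hδ4 hthin2 hwide2 hthin1 hwide1
  have hR := hS.R1
  have hR0 : 0 < R := by linarith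
  have hC0 : 0 < C := by linarith [hA'.trans hC5]
  have hdle : ∀ x : ℝ, 0 < x → x⁻¹ ≤ C → dl ≤ x := by
    intro x hx hxC
    have h1 : x⁻¹ * dl ≤ 1 := (mul_le_mul_of_nonneg_right hxC hdl.le).trans hCdl
    rwa [inv_mul_le_iff₀ hx, mul_one] at h1
  have hdld0 := hdle d0 hd0 hC3
  have hdldc := hdle dc hdc hC4
  have hdl1 : dl ≤ 1 := hdld0.trans hd01
  have hA'dl : A' * dl ≤ 1 := (mul_le_mul_of_nonneg_right hC5 hdl.le).trans hCdl
  have h8dl : 8 * (M * A') * dl ^ (1/2 : ℝ) ≤ 1 := by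
    have h1 : (8 * (M * A')) ^ 2 * dl ≤ 1 := (mul_le_mul_of_nonneg_right hC6 hdl.le).trans hCdl
    have h2 : (8 * (M * A') * dl ^ (1/2 : ℝ)) ^ 2 ≤ 1 := by
      rw [mul_pow, ← Real.rpow_natCast (dl ^ (1/2 : ℝ)) 2, ← Real.rpow_mul hdl.le]
      norm_num
      exact h1
    have h3 : 0 ≤ 8 * (M * A') * dl ^ (1/2 : ℝ) := by positivity
    nlinarith
  have hκ0 := hKp.k0
  have hκ1 : κ ≤ 1 := hKp.k4.trans (by norm_num)
  have hκ4' : κ ≤ dl ^ (4 : ℕ) := by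
    rw [← Real.rpow_natCast]; exact_mod_cast hκ4
  have hYd : R ^ e1 ≤ dl ^ (-(1/4) : ℝ) := by
    have h1 : (R ^ (-ε)) ^ (-(1/4) : ℝ) ≤ dl ^ (-(1/4) : ℝ) :=
      Real.rpow_le_rpow_of_nonpos hdl hdlR (by norm_num)
    have h2 : (R ^ (-ε)) ^ (-(1/4) : ℝ) = R ^ (ε / 4) := by
      rw [← Real.rpow_mul hR0.le]; congr 1; ring
    rw [h2] at h1
    exact (Real.rpow_le_rpow_of_exponent_le hR he1a).trans h1
  have hY1 : 1 ≤ R ^ e1 := Real.one_le_rpow hR he1.le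
  have hK0 : 1 ≤ Cc * (R ^ e1) ^ nw := by
    have := one_le_pow₀ hY1 (n := nw)
    nlinarith
  have ht2 : t + 1 + 1 ≤ N := ht
  have ht1 : t + 1 < N := by omega
  have ht0 : t < N := by omega
  set L1 := L (t + 1) with hL1
  set L2 := L (t + 2) with hL2
  have h1 : LevOk M κ q A A' a b Cn K η0 C0 σ g R L1 := hT.ok (t + 1) ht1.le
  have h2 : LevOk M κ q A A' a b Cn K η0 C0 σ g R L2 := hT.ok (t + 2) ht
  have hrs : L2.r = dl * L1.r := tow_step hT ht1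
  have hN : Next L1 L2 := hT.next (t + 1) ht1
  have hr11 : 1 ≤ L1.r := TuL890.lev_r1 h1 hR
  have hr21 : 1 ≤ L2.r := TuL890.lev_r1 h2 hR
  have hr10 : 0 < L1.r := by linarith
  have hπ := hN.par_lt k hk
  set π := L2.par k with hπd
  have hGm1 : 1 ≤ dl ^ (-δ) := dl_rpow_le hdl hdl1 (by linarith)
  have hGm2 : dl ^ (-δ) ≤ dl ^ (-(1/4) : ℝ) :=
    Real.rpow_le_rpow_of_exponent_ge hdl hdl1 (by linarith)
  have hr1ge : dl ^ (-G) ≤ L1.r := by
    refine hCw.trans ?_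
    have h3 : L1.r = R * dl ^ (t + 1) := hT.rad (t + 1) ht1.le
    rw [h3]
    exact mul_le_mul_of_nonneg_left (pow_le_pow_of_le_one hdl.le hdl1 ht1.le) hR0.le
  have hklo : (dl * L1.r) ^ (-(1/4) : ℝ) ≤ κ := by
    rw [← hrs]
    refine le_trans ?_ hKp.kR
    calc L2.r ^ (-(1/4) : ℝ) ≤ (R ^ (1/2 : ℝ)) ^ (-(1/4) : ℝ) :=
          Real.rpow_le_rpow_of_nonpos (by positivity) h2.lo (by norm_num)
      _ = R ^ (-(1/8) : ℝ) := by rw [← Real.rpow_mul hR0.le]; norm_num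
      _ ≤ R ^ (-(1/16) : ℝ) := Real.rpow_le_rpow_of_exponent_le hR (by norm_num)
  have h8s : 8 * (M * A' * (L1.s π).1) ≤ (L1.s π).2 := by
    have h3 := wide_Gm (dl := dl) (d0 := dl) (G := G) (Gm := dl ^ (-δ)) (K := 8 * (M * A'))
      (x := L1.r ^ (-(1/2) : ℝ)) (s := (L1.s π).2) hdl le_rfl hdl1 hG (by positivity) h8dl hGm2
      (Real.rpow_nonneg hr10.le _) hwide1
    refine le_trans ?_ h3
    have h4 : (L1.s π).1 ≤ dl ^ (-δ) * L1.r ^ (-(1/2) : ℝ) := hthin1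
    have h5 : 0 ≤ 8 * (M * A') := by positivity
    calc 8 * (M * A' * (L1.s π).1) = 8 * (M * A') * (L1.s π).1 := by ring
      _ ≤ _ := mul_le_mul_of_nonneg_left h4 h5
  -- the potentials
  set p1 := pv (nAR Ma R) dl (ac (t + 1) π) with hp1d
  set p2 := pv (nAR Ma R) dl (ac (t + 2) k) with hp2d
  have hp1 : 1 ≤ p1 := pv_ge hdl hdl1 _
  have hp2 : 1 ≤ p2 := pv_ge hdl hdl1 _
  set c0 : ℝ := 1 / max 1 (Cn * L1.nb) with hc0d
  have hmx1 : 1 ≤ max 1 (Cn * L1.nb) := le_max_left _ _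
  have hmx0 : 0 < max 1 (Cn * L1.nb) := by linarith
  have hc0 : 0 < c0 := by positivity
  have hc01 : c0 ≤ 1 := by rw [hc0d, div_le_one hmx0]; exact hmx1
  set K0 : ℝ := Cc * (R ^ e1) ^ nw with hK0d
  set Q0 : ℝ := CQ * L1.r ^ (ε / 2) * (R ^ e1 * K0 / c0) ^ G' * (dl ^ (-δ)) ^ G *
    ((2 * p1 / p2) ^ (1/2 : ℝ) + dl ^ (1/2 : ℝ)) with hQ0
  set T0 : ℝ≥0∞ := ENNReal.ofReal (CQ * K0 ^ G' * L1.r ^ (20 : ℕ) * ((R ^ e1) ^ Mt)⁻¹) *
    (ENNReal.ofReal (Enc g)) ^ (3/2 : ℝ) with hT0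
  have hlink := HL M κ A K η0 C0 σ g R D hA hS.toSt hK' L1 L2 h1 h2 hN (by
      rw [hrs, ← mul_assoc]
      exact mul_le_of_le_one_left hr10.le hA'dl) ν hν hνR (hT.le (t + 1) ht1.le)
    (hT.le (t + 2) ht) k hk (ENNReal.ofReal Q0) T0 (by
      intro w hw I' P' hPl hP'
      have hwc : w ∈ cylc R := h1.net.mem w hw
      have hctx : Ctx M q a b A' d0 G c0 κ η0 (trc w g) L1.r dl (R ^ e1) (dl ^ (-δ)) (L1.s π).1
          (L1.s π).2 (L2.s k).1 (L2.s k).2 (L1.D w π) (L1.I w π) (L1.P w π) I' P' :=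
        { par := parC_of hS h1 hw hπ
          c0pos := hc0
          c0le := hc01
          dlpos := hdl
          dlle := hdld0
          r1ge := hr1ge
          kpos := hκ0
          klo := hklo
          khi := hκ4'
          ka := hKp.ka
          Gm1 := hGm1
          Gm2 := hGm2
          Y1 := hY1
          Y2 := hYd
          sd := by rw [← hrs]; exact h2.sd k hk
          pl := by rw [← hrs]; exact hPl
          cp := fun j hj m hm => by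
            obtain ⟨z, hz, hzw, i, hi, hPe⟩ := hP' j hj
            rw [hPe]
            obtain ⟨cls, hd⟩ := h2.dec z hz
            have h3 := hd.cp k (Finset.mem_range.2 hk) m (by rw [hrs]; exact hm)
            unfold uS at h3
            simp only [Set.iUnion_eq_empty] at h3
            exact h3 i hi
          thin' := hthin1
          thin := by rw [← hrs]; exact hthin2
          wide := by rw [← hrs]; exact hwide2 }
      have hcoh : Coh (an L1.r) (an (dl * L1.r)) κ (dl ^ (1/2 : ℝ)) (R ^ e1) (2 * L1.r)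
          (L1.I w π) (L1.P w π) (2 * p1) :=
        HC Ma e1 M κ q A A' a b Cn K η0 C0 σ g R D M0 dl ν N L ac he1.le ha hb2.le hκ0 hκ1 hdl
          hdldc hκ4' hYd hS hT hAc t ht0 w hw π hπ hnt1 h8s
      have hchi : Chi nw K0 κ (trc w g) dl L1.r (A0 (nAR Ma R) (Enc g) (ac (t + 2) k)) p2
          (uS (L1.I w π) (L1.P w π)) I' P' :=
        chi_lev (t := t + 1) ha hb2.le hκ0.le hκ1 hdl hdl1 hS hK0 hT hAc ht1 hk hnt2 w I' P' hP'
      have h3 := HS c0 κ η0 K0 (trc w g) L1.r dl (R ^ e1) (dl ^ (-δ)) (L1.s π).1 (L1.s π).2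
        (L2.s k).1 (L2.s k).2 (L1.D w π) (A0 (nAR Ma R) (Enc g) (ac (t + 2) k)) p2 (2 * p1)
        (L1.I w π) (L1.P w π) I' P' hctx hwide1 hcoh (by linarith)
        (A0_nonneg (TuT890.Enc_nn g) _) hp2 hK0 hchi
      have e2 : L1.G w π = selc η0 κ (an L1.r) (trc w g) (uS (L1.I w π) (L1.P w π)) := by
        obtain ⟨cls, hd⟩ := h1.dec w hw
        exact hd.eq π (Finset.mem_range.2 hπ)
      have e3 : Enc (trc w g) = Enc g := GlC210.Enc_trc w g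
      rw [← e2, ← hrs] at h3
      refine h3.trans (le_of_eq ?_)
      unfold Tl SCo
      rw [e3]
      rfl)
  refine hlink.trans ?_
  have hSS : 0 ≤ SS g R D := by
    unfold SS
    have := TuT890.Enc_nn g
    positivity
  have hν0 : 0 ≤ ν := by linarith
  have hnum := main_num (CQ := CQ) (R := R) (r1 := L1.r) (ε := ε) (Cc := Cc) (Cn := Cn) (ν := ν)
    (G' := G') (G := G) (dl := dl) (δ := δ) (p1 := p1) (p2 := p2) (e1 := e1) (nb := (L1.nb : ℝ))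
    (n := nw) (Kg := ⌈G'⌉₊) hCQ hR hr11 h1.hi hε hCc hCn hν (Nat.cast_nonneg _)
    (hT.le (t + 1) ht1.le).2 hG' (Nat.le_ceil _) hdl he1.le he1b hp1 hp2
  have hcard := TuL890.card_net' hr11 h1.hi h1.net
  have htail := tail_num (CQ := CQ) (R := R) (D := D) (r1 := L1.r) (ε := ε) (Cc := Cc) (G' := G')
    (e1 := e1) (E := Enc g) (M0 := M0) (T := T) (F := (L1.Z.card : ℝ)) (n := nw) (Mt := Mt) hCQ hR
    hr11 h1.hi hCc hG' he1.le he1b (TuT890.Enc_nn g) hS.nd (Nat.cast_nonneg _) hcard hMt hε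
  rw [ENNReal.ofReal_natCast] at htail
  have hZ0 : 0 ≤ 2 * CQ * (Cc * Cn) ^ G' := by positivity
  have hX0 : 0 ≤ ν ^ (4 + ⌈G'⌉₊) * R ^ ε * dl ^ (-(G * δ)) *
      ((p1 / p2) ^ (1/2 : ℝ) + dl ^ (1/2 : ℝ)) := by positivity
  have hRT : 0 ≤ R ^ (-T) * SS g R D := mul_nonneg (Real.rpow_nonneg hR0.le _) hSS
  have hνK : ν ^ 4 ≤ ν ^ (4 + ⌈G'⌉₊) := pow_le_pow_right₀ hν (by omega)
  calc ENNReal.ofReal (Cl * ν ^ 4) * (ENNReal.ofReal Q0 * L1.S g π + (L1.Z.card : ℝ≥0∞) * T0) +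
        ENNReal.ofReal (Cl * ν ^ 4 * R ^ (-T) * SS g R D)
      = ENNReal.ofReal (Cl * ν ^ 4 * Q0) * L1.S g π +
        (ENNReal.ofReal (Cl * ν ^ 4) * ((L1.Z.card : ℝ≥0∞) * T0) +
          ENNReal.ofReal (Cl * ν ^ 4 * R ^ (-T) * SS g R D)) := by
        rw [ENNReal.ofReal_mul (p := Cl * ν ^ 4) (q := Q0) (by positivity)]
        ring
    _ ≤ ENNReal.ofReal (C * ν ^ (4 + ⌈G'⌉₊) * R ^ ε * dl ^ (-(G * δ)) *
          ((p1 / p2) ^ (1/2 : ℝ) + dl ^ (1/2 : ℝ))) * L1.S g π +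
        (ENNReal.ofReal (Cl * ν ^ 4) * ENNReal.ofReal (1296 * CQ * Cc ^ G' *
            (R ^ (-T) * (R * Enc g * √D))) +
          ENNReal.ofReal (Cl * ν ^ 4 * R ^ (-T) * SS g R D)) := by
        refine add_le_add (mul_le_mul' (ENNReal.ofReal_le_ofReal ?_) le_rfl)
          (add_le_add (mul_le_mul' le_rfl htail) le_rfl)
        calc Cl * ν ^ 4 * Q0 ≤ Cl * ν ^ 4 * (2 * CQ * (Cc * Cn) ^ G' * ν ^ ⌈G'⌉₊ * R ^ ε *
              dl ^ (-(G * δ)) * ((p1 / p2) ^ (1/2 : ℝ) + dl ^ (1/2 : ℝ))) := by gcongr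
          _ = (Cl * (2 * CQ * (Cc * Cn) ^ G')) * (ν ^ (4 + ⌈G'⌉₊) * R ^ ε * dl ^ (-(G * δ)) *
              ((p1 / p2) ^ (1/2 : ℝ) + dl ^ (1/2 : ℝ))) := by rw [pow_add]; ring
          _ ≤ C * (ν ^ (4 + ⌈G'⌉₊) * R ^ ε * dl ^ (-(G * δ)) *
              ((p1 / p2) ^ (1/2 : ℝ) + dl ^ (1/2 : ℝ))) := mul_le_mul_of_nonneg_right hC1 hX0
          _ = _ := by ring
    _ ≤ _ := by
        refine add_le_add le_rfl ?_
        rw [← ENNReal.ofReal_mul (by positivity), ← ENNReal.ofReal_add (by positivity) (by positivity)]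
        refine ENNReal.ofReal_le_ofReal ?_
        calc Cl * ν ^ 4 * (1296 * CQ * Cc ^ G' * (R ^ (-T) * (R * Enc g * √D))) +
              Cl * ν ^ 4 * R ^ (-T) * SS g R D
            = (Cl * (1296 * CQ * Cc ^ G') + Cl) * (ν ^ 4 * (R ^ (-T) * SS g R D)) := by
              unfold SS; ring
          _ ≤ C * (ν ^ (4 + ⌈G'⌉₊) * (R ^ (-T) * SS g R D)) := by gcongr
          _ = _ := by ring

end Crest.Agent.R116.Slb367
end

-- ▼ part R116/SlbC5_367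

/-!
# R116 (S0155), WAVE side, `SLAB` from `STEP_C` (helper367), part 5: tiny labels
-/

set_option autoImplicit false

open MeasureTheory FourierTransform
open scoped ENNReal

namespace Crest.Agent.R116.Slb367

open Crest.Agent.R138.Defs (E2 ee)
open Crest.Agent.R138.Wpk685 (cen caps)
open Crest.Agent.R116.CDef480
open Crest.Agent.R116.LZg725 (Cf)
open Crest.Agent.R116.AlB888 (Adc potc)
open Crest.Agent.R116.WC188
open Crest.Agent.R116.PC299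
open Crest.Agent.R116.Bas367
open Crest.Agent.R116.GlC210 (Lev LevOk Next Aux Cls Tow AuxF trn Acl Rg Kp argc AuxOk)

theorem umc_zero (ρ : ℝ) (m : ℤ × ℤ) (y : E3) : umc ρ (fun _ => 0) m y = 0 := by
  unfold umc
  simp only [mul_zero]
  rw [Real.fourierInv_eq']
  simp

/-- `R^Ma ≤ 2^nAR`. -/
theorem two_nAR {Ma : ℕ} {R : ℝ} (hR : 1 ≤ R) : R ^ (Ma : ℝ) ≤ 2 ^ nAR Ma R := by
  have hR0 : 0 < R := by linarith
  unfold nAR
  rw [mul_comm, pow_mul, Real.rpow_natCast]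
  refine pow_le_pow_left₀ hR0.le ?_ _
  have h1 : Real.logb 2 R ≤ ⌈Real.logb 2 R⌉₊ := Nat.le_ceil _
  calc R = 2 ^ Real.logb 2 R := (Real.rpow_logb (by norm_num) (by norm_num) hR0).symm
    _ ≤ 2 ^ ((⌈Real.logb 2 R⌉₊ : ℕ) : ℝ) :=
        Real.rpow_le_rpow_of_exponent_le (by norm_num) h1
    _ = 2 ^ ⌈Real.logb 2 R⌉₊ := Real.rpow_natCast _ _

theorem eta_range {M κ q a b M0 : ℝ} {η0 : ℝ} {C0 : E2} {σ : ℝ} {g : E3 → ℂ} {R D : ℝ}
    (ha : 1 ≤ a) (hS : Ss M κ q a b M0 η0 C0 σ g R D) (hka : 8 * a * κ ≤ 1)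
    (hg : ∃ ζ, g ζ ≠ 0) : (2 * a)⁻¹ ≤ η0 ∧ η0 ≤ 2 * a := by
  obtain ⟨ζ, hζ⟩ := hg
  have h1 := hS.supp ζ hζ
  have h2 := abs_le.1 (hS.slc ζ hζ)
  have ha0 : 0 < a := by linarith
  have h3 : κ ≤ a⁻¹ / 8 := by
    rw [le_div_iff₀ (by norm_num), ← one_div, le_div_iff₀ ha0]
    linarith
  have h4 : a⁻¹ ≤ 1 := inv_le_one_of_one_le₀ ha
  have h5 : 0 < a⁻¹ := inv_pos.2 ha0
  rw [mul_inv]
  constructor
  · linarith [h1.1, h2.2]
  · linarith [h1.2.1, h2.1]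

set_option maxHeartbeats 1000000 in
/-- **tiny labels**. -/
theorem tiny_of (q a b A' Cn M0 T : ℝ) (nw Ma : ℕ) (ha : 1 ≤ a) (hb : b ≤ 2) (hq : 0 ≤ q)
    (hA' : 1 ≤ A') (hCn : 1 ≤ Cn) (hMa : 16 + |M0| + 2 * |T| + q ≤ Ma) : ∃ C : ℝ, 1 ≤ C ∧
    ∀ (M κ A Cc e1 : ℝ) (K : ℕ) (η0 : ℝ) (C0 : E2) (σ : ℝ) (g : E3 → ℂ) (R D : ℝ),
      1 ≤ A → Ss M κ q a b M0 η0 C0 σ g R D → Kp a R κ → Ma ≤ K →
    ∀ dl ν : ℝ, 0 < dl → C * dl ≤ 1 → 1 ≤ ν → ν ≤ R →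
    ∀ (N : ℕ) (L : ℕ → Lev) (ac : ℕ → ℕ → ℕ), Tow M κ q A A' a b Cn K η0 C0 σ g R dl ν N L →
      Acl (AF Ma nw Cc e1) κ η0 g R dl N L ac → ∀ t < N, ∀ k < (L (t + 1)).n,
      ¬ ac (t + 1) k % (nAR Ma R + 1) < nAR Ma R →
      (L (t + 1)).S g k ≤ ENNReal.ofReal (C * ν * R ^ (-T) * SS g R D) := by
  obtain ⟨Kp0, hKp0, HP⟩ := F1c124.pt_le (a := 2 * a) (by linarith) nw 1
  obtain ⟨Ct, hCt, HT⟩ := TuT890.tiny_S q a b A' Cn M0 T (2 * Kp0 + 2 * Cn ^ 2) ha hb hq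
    (by linarith) (by linarith) (by positivity)
  refine ⟨max Ct A', hCt.trans (le_max_left _ _), ?_⟩
  intro M κ A Cc e1 K η0 C0 σ g R D hA hS hKp hMaK dl ν hdl hCdl hν hνR N L ac hT hAc t ht k hk hnt
  have hR := hS.R1
  have hR0 : 0 < R := by linarith
  have hE := TuT890.Enc_nn g
  have ha0 : 0 < a := by linarith
  have hA'dl : A' * dl ≤ 1 := (mul_le_mul_of_nonneg_right (le_max_right _ _) hdl.le).trans hCdl
  have hdl1 : dl ≤ 1 := by nlinarith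
  have hκ0 := hKp.k0
  have hκ1 : κ ≤ 1 := hKp.k4.trans (by norm_num)
  have hok := hT.ok t ht.le
  have hok' := hT.ok (t + 1) ht
  have hrs := tow_step hT ht
  have hr1 : 1 ≤ (L t).r := TuL890.lev_r1 hok hR
  have hr1' : 1 ≤ (L (t + 1)).r := TuL890.lev_r1 hok' hR
  have hr0 : 0 < (L t).r := by linarith
  have hr0' : 0 < (L (t + 1)).r := by linarith
  have hN := hT.next t ht
  have hν0 : 0 ≤ ν := by linarith
  have hM0 := le_abs_self M0
  have hT0 := le_abs_self T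
  have hSS : 0 ≤ SS g R D := by
    unfold SS; positivity
  have hMaK' : (Ma : ℝ) ≤ K := by exact_mod_cast hMaK
  have hK0 : (0:ℝ) ≤ K := Nat.cast_nonneg _
  have hmain := HT M κ A K η0 C0 σ g R D hS.toSt (L (t + 1)) hok' k hk ((Ma : ℝ) - 3)
    (by linarith [abs_nonneg M0, abs_nonneg T]) (by
      intro z hz m hmc y hy
      by_cases hg : ∃ ζ, g ζ ≠ 0
      swap
      · have hg0 : g = fun _ => 0 := funext fun ζ => by
          by_contra h; exact hg ⟨ζ, h⟩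
        have e : trc z g = fun _ => 0 := by
          funext ζ
          rw [hg0]
          unfold trc
          rw [zero_mul]
        rw [e, umc_zero]
        simp
      obtain ⟨hη1, hη2⟩ := eta_range ha hS hKp.ka hg
      unfold Lev.sl uS at hy
      simp only [Set.mem_iUnion, exists_prop] at hy
      obtain ⟨i, hi, hy⟩ := hy
      have hzc : z ∈ cylc R := hok'.net.mem z hz
      have hnear := hok.near z hzc
      set w := (L t).ζ z with hw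
      set π := (L (t + 1)).par k with hπd
      have hπ : π < (L t).n := hN.par_lt k hk
      obtain ⟨cls, hd⟩ := hok.dec w hnear.1
      obtain ⟨cls', hd'⟩ := hok'.dec z hz
      have hπΛ : π ∈ Finset.range (L t).n := Finset.mem_range.2 hπ
      -- domination
      have harg := hN.arg z hz k hk i hi m y hy
      have hdom : GlC210.Domc ((L (t + 1)).r ^ (-(1/2) : ℝ)) ((L t).pf z) (L t).n π m y := by
        have := GlC210.argc_dom ((L (t + 1)).r ^ (-(1/2) : ℝ)) ((L t).pf z) hok.n1 m y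
        rwa [harg] at this
      have h1 := GlC210.norm_domc (H := (L t).pf z)
        (e := trc (z - w) ((L t).rest w))
        (fun k' hk' => trc_int (Lk367.lev_G_int hok ha0 hnear.1 (Finset.mem_range.1 hk')) _)
        (trc_int (Lk367.lev_rest_int hok ha0 hnear.1) _) hdom
      rw [hw, ← Lk367.trc_dec hok hzc, ← hw] at h1
      -- the rest
      have hyb : ‖y‖ ≤ A * (L t).r := by
        have h2 := mem_closedBall_zero_iff.1 (hd'.bd k (Finset.mem_range.2 hk) m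
          (Set.mem_biUnion (x := i) hi hy))
        have h3 : A' * (L (t + 1)).r ≤ (L t).r := by
          rw [hrs, ← mul_assoc]
          exact mul_le_of_le_one_left hr0.le hA'dl
        have h4 : (L t).r ≤ A * (L t).r := by nlinarith
        linarith
      have hcyl : z - w ∈ cylc (A * (L t).r) := by
        have h2 := hnear.2
        have h4 : (L t).r ≤ A * (L t).r := by nlinarith
        exact ⟨h2.1.trans h4, h2.2.trans h4⟩
      have hrr : (L (t + 1)).r ≤ (L t).r := by rw [hrs]; nlinarith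
      have h2 := hd.small (L (t + 1)).r hr1' hrr _ hcyl m y hyb
      -- the selected wave
      have hsel : (L t).pf z π = trc (z - w) (selc η0 κ (an (L t).r) (trc w g)
          ((L t).sl w π)) := by
        unfold Lev.pf
        rw [← hw, hd.eq π hπΛ]
        rfl
      have hρ : 0 < an (L t).r := an_pos hr0
      have hρρ : an (L t).r ≤ an (L (t + 1)).r := by
        rw [hrs]
        exact an_le_an hdl hdl1 hr0
      have h3 := HP (an (L t).r) (an (L (t + 1)).r) κ η0 hρ hρρ hκ0 (by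
          rw [← one_div, le_div_iff₀ (by positivity)]
          linarith [hKp.ka]) hη1 hη2 (trc w g) ((L t).sl w π)
        (trc_int (ss_gd ha0 hS).int _) (fun m _ => lev_sl_meas hok hnear.1 hπ m)
        (fun m _ => Metric.isBounded_closedBall.subset (hd.bd π hπΛ m)) (z - w) (by
          rw [an_sq hr0]
          have h4 : |(z - w).2| ≤ (L t).r := hnear.2.2
          calc |(z - w).2| * (L t).r⁻¹ ≤ (L t).r * (L t).r⁻¹ := by gcongr
            _ = 1 := mul_inv_cancel₀ hr0.ne') m y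
      obtain ⟨c1, c2, -⟩ := pts ha hb hκ0.le hκ1 hS hT hAc ht hz hk hi hy
      have c3 := cls_tiny c1 hnt c2
      rw [← hsel] at h3
      have e1 : (an (L (t + 1)).r / an (L t).r) ^ 2 = dl⁻¹ := by
        rw [hrs, an_div hr0 hdl, sq, dlh_sq hdl]
      rw [e1] at h3
      have hrs' : an (L (t + 1)).r = an (dl * (L t).r) := by rw [hrs]
      have h5 : ‖umc ((L (t + 1)).r ^ (-(1/2) : ℝ)) ((L t).pf z π) m y‖ ^ 2 ≤
          Kp0 * dl⁻¹ * (Enc g / 2 ^ nAR Ma R) := by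
        have h6 : ENNReal.ofReal (‖umc ((L (t + 1)).r ^ (-(1/2) : ℝ)) ((L t).pf z π) m y‖ ^ 2) ≤
            ENNReal.ofReal (Kp0 * dl⁻¹ * (Enc g / 2 ^ nAR Ma R)) := by
          rw [ENNReal.ofReal_pow (norm_nonneg _), ofReal_norm,
            ENNReal.ofReal_mul (by positivity)]
          refine h3.trans (mul_le_mul' le_rfl ?_)
          rw [hrs']
          exact c3
        exact (ENNReal.ofReal_le_ofReal_iff (by positivity)).1 h6
      -- numbers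
      have hdlR : dl⁻¹ ≤ R := by
        rw [inv_le_comm₀ hdl hR0]
        have h6 : 1 ≤ dl * (L t).r := by rw [← hrs]; exact hr1'
        have h7 : dl * (L t).r ≤ dl * R := mul_le_mul_of_nonneg_left hok.hi hdl.le
        rw [← one_div, div_le_iff₀ hR0]
        linarith
      have h2n := two_nAR (Ma := Ma) hR
      have hRM : 0 < R ^ (Ma : ℝ) := Real.rpow_pos_of_pos hR0 _
      have h8 : Enc g / 2 ^ nAR Ma R ≤ R ^ (-(Ma : ℝ)) * Enc g := by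
        rw [Real.rpow_neg hR0.le, ← div_eq_inv_mul]
        gcongr
      have hn1 : ((L t).n : ℝ) ≤ R := ((hT.le t ht.le).1).trans hνR
      have hnb : ((L t).nb : ℝ) ≤ R := ((hT.le t ht.le).2).trans hνR
      set X := ‖umc ((L (t + 1)).r ^ (-(1/2) : ℝ)) ((L t).pf z π) m y‖ with hX
      set W := ‖umc ((L (t + 1)).r ^ (-(1/2) : ℝ)) (trc (z - w) ((L t).rest w)) m y‖ with hW
      set Z0 := ‖umc ((L (t + 1)).r ^ (-(1/2) : ℝ)) (trc z g) m y‖ with hZ0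
      have hX2 : X ^ 2 ≤ Kp0 * (R ^ (1 - (Ma : ℝ)) * Enc g) := by
        calc X ^ 2 ≤ Kp0 * dl⁻¹ * (Enc g / 2 ^ nAR Ma R) := h5
          _ ≤ Kp0 * R * (R ^ (-(Ma : ℝ)) * Enc g) := by gcongr
          _ = _ := by
            rw [show (1 - (Ma : ℝ)) = 1 + -(Ma : ℝ) by ring, Real.rpow_add hR0, Real.rpow_one]
            ring
      have hW2 : W ^ 2 ≤ Cn ^ 2 * (R ^ (2 - 2 * (K : ℝ)) * Enc g) := by
        calc W ^ 2 ≤ (Cn * (L t).nb * R ^ (-(K : ℝ)) * √(Enc g)) ^ 2 :=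
              pow_le_pow_left₀ (norm_nonneg _) h2 2
          _ = Cn ^ 2 * ((L t).nb : ℝ) ^ 2 * (R ^ (-(K : ℝ))) ^ 2 * Enc g := by
              rw [mul_pow, mul_pow, mul_pow, Real.sq_sqrt hE]
          _ ≤ Cn ^ 2 * R ^ 2 * (R ^ (-(K : ℝ))) ^ 2 * Enc g := by gcongr
          _ = _ := by
              have e2 : R ^ (2 - 2 * (K : ℝ)) = R ^ 2 * (R ^ (-(K : ℝ))) ^ 2 := by
                rw [show (2 - 2 * (K : ℝ)) = ((2 : ℕ) : ℝ) + (-(K : ℝ)) * ((2 : ℕ) : ℝ) by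
                  push_cast; ring, Real.rpow_add hR0, Real.rpow_natCast, Real.rpow_mul hR0.le,
                  Real.rpow_natCast]
              rw [e2]; ring
      have hZ2 : Z0 ^ 2 ≤ 2 * (R ^ 2 * X ^ 2) + 2 * W ^ 2 := by
        have h9 : Z0 ≤ R * X + W := by
          refine h1.trans ?_
          gcongr
        have h10 : 0 ≤ Z0 := norm_nonneg _
        calc Z0 ^ 2 ≤ (R * X + W) ^ 2 := pow_le_pow_left₀ h10 h9 2
          _ ≤ _ := by nlinarith [sq_nonneg (R * X - W)]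
      have e3 : R ^ 2 * R ^ (1 - (Ma : ℝ)) = R ^ (-((Ma : ℝ) - 3)) := by
        rw [← Real.rpow_natCast R 2, ← Real.rpow_add hR0]
        congr 1
        push_cast; ring
      have e4 : R ^ (2 - 2 * (K : ℝ)) ≤ R ^ (-((Ma : ℝ) - 3)) :=
        Real.rpow_le_rpow_of_exponent_le hR (by linarith)
      rw [← ofReal_norm, ← ENNReal.ofReal_pow (norm_nonneg _)]
      refine ENNReal.ofReal_le_ofReal ?_
      calc Z0 ^ 2 ≤ 2 * (R ^ 2 * X ^ 2) + 2 * W ^ 2 := hZ2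
        _ ≤ 2 * (R ^ 2 * (Kp0 * (R ^ (1 - (Ma : ℝ)) * Enc g))) +
            2 * (Cn ^ 2 * (R ^ (-((Ma : ℝ) - 3)) * Enc g)) := by
            gcongr
            refine hW2.trans ?_
            gcongr
        _ = (2 * Kp0 + 2 * Cn ^ 2) * R ^ (-((Ma : ℝ) - 3)) * Enc g := by
            rw [← e3]; ring)
  refine hmain.trans (ENNReal.ofReal_le_ofReal ?_)
  have h1 : √((L (t + 1)).nb : ℝ) ≤ ν := by
    refine (Real.sqrt_le_sqrt (hT.le (t + 1) ht).2).trans ?_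
    rw [Real.sqrt_le_left hν0]
    nlinarith
  have h2 : 0 ≤ R ^ (-T) * SS g R D := mul_nonneg (Real.rpow_nonneg hR0.le _) hSS
  calc Ct * √((L (t + 1)).nb : ℝ) * (R ^ (-T) * SS g R D)
      ≤ max Ct A' * ν * (R ^ (-T) * SS g R D) := by
        gcongr
        exact le_max_left _ _
    _ = _ := by ring

end Crest.Agent.R116.Slb367
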