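import Crest.Agent.R116.Sl2_850
import Crest.Agent.R116.CDef_480
import Crest.Agent.R116.WDefC_188

-- ▼ part R116/Sli1_850
section

/-!
# R116 (S0155), wave side, leaf SLI (helper850), part 1: eta-multipliers and packet energies.

`enc_mult`: if the packet energy of `g` on every `y`-translate of the selection `S` is at most `B`,
the packet energy of `φ(ζ₂/κ - l) g` on `S` is at most `C B`.
-/

set_option autoImplicit false

open MeasureTheory FourierTransform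
open scoped ContDiff ENNReal

namespace Crest.Agent.R116.Sl850

open Crest.Agent.R138.Defs (E2 ee)
open Crest.Agent.R138.Wpk685 (th win fat cen caps cap norm_ee ee_zero)
open Crest.Agent.R116.CDef480 (lat slp hc extc capc umc enc Enc trc)

theorem ex_zero (f : E3 → ℂ) (X : E3) : ex (fun _ => 0) f X 0 = 𝓕⁻ f X := by
  rw [Real.fourierInv_eq']
  unfold ex
  congr 1
  ext ζ
  rw [smul_eq_mul, mul_comm]
  unfold ee
  congr 2
  rw [real_inner_comm]
  push_cast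
  ring


/-- weighted bound at fixed time. -/
theorem fix_set {φ : ℝ → ℂ} (h1 : HasCompactSupport φ) (h2 : ContDiff ℝ ∞ φ) {p : ℝ} (hp : 1 ≤ p)
    (N : ℕ) : ∃ C : ℝ, 0 ≤ C ∧ ∀ h : E3 → ℝ, Measurable h → ∀ g : E3 → ℂ, Integrable g →
      ∀ κ : ℝ, 0 < κ → ∀ (l s : ℝ) (S : Set E3), 
      ∫⁻ X in S, ‖ex h (mul2 φ κ l g) X s‖ₑ ^ p ≤
        ENNReal.ofReal C * ∫⁻ u, wN N u * ∫⁻ X in S, ‖ex h g (X + (u / κ) • ey) s‖ₑ ^ p := by
  obtain ⟨C, hC, H⟩ := point_p h1 h2 hp N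
  refine ⟨C, hC, fun h hh g hg κ hκ l s S => ?_⟩
  have hc : Continuous fun q : E3 × ℝ => ex h g (q.1 + (q.2 / κ) • ey) s :=
    ex_cont_comp hh hg (by fun_prop) continuous_const
  calc ∫⁻ X in S, ‖ex h (mul2 φ κ l g) X s‖ₑ ^ p
      ≤ ∫⁻ X in S, ENNReal.ofReal C * ∫⁻ u, wN N u * ‖ex h g (X + (u / κ) • ey) s‖ₑ ^ p := by
        refine lintegral_mono fun X => ?_
        have := H h hh g hg κ hκ l X s 0 (by rw [abs_zero]; positivity)
        rwa [zero_smul, add_zero] at this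
    _ = ENNReal.ofReal C * ∫⁻ X in S, ∫⁻ u, wN N u * ‖ex h g (X + (u / κ) • ey) s‖ₑ ^ p :=
        lintegral_const_mul' _ _ ENNReal.ofReal_ne_top
    _ = ENNReal.ofReal C * ∫⁻ u, ∫⁻ X in S, wN N u * ‖ex h g (X + (u / κ) • ey) s‖ₑ ^ p := by
        congr 1
        refine lintegral_lintegral_swap ?_
        refine Measurable.aemeasurable ?_
        exact ((wN_meas N).comp measurable_snd).mul (hc.measurable.enorm.pow_const _)
    _ = _ := by
        congr 1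
        refine lintegral_congr fun u => ?_
        rw [lintegral_const_mul' _ _ (wN_ne_top N u)]

theorem mul2_mul (φ : ℝ → ℂ) (κ l : ℝ) (w g : E3 → ℂ) :
    (fun ζ => w ζ * mul2 φ κ l g ζ) = mul2 φ κ l (fun ζ => w ζ * g ζ) := by
  ext ζ
  unfold mul2
  ring

/-- a bounded measurable function supported in a bounded set is integrable. -/
theorem int_of_bdd {g : E3 → ℂ} (hm : Measurable g) {L : ℝ} (hL : ∀ ζ, ‖g ζ‖ ≤ L) {r : ℝ}
    (hs : ∀ ζ, g ζ ≠ 0 → ‖ζ‖ ≤ r) : Integrable g := by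
  have h1 : IntegrableOn g (Metric.closedBall 0 r) :=
    Measure.integrableOn_of_bounded (M := L)
      (measure_closedBall_lt_top).ne hm.aestronglyMeasurable (Filter.Eventually.of_forall hL)
  refine (integrableOn_iff_integrable_of_support_subset fun ζ hζ => ?_).1 h1
  rw [mem_closedBall_zero_iff]
  exact hs ζ hζ

theorem measurable_capc (ρ : ℝ) (m : ℤ × ℤ) : Measurable (capc ρ m) := by
  unfold capc cap
  have h1 : Measurable fun ζ : E3 => ρ⁻¹ • (slp ζ - cen ρ m) := by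
    have := Crest.Agent.R116.CDef480.measurable_slp
    fun_prop
  exact Crest.Agent.R138.Wpk685.win_contDiff.continuous.measurable.comp h1

theorem norm_capc_le (ρ : ℝ) (m : ℤ × ℤ) (ζ : E3) : ‖capc ρ m ζ‖ ≤ 1 :=
  Crest.Agent.R138.Wpk685.norm_win_le _

theorem capc_mul_int (ρ : ℝ) (m : ℤ × ℤ) {g : E3 → ℂ} (hg : Integrable g) :
    Integrable fun ζ => capc ρ m ζ * g ζ :=
  hg.bdd_mul (c := 1) (measurable_capc ρ m).aestronglyMeasurable
    (Filter.Eventually.of_forall fun ζ => norm_capc_le ρ m ζ)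

/-- **packet energies of eta-multipliers**. -/
theorem enc_mult {φ : ℝ → ℂ} (h1 : HasCompactSupport φ) (h2 : ContDiff ℝ ∞ φ) :
    ∃ C : ℝ, 1 ≤ C ∧ ∀ g : E3 → ℂ, Integrable g → ∀ κ : ℝ, 0 < κ → ∀ (l ρ : ℝ)
      (S : ℤ × ℤ → Set E3), (∀ m, MeasurableSet (S m)) → ∀ B : ℝ≥0∞,
      (∀ a : ℝ, enc ρ g (fun m => (fun X => X - a • ey) ⁻¹' S m) ≤ B) →
      enc ρ (mul2 φ κ l g) S ≤ ENNReal.ofReal C * B := by
  obtain ⟨C, hC, H⟩ := fix_set h1 h2 (p := 2) (by norm_num) 2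
  have hfin := (wN_int le_rfl).ne
  refine ⟨C * (∫⁻ u, wN 2 u).toReal + 1, by
    have : 0 ≤ C * (∫⁻ u, wN 2 u).toReal := by positivity
    linarith, fun g hg κ hκ l ρ S hS B hB => ?_⟩
  have e1 : ∀ m, ∫⁻ X in S m, ‖umc ρ (mul2 φ κ l g) m X‖ₑ ^ 2 ≤
      ENNReal.ofReal C * ∫⁻ u, wN 2 u *
        ∫⁻ X in (fun X => X - (u / κ) • ey) ⁻¹' S m, ‖umc ρ g m X‖ₑ ^ 2 := by
    intro m
    have h3 := H (fun _ => 0) measurable_const _ (capc_mul_int ρ m hg) κ hκ l 0 (S m)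
    rw [← mul2_mul] at h3
    simp only [ex_zero] at h3
    have e0 : ∀ x : ℝ≥0∞, x ^ (2:ℝ) = x ^ 2 := fun x => ENNReal.rpow_two x
    simp only [e0] at h3
    refine h3.trans_eq ?_
    congr 1
    refine lintegral_congr fun u => ?_
    congr 1
    have h4 : MeasurableSet ((fun X : E3 => X - (u / κ) • ey) ⁻¹' S m) :=
      (measurable_id.sub_const _) (hS m)
    rw [← lintegral_indicator (hS m), ← lintegral_indicator h4,
      ← lintegral_add_right_eq_self (fun X => ((fun X : E3 => X - (u / κ) • ey) ⁻¹' S m).indicator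
        (fun X => ‖umc ρ g m X‖ₑ ^ 2) X) ((u / κ) • ey)]
    refine lintegral_congr fun X => ?_
    by_cases hX : X ∈ S m
    · rw [Set.indicator_of_mem hX, Set.indicator_of_mem (by simpa using hX)]
      rfl
    · rw [Set.indicator_of_notMem hX, Set.indicator_of_notMem (by simpa using hX)]
  have hcm : ∀ m, Measurable fun q : ℝ × E3 => ‖umc ρ g m q.2‖ₑ ^ 2 := by
    intro m
    have hc : Continuous fun X : E3 => ex (fun _ => 0) (fun ζ => capc ρ m ζ * g ζ) X 0 :=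
      ex_cont_comp measurable_const (capc_mul_int ρ m hg) continuous_id continuous_const
    simp only [ex_zero] at hc
    exact (hc.measurable.comp measurable_snd).enorm.pow_const _
  have hmu : ∀ m, Measurable fun u : ℝ =>
      ∫⁻ X in (fun X => X - (u / κ) • ey) ⁻¹' S m, ‖umc ρ g m X‖ₑ ^ 2 := by
    intro m
    have h5 : ∀ u : ℝ, ∫⁻ X in (fun X => X - (u / κ) • ey) ⁻¹' S m, ‖umc ρ g m X‖ₑ ^ 2 =
        ∫⁻ X, ((fun q : ℝ × E3 => q.2 - (q.1 / κ) • ey) ⁻¹' S m).indicator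
          (fun q : ℝ × E3 => ‖umc ρ g m q.2‖ₑ ^ 2) (u, X) := by
      intro u
      have h4 : MeasurableSet ((fun X : E3 => X - (u / κ) • ey) ⁻¹' S m) :=
        (measurable_id.sub_const _) (hS m)
      rw [← lintegral_indicator h4]
      rfl
    simp_rw [h5]
    refine Measurable.lintegral_prod_right' ?_
    refine (hcm m).indicator ?_
    exact (by fun_prop : Measurable fun q : ℝ × E3 => q.2 - (q.1 / κ) • ey) (hS m)
  calc enc ρ (mul2 φ κ l g) S
      ≤ ∑ m ∈ caps ρ, ENNReal.ofReal C * ∫⁻ u, wN 2 u *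
        ∫⁻ X in (fun X => X - (u / κ) • ey) ⁻¹' S m, ‖umc ρ g m X‖ₑ ^ 2 :=
        Finset.sum_le_sum fun m _ => e1 m
    _ = ENNReal.ofReal C * ∫⁻ u, wN 2 u *
        enc ρ g (fun m => (fun X => X - (u / κ) • ey) ⁻¹' S m) := by
        rw [← Finset.mul_sum]
        congr 1
        have h6 := lintegral_finsetSum (μ := (volume : Measure ℝ)) (caps ρ)
          (f := fun m u => wN 2 u *
            ∫⁻ X in (fun X => X - (u / κ) • ey) ⁻¹' S m, ‖umc ρ g m X‖ₑ ^ 2)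
          fun m _ => (wN_meas 2).mul (hmu m)
        rw [← h6]
        refine lintegral_congr fun u => ?_
        rw [← Finset.mul_sum]
        rfl
    _ ≤ ENNReal.ofReal C * ∫⁻ u, wN 2 u * B := by
        gcongr with u
        exact hB _
    _ = ENNReal.ofReal (C * (∫⁻ u, wN 2 u).toReal) * B := by
        rw [lintegral_mul_const _ (wN_meas 2), ENNReal.ofReal_mul hC, ENNReal.ofReal_toReal hfin,
          mul_assoc]
    _ ≤ _ := by
        gcongr
        linarith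

end Crest.Agent.R116.Sl850
end

-- ▼ part R116/Sli2_850
section

/-!
# R116 (S0155), wave side, leaf SLI (helper850), part 2: thick members are covered by thin members,
translates of members, the sliced box bound.
-/

set_option autoImplicit false

open MeasureTheory FourierTransform
open scoped ContDiff ENNReal

namespace Crest.Agent.R116.Sl850

open Crest.Agent.R138.Defs (E2 ee)
open Crest.Agent.R138.Wpk685 (th win fat cen caps cap)
open Crest.Agent.R116.CDef480 (lat slp hc extc capc umc enc Enc trc nrm)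
open Crest.Agent.R116.LZg725 (Cf)
open Crest.Agent.R116.WC188

/-! ### abstract covering -/

theorem enc_mono (ρ : ℝ) (g : E3 → ℂ) {S T : ℤ × ℤ → Set E3} (h : ∀ m, S m ⊆ T m) :
    enc ρ g S ≤ enc ρ g T :=
  Finset.sum_le_sum fun m _ => lintegral_mono_set (h m)

theorem enc_cover (ρ : ℝ) (g : E3 → ℂ) {α : Type*} (J : Finset α) (P : ℤ × ℤ → Set E3)
    (Q : ℤ × ℤ → E3 → ℤ × ℤ → Set E3) (cl : ℤ × ℤ → E3 → α) (B : ℝ≥0∞)
    (hJ : ∀ m X, X ∈ P m → cl m X ∈ J)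
    (hQ : ∀ m X m' X', X ∈ P m → X' ∈ P m' → cl m X = cl m' X' → X ∈ Q m' X' m)
    (hB : ∀ m' X', X' ∈ P m' → enc ρ g (Q m' X') ≤ B) :
    enc ρ g P ≤ (J.card : ℝ≥0∞) * B := by
  have h1 : ∀ m, ∫⁻ X in P m, ‖umc ρ g m X‖ₑ ^ 2 ≤
      ∑ i ∈ J, ∫⁻ X in {X | X ∈ P m ∧ cl m X = i}, ‖umc ρ g m X‖ₑ ^ 2 := by
    intro m
    have h2 : P m ⊆ ⋃ i : J, {X | X ∈ P m ∧ cl m X = i} := by
      intro X hX
      rw [Set.mem_iUnion]
      exact ⟨⟨cl m X, hJ m X hX⟩, hX, rfl⟩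
    refine (lintegral_mono_set h2).trans ((lintegral_iUnion_le _ _).trans ?_)
    rw [tsum_fintype]
    exact (Finset.sum_coe_sort J fun i => ∫⁻ X in {X | X ∈ P m ∧ cl m X = i}, ‖umc ρ g m X‖ₑ ^ 2).le
  have h3 : ∀ i ∈ J, enc ρ g (fun m => {X | X ∈ P m ∧ cl m X = i}) ≤ B := by
    intro i _
    by_cases hi : ∃ m' X', X' ∈ P m' ∧ cl m' X' = i
    · obtain ⟨m', X', hX', hc⟩ := hi
      refine (enc_mono ρ g fun m X hX => ?_).trans (hB m' X' hX')
      exact hQ m X m' X' hX.1 hX' (hX.2.trans hc.symm)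
    · have h4 : ∀ m, {X | X ∈ P m ∧ cl m X = i} = ∅ := by
        intro m
        ext X
        simp only [Set.mem_ofPred_eq, Set.mem_empty_iff_false, iff_false]
        exact fun h => hi ⟨m, X, h⟩
      unfold enc
      simp only [h4]
      simp
  calc enc ρ g P ≤ ∑ m ∈ caps ρ, ∑ i ∈ J, ∫⁻ X in {X | X ∈ P m ∧ cl m X = i}, ‖umc ρ g m X‖ₑ ^ 2 :=
        Finset.sum_le_sum fun m _ => h1 m
    _ = ∑ i ∈ J, enc ρ g (fun m => {X | X ∈ P m ∧ cl m X = i}) := Finset.sum_comm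
    _ ≤ ∑ i ∈ J, B := Finset.sum_le_sum h3
    _ = _ := by rw [Finset.sum_const, nsmul_eq_mul]

/-! ### geometry of the cells -/

theorem floor_mem {x : ℝ} {K : ℤ} (h : |x| ≤ K) : ⌊x⌋ ∈ Finset.Icc (-K) K := by
  obtain ⟨h1, h2⟩ := abs_le.1 h
  rw [Finset.mem_Icc]
  constructor
  · rw [Int.le_floor]; push_cast; exact h1
  · have : (⌊x⌋ : ℝ) ≤ K := (Int.floor_le x).trans h2
    exact_mod_cast this

theorem norm_le_of_coord {v : E2} {t : ℝ} (ht : 0 ≤ t) (h0 : |v 0| ≤ t / 4) (h1 : |v 1| ≤ t / 4) :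
    ‖v‖ ≤ 3 / 8 * t := by
  have h2 := Crest.Agent.R116.CDef480.normsq2 v
  have h3 : v 0 ^ 2 ≤ (t / 4) ^ 2 := by rw [← sq_abs]; gcongr
  have h4 : v 1 ^ 2 ≤ (t / 4) ^ 2 := by rw [← sq_abs]; gcongr
  refine abs_le_of_sq_le_sq' ?_ (by positivity) |>.2
  nlinarith [sq_nonneg t]

theorem coord_le (v : E2) (i : Fin 2) : |v i| ≤ ‖v‖ := by
  have := PiLp.norm_apply_le v i
  rwa [Real.norm_eq_abs] at this

/-- the class (cell) of a packet. -/
noncomputable def cell (ρ : ℝ) (c : E2) (X0 : E3) (s R : ℝ) (m : ℤ × ℤ) (X : E3) :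
    (ℤ × ℤ) × (ℤ × ℤ) × ℤ :=
  ((⌊4 * (cen ρ m - c) 0 / s⌋, ⌊4 * (cen ρ m - c) 1 / s⌋),
    (⌊4 * (lat X - lat X0) 0 / (s * R)⌋, ⌊4 * (lat X - lat X0) 1 / (s * R)⌋),
    ⌊2 * (nrm c X 0 - nrm c X0 0) / (s ^ 2 * R)⌋)

/-- the set of cells. -/
@[irreducible] noncomputable def cells (K : ℤ) : Finset ((ℤ × ℤ) × (ℤ × ℤ) × ℤ) :=
  (Finset.Icc (-4) 4 ×ˢ Finset.Icc (-4) 4) ×ˢ (Finset.Icc (-4) 4 ×ˢ Finset.Icc (-4) 4) ×ˢ
    Finset.Icc (-K) K

theorem card_cells {K : ℤ} (hK : 0 ≤ K) : ((cells K).card : ℝ) = 6561 * (2 * K + 1) := by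
  unfold cells
  simp only [Finset.card_product, Int.card_Icc]
  have : (((K + 1 - -K).toNat : ℕ) : ℝ) = 2 * K + 1 := by
    have h : (((K + 1 - -K).toNat : ℕ) : ℤ) = 2 * K + 1 := by
      rw [Int.toNat_of_nonneg (by omega)]; ring
    calc (((K + 1 - -K).toNat : ℕ) : ℝ) = ((((K + 1 - -K).toNat : ℕ) : ℤ) : ℝ) :=
          (Int.cast_natCast _).symm
      _ = ((2 * K + 1 : ℤ) : ℝ) := by rw [h]
      _ = 2 * K + 1 := by push_cast; ring
  push_cast
  rw [this]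
  ring

theorem nrm_change (c C' : E2) (X X' : E3) :
    nrm C' X 0 - nrm C' X' 0 = (nrm c X 0 - nrm c X' 0) + inner ℝ (C' - c) (lat X - lat X') := by
  unfold nrm
  rw [inner_sub_left, inner_sub_right, inner_sub_right]
  ring

/-- points of the same cell. -/
theorem cell_eq {ρ : ℝ} {c : E2} {X0 : E3} {s R : ℝ} (hs : 0 < s) (hR : 0 < R) {m m' : ℤ × ℤ}
    {X X' : E3} (h : cell ρ c X0 s R m X = cell ρ c X0 s R m' X') (hC : ‖cen ρ m' - c‖ ≤ s) :
    ‖cen ρ m - cen ρ m'‖ ≤ s ∧ ‖lat X - lat X'‖ ≤ s * R ∧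
      |nrm (cen ρ m') X 0 - nrm (cen ρ m') X' 0| ≤ s ^ 2 * R := by
  unfold cell at h
  simp only [Prod.mk.injEq] at h
  obtain ⟨⟨h1, h2⟩, ⟨h3, h4⟩, h5⟩ := h
  have aux : ∀ {x y t : ℝ}, 0 < t → ⌊4 * x / t⌋ = ⌊4 * y / t⌋ → |x - y| ≤ t / 4 := by
    intro x y t ht hxy
    have h6 := (Int.abs_sub_lt_one_of_floor_eq_floor hxy).le
    have e : 4 * x / t - 4 * y / t = (4 / t) * (x - y) := by ring
    rw [e, abs_mul, abs_of_pos (by positivity : (0:ℝ) < 4 / t)] at h6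
    rw [← le_div_iff₀' (by positivity)] at h6
    refine h6.trans_eq ?_
    field_simp
  have hsR : 0 < s * R := mul_pos hs hR
  have k1 := aux hs h1
  have k2 := aux hs h2
  have k3 := aux hsR h3
  have k4 := aux hsR h4
  have k5 : |(nrm c X 0 - nrm c X0 0) - (nrm c X' 0 - nrm c X0 0)| ≤ s ^ 2 * R / 2 := by
    have h6 := (Int.abs_sub_lt_one_of_floor_eq_floor h5).le
    have e : 2 * (nrm c X 0 - nrm c X0 0) / (s ^ 2 * R) - 2 * (nrm c X' 0 - nrm c X0 0) / (s ^ 2 * R) =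
        (2 / (s ^ 2 * R)) * ((nrm c X 0 - nrm c X0 0) - (nrm c X' 0 - nrm c X0 0)) := by ring
    rw [e, abs_mul, abs_of_pos (by positivity : (0:ℝ) < 2 / (s ^ 2 * R))] at h6
    rw [← le_div_iff₀' (by positivity)] at h6
    refine h6.trans_eq ?_
    field_simp
  have l1 : ‖cen ρ m - cen ρ m'‖ ≤ 3 / 8 * s := by
    refine norm_le_of_coord hs.le ?_ ?_
    · simpa [PiLp.sub_apply] using k1
    · simpa [PiLp.sub_apply] using k2
  have l2 : ‖lat X - lat X'‖ ≤ 3 / 8 * (s * R) := by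
    refine norm_le_of_coord hsR.le ?_ ?_
    · simpa [PiLp.sub_apply] using k3
    · simpa [PiLp.sub_apply] using k4
  refine ⟨by linarith, by linarith, ?_⟩
  rw [nrm_change c]
  refine (abs_add_le _ _).trans ?_
  have l3 : |inner ℝ (cen ρ m' - c) (lat X - lat X')| ≤ s * (3 / 8 * (s * R)) :=
    (abs_real_inner_le_norm _ _).trans (mul_le_mul hC l2 (norm_nonneg _) hs.le)
  have l4 : |nrm c X 0 - nrm c X' 0| ≤ s ^ 2 * R / 2 := by
    have : nrm c X 0 - nrm c X' 0 = (nrm c X 0 - nrm c X0 0) - (nrm c X' 0 - nrm c X0 0) := by ring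
    rw [this]; exact k5
  nlinarith

/-- points of a thick member lie in the cells. -/
theorem cell_mem {ρ : ℝ} {c : E2} {X0 : E3} {s R T : ℝ} (hs : 0 < s) (hR : 0 < R) {m : ℤ × ℤ}
    {X : E3} {K : ℤ} (hK : 2 * T / s ^ 2 ≤ K) (h1 : ‖cen ρ m - c‖ ≤ s)
    (h2 : ‖lat X - lat X0‖ ≤ s * R) (h3 : |nrm c X 0 - nrm c X0 0| ≤ T * R) :
    cell ρ c X0 s R m X ∈ cells K := by
  have hsR : 0 < s * R := mul_pos hs hR
  have aux : ∀ {x t : ℝ}, 0 < t → |x| ≤ t → ⌊4 * x / t⌋ ∈ Finset.Icc (-4 : ℤ) 4 := by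
    intro x t ht hx
    refine floor_mem ?_
    rw [abs_div, abs_mul, abs_of_pos ht, abs_of_pos (by norm_num : (0:ℝ) < 4), div_le_iff₀ ht]
    push_cast
    linarith
  unfold cell cells
  simp only [Finset.mem_product]
  refine ⟨⟨aux hs ((coord_le _ 0).trans h1), aux hs ((coord_le _ 1).trans h1)⟩,
    ⟨aux hsR ((coord_le _ 0).trans h2), aux hsR ((coord_le _ 1).trans h2)⟩, ?_⟩
  refine floor_mem ?_
  rw [abs_div, abs_mul, abs_of_pos (by norm_num : (0:ℝ) < 2),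
    abs_of_pos (by positivity : (0:ℝ) < s ^ 2 * R)]
  calc 2 * |nrm c X 0 - nrm c X0 0| / (s ^ 2 * R) ≤ 2 * (T * R) / (s ^ 2 * R) := by gcongr
    _ = 2 * T / s ^ 2 := by field_simp
    _ ≤ K := hK

end Crest.Agent.R116.Sl850
end

-- ▼ part R116/Sli3_850

/-!
# R116 (S0155), wave side, leaf SLI (helper850), part 3: the sliced box bound.
-/

set_option autoImplicit false

open MeasureTheory FourierTransform
open scoped ContDiff ENNReal

namespace Crest.Agent.R116.Sl850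

open Crest.Agent.R138.Defs (E2 ee)
open Crest.Agent.R138.Wpk685 (th win fat cen caps cap)
open Crest.Agent.R116.CDef480 (lat slp hc extc capc umc enc Enc trc nrm)
open Crest.Agent.R116.LZg725 (Cf)
open Crest.Agent.R116.WC188

/-! ### thick members are covered by thin members -/

theorem sq_ge {s R : ℝ} (hR : 1 ≤ R) (hs : R ^ (-(1/2) : ℝ) ≤ s) : R⁻¹ ≤ s ^ 2 := by
  have h1 : (R ^ (-(1/2) : ℝ)) ^ 2 = R⁻¹ := by
    rw [← Real.rpow_natCast, ← Real.rpow_mul (by linarith)]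
    norm_num
    rw [Real.rpow_neg_one]
  rw [← h1]
  gcongr

theorem TT_one {s R : ℝ} (hR : 1 ≤ R) (hs : R ^ (-(1/2) : ℝ) ≤ s) : TT 1 s R = s ^ 2 := by
  unfold TT
  rw [one_mul, max_eq_left (sq_ge hR hs)]

theorem TT_le {κ s R : ℝ} (hκ : 0 < κ) (hκ1 : κ ≤ 1) (hR : 0 < R) : TT 1 s R ≤ TT κ s R := by
  unfold TT
  refine max_le_max le_rfl (inv_anti₀ (by positivity) ?_)
  gcongr

theorem TT_pos {κ s R : ℝ} (hs : 0 < s) : 0 < TT κ s R :=
  lt_of_lt_of_le (by positivity) (le_max_left _ _)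

theorem mem_pbx {κ A r s1 s2 : ℝ} {c : E2} {X0 : E3} {f : Cf E2} {m : ℤ × ℤ} {X : E3} :
    X ∈ pbx κ A r s1 s2 c X0 f m ↔ ‖cen (r ^ (-(1/2) : ℝ)) m - c‖ ≤ A * s2 ∧
      ‖lat X - lat X0‖ ≤ A * s2 * r ∧ |nrm c X 0 - nrm c X0 0| ≤ A * TT κ s2 r * r ∧
      |f.ev (lat X) (X 2) 0| ≤ A * s1 * r ∧
      |f.ld (cen (r ^ (-(1/2) : ℝ)) m) (lat X) (X 2) 0| ≤ A * s1 := Iff.rfl

/-- a packet of a thick member is the centre of an admissible thin member. -/
theorem adm_center {M κ s1 s2 R : ℝ} (hM : 1 ≤ M) (hR : 1 ≤ R) (hκ : 0 < κ) (hκ1 : κ ≤ 1)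
    (hs : Sd R s1 s2) {c : E2} {X0 : E3} {f : Cf E2} (hA : Adm M κ s1 s2 (TT κ s2 R) R c X0 f)
    {m : ℤ × ℤ} {X : E3} (hX : X ∈ pbx κ 1 R s1 s2 c X0 f m) :
    Adm M 1 s1 s2 (TT 1 s2 R) R (cen (R ^ (-(1/2) : ℝ)) m) X f := by
  have h0 : 0 < R ^ (-(1/2) : ℝ) := by positivity
  have hs1 : 0 < s1 := lt_of_lt_of_le h0 hs.lo
  have hs2 : 0 < s2 := lt_of_lt_of_le hs1 hs.le
  rw [mem_pbx] at hX
  obtain ⟨_, _, _, h4, h5⟩ := hX
  have hR0 : 0 < R := by linarith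
  refine ⟨hA.disc, fun s hsR => (hA.ny s hsR).trans ?_, fun s hsR => (hA.cmp s hsR).trans ?_, ?_,
    ?_⟩
  · have := TT_le hκ hκ1 (s := s2) (R := R) (by linarith)
    have := TT_pos (κ := 1) (R := R) hs2
    gcongr
  · gcongr
  · rw [one_mul] at h5
    refine h5.trans (hs.le.trans ?_)
    nlinarith
  · rw [one_mul] at h4
    refine h4.trans ?_
    have : s1 * R ≤ s2 * R := by gcongr; exact hs.le
    nlinarith [mul_pos hs2 (by linarith : (0:ℝ) < R)]

/-- **the thick box bound for `g`**. -/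
theorem thick_bound {M q R D κ : ℝ} (hM : 1 ≤ M) (hR : 1 ≤ R) (hD : 0 ≤ D) (hκ : 0 < κ)
    (hκ1 : κ ≤ 1) {g : E3 → ℂ} (H : PBx M 1 q R g D) {c : E2} {X0 : E3} {f : Cf E2} {s1 s2 : ℝ}
    (hs : Sd R s1 s2) (hA : Adm M κ s1 s2 (TT κ s2 R) R c X0 f) :
    enc (R ^ (-(1/2) : ℝ)) g (pbx κ 1 R s1 s2 c X0 f) ≤
      ENNReal.ofReal (45927 * (D * s2 ^ q * scost κ s1 s2 R)) := by
  have h0 : 0 < R ^ (-(1/2) : ℝ) := by positivity
  have hs1 : 0 < s1 := lt_of_lt_of_le h0 hs.lo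
  have hs2 : 0 < s2 := lt_of_lt_of_le hs1 hs.le
  have hR0 : 0 < R := by linarith
  set ρ := R ^ (-(1/2) : ℝ) with hρ
  have hT1 : TT 1 s2 R = s2 ^ 2 := TT_one hR (hs.lo.trans hs.le)
  have hTT := TT_le hκ hκ1 (s := s2) hR0
  set T := TT κ s2 R with hT
  rw [hT1] at hTT
  set K : ℤ := ⌈2 * T / s2 ^ 2⌉ with hK
  have hK1 : 2 * T / s2 ^ 2 ≤ K := Int.le_ceil _
  have hK2 : (K : ℝ) < 2 * T / s2 ^ 2 + 1 := Int.ceil_lt_add_one _
  have hTp : 0 < T := TT_pos hs2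
  clear_value K
  have hx : 1 ≤ T / s2 ^ 2 := by rw [le_div_iff₀ (by positivity)]; linarith
  have hK0 : (0 : ℤ) ≤ K := by
    have : (0 : ℝ) ≤ K := le_trans (by positivity) hK1
    exact_mod_cast this
  have h1 := enc_cover ρ g (cells K) (pbx κ 1 R s1 s2 c X0 f)
    (fun m' X' => pbx 1 1 R s1 s2 (cen ρ m') X' f) (cell ρ c X0 s2 R)
    (ENNReal.ofReal (D * s2 ^ q * scost 1 s1 s2 R)) ?_ ?_ ?_
  · refine h1.trans ?_
    have h2 : ((cells K).card : ℝ≥0∞) = ENNReal.ofReal ((cells K).card : ℝ) := by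
      rw [ENNReal.ofReal_natCast]
    rw [h2, ← ENNReal.ofReal_mul (by positivity), card_cells hK0]
    refine ENNReal.ofReal_le_ofReal ?_
    have e1 : scost 1 s1 s2 R = s1 * s2 * s2 ^ 2 * R ^ 3 := by unfold scost; rw [hT1]
    have e2 : scost κ s1 s2 R = s1 * s2 * T * R ^ 3 := rfl
    rw [e1, e2]
    have h3 : 2 * (K : ℝ) + 1 ≤ 7 * (T / s2 ^ 2) := by
      have : 2 * T / s2 ^ 2 = 2 * (T / s2 ^ 2) := by ring
      rw [this] at hK2
      linarith
    have hDq : 0 ≤ D * s2 ^ q := mul_nonneg hD (Real.rpow_nonneg hs2.le _)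
    calc 6561 * (2 * (K : ℝ) + 1) * (D * s2 ^ q * (s1 * s2 * s2 ^ 2 * R ^ 3))
        ≤ 6561 * (7 * (T / s2 ^ 2)) * (D * s2 ^ q * (s1 * s2 * s2 ^ 2 * R ^ 3)) := by gcongr
      _ = 45927 * (D * s2 ^ q * (s1 * s2 * T * R ^ 3)) := by
        field_simp
        ring
  · intro m X hX
    rw [mem_pbx] at hX
    have k1 := hX.1
    have k2 := hX.2.1
    have k3 := hX.2.2.1
    rw [one_mul] at k1 k2 k3
    rw [← hρ] at k1
    rw [← hT] at k3
    exact cell_mem hs2 hR0 hK1 k1 k2 k3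
  · intro m X m' X' hX hX' hc
    rw [mem_pbx, ← hρ] at hX hX'
    have k1' := hX'.1
    rw [one_mul] at k1'
    obtain ⟨l1, l2, l3⟩ := cell_eq hs2 hR0 hc k1'
    rw [mem_pbx, ← hρ, one_mul s2, one_mul (TT 1 s2 R), hT1]
    exact ⟨l1, l2, l3, hX.2.2.2.1, hX.2.2.2.2⟩
  · intro m' X' hX'
    exact H (cen ρ m') X' f s1 s2 hs (adm_center hM hR hκ hκ1 hs hA hX')

/-! ### translations in `y` -/

theorem lat_ey (X : E3) (a : ℝ) : lat (X + a • ey) = lat X := by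
  unfold ey
  ext i
  fin_cases i <;> simp [lat]

theorem lat_ey' (X : E3) (a : ℝ) : lat (X - a • ey) = lat X := by
  rw [sub_eq_add_neg, ← neg_smul]
  exact lat_ey X _

theorem two_ey (X : E3) (a : ℝ) : (X + a • ey) 2 = X 2 + a := by
  unfold ey
  simp

theorem two_ey' (X : E3) (a : ℝ) : (X - a • ey) 2 = X 2 - a := by
  unfold ey
  simp

theorem nrm_ey (c : E2) (X : E3) (a : ℝ) : nrm c (X + a • ey) 0 = nrm c X 0 + a := by
  unfold nrm
  rw [lat_ey, two_ey]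
  ring

theorem nrm_ey' (c : E2) (X : E3) (a : ℝ) : nrm c (X - a • ey) 0 = nrm c X 0 - a := by
  unfold nrm
  rw [lat_ey', two_ey']
  ring

/-- the conformal function translated by `a` in `y`. -/
noncomputable def shf (a : ℝ) (f : Cf E2) : Cf E2 := Cf.tr 0 (-a) 0 f

theorem ev_shf (a : ℝ) (f : Cf E2) (x : E2) (y s : ℝ) : (shf a f).ev x y s = f.ev x (y - a) s := by
  unfold shf
  rw [Cf.ev_tr, add_zero, add_zero, sub_eq_add_neg]

theorem ld_shf (a : ℝ) (f : Cf E2) (C x : E2) (y s : ℝ) :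
    (shf a f).ld C x y s = f.ld C x (y - a) s := by
  unfold shf
  rw [Cf.ld_tr, add_zero, add_zero, sub_eq_add_neg]

theorem ny_shf (a : ℝ) (f : Cf E2) (s : ℝ) : (shf a f).ny s = f.ny s := by
  unfold shf
  rw [Cf.ny_tr, add_zero]

theorem adm_shf {M κ s1 sg T R : ℝ} {c : E2} {X0 : E3} {f : Cf E2} (a : ℝ)
    (hA : Adm M κ s1 sg T R c X0 f) : Adm M κ s1 sg T R c (X0 + a • ey) (shf a f) := by
  refine ⟨?_, fun s hs => ?_, fun s hs => ?_, ?_, ?_⟩
  · unfold shf; rw [Cf.disc_tr]; exact hA.disc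
  · rw [ny_shf]; exact hA.ny s hs
  · rw [ny_shf]; exact hA.cmp s hs
  · rw [ld_shf, lat_ey, two_ey, add_sub_cancel_right]; exact hA.ld
  · rw [ev_shf, lat_ey, two_ey, add_sub_cancel_right]; exact hA.ev

theorem pbx_shf (κ A r s1 s2 : ℝ) (c : E2) (X0 : E3) (f : Cf E2) (m : ℤ × ℤ) (a : ℝ) :
    (fun X => X - a • ey) ⁻¹' pbx κ A r s1 s2 c X0 f m =
      pbx κ A r s1 s2 c (X0 + a • ey) (shf a f) m := by
  ext X
  unfold pbx mset
  simp only [Set.mem_preimage, Set.mem_ofPred_eq]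
  rw [lat_ey', two_ey', nrm_ey', nrm_ey, lat_ey, ev_shf, ld_shf]
  have : nrm c X 0 - a - nrm c X0 0 = nrm c X 0 - (nrm c X0 0 + a) := by ring
  rw [this]

theorem measurable_lat' : Measurable lat := Crest.Agent.R116.CDef480.measurable_lat

theorem measurable_nrm (c : E2) (s : ℝ) : Measurable fun X : E3 => nrm c X s := by
  unfold nrm
  have := measurable_lat'
  have h2 := Crest.Agent.R116.CDef480.measurable_coord 2
  fun_prop

theorem measurable_ev (f : Cf E2) (s : ℝ) : Measurable fun X : E3 => f.ev (lat X) (X 2) s := by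
  unfold Cf.ev
  have := measurable_lat'
  have h2 := Crest.Agent.R116.CDef480.measurable_coord 2
  fun_prop

theorem measurable_ld (f : Cf E2) (C : E2) (s : ℝ) :
    Measurable fun X : E3 => f.ld C (lat X) (X 2) s := by
  unfold Cf.ld
  have := measurable_lat'
  have h2 := Crest.Agent.R116.CDef480.measurable_coord 2
  fun_prop

theorem meas_pbx (κ A r s1 s2 : ℝ) (c : E2) (X0 : E3) (f : Cf E2) (m : ℤ × ℤ) :
    MeasurableSet (pbx κ A r s1 s2 c X0 f m) := by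
  unfold pbx mset
  refine MeasurableSet.inter (MeasurableSet.const _) ?_
  refine MeasurableSet.inter ?_ (MeasurableSet.inter ?_ (MeasurableSet.inter ?_ ?_))
  · exact measurableSet_le (measurable_lat'.sub_const _).norm measurable_const
  · exact measurableSet_le ((measurable_nrm _ _).sub_const _).abs measurable_const
  · exact measurableSet_le (measurable_ev _ _).abs measurable_const
  · exact measurableSet_le (measurable_ld _ _ _).abs measurable_const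

/-- **the sliced box bound**. -/
theorem slice_box {φ : ℝ → ℂ} (h1 : HasCompactSupport φ) (h2 : ContDiff ℝ ∞ φ) :
    ∃ C : ℝ, 1 ≤ C ∧ ∀ M q R D κ l : ℝ, 1 ≤ M → 1 ≤ R → 0 ≤ D → 0 < κ → κ ≤ 1 →
      ∀ g : E3 → ℂ, Integrable g → PBx M 1 q R g D → PBx M κ q R (mul2 φ κ l g) (C * D) := by
  obtain ⟨C, hC, H⟩ := enc_mult h1 h2
  refine ⟨C * 45927, by nlinarith, fun M q R D κ l hM hR hD hκ hκ1 g hg hb c X0 f s1 s2 hs hA => ?_⟩
  refine (H g hg κ hκ l _ _ (fun m => meas_pbx _ _ _ _ _ _ _ _ m)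
    (ENNReal.ofReal (45927 * (D * s2 ^ q * scost κ s1 s2 R))) fun a => ?_).trans ?_
  · simp only [pbx_shf]
    exact thick_bound hM hR hD hκ hκ1 hb hs (adm_shf a hA)
  · rw [← ENNReal.ofReal_mul (by linarith)]
    refine le_of_eq ?_
    congr 1
    ring

end Crest.Agent.R116.Sl850
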