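import Crest.Agent.R116.WDefC_188
import Crest.Agent.R116.DomC_210
import Crest.Agent.R116.Sl2_850
import Crest.Agent.R116.UpC1_192
import Crest.Agent.R116.Sli3_850

-- ▼ part R116/WAsmC1_188
section

/-!
# R116 (S0155): WAVE side, assembly of the skeleton (helper188), part 1: the improvement step

`LB (c1+)` + leaves + `WCh K c1` give `LB (c1 - η)`.
-/

set_option autoImplicit false

open MeasureTheory
open scoped ENNReal

namespace Crest.Agent.R116.WC188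

open Crest.Agent.R138.Defs (E2 ee)
open Crest.Agent.R138.Wpk685 (cen caps)
open Crest.Agent.R116.CDef480
open Crest.Agent.R116.LZg725 (Cf)

theorem rpow_le_rpow1 {R a b : ℝ} (hR : 1 ≤ R) (h : a ≤ b) : R ^ a ≤ R ^ b :=
  Real.rpow_le_rpow_of_exponent_le hR h

theorem Enc_nonneg (g : E3 → ℂ) : 0 ≤ Enc g := integral_nonneg fun _ => by positivity

theorem SS_nonneg {g : E3 → ℂ} {R D : ℝ} (hR : 0 ≤ R) : 0 ≤ SS g R D :=
  mul_nonneg (mul_nonneg hR (Enc_nonneg g)) (Real.sqrt_nonneg _)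

theorem SS_mulD {g : E3 → ℂ} {R D C : ℝ} (hC : 0 ≤ C) : SS g R (C * D) = Real.sqrt C * SS g R D := by
  unfold SS
  rw [Real.sqrt_mul hC]
  ring

theorem comb {a b c x : ℝ} (ha : 0 ≤ a) (hx : 0 ≤ x) (hb : 0 ≤ b) {X Y : ℝ≥0∞}
    (hY : Y ≤ ENNReal.ofReal a * X + ENNReal.ofReal b) (hX : X ≤ ENNReal.ofReal x)
    (h : a * x + b ≤ c) : Y ≤ ENNReal.ofReal c := by
  calc Y ≤ ENNReal.ofReal a * X + ENNReal.ofReal b := hY
    _ ≤ ENNReal.ofReal a * ENNReal.ofReal x + ENNReal.ofReal b := by gcongr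
    _ = ENNReal.ofReal (a * x + b) := by
        rw [ENNReal.ofReal_add (by positivity) hb, ENNReal.ofReal_mul ha]
    _ ≤ ENNReal.ofReal c := ENNReal.ofReal_le_ofReal h

/-- small cases of the improvement. -/
theorem small_case {CR e ε η c1 R X S L K : ℝ} (hR : 1 ≤ R) (hX1 : 1 ≤ X)
    (hη1 : η ≤ 1) (hCR : 0 ≤ CR) (hS : 0 ≤ S) (hs : X ≤ L) (hL : CR * R ^ e * L ≤ K * R ^ ε) :
    CR * R ^ e * X ^ ((c1 + η) / 2) * S ≤ K * R ^ ε * X ^ ((c1 - η) / 2) * S := by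
  have hXp : 0 < X := by linarith
  have hR0 : 0 < R := by linarith
  have hXsplit : X ^ ((c1 + η) / 2) = X ^ η * X ^ ((c1 - η) / 2) := by
    rw [← Real.rpow_add hXp]; congr 1; ring
  have h1 : X ^ η ≤ L := by
    calc X ^ η ≤ X ^ (1:ℝ) := rpow_le_rpow1 hX1 hη1
      _ = X := Real.rpow_one X
      _ ≤ L := hs
  calc CR * R ^ e * X ^ ((c1 + η) / 2) * S
      = (CR * R ^ e * X ^ η) * X ^ ((c1 - η) / 2) * S := by rw [hXsplit]; ring
    _ ≤ (CR * R ^ e * L) * X ^ ((c1 - η) / 2) * S := by gcongr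
    _ ≤ (K * R ^ ε) * X ^ ((c1 - η) / 2) * S := by gcongr

/-- the level `r1 = d R`, `d = X^(-τ)`. -/
theorem lvl {R r X d r1 τ : ℝ} (hR : 1 ≤ R) (hr : 1 ≤ r) (hX1 : 1 ≤ X) (hX : X = R / r)
    (hd : d = X ^ (-τ)) (hr1 : r1 = d * R) (hτp : 0 < τ) (hτ2 : τ ≤ 1/2) :
    X ≤ R ∧ R ^ (1/2 : ℝ) ≤ r1 ∧ r1 ≤ R ∧ r1 / r = X ^ (1 - τ) ∧ r ≤ r1 := by
  have hR0 : 0 < R := by linarith
  have hr0 : 0 < r := by linarith
  have hXp : 0 < X := by linarith
  have hXR : X ≤ R := by rw [hX]; exact div_le_self hR0.le hr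
  have hd0 : 0 < d := by rw [hd]; positivity
  have hd1 : d ≤ 1 := by
    rw [hd]; exact Real.rpow_le_one_of_one_le_of_nonpos hX1 (by linarith)
  have hRhalf : R ^ (1/2 : ℝ) = R ^ (-(1/2) : ℝ) * R := by
    nth_rewrite 3 [← Real.rpow_one R]
    rw [← Real.rpow_add hR0]; norm_num
  have hlo : R ^ (1/2 : ℝ) ≤ r1 := by
    rw [hRhalf, hr1, hd]
    have h1 : R ^ (-(1/2) : ℝ) ≤ R ^ (-τ) := rpow_le_rpow1 hR (by linarith)
    have h2 : R ^ (-τ) ≤ X ^ (-τ) := Real.rpow_le_rpow_of_nonpos hXp hXR (by linarith)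
    have := h1.trans h2
    gcongr
  have hw2 : r = R * X⁻¹ := by rw [hX]; field_simp
  have hrw : r1 / r = X ^ (1 - τ) := by
    rw [hw2, hr1, hd, ← Real.rpow_neg_one X, div_eq_iff (by positivity)]
    have : X ^ (1 - τ) * (R * X ^ (-1:ℝ)) = (X ^ (1 - τ) * X ^ (-1:ℝ)) * R := by ring
    rw [this, ← Real.rpow_add hXp]; ring_nf
  refine ⟨hXR, hlo, by rw [hr1]; nlinarith, hrw, ?_⟩
  have h2 : 1 ≤ r1 / r := by rw [hrw]; exact Real.one_le_rpow hX1 (by linarith)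
  rwa [le_div_iff₀ hr0, one_mul] at h2

/-- the slope cap of the children. -/
theorem min_sig {σ r1 r q : ℝ} (hq : 0 ≤ q) (hr : 1 ≤ r) (hr1 : r ≤ r1)
    (hσ : r ^ (-(1/2) : ℝ) ≤ σ) :
    (min 1 (σ + 3 * r1 ^ (-(1/2) : ℝ))) ^ (q / 2) ≤ 4 ^ (q / 2) * (min 1 σ) ^ (q / 2) := by
  have hr0 : 0 < r := by linarith
  have hr10 : 0 < r1 := by linarith
  have h1 : r1 ^ (-(1/2) : ℝ) ≤ r ^ (-(1/2) : ℝ) :=
    Real.rpow_le_rpow_of_nonpos hr0 hr1 (by norm_num)
  have h2 : (0:ℝ) < r1 ^ (-(1/2) : ℝ) := by positivity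
  have hσ0 : 0 < σ := by linarith
  have h3 : min 1 (σ + 3 * r1 ^ (-(1/2) : ℝ)) ≤ 4 * min 1 σ := by
    rcases le_total 1 σ with h | h
    · rw [min_eq_left h]
      exact (min_le_left _ _).trans (by norm_num)
    · rw [min_eq_right h]
      refine (min_le_right _ _).trans ?_
      linarith
  have h4 : 0 ≤ min 1 (σ + 3 * r1 ^ (-(1/2) : ℝ)) := le_min (by norm_num) (by positivity)
  have h5 : 0 ≤ min 1 σ := le_min (by norm_num) hσ0.le
  calc _ ≤ (4 * min 1 σ) ^ (q / 2) := Real.rpow_le_rpow h4 h3 (by positivity)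
    _ = _ := Real.mul_rpow (by norm_num) h5

/-- `R^(-q) ≤ (min 1 σ)^(q/2)`. -/
theorem sig_lo {σ R r q : ℝ} (hq : 0 ≤ q) (hr : 1 ≤ r) (hrR : r ≤ R)
    (hσ : r ^ (-(1/2) : ℝ) ≤ σ) : R ^ (-q) ≤ (min 1 σ) ^ (q / 2) := by
  have hr0 : 0 < r := by linarith
  have hR : 1 ≤ R := hr.trans hrR
  have hR0 : 0 < R := by linarith
  have h1 : R ^ (-(1/2) : ℝ) ≤ r ^ (-(1/2) : ℝ) :=
    Real.rpow_le_rpow_of_nonpos hr0 hrR (by norm_num)
  have h2 : R ^ (-(1/2) : ℝ) ≤ min 1 σ :=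
    le_min (Real.rpow_le_one_of_one_le_of_nonpos hR (by norm_num)) (h1.trans hσ)
  calc R ^ (-q) ≤ R ^ (-(1/2) * (q / 2)) := rpow_le_rpow1 hR (by nlinarith)
    _ = (R ^ (-(1/2) : ℝ)) ^ (q / 2) := Real.rpow_mul hR0.le _ _
    _ ≤ _ := Real.rpow_le_rpow (by positivity) h2 (by positivity)

variable {M q : ℝ}

set_option maxHeartbeats 2000000 in
/-- **the improvement step**. -/
theorem LB_improve (hq : 0 ≤ q) {c1 K : ℝ} (hc1 : 0 < c1) (hK : 0 ≤ K)
    (H : ∀ c, c1 < c → LB M q c) (HS : SLI M q K) (HC : CNV M q) (HA : A1k M q)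
    (HW : WCh M q K c1) : ∃ η : ℝ, 0 < η ∧ η ≤ c1 ∧ LB M q (c1 - η) := by
  obtain ⟨θ, γ, c3, Aw, hθ, hγ, hc3, hc31, hAw, HW⟩ := HW
  have hAw0 : 0 < Aw := by linarith
  -- the exponent `τ`
  set τ : ℝ := min (1 / (2 * Aw)) (min (1 / (8 * θ)) (c1 / (8 * (K * θ + 1)))) with hτ
  have hKθ : 0 < K * θ + 1 := by positivity
  have hτp : 0 < τ := by
    rw [hτ]
    exact lt_min (by positivity) (lt_min (by positivity) (by positivity))
  have hτA : τ * Aw ≤ 1/2 := by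
    have : τ ≤ 1 / (2 * Aw) := min_le_left _ _
    calc τ * Aw ≤ 1 / (2 * Aw) * Aw := by gcongr
      _ = 1/2 := by field_simp
  have hτ2 : τ ≤ 1/2 := by nlinarith
  have hτθ : τ * θ ≤ 1/8 := by
    have : τ ≤ 1 / (8 * θ) := (min_le_right _ _).trans (min_le_left _ _)
    calc τ * θ ≤ 1 / (8 * θ) * θ := by gcongr
      _ = 1/8 := by field_simp
  have hτK : τ * (K * θ) ≤ c1 / 8 := by
    have : τ ≤ c1 / (8 * (K * θ + 1)) := (min_le_right _ _).trans (min_le_right _ _)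
    calc τ * (K * θ) ≤ τ * (K * θ + 1) := by nlinarith
      _ ≤ c1 / (8 * (K * θ + 1)) * (K * θ + 1) := by gcongr
      _ = c1 / 8 := by field_simp
  clear_value τ
  set η : ℝ := min (min (τ * γ) (c1 / 2)) 1 with hη
  have hηp : 0 < η := lt_min (lt_min (by positivity) (by positivity)) one_pos
  have hη1 : η ≤ 1 := min_le_right _ _
  have hη2 : η ≤ τ * γ := (min_le_left _ _).trans (min_le_left _ _)
  have hη3 : η ≤ c1 / 2 := (min_le_left _ _).trans (min_le_right _ _)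
  clear_value η
  refine ⟨η, hηp, by linarith, ?_⟩
  intro a b A ε M0 ha hb hb2 hA hε
  set e : ℝ := min (ε / 8) (1/4) with he
  have hep : 0 < e := lt_min (by positivity) (by norm_num)
  have heε : 8 * e ≤ ε := by
    have : e ≤ ε / 8 := min_le_left _ _
    linarith
  set e' : ℝ := min e (4 * e * τ) with he'
  have hep' : 0 < e' := lt_min hep (by positivity)
  have he'e : e' ≤ e := min_le_left _ _
  have he'τ : e' ≤ 4 * e * τ := min_le_right _ _
  clear_value e e'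
  have hLB := H (c1 + η) (by linarith)
  -- constants
  obtain ⟨CS, hCS, HS⟩ := HS a b A M0 ha hb hb2 hA
  obtain ⟨A', C1, R1, hA', hC1, hR1, HA⟩ := HA a b A e (M0 + 1) ha hb hb2 hA hep
  have hb' : 0 < (b + 2) / 2 := by linarith
  have hb2' : (b + 2) / 2 < 2 := by linarith
  obtain ⟨CC, R2, hCC, hR2, HC⟩ := HC (2 * a) ((b + 2) / 2) 4 (by linarith) hb' hb2'
  obtain ⟨CL, hCL, HL⟩ := hLB (2 * a) ((b + 2) / 2) A' e 4 (by linarith) hb' hb2' hA' hep
  obtain ⟨CR, hCR, HR⟩ := hLB a b A e M0 ha hb hb2 hA hep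
  obtain ⟨CW, hCW, HW⟩ := HW a b A' e' (M0 + 1) ha hb hb2 hA' hep'
  set X0 : ℝ := max (max ((c3⁻¹) ^ (τ⁻¹)) ((16 * a) ^ ((τ * θ)⁻¹))) (max R1 (R2 ^ (2:ℝ))) with hX0
  have hX0a : (c3⁻¹) ^ (τ⁻¹) ≤ X0 := (le_max_left _ _).trans (le_max_left _ _)
  have hX0b : (16 * a) ^ ((τ * θ)⁻¹) ≤ X0 := (le_max_right _ _).trans (le_max_left _ _)
  have hX0c : R1 ≤ X0 := (le_max_left _ _).trans (le_max_right _ _)
  have hX0d : R2 ^ (2:ℝ) ≤ X0 := (le_max_right _ _).trans (le_max_right _ _)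
  clear_value X0
  have hX01 : 1 ≤ X0 := hR1.trans hX0c
  set P4 : ℝ := 4 ^ (q / 2) with hP4
  have hP4p : 0 < P4 := by positivity
  clear_value P4
  set KK : ℝ := CS * ((C1 * ((CL + 1) * Real.sqrt CC * P4)) * CW + C1) with hKK
  have hKK0 : 0 ≤ KK := by positivity
  refine ⟨CR * X0 + CR + KK, by positivity, ?_⟩
  intro C0 σ g R D hSt r hr hrR hσ
  have hR := hSt.R1
  have hR0 : 0 < R := by linarith
  have hss := SS_nonneg (g := g) (D := D) hR0.le
  have hr0 : 0 < r := by linarith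
  obtain ⟨X, hX⟩ : ∃ X, X = R / r := ⟨_, rfl⟩
  have hX1 : 1 ≤ X := by rw [hX, le_div_iff₀ hr0]; linarith
  have hXp : 0 < X := by linarith
  rw [← hX]
  have hRε : 1 ≤ R ^ ε := Real.one_le_rpow hR hε.le
  have hRe : 1 ≤ R ^ e := Real.one_le_rpow hR hep.le
  have hReε : R ^ e ≤ R ^ ε := rpow_le_rpow1 hR (by linarith)
  have hσ0 : 0 < σ := lt_of_lt_of_le (by positivity) hσ
  have hm0 : 0 ≤ min 1 σ := le_min (by norm_num) hσ0.le
  obtain ⟨m, hm⟩ : ∃ m, m = (min 1 σ) ^ (q / 2) := ⟨_, rfl⟩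
  have hmp : 0 ≤ m := by rw [hm]; positivity
  have hmlo : R ^ (-q) ≤ m := by rw [hm]; exact sig_lo hq hr hrR hσ
  rw [← hm]
  have hHR := HR C0 σ g R D hSt r hr hrR hσ
  rw [← hX, ← hm] at hHR
  have hmS : 0 ≤ m * SS g R D := by positivity
  -- trivial cases
  have small : ∀ L : ℝ, X ≤ L → CR * R ^ e * L ≤ (CR * X0 + CR + KK) * R ^ ε →
      NP A r g R ≤ ENNReal.ofReal
        ((CR * X0 + CR + KK) * R ^ ε * X ^ ((c1 - η) / 2) * m * SS g R D) := by
    intro L hs hL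
    refine hHR.trans (ENNReal.ofReal_le_ofReal ?_)
    have := small_case (c1 := c1) hR hX1 hη1 hCR hmS hs hL
    calc CR * R ^ e * X ^ ((c1 + η) / 2) * m * SS g R D
        = CR * R ^ e * X ^ ((c1 + η) / 2) * (m * SS g R D) := by ring
      _ ≤ _ := this
      _ = _ := by ring
  rcases le_or_gt X X0 with hs | hb1
  · refine small X0 hs ?_
    calc CR * R ^ e * X0 = (CR * X0) * R ^ e := by ring
      _ ≤ (CR * X0) * R ^ ε := by gcongr
      _ ≤ _ := by gcongr; linarith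
  rcases le_or_gt X (R ^ (4 * e)) with hs2 | hb3
  · refine small _ hs2 ?_
    have h2 : R ^ e * R ^ (4 * e) ≤ R ^ ε := by
      rw [← Real.rpow_add hR0]; exact rpow_le_rpow1 hR (by linarith)
    calc CR * R ^ e * R ^ (4 * e) = CR * (R ^ e * R ^ (4 * e)) := by ring
      _ ≤ CR * R ^ ε := by gcongr
      _ ≤ _ := by
          have : 0 ≤ CR * X0 := by positivity
          gcongr; linarith
  clear hHR small
  -- main case
  obtain ⟨d, hd⟩ : ∃ d, d = X ^ (-τ) := ⟨_, rfl⟩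
  obtain ⟨r1, hr1⟩ : ∃ r1, r1 = d * R := ⟨_, rfl⟩
  obtain ⟨hXR, hr1lo, hr1R, hrw, hrr1⟩ := lvl hR hr hX1 hX hd hr1 hτp hτ2
  have hd0 : 0 < d := by rw [hd]; positivity
  have hdi : d⁻¹ = X ^ τ := by rw [hd, Real.rpow_neg hXp.le, inv_inv]
  have hr10 : 0 < r1 := by rw [hr1]; positivity
  have hr11 : 1 ≤ r1 := hr.trans hrr1
  have hc3i : 1 ≤ c3⁻¹ := (one_le_inv₀ hc3).2 hc31
  have hc3i0 : 0 < c3⁻¹ := by positivity
  have hdc3 : d ≤ c3 := by
    rw [← inv_le_inv₀ hc3 hd0, hdi]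
    calc c3⁻¹ = ((c3⁻¹) ^ (τ⁻¹)) ^ τ := by
          rw [← Real.rpow_mul hc3i0.le, inv_mul_cancel₀ hτp.ne', Real.rpow_one]
      _ ≤ X ^ τ := Real.rpow_le_rpow (by positivity) (hX0a.trans hb1.le) hτp.le
  have hdA : d ^ (-Aw) ≤ R := by
    rw [hd, ← Real.rpow_mul hXp.le]
    have hexpo : -τ * -Aw ≤ 1 := by
      have : -τ * -Aw = τ * Aw := by ring
      linarith
    calc X ^ (-τ * -Aw) ≤ X ^ (1:ℝ) := rpow_le_rpow1 hX1 hexpo
      _ = X := Real.rpow_one X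
      _ ≤ R := hXR
  have hdR : R ^ e' ≤ d⁻¹ := by
    rw [hdi]
    calc R ^ e' ≤ R ^ (4 * e * τ) := rpow_le_rpow1 hR he'τ
      _ = (R ^ (4 * e)) ^ τ := by rw [← Real.rpow_mul hR0.le]
      _ ≤ X ^ τ := Real.rpow_le_rpow (by positivity) hb3.le hτp.le
  -- the slice width
  obtain ⟨κ, hκ⟩ : ∃ κ, κ = d ^ θ := ⟨_, rfl⟩
  have hκX : κ = X ^ (-(τ * θ)) := by
    rw [hκ, hd, ← Real.rpow_mul hXp.le]; congr 1; ring
  have hκ0 : 0 < κ := by rw [hκ]; positivity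
  have hτθp : 0 < τ * θ := by positivity
  have hκ16 : 16 * a * κ ≤ 1 := by
    have ha16 : 0 < 16 * a := by linarith
    have h1 : 16 * a ≤ X ^ (τ * θ) := by
      calc 16 * a = ((16 * a) ^ ((τ * θ)⁻¹)) ^ (τ * θ) := by
            rw [← Real.rpow_mul ha16.le, inv_mul_cancel₀ hτθp.ne', Real.rpow_one]
        _ ≤ X ^ (τ * θ) := Real.rpow_le_rpow (by positivity) (hX0b.trans hb1.le) hτθp.le
    have h2 : 0 < X ^ (τ * θ) := by positivity
    rw [hκX, Real.rpow_neg hXp.le, mul_inv_le_iff₀ h2]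
    linarith
  have haκ : 0 ≤ a * κ := mul_nonneg (by linarith) hκ0.le
  have hκ4 : 8 * a * κ ≤ 1 := by linarith
  have hκ4' : 8 * (2 * a) * κ ≤ 1 := by linarith
  have hκR : R ^ (-(1/8) : ℝ) ≤ κ := by
    rw [hκX]
    calc R ^ (-(1/8) : ℝ) ≤ R ^ (-(τ * θ)) := rpow_le_rpow1 hR (by linarith)
      _ ≤ X ^ (-(τ * θ)) := Real.rpow_le_rpow_of_nonpos hXp hXR (by linarith)
  have hκr1 : r1 ^ (-(1/4) : ℝ) ≤ κ := by
    refine le_trans ?_ hκR
    calc r1 ^ (-(1/4) : ℝ) ≤ (R ^ (1/2 : ℝ)) ^ (-(1/4) : ℝ) :=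
          Real.rpow_le_rpow_of_nonpos (by positivity) hr1lo (by norm_num)
      _ = R ^ (-(1/8) : ℝ) := by rw [← Real.rpow_mul hR0.le]; norm_num
  have hRR1 : R1 ≤ R := hX0c.trans (hb1.le.trans hXR)
  have hRR2 : R2 ≤ r1 := by
    have h1 : R2 ^ (2:ℝ) ≤ R := hX0d.trans (hb1.le.trans hXR)
    have hR20 : 0 < R2 := by linarith
    calc R2 = (R2 ^ (2:ℝ)) ^ (1/2 : ℝ) := by rw [← Real.rpow_mul hR20.le]; norm_num
      _ ≤ R ^ (1/2 : ℝ) := Real.rpow_le_rpow (by positivity) h1 (by norm_num)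
      _ ≤ r1 := hr1lo
  -- the children
  obtain ⟨y, hy⟩ : ∃ y, y = X ^ ((1 - τ) * ((c1 + η) / 2)) := ⟨_, rfl⟩
  have hy0 : 0 < y := by rw [hy]; positivity
  obtain ⟨Q, hQ⟩ : ∃ Q, Q = ((CL + 1) * Real.sqrt CC * P4) * R ^ e * y * m := ⟨_, rfl⟩
  have hQ0 : 0 ≤ Q := by rw [hQ]; positivity
  have hy1 : (r1 / r) ^ ((c1 + η) / 2) = y := by
    rw [hrw, ← Real.rpow_mul hXp.le, hy]
  have child : ∀ η0 g' D', St M κ q (2 * a) ((b + 2) / 2) 4 C0 (σ + 3 * r1 ^ (-(1/2) : ℝ)) g' r1 D' →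
      Slc η0 (2 * κ) g' → NP A' r g' r1 ≤ ENNReal.ofReal (Q * SS g' r1 D') := by
    intro η0 g' D' hSt' hsl
    have hSt1 := HC κ η0 C0 _ g' r1 D' hκ0 hκ4' hRR2 hκr1 hSt' hsl
    have hσ' : r ^ (-(1/2) : ℝ) ≤ σ + 3 * r1 ^ (-(1/2) : ℝ) := by
      have : (0:ℝ) < r1 ^ (-(1/2) : ℝ) := by positivity
      linarith
    refine (HL C0 _ g' r1 _ hSt1 r hr hrr1 hσ').trans (ENNReal.ofReal_le_ofReal ?_)
    rw [hy1, SS_mulD (by linarith)]
    have hS' := SS_nonneg (g := g') (D := D') hr10.le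
    have h3 : r1 ^ e ≤ R ^ e := Real.rpow_le_rpow hr10.le hr1R hep.le
    have h4 := min_sig hq hr hrr1 hσ
    rw [← hm, ← hP4] at h4
    have hmn : 0 ≤ min 1 (σ + 3 * r1 ^ (-(1/2) : ℝ)) := le_min (by norm_num) (by positivity)
    have hsq := Real.sqrt_nonneg CC
    calc CL * r1 ^ e * y * (min 1 (σ + 3 * r1 ^ (-(1/2) : ℝ))) ^ (q / 2) *
          (Real.sqrt CC * SS g' r1 D')
        ≤ (CL + 1) * R ^ e * y * (P4 * m) * (Real.sqrt CC * SS g' r1 D') := by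
          gcongr
          linarith
      _ = Q * SS g' r1 D' := by rw [hQ]; ring
  -- every slice
  obtain ⟨v, hv⟩ : ∃ v, v = d ^ (-(c1 / 2) + K * θ + γ) := ⟨_, rfl⟩
  have hv0 : 0 < v := by rw [hv]; positivity
  obtain ⟨Q', hQ'⟩ : ∃ Q', Q' = C1 * R ^ e * Q * (CW * R ^ e' * v) + C1 * R ^ (-q) := ⟨_, rfl⟩
  have hQ'0 : 0 ≤ Q' := by rw [hQ']; positivity
  have slice : ∀ η0 g' D', Ss M κ q a b (M0 + 1) η0 C0 σ g' R D' →
      NP A r g' R ≤ ENNReal.ofReal (Q' * SS g' R D') := by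
    intro η0 g' D' hSs
    obtain ⟨s1, s2, hsd, hN⟩ := HA κ η0 C0 σ g' R D' hκ0 hκ4 hRR1 hκR hSs r r1 hr hrr1 hr1R hr1lo
      Q hQ0 (fun g'' D'' h1 h2 => child η0 g'' D'' h1 h2)
    have hPhi := HW η0 C0 σ g' R D' d hd0 hdc3 hdA hdR (by rw [← hκ]; exact hκ4)
      (by rw [← hκ]; exact hSs) s1 s2
      (by rw [← hr1]; exact hsd)
    rw [← hκ, ← hr1, ← hv] at hPhi
    have hS' := SS_nonneg (g := g') (D := D') hR0.le
    refine comb (by positivity) (by positivity) (by positivity) hN hPhi (le_of_eq ?_)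
    rw [hQ']; ring
  refine (HS C0 σ g R D hSt r κ hr hrR hκ0 hκ4 hκR Q' hQ'0 slice).trans
    (ENNReal.ofReal_le_ofReal ?_)
  -- exponents
  have hκK : κ ^ (-K) = X ^ (τ * (K * θ)) := by
    rw [hκX, ← Real.rpow_mul hXp.le]; congr 1; ring
  have hvX : v = X ^ (τ * (c1 / 2 - K * θ - γ)) := by
    rw [hv, hd, ← Real.rpow_mul hXp.le]; congr 1; ring
  have hexp : κ ^ (-K) * (y * v) ≤ X ^ ((c1 - η) / 2) := by
    rw [hκK, hy, hvX, ← Real.rpow_add hXp, ← Real.rpow_add hXp]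
    apply rpow_le_rpow1 hX1
    have hτη : 0 ≤ τ * η := mul_nonneg hτp.le hηp.le
    have e1 : τ * (K * θ) + ((1 - τ) * ((c1 + η) / 2) + τ * (c1 / 2 - K * θ - γ)) =
        c1 / 2 + η / 2 - τ * η / 2 - τ * γ := by ring
    rw [e1]
    linarith
  have hexp2 : κ ^ (-K) ≤ X ^ ((c1 - η) / 2) := by
    rw [hκK]
    apply rpow_le_rpow1 hX1
    linarith
  have hRexp : R ^ e * R ^ e * R ^ e' ≤ R ^ ε := by
    rw [← Real.rpow_add hR0, ← Real.rpow_add hR0]
    exact rpow_le_rpow1 hR (by linarith)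
  obtain ⟨x, hx⟩ : ∃ x, x = X ^ ((c1 - η) / 2) := ⟨_, rfl⟩
  have hx0 : 0 ≤ x := by rw [hx]; positivity
  rw [← hx] at hexp hexp2
  rw [← hx]
  have hκK0 : 0 < κ ^ (-K) := by positivity
  have t1 : κ ^ (-K) * (C1 * R ^ e * Q * (CW * R ^ e' * v)) ≤
      ((C1 * ((CL + 1) * Real.sqrt CC * P4)) * CW) * R ^ ε * x * m := by
    calc κ ^ (-K) * (C1 * R ^ e * Q * (CW * R ^ e' * v))
        = ((C1 * ((CL + 1) * Real.sqrt CC * P4)) * CW) * (R ^ e * R ^ e * R ^ e') *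
            (κ ^ (-K) * (y * v)) * m := by rw [hQ]; ring
      _ ≤ _ := by gcongr
  have t2 : κ ^ (-K) * (C1 * R ^ (-q)) ≤ C1 * R ^ ε * x * m := by
    calc κ ^ (-K) * (C1 * R ^ (-q)) ≤ x * (C1 * m) := by gcongr
      _ = C1 * 1 * x * m := by ring
      _ ≤ C1 * R ^ ε * x * m := by gcongr
  have t3 : 0 ≤ (CR * X0 + CR) * R ^ ε * x * m := by positivity
  have t4 : κ ^ (-K) * Q' ≤ ((C1 * ((CL + 1) * Real.sqrt CC * P4)) * CW + C1) * R ^ ε * x * m := by
    rw [hQ', mul_add]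
    calc _ ≤ _ := add_le_add t1 t2
      _ = _ := by ring
  have t5 : CS * κ ^ (-K) * Q' ≤ (CR * X0 + CR + KK) * R ^ ε * x * m := by
    calc CS * κ ^ (-K) * Q' = CS * (κ ^ (-K) * Q') := by ring
      _ ≤ CS * (((C1 * ((CL + 1) * Real.sqrt CC * P4)) * CW + C1) * R ^ ε * x * m) := by gcongr
      _ = KK * R ^ ε * x * m := by rw [hKK]; ring
      _ ≤ KK * R ^ ε * x * m + (CR * X0 + CR) * R ^ ε * x * m := le_add_of_nonneg_right t3
      _ = _ := by ring
  exact mul_le_mul_of_nonneg_right t5 hss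

end Crest.Agent.R116.WC188
end

-- ▼ part R116/WAsmC2_188
section

/-!
# R116 (S0155): WAVE side, assembly of the skeleton (helper188), part 2: the start `LB c0`, the
theorem `LB c` for all `c > 0`, and `EBc`.
-/

set_option autoImplicit false

open MeasureTheory
open scoped ENNReal

namespace Crest.Agent.R116.WC188

open Crest.Agent.R138.Defs (E2 ee)
open Crest.Agent.R138.Wpk685 (cen caps)
open Crest.Agent.R116.CDef480
open Crest.Agent.R116.LZg725 (Cf)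

variable {M q : ℝ}

/-- one descent: from a bound of the children at level `r1` to the root (constant slice width). -/
theorem descend {K KT : ℝ} (hS : SLI M q K) (HC : CNV M q) (HA : A1k M q)
    (H2 : ∀ a b A ε M0 : ℝ, 1 ≤ a → 0 < b → b < 2 → 1 ≤ A → 0 < ε → ∃ C : ℝ, 0 ≤ C ∧
      ∀ κ η0 C0 σ g R D, 0 < κ → 8 * a * κ ≤ 1 → R ^ (-(1/8) : ℝ) ≤ κ →
        Ss M κ q a b M0 η0 C0 σ g R D →
        ∀ r s1 s2, R ^ (1/2 : ℝ) ≤ r → r ≤ R → Sd r s1 s2 →
          ENNReal.ofReal (s2 ^ (-q / 2)) * SIG M κ A r s1 s2 g R ≤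
            ENNReal.ofReal (C * R ^ ε * (R / r) ^ KT * SS g R D))
    {a b A e M0 : ℝ} (ha : 1 ≤ a) (hb : 0 < b) (hb2 : b < 2) (hA : 1 ≤ A) (he : 0 < e) :
    ∃ A' C R0 : ℝ, 1 ≤ A' ∧ 0 ≤ C ∧ 1 ≤ R0 ∧
    ∀ C0 σ g R D, St M 1 q a b M0 C0 σ g R D → R0 ≤ R →
      ∀ r r1, 1 ≤ r → r ≤ r1 → r1 ≤ R → R ^ (1/2 : ℝ) ≤ r1 → ∀ Q : ℝ, 0 ≤ Q →
      (∀ g' D', St M 1 q (2 * a) ((b + 2) / 2) 4 C0 (σ + 3 * r1 ^ (-(1/2) : ℝ)) g' r1 D' →
        NP A' r g' r1 ≤ ENNReal.ofReal (Q * SS g' r1 D')) →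
      NP A r g R ≤ ENNReal.ofReal
        (C * (R ^ (2 * e) * (R / r1) ^ KT * Q + R ^ (-q)) * SS g R D) := by
  obtain ⟨CS, hCS, HS⟩ := hS a b A M0 ha hb hb2 hA
  obtain ⟨A', C1, R1, hA', hC1, hR1, HA⟩ := HA a b A e (M0 + 1) ha hb hb2 hA he
  have hb' : 0 < (b + 2) / 2 := by linarith
  have hb2' : (b + 2) / 2 < 2 := by linarith
  obtain ⟨CC, R2, hCC, hR2, HC⟩ := HC (2 * a) ((b + 2) / 2) 4 (by linarith) hb' hb2'
  obtain ⟨CT, hCT, H2⟩ := H2 a b A' e (M0 + 1) ha hb hb2 hA' he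
  have ha0 : 0 < a := by linarith
  obtain ⟨κ, hκ⟩ : ∃ κ, κ = (16 * a)⁻¹ := ⟨_, rfl⟩
  have hκ0 : 0 < κ := by rw [hκ]; positivity
  have hκa : 16 * a * κ = 1 := by rw [hκ]; field_simp
  have hκ4 : 8 * a * κ ≤ 1 := by nlinarith
  have hκ4' : 8 * (2 * a) * κ ≤ 1 := by linarith
  have hκ1 : κ ≤ 1 := by
    rw [hκ]; exact inv_le_one_of_one_le₀ (by linarith)
  set R0 : ℝ := max (max R1 (R2 ^ (2:ℝ))) ((κ⁻¹) ^ (8:ℝ)) with hR0d
  have hR0a : R1 ≤ R0 := (le_max_left _ _).trans (le_max_left _ _)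
  have hR0b : R2 ^ (2:ℝ) ≤ R0 := (le_max_right _ _).trans (le_max_left _ _)
  have hR0c : (κ⁻¹) ^ (8:ℝ) ≤ R0 := le_max_right _ _
  clear_value R0
  refine ⟨A', CS * κ ^ (-K) * (C1 * Real.sqrt CC * CT + C1), R0, hA', by positivity,
    hR1.trans hR0a, ?_⟩
  intro C0 σ g R D hSt hRR0 r r1 hr hrr1 hr1R hr1lo Q hQ0 child
  have hR := hSt.R1
  have hR0 : 0 < R := by linarith
  have hss := SS_nonneg (g := g) (D := D) hR0.le
  have hr10 : 0 < r1 := by linarith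
  have hκR : R ^ (-(1/8) : ℝ) ≤ κ := by
    have h1 : κ⁻¹ ≤ R ^ (1/8 : ℝ) := by
      calc κ⁻¹ = ((κ⁻¹) ^ (8:ℝ)) ^ (1/8 : ℝ) := by
            rw [← Real.rpow_mul (by positivity)]; norm_num
        _ ≤ R ^ (1/8 : ℝ) := Real.rpow_le_rpow (by positivity) (hR0c.trans hRR0) (by norm_num)
    rw [Real.rpow_neg hR0.le]
    exact inv_le_of_inv_le₀ hκ0 h1
  have hκr1 : r1 ^ (-(1/4) : ℝ) ≤ κ := by
    refine le_trans ?_ hκR
    calc r1 ^ (-(1/4) : ℝ) ≤ (R ^ (1/2 : ℝ)) ^ (-(1/4) : ℝ) :=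
          Real.rpow_le_rpow_of_nonpos (by positivity) hr1lo (by norm_num)
      _ = R ^ (-(1/8) : ℝ) := by rw [← Real.rpow_mul hR0.le]; norm_num
  have hRR2 : R2 ≤ r1 := by
    have h1 : R2 ^ (2:ℝ) ≤ R := hR0b.trans hRR0
    have hR20 : 0 < R2 := by linarith
    calc R2 = (R2 ^ (2:ℝ)) ^ (1/2 : ℝ) := by rw [← Real.rpow_mul hR20.le]; norm_num
      _ ≤ R ^ (1/2 : ℝ) := Real.rpow_le_rpow (by positivity) h1 (by norm_num)
      _ ≤ r1 := hr1lo
  have hsq := Real.sqrt_nonneg CC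
  have child' : ∀ η0 g' D', St M κ q (2 * a) ((b + 2) / 2) 4 C0 (σ + 3 * r1 ^ (-(1/2) : ℝ)) g' r1 D' →
      Slc η0 (2 * κ) g' → NP A' r g' r1 ≤ ENNReal.ofReal (Real.sqrt CC * Q * SS g' r1 D') := by
    intro η0 g' D' hSt' hsl
    have hSt1 := HC κ η0 C0 _ g' r1 D' hκ0 hκ4' hRR2 hκr1 hSt' hsl
    refine (child g' _ hSt1).trans (ENNReal.ofReal_le_ofReal (le_of_eq ?_))
    rw [SS_mulD (by linarith)]; ring
  obtain ⟨Q', hQ'⟩ : ∃ Q', Q' = C1 * R ^ e * (Real.sqrt CC * Q) * (CT * R ^ e * (R / r1) ^ KT) +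
    C1 * R ^ (-q) := ⟨_, rfl⟩
  have hRr : 0 ≤ (R / r1) ^ KT := by positivity
  have hQ'0 : 0 ≤ Q' := by rw [hQ']; positivity
  have slice : ∀ η0 g' D', Ss M κ q a b (M0 + 1) η0 C0 σ g' R D' →
      NP A r g' R ≤ ENNReal.ofReal (Q' * SS g' R D') := by
    intro η0 g' D' hSs
    obtain ⟨s1, s2, hsd, hN⟩ := HA κ η0 C0 σ g' R D' hκ0 hκ4 (hR0a.trans hRR0) hκR hSs r r1 hr
      hrr1 hr1R hr1lo (Real.sqrt CC * Q) (by positivity) (fun g'' D'' h1 h2 => child' η0 g'' D'' h1 h2)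
    have hPhi := H2 κ η0 C0 σ g' R D' hκ0 hκ4 hκR hSs r1 s1 s2 hr1lo hr1R hsd
    have hS' := SS_nonneg (g := g') (D := D') hR0.le
    refine comb (by positivity) (by positivity) (by positivity) hN hPhi (le_of_eq ?_)
    rw [hQ']; ring
  refine (HS C0 σ g R D hSt r κ hr (hrr1.trans hr1R) hκ0 hκ4 hκR Q' hQ'0 slice).trans
    (ENNReal.ofReal_le_ofReal ?_)
  have hκK0 : 0 < κ ^ (-K) := by positivity
  have hRe : R ^ (2 * e) = R ^ e * R ^ e := by
    rw [← Real.rpow_add hR0]; congr 1; ring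
  have t1 : CS * κ ^ (-K) * Q' ≤ CS * κ ^ (-K) * (C1 * Real.sqrt CC * CT + C1) *
      (R ^ (2 * e) * (R / r1) ^ KT * Q + R ^ (-q)) := by
    rw [hQ', hRe]
    have u1 : 0 ≤ C1 * Real.sqrt CC * CT * R ^ (-q) := by positivity
    have u2 : 0 ≤ C1 * (R ^ e * R ^ e * (R / r1) ^ KT * Q) := by positivity
    have u3 : C1 * R ^ e * (Real.sqrt CC * Q) * (CT * R ^ e * (R / r1) ^ KT) + C1 * R ^ (-q) ≤
        (C1 * Real.sqrt CC * CT + C1) * (R ^ e * R ^ e * (R / r1) ^ KT * Q + R ^ (-q)) := by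
      have e1 : (C1 * Real.sqrt CC * CT + C1) * (R ^ e * R ^ e * (R / r1) ^ KT * Q + R ^ (-q)) =
          (C1 * R ^ e * (Real.sqrt CC * Q) * (CT * R ^ e * (R / r1) ^ KT) + C1 * R ^ (-q)) +
          (C1 * Real.sqrt CC * CT * R ^ (-q)) + C1 * (R ^ e * R ^ e * (R / r1) ^ KT * Q) := by
        ring
      rw [e1]; linarith
    calc CS * κ ^ (-K) * (C1 * R ^ e * (Real.sqrt CC * Q) * (CT * R ^ e * (R / r1) ^ KT) +
          C1 * R ^ (-q)) ≤ CS * κ ^ (-K) * ((C1 * Real.sqrt CC * CT + C1) *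
            (R ^ e * R ^ e * (R / r1) ^ KT * Q + R ^ (-q))) := by gcongr
      _ = _ := by ring
  exact mul_le_mul_of_nonneg_right t1 hss

set_option maxHeartbeats 1000000 in
/-- **the start**. -/
theorem LB_start (hq : 0 ≤ q) {K : ℝ} (hS : SLI M q K) (HC : CNV M q) (HA : A1k M q)
    (H1 : TRIV1 M q) (H2 : TRIV2 M q) (HK : KMt M q) : ∃ c0 : ℝ, q ≤ c0 ∧ LB M q c0 := by
  obtain ⟨Kt, hKt, HK⟩ := HK
  obtain ⟨KT, hKT, H2⟩ := H2
  refine ⟨2 * KT + 20 + 4 * q, by linarith, ?_⟩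
  intro a b A ε M0 ha hb hb2 hA hε
  obtain ⟨e, he⟩ : ∃ e, e = ε / 8 := ⟨_, rfl⟩
  have hep : 0 < e := by rw [he]; positivity
  obtain ⟨e', he'⟩ : ∃ e', e' = ε / (8 * (Kt + 1)) := ⟨_, rfl⟩
  have hep' : 0 < e' := by rw [he']; positivity
  have hKe : Kt * e' ≤ ε / 8 := by
    rw [he', mul_div_assoc', div_le_div_iff₀ (by positivity) (by norm_num)]
    nlinarith
  have hb' : 0 < (b + 2) / 2 := by linarith
  have hb2' : (b + 2) / 2 < 2 := by linarith
  have h2a : 1 ≤ 2 * a := by linarith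
  obtain ⟨A', C1, R0, hA', hC1, hR0, HD⟩ := descend hS HC HA H2 (M0 := M0) ha hb hb2 hA hep
  obtain ⟨CK, hCK, HKr⟩ := HK a b A e' M0 ha hb hb2 hA hep'
  obtain ⟨CK', hCK', HKc⟩ := HK (2 * a) ((b + 2) / 2) A' e' 4 h2a hb' hb2' hA' hep'
  obtain ⟨CT, hCT, H1r⟩ := H1 a b A M0 ha hb hb2 hA
  obtain ⟨CT', hCT', H1c⟩ := H1 (2 * a) ((b + 2) / 2) A' 4 h2a hb' hb2' hA'
  obtain ⟨E0, hE0⟩ : ∃ E0, E0 = R0 ^ (|M0 / 2 + 8| + q) := ⟨_, rfl⟩
  have hE0p : 0 < E0 := by rw [hE0]; positivity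
  obtain ⟨P4, hP4⟩ : ∃ P4 : ℝ, P4 = 4 ^ (q / 2) := ⟨_, rfl⟩
  have hP4p : 0 < P4 := by rw [hP4]; positivity
  refine ⟨CT * E0 + CK + C1 * (CK' * P4 + 1) + C1 * (CT' + 1), by positivity, ?_⟩
  intro C0 σ g R D hSt r hr hrR hσ
  have hR := hSt.R1
  have hRp : 0 < R := by linarith
  have hss := SS_nonneg (g := g) (D := D) hRp.le
  have hr0 : 0 < r := by linarith
  obtain ⟨m, hm⟩ : ∃ m, m = (min 1 σ) ^ (q / 2) := ⟨_, rfl⟩
  have hσ0 : 0 < σ := lt_of_lt_of_le (by positivity) hσ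
  have hm0 : 0 ≤ min 1 σ := le_min (by norm_num) hσ0.le
  have hmp : 0 ≤ m := by rw [hm]; positivity
  have hmlo : R ^ (-q) ≤ m := by rw [hm]; exact sig_lo hq hr hrR hσ
  rw [← hm]
  have hXr : 1 ≤ R / r := by rw [le_div_iff₀ hr0]; linarith
  obtain ⟨x, hx⟩ : ∃ x, x = (R / r) ^ ((2 * KT + 20 + 4 * q) / 2) := ⟨_, rfl⟩
  have hx1 : 1 ≤ x := by rw [hx]; exact Real.one_le_rpow hXr (by positivity)
  rw [← hx]
  have hRε : 1 ≤ R ^ ε := Real.one_le_rpow hR hε.le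
  -- it suffices to bound by one of the summands
  have fin : ∀ C' y : ℝ, 0 ≤ y → C' ≤ CT * E0 + CK + C1 * (CK' * P4 + 1) + C1 * (CT' + 1) →
      y ≤ C' * R ^ ε * x * m → 0 ≤ R ^ ε * x * m →
      NP A r g R ≤ ENNReal.ofReal (y * SS g R D) →
      NP A r g R ≤ ENNReal.ofReal
        ((CT * E0 + CK + C1 * (CK' * P4 + 1) + C1 * (CT' + 1)) * R ^ ε * x * m * SS g R D) := by
    intro C' y _ hC' hy hz hN
    refine hN.trans (ENNReal.ofReal_le_ofReal (mul_le_mul_of_nonneg_right (hy.trans ?_) hss))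
    have := mul_le_mul_of_nonneg_right hC' hz
    calc C' * R ^ ε * x * m = C' * (R ^ ε * x * m) := by ring
      _ ≤ _ := this
      _ = _ := by ring
  have hz : 0 ≤ R ^ ε * x * m := by positivity
  have hz1 : m ≤ R ^ ε * x * m := by
    calc m = 1 * 1 * m := by ring
      _ ≤ R ^ ε * x * m := by gcongr
  have p1 : 0 ≤ CT * E0 := by positivity
  have p2 : 0 ≤ C1 * (CK' * P4 + 1) := by positivity
  have p3 : 0 ≤ C1 * (CT' + 1) := by positivity
  rcases lt_or_ge R R0 with hA0 | hB0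
  · -- small `R`
    refine fin (CT * E0) (CT * R ^ (M0 / 2 + 8)) (by positivity) (by linarith) ?_ hz
      (H1r C0 σ g R D hSt r hr hrR)
    have h1 : R ^ (M0 / 2 + 8) ≤ E0 * m := by
      calc R ^ (M0 / 2 + 8) ≤ R ^ (|M0 / 2 + 8|) := rpow_le_rpow1 hR (le_abs_self _)
        _ = R ^ (|M0 / 2 + 8| + q) * R ^ (-q) := by
            rw [← Real.rpow_add hRp]; congr 1; ring
        _ ≤ E0 * m := by
            rw [hE0]
            have h2 : R ^ (|M0 / 2 + 8| + q) ≤ R0 ^ (|M0 / 2 + 8| + q) :=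
              Real.rpow_le_rpow hRp.le hA0.le (by positivity)
            exact mul_le_mul h2 hmlo (by positivity) (by positivity)
    calc CT * R ^ (M0 / 2 + 8) ≤ CT * (E0 * m) := by gcongr
      _ ≤ CT * (E0 * (R ^ ε * x * m)) := by gcongr
      _ = _ := by ring
  rcases le_or_gt (R ^ (1 - e')) r with hr1 | hr1
  · -- top
    refine fin CK (CK * R ^ (Kt * e') * m) (by positivity) (by linarith) ?_ hz
      (by rw [hm]; exact HKr C0 σ g R D hSt r hr1 hr hrR hσ)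
    have h1 : R ^ (Kt * e') ≤ R ^ ε := rpow_le_rpow1 hR (by linarith)
    calc CK * R ^ (Kt * e') * m ≤ CK * R ^ ε * m := by gcongr
      _ = CK * R ^ ε * 1 * m := by ring
      _ ≤ _ := by gcongr
  rcases le_or_gt (R ^ (1/2 : ℝ)) r with hr2 | hr2
  · -- middle
    have hN := HD C0 σ g R D hSt hB0 r r hr le_rfl hrR hr2 (CK' * R ^ (Kt * e') * (P4 * m))
      (by positivity) (by
        intro g' D' hSt'
        have hσ' : r ^ (-(1/2) : ℝ) ≤ σ + 3 * r ^ (-(1/2) : ℝ) := by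
          have : (0:ℝ) < r ^ (-(1/2) : ℝ) := by positivity
          linarith
        have hre : r ^ (1 - e') ≤ r := by
          calc r ^ (1 - e') ≤ r ^ (1:ℝ) := rpow_le_rpow1 hr (by linarith)
            _ = r := Real.rpow_one r
        refine (HKc C0 _ g' r D' hSt' r hre hr le_rfl hσ').trans (ENNReal.ofReal_le_ofReal ?_)
        have hS' := SS_nonneg (g := g') (D := D') hr0.le
        have h3 : r ^ (Kt * e') ≤ R ^ (Kt * e') := Real.rpow_le_rpow hr0.le hrR (by positivity)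
        have h4 := min_sig hq hr le_rfl hσ
        rw [← hm, ← hP4] at h4
        gcongr)
    refine fin (C1 * (CK' * P4 + 1)) _ (by positivity) (by linarith) ?_ hz hN
    have h1 : R ^ (2 * e) * R ^ (Kt * e') ≤ R ^ ε := by
      rw [← Real.rpow_add hRp]; exact rpow_le_rpow1 hR (by linarith)
    have h2 : (R / r) ^ KT ≤ x := by
      rw [hx]; exact rpow_le_rpow1 hXr (by linarith)
    have h3 : R ^ (2 * e) * (R / r) ^ KT * (CK' * R ^ (Kt * e') * (P4 * m)) ≤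
        CK' * P4 * (R ^ ε * x * m) := by
      calc R ^ (2 * e) * (R / r) ^ KT * (CK' * R ^ (Kt * e') * (P4 * m))
          = CK' * P4 * ((R ^ (2 * e) * R ^ (Kt * e')) * (R / r) ^ KT * m) := by ring
        _ ≤ _ := by gcongr
    calc C1 * (R ^ (2 * e) * (R / r) ^ KT * (CK' * R ^ (Kt * e') * (P4 * m)) + R ^ (-q))
        ≤ C1 * (CK' * P4 * (R ^ ε * x * m) + 1 * (R ^ ε * x * m)) := by
          gcongr
          rw [one_mul]; exact hmlo.trans hz1
      _ = _ := by ring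
  · -- low levels
    have hr1R : R ^ (1/2 : ℝ) ≤ R := by
      calc R ^ (1/2 : ℝ) ≤ R ^ (1:ℝ) := rpow_le_rpow1 hR (by norm_num)
        _ = R := Real.rpow_one R
    have hN := HD C0 σ g R D hSt hB0 r (R ^ (1/2 : ℝ)) hr hr2.le hr1R le_rfl
      (CT' * R ^ (5:ℝ)) (by positivity) (by
        intro g' D' hSt'
        refine (H1c C0 _ g' _ D' hSt' r hr hr2.le).trans (le_of_eq ?_)
        congr 2
        rw [← Real.rpow_mul hRp.le]
        norm_num)
    refine fin (C1 * (CT' + 1)) _ (by positivity) (by linarith) ?_ hz hN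
    have e1 : R / R ^ (1/2 : ℝ) = R ^ (1/2 : ℝ) := by
      rw [div_eq_iff (by positivity), ← Real.rpow_add hRp]; norm_num
    have h2 : R ^ (KT / 2 + 5 + q) ≤ x := by
      have h3 : R ^ (1/2 : ℝ) ≤ R / r := by
        rw [le_div_iff₀ hr0]
        calc R ^ (1/2 : ℝ) * r ≤ R ^ (1/2 : ℝ) * R ^ (1/2 : ℝ) := by gcongr
          _ = R := by rw [← Real.rpow_add hRp]; norm_num
      calc R ^ (KT / 2 + 5 + q) ≤ R ^ ((1/2) * ((2 * KT + 20 + 4 * q) / 2)) := rpow_le_rpow1 hR (by linarith)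
        _ = (R ^ (1/2 : ℝ)) ^ ((2 * KT + 20 + 4 * q) / 2) := Real.rpow_mul hRp.le _ _
        _ ≤ x := by
            rw [hx]; exact Real.rpow_le_rpow (by positivity) h3 (by positivity)
    have h4 : R ^ (2 * e) * (R / R ^ (1/2 : ℝ)) ^ KT * (CT' * R ^ (5:ℝ)) ≤
        CT' * (R ^ ε * x * m) := by
      have e2 : (R / R ^ (1/2 : ℝ)) ^ KT = R ^ (KT / 2) := by
        rw [e1, ← Real.rpow_mul hRp.le]; congr 1; ring
      rw [e2]
      calc R ^ (2 * e) * R ^ (KT / 2) * (CT' * R ^ (5:ℝ))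
          = CT' * (R ^ (2 * e) * (R ^ (KT / 2 + 5 + q) * R ^ (-q))) := by
            have : R ^ (KT / 2) * R ^ (5:ℝ) = R ^ (KT / 2 + 5 + q) * R ^ (-q) := by
              rw [← Real.rpow_add hRp, ← Real.rpow_add hRp]; congr 1; ring
            calc _ = CT' * (R ^ (2 * e) * (R ^ (KT / 2) * R ^ (5:ℝ))) := by ring
              _ = _ := by rw [this]
        _ ≤ CT' * (R ^ ε * (x * m)) := by
            have h5 : R ^ (2 * e) ≤ R ^ ε := rpow_le_rpow1 hR (by linarith)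
            gcongr
        _ = _ := by ring
    calc C1 * (R ^ (2 * e) * (R / R ^ (1/2 : ℝ)) ^ KT * (CT' * R ^ (5:ℝ)) + R ^ (-q))
        ≤ C1 * (CT' * (R ^ ε * x * m) + 1 * (R ^ ε * x * m)) := by
          gcongr
          rw [one_mul]; exact hmlo.trans hz1
      _ = _ := by ring

theorem SSnn (g : E3 → ℂ) {R : ℝ} (D : ℝ) (hR : 0 ≤ R) : 0 ≤ SS g R D := SS_nonneg hR

theorem LB.mono {c c' : ℝ} (h : LB M q c) (hc : c ≤ c') : LB M q c' := by
  intro a b A ε M0 ha hb hb2 hA hε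
  obtain ⟨C, hC, H⟩ := h a b A ε M0 ha hb hb2 hA hε
  refine ⟨C, hC, fun C0 σ g R D hSt r hr hrR hσ => (H C0 σ g R D hSt r hr hrR hσ).trans
    (ENNReal.ofReal_le_ofReal ?_)⟩
  have hR := hSt.R1
  have hR0 : 0 < R := by linarith
  have hr0 : 0 < r := by linarith
  have hX : 1 ≤ R / r := by rw [le_div_iff₀ hr0]; linarith
  have hss := SSnn g D hR0.le
  have hσ0 : 0 < σ := lt_of_lt_of_le (by positivity) hσ
  have hm0 : 0 ≤ min 1 σ := le_min (by norm_num) hσ0.le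
  have h1 : (R / r) ^ (c / 2) ≤ (R / r) ^ (c' / 2) := rpow_le_rpow1 hX (by linarith)
  gcongr

/-- **the wave theorem**: `LB(q,c)` for every `c > q`. -/
theorem LB_all (hq : 0 ≤ q) {K : ℝ} (hK : 0 ≤ K) (HS : SLI M q K) (HC : CNV M q) (HA : A1k M q)
    (H1 : TRIV1 M q) (H2 : TRIV2 M q) (HK : KMt M q) (HW : WChE M q) :
    ∀ c : ℝ, q < c → LB M q c := by
  obtain ⟨c0, hc0, h0⟩ := LB_start hq HS HC HA H1 H2 HK
  set T : Set ℝ := {c | q ≤ c ∧ LB M q c} with hT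
  have h8 : c0 ∈ T := ⟨hc0, h0⟩
  have hbdd : BddBelow T := ⟨q, fun c hc => hc.1⟩
  set c1 : ℝ := sInf T with hc1
  have hc10 : q ≤ c1 := le_csInf ⟨_, h8⟩ fun c hc => hc.1
  have hH : ∀ c, c1 < c → LB M q c := by
    intro c hc
    obtain ⟨c', hc', hcc⟩ := exists_lt_of_csInf_lt ⟨_, h8⟩ hc
    exact hc'.2.mono hcc.le
  rcases hc10.eq_or_lt with h0 | hpos
  · intro c hc
    exact hH c (by rw [← h0]; exact hc)
  · exfalso
    have hc1p : 0 < c1 := by linarith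
    obtain ⟨η, hη, hηc, hLB⟩ := LB_improve hq hc1p hK hH HS HC HA (HW K hK c1 hc1p hc10 hH)
    have hmem : max (c1 - η) q ∈ T := ⟨le_max_right _ _, hLB.mono (le_max_left _ _)⟩
    have h1 := csInf_le hbdd hmem
    have h2 : max (c1 - η) q < c1 := max_lt (by linarith) hpos
    linarith

/-- the reward-free box bound gives the rewarded one with `D R^(q/2)`. -/
theorem PBx_q (hq : 0 ≤ q) {κ : ℝ} (_hκ : 0 < κ) {r D : ℝ} (hr : 1 ≤ r) (hD : 0 ≤ D) {g : E3 → ℂ}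
    (h : PBx M κ 0 r g D) : PBx M κ q r g (r ^ (q / 2) * D) := by
  intro c X0 f s1 s2 hsd hadm
  have hr0 : 0 < r := by linarith
  refine (h c X0 f s1 s2 hsd hadm).trans (ENNReal.ofReal_le_ofReal ?_)
  have hs10 : 0 < s1 := lt_of_lt_of_le (by positivity) hsd.lo
  have hs20 : 0 < s2 := lt_of_lt_of_le hs10 hsd.le
  have h1 : r ^ (-(1/2) : ℝ) ≤ s2 := hsd.lo.trans hsd.le
  have h2 : 1 ≤ r ^ (q / 2) * s2 ^ q := by
    calc (1:ℝ) = r ^ (q / 2) * (r ^ (-(1/2) : ℝ)) ^ q := by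
          rw [← Real.rpow_mul hr0.le, ← Real.rpow_add hr0,
            show q / 2 + -(1/2) * q = 0 by ring, Real.rpow_zero]
      _ ≤ r ^ (q / 2) * s2 ^ q := by
          gcongr
  have h3 : 0 ≤ scost κ s1 s2 r := by
    unfold scost TT
    have : 0 ≤ max (s2 ^ 2) ((κ * r)⁻¹) := le_max_of_le_left (by positivity)
    positivity
  rw [Real.rpow_zero, mul_one]
  calc D * scost κ s1 s2 r = 1 * (D * scost κ s1 s2 r) := by ring
    _ ≤ (r ^ (q / 2) * s2 ^ q) * (D * scost κ s1 s2 r) := by gcongr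
    _ = _ := by ring

/-- **EBc** from `LB q c` for all small `q`, `c`. -/
theorem EBc_of_LB {q0 : ℝ} (hq0 : 0 < q0) (H : ∀ q : ℝ, 0 < q → q < q0 → ∀ c : ℝ, q < c → LB M q c)
    (H5 : ∀ q : ℝ, 0 < q → q < q0 → A5 M q) : EBc M := by
  intro a b ε M0 ha hb hb2 hε
  obtain ⟨q, hq⟩ : ∃ q, q = min (q0 / 2) (ε / 4) := ⟨_, rfl⟩
  have hqp : 0 < q := by rw [hq]; exact lt_min (by positivity) (by positivity)
  have hqq : q < q0 := by
    have : q ≤ q0 / 2 := by rw [hq]; exact min_le_left _ _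
    linarith
  have hqe : q ≤ ε / 4 := by rw [hq]; exact min_le_right _ _
  obtain ⟨A, C5, hA, hC5, H5⟩ := H5 q hqp hqq a b M0 ha hb hb2
  obtain ⟨C, hC, HL⟩ := H q hqp hqq (2 * q) (by linarith) a b A (ε / 4) M0 ha hb hb2 hA
    (by positivity)
  refine ⟨C5 * C + C5, by positivity, ?_⟩
  intro g R D hSt
  have hR := hSt.R1
  have hR0 : 0 < R := by linarith
  have hSt' : St M 1 q a b M0 0 2 g R (R ^ (q / 2) * D) := by
    refine ⟨hSt.meas, hSt.bdd, hSt.supp, hSt.R1, mul_nonneg (by positivity) hSt.D0,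
      PBx_q hqp.le one_pos hR hSt.D0 hSt.box, hSt.nd.trans ?_⟩
    have h1 : 1 ≤ R ^ (q / 2) := Real.one_le_rpow hR (by positivity)
    have h2 := hSt.D0
    calc R ^ M0 * D = R ^ M0 * (1 * D) := by ring
      _ ≤ R ^ M0 * (R ^ (q / 2) * D) := by gcongr
  have hL := HL 0 2 g R _ hSt' 1 le_rfl hR (by
    rw [Real.one_rpow]; norm_num)
  have h5 := H5 0 2 g R _ hSt'
  have hss := SSnn g D hR0.le
  have e1 : SS g R (R ^ (q / 2) * D) = R ^ (q / 4) * SS g R D := by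
    rw [SS_mulD (by positivity), Real.sqrt_eq_rpow, ← Real.rpow_mul hR0.le]
    congr 2; ring
  have e2 : (min (1:ℝ) 2) ^ (q / 2) = 1 := by
    rw [min_eq_left (by norm_num), Real.one_rpow]
  rw [e1, e2, div_one, mul_one] at hL
  rw [e1] at h5
  refine comb (x := C * R ^ (ε / 4) * R ^ (2 * q / 2) * (R ^ (q / 4) * SS g R D)) hC5
    (by positivity) (by positivity) h5 hL ?_
  have h6 : R ^ (ε / 4) * R ^ (2 * q / 2) * R ^ (q / 4) ≤ R ^ ε := by
    rw [← Real.rpow_add hR0, ← Real.rpow_add hR0]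
    exact rpow_le_rpow1 hR (by linarith)
  have h7 : R ^ (q / 4) ≤ R ^ ε := rpow_le_rpow1 hR (by linarith)
  calc C5 * (C * R ^ (ε / 4) * R ^ (2 * q / 2) * (R ^ (q / 4) * SS g R D)) +
        C5 * (R ^ (q / 4) * SS g R D)
      = C5 * C * ((R ^ (ε / 4) * R ^ (2 * q / 2) * R ^ (q / 4)) * SS g R D) +
        C5 * (R ^ (q / 4) * SS g R D) := by ring
    _ ≤ C5 * C * (R ^ ε * SS g R D) + C5 * (R ^ ε * SS g R D) := by gcongr
    _ = _ := by ring

/-- the leaves of the wave side, for one `q`. -/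
structure Leaves (M q K : ℝ) : Prop where
  sli : SLI M q K
  cnv : CNV M q
  a1 : A1k M q
  t1 : TRIV1 M q
  t2 : TRIV2 M q
  km : KMt M q
  wch : WChE M q
  a5 : A5 M q

/-- **wave side**: the leaves for all small `q` give `EBc`. -/
theorem EBc_of_leaves {q0 : ℝ} (hq0 : 0 < q0)
    (H : ∀ q : ℝ, 0 < q → q < q0 → ∃ K : ℝ, 0 ≤ K ∧ Leaves M q K) : EBc M := by
  refine EBc_of_LB hq0 (fun q hq hqq c hc => ?_) (fun q hq hqq => ?_)
  · obtain ⟨K, hK, L⟩ := H q hq hqq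
    exact LB_all hq.le hK L.sli L.cnv L.a1 L.t1 L.t2 L.km L.wch c hc
  · obtain ⟨K, _, L⟩ := H q hq hqq
    exact L.a5

end Crest.Agent.R116.WC188
end

-- ▼ part R116/A5c_192
section

/-!
# R116 (S0155), wave side: leaf A5 of `WDefC_188` (helper192)

The cube integral of `‖extc g‖^3` is bounded by the plate functional of level one.
* `unfold_le`: unfolding of an integral over the integer shifts of position-time space;
* `avg_le`, `near_far`: averages over small balls, near and far part of a rapidly decreasing average;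
* `extc_lc`: local constancy; `apl_lower`: the plate functional dominates the mass in small balls;
* `a5 : ∀ M q, A5 M q`.
-/

set_option autoImplicit false

open MeasureTheory FourierTransform
open scoped ContDiff ENNReal

namespace Crest.Agent.R116.A5c192

open Crest.Agent.R138.Defs (E2 ee)
open Crest.Agent.R138.Wpk685 (cen caps cap cap_win_sum)
open Crest.Agent.R116.CDef480 Crest.Agent.R116.WC188 Crest.Agent.R116.GlC210
open Crest.Agent.R116.CWp480 Crest.Agent.R116.Up192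
open Crest.Agent.R138.Wf448 (adet dw)

/-! ### unfolding -/



/-- basis of the position-time space. -/
noncomputable def bas : Module.Basis (Fin 3 ⊕ Fin 1) ℝ (E3 × ℝ) :=
  (EuclideanSpace.basisFun (Fin 3) ℝ).toBasis.prod (Module.Basis.singleton (Fin 1) ℝ)

theorem bas_repr_inl (x : E3 × ℝ) (i : Fin 3) : bas.repr x (Sum.inl i) = x.1 i := by
  simp [bas, Module.Basis.prod]

theorem bas_repr_inr (x : E3 × ℝ) (i : Fin 1) : bas.repr x (Sum.inr i) = x.2 := by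
  simp [bas, Module.Basis.prod]

theorem sep_lat {x y : E3 × ℝ} (h : x - y ∈ Submodule.span ℤ (Set.range bas)) :
    x = y ∨ 1 ≤ ‖x.1 - y.1‖ ∨ 1 ≤ |x.2 - y.2| := by
  rw [Module.Basis.mem_span_iff_repr_mem ℤ bas] at h
  by_cases h1 : x.2 = y.2
  · by_cases h2 : x.1 = y.1
    · exact Or.inl (Prod.ext h2 h1)
    · right; left
      obtain ⟨i, hi⟩ : ∃ i, x.1 i ≠ y.1 i := by
        by_contra hc
        push Not at hc
        exact h2 (by ext i; exact hc i)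
      obtain ⟨n, hn⟩ := h (Sum.inl i)
      rw [bas_repr_inl] at hn
      simp only [Prod.fst_sub, PiLp.sub_apply, algebraMap_int_eq, eq_intCast] at hn
      have hn0 : n ≠ 0 := by
        rintro rfl
        exact hi (by simp at hn; linarith)
      have h3 : (1:ℝ) ≤ |(n:ℝ)| := by
        have : (1:ℤ) ≤ |n| := Int.one_le_abs hn0
        exact_mod_cast this
      rw [hn] at h3
      refine h3.trans ?_
      have := PiLp.norm_apply_le (x.1 - y.1) i
      simpa using this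
  · right; right
    obtain ⟨n, hn⟩ := h (Sum.inr 0)
    rw [bas_repr_inr] at hn
    simp only [Prod.snd_sub, algebraMap_int_eq, eq_intCast] at hn
    have hn0 : n ≠ 0 := by
      rintro rfl
      exact h1 (by simp at hn; linarith)
    have h3 : (1:ℝ) ≤ |(n:ℝ)| := by
      have : (1:ℤ) ≤ |n| := Int.one_le_abs hn0
      exact_mod_cast this
    rwa [hn] at h3

/-- unfolding over the integer shifts: the integral is at most a constant times the largest sum over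
a `1`-separated set. -/
theorem unfold_le : ∃ C : ℝ, 0 ≤ C ∧ ∀ (F : E3 × ℝ → ℝ≥0∞), Measurable F → ∀ B : ℝ≥0∞,
    (∀ Z : Finset (E3 × ℝ), (∀ z ∈ Z, ∀ z' ∈ Z, z = z' ∨ 1 ≤ ‖z.1 - z'.1‖ ∨ 1 ≤ |z.2 - z'.2|) →
      ∑ z ∈ Z, F z ≤ B) →
    ∫⁻ z, F z ≤ ENNReal.ofReal C * B := by
  classical
  have hfin : volume (ZSpan.fundamentalDomain bas) < ⊤ :=
    (ZSpan.fundamentalDomain_isBounded bas).measure_lt_top
  refine ⟨(volume (ZSpan.fundamentalDomain bas)).toReal, ENNReal.toReal_nonneg, ?_⟩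
  intro F hF B hB
  rw [ENNReal.ofReal_toReal hfin.ne]
  have hd := ZSpan.isAddFundamentalDomain' bas (volume : Measure (E3 × ℝ))
  have : (volume : Measure (E3 × ℝ)).IsAddHaarMeasure :=
    inferInstanceAs ((volume : Measure E3).prod (volume : Measure ℝ)).IsAddHaarMeasure
  have : Countable (Submodule.span ℤ (Set.range bas)).toAddSubgroup :=
    inferInstanceAs (Countable (Submodule.span ℤ (Set.range bas)))
  rw [hd.lintegral_eq_tsum'' F]
  rw [← lintegral_tsum]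
  · calc ∫⁻ x in ZSpan.fundamentalDomain bas,
          ∑' γ : (Submodule.span ℤ (Set.range bas)).toAddSubgroup, F (γ +ᵥ x)
        ≤ ∫⁻ _x in ZSpan.fundamentalDomain bas, B := by
          refine lintegral_mono fun x => ?_
          change (∑' γ : (Submodule.span ℤ (Set.range bas)).toAddSubgroup, F (γ +ᵥ x)) ≤ B
          rw [ENNReal.tsum_eq_iSup_sum]
          refine iSup_le fun s => ?_
          have hinj : Set.InjOn (fun γ : (Submodule.span ℤ (Set.range bas)).toAddSubgroup =>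
              (γ +ᵥ x : E3 × ℝ)) (s : Set _) := by
            intro a _ b _ hab
            have : (a : E3 × ℝ) + x = (b : E3 × ℝ) + x := hab
            exact Subtype.ext (add_right_cancel this)
          rw [← Finset.sum_image (f := F) hinj]
          refine hB _ ?_
          intro z hz z' hz'
          simp only [Finset.mem_image] at hz hz'
          obtain ⟨a, _, rfl⟩ := hz
          obtain ⟨b, _, rfl⟩ := hz'
          refine sep_lat ?_
          have : (a +ᵥ x : E3 × ℝ) - (b +ᵥ x) = ((a - b : _) : E3 × ℝ) := by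
            change (a : E3 × ℝ) + x - ((b : E3 × ℝ) + x) = _
            rw [add_sub_add_right_eq_sub]
            rfl
          rw [this]
          exact (a - b).2
      _ = _ := by
          rw [setLIntegral_const, mul_comm]
  · intro γ
    refine Measurable.aemeasurable ?_
    exact hF.comp (measurable_const_vadd γ)

/-! ### averages -/



/-- rapidly decreasing weight. -/
noncomputable def ww (n : ℕ) (X : E3) : ℝ≥0∞ := ENNReal.ofReal (((1 + ‖X‖ ^ 2) ^ n)⁻¹)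

theorem ww_meas (n : ℕ) : Measurable (ww n) := by
  unfold ww
  fun_prop

theorem ww_neg (n : ℕ) (X : E3) : ww n (-X) = ww n X := by
  unfold ww; rw [norm_neg]

theorem ww_int : ∫⁻ X, ww 4 X < ⊤ := by
  have h1 : ∫⁻ X : E3, ENNReal.ofReal ((1 + ‖X‖) ^ (-(4:ℝ))) < ⊤ := by
    apply finite_integral_one_add_norm
    simp
    norm_num
  have h2 : ∀ X : E3, ww 4 X ≤ ENNReal.ofReal (2 ^ 4) * ENNReal.ofReal ((1 + ‖X‖) ^ (-(4:ℝ))) := by
    intro X
    unfold ww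
    rw [← ENNReal.ofReal_mul (by positivity)]
    refine ENNReal.ofReal_le_ofReal ?_
    have hn := norm_nonneg X
    rw [Real.rpow_neg (by positivity), show ((4:ℝ)) = ((4:ℕ):ℝ) by norm_num, Real.rpow_natCast,
      ← div_eq_mul_inv, inv_eq_one_div, div_le_div_iff₀ (by positivity) (by positivity), one_mul,
      ← mul_pow]
    refine pow_le_pow_left₀ (by positivity) ?_ 4
    nlinarith [sq_nonneg (‖X‖ - 1 / 2)]
  refine (lintegral_mono h2).trans_lt ?_
  rw [lintegral_const_mul' _ _ ENNReal.ofReal_ne_top]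
  exact ENNReal.mul_lt_top ENNReal.ofReal_lt_top h1

/-- the constant `∫ ww 4`. -/
noncomputable def c4 : ℝ≥0∞ := ∫⁻ X, ww 4 X

theorem c4_ne : c4 ≠ ⊤ := ww_int.ne

theorem ww_anti {m n : ℕ} (h : m ≤ n) (X : E3) : ww n X ≤ ww m X := by
  unfold ww
  refine ENNReal.ofReal_le_ofReal (inv_anti₀ (by positivity) ?_)
  exact pow_le_pow_right₀ (by nlinarith [sq_nonneg ‖X‖]) h

theorem ww_int_le {n : ℕ} (h : 4 ≤ n) : ∫⁻ X, ww n X ≤ c4 :=
  lintegral_mono fun X => ww_anti h X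

theorem ww_int_sub {n : ℕ} (h : 4 ≤ n) (W : E3) : ∫⁻ X, ww n (X - W) ≤ c4 := by
  rw [lintegral_sub_right_eq_self (fun X => ww n X) W]
  exact ww_int_le h

theorem ww_int_sub' {n : ℕ} (h : 4 ≤ n) (X : E3) : ∫⁻ W, ww n (X - W) ≤ c4 := by
  have e : ∀ W, ww n (X - W) = ww n (W - X) := fun W => by rw [← ww_neg, neg_sub]
  simp only [e]
  exact ww_int_sub h X

theorem ww_shift (n : ℕ) {X Y W : E3} (h : ‖Y - W‖ ≤ 1 / 10) :
    ww n (X - Y) ≤ ENNReal.ofReal (2 ^ n) * ww n (X - W) := by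
  unfold ww
  rw [← ENNReal.ofReal_mul (by positivity)]
  refine ENNReal.ofReal_le_ofReal ?_
  rw [← div_eq_mul_inv, inv_eq_one_div, div_le_div_iff₀ (by positivity) (by positivity), one_mul,
    ← mul_pow]
  refine pow_le_pow_left₀ (by positivity) ?_ n
  have h1 : ‖X - W‖ ≤ ‖X - Y‖ + 1 / 10 := by
    have : X - W = (X - Y) + (Y - W) := by abel
    rw [this]
    exact (norm_add_le _ _).trans (by linarith)
  have h2 := norm_nonneg (X - Y)
  have h3 := norm_nonneg (X - W)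
  nlinarith [sq_nonneg (‖X - Y‖ - 1 / 10)]

theorem ww_far (N : ℕ) {R : ℝ} (hR : 0 ≤ R) {X : E3} (h : R / 2 ≤ ‖X‖) :
    ww (4 + N) X ≤ ENNReal.ofReal (((1 + R ^ 2 / 4) ^ N)⁻¹) * ww 4 X := by
  unfold ww
  rw [← ENNReal.ofReal_mul (by positivity), pow_add, mul_inv, mul_comm]
  refine ENNReal.ofReal_le_ofReal ?_
  refine mul_le_mul_of_nonneg_right ?_ (by positivity)
  refine inv_anti₀ (by positivity) (pow_le_pow_left₀ (by positivity) ?_ N)
  nlinarith

/-- the mass in the ball of radius `1/10`. -/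
noncomputable def bav (E : E3 → ℝ≥0∞) (W : E3) : ℝ≥0∞ :=
  ∫⁻ Y in Metric.closedBall W (1 / 10), E Y

/-- the volume of the small ball. -/
noncomputable def vb : ℝ≥0∞ := volume (Metric.closedBall (0 : E3) (1 / 10))

theorem vb_ne_top : vb ≠ ⊤ := measure_closedBall_lt_top.ne
theorem vb_ne_zero : vb ≠ 0 := (Metric.measure_closedBall_pos volume _ (by norm_num)).ne'

theorem bav_eq (E : E3 → ℝ≥0∞) (W : E3) :
    bav E W = ∫⁻ Y, (if ‖Y - W‖ ≤ 1 / 10 then 1 else 0) * E Y := by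
  unfold bav
  rw [← lintegral_indicator Metric.isClosed_closedBall.measurableSet]
  refine lintegral_congr fun Y => ?_
  by_cases h : ‖Y - W‖ ≤ 1 / 10
  · rw [Set.indicator_of_mem (by rw [mem_closedBall_iff_norm]; exact h), if_pos h, one_mul]
  · rw [Set.indicator_of_notMem (by rw [mem_closedBall_iff_norm]; exact h), if_neg h, zero_mul]

theorem meas_near : Measurable fun p : E3 × E3 => (if ‖p.2 - p.1‖ ≤ 1 / 10 then 1 else 0 : ℝ≥0∞) := by
  refine Measurable.ite ?_ measurable_const measurable_const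
  exact measurableSet_le (by fun_prop) measurable_const


/-- `∫ k bav E = ∫ (∫_near k) E`. -/
theorem bav_swap {E k : E3 → ℝ≥0∞} (hE : Measurable E) (hk : Measurable k) :
    ∫⁻ W, k W * bav E W = ∫⁻ Y, (∫⁻ W in Metric.closedBall Y (1 / 10), k W) * E Y := by
  calc ∫⁻ W, k W * bav E W = ∫⁻ W, ∫⁻ Y, k W * ((if ‖Y - W‖ ≤ 1 / 10 then 1 else 0) * E Y) := by
        refine lintegral_congr fun W => ?_
        rw [bav_eq, lintegral_const_mul]
        exact ((meas_near.comp (measurable_const.prodMk measurable_id)).mul hE)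
    _ = ∫⁻ Y, ∫⁻ W, k W * ((if ‖Y - W‖ ≤ 1 / 10 then 1 else 0) * E Y) := by
        refine lintegral_lintegral_swap ?_
        refine Measurable.aemeasurable ?_
        exact (hk.comp measurable_fst).mul (meas_near.mul (hE.comp measurable_snd))
    _ = _ := by
        refine lintegral_congr fun Y => ?_
        rw [← lintegral_indicator Metric.isClosed_closedBall.measurableSet, ← lintegral_mul_const]
        · refine lintegral_congr fun W => ?_
          by_cases h : ‖Y - W‖ ≤ 1 / 10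
          · rw [Set.indicator_of_mem (by rw [mem_closedBall_iff_norm, norm_sub_rev]; exact h),
              if_pos h, one_mul]
          · rw [Set.indicator_of_notMem (by rw [mem_closedBall_iff_norm, norm_sub_rev]; exact h),
              if_neg h, zero_mul, mul_zero]
        · exact hk.indicator Metric.isClosed_closedBall.measurableSet

/-- total mass. -/
theorem bav_int {E : E3 → ℝ≥0∞} (hE : Measurable E) : ∫⁻ W, bav E W = vb * ∫⁻ Y, E Y := by
  have h := bav_swap hE (k := fun _ => 1) measurable_const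
  simp only [one_mul] at h
  rw [h, ← lintegral_const_mul _ hE]
  refine lintegral_congr fun Y => ?_
  rw [setLIntegral_const, one_mul]
  congr 1
  unfold vb
  rw [Measure.addHaar_closedBall_center]

/-- averaging. -/
theorem avg_le (n : ℕ) {E : E3 → ℝ≥0∞} (hE : Measurable E) (X : E3) :
    ∫⁻ Y, ww n (X - Y) * E Y ≤
      ENNReal.ofReal (2 ^ n) * vb⁻¹ * ∫⁻ W, ww n (X - W) * bav E W := by
  have hm : Measurable fun W => ww n (X - W) := (ww_meas n).comp (by fun_prop)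
  rw [bav_swap hE hm, ← lintegral_const_mul']
  · refine lintegral_mono fun Y => ?_
    rw [← mul_assoc]
    refine mul_le_mul_left ?_ _
    have h1 : vb * ww n (X - Y) ≤ ENNReal.ofReal (2 ^ n) *
        ∫⁻ W in Metric.closedBall Y (1 / 10), ww n (X - W) := by
      rw [← lintegral_const_mul _ hm]
      calc vb * ww n (X - Y) = ∫⁻ _W in Metric.closedBall Y (1 / 10), ww n (X - Y) := by
            rw [setLIntegral_const, mul_comm]
            congr 1
            exact (Measure.addHaar_closedBall_center volume Y _).symm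
        _ ≤ _ := by
            refine setLIntegral_mono (measurable_const.mul hm) fun W hW => ?_
            refine ww_shift n ?_
            rw [mem_closedBall_iff_norm, norm_sub_rev] at hW
            exact hW
    calc ww n (X - Y) = vb⁻¹ * (vb * ww n (X - Y)) := by
          rw [← mul_assoc, ENNReal.inv_mul_cancel vb_ne_zero vb_ne_top, one_mul]
      _ ≤ vb⁻¹ * (ENNReal.ofReal (2 ^ n) * ∫⁻ W in Metric.closedBall Y (1 / 10), ww n (X - W)) := by
          gcongr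
      _ = _ := by ring
  · exact ENNReal.mul_ne_top ENNReal.ofReal_ne_top (ENNReal.inv_ne_top.2 vb_ne_zero)

/-- near and far. -/
theorem near_far (N : ℕ) {R : ℝ} (hR : 0 ≤ R) {F : E3 → ℝ≥0∞} (hF : Measurable F) :
    ∫⁻ X in Metric.closedBall 0 (R / 2), ∫⁻ W, ww (4 + N) (X - W) * F W ≤
      c4 * (∫⁻ W in Metric.closedBall 0 R, F W) +
        c4 * (ENNReal.ofReal (((1 + R ^ 2 / 4) ^ N)⁻¹) * ∫⁻ W, F W) := by
  set cN := ENNReal.ofReal (((1 + R ^ 2 / 4) ^ N)⁻¹) with hcN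
  set G : E3 → ℝ≥0∞ := fun W => (Metric.closedBall (0:E3) R).indicator F W + cN * F W with hG
  have hGm : Measurable G := (hF.indicator Metric.isClosed_closedBall.measurableSet).add
    (measurable_const.mul hF)
  calc ∫⁻ X in Metric.closedBall 0 (R / 2), ∫⁻ W, ww (4 + N) (X - W) * F W
      ≤ ∫⁻ X in Metric.closedBall 0 (R / 2), ∫⁻ W, ww 4 (X - W) * G W := by
        refine setLIntegral_mono' Metric.isClosed_closedBall.measurableSet fun X hX => ?_
        refine lintegral_mono fun W => ?_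
        rw [mem_closedBall_zero_iff] at hX
        by_cases hW : ‖W‖ ≤ R
        · have h1 : F W ≤ G W := by
            rw [hG]
            simp only
            rw [Set.indicator_of_mem (by rw [mem_closedBall_zero_iff]; exact hW)]
            exact le_self_add
          exact mul_le_mul' (ww_anti (by omega) _) h1
        · push Not at hW
          have h2 : R / 2 ≤ ‖X - W‖ := by
            have : ‖W‖ ≤ ‖X‖ + ‖X - W‖ := by
              have e : W = X - (X - W) := by abel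
              calc ‖W‖ = ‖X - (X - W)‖ := by rw [← e]
                _ ≤ _ := norm_sub_le _ _
            linarith
          have h3 : cN * F W ≤ G W := by
            rw [hG]
            exact le_add_self
          calc ww (4 + N) (X - W) * F W ≤ (cN * ww 4 (X - W)) * F W :=
                mul_le_mul_left (ww_far N hR h2) _
            _ = ww 4 (X - W) * (cN * F W) := by ring
            _ ≤ _ := mul_le_mul_right h3 _
    _ ≤ ∫⁻ X, ∫⁻ W, ww 4 (X - W) * G W := setLIntegral_le_lintegral _ _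
    _ = ∫⁻ W, ∫⁻ X, ww 4 (X - W) * G W := by
        refine lintegral_lintegral_swap ?_
        refine Measurable.aemeasurable ?_
        exact ((ww_meas 4).comp (measurable_fst.sub measurable_snd)).mul (hGm.comp measurable_snd)
    _ ≤ ∫⁻ W, c4 * G W := by
        refine lintegral_mono fun W => ?_
        change ∫⁻ X, ww 4 (X - W) * G W ≤ c4 * G W
        have hm : Measurable fun X => ww 4 (X - W) := (ww_meas 4).comp (by fun_prop)
        rw [lintegral_mul_const _ hm]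
        exact mul_le_mul_left (ww_int_sub le_rfl W) _
    _ = _ := by
        rw [lintegral_const_mul _ hGm, ← mul_add]
        congr 1
        rw [hG, lintegral_add_left (hF.indicator Metric.isClosed_closedBall.measurableSet),
          lintegral_indicator Metric.isClosed_closedBall.measurableSet, lintegral_const_mul _ hF]

/-! ### the square function of level one -/

theorem st_norm {M κ q a b M0 : ℝ} {C0 : E2} {σ : ℝ} {g : E3 → ℂ} {R D : ℝ} (ha : 1 ≤ a)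
    (hb : 0 < b) (h : St M κ q a b M0 C0 σ g R D) {ζ : E3} (hζ : g ζ ≠ 0) :
    ‖ζ‖ ≤ a * (b + 1) := by
  obtain ⟨h1, h2, h3, -⟩ := h.supp ζ hζ
  have h0 : 0 < ζ 2 := lt_of_lt_of_le (by positivity) h1
  have h4 : ‖lat ζ‖ ≤ a * b := by
    rw [lat_slp h0.ne', norm_smul, Real.norm_eq_abs, abs_of_pos h0]
    gcongr
  have h5 := normsq3 ζ
  refine abs_le_of_sq_le_sq' ?_ (by positivity) |>.2
  rw [h5]
  have h6 : ‖lat ζ‖ ^ 2 ≤ (a * b) ^ 2 := pow_le_pow_left₀ (norm_nonneg _) h4 2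
  have h7 : ζ 2 ^ 2 ≤ a ^ 2 := pow_le_pow_left₀ h0.le h2 2
  nlinarith [mul_pos (mul_pos (by positivity : 0 < a) (by positivity : 0 < a)) hb]

theorem st_gdc {M κ q a b M0 : ℝ} {C0 : E2} {σ : ℝ} {g : E3 → ℂ} {R D : ℝ} (ha : 1 ≤ a)
    (hb : 0 < b) (h : St M κ q a b M0 C0 σ g R D) : Gdc g :=
  ⟨h.meas, h.bdd, a * (b + 1), fun _ hζ => st_norm ha hb h hζ⟩

/-- the packet of the cap `m` at time `s`. -/
noncomputable def uu (g : E3 → ℂ) (m : ℤ × ℤ) (p : E3 × ℝ) : ℂ :=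
  extc (fun ζ => capc 1 m ζ * g ζ) p.1 p.2

/-- the square function of level one. -/
noncomputable def ee2 (g : E3 → ℂ) (p : E3 × ℝ) : ℝ≥0∞ := ∑ m ∈ caps 1, ‖uu g m p‖ₑ ^ 2

theorem uu_cont {g : E3 → ℂ} (hg : Integrable g) (m : ℤ × ℤ) : Continuous (uu g m) :=
  Crest.Agent.R116.Sl850.ex_cont measurable_hc (capc_int hg 1 m)

theorem ee2_meas {g : E3 → ℂ} (hg : Integrable g) : Measurable (ee2 g) := by
  unfold ee2
  exact Finset.measurable_sum _ fun m _ => (uu_cont hg m).measurable.enorm.pow_const 2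

theorem umc_trc (g : E3 → ℂ) (z : E3 × ℝ) (m : ℤ × ℤ) (Y : E3) :
    umc 1 (trc z g) m Y = uu g m (Y + z.1, z.2) := by
  unfold uu umc
  have e : (fun ζ => capc 1 m ζ * trc z g ζ) = slc (trc z fun ζ => capc 1 m ζ * g ζ) 0 := by
    funext ζ
    unfold slc trc
    simp [ee, mul_assoc]
  rw [e, ← extc_eq, extc_trc, zero_add]

theorem norm_cen_le {m : ℤ × ℤ} (hm : m ∈ caps 1) : ‖cen 1 m‖ ≤ 5 := by
  unfold Crest.Agent.R138.Wpk685.caps at hm
  simp only [Finset.mem_product, Finset.mem_Icc, div_one, Int.ceil_ofNat] at hm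
  obtain ⟨⟨h1, h2⟩, h3, h4⟩ := hm
  have a1 : (-3:ℝ) ≤ m.1 := by exact_mod_cast h1
  have a2 : (m.1:ℝ) ≤ 3 := by exact_mod_cast h2
  have a3 : (-3:ℝ) ≤ m.2 := by exact_mod_cast h3
  have a4 : (m.2:ℝ) ≤ 3 := by exact_mod_cast h4
  have h := normsq2 (cen 1 m)
  unfold Crest.Agent.R138.Wpk685.cen at h ⊢
  simp only [one_mul] at h ⊢
  simp at h
  have := norm_nonneg (!₂[(m.1:ℝ), (m.2:ℝ)] : E2)
  nlinarith

/-- the plate functional of level one dominates the mass in the small ball. -/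
theorem apl_lower {g : E3 → ℂ} (hg : Integrable g) (z : E3 × ℝ) {X : E3} {s : ℝ}
    (hX : ‖X‖ ≤ 1 / 100) (hs : |s| ≤ 1 / 100) :
    ∫⁻ Y in Metric.closedBall z.1 (1 / 10), ee2 g (Y, z.2) ≤ apl 1 (trc z g) (X, s) := by
  have hpl : ∀ m ∈ caps 1, Metric.closedBall (0 : E3) (1 / 10) ⊆ plt 1 1 (cen 1 m) X s := by
    intro m hm Y hY
    rw [mem_closedBall_zero_iff] at hY
    have hc := norm_cen_le hm
    set C := cen 1 m
    have lY : ‖lat Y‖ ≤ 1 / 10 := by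
      have := normsq3 Y
      nlinarith [sq_nonneg (Y 2), norm_nonneg (lat Y), norm_nonneg Y]
    have lX : ‖lat X‖ ≤ 1 / 100 := by
      have := normsq3 X
      nlinarith [sq_nonneg (X 2), norm_nonneg (lat X), norm_nonneg X]
    have yY : |Y 2| ≤ 1 / 10 := (PiLp.norm_apply_le Y 2).trans hY
    have yX : |X 2| ≤ 1 / 100 := (PiLp.norm_apply_le X 2).trans hX
    refine ⟨?_, ?_⟩
    · calc ‖lat Y - (lat X + s • C)‖ ≤ ‖lat Y‖ + (‖lat X‖ + ‖s • C‖) :=
            (norm_sub_le _ _).trans (by gcongr; exact norm_add_le _ _)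
        _ ≤ 1 / 10 + (1 / 100 + 1 / 100 * 5) := by
            rw [norm_smul, Real.norm_eq_abs]
            gcongr
        _ ≤ 1 := by norm_num
    · have i1 : |inner ℝ C (lat Y)| ≤ 5 * (1 / 10) :=
        (abs_real_inner_le_norm _ _).trans (by gcongr)
      have i2 : |inner ℝ C (lat X)| ≤ 5 * (1 / 100) :=
        (abs_real_inner_le_norm _ _).trans (by gcongr)
      have i3 : |s * ‖C‖ ^ 2 / 2| ≤ 1 / 100 * 5 ^ 2 / 2 := by
        rw [abs_div, abs_mul, abs_of_nonneg (by positivity : (0:ℝ) ≤ ‖C‖ ^ 2),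
          abs_of_pos (by norm_num : (0:ℝ) < 2)]
        gcongr
      unfold nrm
      rw [abs_le] at *
      constructor <;> linarith [i1.1, i1.2, i2.1, i2.2, i3.1, i3.2, yY.1, yY.2, yX.1, yX.2]
  unfold apl ee2
  simp only [Real.one_rpow, inv_one, ENNReal.ofReal_one, one_mul]
  have e1 : ∫⁻ Y in Metric.closedBall z.1 (1 / 10), ∑ m ∈ caps 1, ‖uu g m (Y, z.2)‖ₑ ^ 2 =
      ∫⁻ Y in Metric.closedBall (0 : E3) (1 / 10), ∑ m ∈ caps 1, ‖uu g m (Y + z.1, z.2)‖ₑ ^ 2 := by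
    rw [← lintegral_indicator Metric.isClosed_closedBall.measurableSet,
      ← lintegral_indicator Metric.isClosed_closedBall.measurableSet,
      ← lintegral_add_right_eq_self _ z.1]
    refine lintegral_congr fun Y => ?_
    by_cases h : ‖Y‖ ≤ 1 / 10
    · rw [Set.indicator_of_mem, Set.indicator_of_mem]
      · rwa [mem_closedBall_zero_iff]
      · rwa [mem_closedBall_iff_norm, add_sub_cancel_right]
    · rw [Set.indicator_of_notMem, Set.indicator_of_notMem]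
      · rwa [mem_closedBall_zero_iff]
      · rwa [mem_closedBall_iff_norm, add_sub_cancel_right]
  rw [e1, lintegral_finsetSum]
  · refine Finset.sum_le_sum fun m hm => ?_
    simp only [umc_trc]
    exact lintegral_mono_set (hpl m hm)
  · intro m _
    have : Continuous fun Y : E3 => uu g m (Y + z.1, z.2) := (uu_cont hg m).comp (by fun_prop)
    exact this.measurable.enorm.pow_const 2

theorem slc_sum {g : E3 → ℂ} (hs : ∀ ζ, g ζ ≠ 0 → ‖slp ζ‖ ≤ 2) (s : ℝ) :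
    slc g s = fun ζ => ∑ m ∈ caps 1, slc (fun ζ => capc 1 m ζ * g ζ) s ζ := by
  funext ζ
  unfold slc
  rw [← Finset.sum_mul, ← Finset.sum_mul]
  by_cases h : g ζ = 0
  · rw [h, mul_zero]
  · congr 1
    have h1 := cap_win_sum one_pos (hs ζ h)
    unfold capc
    rw [h1, one_mul]

theorem extc_sq_le {g : E3 → ℂ} (hg : Integrable g) (hs : ∀ ζ, g ζ ≠ 0 → ‖slp ζ‖ ≤ 2) (X : E3)
    (s : ℝ) : ‖extc g X s‖ₑ ^ 2 ≤ ((caps 1).card : ℝ≥0∞) * ee2 g (X, s) := by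
  rw [extc_eq, slc_sum hs]
  refine (enorm_sum_sq (caps 1) (fun m => slc (fun ζ => capc 1 m ζ * g ζ) s)
    (fun m _ => slc_int (capc_int hg 1 m) s) X).trans_eq ?_
  unfold ee2 uu
  simp only [extc_eq]

/-- local constancy. -/
theorem extc_lc (n : ℕ) {L : ℝ} (hL : 1 ≤ L) : ∃ C : ℝ, 0 ≤ C ∧ ∀ g : E3 → ℂ, Integrable g →
    (∀ ζ, g ζ ≠ 0 → ‖ζ‖ ≤ L) → (∀ ζ, g ζ ≠ 0 → ‖slp ζ‖ ≤ 2) → ∀ (X : E3) (s : ℝ),
    ‖extc g X s‖ₑ ^ 2 ≤ ENNReal.ofReal C * ∫⁻ Y, ww n (X - Y) * ee2 g (Y, s) := by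
  obtain ⟨C, hC, h⟩ := lc_pt (V := E3) n
  have hd := adet0 (ContinuousLinearEquiv.refl ℝ E3)
  refine ⟨C * (L ^ Module.finrank ℝ E3 * adet ((ContinuousLinearEquiv.refl ℝ E3 : E3 ≃L[ℝ] E3) :
    E3 →L[ℝ] E3)) * (caps 1).card, by positivity, ?_⟩
  intro g hg hsup hs X s
  have h1 := h (ContinuousLinearEquiv.refl ℝ E3) L hL 0 (slc g s) (slc_int hg s) ?_ X
  · rw [extc_eq]
    refine h1.trans ?_
    set K : ℝ := C * (L ^ Module.finrank ℝ E3 *
      adet ((ContinuousLinearEquiv.refl ℝ E3 : E3 ≃L[ℝ] E3) : E3 →L[ℝ] E3)) with hK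
    have hK0 : 0 ≤ K := by positivity
    rw [ENNReal.ofReal_mul hK0, ENNReal.ofReal_natCast, mul_assoc]
    refine mul_le_mul_right ?_ _
    rw [wE_eq, ← lintegral_const_mul' _ _ (ENNReal.natCast_ne_top _)]
    refine lintegral_mono fun Y => ?_
    simp only
    have e1 : ENNReal.ofReal (dw n ((ContinuousLinearEquiv.refl ℝ E3 : E3 ≃L[ℝ] E3) : E3 →L[ℝ] E3)
        (Y - X)) = ww n (X - Y) := by
      rw [dw_def]
      unfold ww
      rw [ContinuousLinearEquiv.refl_apply, norm_sub_rev]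
    rw [e1, ← extc_eq]
    calc ww n (X - Y) * ‖extc g Y s‖ₑ ^ 2 ≤ ww n (X - Y) * (((caps 1).card : ℝ≥0∞) * ee2 g (Y, s)) :=
          mul_le_mul_right (extc_sq_le hg hs Y s) _
      _ = _ := by ring
  · intro ξ hξ
    refine ⟨ξ, hsup ξ fun h0 => hξ (by unfold slc; rw [h0, zero_mul]), ?_⟩
    rw [zero_add]
    refine ext_inner_right ℝ fun v => ?_
    rw [ContinuousLinearMap.adjoint_inner_left]
    rfl

theorem ee2_int {g : E3 → ℂ} (hg : Gdc g) (s : ℝ) :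
    ∫⁻ Y, ee2 g (Y, s) ≤ ((caps 1).card : ℝ≥0∞) * ENNReal.ofReal (Enc g) := by
  unfold ee2
  rw [lintegral_finsetSum]
  · rw [← nsmul_eq_mul]
    refine Finset.sum_le_card_nsmul _ _ _ fun m _ => ?_
    have h1 : Integrable (slc (fun ζ => capc 1 m ζ * g ζ) s) := slc_int (capc_int hg.int 1 m) s
    have h2 : MemLp (fun ζ => capc 1 m ζ * g ζ) 2 := by
      refine MemLp.of_le hg.l2 (capc_int hg.int 1 m).1 (Filter.Eventually.of_forall fun ζ => ?_)
      rw [norm_mul]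
      exact mul_le_of_le_one_left (norm_nonneg _) (norm_capc_le 1 m ζ)
    have h3 := Crest.Agent.R138.Wf448.planchL h1 (slc_l2 h2 s)
    unfold Crest.Agent.R138.Wf448.LI at h3
    have e1 : ∀ Y, ‖uu g m (Y, s)‖ₑ ^ 2 =
        ENNReal.ofReal (‖𝓕⁻ (slc (fun ζ => capc 1 m ζ * g ζ) s) Y‖ ^ 2) := by
      intro Y
      unfold uu
      rw [extc_eq, ENNReal.ofReal_pow (norm_nonneg _), ofReal_norm]
    rw [lintegral_congr e1, h3, Enc, ofReal_integral_eq_lintegral_ofReal]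
    · refine lintegral_mono fun ζ => ENNReal.ofReal_le_ofReal ?_
      simp only
      rw [norm_slc, norm_mul]
      refine pow_le_pow_left₀ (by positivity) ?_ 2
      exact mul_le_of_le_one_left (norm_nonneg _) (norm_capc_le 1 m ζ)
    · exact (memLp_two_iff_integrable_sq_norm hg.meas.aestronglyMeasurable).1 hg.l2
    · exact Filter.Eventually.of_forall fun ζ => by positivity
  · intro m _
    have : Continuous fun Y : E3 => uu g m (Y, s) := (uu_cont hg.int m).comp (by fun_prop)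
    exact this.measurable.enorm.pow_const 2

/-! ### the mass in small balls -/

/-- mass in the small ball in position, at fixed time. -/
noncomputable def EE (g : E3 → ℂ) (z : E3 × ℝ) : ℝ≥0∞ := bav (fun Y => ee2 g (Y, z.2)) z.1

theorem EE_meas {g : E3 → ℂ} (hg : Integrable g) : Measurable (EE g) := by
  have e : EE g = fun z => ∫⁻ Y, (if ‖Y - z.1‖ ≤ 1 / 10 then 1 else 0) * ee2 g (Y, z.2) := by
    funext z; exact bav_eq _ _
  rw [e]
  have h1 : Measurable fun p : (E3 × ℝ) × E3 =>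
      (if ‖p.2 - p.1.1‖ ≤ 1 / 10 then 1 else 0 : ℝ≥0∞) := by
    refine Measurable.ite ?_ measurable_const measurable_const
    exact measurableSet_le (by fun_prop) measurable_const
  have h2 : Measurable fun p : (E3 × ℝ) × E3 => ee2 g (p.2, p.1.2) :=
    (ee2_meas hg).comp (by fun_prop)
  exact Measurable.lintegral_prod_right' (f := fun p : (E3 × ℝ) × E3 =>
    (if ‖p.2 - p.1.1‖ ≤ 1 / 10 then 1 else 0 : ℝ≥0∞) * ee2 g (p.2, p.1.2)) (h1.mul h2)

theorem cylc_eq (R : ℝ) : cylc R = Metric.closedBall (0 : E3) R ×ˢ Set.Icc (-R) R := by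
  ext p
  simp [cylc, abs_le]

theorem cylc_meas (R : ℝ) : MeasurableSet (cylc R) := by
  rw [cylc_eq]
  exact Metric.isClosed_closedBall.measurableSet.prod measurableSet_Icc

theorem vol_cylc_pos {R : ℝ} (hR : 0 < R) : volume (cylc R) ≠ 0 := by
  rw [cylc_eq, Measure.volume_eq_prod, Measure.prod_prod]
  refine mul_ne_zero (Metric.measure_closedBall_pos volume _ hR).ne' ?_
  rw [Real.volume_Icc]
  simpa using hR

theorem vol_cylc_top (R : ℝ) : volume (cylc R) ≠ ⊤ := by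
  rw [cylc_eq, Measure.volume_eq_prod, Measure.prod_prod]
  refine ENNReal.mul_ne_top measure_closedBall_lt_top.ne ?_
  rw [Real.volume_Icc]
  exact ENNReal.ofReal_ne_top

theorem NP_ge {g : E3 → ℂ} (hg : Integrable g) {R : ℝ} {Z : Finset (E3 × ℝ)} (hZ : Net 1 R Z) :
    volume (cylc (1 / 100)) * ∑ z ∈ Z, EE g z ^ (3 / 2 : ℝ) ≤ NP 1 1 g R := by
  unfold NP
  refine le_trans ?_ (le_iSup₂ (f := fun (Z : Finset (E3 × ℝ)) (_ : Net 1 R Z) =>
    ∑ z ∈ Z, ∫⁻ p in cylc (1 * 1), (apl 1 (trc z g) p) ^ (3 / 2 : ℝ)) Z hZ)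
  rw [Finset.mul_sum]
  refine Finset.sum_le_sum fun z _ => ?_
  calc volume (cylc (1 / 100)) * EE g z ^ (3 / 2 : ℝ)
      = ∫⁻ _p in cylc (1 / 100), EE g z ^ (3 / 2 : ℝ) := by rw [setLIntegral_const, mul_comm]
    _ ≤ ∫⁻ p in cylc (1 / 100), (apl 1 (trc z g) p) ^ (3 / 2 : ℝ) := by
        refine setLIntegral_mono' (cylc_meas _) fun p hp => ?_
        refine ENNReal.rpow_le_rpow ?_ (by norm_num)
        exact apl_lower hg z hp.1 hp.2
    _ ≤ _ := by
        refine lintegral_mono_set fun p hp => ?_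
        exact ⟨hp.1.trans (by norm_num), hp.2.trans (by norm_num)⟩

/-- the near part. -/
theorem near_NP : ∃ C : ℝ, 0 ≤ C ∧ ∀ g : E3 → ℂ, Integrable g → ∀ R : ℝ,
    ∫⁻ z in cylc R, EE g z ^ (3 / 2 : ℝ) ≤ ENNReal.ofReal C * NP 1 1 g R := by
  classical
  obtain ⟨C, hC, h⟩ := unfold_le
  have v0 := vol_cylc_pos (show (0:ℝ) < 1 / 100 by norm_num)
  have v1 := vol_cylc_top (1 / 100)
  refine ⟨C * ((volume (cylc (1 / 100)))⁻¹).toReal, by positivity, fun g hg R => ?_⟩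
  rw [ENNReal.ofReal_mul hC, ENNReal.ofReal_toReal (ENNReal.inv_ne_top.2 v0), mul_assoc,
    ← lintegral_indicator (cylc_meas R)]
  refine h _ (((EE_meas hg).pow_const _).indicator (cylc_meas R)) _ ?_
  intro Z hZ
  have e1 : ∑ z ∈ Z, (cylc R).indicator (fun z => EE g z ^ (3 / 2 : ℝ)) z =
      ∑ z ∈ Z.filter (· ∈ cylc R), EE g z ^ (3 / 2 : ℝ) := by
    rw [Finset.sum_filter]
    refine Finset.sum_congr rfl fun z _ => ?_
    by_cases hz : z ∈ cylc R
    · rw [Set.indicator_of_mem hz, if_pos hz]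
    · rw [Set.indicator_of_notMem hz, if_neg hz]
  rw [e1]
  have hnet : Net 1 R (Z.filter (· ∈ cylc R)) := by
    refine ⟨fun z hz => (Finset.mem_filter.1 hz).2, fun z hz z' hz' => ?_⟩
    exact hZ z (Finset.mem_filter.1 hz).1 z' (Finset.mem_filter.1 hz').1
  calc ∑ z ∈ Z.filter (· ∈ cylc R), EE g z ^ (3 / 2 : ℝ)
      = (volume (cylc (1 / 100)))⁻¹ * (volume (cylc (1 / 100)) *
          ∑ z ∈ Z.filter (· ∈ cylc R), EE g z ^ (3 / 2 : ℝ)) := by
        rw [← mul_assoc, ENNReal.inv_mul_cancel v0 v1, one_mul]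
    _ ≤ _ := mul_le_mul_right (NP_ge hg hnet) _

/-- the pointwise bound. -/
theorem cube_pt (n : ℕ) (hn : 4 ≤ n) {L : ℝ} (hL : 1 ≤ L) : ∃ C : ℝ, 0 ≤ C ∧
    ∀ g : E3 → ℂ, Integrable g →
    (∀ ζ, g ζ ≠ 0 → ‖ζ‖ ≤ L) → (∀ ζ, g ζ ≠ 0 → ‖slp ζ‖ ≤ 2) → ∀ (X : E3) (s : ℝ),
    ‖extc g X s‖ₑ ^ 3 ≤ ENNReal.ofReal C * ∫⁻ W, ww n (X - W) * EE g (W, s) ^ (3 / 2 : ℝ) := by
  obtain ⟨C, hC, h⟩ := extc_lc n hL
  set K : ℝ≥0∞ := ENNReal.ofReal C * (ENNReal.ofReal (2 ^ n) * vb⁻¹) with hK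
  have hKt : K ≠ ⊤ := ENNReal.mul_ne_top ENNReal.ofReal_ne_top
    (ENNReal.mul_ne_top ENNReal.ofReal_ne_top (ENNReal.inv_ne_top.2 vb_ne_zero))
  have hcK : K ^ (3 / 2 : ℝ) * c4 ^ (1 / 2 : ℝ) ≠ ⊤ :=
    ENNReal.mul_ne_top (ENNReal.rpow_ne_top_of_nonneg (by norm_num) hKt)
      (ENNReal.rpow_ne_top_of_nonneg (by norm_num) c4_ne)
  refine ⟨(K ^ (3 / 2 : ℝ) * c4 ^ (1 / 2 : ℝ)).toReal, ENNReal.toReal_nonneg, ?_⟩
  intro g hg hsup hs X s
  rw [ENNReal.ofReal_toReal hcK]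
  have hE : Measurable fun Y => ee2 g (Y, s) := (ee2_meas hg).comp (by fun_prop)
  have hEE : Measurable fun W => EE g (W, s) := (EE_meas hg).comp (by fun_prop)
  have hw : Measurable fun W => ww n (X - W) := (ww_meas n).comp (by fun_prop)
  have h1 : ‖extc g X s‖ₑ ^ 2 ≤ K * ∫⁻ W, ww n (X - W) * EE g (W, s) := by
    refine (h g hg hsup hs X s).trans ?_
    rw [hK, mul_assoc]
    exact mul_le_mul_right (avg_le n hE X) _
  have h2 := Crest.Agent.R116.Sl850.jensen (p := 3 / 2) (by norm_num) hw.aemeasurable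
    hEE.aemeasurable (μ := volume)
  calc ‖extc g X s‖ₑ ^ 3 = (‖extc g X s‖ₑ ^ 2) ^ (3 / 2 : ℝ) := by
        rw [← ENNReal.rpow_natCast, ← ENNReal.rpow_natCast, ← ENNReal.rpow_mul]
        norm_num
    _ ≤ (K * ∫⁻ W, ww n (X - W) * EE g (W, s)) ^ (3 / 2 : ℝ) :=
        ENNReal.rpow_le_rpow h1 (by norm_num)
    _ = K ^ (3 / 2 : ℝ) * (∫⁻ W, ww n (X - W) * EE g (W, s)) ^ (3 / 2 : ℝ) :=
        ENNReal.mul_rpow_of_nonneg _ _ (by norm_num)
    _ ≤ K ^ (3 / 2 : ℝ) * (c4 ^ (1 / 2 : ℝ) *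
          ∫⁻ W, ww n (X - W) * EE g (W, s) ^ (3 / 2 : ℝ)) := by
        refine mul_le_mul_right (h2.trans ?_) _
        refine mul_le_mul_left ?_ _
        rw [show (3 / 2 - 1 : ℝ) = 1 / 2 by norm_num]
        exact ENNReal.rpow_le_rpow (ww_int_sub' hn X) (by norm_num)
    _ = _ := by rw [mul_assoc]

/-- the total mass of `EE ^ (3/2)` at a fixed time. -/
theorem EE_total {g : E3 → ℂ} (hg : Gdc g) (s : ℝ) :
    ∫⁻ W, EE g (W, s) ^ (3 / 2 : ℝ) ≤
      (((caps 1).card : ℝ≥0∞) * ENNReal.ofReal (Enc g)) ^ (1 / 2 : ℝ) *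
        (vb * (((caps 1).card : ℝ≥0∞) * ENNReal.ofReal (Enc g))) := by
  set T : ℝ≥0∞ := ((caps 1).card : ℝ≥0∞) * ENNReal.ofReal (Enc g) with hT
  have hTt : T ≠ ⊤ := ENNReal.mul_ne_top (ENNReal.natCast_ne_top _) ENNReal.ofReal_ne_top
  have hE : Measurable fun Y => ee2 g (Y, s) := (ee2_meas hg.int).comp (by fun_prop)
  have h1 := ee2_int hg s
  have h2 : ∀ W, EE g (W, s) ≤ T := fun W => (setLIntegral_le_lintegral _ _).trans h1
  have h3 : ∀ W, EE g (W, s) ^ (3 / 2 : ℝ) ≤ T ^ (1 / 2 : ℝ) * EE g (W, s) := by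
    intro W
    have e : EE g (W, s) ^ (3 / 2 : ℝ) = EE g (W, s) ^ (1 / 2 : ℝ) * EE g (W, s) := by
      conv_rhs => rw [← ENNReal.rpow_one (EE g (W, s)), ← ENNReal.rpow_mul]
      rw [one_mul, ← ENNReal.rpow_add_of_nonneg _ _ (by norm_num) (by norm_num)]
      norm_num
    rw [e]
    exact mul_le_mul_left (ENNReal.rpow_le_rpow (h2 W) (by norm_num)) _
  refine (lintegral_mono h3).trans ?_
  rw [lintegral_const_mul' _ _ (ENNReal.rpow_ne_top_of_nonneg (by norm_num) hTt)]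
  refine mul_le_mul_right ?_ _
  refine (bav_int hE).trans_le ?_
  exact mul_le_mul_right h1 _

/-! ### assembly -/

theorem real_tail {c Q M0 R E D : ℝ} (hc : 0 ≤ c) (hQ : 0 ≤ Q) (hR : 1 ≤ R) (hE : 0 ≤ E)
    (hnd : E ≤ R ^ M0 * D) {N : ℕ} (hN : M0 ≤ N) :
    Q * (((1 + R ^ 2 / 4) ^ N)⁻¹ * (Real.sqrt (c * E) * (c * E))) * R ≤
      Q * 4 ^ N * (Real.sqrt c * c) * (R * E * Real.sqrt D) := by
  have hR0 : 0 < R := one_pos.trans_le hR
  have h1 : Real.sqrt E ≤ R ^ (M0 / 2) * Real.sqrt D := by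
    rw [← Real.sqrt_sq (by positivity : 0 ≤ R ^ (M0 / 2)), ← Real.sqrt_mul (by positivity)]
    refine Real.sqrt_le_sqrt ?_
    rw [← Real.rpow_natCast, ← Real.rpow_mul hR0.le]
    refine hnd.trans_eq ?_
    congr 2
    push_cast
    ring
  have h2 : R ^ (M0 / 2) ≤ (R ^ 2) ^ N := by
    rw [← pow_mul, ← Real.rpow_natCast]
    refine Real.rpow_le_rpow_of_exponent_le hR ?_
    push_cast
    have : (0:ℝ) ≤ N := Nat.cast_nonneg N
    linarith
  have h3 : ((1 + R ^ 2 / 4) ^ N)⁻¹ * R ^ (M0 / 2) ≤ 4 ^ N := by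
    rw [inv_mul_le_iff₀ (by positivity)]
    refine h2.trans ?_
    rw [← mul_pow]
    exact pow_le_pow_left₀ (by positivity) (by nlinarith) N
  rw [Real.sqrt_mul hc]
  calc Q * (((1 + R ^ 2 / 4) ^ N)⁻¹ * (Real.sqrt c * Real.sqrt E * (c * E))) * R
      ≤ Q * (((1 + R ^ 2 / 4) ^ N)⁻¹ * (Real.sqrt c * (R ^ (M0 / 2) * Real.sqrt D) * (c * E))) * R := by
        gcongr
    _ = Q * (((1 + R ^ 2 / 4) ^ N)⁻¹ * R ^ (M0 / 2)) * (Real.sqrt c * c) * (R * E * Real.sqrt D) := by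
        ring
    _ ≤ _ := by gcongr

/-- **A5**. -/
theorem a5 (M q : ℝ) : A5 M q := by
  intro a b M0 ha hb hb2
  set N : ℕ := ⌈|M0|⌉₊ with hNdef
  have hN : M0 ≤ N := (le_abs_self M0).trans (Nat.le_ceil _)
  have hL : 1 ≤ a * (b + 1) := by nlinarith
  obtain ⟨C1, hC1, h1⟩ := cube_pt (4 + N) (by omega) hL
  obtain ⟨C2, hC2, h2⟩ := near_NP
  set c : ℝ := ((caps 1).card : ℝ) with hc
  have hc0 : 0 ≤ c := Nat.cast_nonneg _
  set Q : ℝ := C1 * c4.toReal * vb.toReal with hQ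
  have hQ0 : 0 ≤ Q := by positivity
  refine ⟨1, max (C1 * c4.toReal * C2) (Q * 4 ^ N * (Real.sqrt c * c)), le_rfl, by positivity, ?_⟩
  intro C0 σ g R D hst
  have hgd : Gdc g := st_gdc ha hb hst
  have hg : Integrable g := hgd.int
  have hR0 : 0 < R := one_pos.trans_le hst.R1
  have hE0 : 0 ≤ Enc g := integral_nonneg fun ζ => by positivity
  have hsup : ∀ ζ, g ζ ≠ 0 → ‖ζ‖ ≤ a * (b + 1) := fun ζ hζ => st_norm ha hb hst hζ
  have hslp : ∀ ζ, g ζ ≠ 0 → ‖slp ζ‖ ≤ 2 := fun ζ hζ => (hst.supp ζ hζ).2.2.1.trans hb2.le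
  set H : E3 × ℝ → ℝ≥0∞ := fun p =>
    ∫⁻ W, ww (4 + N) (p.1 - W) * EE g (W, p.2) ^ (3 / 2 : ℝ) with hH
  have hHm : Measurable H := by
    refine Measurable.lintegral_prod_right' (f := fun p : (E3 × ℝ) × E3 =>
      ww (4 + N) (p.1.1 - p.2) * EE g (p.2, p.1.2) ^ (3 / 2 : ℝ)) ?_
    exact ((ww_meas _).comp (by fun_prop)).mul (((EE_meas hg).comp (by fun_prop)).pow_const _)
  have step1 : ∫⁻ p in cylc (R / 2), ‖extc g p.1 p.2‖ₑ ^ 3 ≤
      ENNReal.ofReal C1 * ∫⁻ p in cylc (R / 2), H p := by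
    rw [← lintegral_const_mul' _ _ ENNReal.ofReal_ne_top]
    exact lintegral_mono fun p => h1 g hg hsup hslp p.1 p.2
  set cN : ℝ≥0∞ := ENNReal.ofReal (((1 + R ^ 2 / 4) ^ N)⁻¹) with hcN
  set T : ℝ≥0∞ := ((caps 1).card : ℝ≥0∞) * ENNReal.ofReal (Enc g) with hT
  set X : ℝ≥0∞ := T ^ (1 / 2 : ℝ) * (vb * T) with hX
  have step2 : ∫⁻ p in cylc (R / 2), H p ≤
      c4 * (∫⁻ p in cylc R, EE g p ^ (3 / 2 : ℝ)) + c4 * (cN * X) * ENNReal.ofReal R := by
    have hF : Measurable fun p : E3 × ℝ => EE g p ^ (3 / 2 : ℝ) := (EE_meas hg).pow_const _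
    have e1 : ∫⁻ p in cylc (R / 2), H p =
        ∫⁻ s in Set.Icc (-(R / 2)) (R / 2), ∫⁻ Y in Metric.closedBall (0:E3) (R / 2), H (Y, s) := by
      rw [cylc_eq, Measure.volume_eq_prod, ← Measure.prod_restrict, lintegral_prod_symm _
        hHm.aemeasurable]
    have e2 : ∫⁻ p in cylc R, EE g p ^ (3 / 2 : ℝ) =
        ∫⁻ s in Set.Icc (-R) R, ∫⁻ Y in Metric.closedBall (0:E3) R, EE g (Y, s) ^ (3 / 2 : ℝ) := by
      rw [cylc_eq, Measure.volume_eq_prod, ← Measure.prod_restrict, lintegral_prod_symm _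
        hF.aemeasurable]
    rw [e1]
    calc ∫⁻ s in Set.Icc (-(R / 2)) (R / 2), ∫⁻ Y in Metric.closedBall (0:E3) (R / 2), H (Y, s)
        ≤ ∫⁻ s in Set.Icc (-(R / 2)) (R / 2),
            (c4 * (∫⁻ Y in Metric.closedBall (0:E3) R, EE g (Y, s) ^ (3 / 2 : ℝ)) +
              c4 * (cN * X)) := by
          refine lintegral_mono fun s => ?_
          have hFs : Measurable fun Y : E3 => EE g (Y, s) ^ (3 / 2 : ℝ) := hF.comp (by fun_prop)
          refine (near_far N hR0.le hFs).trans ?_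
          gcongr
          exact EE_total hgd s
      _ = (∫⁻ s in Set.Icc (-(R / 2)) (R / 2),
            c4 * (∫⁻ Y in Metric.closedBall (0:E3) R, EE g (Y, s) ^ (3 / 2 : ℝ))) +
              c4 * (cN * X) * ENNReal.ofReal R := by
          rw [lintegral_add_right _ measurable_const, setLIntegral_const, Real.volume_Icc]
          congr 3
          ring
      _ ≤ _ := by
          gcongr
          rw [lintegral_const_mul' _ _ c4_ne, e2]
          refine mul_le_mul_right (lintegral_mono_set ?_) _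
          exact Set.Icc_subset_Icc (by linarith) (by linarith)
  refine step1.trans ((mul_le_mul_right step2 _).trans ?_)
  rw [mul_add]
  refine add_le_add ?_ ?_
  · calc ENNReal.ofReal C1 * (c4 * ∫⁻ p in cylc R, EE g p ^ (3 / 2 : ℝ))
        ≤ ENNReal.ofReal C1 * (c4 * (ENNReal.ofReal C2 * NP 1 1 g R)) := by
          gcongr
          exact h2 g hg R
      _ = ENNReal.ofReal (C1 * c4.toReal * C2) * NP 1 1 g R := by
          rw [ENNReal.ofReal_mul (by positivity), ENNReal.ofReal_mul hC1,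
            ENNReal.ofReal_toReal c4_ne]
          ring
      _ ≤ _ := by
          gcongr
          exact le_max_left _ _
  · have hTr : T = ENNReal.ofReal (c * Enc g) := by
      rw [hT, ENNReal.ofReal_mul hc0, hc, ENNReal.ofReal_natCast]
    have hXr : X = ENNReal.ofReal (vb.toReal * (Real.sqrt (c * Enc g) * (c * Enc g))) := by
      rw [hX, hTr, ENNReal.ofReal_rpow_of_nonneg (by positivity) (by norm_num), ← Real.sqrt_eq_rpow,
        ENNReal.ofReal_mul ENNReal.toReal_nonneg, ENNReal.ofReal_toReal vb_ne_top,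
        ENNReal.ofReal_mul (Real.sqrt_nonneg _)]
      ring
    calc ENNReal.ofReal C1 * (c4 * (cN * X) * ENNReal.ofReal R)
        = ENNReal.ofReal (Q * (((1 + R ^ 2 / 4) ^ N)⁻¹ *
            (Real.sqrt (c * Enc g) * (c * Enc g))) * R) := by
          rw [hXr, hcN, hQ]
          conv_lhs => rw [← ENNReal.ofReal_toReal c4_ne]
          rw [← ENNReal.ofReal_mul (by positivity), ← ENNReal.ofReal_mul (by positivity),
            ← ENNReal.ofReal_mul (by positivity), ← ENNReal.ofReal_mul (by positivity)]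
          congr 1
          ring
      _ ≤ ENNReal.ofReal (Q * 4 ^ N * (Real.sqrt c * c) * (R * Enc g * Real.sqrt D)) :=
          ENNReal.ofReal_le_ofReal (real_tail hc0 hQ0 hst.R1 hE0 hst.nd hN)
      _ ≤ _ := by
          refine ENNReal.ofReal_le_ofReal ?_
          unfold SS
          refine mul_le_mul_of_nonneg_right (le_max_right _ _) ?_
          have := hst.R1
          positivity

end Crest.Agent.R116.A5c192
end

-- ▼ part R116/Sli4_850

/-!
# R116 (S0155), wave side, leaf SLI (helper850), part 4: the plate functional of a finite sum, and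
the leaf `SLI M q 3`.
-/

set_option autoImplicit false

open MeasureTheory FourierTransform
open scoped ContDiff ENNReal

namespace Crest.Agent.R116.Sl850

open Crest.Agent.R138.Defs (E2 ee)
open Crest.Agent.R138.Wpk685 (th win fat cen caps cap norm_ee)
open Crest.Agent.R116.CDef480 (lat slp hc extc capc umc enc Enc trc nrm Slc cylc)
open Crest.Agent.R116.LZg725 (Cf)
open Crest.Agent.R116.WC188

/-! ### translations and packets of sums -/

theorem trc_int (z : E3 × ℝ) {g : E3 → ℂ} (hg : Integrable g) : Integrable (trc z g) := by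
  unfold trc
  refine hg.mul_bdd (c := 1) ?_ (Filter.Eventually.of_forall fun _ => (norm_ee _).le)
  have h1 := Crest.Agent.R116.CDef480.measurable_hc
  exact (Crest.Agent.R116.CDef480.continuous_ee'.measurable.comp
    (by fun_prop : Measurable fun ζ : E3 => inner ℝ z.1 ζ + z.2 * hc ζ)).aestronglyMeasurable

theorem trc_sum {ι : Type*} (I : Finset ι) (z : E3 × ℝ) (G : ι → E3 → ℂ) :
    trc z (fun ζ => ∑ l ∈ I, G l ζ) = fun ζ => ∑ l ∈ I, trc z (G l) ζ := by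
  ext ζ
  unfold trc
  rw [Finset.sum_mul]

theorem umc_cont (ρ : ℝ) {g : E3 → ℂ} (hg : Integrable g) (m : ℤ × ℤ) :
    Continuous (umc ρ g m) := by
  have hc : Continuous fun X : E3 => ex (fun _ => 0) (fun ζ => capc ρ m ζ * g ζ) X 0 :=
    ex_cont_comp measurable_const (capc_mul_int ρ m hg) continuous_id continuous_const
  simp only [ex_zero] at hc
  exact hc

theorem umc_sum {ι : Type*} (I : Finset ι) (ρ : ℝ) {G : ι → E3 → ℂ}
    (hG : ∀ l ∈ I, Integrable (G l)) (m : ℤ × ℤ) (Y : E3) :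
    umc ρ (fun ζ => ∑ l ∈ I, G l ζ) m Y = ∑ l ∈ I, umc ρ (G l) m Y := by
  have e1 : ∀ f : E3 → ℂ, umc ρ f m Y = ex (fun _ => 0) (fun ζ => capc ρ m ζ * f ζ) Y 0 :=
    fun f => (ex_zero _ _).symm
  simp only [e1]
  unfold ex
  rw [← integral_finsetSum]
  · congr 1
    ext ζ
    beta_reduce
    rw [Finset.mul_sum, Finset.sum_mul]
  · intro l hl
    refine (capc_mul_int ρ m (hG l hl)).mul_bdd (c := 1) ?_
      (Filter.Eventually.of_forall fun _ => (norm_ee _).le)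
    exact (Crest.Agent.R116.CDef480.continuous_ee'.measurable.comp
      (by fun_prop : Measurable fun ζ : E3 => inner ℝ Y ζ + 0 * (0 : ℝ))).aestronglyMeasurable

/-! ### measurability of the plate averages -/

theorem continuous_lat : Continuous lat := Crest.Agent.R116.CDef480.latL.continuous

theorem continuous_nrm (C : E2) : Continuous fun p : E3 × ℝ => nrm C p.1 p.2 := by
  unfold nrm
  have := continuous_lat
  fun_prop

theorem meas_plt (w t : ℝ) (C : E2) :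
    MeasurableSet {q : (E3 × ℝ) × E3 | q.2 ∈ plt w t C q.1.1 q.1.2} := by
  have h1 := continuous_lat
  have h2 : Continuous fun q : (E3 × ℝ) × E3 => nrm C q.2 0 :=
    (continuous_nrm C).comp (by fun_prop : Continuous fun q : (E3 × ℝ) × E3 => ((q.2, 0) : E3 × ℝ))
  have h3 : Continuous fun q : (E3 × ℝ) × E3 => nrm C q.1.1 q.1.2 :=
    (continuous_nrm C).comp continuous_fst
  unfold plt
  refine MeasurableSet.inter ?_ ?_
  · exact measurableSet_le (f := fun q : (E3 × ℝ) × E3 => ‖lat q.2 - (lat q.1.1 + q.1.2 • C)‖)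
      (by fun_prop) measurable_const
  · exact measurableSet_le (f := fun q : (E3 × ℝ) × E3 => |nrm C q.2 0 - nrm C q.1.1 q.1.2|)
      (h2.sub h3).abs.measurable measurable_const

theorem meas_apl (r : ℝ) {g : E3 → ℂ} (hg : Integrable g) : Measurable (apl r g) := by
  unfold apl
  refine Measurable.const_mul ?_ _
  refine Finset.measurable_sum _ fun m _ => ?_
  have hm : MeasurableSet {q : (E3 × ℝ) × E3 |
      q.2 ∈ plt (r ^ (1/2 : ℝ)) 1 (cen (r ^ (-(1/2) : ℝ)) m) q.1.1 q.1.2} := meas_plt _ _ _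
  have h5 : ∀ p : E3 × ℝ, ∫⁻ Y in plt (r ^ (1/2 : ℝ)) 1 (cen (r ^ (-(1/2) : ℝ)) m) p.1 p.2,
      ‖umc (r ^ (-(1/2) : ℝ)) g m Y‖ₑ ^ 2 = ∫⁻ Y, {q : (E3 × ℝ) × E3 |
      q.2 ∈ plt (r ^ (1/2 : ℝ)) 1 (cen (r ^ (-(1/2) : ℝ)) m) q.1.1 q.1.2}.indicator
        (fun q => ‖umc (r ^ (-(1/2) : ℝ)) g m q.2‖ₑ ^ 2) (p, Y) := by
    intro p
    have hp : MeasurableSet (plt (r ^ (1/2 : ℝ)) 1 (cen (r ^ (-(1/2) : ℝ)) m) p.1 p.2) :=
      measurable_prodMk_left hm
    rw [← lintegral_indicator hp]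
    rfl
  simp_rw [h5]
  refine Measurable.lintegral_prod_right' ?_
  refine Measurable.indicator ?_ hm
  exact ((umc_cont _ hg m).measurable.comp measurable_snd).enorm.pow_const _

/-! ### the plate functional of a finite sum -/

theorem sq_sum_le {ι : Type*} (I : Finset ι) (a : ι → ℂ) :
    ‖∑ l ∈ I, a l‖ₑ ^ 2 ≤ (I.card : ℝ≥0∞) * ∑ l ∈ I, ‖a l‖ₑ ^ 2 := by
  have h1 := ENNReal.rpow_sum_le_const_mul_sum_rpow I (fun l => ‖a l‖ₑ) (p := 2) (by norm_num)
  have e : (2:ℝ) - 1 = 1 := by norm_num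
  rw [e, ENNReal.rpow_one] at h1
  simp only [ENNReal.rpow_two] at h1
  refine le_trans ?_ h1
  gcongr
  exact enorm_sum_le _ _

theorem apl_sum {ι : Type*} (I : Finset ι) (r : ℝ) {G : ι → E3 → ℂ}
    (hG : ∀ l ∈ I, Integrable (G l)) (p : E3 × ℝ) :
    apl r (fun ζ => ∑ l ∈ I, G l ζ) p ≤ (I.card : ℝ≥0∞) * ∑ l ∈ I, apl r (G l) p := by
  unfold apl
  have h1 : ∀ m, ∫⁻ Y in plt (r ^ (1/2 : ℝ)) 1 (cen (r ^ (-(1/2) : ℝ)) m) p.1 p.2,
      ‖umc (r ^ (-(1/2) : ℝ)) (fun ζ => ∑ l ∈ I, G l ζ) m Y‖ₑ ^ 2 ≤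
      (I.card : ℝ≥0∞) * ∑ l ∈ I, ∫⁻ Y in plt (r ^ (1/2 : ℝ)) 1 (cen (r ^ (-(1/2) : ℝ)) m) p.1 p.2,
        ‖umc (r ^ (-(1/2) : ℝ)) (G l) m Y‖ₑ ^ 2 := by
    intro m
    rw [← lintegral_finsetSum' _ fun l hl =>
      ((umc_cont _ (hG l hl) m).measurable.enorm.pow_const 2).aemeasurable,
      ← lintegral_const_mul' _ _ (ENNReal.natCast_ne_top _)]
    refine lintegral_mono fun Y => ?_
    rw [umc_sum I _ hG m Y]
    exact sq_sum_le I _
  calc ENNReal.ofReal r⁻¹ * ∑ m ∈ caps (r ^ (-(1/2) : ℝ)),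
        ∫⁻ Y in plt (r ^ (1/2 : ℝ)) 1 (cen (r ^ (-(1/2) : ℝ)) m) p.1 p.2,
          ‖umc (r ^ (-(1/2) : ℝ)) (fun ζ => ∑ l ∈ I, G l ζ) m Y‖ₑ ^ 2
      ≤ ENNReal.ofReal r⁻¹ * ∑ m ∈ caps (r ^ (-(1/2) : ℝ)), (I.card : ℝ≥0∞) * ∑ l ∈ I,
        ∫⁻ Y in plt (r ^ (1/2 : ℝ)) 1 (cen (r ^ (-(1/2) : ℝ)) m) p.1 p.2,
          ‖umc (r ^ (-(1/2) : ℝ)) (G l) m Y‖ₑ ^ 2 := by
        gcongr with m
        exact h1 m
    _ = _ := by
        rw [← Finset.mul_sum, Finset.sum_comm, mul_left_comm]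
        congr 1
        rw [Finset.mul_sum]

theorem NP_sum {ι : Type*} (I : Finset ι) (A r : ℝ) {G : ι → E3 → ℂ}
    (hG : ∀ l ∈ I, Integrable (G l)) (R : ℝ) :
    NP A r (fun ζ => ∑ l ∈ I, G l ζ) R ≤ (I.card : ℝ≥0∞) ^ 2 * ∑ l ∈ I, NP A r (G l) R := by
  unfold NP
  refine iSup_le fun Z => iSup_le fun hZ => ?_
  have h1 : ∀ z p, apl r (trc z (fun ζ => ∑ l ∈ I, G l ζ)) p ^ (3 / 2 : ℝ) ≤
      (I.card : ℝ≥0∞) ^ 2 * ∑ l ∈ I, apl r (trc z (G l)) p ^ (3 / 2 : ℝ) := by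
    intro z p
    rw [trc_sum]
    have h2 := apl_sum I r (G := fun l => trc z (G l)) (fun l hl => trc_int z (hG l hl)) p
    have h3 := ENNReal.rpow_sum_le_const_mul_sum_rpow I (fun l => apl r (trc z (G l)) p)
      (p := (3 / 2 : ℝ)) (by norm_num)
    calc apl r (fun ζ => ∑ l ∈ I, trc z (G l) ζ) p ^ (3 / 2 : ℝ)
        ≤ ((I.card : ℝ≥0∞) * ∑ l ∈ I, apl r (trc z (G l)) p) ^ (3 / 2 : ℝ) := by gcongr
      _ = (I.card : ℝ≥0∞) ^ (3 / 2 : ℝ) * (∑ l ∈ I, apl r (trc z (G l)) p) ^ (3 / 2 : ℝ) :=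
          ENNReal.mul_rpow_of_nonneg _ _ (by norm_num)
      _ ≤ (I.card : ℝ≥0∞) ^ (3 / 2 : ℝ) * ((I.card : ℝ≥0∞) ^ ((3 / 2 : ℝ) - 1) *
          ∑ l ∈ I, apl r (trc z (G l)) p ^ (3 / 2 : ℝ)) := by gcongr
      _ = _ := by
          rw [← mul_assoc, ← ENNReal.rpow_add_of_nonneg _ _ (by norm_num) (by norm_num)]
          norm_num
  calc ∑ z ∈ Z, ∫⁻ p in cylc (A * r), apl r (trc z (fun ζ => ∑ l ∈ I, G l ζ)) p ^ (3 / 2 : ℝ)
      ≤ ∑ z ∈ Z, ∫⁻ p in cylc (A * r), (I.card : ℝ≥0∞) ^ 2 *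
          ∑ l ∈ I, apl r (trc z (G l)) p ^ (3 / 2 : ℝ) := by
        gcongr with z
        exact h1 _ _
    _ = ∑ z ∈ Z, (I.card : ℝ≥0∞) ^ 2 *
          ∑ l ∈ I, ∫⁻ p in cylc (A * r), apl r (trc z (G l)) p ^ (3 / 2 : ℝ) := by
        refine Finset.sum_congr rfl fun z _ => ?_
        rw [lintegral_const_mul' _ _ (by finiteness), lintegral_finsetSum' _ fun l hl =>
          ((meas_apl r (trc_int z (hG l hl))).pow_const _).aemeasurable]
    _ = (I.card : ℝ≥0∞) ^ 2 *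
          ∑ l ∈ I, ∑ z ∈ Z, ∫⁻ p in cylc (A * r), apl r (trc z (G l)) p ^ (3 / 2 : ℝ) := by
        rw [← Finset.mul_sum, Finset.sum_comm]
    _ ≤ _ := by
        gcongr with l
        exact le_iSup₂ (f := fun (Z : Finset (E3 × ℝ)) (_ : Net r R Z) =>
          ∑ z ∈ Z, ∫⁻ p in cylc (A * r), apl r (trc z (G l)) p ^ (3 / 2 : ℝ)) Z hZ

/-! ### the slices -/

/-- the complex window. -/
noncomputable def thc (x : ℝ) : ℂ := (th x : ℂ)

theorem thc_contDiff : ContDiff ℝ ∞ thc :=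
  Complex.ofRealCLM.contDiff.comp Crest.Agent.R138.Wpk685.th_contDiff

theorem thc_compact : HasCompactSupport thc := by
  refine HasCompactSupport.of_support_subset_isCompact (isCompact_Icc (a := (-1:ℝ)) (b := 1)) ?_
  intro x hx
  by_contra h
  apply hx
  unfold thc
  rw [Crest.Agent.R138.Wpk685.th_zero, Complex.ofReal_zero]
  rw [Set.mem_Icc, not_and_or, not_le, not_le] at h
  rcases h with h | h
  · rw [abs_of_nonpos (by linarith)]; linarith
  · rw [abs_of_nonneg (by linarith)]; linarith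

theorem norm_thc_le (x : ℝ) : ‖thc x‖ ≤ 1 := by
  unfold thc
  rw [Complex.norm_real, Real.norm_eq_abs, abs_of_nonneg (Crest.Agent.R138.Wpk685.th_nonneg _)]
  exact Crest.Agent.R138.Wpk685.th_le_one _

theorem thc_ne {x : ℝ} (h : thc x ≠ 0) : |x| < 1 := by
  by_contra h1
  apply h
  unfold thc
  rw [Crest.Agent.R138.Wpk685.th_zero (not_lt.1 h1), Complex.ofReal_zero]

theorem slices_sum {κ a : ℝ} (hκ : 0 < κ) {g : E3 → ℂ}
    (hg : ∀ ζ, g ζ ≠ 0 → |ζ 2| ≤ a) {N : ℤ} (hN : a / κ ≤ N) :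
    (fun ζ => ∑ l ∈ Finset.Icc (-N) N, mul2 thc κ l g ζ) = g := by
  ext ζ
  by_cases h0 : g ζ = 0
  · unfold mul2
    simp [h0]
  have h1 : |ζ 2 / κ| ≤ N := by
    rw [abs_div, abs_of_pos hκ]
    refine le_trans ?_ hN
    gcongr
    exact hg ζ h0
  have h2 := Crest.Agent.R138.Wpk685.th_sum h1
  unfold mul2 thc
  rw [← Finset.sum_mul, ← Complex.ofReal_sum, h2, Complex.ofReal_one, one_mul]

theorem norm_mul2_le (κ l : ℝ) (g : E3 → ℂ) (ζ : E3) : ‖mul2 thc κ l g ζ‖ ≤ ‖g ζ‖ := by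
  unfold mul2
  rw [norm_mul]
  exact mul_le_of_le_one_left (norm_nonneg _) (norm_thc_le _)

theorem meas_mul2 {g : E3 → ℂ} (hg : Measurable g) (κ l : ℝ) : Measurable (mul2 thc κ l g) := by
  unfold mul2
  have h1 := thc_contDiff.continuous.measurable
  have h2 := Crest.Agent.R116.CDef480.measurable_coord 2
  exact (h1.comp (by fun_prop)).mul hg

/-- a state has integrable, square integrable data. -/
theorem St_bound {M κ q a b M0 σ R D : ℝ} {C0 : E2} {g : E3 → ℂ} (ha : 1 ≤ a) (hb : 0 < b)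
    (h : St M κ q a b M0 C0 σ g R D) : ∀ ζ, g ζ ≠ 0 → ‖ζ‖ ≤ a * (b + 1) := by
  intro ζ hζ
  obtain ⟨h1, h2, h3, _⟩ := h.supp ζ hζ
  have h0 : 0 < ζ 2 := lt_of_lt_of_le (by positivity) h1
  have h4 : lat ζ = ζ 2 • slp ζ := Crest.Agent.R116.CDef480.lat_slp h0.ne'
  have h5 : ‖lat ζ‖ ≤ a * b := by
    rw [h4, norm_smul, Real.norm_of_nonneg h0.le]
    gcongr
  have h6 := Crest.Agent.R116.CDef480.normsq3 ζ
  have h7 : ‖ζ‖ ^ 2 ≤ (a * (b + 1)) ^ 2 := by
    rw [h6]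
    have h8 : ‖lat ζ‖ ^ 2 ≤ (a * b) ^ 2 := by gcongr
    have h9 : ζ 2 ^ 2 ≤ a ^ 2 := by gcongr
    have h10 : 0 ≤ 2 * (a * b) * a := by positivity
    nlinarith
  exact (abs_le_of_sq_le_sq' h7 (by positivity)).2

theorem St_int {M κ q a b M0 σ R D : ℝ} {C0 : E2} {g : E3 → ℂ} (ha : 1 ≤ a) (hb : 0 < b)
    (h : St M κ q a b M0 C0 σ g R D) : Integrable g := by
  obtain ⟨L, hL⟩ := h.bdd
  exact int_of_bdd h.meas hL (St_bound ha hb h)

theorem St_int_sq {M κ q a b M0 σ R D : ℝ} {C0 : E2} {g : E3 → ℂ} (ha : 1 ≤ a) (hb : 0 < b)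
    (h : St M κ q a b M0 C0 σ g R D) : Integrable fun ζ => ‖g ζ‖ ^ 2 := by
  obtain ⟨L, hL⟩ := h.bdd
  have h1 := (St_int ha hb h).norm.mul_bdd (c := L) (f := fun ζ => ‖g ζ‖)
    h.meas.norm.aestronglyMeasurable (Filter.Eventually.of_forall fun ζ => by
      rw [norm_norm]; exact hL ζ)
  refine h1.congr (Filter.Eventually.of_forall fun ζ => ?_)
  simp only []
  ring

/-- the slices of a state are sliced states. -/
theorem slice_St : ∃ C : ℝ, 1 ≤ C ∧ ∀ (M q a b M0 σ R D κ : ℝ) (C0 : E2) (g : E3 → ℂ), 1 ≤ M →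
    1 ≤ a → 0 < b → 0 < κ → κ ≤ 1 → St M 1 q a b M0 C0 σ g R D → ∀ l : ℝ,
      Ss M κ q a b (M0 + 1) (κ * l) C0 σ (mul2 thc κ l g) R (C * D) := by
  obtain ⟨C, hC, H⟩ := slice_box thc_compact thc_contDiff
  refine ⟨C, hC, fun M q a b M0 σ R D κ C0 g hM ha hb hκ hκ1 h l => ?_⟩
  obtain ⟨L, hL⟩ := h.bdd
  have hne : ∀ ζ, mul2 thc κ l g ζ ≠ 0 → g ζ ≠ 0 := fun ζ h1 h2 => h1 (by unfold mul2; simp [h2])
  refine ⟨⟨meas_mul2 h.meas κ l, ⟨L, fun ζ => (norm_mul2_le κ l g ζ).trans (hL ζ)⟩,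
    fun ζ hζ => h.supp ζ (hne ζ hζ), h.R1, mul_nonneg (by linarith) h.D0,
    H M q R D κ l hM h.R1 h.D0 hκ hκ1 g (St_int ha hb h) h.box, ?_⟩, ?_⟩
  · have h1 : Enc (mul2 thc κ l g) ≤ Enc g := by
      unfold Enc
      refine integral_mono_of_nonneg (Filter.Eventually.of_forall fun ζ => by positivity)
        (St_int_sq ha hb h) (Filter.Eventually.of_forall fun ζ => ?_)
      exact pow_le_pow_left₀ (norm_nonneg _) (norm_mul2_le κ l g ζ) 2
    have hR1 := h.R1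
    have h2 : R ^ M0 ≤ R ^ (M0 + 1) := Real.rpow_le_rpow_of_exponent_le h.R1 (by linarith)
    have h3 : D ≤ C * D := le_mul_of_one_le_left h.D0 hC
    calc Enc (mul2 thc κ l g) ≤ R ^ M0 * D := h1.trans h.nd
      _ ≤ R ^ (M0 + 1) * (C * D) := by
        have := h.D0
        gcongr
  · intro ζ hζ
    have h1 : thc (ζ 2 / κ - l) ≠ 0 := fun h1 => hζ (by unfold mul2; simp [h1])
    have h2 := (thc_ne h1).le
    have e : ζ 2 - κ * l = κ * (ζ 2 / κ - l) := by field_simp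
    rw [e, abs_mul, abs_of_pos hκ]
    exact mul_le_of_le_one_right hκ.le h2

/-- **the leaf SLI**, price exponent `3`. -/
theorem sli {M : ℝ} (hM : 1 ≤ M) (q : ℝ) : SLI M q 3 := by
  obtain ⟨C1, hC1, H1⟩ := slice_St
  intro a b A M0 ha hb hb2 hA
  have hsq : 1 ≤ Real.sqrt C1 := by rw [Real.one_le_sqrt]; exact hC1
  refine ⟨125 * a ^ 3 * Real.sqrt C1, ?_, ?_⟩
  · have : 1 ≤ a ^ 3 := one_le_pow₀ ha
    nlinarith
  intro C0 σ g R D hst r κ hr hrR hκ hκa _ Q hQ H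
  have hκ1 : κ ≤ 1 / 8 := by nlinarith
  set N : ℤ := ⌈a / κ⌉ with hN
  have hN1 : a / κ ≤ N := Int.le_ceil _
  have hN2 : (N : ℝ) < a / κ + 1 := Int.ceil_lt_add_one _
  clear_value N
  have hak : 1 ≤ a / κ := by rw [le_div_iff₀ hκ]; linarith
  have hN0 : (0 : ℤ) ≤ N := by
    have : (0 : ℝ) ≤ N := by linarith
    exact_mod_cast this
  set I := Finset.Icc (-N) N with hI
  have hcard : (I.card : ℝ) = 2 * N + 1 := by
    have h : ((I.card : ℕ) : ℤ) = 2 * N + 1 := by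
      rw [hI, Int.card_Icc, Int.toNat_of_nonneg (by omega)]; ring
    calc ((I.card : ℕ) : ℝ) = (((I.card : ℕ) : ℤ) : ℝ) := (Int.cast_natCast _).symm
      _ = ((2 * N + 1 : ℤ) : ℝ) := by rw [h]
      _ = 2 * N + 1 := by push_cast; ring
  have hcard2 : (I.card : ℝ) ≤ 5 * a * κ⁻¹ := by
    rw [hcard, mul_assoc, ← div_eq_mul_inv]
    linarith
  have hg : (fun ζ => ∑ l ∈ I, mul2 thc κ (l : ℝ) g ζ) = g := by
    refine slices_sum hκ (a := a) (fun ζ hζ => ?_) hN1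
    obtain ⟨h1, h2, _⟩ := hst.supp ζ hζ
    rw [abs_of_pos (lt_of_lt_of_le (by positivity) h1)]
    exact h2
  have hs := fun l : ℝ => H1 M q a b M0 σ R D κ C0 g hM ha hb hκ (by linarith) hst l
  have hSS : 0 ≤ SS g R D := by
    unfold SS Enc
    have := hst.R1
    have : 0 ≤ ∫ ζ, ‖g ζ‖ ^ 2 := integral_nonneg fun _ => by positivity
    positivity
  have h2 : ∀ l : ℝ, NP A r (mul2 thc κ l g) R ≤ ENNReal.ofReal (Q * (Real.sqrt C1 * SS g R D)) := by
    intro l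
    refine (H (κ * l) _ _ (hs l)).trans (ENNReal.ofReal_le_ofReal ?_)
    gcongr
    unfold SS
    rw [Real.sqrt_mul (by linarith)]
    have h1 : Enc (mul2 thc κ l g) ≤ Enc g := by
      unfold Enc
      refine integral_mono_of_nonneg (Filter.Eventually.of_forall fun ζ => by positivity)
        (St_int_sq ha hb hst) (Filter.Eventually.of_forall fun ζ => ?_)
      exact pow_le_pow_left₀ (norm_nonneg _) (norm_mul2_le κ l g ζ) 2
    have hR1 := hst.R1
    calc R * Enc (mul2 thc κ l g) * (Real.sqrt C1 * Real.sqrt D)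
        ≤ R * Enc g * (Real.sqrt C1 * Real.sqrt D) := by gcongr
      _ = _ := by ring
  have h3 := NP_sum I A r (G := fun l : ℤ => mul2 thc κ (l : ℝ) g)
    (fun l _ => St_int ha hb (hs l).toSt) R
  rw [hg] at h3
  refine h3.trans ?_
  calc (I.card : ℝ≥0∞) ^ 2 * ∑ l ∈ I, NP A r (mul2 thc κ (l : ℝ) g) R
      ≤ (I.card : ℝ≥0∞) ^ 2 * ∑ _l ∈ I, ENNReal.ofReal (Q * (Real.sqrt C1 * SS g R D)) := by
        gcongr with l
        exact h2 l
    _ = ENNReal.ofReal ((I.card : ℝ) ^ 3 * (Q * (Real.sqrt C1 * SS g R D))) := by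
        rw [Finset.sum_const, nsmul_eq_mul, ENNReal.ofReal_mul (p := (I.card : ℝ) ^ 3) (by positivity),
          ENNReal.ofReal_pow (by positivity), ENNReal.ofReal_natCast]
        ring
    _ ≤ _ := by
        refine ENNReal.ofReal_le_ofReal ?_
        have e1 : κ ^ (-(3:ℝ)) = (κ⁻¹) ^ 3 := by
          rw [Real.rpow_neg hκ.le, inv_pow]
          norm_cast
        rw [e1]
        calc (I.card : ℝ) ^ 3 * (Q * (Real.sqrt C1 * SS g R D))
            ≤ (5 * a * κ⁻¹) ^ 3 * (Q * (Real.sqrt C1 * SS g R D)) := by gcongr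
          _ = _ := by ring

end Crest.Agent.R116.Sl850
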