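import Mathlib
import Crest.Agent.R116.LZg6_725

-- ▼ part R116/Tc1_334
section

/-!
# R116, TILT for conformal slabs, part 1 (helper334): rays and conformal functions at one time

`CS ι` : rays `i : ι` at one time: lateral position `x i`, velocity `v i` (`= - C`), null position
`y i`; `N i j` = null position of `j` in the null frame of `i`.
`CF S` : a conformal function seen along the rays: value `A i`, derivative `B i`, lateral gradient
`G i` in the frame of the ray, `n = ∂_y φ`, `d` = quadratic coefficient; the three change laws are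
exact.  `CF.gsq` : `‖G‖² - 2 n B - 4 d A` is constant (Klein form).
-/

set_option autoImplicit false
set_option linter.unusedSectionVars false
set_option linter.unusedVariables false

namespace Crest.Agent.R116.Tc334

open Finset

/-- the lateral plane -/
abbrev E2 := EuclideanSpace ℝ (Fin 2)

/-- rays at one time -/
structure CS (ι : Type*) where
  x : ι → E2
  v : ι → E2
  y : ι → ℝ

namespace CS

variable {ι : Type*} (S : CS ι)

/-- null position of the ray `j` in the null frame of the ray `i`. -/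
noncomputable def N (i j : ι) : ℝ := S.y j - S.y i - inner ℝ (S.v i) (S.x j - S.x i)


/-- change of the frame. -/
theorem N_cocycle (i j k : ι) :
    S.N j k = S.N i k - S.N i j - inner ℝ (S.v j - S.v i) (S.x k - S.x j) := by
  unfold N
  rw [inner_sub_left]
  have e : inner ℝ (S.v i) (S.x k - S.x i) = inner ℝ (S.v i) (S.x k - S.x j) +
      inner ℝ (S.v i) (S.x j - S.x i) := by
    rw [← inner_add_right]; congr 1; abel
  rw [e]; ring

/-- the same rays at the time `u` later. -/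
noncomputable def sh (u : ℝ) : CS ι where
  x := fun i => S.x i + u • S.v i
  v := S.v
  y := fun i => S.y i + u * ‖S.v i‖ ^ 2 / 2

theorem sh_N (u : ℝ) (i j : ι) : (S.sh u).N i j = S.N i j + u * ‖S.v j - S.v i‖ ^ 2 / 2 := by
  unfold N sh
  simp only []
  have e : S.x j + u • S.v j - (S.x i + u • S.v i) = (S.x j - S.x i) + u • (S.v j - S.v i) := by
    module
  have e2 : inner ℝ (S.v i) (S.v j - S.v i) = inner ℝ (S.v i) (S.v j) - ‖S.v i‖ ^ 2 := by
    rw [inner_sub_right, real_inner_self_eq_norm_sq]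
  rw [e, inner_add_right, real_inner_smul_right, norm_sub_sq_real, e2,
    real_inner_comm (S.v i) (S.v j)]
  ring

theorem sh_x (u : ℝ) (i j : ι) :
    (S.sh u).x j - (S.sh u).x i = (S.x j - S.x i) + u • (S.v j - S.v i) := by
  unfold sh
  simp only []
  module

end CS

/-- a conformal function along the rays of `S` -/
structure CF {ι : Type*} (S : CS ι) where
  n : ℝ
  d : ℝ
  A : ι → ℝ
  B : ι → ℝ
  G : ι → E2
  hA : ∀ i j, A j = A i + inner ℝ (G i) (S.x j - S.x i) + n * S.N i j + d * ‖S.x j - S.x i‖ ^ 2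
  hB : ∀ i j, B j = B i + inner ℝ (G i) (S.v j - S.v i) + n * ‖S.v j - S.v i‖ ^ 2 / 2 +
    2 * d * inner ℝ (S.x j - S.x i) (S.v j - S.v i) - 2 * d * S.N i j
  hG : ∀ i j, G j = G i + (2 * d) • (S.x j - S.x i) + n • (S.v j - S.v i)

namespace CF

variable {ι : Type*} {S : CS ι}

/-- `p - ε q`. -/
noncomputable def comb (p q : CF S) (ε : ℝ) : CF S where
  n := p.n - ε * q.n
  d := p.d - ε * q.d
  A := fun i => p.A i - ε * q.A i
  B := fun i => p.B i - ε * q.B i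
  G := fun i => p.G i - ε • q.G i
  hA := by
    intro i j
    rw [inner_sub_left, real_inner_smul_left, p.hA i j, q.hA i j]; ring
  hB := by
    intro i j
    rw [inner_sub_left, real_inner_smul_left, p.hB i j, q.hB i j]; ring
  hG := by
    intro i j
    rw [p.hG i j, q.hG i j]; module

/-- the function at the time `u` later. -/
noncomputable def sh (p : CF S) (u : ℝ) : CF (S.sh u) where
  n := p.n - 2 * u * p.d
  d := p.d
  A := fun i => p.A i + u * p.B i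
  B := p.B
  G := p.G
  hA := by
    intro i j
    rw [S.sh_x, S.sh_N, inner_add_right, real_inner_smul_right, norm_add_sq_real,
      real_inner_smul_right, norm_smul, mul_pow, Real.norm_eq_abs, sq_abs, p.hA i j, p.hB i j]
    ring
  hB := by
    intro i j
    have e : (S.sh u).v = S.v := rfl
    rw [S.sh_x, S.sh_N, inner_add_left, real_inner_smul_left, e, real_inner_self_eq_norm_sq,
      p.hB i j]
    ring
  hG := by
    intro i j
    have e : (S.sh u).v = S.v := rfl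
    rw [S.sh_x, e, p.hG i j]
    module

/-- **the Klein form is constant.** -/
theorem gsq (p : CF S) (i j : ι) :
    ‖p.G j‖ ^ 2 - ‖p.G i‖ ^ 2 = 2 * p.n * (p.B j - p.B i) + 4 * p.d * (p.A j - p.A i) := by
  rw [p.hA i j, p.hB i j, p.hG i j, norm_add_sq_real, norm_add_sq_real, norm_smul, norm_smul,
    mul_pow, mul_pow, Real.norm_eq_abs, Real.norm_eq_abs, sq_abs, sq_abs, inner_add_left,
    real_inner_smul_right, real_inner_smul_right, real_inner_smul_left, real_inner_smul_right]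
  ring

/-- bound of the variation of the squared gradient. -/
theorem gsq_le (p : CF S) {g b : ℝ} (hn : |p.n| ≤ g) (hd : |p.d| ≤ g) {i j : ι}
    (hAi : |p.A i| ≤ b) (hBi : |p.B i| ≤ b) (hAj : |p.A j| ≤ b) (hBj : |p.B j| ≤ b) :
    |‖p.G j‖ ^ 2 - ‖p.G i‖ ^ 2| ≤ 12 * g * b := by
  have hg : 0 ≤ g := (abs_nonneg _).trans hn
  have hb : 0 ≤ b := (abs_nonneg _).trans hAi
  rw [p.gsq i j]
  have h1 : |p.B j - p.B i| ≤ 2 * b := (abs_sub _ _).trans (by linarith)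
  have h2 : |p.A j - p.A i| ≤ 2 * b := (abs_sub _ _).trans (by linarith)
  have h3 : |2 * p.n * (p.B j - p.B i)| ≤ 2 * g * (2 * b) := by
    rw [abs_mul, abs_mul, abs_of_pos (by norm_num : (0:ℝ) < 2)]
    exact mul_le_mul (by linarith) h1 (abs_nonneg _) (by positivity)
  have h4 : |4 * p.d * (p.A j - p.A i)| ≤ 4 * g * (2 * b) := by
    rw [abs_mul, abs_mul, abs_of_pos (by norm_num : (0:ℝ) < 4)]
    exact mul_le_mul (by linarith) h2 (abs_nonneg _) (by positivity)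
  refine (abs_add_le _ _).trans ?_
  linarith

/-- variation of the gradient. -/
theorem G_var (p : CF S) {m w : ℝ} (hn : |p.n| ≤ m) (hd : |p.d| ≤ m) {i j : ι}
    (hx : ‖S.x j - S.x i‖ ≤ w) (hv : ‖S.v j - S.v i‖ ≤ w) : ‖p.G j - p.G i‖ ≤ 3 * m * w := by
  have e : p.G j - p.G i = (2 * p.d) • (S.x j - S.x i) + p.n • (S.v j - S.v i) := by
    rw [p.hG i j]; abel
  have hm : 0 ≤ m := (abs_nonneg _).trans hn
  rw [e]
  refine (norm_add_le _ _).trans ?_
  rw [norm_smul, norm_smul, Real.norm_eq_abs, Real.norm_eq_abs, abs_mul,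
    abs_of_pos (by norm_num : (0:ℝ) < 2)]
  have h1 := mul_le_mul (a := 2 * |p.d|) (b := 2 * m) (by linarith) hx (norm_nonneg _) (by positivity)
  have h2 := mul_le_mul hn hv (norm_nonneg _) hm
  linarith

/-- the gradient against the displacement. -/
theorem inner_x (p : CF S) {g b w : ℝ} (hn : |p.n| ≤ g) (hd : |p.d| ≤ g) {i j : ι}
    (hAi : |p.A i| ≤ b) (hAj : |p.A j| ≤ b) (hx : ‖S.x j - S.x i‖ ≤ w) :
    |inner ℝ (p.G i) (S.x j - S.x i)| ≤ 2 * b + g * |S.N i j| + g * w ^ 2 := by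
  have hg : 0 ≤ g := (abs_nonneg _).trans hn
  have hw : 0 ≤ w := (norm_nonneg _).trans hx
  have e : inner ℝ (p.G i) (S.x j - S.x i) =
      (p.A j - p.A i) - p.n * S.N i j - p.d * ‖S.x j - S.x i‖ ^ 2 := by
    rw [p.hA i j]; ring
  rw [e]
  have h1 : |p.A j - p.A i| ≤ 2 * b := (abs_sub _ _).trans (by linarith)
  have h2 : |p.n * S.N i j| ≤ g * |S.N i j| := by
    rw [abs_mul]; exact mul_le_mul_of_nonneg_right hn (abs_nonneg _)
  have h3 : |p.d * ‖S.x j - S.x i‖ ^ 2| ≤ g * w ^ 2 := by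
    rw [abs_mul, abs_of_nonneg (sq_nonneg ‖S.x j - S.x i‖)]
    exact mul_le_mul hd (pow_le_pow_left₀ (norm_nonneg _) hx 2) (sq_nonneg _) hg
  refine (abs_sub _ _).trans ?_
  have := abs_sub (p.A j - p.A i) (p.n * S.N i j)
  linarith

/-- the gradient against the velocity. -/
theorem inner_v (p : CF S) {g b w : ℝ} (hn : |p.n| ≤ g) (hd : |p.d| ≤ g) {i j : ι}
    (hBi : |p.B i| ≤ b) (hBj : |p.B j| ≤ b) (hx : ‖S.x j - S.x i‖ ≤ w)
    (hv : ‖S.v j - S.v i‖ ≤ w) :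
    |inner ℝ (p.G i) (S.v j - S.v i)| ≤ 2 * b + 2 * g * |S.N i j| + 3 * g * w ^ 2 := by
  have hg : 0 ≤ g := (abs_nonneg _).trans hn
  have hw : 0 ≤ w := (norm_nonneg _).trans hx
  have e : inner ℝ (p.G i) (S.v j - S.v i) =
      (p.B j - p.B i) - p.n * ‖S.v j - S.v i‖ ^ 2 / 2 -
        2 * p.d * inner ℝ (S.x j - S.x i) (S.v j - S.v i) + 2 * p.d * S.N i j := by
    rw [p.hB i j]; ring
  rw [e]
  have h1 : |p.B j - p.B i| ≤ 2 * b := (abs_sub _ _).trans (by linarith)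
  have h2 : |p.n * ‖S.v j - S.v i‖ ^ 2 / 2| ≤ g * w ^ 2 / 2 := by
    rw [abs_div, abs_mul, abs_of_nonneg (sq_nonneg ‖S.v j - S.v i‖),
      abs_of_pos (by norm_num : (0:ℝ) < 2)]
    have := mul_le_mul hn (pow_le_pow_left₀ (norm_nonneg _) hv 2) (sq_nonneg _) hg
    linarith
  have h3 : |2 * p.d * inner ℝ (S.x j - S.x i) (S.v j - S.v i)| ≤ 2 * g * (w * w) := by
    rw [abs_mul, abs_mul, abs_of_pos (by norm_num : (0:ℝ) < 2)]
    refine mul_le_mul (by linarith) ((abs_real_inner_le_norm _ _).trans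
      (mul_le_mul hx hv (norm_nonneg _) hw)) (abs_nonneg _) (by positivity)
  have h4 : |2 * p.d * S.N i j| ≤ 2 * g * |S.N i j| := by
    rw [abs_mul, abs_mul, abs_of_pos (by norm_num : (0:ℝ) < 2)]
    exact mul_le_mul_of_nonneg_right (by linarith) (abs_nonneg _)
  have h5 := abs_sub (p.B j - p.B i) (p.n * ‖S.v j - S.v i‖ ^ 2 / 2)
  have h6 := abs_sub (p.B j - p.B i - p.n * ‖S.v j - S.v i‖ ^ 2 / 2)
    (2 * p.d * inner ℝ (S.x j - S.x i) (S.v j - S.v i))
  refine (abs_add_le _ _).trans ?_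
  have e2 : 2 * g * (w * w) = 2 * (g * w ^ 2) := by ring
  rw [e2] at h3
  nlinarith [mul_nonneg hg (sq_nonneg w)]

end CF

/-! ### linear algebra in the plane -/

/-- determinant -/
noncomputable def dt (p q : E2) : ℝ := p 0 * q 1 - p 1 * q 0

theorem inner2 (p q : E2) : inner ℝ p q = p 0 * q 0 + p 1 * q 1 := by
  rw [PiLp.inner_apply, Fin.sum_univ_two]
  simp [mul_comm]

theorem nsq2 (p : E2) : ‖p‖ ^ 2 = p 0 ^ 2 + p 1 ^ 2 := by
  rw [← real_inner_self_eq_norm_sq, inner2]; ring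

theorem dt_sq (p q : E2) : dt p q ^ 2 = ‖p‖ ^ 2 * ‖q‖ ^ 2 - (inner ℝ p q) ^ 2 := by
  rw [nsq2, nsq2, inner2]; unfold dt; ring

/-- a vector is controlled by its inner products with two transversal vectors. -/
theorem two_dir (p q u : E2) :
    |dt p q| * ‖u‖ ≤ |inner ℝ p u| * ‖q‖ + |inner ℝ q u| * ‖p‖ := by
  have hsq : (|dt p q| * ‖u‖) ^ 2 ≤ (|inner ℝ p u| * ‖q‖ + |inner ℝ q u| * ‖p‖) ^ 2 := by
    have e1 : (|dt p q| * ‖u‖) ^ 2 = (inner ℝ p u) ^ 2 * ‖q‖ ^ 2 + (inner ℝ q u) ^ 2 * ‖p‖ ^ 2 -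
        2 * (inner ℝ p u) * (inner ℝ q u) * inner ℝ p q := by
      rw [mul_pow, sq_abs, nsq2 u, nsq2 p, nsq2 q, inner2, inner2, inner2]
      unfold dt; ring
    rw [e1]
    have h1 : -(2 * (inner ℝ p u) * (inner ℝ q u) * inner ℝ p q) ≤
        2 * |inner ℝ p u| * |inner ℝ q u| * (‖p‖ * ‖q‖) := by
      have h2 : |inner ℝ p q| ≤ ‖p‖ * ‖q‖ := abs_real_inner_le_norm _ _
      calc -(2 * (inner ℝ p u) * (inner ℝ q u) * inner ℝ p q)
          ≤ |2 * (inner ℝ p u) * (inner ℝ q u) * inner ℝ p q| := neg_le_abs _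
        _ = 2 * |inner ℝ p u| * |inner ℝ q u| * |inner ℝ p q| := by
            rw [abs_mul, abs_mul, abs_mul, abs_of_pos (by norm_num : (0:ℝ) < 2)]
        _ ≤ 2 * |inner ℝ p u| * |inner ℝ q u| * (‖p‖ * ‖q‖) :=
            mul_le_mul_of_nonneg_left h2 (by positivity)
    have e2 : (|inner ℝ p u| * ‖q‖ + |inner ℝ q u| * ‖p‖) ^ 2 =
        (inner ℝ p u) ^ 2 * ‖q‖ ^ 2 + (inner ℝ q u) ^ 2 * ‖p‖ ^ 2 +
          2 * |inner ℝ p u| * |inner ℝ q u| * (‖p‖ * ‖q‖) := by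
      rw [← sq_abs (inner ℝ p u : ℝ), ← sq_abs (inner ℝ q u : ℝ)]; ring
    rw [e2]; linarith
  exact (sq_le_sq₀ (by positivity) (by positivity)).1 hsq

/-- **transversality of `G₀` and `G_ψ = G₁ - ε G₀`** when both are almost unit vectors on the same
side. -/
theorem dt_lower {p q : E2} {δ K : ℝ} (hK0 : 0 ≤ K) (hK : ‖q - p‖ = K)
    (hp : |‖p‖ ^ 2 - 1| ≤ δ) (hq : |‖q‖ ^ 2 - 1| ≤ δ) (hδ : δ ≤ 1 / 16)
    (hδK : 8 * δ ≤ K) (hpos : -(1 / 16) ≤ inner ℝ p q) : K / 4 ≤ |dt p (q - p)| := by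
  have hδ0 : 0 ≤ δ := (abs_nonneg _).trans hp
  have hK2 : K ^ 2 = ‖q‖ ^ 2 - 2 * inner ℝ p q + ‖p‖ ^ 2 := by
    rw [← hK, norm_sub_sq_real, real_inner_comm]
  obtain ⟨hp1, hp2⟩ := abs_le.1 hp
  obtain ⟨hq1, hq2⟩ := abs_le.1 hq
  set s : ℝ := inner ℝ p (q - p) with hs
  have hs1 : 2 * s = ‖q‖ ^ 2 - ‖p‖ ^ 2 - K ^ 2 := by
    rw [hs, inner_sub_right, real_inner_self_eq_norm_sq, hK2]; ring
  have hKup : K ^ 2 ≤ 2 + 2 * δ + 1 / 8 := by linarith
  have hdt : dt p (q - p) ^ 2 = ‖p‖ ^ 2 * K ^ 2 - s ^ 2 := by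
    rw [dt_sq, hK]
  have h1 : (K / 4) ^ 2 ≤ dt p (q - p) ^ 2 := by
    rw [hdt]
    -- s² ≤ ((2δ + K²)/2)²
    have h2 : s ^ 2 ≤ ((2 * δ + K ^ 2) / 2) ^ 2 := by
      have h3 : |2 * s| ≤ 2 * δ + K ^ 2 := by
        rw [hs1, abs_le]; constructor <;> nlinarith [sq_nonneg K]
      have h4 : (2 * s) ^ 2 ≤ (2 * δ + K ^ 2) ^ 2 := by
        rw [← sq_abs (2 * s)]
        exact pow_le_pow_left₀ (abs_nonneg _) h3 2
      nlinarith
    have h5 : δ ^ 2 ≤ K ^ 2 / 64 := by nlinarith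
    have h6 : δ * K ^ 2 ≤ K ^ 2 / 16 := by nlinarith [sq_nonneg K]
    have h7 : K ^ 2 * K ^ 2 ≤ (2 + 2 * δ + 1 / 8) * K ^ 2 :=
      mul_le_mul_of_nonneg_right hKup (sq_nonneg _)
    have h8 : (1 - δ) * K ^ 2 ≤ ‖p‖ ^ 2 * K ^ 2 :=
      mul_le_mul_of_nonneg_right (by linarith) (sq_nonneg _)
    have h9 : ((2 * δ + K ^ 2) / 2) ^ 2 = δ ^ 2 + δ * K ^ 2 + K ^ 2 * K ^ 2 / 4 := by ring
    rw [h9] at h2
    nlinarith [sq_nonneg K]
  have h10 : |K / 4| ≤ |dt p (q - p)| := sq_le_sq.1 h1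
  rwa [abs_of_nonneg (by positivity)] at h10

end Crest.Agent.R116.Tc334
end

-- ▼ part R116/Tc2_334
section

/-!
# R116, TILT for conformal slabs, part 2 (helper334): counting by cells, pair bounds
-/

set_option autoImplicit false
set_option linter.unusedSectionVars false
set_option linter.unusedVariables false

namespace Crest.Agent.R116.Tc334

open Finset

section cells

variable {ι β : Type*}

theorem card_le_cells [DecidableEq β] (T : Finset ι) (f : ι → β) (m : ℝ)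
    (hm : ∀ i ∈ T, ((T.filter fun j => f j = f i).card : ℝ) ≤ m) :
    (T.card : ℝ) ≤ ((T.image f).card : ℝ) * m := by
  rw [Finset.card_eq_sum_card_image f T]
  push_cast
  calc ∑ b ∈ T.image f, ((T.filter fun a => f a = b).card : ℝ) ≤ ∑ b ∈ T.image f, m := by
        refine sum_le_sum fun b hb => ?_
        obtain ⟨i, hi, rfl⟩ := mem_image.1 hb
        exact hm i hi
    _ = ((T.image f).card : ℝ) * m := by rw [sum_const, nsmul_eq_mul]

theorem floor_image (T : Finset ι) (h : ι → ℝ) {L δ : ℝ} (hδ : 0 < δ) (hL0 : 0 ≤ L)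
    (hL : ∀ i ∈ T, ∀ j ∈ T, |h j - h i| ≤ L) :
    ((T.image fun i => ⌊h i / δ⌋).card : ℝ) ≤ 2 * L / δ + 2 := by
  rcases T.eq_empty_or_nonempty with rfl | ⟨i0, hi0⟩
  · simp only [image_empty, card_empty, Nat.cast_zero]; positivity
  have hsub : (T.image fun i => ⌊h i / δ⌋) ⊆ Icc ⌊(h i0 - L) / δ⌋ ⌊(h i0 + L) / δ⌋ := by
    intro z hz
    obtain ⟨i, hi, rfl⟩ := mem_image.1 hz
    have h1 := abs_le.1 (hL i0 hi0 i hi)
    rw [mem_Icc]
    exact ⟨Int.floor_le_floor (by gcongr; linarith), Int.floor_le_floor (by gcongr; linarith)⟩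
  have hc := card_le_card hsub
  rw [Int.card_Icc] at hc
  have hle : ⌊(h i0 - L) / δ⌋ ≤ ⌊(h i0 + L) / δ⌋ := Int.floor_le_floor (by gcongr; linarith)
  have h2 : ((⌊(h i0 + L) / δ⌋ + 1 - ⌊(h i0 - L) / δ⌋).toNat : ℝ) =
      (⌊(h i0 + L) / δ⌋ : ℝ) + 1 - ⌊(h i0 - L) / δ⌋ := by
    have h3 : (((⌊(h i0 + L) / δ⌋ + 1 - ⌊(h i0 - L) / δ⌋).toNat : ℤ) : ℝ) =
        ((⌊(h i0 + L) / δ⌋ + 1 - ⌊(h i0 - L) / δ⌋ : ℤ) : ℝ) := by
      rw [Int.toNat_of_nonneg (by omega)]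
    push_cast at h3
    exact h3
  have h4 : ((T.image fun i => ⌊h i / δ⌋).card : ℝ) ≤
      ((⌊(h i0 + L) / δ⌋ + 1 - ⌊(h i0 - L) / δ⌋).toNat : ℝ) := by exact_mod_cast hc
  rw [h2] at h4
  have h5 := Int.floor_le ((h i0 + L) / δ)
  have h6 := Int.lt_floor_add_one ((h i0 - L) / δ)
  have h7 : (h i0 + L) / δ - (h i0 - L) / δ = 2 * L / δ := by ring
  linarith

theorem abs_sub_le_of_floor {a b δ : ℝ} (hδ : 0 < δ) (h : ⌊a / δ⌋ = ⌊b / δ⌋) : |a - b| ≤ δ := by
  have h1 := Int.abs_sub_lt_one_of_floor_eq_floor h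
  rw [← sub_div, abs_div, abs_of_pos hδ, div_lt_one hδ] at h1
  exact h1.le

theorem coord_le (u : E2) (k : Fin 2) : |u k| ≤ ‖u‖ := by
  have h := nsq2 u
  have h1 : (u k) ^ 2 ≤ ‖u‖ ^ 2 := by
    rw [h]
    fin_cases k
    · show u 0 ^ 2 ≤ _
      nlinarith [sq_nonneg (u 1)]
    · show u 1 ^ 2 ≤ _
      nlinarith [sq_nonneg (u 0)]
  rw [← sq_abs] at h1
  exact (sq_le_sq₀ (abs_nonneg _) (norm_nonneg _)).1 h1

theorem norm_le_of_coord {u : E2} {s : ℝ} (h0 : |u 0| ≤ s) (h1 : |u 1| ≤ s) : ‖u‖ ≤ 2 * s := by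
  have hs : 0 ≤ s := (abs_nonneg _).trans h0
  have h2 : ‖u‖ ^ 2 ≤ (2 * s) ^ 2 := by
    rw [nsq2, ← sq_abs (u 0), ← sq_abs (u 1)]
    have h3 := pow_le_pow_left₀ (abs_nonneg _) h0 2
    have h4 := pow_le_pow_left₀ (abs_nonneg _) h1 2
    nlinarith [sq_nonneg s]
  exact (sq_le_sq₀ (norm_nonneg _) (by positivity)).1 h2

variable (S : CS ι)

/-- cells of size `s` in position and velocity -/
noncomputable def cell4 (s : ℝ) (i : ι) : (ℤ × ℤ) × (ℤ × ℤ) :=
  ((⌊S.x i 0 / s⌋, ⌊S.x i 1 / s⌋), (⌊S.v i 0 / s⌋, ⌊S.v i 1 / s⌋))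

theorem cell4_card (T : Finset ι) {L s : ℝ} (hs : 0 < s) (hL0 : 0 ≤ L)
    (hx : ∀ i ∈ T, ∀ j ∈ T, ‖S.x j - S.x i‖ ≤ L) (hv : ∀ i ∈ T, ∀ j ∈ T, ‖S.v j - S.v i‖ ≤ L) :
    ((T.image (cell4 S s)).card : ℝ) ≤ (2 * L / s + 2) ^ 4 := by
  have hsub : T.image (cell4 S s) ⊆
      ((T.image fun i => ⌊S.x i 0 / s⌋) ×ˢ (T.image fun i => ⌊S.x i 1 / s⌋)) ×ˢ
      ((T.image fun i => ⌊S.v i 0 / s⌋) ×ˢ (T.image fun i => ⌊S.v i 1 / s⌋)) := by
    intro z hz
    obtain ⟨i, hi, rfl⟩ := mem_image.1 hz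
    simp only [mem_product, cell4]
    exact ⟨⟨mem_image_of_mem _ hi, mem_image_of_mem _ hi⟩,
      ⟨mem_image_of_mem _ hi, mem_image_of_mem _ hi⟩⟩
  have hc := card_le_card hsub
  rw [card_product, card_product, card_product] at hc
  have hX : ∀ k : Fin 2, ((T.image fun i => ⌊S.x i k / s⌋).card : ℝ) ≤ 2 * L / s + 2 := fun k =>
    floor_image T (fun i => S.x i k) hs hL0 fun i hi j hj => by
      have := (coord_le (S.x j - S.x i) k).trans (hx i hi j hj)
      simpa using this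
  have hV : ∀ k : Fin 2, ((T.image fun i => ⌊S.v i k / s⌋).card : ℝ) ≤ 2 * L / s + 2 := fun k =>
    floor_image T (fun i => S.v i k) hs hL0 fun i hi j hj => by
      have := (coord_le (S.v j - S.v i) k).trans (hv i hi j hj)
      simpa using this
  have hp : (0:ℝ) ≤ 2 * L / s + 2 := by positivity
  calc ((T.image (cell4 S s)).card : ℝ) ≤
      (((T.image fun i => ⌊S.x i 0 / s⌋).card * (T.image fun i => ⌊S.x i 1 / s⌋).card) *
      ((T.image fun i => ⌊S.v i 0 / s⌋).card * (T.image fun i => ⌊S.v i 1 / s⌋).card) : ℕ) := by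
        exact_mod_cast hc
    _ ≤ ((2 * L / s + 2) * (2 * L / s + 2)) * ((2 * L / s + 2) * (2 * L / s + 2)) := by
        push_cast
        exact mul_le_mul (mul_le_mul (hX 0) (hX 1) (by positivity) hp)
          (mul_le_mul (hV 0) (hV 1) (by positivity) hp) (by positivity) (by positivity)
    _ = (2 * L / s + 2) ^ 4 := by ring

theorem cell4_eq {s : ℝ} (hs : 0 < s) {i j : ι} (h : cell4 S s j = cell4 S s i) :
    ‖S.x j - S.x i‖ ≤ 2 * s ∧ ‖S.v j - S.v i‖ ≤ 2 * s := by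
  unfold cell4 at h
  simp only [Prod.mk.injEq] at h
  obtain ⟨⟨h1, h2⟩, h3, h4⟩ := h
  refine ⟨norm_le_of_coord ?_ ?_, norm_le_of_coord ?_ ?_⟩
  · simpa using abs_sub_le_of_floor hs h1
  · simpa using abs_sub_le_of_floor hs h2
  · simpa using abs_sub_le_of_floor hs h3
  · simpa using abs_sub_le_of_floor hs h4

/-- density bound of light boxes of aperture `σ ∈ [100 a, 1/4]` around rays of `T` -/
def DB (T : Finset ι) (a q th N0 : ℝ) : Prop :=
  ∀ i ∈ T, ∀ σ : ℝ, 100 * a ≤ σ → σ ≤ 1 / 4 → ∀ T' : Finset ι, T' ⊆ T →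
    (∀ j ∈ T', ‖S.x j - S.x i‖ ≤ σ ∧ ‖S.v j - S.v i‖ ≤ σ ∧ |S.N i j| ≤ max (σ ^ 2) th) →
    (T'.card : ℝ) ≤ N0 * σ ^ (1 + q) * max (σ ^ 2) th / max 1 th

theorem DB.mono {T T1 : Finset ι} {a q th N0 : ℝ} (h : DB S T a q th N0) (h1 : T1 ⊆ T) :
    DB S T1 a q th N0 := fun i hi σ hσ hσ2 T' hT' hj => h i (h1 hi) σ hσ hσ2 T' (hT'.trans h1) hj

end cells

/-! ### pair bounds -/

section pairs

variable {ι : Type*} {S : CS ι}

/-- **Lemma A**: velocity and null position are determined by the position, up to `κ`, `κ²`. -/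
theorem kap_pair (p : CF S) {g K b κ : ℝ} (hg : 0 < g) (hn : g / 2 ≤ |p.n|) (hd : |p.d| ≤ g)
    (hκ : K = g * κ) (hb : b ≤ g * κ ^ 2) {i j : ι} (hGi : ‖p.G i‖ ≤ K) (hGj : ‖p.G j‖ ≤ K)
    (hAi : |p.A i| ≤ b) (hAj : |p.A j| ≤ b) :
    ‖S.v j - S.v i‖ ≤ 4 * κ + 4 * ‖S.x j - S.x i‖ ∧
    |S.N i j| ≤ 4 * κ ^ 2 + 2 * κ * ‖S.x j - S.x i‖ + 2 * ‖S.x j - S.x i‖ ^ 2 := by
  have hn0 : 0 < |p.n| := lt_of_lt_of_le (by positivity) hn
  constructor
  · have e : p.n • (S.v j - S.v i) = p.G j - p.G i - (2 * p.d) • (S.x j - S.x i) := by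
      rw [p.hG i j]; abel
    have h1 : |p.n| * ‖S.v j - S.v i‖ ≤ 2 * K + 2 * g * ‖S.x j - S.x i‖ := by
      rw [← Real.norm_eq_abs, ← norm_smul, e]
      refine (norm_sub_le _ _).trans ?_
      have h2 := norm_sub_le (p.G j) (p.G i)
      have h3 : ‖(2 * p.d) • (S.x j - S.x i)‖ ≤ 2 * g * ‖S.x j - S.x i‖ := by
        rw [norm_smul, Real.norm_eq_abs, abs_mul, abs_of_pos (by norm_num : (0:ℝ) < 2)]
        exact mul_le_mul_of_nonneg_right (by linarith) (norm_nonneg _)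
      linarith
    have h2 : g / 2 * ‖S.v j - S.v i‖ ≤ |p.n| * ‖S.v j - S.v i‖ :=
      mul_le_mul_of_nonneg_right hn (norm_nonneg _)
    have h3 : g * ‖S.v j - S.v i‖ ≤ g * (4 * κ + 4 * ‖S.x j - S.x i‖) := by
      rw [hκ] at h1; nlinarith
    exact le_of_mul_le_mul_left h3 hg
  · have e : p.n * S.N i j = (p.A j - p.A i) - inner ℝ (p.G i) (S.x j - S.x i) -
        p.d * ‖S.x j - S.x i‖ ^ 2 := by
      rw [p.hA i j]; ring
    have h1 : |p.n| * |S.N i j| ≤ 2 * b + K * ‖S.x j - S.x i‖ + g * ‖S.x j - S.x i‖ ^ 2 := by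
      rw [← abs_mul, e]
      have h2 : |p.A j - p.A i| ≤ 2 * b := (abs_sub _ _).trans (by linarith)
      have h3 : |inner ℝ (p.G i) (S.x j - S.x i)| ≤ K * ‖S.x j - S.x i‖ :=
        (abs_real_inner_le_norm _ _).trans (mul_le_mul_of_nonneg_right hGi (norm_nonneg _))
      have h4 : |p.d * ‖S.x j - S.x i‖ ^ 2| ≤ g * ‖S.x j - S.x i‖ ^ 2 := by
        rw [abs_mul, abs_of_nonneg (sq_nonneg ‖S.x j - S.x i‖)]
        exact mul_le_mul_of_nonneg_right hd (sq_nonneg _)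
      refine (abs_sub _ _).trans ?_
      have h5 := abs_sub (p.A j - p.A i) (inner ℝ (p.G i) (S.x j - S.x i))
      linarith
    have h2 : g / 2 * |S.N i j| ≤ |p.n| * |S.N i j| :=
      mul_le_mul_of_nonneg_right hn (abs_nonneg _)
    have h3 : g * |S.N i j| ≤ g * (4 * κ ^ 2 + 2 * κ * ‖S.x j - S.x i‖ +
        2 * ‖S.x j - S.x i‖ ^ 2) := by
      rw [hκ] at h1; nlinarith
    exact le_of_mul_le_mul_left h3 hg

/-- the quarter turn -/
noncomputable def Jr (p : E2) : E2 := !₂[-(p 1), p 0]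

theorem Jr_norm (p : E2) : ‖Jr p‖ = ‖p‖ := by
  have h : ‖Jr p‖ ^ 2 = ‖p‖ ^ 2 := by
    rw [nsq2, nsq2]; simp [Jr]; ring
  exact (sq_eq_sq₀ (norm_nonneg _) (norm_nonneg _)).1 h

theorem dt_Jr (p : E2) : dt p (Jr p) = ‖p‖ ^ 2 := by
  rw [nsq2]; simp [dt, Jr]; ring

theorem le_Jr {p : E2} (hp : 1 / 2 ≤ ‖p‖) (u : E2) :
    ‖u‖ ≤ 2 * |inner ℝ p u| + 2 * |inner ℝ (Jr p) u| := by
  have h := two_dir p (Jr p) u
  rw [dt_Jr, Jr_norm, abs_of_nonneg (sq_nonneg _)] at h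
  have hp0 : 0 < ‖p‖ := by linarith
  have h1 : ‖p‖ * (‖p‖ * ‖u‖) ≤ ‖p‖ * (|inner ℝ p u| + |inner ℝ (Jr p) u|) := by nlinarith
  have h2 := le_of_mul_le_mul_left h1 hp0
  have h3 : 1 / 2 * ‖u‖ ≤ ‖p‖ * ‖u‖ := mul_le_mul_of_nonneg_right hp (norm_nonneg _)
  linarith

/-- **Lemma A'**: the positions lie near a curve. -/
theorem kap_curve (F : CF S) {M a κ : ℝ} (hM : 1 ≤ M) (hn : |F.n| ≤ M) (hd : |F.d| ≤ M)
    {i0 i j : ι} (hAi : |F.A i| ≤ a) (hAj : |F.A j| ≤ a) (hG0 : 1 / 2 ≤ ‖F.G i0‖)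
    (hκ0 : 0 ≤ κ) (hκ : κ ≤ 1 / (1000 * M)) (haκ : a ≤ κ ^ 2)
    (hx0 : ‖S.x i - S.x i0‖ ≤ 1 / (100 * M)) (hv0 : ‖S.v i - S.v i0‖ ≤ 1 / (100 * M))
    (hx : ‖S.x j - S.x i‖ ≤ 1 / (100 * M))
    (hN : |S.N i j| ≤ 4 * κ ^ 2 + 2 * κ * ‖S.x j - S.x i‖ + 2 * ‖S.x j - S.x i‖ ^ 2)
    (hcell : |inner ℝ (Jr (F.G i0)) (S.x j - S.x i)| ≤ κ) :
    ‖S.x j - S.x i‖ ≤ 10 * κ := by
  have hM0 : 0 < M := by linarith
  set W := ‖S.x j - S.x i‖ with hW
  have hW0 : 0 ≤ W := norm_nonneg _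
  have h1 := F.inner_x hn hd hAi hAj (w := W) le_rfl
  have h2 : |inner ℝ (F.G i0) (S.x j - S.x i)| ≤
      |inner ℝ (F.G i) (S.x j - S.x i)| + 3 * M * (1 / (100 * M)) * W := by
    have e : inner ℝ (F.G i0) (S.x j - S.x i) = inner ℝ (F.G i) (S.x j - S.x i) -
        inner ℝ (F.G i - F.G i0) (S.x j - S.x i) := by rw [inner_sub_left]; ring
    rw [e]
    refine (abs_sub _ _).trans ?_
    have h3 := F.G_var hn hd hx0 hv0
    have h4 : |inner ℝ (F.G i - F.G i0) (S.x j - S.x i)| ≤ 3 * M * (1 / (100 * M)) * W :=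
      (abs_real_inner_le_norm _ _).trans (mul_le_mul_of_nonneg_right h3 hW0)
    linarith
  have h5 := le_Jr hG0 (S.x j - S.x i)
  rw [← hW] at h5
  have e3 : 3 * M * (1 / (100 * M)) = 3 / 100 := by field_simp
  rw [e3] at h2
  have hMκ : M * κ ≤ 1 / 1000 := by
    have := mul_le_mul_of_nonneg_left hκ hM0.le
    have e : M * (1 / (1000 * M)) = 1 / 1000 := by field_simp
    rwa [e] at this
  have hMW : M * W ≤ 1 / 100 := by
    have := mul_le_mul_of_nonneg_left hx hM0.le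
    have e : M * (1 / (100 * M)) = 1 / 100 := by field_simp
    rwa [e] at this
  have hκ1 : κ ≤ 1 / 1000 := hκ.trans (by
    rw [div_le_div_iff₀ (by positivity) (by norm_num)]; linarith)
  have h6 : M * |S.N i j| ≤ 4 * (M * κ) * κ + 2 * (M * κ) * W + 2 * (M * W) * W := by
    have := mul_le_mul_of_nonneg_left hN hM0.le
    linarith
  have h7 : 4 * (M * κ) * κ ≤ 4 / 1000 * κ := by nlinarith
  have h8 : 2 * (M * κ) * W ≤ 2 / 1000 * W := by nlinarith
  have h9 : 2 * (M * W) * W ≤ 2 / 100 * W := by nlinarith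
  have h10 : M * W ^ 2 ≤ 1 / 100 * W := by nlinarith
  have h11 : a ≤ 1 / 1000 * κ := by nlinarith
  linarith

end pairs

end Crest.Agent.R116.Tc334
end

-- ▼ part R116/Tc3_334
section

/-!
# R116, TILT for conformal slabs, part 3 (helper334): the count inside one piece
-/

set_option autoImplicit false
set_option linter.unusedSectionVars false
set_option linter.unusedVariables false

namespace Crest.Agent.R116.Tc334

open Finset

section inner

variable {ι : Type*} {S : CS ι}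

/-- **Lemma B**: two common rays of `F₀` and `ψ` at null distance `|N|`. -/
theorem W_pair (F p : CF S) {M0 g K a b c : ℝ} (hnF : |F.n| ≤ M0) (hdF : |F.d| ≤ M0)
    (hn : |p.n| ≤ g) (hd : |p.d| ≤ g) {i j : ι}
    (hFAi : |F.A i| ≤ a) (hFAj : |F.A j| ≤ a) (hFBi : |F.B i| ≤ a) (hFBj : |F.B j| ≤ a)
    (hAi : |p.A i| ≤ b) (hAj : |p.A j| ≤ b) (hBi : |p.B i| ≤ b) (hBj : |p.B j| ≤ b)
    (hab : a ≤ b) (hK : 0 < K) (hK3 : K ≤ 3) (hF2 : ‖F.G i‖ ≤ 2) (hG1 : K / 2 ≤ ‖p.G i‖)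
    (hG2 : ‖p.G i‖ ≤ 2 * K) (hdt : ‖p.G i‖ / 4 ≤ |dt (F.G i) (p.G i)|)
    (hx : ‖S.x j - S.x i‖ ≤ c) (hv : ‖S.v j - S.v i‖ ≤ c) (hc : 96 * ((K * M0 + g) * c) ≤ K) :
    max ‖S.x j - S.x i‖ ‖S.v j - S.v i‖ ≤ 256 * (b + (g + K * M0) * |S.N i j|) / K := by
  set W := max ‖S.x j - S.x i‖ ‖S.v j - S.v i‖ with hW
  have hW0 : 0 ≤ W := (norm_nonneg _).trans (le_max_left _ _)
  have hWc : W ≤ c := max_le hx hv
  have hM0 : 0 ≤ M0 := (abs_nonneg _).trans hnF
  have hg : 0 ≤ g := (abs_nonneg _).trans hn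
  have hb : 0 ≤ b := (abs_nonneg _).trans hAi
  have hxW : ‖S.x j - S.x i‖ ≤ W := le_max_left _ _
  have hvW : ‖S.v j - S.v i‖ ≤ W := le_max_right _ _
  have key : ∀ u : E2, K * ‖u‖ ≤ 16 * K * |inner ℝ (F.G i) u| + 16 * |inner ℝ (p.G i) u| := by
    intro u
    have h1 := two_dir (F.G i) (p.G i) u
    have h2 : K / 8 * ‖u‖ ≤ |dt (F.G i) (p.G i)| * ‖u‖ :=
      mul_le_mul_of_nonneg_right (by linarith) (norm_nonneg _)
    have h3 : |inner ℝ (F.G i) u| * ‖p.G i‖ ≤ |inner ℝ (F.G i) u| * (2 * K) :=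
      mul_le_mul_of_nonneg_left hG2 (abs_nonneg _)
    have h4 : |inner ℝ (p.G i) u| * ‖F.G i‖ ≤ |inner ℝ (p.G i) u| * 2 :=
      mul_le_mul_of_nonneg_left hF2 (abs_nonneg _)
    nlinarith
  have hx1 := F.inner_x hnF hdF hFAi hFAj hxW
  have hx2 := p.inner_x hn hd hAi hAj hxW
  have hv1 := F.inner_v hnF hdF hFBi hFBj hxW hvW
  have hv2 := p.inner_v hn hd hBi hBj hxW hvW
  have hN := abs_nonneg (S.N i j)
  have hMN : 0 ≤ M0 * |S.N i j| := mul_nonneg hM0 hN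
  have hgN : 0 ≤ g * |S.N i j| := mul_nonneg hg hN
  have hMW : 0 ≤ M0 * W ^ 2 := mul_nonneg hM0 (sq_nonneg _)
  have hgW : 0 ≤ g * W ^ 2 := mul_nonneg hg (sq_nonneg _)
  have hbound : K * W ≤ 16 * K * (2 * a + 2 * M0 * |S.N i j| + 3 * M0 * W ^ 2) +
      16 * (2 * b + 2 * g * |S.N i j| + 3 * g * W ^ 2) := by
    rcases le_total ‖S.x j - S.x i‖ ‖S.v j - S.v i‖ with h | h
    · have e : W = ‖S.v j - S.v i‖ := max_eq_right h
      have h1 := key (S.v j - S.v i)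
      rw [← e] at h1
      have h2 : 16 * K * |inner ℝ (F.G i) (S.v j - S.v i)| ≤
          16 * K * (2 * a + 2 * M0 * |S.N i j| + 3 * M0 * W ^ 2) :=
        mul_le_mul_of_nonneg_left hv1 (by positivity)
      linarith
    · have e : W = ‖S.x j - S.x i‖ := max_eq_left h
      have h1 := key (S.x j - S.x i)
      rw [← e] at h1
      have h2 : 16 * K * |inner ℝ (F.G i) (S.x j - S.x i)| ≤
          16 * K * (2 * a + 2 * M0 * |S.N i j| + 3 * M0 * W ^ 2) :=
        mul_le_mul_of_nonneg_left (by linarith) (by positivity)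
      linarith
  have h5 : (48 * ((K * M0 + g) * W)) * W ≤ K / 2 * W := by
    refine mul_le_mul_of_nonneg_right ?_ hW0
    have : (K * M0 + g) * W ≤ (K * M0 + g) * c := mul_le_mul_of_nonneg_left hWc (by positivity)
    linarith
  have h6 : 16 * K * (3 * M0 * W ^ 2) + 16 * (3 * g * W ^ 2) = (48 * ((K * M0 + g) * W)) * W := by
    ring
  have h7 : K * a ≤ 3 * b := by nlinarith
  rw [le_div_iff₀ hK]
  nlinarith

theorem max_le_max' {σ th : ℝ} (hσ : 0 ≤ σ) (hth : 0 ≤ th) :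
    max ((2 * σ) ^ 2) th ≤ 4 * max (σ ^ 2) th := by
  refine max_le ?_ ?_
  · have := le_max_left (σ ^ 2) th
    nlinarith
  · have := le_max_right (σ ^ 2) th
    nlinarith [sq_nonneg σ, le_max_left (σ ^ 2) th]

/-- **count inside one piece.** -/
theorem inner_count {T : Finset ι} {a b K hh c L ρ th N0 q Ch σ : ℝ}
    (hx : ∀ i ∈ T, ∀ j ∈ T, ‖S.x j - S.x i‖ ≤ c) (hv : ∀ i ∈ T, ∀ j ∈ T, ‖S.v j - S.v i‖ ≤ c)
    (hL : ∀ i ∈ T, ∀ j ∈ T, |S.N i j| ≤ L)
    (hW : ∀ i ∈ T, ∀ j ∈ T, max ‖S.x j - S.x i‖ ‖S.v j - S.v i‖ ≤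
      256 * (b + hh * |S.N i j|) / K)
    (hK : 0 < K) (hb : 0 < b) (hhh : 0 ≤ hh) (hρ : 0 < ρ) (hσ : 0 < σ) (hth : 0 ≤ th)
    (hN0 : 0 ≤ N0) (hq0 : 0 ≤ q) (hq2 : q ≤ 2)
    (h1 : 512 * (c * b) ≤ K * ρ) (h2 : 512 * (c * hh) ≤ K) (h3 : hh * ρ ≤ Ch * b)
    (h4 : 256 * (1 + 3 * Ch) * b ≤ K * σ) (h5 : 100 * a ≤ 2 * σ) (h6 : σ ^ 2 ≤ ρ) (h7 : th ≤ ρ)
    (h8 : ρ ≤ L) (h9 : 2 * σ ≤ 1 / 4) (hD : DB S T a q th N0) :
    (T.card : ℝ) ≤ 5000 * L * N0 * σ ^ (1 + q) / max 1 th := by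
  rcases T.eq_empty_or_nonempty with rfl | ⟨i1, hi1⟩
  · have : 0 < L := hρ.trans_le h8
    simp only [card_empty, Nat.cast_zero]; positivity
  have hL0 : 0 < L := hρ.trans_le h8
  set τ := max (σ ^ 2) th with hτ
  have hτ0 : 0 < τ := lt_of_lt_of_le (pow_pos hσ 2) (le_max_left _ _)
  have hτρ : τ ≤ ρ := max_le h6 h7
  have hT1 : 0 < max 1 th := lt_of_lt_of_le one_pos (le_max_left _ _)
  -- leaf
  have leaf : ∀ i ∈ T, ∀ T' : Finset ι, T' ⊆ T → (∀ j ∈ T', ‖S.x j - S.x i‖ ≤ σ ∧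
      ‖S.v j - S.v i‖ ≤ σ ∧ |S.N i j| ≤ τ / 2 + σ ^ 2) →
      (T'.card : ℝ) ≤ 32 * N0 * σ ^ (1 + q) * τ / max 1 th := by
    intro i hi T' hT' hj
    have h9 := hD i hi (2 * σ) h5 h9 T' hT' (fun j hj' => by
      obtain ⟨a1, a2, a3⟩ := hj j hj'
      refine ⟨by linarith, by linarith, a3.trans ?_⟩
      rcases le_total th (2 * σ ^ 2) with h | h
      · refine le_trans ?_ (le_max_left _ _)
        have : τ ≤ 2 * σ ^ 2 := max_le (by nlinarith [sq_nonneg σ]) h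
        nlinarith [sq_nonneg σ]
      · refine le_trans ?_ (le_max_right _ _)
        have : τ ≤ th := max_le (by nlinarith [sq_nonneg σ]) le_rfl
        nlinarith [sq_nonneg σ])
    refine h9.trans ?_
    have e1 : (2 * σ) ^ (1 + q) ≤ 8 * σ ^ (1 + q) := by
      rw [Real.mul_rpow (by norm_num) hσ.le]
      refine mul_le_mul_of_nonneg_right ?_ (by positivity)
      calc (2:ℝ) ^ (1 + q) ≤ (2:ℝ) ^ (3:ℝ) :=
            Real.rpow_le_rpow_of_exponent_le (by norm_num) (by linarith)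
        _ = 8 := by norm_num
    have e2 := max_le_max' hσ.le hth
    have e3 : N0 * (2 * σ) ^ (1 + q) * max ((2 * σ) ^ 2) th ≤
        N0 * (8 * σ ^ (1 + q)) * (4 * τ) :=
      mul_le_mul (mul_le_mul_of_nonneg_left e1 hN0) e2 (by positivity) (by positivity)
    rw [div_le_div_iff_of_pos_right hT1]
    calc N0 * (2 * σ) ^ (1 + q) * max ((2 * σ) ^ 2) th ≤ N0 * (8 * σ ^ (1 + q)) * (4 * τ) := e3
      _ = 32 * N0 * σ ^ (1 + q) * τ := by ring
  -- close pairs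
  have close : ∀ i ∈ T, ∀ j ∈ T, |S.N i1 j - S.N i1 i| ≤ ρ →
      |S.N i j| ≤ 3 * ρ ∧ ‖S.x j - S.x i‖ ≤ σ ∧ ‖S.v j - S.v i‖ ≤ σ := by
    intro i hi j hj hij
    have e := S.N_cocycle i1 i j
    have hw := hW i hi j hj
    have hwx : ‖S.x j - S.x i‖ ≤ 256 * (b + hh * |S.N i j|) / K := (le_max_left _ _).trans hw
    have h10 : |S.N i j| ≤ ρ + c * ‖S.x j - S.x i‖ := by
      rw [e]
      refine (abs_sub _ _).trans ?_
      have h11 : |inner ℝ (S.v i - S.v i1) (S.x j - S.x i)| ≤ c * ‖S.x j - S.x i‖ :=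
        (abs_real_inner_le_norm _ _).trans
          (mul_le_mul_of_nonneg_right (hv i1 hi1 i hi) (norm_nonneg _))
      linarith
    have hc0 : 0 ≤ c := (norm_nonneg _).trans (hx i hi j hj)
    have h12 : c * ‖S.x j - S.x i‖ ≤ c * (256 * (b + hh * |S.N i j|) / K) :=
      mul_le_mul_of_nonneg_left hwx hc0
    have h13 : c * (256 * (b + hh * |S.N i j|) / K) ≤ ρ / 2 + |S.N i j| / 2 := by
      rw [mul_div_assoc', div_le_iff₀ hK]
      have := mul_le_mul_of_nonneg_right h2 (abs_nonneg (S.N i j))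
      nlinarith
    have h14 : |S.N i j| ≤ 3 * ρ := by linarith
    have h15 : 256 * (b + hh * |S.N i j|) / K ≤ σ := by
      rw [div_le_iff₀ hK]
      have := mul_le_mul_of_nonneg_left h14 hhh
      nlinarith
    exact ⟨h14, hwx.trans h15, ((le_max_right _ _).trans hw).trans h15⟩
  have hf1 := card_le_cells T (fun j => ⌊S.N i1 j / ρ⌋)
    (26 * ρ / τ * (32 * N0 * σ ^ (1 + q) * τ / max 1 th)) (fun i hi => by
    set T1 := T.filter fun j => ⌊S.N i1 j / ρ⌋ = ⌊S.N i1 i / ρ⌋ with hT1'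
    have hsub1 : T1 ⊆ T := filter_subset _ _
    have hcl : ∀ j ∈ T1, ∀ k ∈ T1, |S.N j k| ≤ 3 * ρ ∧ ‖S.x k - S.x j‖ ≤ σ ∧
        ‖S.v k - S.v j‖ ≤ σ := by
      intro j hj k hk
      refine close j (hsub1 hj) k (hsub1 hk) ?_
      have h16 := (mem_filter.1 hj).2
      have h17 := (mem_filter.1 hk).2
      exact abs_sub_le_of_floor hρ (h17.trans h16.symm)
    have hi1' : i ∈ T1 := mem_filter.2 ⟨hi, rfl⟩
    have hf2 := card_le_cells T1 (fun j => ⌊S.N i j / (τ / 2)⌋)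
      (32 * N0 * σ ^ (1 + q) * τ / max 1 th) (fun k hk => by
      refine leaf k (hsub1 hk) _ ((filter_subset _ _).trans hsub1) (fun j hj => ?_)
      obtain ⟨hj1, hj2⟩ := mem_filter.1 hj
      have h18 := hcl k hk j hj1
      have h19 := hcl i hi1' k hk
      refine ⟨h18.2.1, h18.2.2, ?_⟩
      have e := S.N_cocycle i k j
      rw [e]
      refine (abs_sub _ _).trans ?_
      have h20 := abs_sub_le_of_floor (by positivity : 0 < τ / 2) hj2
      have h21 : |inner ℝ (S.v k - S.v i) (S.x j - S.x k)| ≤ σ * σ :=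
        (abs_real_inner_le_norm _ _).trans
          (mul_le_mul h19.2.2 h18.2.1 (norm_nonneg _) hσ.le)
      nlinarith)
    have hcard2 := floor_image T1 (fun j => S.N i j) (L := 6 * ρ) (δ := τ / 2) (by positivity)
      (by positivity) (fun j hj k hk => by
        refine (abs_sub _ _).trans ?_
        have := (hcl i hi1' j hj).1
        have := (hcl i hi1' k hk).1
        linarith)
    have h22 : 2 * (6 * ρ) / (τ / 2) + 2 ≤ 26 * ρ / τ := by
      rw [div_add' _ _ _ (by positivity), div_le_div_iff₀ (by positivity) hτ0]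
      nlinarith
    refine hf2.trans ?_
    exact mul_le_mul_of_nonneg_right (hcard2.trans h22) (by positivity))
  have hcard1 := floor_image T (fun j => S.N i1 j) (L := 2 * L) (δ := ρ) hρ (by positivity)
    (fun j hj k hk => by
      refine (abs_sub _ _).trans ?_
      have := hL i1 hi1 j hj
      have := hL i1 hi1 k hk
      linarith)
  have h23 : 2 * (2 * L) / ρ + 2 ≤ 6 * L / ρ := by
    rw [div_add' _ _ _ hρ.ne', div_le_div_iff_of_pos_right hρ]
    linarith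
  have h24 : (T.card : ℝ) ≤ 6 * L / ρ * (26 * ρ / τ * (32 * N0 * σ ^ (1 + q) * τ / max 1 th)) :=
    hf1.trans (mul_le_mul_of_nonneg_right (hcard1.trans h23) (by positivity))
  refine h24.trans ?_
  have h25 : 6 * L / ρ * (26 * ρ / τ * (32 * N0 * σ ^ (1 + q) * τ / max 1 th)) =
      4992 * (L * N0 * σ ^ (1 + q) / max 1 th) := by
    field_simp
    ring
  rw [h25]
  have h26 : 0 ≤ L * N0 * σ ^ (1 + q) / max 1 th := by positivity
  have h27 : 5000 * L * N0 * σ ^ (1 + q) / max 1 th =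
      5000 * (L * N0 * σ ^ (1 + q) / max 1 th) := by ring
  rw [h27]
  linarith

end inner

end Crest.Agent.R116.Tc334
end

-- ▼ part R116/Tc4_334
section

/-!
# R116, TILT for conformal slabs, part 4 (helper334): SHARE, the two cases
-/

set_option autoImplicit false
set_option linter.unusedSectionVars false
set_option linter.unusedVariables false

namespace Crest.Agent.R116.Tc334

open Finset

section share

variable {ι : Type*} {S : CS ι}

theorem dt_smul_left (e : ℝ) (p q : E2) : dt (e • p) q = e * dt p q := by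
  simp [dt]; ring

/-- a piece of the common rays of two slabs -/
structure Pc (S : CS ι) (F0 F1 : CF S) (e : ℝ) (T : Finset ι) (i0 : ι) (M a N0 q : ℝ) : Prop where
  he : e = 1 ∨ e = -1
  M1 : 1 ≤ M
  a0 : 0 < a
  hδ : M * a ≤ 1 / 100
  N00 : 0 ≤ N0
  q0 : 0 ≤ q
  q2 : q ≤ 2
  hi0 : i0 ∈ T
  hx : ∀ i ∈ T, ∀ j ∈ T, ‖S.x j - S.x i‖ ≤ 1 / (4000000 * M)
  hv : ∀ i ∈ T, ∀ j ∈ T, ‖S.v j - S.v i‖ ≤ 1 / (4000000 * M)
  hN : ∀ i ∈ T, ∀ j ∈ T, |S.N i j| ≤ M
  n0 : |F0.n| ≤ M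
  d0 : |F0.d| ≤ M
  n1 : |F1.n| ≤ M
  d1 : |F1.d| ≤ M
  A0 : ∀ i ∈ T, |F0.A i| ≤ a
  B0 : ∀ i ∈ T, |F0.B i| ≤ a
  A1 : ∀ i ∈ T, |F1.A i| ≤ a
  B1 : ∀ i ∈ T, |F1.B i| ≤ a
  G0 : ∀ i ∈ T, |‖F0.G i‖ ^ 2 - 1| ≤ M * a
  G1 : ∀ i ∈ T, |‖F1.G i‖ ^ 2 - 1| ≤ M * a
  pos : 0 ≤ inner ℝ (e • F0.G i0) (F1.G i0)
  D : DB S T a q 0 N0

namespace Pc

variable {F0 F1 : CF S} {e : ℝ} {T : Finset ι} {i0 : ι} {M a N0 q : ℝ}

theorem abs_e (h : Pc S F0 F1 e T i0 M a N0 q) : |e| = 1 := by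
  rcases h.he with h | h <;> simp [h]

theorem A (h : Pc S F0 F1 e T i0 M a N0 q) {i : ι} (hi : i ∈ T) :
    |(CF.comb F1 F0 e).A i| ≤ 2 * a := by
  show |F1.A i - e * F0.A i| ≤ 2 * a
  refine (abs_sub _ _).trans ?_
  rw [abs_mul, h.abs_e, one_mul]
  have := h.A0 i hi
  have := h.A1 i hi
  linarith

theorem B (h : Pc S F0 F1 e T i0 M a N0 q) {i : ι} (hi : i ∈ T) :
    |(CF.comb F1 F0 e).B i| ≤ 2 * a := by
  show |F1.B i - e * F0.B i| ≤ 2 * a
  refine (abs_sub _ _).trans ?_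
  rw [abs_mul, h.abs_e, one_mul]
  have := h.B0 i hi
  have := h.B1 i hi
  linarith

theorem normF0 (h : Pc S F0 F1 e T i0 M a N0 q) {i : ι} (hi : i ∈ T) :
    1 / 2 ≤ ‖F0.G i‖ ∧ ‖F0.G i‖ ≤ 21 / 20 := by
  have h1 := abs_le.1 (h.G0 i hi)
  have h2 := h.hδ
  constructor
  · by_contra hc
    push Not at hc
    nlinarith [norm_nonneg (F0.G i)]
  · by_contra hc
    push Not at hc
    nlinarith [norm_nonneg (F0.G i)]

theorem normF1 (h : Pc S F0 F1 e T i0 M a N0 q) {i : ι} (hi : i ∈ T) :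
    1 / 2 ≤ ‖F1.G i‖ ∧ ‖F1.G i‖ ≤ 21 / 20 := by
  have h1 := abs_le.1 (h.G1 i hi)
  have h2 := h.hδ
  constructor
  · by_contra hc
    push Not at hc
    nlinarith [norm_nonneg (F1.G i)]
  · by_contra hc
    push Not at hc
    nlinarith [norm_nonneg (F1.G i)]

theorem normG (h : Pc S F0 F1 e T i0 M a N0 q) {i : ι} (hi : i ∈ T) :
    ‖(CF.comb F1 F0 e).G i‖ ≤ 21 / 10 := by
  show ‖F1.G i - e • F0.G i‖ ≤ 21 / 10
  refine (norm_sub_le _ _).trans ?_
  rw [norm_smul, Real.norm_eq_abs, h.abs_e, one_mul]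
  have := (h.normF0 hi).2
  have := (h.normF1 hi).2
  linarith

/-- transversality -/
theorem dtG (h : Pc S F0 F1 e T i0 M a N0 q) {i : ι} (hi : i ∈ T)
    (hbig : 8 * (M * a) ≤ ‖(CF.comb F1 F0 e).G i‖) :
    ‖(CF.comb F1 F0 e).G i‖ / 4 ≤ |dt (F0.G i) ((CF.comb F1 F0 e).G i)| := by
  have hM0 : 0 < M := lt_of_lt_of_le one_pos h.M1
  have hpe : ‖e • F0.G i‖ = ‖F0.G i‖ := by
    rw [norm_smul, Real.norm_eq_abs, h.abs_e, one_mul]
  have hpe0 : ‖e • F0.G i0‖ = ‖F0.G i0‖ := by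
    rw [norm_smul, Real.norm_eq_abs, h.abs_e, one_mul]
  have hGe : (CF.comb F1 F0 e).G i = F1.G i - e • F0.G i := rfl
  have key := dt_lower (p := e • F0.G i) (q := F1.G i) (δ := M * a)
    (K := ‖(CF.comb F1 F0 e).G i‖) (norm_nonneg _) (by rw [hGe]) (by rw [hpe]; exact h.G0 i hi)
    (h.G1 i hi) (by linarith [h.hδ]) hbig ?_
  · have e2 : |dt (F0.G i) ((CF.comb F1 F0 e).G i)| =
        |dt (e • F0.G i) (F1.G i - e • F0.G i)| := by
      rw [dt_smul_left, abs_mul, h.abs_e, one_mul, hGe]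
    rw [e2]; exact key
  · have hc : 3 * M * (1 / (4000000 * M)) = 3 / 4000000 := by field_simp
    have v0 := F0.G_var h.n0 h.d0 (h.hx i0 h.hi0 i hi) (h.hv i0 h.hi0 i hi)
    have v1 := F1.G_var h.n1 h.d1 (h.hx i0 h.hi0 i hi) (h.hv i0 h.hi0 i hi)
    rw [hc] at v0 v1
    have e3 : inner ℝ (e • F0.G i) (F1.G i) = inner ℝ (e • F0.G i0) (F1.G i0) +
        inner ℝ (e • (F0.G i - F0.G i0)) (F1.G i) + inner ℝ (e • F0.G i0) (F1.G i - F1.G i0) := by
      rw [smul_sub, inner_sub_left, inner_sub_right]; ring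
    have h1 : |inner ℝ (e • (F0.G i - F0.G i0)) (F1.G i)| ≤ 3 / 4000000 * 2 := by
      refine (abs_real_inner_le_norm _ _).trans ?_
      rw [norm_smul, Real.norm_eq_abs, h.abs_e, one_mul]
      exact mul_le_mul v0 (by linarith [(h.normF1 hi).2]) (norm_nonneg _) (by norm_num)
    have h2 : |inner ℝ (e • F0.G i0) (F1.G i - F1.G i0)| ≤ 2 * (3 / 4000000) := by
      refine (abs_real_inner_le_norm _ _).trans ?_
      rw [hpe0]
      exact mul_le_mul (by linarith [(h.normF0 h.hi0).2]) v1 (norm_nonneg _) (by norm_num)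
    have h3 := (abs_le.1 h1).1
    have h4 := (abs_le.1 h2).1
    have h5 := h.pos
    rw [e3]
    linarith

/-- **Case I**: the gradient of `ψ` is not small against `n`, `d`. -/
theorem caseI (h : Pc S F0 F1 e T i0 M a N0 q) {g K α : ℝ}
    (hn : |(CF.comb F1 F0 e).n| ≤ g) (hd : |(CF.comb F1 F0 e).d| ≤ g)
    (hK : ‖(CF.comb F1 F0 e).G i0‖ = K) (hgK : g ≤ 6000 * M * K)
    (hαK : α ≤ 6000 * M * K) (haα : 10 ^ 18 * M ^ 3 * a ≤ α) :
    (T.card : ℝ) ≤ 5000 * M * N0 * (10 ^ 11 * M ^ 2 * (a / α)) ^ (1 + q) := by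
  set p := CF.comb F1 F0 e with hp
  have hM1 := h.M1
  have ha0 := h.a0
  have hM0 : 0 < M := by linarith
  have hg0 : 0 ≤ g := (abs_nonneg _).trans hn
  have hα0 : 0 < α := lt_of_lt_of_le (by positivity) haα
  have hK0 : 0 < K := by
    by_contra hc
    push Not at hc
    have : 6000 * M * K ≤ 0 := mul_nonpos_of_nonneg_of_nonpos (by positivity) hc
    linarith
  have hK3 : K ≤ 3 := by rw [← hK]; linarith [h.normG h.hi0]
  -- `K` is much bigger than `a`
  have hKa : 10 ^ 14 * M ^ 2 * a ≤ K := by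
    have h1 : 10 ^ 18 * M ^ 3 * a ≤ 6000 * M * K := haα.trans hαK
    have h2 : M * (10 ^ 14 * M ^ 2 * a) ≤ M * K := by nlinarith [pow_pos hM0 3, mul_pos (pow_pos hM0 3) ha0]
    exact le_of_mul_le_mul_left h2 hM0
  have hc0 : 0 < 1 / (4000000 * M) := by positivity
  have hgc : g * (1 / (4000000 * M)) ≤ 6 / 4000 * K := by
    have := mul_le_mul_of_nonneg_right hgK hc0.le
    have e1 : 6000 * M * K * (1 / (4000000 * M)) = 6 / 4000 * K := by field_simp; ring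
    linarith
  have hMc : M * (1 / (4000000 * M)) = 1 / 4000000 := by field_simp
  have hGv : ∀ i ∈ T, ‖p.G i - p.G i0‖ ≤ K / 2 := by
    intro i hi
    have := p.G_var hn hd (h.hx i0 h.hi0 i hi) (h.hv i0 h.hi0 i hi)
    linarith
  have hG1 : ∀ i ∈ T, K / 2 ≤ ‖p.G i‖ := by
    intro i hi
    have h1 := hGv i hi
    have h2 : ‖p.G i0‖ ≤ ‖p.G i‖ + ‖p.G i - p.G i0‖ := by
      have := norm_sub_le (p.G i) (p.G i - p.G i0)
      simpa using this
    linarith
  have hG2 : ∀ i ∈ T, ‖p.G i‖ ≤ 2 * K := by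
    intro i hi
    have h1 := hGv i hi
    have h2 : ‖p.G i‖ ≤ ‖p.G i0‖ + ‖p.G i - p.G i0‖ := by
      have := norm_add_le (p.G i0) (p.G i - p.G i0)
      simpa using this
    linarith
  set hh : ℝ := g + K * M with hhh
  have hhh0 : 0 < hh := by positivity
  have hhhK : hh ≤ 6001 * M * K := by rw [hhh]; linarith
  have hW : ∀ i ∈ T, ∀ j ∈ T, max ‖S.x j - S.x i‖ ‖S.v j - S.v i‖ ≤
      256 * (2 * a + hh * |S.N i j|) / K := by
    intro i hi j hj
    refine W_pair F0 p h.n0 h.d0 hn hd (h.A0 i hi) (h.A0 j hj) (h.B0 i hi) (h.B0 j hj)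
      (h.A hi) (h.A hj) (h.B hi) (h.B hj) (by linarith) hK0 hK3 (by linarith [(h.normF0 hi).2])
      (hG1 i hi) (hG2 i hi) (h.dtG hi ?_) (h.hx i hi j hj) (h.hv i hi j hj) ?_
    · have h1 := hG1 i hi
      have h2 : M * a ≤ M ^ 2 * a := by nlinarith
      have h3 : 0 < M * a := by positivity
      nlinarith
    · have : (K * M + g) * (1 / (4000000 * M)) = K * (M * (1 / (4000000 * M))) +
          g * (1 / (4000000 * M)) := by ring
      rw [this, hMc]
      linarith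
  set C : ℝ := 256 * (1 + 3 * (6001 * M)) with hC
  have hC1 : C ≤ 5 * 10 ^ 6 * M := by rw [hC]; linarith
  have hC0 : 0 < C := by positivity
  have key := inner_count (S := S) (T := T) (a := a) (b := 2 * a) (K := K) (hh := hh)
    (c := 1 / (4000000 * M)) (L := M) (ρ := 2 * a / K) (th := 0) (N0 := N0) (q := q)
    (Ch := 6001 * M) (σ := C * (2 * a) / K) h.hx h.hv h.hN hW hK0 (by positivity) hhh0.le
    (by positivity) (by positivity) le_rfl h.N00 h.q0 h.q2 ?_ ?_ ?_ ?_ ?_ ?_ (by positivity) ?_ ?_ h.D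
  · simp only [max_eq_left (zero_le_one' ℝ), div_one] at key
    refine key.trans ?_
    have h1 : C * (2 * a) / K ≤ 10 ^ 11 * M ^ 2 * (a / α) := by
      rw [mul_div_assoc', div_le_div_iff₀ hK0 hα0]
      calc C * (2 * a) * α ≤ (5 * 10 ^ 6 * M) * (2 * a) * (6000 * M * K) := by
            exact mul_le_mul (mul_le_mul_of_nonneg_right hC1 (by positivity)) hαK hα0.le
              (by positivity)
        _ = 6 * 10 ^ 10 * (M ^ 2 * a * K) := by ring
        _ ≤ 10 ^ 11 * (M ^ 2 * a * K) := by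
            apply mul_le_mul_of_nonneg_right (by norm_num) (by positivity)
        _ = _ := by ring
    have h2 : (C * (2 * a) / K) ^ (1 + q) ≤ (10 ^ 11 * M ^ 2 * (a / α)) ^ (1 + q) :=
      Real.rpow_le_rpow (by positivity) h1 (by linarith [h.q0])
    exact mul_le_mul_of_nonneg_left h2 (mul_nonneg (by positivity) h.N00)
  · rw [mul_div_assoc', mul_div_cancel_left₀ _ hK0.ne']
    have : 1 / (4000000 * M) ≤ 1 / 4000000 := by
      rw [div_le_div_iff₀ (by positivity) (by norm_num)]; linarith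
    nlinarith
  · have : hh * (1 / (4000000 * M)) ≤ 6001 / 4000000 * K := by
      have h1 := mul_le_mul_of_nonneg_right hhhK hc0.le
      have e1 : 6001 * M * K * (1 / (4000000 * M)) = 6001 / 4000000 * K := by field_simp
      linarith
    nlinarith
  · rw [mul_div_assoc', div_le_iff₀ hK0]
    nlinarith [mul_le_mul_of_nonneg_right hhhK (by positivity : (0:ℝ) ≤ 2 * a)]
  · rw [mul_div_assoc', mul_div_cancel_left₀ _ hK0.ne']
  · rw [mul_div_assoc', le_div_iff₀ hK0]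
    have h1 : (256:ℝ) ≤ C := by rw [hC]; nlinarith
    nlinarith
  · rw [div_pow, div_le_div_iff₀ (by positivity) hK0]
    have h1 : C ^ 2 ≤ (5 * 10 ^ 6 * M) ^ 2 := pow_le_pow_left₀ hC0.le hC1 2
    have h2 : C ^ 2 * (2 * a) ≤ K := by
      calc C ^ 2 * (2 * a) ≤ (5 * 10 ^ 6 * M) ^ 2 * (2 * a) :=
            mul_le_mul_of_nonneg_right h1 (by positivity)
        _ = 5 * 10 ^ 13 * (M ^ 2 * a) := by ring
        _ ≤ 10 ^ 14 * (M ^ 2 * a) := mul_le_mul_of_nonneg_right (by norm_num) (by positivity)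
        _ = 10 ^ 14 * M ^ 2 * a := by ring
        _ ≤ K := hKa
    calc (C * (2 * a)) ^ 2 * K = (C ^ 2 * (2 * a)) * (2 * a * K) := by ring
      _ ≤ K * (2 * a * K) := mul_le_mul_of_nonneg_right h2 (by positivity)
      _ = 2 * a * K ^ 2 := by ring
  · rw [div_le_iff₀ hK0]
    have h1 : 2 * a ≤ 10 ^ 14 * M ^ 2 * a := by
      have : (1:ℝ) ≤ M ^ 2 := by nlinarith
      nlinarith
    nlinarith
  · rw [mul_div_assoc', div_le_iff₀ hK0]
    have h1 : 2 * (C * (2 * a)) ≤ 2 * (5 * 10 ^ 6 * M * (2 * a)) :=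
      mul_le_mul_of_nonneg_left (mul_le_mul_of_nonneg_right hC1 (by positivity)) (by norm_num)
    have h2 : 2 * (5 * 10 ^ 6 * M * (2 * a)) ≤ 1 / 4 * (10 ^ 14 * M ^ 2 * a) := by
      have h3 : M * a ≤ M ^ 2 * a := by nlinarith
      have h4 : 0 < M * a := by positivity
      nlinarith
    linarith

end Pc

end share

end Crest.Agent.R116.Tc334
end

-- ▼ part R116/Tc5_334
section

/-!
# R116, TILT for conformal slabs, part 5 (helper334): SHARE, the degenerate case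
-/

set_option autoImplicit false
set_option linter.unusedSectionVars false
set_option linter.unusedVariables false

namespace Crest.Agent.R116.Tc334

open Finset

section share2

variable {ι : Type*} {S : CS ι}

namespace Pc

variable {F0 F1 : CF S} {e : ℝ} {T : Finset ι} {i0 : ι} {M a N0 q : ℝ}

/-- numerical facts about `κ`. -/
structure Kp (M a g K0 α κ : ℝ) : Prop where
  κ0 : 0 < κ
  sq : g ^ 2 * κ ^ 2 = K0 ^ 2 + 8000000 * M * a * g
  le : 3000 * (M * κ) ≤ 1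
  g0 : 0 < g
  g2 : g ≤ 2 * M
  αg : α ≤ g
  ha : 2 * a ≤ κ ^ 2
  hb : 8000000 * M * a ≤ g * κ ^ 2

theorem Kp_ex {M a g K0 α : ℝ} (hM : 1 ≤ M) (ha0 : 0 < a) (hK0 : 0 ≤ K0)
    (hKg : 6000 * M * K0 ≤ g) (hg2 : g ≤ 2 * M) (hαg : α ≤ g) (haα : 10 ^ 18 * M ^ 3 * a ≤ α) :
    ∃ κ, Kp M a g K0 α κ := by
  have hM0 : 0 < M := by linarith
  have hα0 : 0 < α := lt_of_lt_of_le (by positivity) haα
  have hg0 : 0 < g := by linarith
  have hpos : 0 < (K0 / g) ^ 2 + 8000000 * M * a / g := by positivity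
  have hs : (Real.sqrt ((K0 / g) ^ 2 + 8000000 * M * a / g)) ^ 2 =
      (K0 / g) ^ 2 + 8000000 * M * a / g := Real.sq_sqrt hpos.le
  set κ := Real.sqrt ((K0 / g) ^ 2 + 8000000 * M * a / g) with hκ
  have hκ0 : 0 < κ := Real.sqrt_pos.2 hpos
  have hsq : g ^ 2 * κ ^ 2 = K0 ^ 2 + 8000000 * M * a * g := by
    rw [hs]; field_simp
  have hb : 8000000 * M * a ≤ g * κ ^ 2 := by
    have : g * (8000000 * M * a) ≤ g * (g * κ ^ 2) := by nlinarith [sq_nonneg K0]
    exact le_of_mul_le_mul_left this hg0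
  refine ⟨κ, hκ0, hsq, ?_, hg0, hg2, hαg, ?_, hb⟩
  · -- g² (3000 M κ)² ≤ g²
    have h1 : 6000 ^ 2 * M ^ 2 * K0 ^ 2 ≤ g ^ 2 := by
      have := pow_le_pow_left₀ (by positivity) hKg 2
      calc 6000 ^ 2 * M ^ 2 * K0 ^ 2 = (6000 * M * K0) ^ 2 := by ring
        _ ≤ g ^ 2 := this
    have h2 : 10 ^ 18 * M ^ 3 * a ≤ g := haα.trans hαg
    have h3 : 10 ^ 18 * M ^ 3 * a * g ≤ g * g := mul_le_mul_of_nonneg_right h2 hg0.le
    have h4 : g ^ 2 * (3000 * (M * κ)) ^ 2 ≤ g ^ 2 * 1 ^ 2 := by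
      have e1 : g ^ 2 * (3000 * (M * κ)) ^ 2 = 9000000 * M ^ 2 * (g ^ 2 * κ ^ 2) := by ring
      rw [e1, hsq]
      have e2 : 9000000 * M ^ 2 * (K0 ^ 2 + 8000000 * M * a * g) =
          1 / 4 * (6000 ^ 2 * M ^ 2 * K0 ^ 2) + 72 / 10 ^ 6 * (10 ^ 18 * M ^ 3 * a * g) := by ring
      rw [e2]
      nlinarith [sq_nonneg g]
    have h5 := le_of_mul_le_mul_left h4 (by positivity)
    exact (sq_le_sq₀ (by positivity) (by norm_num)).1 h5
  · have h1 : g * κ ^ 2 ≤ 2 * M * κ ^ 2 := mul_le_mul_of_nonneg_right hg2 (sq_nonneg _)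
    have h2 : 8000000 * M * a ≤ 2 * M * κ ^ 2 := hb.trans h1
    have h3 : M * (4000000 * a) ≤ M * κ ^ 2 := by linarith
    have h4 := le_of_mul_le_mul_left h3 hM0
    linarith

/-- all gradients of `ψ` are at most `g κ` -/
theorem G_le (h : Pc S F0 F1 e T i0 M a N0 q) {g K0 α κ : ℝ}
    (hn : |(CF.comb F1 F0 e).n| ≤ g) (hd : |(CF.comb F1 F0 e).d| ≤ g)
    (hK : ‖(CF.comb F1 F0 e).G i0‖ = K0) (k : Kp M a g K0 α κ) {i : ι} (hi : i ∈ T) :
    ‖(CF.comb F1 F0 e).G i‖ ≤ g * κ := by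
  have h1 := (CF.comb F1 F0 e).gsq_le hn hd (h.A h.hi0) (h.B h.hi0) (h.A hi) (h.B hi)
  have h2 := (abs_le.1 h1).2
  rw [hK] at h2
  have hg := k.g0
  have ha := h.a0
  have hM := h.M1
  have h3 : ‖(CF.comb F1 F0 e).G i‖ ^ 2 ≤ (g * κ) ^ 2 := by
    rw [mul_pow, k.sq]
    have : 24 * (g * a) ≤ 8000000 * M * a * g := by
      have : 0 < g * a := by positivity
      nlinarith
    linarith
  exact (sq_le_sq₀ (norm_nonneg _) (by have := k.κ0; positivity)).1 h3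

/-- the time shift -/
theorem shift_ex {n d g : ℝ} (hg : max |n| |d| = g) :
    ∃ u : ℝ, 0 ≤ u ∧ u ≤ 1 ∧ g / 2 ≤ |n - 2 * u * d| := by
  have hg0 : 0 ≤ g := by rw [← hg]; exact (abs_nonneg _).trans (le_max_left _ _)
  by_cases h : g / 2 ≤ |n|
  · exact ⟨0, le_rfl, zero_le_one, by simpa using h⟩
  · push Not at h
    refine ⟨1, zero_le_one, le_rfl, ?_⟩
    have hd : |d| = g := by
      rcases max_choice |n| |d| with h1 | h1
      · rw [h1] at hg; linarith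
      · rw [h1] at hg; exact hg
    have h2 : |2 * 1 * d| = 2 * g := by
      rw [abs_mul, hd]; norm_num
    have h3 := abs_sub_abs_le_abs_sub (2 * 1 * d) n
    rw [h2, abs_sub_comm] at h3
    have h4 : g / 2 ≤ 2 * g - |n| := by linarith
    exact h4.trans h3

/-- pair bounds at the shifted time -/
theorem pairsII (h : Pc S F0 F1 e T i0 M a N0 q) {g K0 α κ : ℝ}
    (hn : |(CF.comb F1 F0 e).n| ≤ g) (hd : |(CF.comb F1 F0 e).d| ≤ g)
    (hK : ‖(CF.comb F1 F0 e).G i0‖ = K0) (k : Kp M a g K0 α κ) {u : ℝ} (hu0 : 0 ≤ u) (hu1 : u ≤ 1)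
    (hu : g / 2 ≤ |(CF.comb F1 F0 e).n - 2 * u * (CF.comb F1 F0 e).d|)
    {i j : ι} (hi : i ∈ T) (hj : j ∈ T)
    (hcell : |inner ℝ (Jr (F0.G i0)) ((S.sh u).x j - (S.sh u).x i)| ≤ κ) :
    ‖S.x j - S.x i‖ ≤ 54 * κ ∧ ‖S.v j - S.v i‖ ≤ 54 * κ ∧ |S.N i j| ≤ 1200 * κ ^ 2 := by
  set p := CF.comb F1 F0 e with hp
  have hM1 := h.M1
  have hM0 : 0 < M := by linarith
  have ha0 := h.a0
  have hg0 := k.g0
  have hκ0 := k.κ0
  have hκM := k.le
  have hκ1 : κ ≤ 1 / 3000 := by nlinarith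
  have hv' : (S.sh u).v = S.v := rfl
  have hAu : ∀ {i}, i ∈ T → |(p.sh u).A i| ≤ 4 * a := by
    intro i hi
    show |p.A i + u * p.B i| ≤ 4 * a
    refine (abs_add_le _ _).trans ?_
    rw [abs_mul, abs_of_nonneg hu0]
    have h1 := h.A hi
    have h2 := h.B hi
    have h3 : u * |p.B i| ≤ 1 * (2 * a) := mul_le_mul hu1 h2 (abs_nonneg _) (by norm_num)
    linarith
  have hAF : ∀ {i}, i ∈ T → |(F0.sh u).A i| ≤ 2 * a := by
    intro i hi
    show |F0.A i + u * F0.B i| ≤ 2 * a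
    refine (abs_add_le _ _).trans ?_
    rw [abs_mul, abs_of_nonneg hu0]
    have h1 := h.A0 i hi
    have h2 := h.B0 i hi
    have h3 : u * |F0.B i| ≤ 1 * a := mul_le_mul hu1 h2 (abs_nonneg _) (by norm_num)
    linarith
  have key := kap_pair (S := S.sh u) (p.sh u) (g := g) (K := g * κ) (b := 4 * a) (κ := κ)
    hg0 hu hd rfl (by
      have := k.hb
      have h1 : 4 * a ≤ 8000000 * M * a := by nlinarith
      linarith) (i := i) (j := j) (h.G_le hn hd hK k hi) (h.G_le hn hd hK k hj) (hAu hi) (hAu hj)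
  obtain ⟨key1, key2⟩ := key
  have hxx : ∀ {i j}, i ∈ T → j ∈ T → ‖(S.sh u).x j - (S.sh u).x i‖ ≤ 1 / (2000000 * M) := by
    intro i j hi hj
    rw [S.sh_x]
    refine (norm_add_le _ _).trans ?_
    rw [norm_smul, Real.norm_eq_abs, abs_of_nonneg hu0]
    have h1 := h.hx i hi j hj
    have h2 := mul_le_mul hu1 (h.hv i hi j hj) (norm_nonneg _) (by norm_num)
    have e1 : 1 / (2000000 * M) = 1 / (4000000 * M) + 1 * (1 / (4000000 * M)) := by
      field_simp; norm_num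
    rw [e1]; linarith
  have hle1 : 1 / (2000000 * M) ≤ 1 / (100 * (3 * M)) := by
    rw [div_le_div_iff₀ (by positivity) (by positivity)]; nlinarith
  have hle2 : 1 / (4000000 * M) ≤ 1 / (100 * (3 * M)) := by
    rw [div_le_div_iff₀ (by positivity) (by positivity)]; nlinarith
  have hc := kap_curve (S := S.sh u) (F0.sh u) (M := 3 * M) (a := 2 * a) (κ := κ) (i0 := i0)
    (i := i) (j := j) (by linarith)
    (by
      show |F0.n - 2 * u * F0.d| ≤ 3 * M
      refine (abs_sub _ _).trans ?_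
      rw [abs_mul, abs_mul, abs_of_nonneg hu0, abs_of_pos (by norm_num : (0:ℝ) < 2)]
      have h1 := h.n0
      have h2 : 2 * u * |F0.d| ≤ 2 * 1 * M :=
        mul_le_mul (by linarith) h.d0 (abs_nonneg _) (by norm_num)
      linarith)
    (by
      show |F0.d| ≤ 3 * M
      linarith [h.d0])
    (hAF hi) (hAF hj) (h.normF0 h.hi0).1 hκ0.le
    (by
      rw [le_div_iff₀ (by positivity)]
      linarith) k.ha
    ((hxx h.hi0 hi).trans hle1) ((h.hv i0 h.hi0 i hi).trans hle2) ((hxx hi hj).trans hle1) key2 hcell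
  rw [hv'] at key1
  set X := ‖(S.sh u).x j - (S.sh u).x i‖ with hX
  have hX0 : 0 ≤ X := norm_nonneg _
  have hv1 : ‖S.v j - S.v i‖ ≤ 44 * κ := by linarith
  have hx1 : ‖S.x j - S.x i‖ ≤ 54 * κ := by
    have e1 : S.x j - S.x i = ((S.sh u).x j - (S.sh u).x i) - u • (S.v j - S.v i) := by
      rw [S.sh_x]; abel
    rw [e1]
    refine (norm_sub_le _ _).trans ?_
    rw [norm_smul, Real.norm_eq_abs, abs_of_nonneg hu0]
    have h2 := mul_le_mul hu1 hv1 (norm_nonneg _) (by norm_num)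
    linarith
  refine ⟨hx1, by linarith, ?_⟩
  have e2 : S.N i j = (S.sh u).N i j - u * ‖S.v j - S.v i‖ ^ 2 / 2 := by
    rw [S.sh_N]; ring
  rw [e2]
  refine (abs_sub _ _).trans ?_
  have h3 : |u * ‖S.v j - S.v i‖ ^ 2 / 2| ≤ (44 * κ) ^ 2 / 2 := by
    rw [abs_of_nonneg (by positivity)]
    have h4 := mul_le_mul hu1 (pow_le_pow_left₀ (norm_nonneg _) hv1 2) (sq_nonneg _) (by norm_num)
    linarith
  have h4 : X ^ 2 ≤ (10 * κ) ^ 2 := pow_le_pow_left₀ hX0 hc 2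
  have h5 : κ * X ≤ κ * (10 * κ) := mul_le_mul_of_nonneg_left hc hκ0.le
  nlinarith

/-- **Case IIb** -/
theorem leafIIb (h : Pc S F0 F1 e T i0 M a N0 q) {g K0 α κ : ℝ}
    (k : Kp M a g K0 α κ) {T1 : Finset ι} (hT1 : T1 ⊆ T) {i : ι} (hi : i ∈ T1)
    (hp : ∀ j ∈ T1, ‖S.x j - S.x i‖ ≤ 54 * κ ∧ ‖S.v j - S.v i‖ ≤ 54 * κ ∧
      |S.N i j| ≤ 1200 * κ ^ 2) :
    (T1.card : ℝ) ≤ N0 * (54 * κ) ^ (1 + q) * (54 * κ) ^ 2 := by
  have hκ0 := k.κ0
  have hM1 := h.M1
  have hκ1 : κ ≤ 1 / 3000 := by have := k.le; nlinarith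
  have h1 := h.D i (hT1 hi) (54 * κ) (by
    have h1 := k.ha
    have h2 : κ * κ ≤ κ * (1 / 3000) := mul_le_mul_of_nonneg_left hκ1 hκ0.le
    nlinarith) (by linarith) T1 hT1 (fun j hj => by
    obtain ⟨a1, a2, a3⟩ := hp j hj
    refine ⟨a1, a2, a3.trans (le_trans ?_ (le_max_left _ _))⟩
    nlinarith [sq_nonneg κ])
  rw [max_eq_left (sq_nonneg _), max_eq_left (zero_le_one' ℝ), div_one] at h1
  exact h1

/-- **Case IIa** -/
theorem leafIIa (h : Pc S F0 F1 e T i0 M a N0 q) {g K0 α κ : ℝ}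
    (hn : |(CF.comb F1 F0 e).n| ≤ g) (hd : |(CF.comb F1 F0 e).d| ≤ g)
    (hK : ‖(CF.comb F1 F0 e).G i0‖ = K0) (k : Kp M a g K0 α κ)
    (haα : 10 ^ 18 * M ^ 3 * a ≤ α) (hbig : 8000000 * M * a * g ≤ K0 ^ 2)
    {T1 : Finset ι} (hT1 : T1 ⊆ T)
    (hp : ∀ i ∈ T1, ∀ j ∈ T1, ‖S.x j - S.x i‖ ≤ 54 * κ ∧ ‖S.v j - S.v i‖ ≤ 54 * κ ∧
      |S.N i j| ≤ 1200 * κ ^ 2) :
    (T1.card : ℝ) ≤ 221186 ^ 4 * (5000 * (1200 * κ ^ 2) * N0 *
      (3584 * a / (g * κ)) ^ (1 + q)) := by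
  set p := CF.comb F1 F0 e with hpdef
  have hκ0 := k.κ0
  have hg0 := k.g0
  have hM1 := h.M1
  have hM0 : 0 < M := by linarith
  have ha0 := h.a0
  have hκM := k.le
  have hκ1 : κ ≤ 1 / 3000 := by nlinarith
  have hN00 := h.N00
  set K := g * κ with hKdef
  have hKpos : 0 < K := by positivity
  have hKsq : K ^ 2 = K0 ^ 2 + 8000000 * M * a * g := by rw [hKdef, mul_pow, k.sq]
  have hK0n : 0 ≤ K0 := by rw [← hK]; exact norm_nonneg _
  have hK0up : K0 ≤ 21 / 10 := by rw [← hK]; exact h.normG h.hi0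
  have hKK : K ^ 2 ≤ 2 * K0 ^ 2 := by linarith
  have hK3 : K ≤ 3 := by
    by_contra hc
    push Not at hc
    nlinarith
  have hag : 0 < a * g := by positivity
  have hKag : 8000000 * M * (a * g) ≤ K ^ 2 := by nlinarith [sq_nonneg K0]
  have hG1 : ∀ i ∈ T, K / 2 ≤ ‖p.G i‖ := by
    intro i hi
    have h1 := p.gsq_le hn hd (h.A h.hi0) (h.B h.hi0) (h.A hi) (h.B hi)
    have h2 := (abs_le.1 h1).1
    rw [hK] at h2
    have h3 : (K / 2) ^ 2 ≤ ‖p.G i‖ ^ 2 := by nlinarith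
    exact (sq_le_sq₀ (by positivity) (norm_nonneg _)).1 h3
  have hKa : 1000000 * (M * a) ≤ K := by
    have h1 : 10 ^ 18 * M ^ 3 * a ≤ g := haα.trans k.αg
    have h2 : (1000000 * (M * a)) ^ 2 ≤ K ^ 2 := by
      have h3 : a * (10 ^ 18 * M ^ 3 * a) ≤ a * g := mul_le_mul_of_nonneg_left h1 ha0.le
      have h4 : (1000000 * (M * a)) ^ 2 = 10 ^ 12 * (M ^ 2 * a ^ 2) := by ring
      have h5 : a * (10 ^ 18 * M ^ 3 * a) = 10 ^ 18 * (M * (M ^ 2 * a ^ 2)) := by ring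
      rw [h5] at h3
      have h6 : M ^ 2 * a ^ 2 ≤ M * (M ^ 2 * a ^ 2) := by nlinarith [sq_nonneg (M * a)]
      have h7 : 8000000 * (a * g) ≤ 8000000 * M * (a * g) := by nlinarith
      have h8 : 0 ≤ M ^ 2 * a ^ 2 := by positivity
      rw [h4]
      linarith
    exact (sq_le_sq₀ (by positivity) hKpos.le).1 h2
  have hhhK : g + K * M ≤ 3001 / 3000 * g := by
    have : K * M = g * (M * κ) := by rw [hKdef]; ring
    rw [this]; nlinarith
  have hcell := cell4_card S T1 (L := 54 * κ) (s := κ / 2048) (by positivity) (by positivity)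
    (fun i hi j hj => (hp i hi j hj).1) (fun i hi j hj => (hp i hi j hj).2.1)
  have e0 : 2 * (54 * κ) / (κ / 2048) + 2 = 221186 := by field_simp; norm_num
  rw [e0] at hcell
  have hm := card_le_cells T1 (cell4 S (κ / 2048))
    (5000 * (1200 * κ ^ 2) * N0 * (3584 * a / K) ^ (1 + q)) (fun i hi => by
    set T2 := T1.filter fun j => cell4 S (κ / 2048) j = cell4 S (κ / 2048) i with hT2
    have hs2 : T2 ⊆ T1 := filter_subset _ _
    have hc2 : ∀ j ∈ T2, ∀ l ∈ T2, ‖S.x l - S.x j‖ ≤ κ / 1024 ∧ ‖S.v l - S.v j‖ ≤ κ / 1024 := by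
      intro j hj l hl
      have h1 := cell4_eq S (s := κ / 2048) (by positivity)
        ((mem_filter.1 hl).2.trans (mem_filter.1 hj).2.symm)
      constructor
      · linarith [h1.1]
      · linarith [h1.2]
    have hW : ∀ i ∈ T2, ∀ j ∈ T2, max ‖S.x j - S.x i‖ ‖S.v j - S.v i‖ ≤
        256 * (2 * a + (g + K * M) * |S.N i j|) / K := by
      intro i hi j hj
      have hiT := hT1 (hs2 hi)
      have hjT := hT1 (hs2 hj)
      refine W_pair F0 p h.n0 h.d0 hn hd (h.A0 i hiT) (h.A0 j hjT) (h.B0 i hiT) (h.B0 j hjT)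
        (h.A hiT) (h.A hjT) (h.B hiT) (h.B hjT) (by linarith) hKpos hK3
        (by linarith [(h.normF0 hiT).2]) (hG1 i hiT)
        ((h.G_le hn hd hK k hiT).trans (by linarith)) (h.dtG hiT ?_) (hc2 i hi j hj).1
        (hc2 i hi j hj).2 ?_
      · have := hG1 i hiT
        have : 0 < M * a := by positivity
        linarith
      · have e1 : K * M + g = g + K * M := by ring
        rw [e1]
        have h1 := mul_le_mul_of_nonneg_right hhhK (by positivity : 0 ≤ κ / 1024)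
        have e2 : 3001 / 3000 * g * (κ / 1024) = 3001 / 3072000 * K := by rw [hKdef]; ring
        rw [e2] at h1
        linarith
    have key := inner_count (S := S) (T := T2) (a := a) (b := 2 * a) (K := K) (hh := g + K * M)
      (c := κ / 1024) (L := 1200 * κ ^ 2) (ρ := 2 * a / g) (th := 0) (N0 := N0) (q := q)
      (Ch := 2) (σ := 3584 * a / K) (fun i hi j hj => (hc2 i hi j hj).1)
      (fun i hi j hj => (hc2 i hi j hj).2) (fun i hi j hj => (hp i (hs2 hi) j (hs2 hj)).2.2) hW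
      hKpos (by positivity) (by positivity) (by positivity) (by positivity) le_rfl h.N00 h.q0 h.q2
      ?_ ?_ ?_ ?_ ?_ ?_ (by positivity) ?_ ?_ (h.D.mono _ (hs2.trans hT1))
    · simpa only [max_eq_left (zero_le_one' ℝ), div_one] using key
    · have e1 : K * (2 * a / g) = 2 * (a * κ) := by rw [hKdef]; field_simp
      rw [e1]
      have : 0 < a * κ := by positivity
      nlinarith
    · have h1 := mul_le_mul_of_nonneg_right hhhK (by positivity : 0 ≤ κ / 1024)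
      have e2 : 3001 / 3000 * g * (κ / 1024) = 3001 / 3072000 * K := by rw [hKdef]; ring
      rw [e2] at h1
      linarith
    · rw [mul_div_assoc', div_le_iff₀ hg0]
      nlinarith
    · rw [mul_div_assoc', mul_div_cancel_left₀ _ hKpos.ne']
      linarith
    · rw [mul_div_assoc', le_div_iff₀ hKpos]
      nlinarith
    · rw [div_pow, div_le_div_iff₀ (by positivity) hg0]
      have : (3584 * a) ^ 2 * g = 12845056 * a * (a * g) := by ring
      rw [this]
      have h1 : 8000000 * (a * g) ≤ K ^ 2 := by nlinarith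
      nlinarith
    · rw [div_le_iff₀ hg0]
      have := k.hb
      nlinarith
    · rw [mul_div_assoc', div_le_iff₀ hKpos]
      nlinarith)
  refine hm.trans ?_
  exact mul_le_mul_of_nonneg_right hcell (by positivity)

set_option maxHeartbeats 1000000 in
/-- **Case II** -/
theorem caseII (h : Pc S F0 F1 e T i0 M a N0 q) {g K0 α : ℝ}
    (hg : max |(CF.comb F1 F0 e).n| |(CF.comb F1 F0 e).d| = g)
    (hK : ‖(CF.comb F1 F0 e).G i0‖ = K0) (hKg : 6000 * M * K0 ≤ g)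
    (hαg : α ≤ g) (haα : 10 ^ 18 * M ^ 3 * a ≤ α) :
    (T.card : ℝ) ≤ 10 ^ 30 * N0 * (10 ^ 11 * M * (a / α)) ^ (1 + q / 2) := by
  set p := CF.comb F1 F0 e with hpdef
  have hM1 := h.M1
  have hM0 : 0 < M := by linarith
  have ha0 := h.a0
  have hq0 := h.q0
  have hN00 := h.N00
  have hn : |p.n| ≤ g := by rw [← hg]; exact le_max_left _ _
  have hd : |p.d| ≤ g := by rw [← hg]; exact le_max_right _ _
  have hg2 : g ≤ 2 * M := by
    rw [← hg]
    refine max_le ?_ ?_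
    · show |F1.n - e * F0.n| ≤ 2 * M
      refine (abs_sub _ _).trans ?_
      rw [abs_mul, h.abs_e, one_mul]
      linarith [h.n0, h.n1]
    · show |F1.d - e * F0.d| ≤ 2 * M
      refine (abs_sub _ _).trans ?_
      rw [abs_mul, h.abs_e, one_mul]
      linarith [h.d0, h.d1]
  have hK0n : 0 ≤ K0 := by rw [← hK]; exact norm_nonneg _
  obtain ⟨κ, k⟩ := Kp_ex hM1 ha0 hK0n hKg hg2 hαg haα
  have hα0 : 0 < α := lt_of_lt_of_le (by positivity) haα
  have hκ0 := k.κ0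
  have hg0 := k.g0
  have hκM := k.le
  have hκ1 : κ ≤ 1 / 3000 := by nlinarith
  obtain ⟨u, hu0, hu1, hu⟩ := shift_ex hg
  -- the cells
  set f : ι → ℤ := fun i => ⌊inner ℝ (Jr (F0.G i0)) ((S.sh u).x i) / κ⌋ with hf
  have hcells : ((T.image f).card : ℝ) ≤ 4 / κ := by
    have h1 := floor_image T (fun i => inner ℝ (Jr (F0.G i0)) ((S.sh u).x i)) (L := 1) (δ := κ)
      hκ0 (by norm_num) (fun i hi j hj => by
        rw [← inner_sub_right]
        refine (abs_real_inner_le_norm _ _).trans ?_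
        rw [Jr_norm, S.sh_x]
        have h2 : ‖(S.x j - S.x i) + u • (S.v j - S.v i)‖ ≤ 1 / 2 := by
          refine (norm_add_le _ _).trans ?_
          rw [norm_smul, Real.norm_eq_abs, abs_of_nonneg hu0]
          have h3 := h.hx i hi j hj
          have h4 := mul_le_mul hu1 (h.hv i hi j hj) (norm_nonneg _) (by norm_num)
          have h5 : 1 / (4000000 * M) ≤ 1 / 4 := by
            rw [div_le_div_iff₀ (by positivity) (by norm_num)]; nlinarith
          linarith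
        have h6 := (h.normF0 h.hi0).2
        have h7 := mul_le_mul h6 h2 (norm_nonneg _) (by norm_num)
        linarith)
    refine h1.trans ?_
    rw [div_add' _ _ _ hκ0.ne', div_le_div_iff_of_pos_right hκ0]
    linarith
  have hpair : ∀ i ∈ T, ∀ j ∈ T.filter (fun j => f j = f i), ∀ l ∈ T.filter (fun j => f j = f i),
      ‖S.x l - S.x j‖ ≤ 54 * κ ∧ ‖S.v l - S.v j‖ ≤ 54 * κ ∧ |S.N j l| ≤ 1200 * κ ^ 2 := by
    intro i hi j hj l hl
    obtain ⟨hj1, hj2⟩ := mem_filter.1 hj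
    obtain ⟨hl1, hl2⟩ := mem_filter.1 hl
    refine h.pairsII hn hd hK k hu0 hu1 hu hj1 hl1 ?_
    rw [inner_sub_right]
    exact abs_sub_le_of_floor hκ0 (hl2.trans hj2.symm)
  have hag : a / g ≤ a / α := div_le_div_of_nonneg_left ha0.le hα0 hαg
  by_cases hb : 8000000 * M * a * g ≤ K0 ^ 2
  · -- IIa
    have h1 := card_le_cells T f (221186 ^ 4 * (5000 * (1200 * κ ^ 2) * N0 *
      (3584 * a / (g * κ)) ^ (1 + q))) (fun i hi =>
        h.leafIIa hn hd hK k haα hb (filter_subset _ _) (hpair i hi))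
    have h2 : (T.card : ℝ) ≤ 4 / κ * (221186 ^ 4 * (5000 * (1200 * κ ^ 2) * N0 *
      (3584 * a / (g * κ)) ^ (1 + q))) :=
      h1.trans (mul_le_mul_of_nonneg_right hcells (by positivity))
    refine h2.trans ?_
    set σ := 3584 * a / (g * κ) with hσ
    have hσ0 : 0 < σ := by positivity
    have h3 : κ * σ ^ (1 + q) ≤ (10 ^ 11 * M * (a / α)) ^ (1 + q / 2) := by
      have e1 : κ * σ = 3584 * (a / g) := by rw [hσ]; field_simp
      have e2 : σ ^ 2 ≤ 2 * (a / g) := by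
        rw [hσ, div_pow, mul_div_assoc', div_le_div_iff₀ (by positivity) hg0]
        have h4 : 8000000 * M * (a * g) ≤ (g * κ) ^ 2 := by
          rw [mul_pow, k.sq]; nlinarith [sq_nonneg K0]
        have hag0 : 0 < a * g := by positivity
        have h5 : 8000000 * (a * g) ≤ 8000000 * M * (a * g) := by nlinarith
        nlinarith
      have hx0 : 0 < 3584 * (a / g) := by positivity
      calc κ * σ ^ (1 + q) = (κ * σ) * σ ^ q := by
            rw [Real.rpow_add hσ0, Real.rpow_one]; ring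
        _ = (κ * σ) * (σ ^ 2) ^ (q / 2) := by
            congr 1
            rw [← Real.rpow_natCast σ 2, ← Real.rpow_mul hσ0.le]
            congr 1; push_cast; ring
        _ ≤ (3584 * (a / g)) * (3584 * (a / g)) ^ (q / 2) := by
            rw [e1]
            refine mul_le_mul_of_nonneg_left ?_ hx0.le
            refine Real.rpow_le_rpow (by positivity) (e2.trans ?_) (by positivity)
            have : 0 < a / g := by positivity
            nlinarith
        _ = (3584 * (a / g)) ^ (1 + q / 2) := by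
            rw [Real.rpow_add hx0, Real.rpow_one]
        _ ≤ (10 ^ 11 * M * (a / α)) ^ (1 + q / 2) := by
            refine Real.rpow_le_rpow hx0.le ?_ (by positivity)
            have : 0 < a / g := by positivity
            have h6 : 3584 * (a / g) ≤ 10 ^ 11 * M * (a / g) := by
              have : 0 < a / g := by positivity
              nlinarith
            exact h6.trans (mul_le_mul_of_nonneg_left hag (by positivity))
    have e3 : 4 / κ * (221186 ^ 4 * (5000 * (1200 * κ ^ 2) * N0 * σ ^ (1 + q))) =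
        (4 * 221186 ^ 4 * 5000 * 1200) * N0 * (κ * σ ^ (1 + q)) := by
      field_simp
    rw [e3]
    refine mul_le_mul (mul_le_mul_of_nonneg_right (by norm_num) hN00) h3 (by positivity)
      (by positivity)
  · -- IIb
    push Not at hb
    have h1 := card_le_cells T f (N0 * (54 * κ) ^ (1 + q) * (54 * κ) ^ 2) (fun i hi =>
        h.leafIIb k (filter_subset _ _) (mem_filter.2 ⟨hi, rfl⟩)
          (hpair i hi i (mem_filter.2 ⟨hi, rfl⟩)))
    have h2 : (T.card : ℝ) ≤ 4 / κ * (N0 * (54 * κ) ^ (1 + q) * (54 * κ) ^ 2) :=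
      h1.trans (mul_le_mul_of_nonneg_right hcells (by positivity))
    refine h2.trans ?_
    have e1 : 4 / κ * (N0 * (54 * κ) ^ (1 + q) * (54 * κ) ^ 2) =
        216 * N0 * ((54 * κ) ^ (1 + q) * (54 * κ)) := by
      field_simp
      ring
    have e2 : (54 * κ) ^ (1 + q) * (54 * κ) = ((54 * κ) ^ 2) ^ (1 + q / 2) := by
      have hp : 0 < 54 * κ := by positivity
      rw [← Real.rpow_natCast (54 * κ) 2, ← Real.rpow_mul hp.le]
      nth_rewrite 2 [← Real.rpow_one (54 * κ)]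
      rw [← Real.rpow_add hp]
      congr 1; push_cast; ring
    rw [e1, e2]
    have h3 : (54 * κ) ^ 2 ≤ 10 ^ 11 * M * (a / α) := by
      have h4 : g ^ 2 * κ ^ 2 ≤ 16000000 * M * a * g := by rw [k.sq]; linarith
      have h5 : g * (g * κ ^ 2) ≤ g * (16000000 * M * a) := by nlinarith
      have h6 := le_of_mul_le_mul_left h5 hg0
      have h7 : κ ^ 2 ≤ 16000000 * M * (a / g) := by
        rw [mul_div_assoc', le_div_iff₀ hg0]; linarith
      have h8 : κ ^ 2 ≤ 16000000 * M * (a / α) :=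
        h7.trans (mul_le_mul_of_nonneg_left hag (by positivity))
      have h9 : 0 < M * (a / α) := by positivity
      nlinarith
    refine mul_le_mul (mul_le_mul_of_nonneg_right (by norm_num) hN00)
      (Real.rpow_le_rpow (by positivity) h3 (by positivity)) (by positivity) (by positivity)

end Pc

end share2

end Crest.Agent.R116.Tc334
end

-- ▼ part R116/Tc6_334
section

/-!
# R116, TILT for conformal slabs, part 6 (helper334): SHARE

`share_abs` : the common rays of two slabs of relative thickness `a` and discrepancy `α` are at most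
`KS M * N0 * (a / α) ^ (1 + q/2)`, when all light boxes of aperture `σ ≥ a` have at most
`N0 σ ^ (3 + q)` of them.
-/

set_option autoImplicit false
set_option linter.unusedSectionVars false
set_option linter.unusedVariables false

namespace Crest.Agent.R116.Tc334

open Finset

section share3

variable {ι : Type*} {S : CS ι}

/-- the constant of SHARE (polynomial in `M`). -/
noncomputable def KS (M : ℝ) : ℝ := 10 ^ 100 * M ^ 20

theorem KS_pos {M : ℝ} (hM : 1 ≤ M) : 0 < KS M := by unfold KS; positivity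

theorem rpow_le_pow3 {x : ℝ} (hx : 1 ≤ x) {t : ℝ} (ht : t ≤ 3) : x ^ t ≤ x ^ 3 := by
  calc x ^ t ≤ x ^ (3:ℝ) := Real.rpow_le_rpow_of_exponent_le hx ht
    _ = x ^ 3 := by norm_cast

/-- one piece -/
theorem Pc.count {F0 F1 : CF S} {e : ℝ} {T : Finset ι} {i0 : ι} {M a N0 q : ℝ}
    (h : Pc S F0 F1 e T i0 M a N0 q) {α : ℝ} (haα : 10 ^ 18 * M ^ 3 * a ≤ α)
    (hα : α ≤ max ‖(CF.comb F1 F0 e).G i0‖
      (max |(CF.comb F1 F0 e).n| |(CF.comb F1 F0 e).d|)) :
    (T.card : ℝ) ≤ 10 ^ 64 * M ^ 7 * N0 * (a / α) ^ (1 + q / 2) := by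
  have hM1 := h.M1
  have hM0 : 0 < M := by linarith
  have ha0 := h.a0
  have hN00 := h.N00
  have hq0 := h.q0
  have hq2 := h.q2
  have hα0 : 0 < α := lt_of_lt_of_le (by positivity) haα
  have haα1 : a / α ≤ 1 := by
    rw [div_le_one hα0]
    refine le_trans ?_ haα
    have : 1 ≤ M ^ 3 := one_le_pow₀ hM1
    nlinarith
  have hx0 : 0 < a / α := by positivity
  set g := max |(CF.comb F1 F0 e).n| |(CF.comb F1 F0 e).d| with hg
  set K0 := ‖(CF.comb F1 F0 e).G i0‖ with hK0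
  have hK0n : 0 ≤ K0 := norm_nonneg _
  rcases le_total g (6000 * M * K0) with hc | hc
  · have hαK : α ≤ 6000 * M * K0 := by
      refine hα.trans (max_le ?_ hc)
      nlinarith
    have h1 := h.caseI (g := g) (le_max_left _ _) (le_max_right _ _) hK0.symm hc hαK haα
    refine h1.trans ?_
    have e1 : (10 ^ 11 * M ^ 2 * (a / α)) ^ (1 + q) ≤
        (10 ^ 33 * M ^ 6) * (a / α) ^ (1 + q / 2) := by
      rw [Real.mul_rpow (by positivity) hx0.le]
      refine mul_le_mul ?_ ?_ (by positivity) (by positivity)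
      · have h2 : 1 ≤ 10 ^ 11 * M ^ 2 := by
          have : 1 ≤ M ^ 2 := one_le_pow₀ hM1
          nlinarith
        refine (rpow_le_pow3 h2 (by linarith)).trans (le_of_eq ?_)
        ring
      · exact Real.rpow_le_rpow_of_exponent_ge hx0 haα1 (by linarith)
    calc 5000 * M * N0 * (10 ^ 11 * M ^ 2 * (a / α)) ^ (1 + q)
        ≤ 5000 * M * N0 * ((10 ^ 33 * M ^ 6) * (a / α) ^ (1 + q / 2)) :=
          mul_le_mul_of_nonneg_left e1 (by positivity)
      _ = 5 * 10 ^ 36 * (M ^ 7 * N0 * (a / α) ^ (1 + q / 2)) := by ring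
      _ ≤ 10 ^ 64 * (M ^ 7 * N0 * (a / α) ^ (1 + q / 2)) :=
          mul_le_mul_of_nonneg_right (by norm_num) (by positivity)
      _ = _ := by ring
  · have hαg : α ≤ g := by
      refine hα.trans (max_le ?_ le_rfl)
      refine le_trans ?_ hc
      nlinarith
    have h1 := h.caseII (g := g) rfl hK0.symm hc hαg haα
    refine h1.trans ?_
    have e1 : (10 ^ 11 * M * (a / α)) ^ (1 + q / 2) ≤
        (10 ^ 33 * M ^ 3) * (a / α) ^ (1 + q / 2) := by
      rw [Real.mul_rpow (by positivity) hx0.le]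
      refine mul_le_mul_of_nonneg_right ?_ (by positivity)
      have h2 : 1 ≤ 10 ^ 11 * M := by nlinarith
      refine (rpow_le_pow3 h2 (by linarith)).trans (le_of_eq ?_)
      ring
    calc 10 ^ 30 * N0 * (10 ^ 11 * M * (a / α)) ^ (1 + q / 2)
        ≤ 10 ^ 30 * N0 * ((10 ^ 33 * M ^ 3) * (a / α) ^ (1 + q / 2)) :=
          mul_le_mul_of_nonneg_left e1 (by positivity)
      _ = 10 ^ 63 * M ^ 3 * (N0 * (a / α) ^ (1 + q / 2)) := by ring
      _ ≤ 10 ^ 64 * M ^ 7 * (N0 * (a / α) ^ (1 + q / 2)) := by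
          refine mul_le_mul_of_nonneg_right ?_ (by positivity)
          have h3 : M ^ 3 ≤ M ^ 7 := pow_le_pow_right₀ hM1 (by norm_num)
          have h4 : 0 < M ^ 3 := by positivity
          nlinarith
      _ = _ := by ring

set_option maxRecDepth 4000 in
set_option maxHeartbeats 1000000 in
/-- **SHARE**, abstract form. -/
theorem share_abs {F0 F1 : CF S} {T : Finset ι} {M a N0 q α : ℝ} (hM : 1 ≤ M) (ha : 0 < a)
    (hα0 : 0 < α) (hN0 : 0 ≤ N0) (hq0 : 0 ≤ q) (hq2 : q ≤ 2)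
    (hx : ∀ i ∈ T, ∀ j ∈ T, ‖S.x j - S.x i‖ ≤ M) (hv : ∀ i ∈ T, ∀ j ∈ T, ‖S.v j - S.v i‖ ≤ M)
    (hN : ∀ i ∈ T, ∀ j ∈ T, |S.N i j| ≤ M)
    (n0 : |F0.n| ≤ M) (d0 : |F0.d| ≤ M) (n1 : |F1.n| ≤ M) (d1 : |F1.d| ≤ M)
    (A0 : ∀ i ∈ T, |F0.A i| ≤ a) (B0 : ∀ i ∈ T, |F0.B i| ≤ a)
    (A1 : ∀ i ∈ T, |F1.A i| ≤ a) (B1 : ∀ i ∈ T, |F1.B i| ≤ a)
    (G0 : ∀ i ∈ T, |‖F0.G i‖ ^ 2 - 1| ≤ M * a) (G1 : ∀ i ∈ T, |‖F1.G i‖ ^ 2 - 1| ≤ M * a)
    (hT : (T.card : ℝ) ≤ N0) (hD : DB S T a q 0 N0)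
    (hα : ∀ e : ℝ, (e = 1 ∨ e = -1) → ∀ i ∈ T, α ≤ max ‖(CF.comb F1 F0 e).G i‖
      (max |(CF.comb F1 F0 e).n| |(CF.comb F1 F0 e).d|)) :
    (T.card : ℝ) ≤ KS M * N0 * (a / α) ^ (1 + q / 2) := by
  have hM0 : 0 < M := by linarith
  have hx0 : 0 < a / α := by positivity
  rcases T.eq_empty_or_nonempty with hE | ⟨i1, hi1⟩
  · rw [hE, card_empty, Nat.cast_zero]
    have := KS_pos hM
    positivity
  by_cases hc : 10 ^ 18 * M ^ 3 * a ≤ α
  · -- main case
    have hδ : M * a ≤ 1 / 100 := by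
      have h1 := hα 1 (Or.inl rfl) i1 hi1
      have h2 : max ‖(CF.comb F1 F0 1).G i1‖ (max |(CF.comb F1 F0 1).n| |(CF.comb F1 F0 1).d|) ≤
          2 + 2 * (M * a) + 2 * M := by
        have hMa : 0 < M * a := by positivity
        refine max_le ?_ (max_le ?_ ?_)
        · show ‖F1.G i1 - (1:ℝ) • F0.G i1‖ ≤ _
          rw [one_smul]
          refine (norm_sub_le _ _).trans ?_
          have h3 : ‖F1.G i1‖ ≤ 1 + M * a := by
            have := (abs_le.1 (G1 i1 hi1)).2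
            nlinarith [norm_nonneg (F1.G i1)]
          have h4 : ‖F0.G i1‖ ≤ 1 + M * a := by
            have := (abs_le.1 (G0 i1 hi1)).2
            nlinarith [norm_nonneg (F0.G i1)]
          linarith
        · show |F1.n - 1 * F0.n| ≤ _
          rw [one_mul]
          refine (abs_sub _ _).trans ?_
          linarith
        · show |F1.d - 1 * F0.d| ≤ _
          rw [one_mul]
          refine (abs_sub _ _).trans ?_
          linarith
      have h3 : 10 ^ 18 * M ^ 3 * a ≤ 2 + 2 * (M * a) + 2 * M := (hc.trans h1).trans h2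
      have h4 : M * (10 ^ 18 * (M * a)) ≤ 10 ^ 18 * M ^ 3 * a := by
        have : M ^ 2 * a ≤ M ^ 3 * a :=
          mul_le_mul_of_nonneg_right (pow_le_pow_right₀ hM (by norm_num)) ha.le
        nlinarith
      have h5 : M * (10 ^ 18 * (M * a)) ≤ M * (4 + 2 * (M * a)) := by
        have : 0 < M * a := by positivity
        nlinarith
      have h6 := le_of_mul_le_mul_left h5 hM0
      have : 0 < M * a := by positivity
      linarith
    have hcard := cell4_card S T (L := M) (s := 1 / (8000000 * M)) (by positivity) hM0.le hx hv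
    have h1 := card_le_cells T (cell4 S (1 / (8000000 * M)))
      (10 ^ 64 * M ^ 7 * N0 * (a / α) ^ (1 + q / 2)) (fun i hi => by
      set T2 := T.filter fun j => cell4 S (1 / (8000000 * M)) j = cell4 S (1 / (8000000 * M)) i
        with hT2
      have hs2 : T2 ⊆ T := filter_subset _ _
      have hiT2 : i ∈ T2 := mem_filter.2 ⟨hi, rfl⟩
      have hc2 : ∀ j ∈ T2, ∀ l ∈ T2, ‖S.x l - S.x j‖ ≤ 1 / (4000000 * M) ∧
          ‖S.v l - S.v j‖ ≤ 1 / (4000000 * M) := by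
        intro j hj l hl
        have h1 := cell4_eq S (s := 1 / (8000000 * M)) (by positivity)
          ((mem_filter.1 hl).2.trans (mem_filter.1 hj).2.symm)
        have e1 : 2 * (1 / (8000000 * M)) = 1 / (4000000 * M) := by field_simp; norm_num
        rw [e1] at h1
        exact h1
      obtain ⟨e, he, hpos⟩ : ∃ e : ℝ, (e = 1 ∨ e = -1) ∧ 0 ≤ inner ℝ (e • F0.G i) (F1.G i) := by
        rcases le_total 0 (inner ℝ (F0.G i) (F1.G i)) with hp | hp
        · exact ⟨1, Or.inl rfl, by rw [one_smul]; exact hp⟩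
        · exact ⟨-1, Or.inr rfl, by rw [real_inner_smul_left]; linarith⟩
      have hP : Pc S F0 F1 e T2 i M a N0 q :=
        { he := he
          M1 := hM
          a0 := ha
          hδ := hδ
          N00 := hN0
          q0 := hq0
          q2 := hq2
          hi0 := hiT2
          hx := fun j hj l hl => (hc2 j hj l hl).1
          hv := fun j hj l hl => (hc2 j hj l hl).2
          hN := fun j hj l hl => hN j (hs2 hj) l (hs2 hl)
          n0 := n0
          d0 := d0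
          n1 := n1
          d1 := d1
          A0 := fun j hj => A0 j (hs2 hj)
          B0 := fun j hj => B0 j (hs2 hj)
          A1 := fun j hj => A1 j (hs2 hj)
          B1 := fun j hj => B1 j (hs2 hj)
          G0 := fun j hj => G0 j (hs2 hj)
          G1 := fun j hj => G1 j (hs2 hj)
          pos := hpos
          D := hD.mono _ hs2 }
      exact hP.count hc (hα e he i hi))
    have h2 : 2 * M / (1 / (8000000 * M)) + 2 ≤ 20000000 * M ^ 2 := by
      rw [div_div_eq_mul_div, div_one]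
      nlinarith
    have h3 : (2 * M / (1 / (8000000 * M)) + 2) ^ 4 ≤ (20000000 * M ^ 2) ^ 4 :=
      pow_le_pow_left₀ (by positivity) h2 4
    calc (T.card : ℝ) ≤ (20000000 * M ^ 2) ^ 4 * (10 ^ 64 * M ^ 7 * N0 * (a / α) ^ (1 + q / 2)) :=
          h1.trans (mul_le_mul_of_nonneg_right (hcard.trans h3) (by positivity))
      _ = 16 * 10 ^ 92 * M ^ 15 * (N0 * (a / α) ^ (1 + q / 2)) := by ring
      _ ≤ KS M * (N0 * (a / α) ^ (1 + q / 2)) := by
          refine mul_le_mul_of_nonneg_right ?_ (by positivity)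
          unfold KS
          have h4 : M ^ 15 ≤ M ^ 20 := pow_le_pow_right₀ hM (by norm_num)
          have h5 : 0 < M ^ 15 := by positivity
          nlinarith
      _ = _ := by ring
  · -- trivial case
    push Not at hc
    have h1 : 1 ≤ 10 ^ 18 * M ^ 3 * (a / α) := by
      rw [mul_div_assoc', le_div_iff₀ hα0]; linarith
    have h2 : 1 ≤ (10 ^ 54 * M ^ 9) * (a / α) ^ (1 + q / 2) := by
      calc (1:ℝ) ≤ (10 ^ 18 * M ^ 3 * (a / α)) ^ (1 + q / 2) := Real.one_le_rpow h1 (by positivity)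
        _ = (10 ^ 18 * M ^ 3) ^ (1 + q / 2) * (a / α) ^ (1 + q / 2) :=
            Real.mul_rpow (by positivity) hx0.le
        _ ≤ (10 ^ 54 * M ^ 9) * (a / α) ^ (1 + q / 2) := by
            refine mul_le_mul_of_nonneg_right ?_ (by positivity)
            have h2 : 1 ≤ 10 ^ 18 * M ^ 3 := by
              have : 1 ≤ M ^ 3 := one_le_pow₀ hM
              nlinarith
            refine (rpow_le_pow3 h2 (by linarith)).trans (le_of_eq ?_)
            ring
    calc (T.card : ℝ) ≤ N0 * 1 := by rw [mul_one]; exact hT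
      _ ≤ N0 * ((10 ^ 54 * M ^ 9) * (a / α) ^ (1 + q / 2)) := mul_le_mul_of_nonneg_left h2 hN0
      _ = 10 ^ 54 * M ^ 9 * (N0 * (a / α) ^ (1 + q / 2)) := by ring
      _ ≤ KS M * (N0 * (a / α) ^ (1 + q / 2)) := by
          refine mul_le_mul_of_nonneg_right ?_ (by positivity)
          unfold KS
          have h4 : M ^ 9 ≤ M ^ 20 := pow_le_pow_right₀ hM (by norm_num)
          have h5 : 0 < M ^ 9 := by positivity
          nlinarith
      _ = _ := by ring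

end share3

end Crest.Agent.R116.Tc334
end

-- ▼ part R116/Tc7_334

/-!
# R116, TILT for conformal slabs, part 7 (helper334): SHARE over 725's geometry

`share_ray` : two conformal functions over one light box `(c, sg, sg², R)`, discrepancy
`‖ΔG‖ + |Δ∂_yφ| sg + |Δd| sg R ≥ α` at every common ray, for both signs.
-/

set_option autoImplicit false
set_option linter.unusedSectionVars false
set_option linter.unusedVariables false

namespace Crest.Agent.R116.Tc334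

open Finset
open Crest.Agent.R116.LZg725 (rx ry nrm Cf InK RayIn)

section geom

variable {ι : Type*}

/-- rays in the units of the box `(sg, R)` at the time `s0` -/
noncomputable def csR (ray : ι → E2 × E2 × ℝ) (sg R s0 : ℝ) : CS ι where
  x := fun i => (sg * R)⁻¹ • rx (ray i).1 (ray i).2.1 s0
  v := fun i => -(sg⁻¹ • (ray i).1)
  y := fun i => (sg ^ 2 * R)⁻¹ * ry (ray i).1 (ray i).2.2 s0

theorem csR_N (ray : ι → E2 × E2 × ℝ) {sg R : ℝ} (s0 : ℝ) (hsg : 0 < sg) (hR : 0 < R) (i j : ι) :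
    (csR ray sg R s0).N i j = (sg ^ 2 * R)⁻¹ *
      (nrm (ray i).1 (rx (ray j).1 (ray j).2.1 s0) (ry (ray j).1 (ray j).2.2 s0) s0 -
        nrm (ray i).1 (rx (ray i).1 (ray i).2.1 s0) (ry (ray i).1 (ray i).2.2 s0) s0) := by
  unfold CS.N csR nrm
  simp only []
  rw [← smul_sub, inner_neg_left, real_inner_smul_left, real_inner_smul_right, inner_sub_right]
  have e : sg⁻¹ * ((sg * R)⁻¹) = (sg ^ 2 * R)⁻¹ := by field_simp
  rw [← mul_assoc sg⁻¹, e]
  ring

theorem csR_dx (ray : ι → E2 × E2 × ℝ) (sg R s0 : ℝ) (i j : ι) :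
    (csR ray sg R s0).x j - (csR ray sg R s0).x i =
      (sg * R)⁻¹ • (rx (ray j).1 (ray j).2.1 s0 - rx (ray i).1 (ray i).2.1 s0) := by
  unfold csR; simp only []; rw [smul_sub]

theorem csR_dv (ray : ι → E2 × E2 × ℝ) (sg R s0 : ℝ) (i j : ι) :
    (csR ray sg R s0).v j - (csR ray sg R s0).v i = -(sg⁻¹ • ((ray j).1 - (ray i).1)) := by
  unfold csR; simp only []; rw [smul_sub]; abel

/-- a conformal function in the units of the box -/
noncomputable def cfR (p : Cf E2) (ray : ι → E2 × E2 × ℝ) {sg R : ℝ} (s0 : ℝ) (hsg : 0 < sg)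
    (hR : 0 < R) : CF (csR ray sg R s0) where
  n := p.ny s0 * sg
  d := p.d * (sg * R)
  A := fun i => (sg * R)⁻¹ * p.ev (rx (ray i).1 (ray i).2.1 s0) (ry (ray i).1 (ray i).2.2 s0) s0
  B := fun i => sg⁻¹ * p.ld (ray i).1 (rx (ray i).1 (ray i).2.1 s0)
    (ry (ray i).1 (ray i).2.2 s0) s0
  G := fun i => p.gr (ray i).1 (rx (ray i).1 (ray i).2.1 s0) s0
  hA := by
    intro i j
    rw [csR_dx, csR_N ray s0 hsg hR, real_inner_smul_right, norm_smul,
      Real.norm_of_nonneg (by positivity : 0 ≤ (sg * R)⁻¹),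
      Cf.ev_expand p (ray i).1 (rx (ray i).1 (ray i).2.1 s0) (ry (ray i).1 (ray i).2.2 s0) s0
        (rx (ray j).1 (ray j).2.1 s0) (ry (ray j).1 (ray j).2.2 s0) s0, sub_self, zero_smul,
      add_zero]
    field_simp
    ring
  hB := by
    intro i j
    rw [csR_dx, csR_dv, csR_N ray s0 hsg hR, norm_neg, norm_smul, inner_neg_right,
      inner_neg_right, real_inner_smul_left, real_inner_smul_right, real_inner_smul_right,
      Real.norm_of_nonneg (by positivity : 0 ≤ sg⁻¹),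
      Cf.ld_dir p (ray i).1 (ray j).1 (rx (ray j).1 (ray j).2.1 s0) _ s0,
      Cf.ld_move p (ray i).1 (rx (ray i).1 (ray i).2.1 s0) (rx (ray j).1 (ray j).2.1 s0)
        (ry (ray i).1 (ray i).2.2 s0) _ s0 s0,
      Cf.gr_move p (ray i).1 (rx (ray i).1 (ray i).2.1 s0) (rx (ray j).1 (ray j).2.1 s0) s0 s0,
      sub_self, zero_smul, add_zero, inner_add_left, real_inner_smul_left]
    field_simp
    ring
  hG := by
    intro i j
    rw [csR_dx, csR_dv,
      Cf.gr_dir p (ray i).1 (ray j).1 (rx (ray j).1 (ray j).2.1 s0) s0,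
      Cf.gr_move p (ray i).1 (rx (ray i).1 (ray i).2.1 s0) (rx (ray j).1 (ray j).2.1 s0) s0 s0,
      sub_self, zero_smul, add_zero, smul_neg, smul_smul, smul_smul]
    have e1 : 2 * (p.d * (sg * R)) * (sg * R)⁻¹ = 2 * p.d := by field_simp
    have e2 : p.ny s0 * sg * sg⁻¹ = p.ny s0 := by field_simp
    rw [e1, e2]
    abel

/-- difference of two conformal functions in the frame of the ray `r`, at the time `s0`, in the units
of the box `(sg, R)`: `‖ΔG‖ + |Δ∂_yφ| sg + |Δd| sg R`. -/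
noncomputable def nd (sg R s0 e : ℝ) (p0 p1 : Cf E2) (r : E2 × E2 × ℝ) : ℝ :=
  ‖p1.gr r.1 (rx r.1 r.2.1 s0) s0 - e • p0.gr r.1 (rx r.1 r.2.1 s0) s0‖ +
    |p1.ny s0 - e * p0.ny s0| * sg + |p1.d - e * p0.d| * (sg * R)

/-- the rays of a light box are close in its units. -/
theorem csR_box {ray : ι → E2 × E2 × ℝ} {c x0 : E2} {y0 s0 sg R w : ℝ} {p : Cf E2} (hsg : 0 < sg)
    (hR : 0 < R) {i j : ι}
    (hi : RayIn c sg (sg ^ 2) R x0 y0 s0 p w (ray i).1 (ray i).2.1 (ray i).2.2)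
    (hj : RayIn c sg (sg ^ 2) R x0 y0 s0 p w (ray j).1 (ray j).2.1 (ray j).2.2) :
    ‖(csR ray sg R s0).x j - (csR ray sg R s0).x i‖ ≤ 2 ∧
    ‖(csR ray sg R s0).v j - (csR ray sg R s0).v i‖ ≤ 2 ∧ |(csR ray sg R s0).N i j| ≤ 4 := by
  have hs00 : |s0 - s0| ≤ R := by rw [sub_self, abs_zero]; exact hR.le
  obtain ⟨a1, a2⟩ := hi
  obtain ⟨b1, b2⟩ := hj
  obtain ⟨⟨-, a3, a4⟩, -⟩ := a2 s0 hs00
  obtain ⟨⟨-, b3, b4⟩, -⟩ := b2 s0 hs00
  rw [sub_self, zero_smul, add_zero] at a3 b3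
  have hdx : ‖rx (ray j).1 (ray j).2.1 s0 - rx (ray i).1 (ray i).2.1 s0‖ ≤ 2 * (sg * R) := by
    have e : rx (ray j).1 (ray j).2.1 s0 - rx (ray i).1 (ray i).2.1 s0 =
        (rx (ray j).1 (ray j).2.1 s0 - x0) - (rx (ray i).1 (ray i).2.1 s0 - x0) := by abel
    rw [e]
    exact (norm_sub_le _ _).trans (by linarith)
  refine ⟨?_, ?_, ?_⟩
  · rw [csR_dx, norm_smul, Real.norm_of_nonneg (by positivity : 0 ≤ (sg * R)⁻¹)]
    have := mul_le_mul_of_nonneg_left hdx (by positivity : 0 ≤ (sg * R)⁻¹)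
    refine this.trans (le_of_eq ?_)
    field_simp
  · rw [csR_dv, norm_neg, norm_smul, Real.norm_of_nonneg (by positivity : 0 ≤ sg⁻¹)]
    have e : (ray j).1 - (ray i).1 = ((ray j).1 - c) - ((ray i).1 - c) := by abel
    have h1 : ‖(ray j).1 - (ray i).1‖ ≤ 2 * sg := by
      rw [e]; exact (norm_sub_le _ _).trans (by linarith)
    have := mul_le_mul_of_nonneg_left h1 (by positivity : 0 ≤ sg⁻¹)
    refine this.trans (le_of_eq ?_)
    field_simp
  · rw [csR_N ray s0 hsg hR, abs_mul, abs_of_pos (by positivity : 0 < (sg ^ 2 * R)⁻¹)]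
    have e : nrm (ray i).1 (rx (ray j).1 (ray j).2.1 s0) (ry (ray j).1 (ray j).2.2 s0) s0 -
        nrm (ray i).1 (rx (ray i).1 (ray i).2.1 s0) (ry (ray i).1 (ray i).2.2 s0) s0 =
        ((nrm c (rx (ray j).1 (ray j).2.1 s0) (ry (ray j).1 (ray j).2.2 s0) s0 - nrm c x0 y0 s0) -
        (nrm c (rx (ray i).1 (ray i).2.1 s0) (ry (ray i).1 (ray i).2.2 s0) s0 - nrm c x0 y0 s0)) +
        inner ℝ ((ray i).1 - c)
          (rx (ray j).1 (ray j).2.1 s0 - rx (ray i).1 (ray i).2.1 s0) := by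
      unfold nrm
      rw [inner_sub_left, inner_sub_right, inner_sub_right]
      ring
    have h1 : |inner ℝ ((ray i).1 - c)
        (rx (ray j).1 (ray j).2.1 s0 - rx (ray i).1 (ray i).2.1 s0)| ≤ sg * (2 * (sg * R)) :=
      (abs_real_inner_le_norm _ _).trans (mul_le_mul a1 hdx (norm_nonneg _) hsg.le)
    have h2 : |nrm (ray i).1 (rx (ray j).1 (ray j).2.1 s0) (ry (ray j).1 (ray j).2.2 s0) s0 -
        nrm (ray i).1 (rx (ray i).1 (ray i).2.1 s0) (ry (ray i).1 (ray i).2.2 s0) s0| ≤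
        4 * (sg ^ 2 * R) := by
      rw [e]
      refine (abs_add_le _ _).trans ?_
      have := abs_sub (nrm c (rx (ray j).1 (ray j).2.1 s0) (ry (ray j).1 (ray j).2.2 s0) s0 -
        nrm c x0 y0 s0) (nrm c (rx (ray i).1 (ray i).2.1 s0) (ry (ray i).1 (ray i).2.2 s0) s0 -
        nrm c x0 y0 s0)
      nlinarith
    have := mul_le_mul_of_nonneg_left h2 (by positivity : 0 ≤ (sg ^ 2 * R)⁻¹)
    refine this.trans (le_of_eq ?_)
    field_simp

/-- rays close in the units of the box lie in the small light box around the ray `i`. -/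
theorem ray_near {ray : ι → E2 × E2 × ℝ} {s0 sg R w : ℝ} {p : Cf E2} (hsg : 0 < sg)
    (hR : 0 < R) {i j : ι} {σ : ℝ} (hσ : 0 < σ)
    (hx : ‖(csR ray sg R s0).x j - (csR ray sg R s0).x i‖ ≤ σ)
    (hv : ‖(csR ray sg R s0).v j - (csR ray sg R s0).v i‖ ≤ σ)
    (hN : |(csR ray sg R s0).N i j| ≤ σ ^ 2)
    (hw : ∀ s, |s - s0| ≤ R → |p.ev (rx (ray j).1 (ray j).2.1 s) (ry (ray j).1 (ray j).2.2 s) s| ≤ w) :
    RayIn (ray i).1 (2 * σ * sg) ((2 * σ * sg) ^ 2) R (rx (ray i).1 (ray i).2.1 s0)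
      (ry (ray i).1 (ray i).2.2 s0) s0 p w (ray j).1 (ray j).2.1 (ray j).2.2 := by
  rw [csR_dx, norm_smul, Real.norm_of_nonneg (by positivity : 0 ≤ (sg * R)⁻¹)] at hx
  rw [csR_dv, norm_neg, norm_smul, Real.norm_of_nonneg (by positivity : 0 ≤ sg⁻¹)] at hv
  rw [csR_N ray s0 hsg hR, abs_mul, abs_of_pos (by positivity : 0 < (sg ^ 2 * R)⁻¹)] at hN
  have hx' : ‖rx (ray j).1 (ray j).2.1 s0 - rx (ray i).1 (ray i).2.1 s0‖ ≤ σ * (sg * R) := by
    have := mul_le_mul_of_nonneg_left hx (by positivity : 0 ≤ sg * R)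
    rw [← mul_assoc, mul_inv_cancel₀ (by positivity : sg * R ≠ 0), one_mul] at this
    linarith
  have hv' : ‖(ray j).1 - (ray i).1‖ ≤ σ * sg := by
    have := mul_le_mul_of_nonneg_left hv hsg.le
    rw [← mul_assoc, mul_inv_cancel₀ hsg.ne', one_mul] at this
    linarith
  have hN' : |nrm (ray i).1 (rx (ray j).1 (ray j).2.1 s0) (ry (ray j).1 (ray j).2.2 s0) s0 -
        nrm (ray i).1 (rx (ray i).1 (ray i).2.1 s0) (ry (ray i).1 (ray i).2.2 s0) s0| ≤
        σ ^ 2 * (sg ^ 2 * R) := by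
    have := mul_le_mul_of_nonneg_left hN (by positivity : 0 ≤ sg ^ 2 * R)
    rw [← mul_assoc, mul_inv_cancel₀ (by positivity : sg ^ 2 * R ≠ 0), one_mul] at this
    linarith
  have hσsg : 0 < σ * sg := by positivity
  refine ⟨by linarith, fun s hs => ⟨⟨hs, ?_, ?_⟩, hw s hs⟩⟩
  · have e : rx (ray j).1 (ray j).2.1 s - rx (ray i).1 (ray i).2.1 s0 + (s - s0) • (ray i).1 =
        (rx (ray j).1 (ray j).2.1 s0 - rx (ray i).1 (ray i).2.1 s0) -
          (s - s0) • ((ray j).1 - (ray i).1) := by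
      unfold rx; module
    rw [e]
    refine (norm_sub_le _ _).trans ?_
    rw [norm_smul, Real.norm_eq_abs]
    have := mul_le_mul hs hv' (norm_nonneg _) hR.le
    linarith
  · have e1 := LZg725.nrm_ray' (ray i).1 (ray j).1 (ray j).2.1 (ray j).2.2 s
    have e2 := LZg725.nrm_ray' (ray i).1 (ray j).1 (ray j).2.1 (ray j).2.2 s0
    have e : nrm (ray i).1 (rx (ray j).1 (ray j).2.1 s) (ry (ray j).1 (ray j).2.2 s) s -
        nrm (ray i).1 (rx (ray i).1 (ray i).2.1 s0) (ry (ray i).1 (ray i).2.2 s0) s0 =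
        (nrm (ray i).1 (rx (ray j).1 (ray j).2.1 s0) (ry (ray j).1 (ray j).2.2 s0) s0 -
        nrm (ray i).1 (rx (ray i).1 (ray i).2.1 s0) (ry (ray i).1 (ray i).2.2 s0) s0) +
        (s - s0) * (‖(ray j).1 - (ray i).1‖ ^ 2 / 2) := by
      rw [e1, e2]; ring
    rw [e]
    refine (abs_add_le _ _).trans ?_
    rw [abs_mul, abs_of_nonneg (a := ‖(ray j).1 - (ray i).1‖ ^ 2 / 2) (by positivity)]
    have h1 := mul_le_mul hs (div_le_div_of_nonneg_right
      (pow_le_pow_left₀ (norm_nonneg _) hv' 2) two_pos.le) (by positivity) hR.le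
    have h2 : 0 < σ ^ 2 * (sg ^ 2 * R) := by positivity
    nlinarith

set_option maxRecDepth 4000 in
set_option maxHeartbeats 1000000 in
/-- **SHARE over one light box.** -/
theorem share_ray {ray : ι → E2 × E2 × ℝ} {T : Finset ι} {c x0 : E2}
    {y0 s0 sg s1 R M N0 q α : ℝ} {p0 p1 : Cf E2} (hM : 1 ≤ M) (hR : 0 < R) (hsg : 0 < sg)
    (hs1 : 0 < s1) (hα0 : 0 < α) (hN0 : 0 ≤ N0) (hq0 : 0 ≤ q) (hq2 : q ≤ 2)
    (disc0 : p0.disc = 1) (disc1 : p1.disc = 1)
    (ny0 : ∀ s, |s - s0| ≤ R → |p0.ny s| * sg ≤ M) (ny1 : ∀ s, |s - s0| ≤ R → |p1.ny s| * sg ≤ M)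
    (hr0 : ∀ i ∈ T, RayIn c sg (sg ^ 2) R x0 y0 s0 p0 (s1 * R) (ray i).1 (ray i).2.1 (ray i).2.2)
    (hr1 : ∀ i ∈ T, ∀ s, |s - s0| ≤ R →
      |p1.ev (rx (ray i).1 (ray i).2.1 s) (ry (ray i).1 (ray i).2.2 s) s| ≤ s1 * R)
    (hT : (T.card : ℝ) ≤ N0)
    (hD : ∀ i ∈ T, ∀ σ : ℝ, 100 * s1 ≤ σ * sg → σ ≤ 1 / 4 → ∀ T' : Finset ι, T' ⊆ T →
      (∀ j ∈ T', RayIn (ray i).1 (2 * σ * sg) ((2 * σ * sg) ^ 2) R (rx (ray i).1 (ray i).2.1 s0)
        (ry (ray i).1 (ray i).2.2 s0) s0 p0 (s1 * R) (ray j).1 (ray j).2.1 (ray j).2.2) →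
      (T'.card : ℝ) ≤ N0 * σ ^ (3 + q))
    (hα : ∀ e : ℝ, (e = 1 ∨ e = -1) → ∀ i ∈ T, α ≤ nd sg R s0 e p0 p1 (ray i)) :
    (T.card : ℝ) ≤ 9 * KS (6 * M) * N0 * (s1 / (sg * α)) ^ (1 + q / 2) := by
  have hM0 : 0 < M := by linarith
  have hs00 : |s0 - s0| ≤ R := by rw [sub_self, abs_zero]; exact hR.le
  have hd : ∀ p : Cf E2, (∀ s, |s - s0| ≤ R → |p.ny s| * sg ≤ M) → |p.d| * (sg * R) ≤ M := by
    intro p h
    have h1 := LZg725.d_le_of_ny (K := M) (T := sg) hR.le hsg.le h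
    have h2 : 0 ≤ |p.d| * (sg * R) := by positivity
    nlinarith
  set F0 := cfR p0 ray s0 hsg hR with hF0
  set F1 := cfR p1 ray s0 hsg hR with hF1
  have ha : 0 < s1 / sg := by positivity
  have hAB : ∀ p : Cf E2, ∀ i, (∀ s, |s - s0| ≤ R →
      |p.ev (rx (ray i).1 (ray i).2.1 s) (ry (ray i).1 (ray i).2.2 s) s| ≤ s1 * R) →
      |(cfR p ray s0 hsg hR).A i| ≤ s1 / sg ∧ |(cfR p ray s0 hsg hR).B i| ≤ s1 / sg := by
    intro p i h
    constructor
    · show |(sg * R)⁻¹ * p.ev (rx (ray i).1 (ray i).2.1 s0) (ry (ray i).1 (ray i).2.2 s0) s0| ≤ _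
      rw [abs_mul, abs_of_pos (by positivity : 0 < (sg * R)⁻¹)]
      have := mul_le_mul_of_nonneg_left (h s0 hs00) (by positivity : 0 ≤ (sg * R)⁻¹)
      refine this.trans (le_of_eq ?_)
      field_simp
    · show |sg⁻¹ * p.ld (ray i).1 (rx (ray i).1 (ray i).2.1 s0) (ry (ray i).1 (ray i).2.2 s0) s0| ≤ _
      rw [Cf.ld_ray, abs_mul, abs_of_pos (by positivity : 0 < sg⁻¹)]
      have h1 := LZg725.rB_le hR h
      have h2 : |p.rB (ray i).1 (ray i).2.1 (ray i).2.2| ≤ s1 := le_of_mul_le_mul_right h1 hR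
      have := mul_le_mul_of_nonneg_left h2 (by positivity : 0 ≤ sg⁻¹)
      refine this.trans (le_of_eq ?_)
      field_simp
  have hG : ∀ p : Cf E2, p.disc = 1 → (∀ s, |s - s0| ≤ R → |p.ny s| * sg ≤ M) → ∀ i,
      (∀ s, |s - s0| ≤ R →
      |p.ev (rx (ray i).1 (ray i).2.1 s) (ry (ray i).1 (ray i).2.2 s) s| ≤ s1 * R) →
      |‖(cfR p ray s0 hsg hR).G i‖ ^ 2 - 1| ≤ 6 * M * (s1 / sg) := by
    intro p hdisc hny i h
    have h1 := LZg725.gr_slab (w := s1 / sg) (T := sg ^ 2) hR hsg le_rfl hM0.le hdisc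
      (fun s hs => by
        have := mul_le_mul_of_nonneg_right (hny s hs) hsg.le
        have e : |p.ny s| * sg ^ 2 = |p.ny s| * sg * sg := by ring
        rw [e]; exact this) (by positivity)
      (C := (ray i).1) (a := (ray i).2.1) (k := (ray i).2.2) (fun s hs => by
        refine (h s hs).trans (le_of_eq ?_)
        field_simp) hs00
    have e : (cfR p ray s0 hsg hR).G i = p.gr (ray i).1 (rx (ray i).1 (ray i).2.1 s0) s0 := rfl
    rw [e]
    have h2 : 0 < M * (s1 / sg) := by positivity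
    linarith
  have hev0 : ∀ i ∈ T, ∀ s, |s - s0| ≤ R →
      |p0.ev (rx (ray i).1 (ray i).2.1 s) (ry (ray i).1 (ray i).2.2 s) s| ≤ s1 * R :=
    fun i hi s hs => ((hr0 i hi).2 s hs).2
  have hbox : ∀ i ∈ T, ∀ j ∈ T, ‖(csR ray sg R s0).x j - (csR ray sg R s0).x i‖ ≤ 2 ∧
      ‖(csR ray sg R s0).v j - (csR ray sg R s0).v i‖ ≤ 2 ∧ |(csR ray sg R s0).N i j| ≤ 4 :=
    fun i hi j hj => csR_box hsg hR (hr0 i hi) (hr0 j hj)
  have key := share_abs (S := csR ray sg R s0) (F0 := F0) (F1 := F1) (T := T) (M := 6 * M)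
    (a := s1 / sg) (N0 := N0) (q := q) (α := α / 3) (by linarith) ha (by positivity) hN0 hq0 hq2
    (fun i hi j hj => (hbox i hi j hj).1.trans (by linarith))
    (fun i hi j hj => (hbox i hi j hj).2.1.trans (by linarith))
    (fun i hi j hj => (hbox i hi j hj).2.2.trans (by linarith))
    (by
      show |p0.ny s0 * sg| ≤ 6 * M
      rw [abs_mul, abs_of_pos hsg]
      have := ny0 s0 hs00
      linarith)
    (by
      show |p0.d * (sg * R)| ≤ 6 * M
      rw [abs_mul, abs_of_pos (by positivity : 0 < sg * R)]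
      have := hd p0 ny0
      linarith)
    (by
      show |p1.ny s0 * sg| ≤ 6 * M
      rw [abs_mul, abs_of_pos hsg]
      have := ny1 s0 hs00
      linarith)
    (by
      show |p1.d * (sg * R)| ≤ 6 * M
      rw [abs_mul, abs_of_pos (by positivity : 0 < sg * R)]
      have := hd p1 ny1
      linarith)
    (fun i hi => (hAB p0 i (hev0 i hi)).1) (fun i hi => (hAB p0 i (hev0 i hi)).2)
    (fun i hi => (hAB p1 i (hr1 i hi)).1) (fun i hi => (hAB p1 i (hr1 i hi)).2)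
    (fun i hi => hG p0 disc0 ny0 i (hev0 i hi)) (fun i hi => hG p1 disc1 ny1 i (hr1 i hi))
    hT ?_ ?_
  · refine key.trans ?_
    have hx0 : 0 < s1 / (sg * α) := by positivity
    have e1 : s1 / sg / (α / 3) = 3 * (s1 / (sg * α)) := by field_simp
    rw [e1, Real.mul_rpow (by norm_num) hx0.le]
    have h3 : (3:ℝ) ^ (1 + q / 2) ≤ 9 := by
      calc (3:ℝ) ^ (1 + q / 2) ≤ (3:ℝ) ^ (2:ℝ) :=
            Real.rpow_le_rpow_of_exponent_le (by norm_num) (by linarith)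
        _ = 9 := by norm_num
    have h4 : 0 ≤ KS (6 * M) * N0 := mul_nonneg (KS_pos (by linarith)).le hN0
    calc KS (6 * M) * N0 * ((3:ℝ) ^ (1 + q / 2) * (s1 / (sg * α)) ^ (1 + q / 2))
        ≤ KS (6 * M) * N0 * (9 * (s1 / (sg * α)) ^ (1 + q / 2)) :=
          mul_le_mul_of_nonneg_left (mul_le_mul_of_nonneg_right h3 (by positivity)) h4
      _ = _ := by ring
  · -- density
    intro i hi σ hσ hσ2 T' hT' hj
    have hσ0 : 0 < σ := lt_of_lt_of_le (by positivity) hσ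
    have hσ' : 100 * s1 ≤ σ * sg := by
      have := mul_le_mul_of_nonneg_right hσ hsg.le
      have e : 100 * (s1 / sg) * sg = 100 * s1 := by field_simp
      rwa [e] at this
    have h1 := hD i hi σ hσ' hσ2 T' hT' (fun j hj' => by
      obtain ⟨a1, a2, a3⟩ := hj j hj'
      rw [max_eq_left (sq_nonneg σ)] at a3
      exact ray_near hsg hR hσ0 a1 a2 a3 (hev0 j (hT' hj')))
    rw [max_eq_left (sq_nonneg σ), max_eq_left (zero_le_one' ℝ), div_one]
    refine h1.trans (le_of_eq ?_)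
    rw [mul_assoc]
    congr 1
    have e : (3 + q : ℝ) = (1 + q) + 2 := by ring
    rw [e, Real.rpow_add hσ0]
    norm_cast
  · -- discrepancy
    intro e he i hi
    have h1 := hα e he i hi
    unfold nd at h1
    have e1 : (CF.comb F1 F0 e).G i = p1.gr (ray i).1 (rx (ray i).1 (ray i).2.1 s0) s0 -
        e • p0.gr (ray i).1 (rx (ray i).1 (ray i).2.1 s0) s0 := rfl
    have e2 : |(CF.comb F1 F0 e).n| = |p1.ny s0 - e * p0.ny s0| * sg := by
      show |p1.ny s0 * sg - e * (p0.ny s0 * sg)| = _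
      rw [show p1.ny s0 * sg - e * (p0.ny s0 * sg) = (p1.ny s0 - e * p0.ny s0) * sg by ring,
        abs_mul, abs_of_pos hsg]
    have e3 : |(CF.comb F1 F0 e).d| = |p1.d - e * p0.d| * (sg * R) := by
      show |p1.d * (sg * R) - e * (p0.d * (sg * R))| = _
      rw [show p1.d * (sg * R) - e * (p0.d * (sg * R)) = (p1.d - e * p0.d) * (sg * R) by ring,
        abs_mul, abs_of_pos (by positivity : 0 < sg * R)]
    rw [← e1, ← e2, ← e3] at h1
    have m1 := le_max_left ‖(CF.comb F1 F0 e).G i‖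
      (max |(CF.comb F1 F0 e).n| |(CF.comb F1 F0 e).d|)
    have m2 := le_max_right ‖(CF.comb F1 F0 e).G i‖
      (max |(CF.comb F1 F0 e).n| |(CF.comb F1 F0 e).d|)
    have m3 := le_max_left |(CF.comb F1 F0 e).n| |(CF.comb F1 F0 e).d|
    have m4 := le_max_right |(CF.comb F1 F0 e).n| |(CF.comb F1 F0 e).d|
    linarith

/-- **SHARE over one light box**, bounds of `∂_yφ` at the centre time only. -/
theorem share_ray' {ray : ι → E2 × E2 × ℝ} {T : Finset ι} {c x0 : E2}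
    {y0 s0 sg s1 R M N0 q α : ℝ} {p0 p1 : Cf E2} (hM : 1 ≤ M) (hR : 0 < R) (hsg : 0 < sg)
    (hs1 : 0 < s1) (hα0 : 0 < α) (hN0 : 0 ≤ N0) (hq0 : 0 ≤ q) (hq2 : q ≤ 2)
    (disc0 : p0.disc = 1) (disc1 : p1.disc = 1)
    (ny0 : |p0.ny s0| * sg ≤ M) (d0 : |p0.d| * (sg * R) ≤ M)
    (ny1 : |p1.ny s0| * sg ≤ M) (d1 : |p1.d| * (sg * R) ≤ M)
    (hr0 : ∀ i ∈ T, RayIn c sg (sg ^ 2) R x0 y0 s0 p0 (s1 * R) (ray i).1 (ray i).2.1 (ray i).2.2)
    (hr1 : ∀ i ∈ T, ∀ s, |s - s0| ≤ R →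
      |p1.ev (rx (ray i).1 (ray i).2.1 s) (ry (ray i).1 (ray i).2.2 s) s| ≤ s1 * R)
    (hT : (T.card : ℝ) ≤ N0)
    (hD : ∀ i ∈ T, ∀ σ : ℝ, 100 * s1 ≤ σ * sg → σ ≤ 1 / 4 → ∀ T' : Finset ι, T' ⊆ T →
      (∀ j ∈ T', RayIn (ray i).1 (2 * σ * sg) ((2 * σ * sg) ^ 2) R (rx (ray i).1 (ray i).2.1 s0)
        (ry (ray i).1 (ray i).2.2 s0) s0 p0 (s1 * R) (ray j).1 (ray j).2.1 (ray j).2.2) →
      (T'.card : ℝ) ≤ N0 * σ ^ (3 + q))
    (hα : ∀ e : ℝ, (e = 1 ∨ e = -1) → ∀ i ∈ T, α ≤ nd sg R s0 e p0 p1 (ray i)) :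
    (T.card : ℝ) ≤ 9 * KS (18 * M) * N0 * (s1 / (sg * α)) ^ (1 + q / 2) := by
  have hny : ∀ p : Cf E2, |p.ny s0| * sg ≤ M → |p.d| * (sg * R) ≤ M →
      ∀ s, |s - s0| ≤ R → |p.ny s| * sg ≤ 3 * M := by
    intro p h1 h2 s hs
    have e : p.ny s = p.ny s0 - 2 * p.d * (s - s0) := by
      have := Cf.ny_sub p s0 s
      linarith
    have h3 : |p.ny s| ≤ |p.ny s0| + 2 * |p.d| * R := by
      rw [e]
      refine (abs_sub _ _).trans ?_
      rw [abs_mul, abs_mul, abs_of_pos (two_pos : (0:ℝ) < 2)]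
      have := mul_le_mul_of_nonneg_left hs (by positivity : 0 ≤ 2 * |p.d|)
      linarith
    have h4 := mul_le_mul_of_nonneg_right h3 hsg.le
    nlinarith
  have key := share_ray (M := 3 * M) (by linarith) hR hsg hs1 hα0 hN0 hq0 hq2 disc0 disc1
    (hny p0 ny0 d0) (hny p1 ny1 d1) hr0 hr1 hT hD hα
  have e : 6 * (3 * M) = 18 * M := by ring
  rwa [e] at key

end geom

end Crest.Agent.R116.Tc334
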