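import Crest.Agent.R116.UpC1_192
import Crest.Agent.R116.CWd1_480
import Crest.Agent.R116.Cad1_538
import Crest.Agent.R116.AlB1_888

-- ▼ part R116/UpC2_192
section

/-!
# R116: UPPER for the cone (F3), generic part 2 (helper192)

`upper_gen`: the energy, on a small cell (frame `A`), of a sum of transported represented pieces is at
most `(adet A1 / adet A) ν` times the sum of their plate energies (frame `A1`), where the pieces are
grouped in strips `st` whose frequency sets are almost orthogonal in the metric `A` and `ν` bounds the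
number of active pieces of a strip.  `upper_selG`: the same for selections (`v i = 1_{S i} u i`), where
the active pieces are those whose selection meets the `X`-plate.
-/

set_option autoImplicit false
set_option linter.unusedSectionVars false

open MeasureTheory FourierTransform
open scoped ContDiff ENNReal

namespace Crest.Agent.R116.Up192

open Crest.Agent.R138.Wf448
open Crest.Agent.R138.Defs (ee)
open Crest.Agent.R116.CWp480

set_option maxHeartbeats 800000 in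
/-- one piece on the small cell. -/
theorem one_gen (V : Type) [NormedAddCommGroup V] [InnerProductSpace ℝ V] [FiniteDimensional ℝ V]
    [MeasurableSpace V] [BorelSpace V] (n : ℕ) : ∃ C : ℝ, 0 ≤ C ∧
    ∀ (A A1 : V ≃L[ℝ] V) (L R : ℝ), 1 ≤ L → 1 ≤ R → (∀ x, ‖A1 x‖ ≤ L * ‖A x‖) →
    ∀ (c : V) (F G v : V → ℂ) (vv cc ξ0 : V) (A' : V ≃L[ℝ] V) (L' Q Q' : ℝ), 1 ≤ L' → 0 < Q →
    Integrable F → (∀ ξ, F ξ ≠ 0 → ∃ η, ‖η‖ ≤ R ∧ ξ = ξ0 + adj (A1 : V →L[ℝ] V) η) →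
    (∀ x, ‖A1 x‖ ≤ L' * ‖A' x‖) → Tra A1 (n + dd V) Q vv F G → Rep (n + dd V) Q' A' cc G v →
    wE (n + dd V) (A : V →L[ℝ] V) c F ≤
      ENNReal.ofReal (C * (L ^ (2 * n) * R ^ Module.finrank ℝ V) * (Q ^ 2 * Q' ^ 2 * L' ^ n) *
        (adet (A1 : V →L[ℝ] V) / adet (A : V →L[ℝ] V))) *
        ∫⁻ y, ENNReal.ofReal (pa n A1 (y - vv - c)) * ‖v y‖ₑ ^ 2 := by
  obtain ⟨C1, hC1, h1⟩ := lcA (V := V) n
  obtain ⟨C2, hC2, h2⟩ := sv_transport V n
  obtain ⟨C3, hC3, h3⟩ := rep_energy V n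
  refine ⟨C1 * (2 ^ n * (C2 * C3)), by positivity, ?_⟩
  intro A A1 L R hL hR hA c F G v vv cc ξ0 A' L' Q Q' hL' hQ hF hloc hA' hT hRep
  have ha := adet0 A
  have ha1 := adet0 A1
  have hG : Integrable G := hRep.int
  have hG2 : MemLp G 2 := hRep.l2
  have b1 := h1 A A1 L R hL hR hA c ξ0 F hF hloc
  have b2 : wE n (A1 : V →L[ℝ] V) c F ≤ ENNReal.ofReal (2 ^ n) * WE (fun x => pa n A1 (x - c)) F := by
    rw [wE_eq, ← WE_const_mul (by positivity)]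
    refine lintegral_mono fun x => mul_le_mul_left (ENNReal.ofReal_le_ofReal ?_) _
    exact dw_le_pa n A1 (x - c)
  have b3 := h2 A1 1 _ (SV_pa A1 n c) Q vv F G hQ hG hG2 hT
  have b4 := h3 A1 1 _ ((SV_pa A1 n c).comp_sub vv) L' A' hL' hA' Q' cc G v hRep
  rw [one_pow, mul_one] at b3
  rw [one_mul] at b4
  calc wE (n + dd V) (A : V →L[ℝ] V) c F ≤ _ := b1
    _ ≤ ENNReal.ofReal (C1 * (L ^ (2 * n) * R ^ Module.finrank ℝ V) *
        (adet (A1 : V →L[ℝ] V) / adet (A : V →L[ℝ] V))) * (ENNReal.ofReal (2 ^ n) *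
          (ENNReal.ofReal (C2 * Q ^ 2) * (ENNReal.ofReal (C3 * Q' ^ 2 * L' ^ n) *
            ∫⁻ y, ENNReal.ofReal (pa n A1 (y - vv - c)) * ‖v y‖ₑ ^ 2))) := by
        gcongr
        refine b2.trans ?_
        gcongr
        refine b3.trans ?_
        gcongr
    _ = _ := by
        rw [← mul_assoc, ← mul_assoc, ← mul_assoc, ← ENNReal.ofReal_mul (by positivity),
          ← ENNReal.ofReal_mul (by positivity), ← ENNReal.ofReal_mul (by positivity)]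
        congr 2
        ring

set_option maxHeartbeats 800000 in
/-- **UPPER**, generic form. -/
theorem upper_gen (V : Type) [NormedAddCommGroup V] [InnerProductSpace ℝ V] [FiniteDimensional ℝ V]
    [MeasurableSpace V] [BorelSpace V] (n : ℕ) : ∃ C : ℝ, 0 ≤ C ∧
    ∀ (A A1 : V ≃L[ℝ] V) (L R : ℝ), 1 ≤ L → 1 ≤ R → (∀ x, ‖A1 x‖ ≤ L * ‖A x‖) →
    ∀ (c : V) (κ : Type) (s : Finset κ) (st : κ → ℤ) (U : ℤ → Set V) (F G v : κ → V → ℂ)
      (vv cc ξ0 : κ → V) (A' : κ → V ≃L[ℝ] V) (P L' Q Q' : ℝ), 0 < P → 1 ≤ L' → 0 < Q →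
    (∀ ξ, (Set.ncard {k | k ∈ s.image st ∧ ξ ∈ thk A (U k)} : ℝ) ≤ P) →
    (∀ i ∈ s, ∀ ξ, F i ξ ≠ 0 → ξ ∈ U (st i)) →
    (∀ i ∈ s, Integrable (F i)) → (∀ i ∈ s, MemLp (F i) 2) →
    (∀ i ∈ s, ∀ ξ, F i ξ ≠ 0 → ∃ η, ‖η‖ ≤ R ∧ ξ = ξ0 i + adj (A1 : V →L[ℝ] V) η) →
    (∀ i ∈ s, ∀ x, ‖A1 x‖ ≤ L' * ‖A' i x‖) →
    (∀ i ∈ s, Tra A1 (n + dd V) Q (vv i) (F i) (G i)) →
    (∀ i ∈ s, Rep (n + dd V) Q' (A' i) (cc i) (G i) (v i)) →
    ∀ (Act : κ → Prop) [DecidablePred Act] (ν : ℝ),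
    (∀ k, (((s.filter fun i => st i = k).filter Act).card : ℝ) ≤ ν) →
    wE (n + dd V) (A : V →L[ℝ] V) c (fun ξ => ∑ i ∈ s, F i ξ) ≤
      ENNReal.ofReal (C * P * (L ^ (2 * n) * R ^ Module.finrank ℝ V) * (Q ^ 2 * Q' ^ 2 * L' ^ n) *
        (adet (A1 : V →L[ℝ] V) / adet (A : V →L[ℝ] V))) *
        (ENNReal.ofReal ν * (∑ i ∈ s.filter Act,
          ∫⁻ y, ENNReal.ofReal (pa n A1 (y - vv i - c)) * ‖v i y‖ₑ ^ 2) +
        (s.card : ℝ≥0∞) * ∑ i ∈ s.filter (fun i => ¬ Act i),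
          ∫⁻ y, ENNReal.ofReal (pa n A1 (y - vv i - c)) * ‖v i y‖ₑ ^ 2) := by
  classical
  obtain ⟨C1, hC1, h1⟩ := orthoA_row (V := V) (n + dd V)
  obtain ⟨C2, hC2, h2⟩ := one_gen V n
  refine ⟨C1 * 2 * C2, by positivity, ?_⟩
  intro A A1 L R hL hR hA c κ s st U F G v vv cc ξ0 A' P L' Q Q' hP hL' hQ hov hU hF hF2 hloc hA' hT
    hRep Act _ ν hν
  have ha := adet0 A
  have ha1 := adet0 A1
  set K : Finset ℤ := s.image st with hK
  set sk : ℤ → Finset κ := fun k => s.filter (fun i => st i = k) with hsk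
  have hsks : ∀ k, ∀ i ∈ sk k, i ∈ s := fun k i hi => (Finset.mem_filter.1 hi).1
  have eF : (fun ξ => ∑ k ∈ K, ∑ i ∈ sk k, F i ξ) = fun ξ => ∑ i ∈ s, F i ξ := by
    funext ξ
    exact Finset.sum_fiberwise_of_maps_to (fun i hi => Finset.mem_image_of_mem _ hi) _
  have a1 := h1 A c {k // k ∈ K} (fun k => U k.1) (fun k ξ => ∑ i ∈ sk k.1, F i ξ) P hP ?_ ?_ ?_ ?_
  · have e2 : (fun ξ => ∑ k : {k // k ∈ K}, ∑ i ∈ sk k.1, F i ξ) = fun ξ => ∑ i ∈ s, F i ξ := by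
      rw [← eF]
      funext ξ
      exact Finset.sum_coe_sort K (fun k => ∑ i ∈ sk k, F i ξ)
    rw [e2, Finset.sum_coe_sort K (fun k => wE (n + dd V) (A : V →L[ℝ] V) c
      (fun ξ => ∑ i ∈ sk k, F i ξ))] at a1
    -- one strip
    have a2 : ∀ k ∈ K, wE (n + dd V) (A : V →L[ℝ] V) c (fun ξ => ∑ i ∈ sk k, F i ξ) ≤
        2 * (ENNReal.ofReal ν * ∑ i ∈ (sk k).filter Act, wE (n + dd V) (A : V →L[ℝ] V) c (F i) +
        (s.card : ℝ≥0∞) * ∑ i ∈ (sk k).filter (fun i => ¬ Act i),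
          wE (n + dd V) (A : V →L[ℝ] V) c (F i)) := by
      intro k _
      refine (wE_split (n + dd V) (A : V →L[ℝ] V) c (sk k) Act F
        (fun i hi => hF i (hsks k i hi))).trans ?_
      gcongr
      · rw [← ENNReal.ofReal_natCast]
        exact ENNReal.ofReal_le_ofReal (hν k)
      · exact (Finset.filter_subset _ _).trans (Finset.filter_subset _ _)
    -- sum over the strips
    have a3 : ∑ k ∈ K, wE (n + dd V) (A : V →L[ℝ] V) c (fun ξ => ∑ i ∈ sk k, F i ξ) ≤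
        2 * (ENNReal.ofReal ν * ∑ i ∈ s.filter Act, wE (n + dd V) (A : V →L[ℝ] V) c (F i) +
        (s.card : ℝ≥0∞) * ∑ i ∈ s.filter (fun i => ¬ Act i),
          wE (n + dd V) (A : V →L[ℝ] V) c (F i)) := by
      refine (Finset.sum_le_sum a2).trans (le_of_eq ?_)
      have b1 : ∀ (Q : κ → Prop) [DecidablePred Q], ∑ k ∈ K, ∑ i ∈ (sk k).filter Q,
          wE (n + dd V) (A : V →L[ℝ] V) c (F i) =
            ∑ i ∈ s.filter Q, wE (n + dd V) (A : V →L[ℝ] V) c (F i) := by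
        intro Q _
        rw [← Finset.sum_fiberwise_of_maps_to (t := K) (g := st) (s := s.filter Q)]
        · refine Finset.sum_congr rfl fun k _ => ?_
          refine Finset.sum_congr ?_ fun _ _ => rfl
          ext i
          simp only [hsk, Finset.mem_filter]
          tauto
        · intro i hi
          exact Finset.mem_image_of_mem _ (Finset.mem_filter.1 hi).1
      rw [← Finset.mul_sum, Finset.sum_add_distrib, ← Finset.mul_sum, ← Finset.mul_sum,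
        b1 Act, b1 (fun i => ¬ Act i)]
    -- one piece
    set W : κ → ℝ≥0∞ := fun i =>
      ∫⁻ y, ENNReal.ofReal (pa n A1 (y - vv i - c)) * ‖v i y‖ₑ ^ 2 with hW
    set D : ℝ := C2 * (L ^ (2 * n) * R ^ Module.finrank ℝ V) * (Q ^ 2 * Q' ^ 2 * L' ^ n) *
        (adet (A1 : V →L[ℝ] V) / adet (A : V →L[ℝ] V)) with hD
    have hD0 : 0 ≤ D := by positivity
    have a4 : ∀ i ∈ s, wE (n + dd V) (A : V →L[ℝ] V) c (F i) ≤ ENNReal.ofReal D * W i := fun i hi =>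
      h2 A A1 L R hL hR hA c (F i) (G i) (v i) (vv i) (cc i) (ξ0 i) (A' i) L' Q Q' hL' hQ (hF i hi)
        (hloc i hi) (hA' i hi) (hT i hi) (hRep i hi)
    have a5 : ∀ (T : κ → Prop) [DecidablePred T], ∑ i ∈ s.filter T,
        wE (n + dd V) (A : V →L[ℝ] V) c (F i) ≤ ENNReal.ofReal D * ∑ i ∈ s.filter T, W i := by
      intro T _
      rw [Finset.mul_sum]
      exact Finset.sum_le_sum fun i hi => a4 i (Finset.mem_filter.1 hi).1
    set X1 := ∑ i ∈ s.filter Act, W i with hX1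
    set X2 := ∑ i ∈ s.filter (fun i => ¬ Act i), W i with hX2
    calc wE (n + dd V) (A : V →L[ℝ] V) c (fun ξ => ∑ i ∈ s, F i ξ) ≤ ENNReal.ofReal (C1 * P) *
          (2 * (ENNReal.ofReal ν * (ENNReal.ofReal D * X1) +
          (s.card : ℝ≥0∞) * (ENNReal.ofReal D * X2))) := by
          refine a1.trans (mul_le_mul_right (a3.trans ?_) _)
          gcongr
          · exact a5 Act
          · exact a5 (fun i => ¬ Act i)
      _ = _ := by
          have e5 : ENNReal.ofReal (C1 * 2 * C2 * P * (L ^ (2 * n) * R ^ Module.finrank ℝ V) *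
              (Q ^ 2 * Q' ^ 2 * L' ^ n) * (adet (A1 : V →L[ℝ] V) / adet (A : V →L[ℝ] V))) =
              ENNReal.ofReal (C1 * P) * 2 * ENNReal.ofReal D := by
            have e6 : (2 : ℝ≥0∞) = ENNReal.ofReal 2 := by simp
            rw [e6, ← ENNReal.ofReal_mul (by positivity), ← ENNReal.ofReal_mul (by positivity)]
            congr 1
            rw [hD]
            ring
          rw [e5]
          ring
  · intro ξ
    refine le_trans ?_ (hov ξ)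
    have e3 : {k | k ∈ K ∧ ξ ∈ thk A (U k)} =
        Subtype.val '' {k : {k // k ∈ K} | ξ ∈ thk A (U k.1)} := by
      ext k
      simp only [Set.mem_ofPred_eq, Set.mem_image, Subtype.exists, exists_and_right,
        exists_eq_right]
      tauto
    rw [e3, Set.ncard_image_of_injective _ Subtype.val_injective]
  · intro k ξ hξ
    obtain ⟨i, hi, hne⟩ := Finset.exists_ne_zero_of_sum_ne_zero hξ
    have h5 := hU i (hsks k.1 i hi) ξ hne
    rwa [(Finset.mem_filter.1 hi).2] at h5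
  · exact fun k => integrable_finsetSum _ fun i hi => hF i (hsks k.1 i hi)
  · exact fun k => memLp_finsetSum _ fun i hi => hF2 i (hsks k.1 i hi)

theorem lint_indG {V : Type} [NormedAddCommGroup V] [MeasurableSpace V] {μ : Measure V} {S : Set V}
    (hS : MeasurableSet S) (w : V → ℝ≥0∞) (u : V → ℂ) :
    ∫⁻ y, w y * ‖S.indicator u y‖ₑ ^ 2 ∂μ = ∫⁻ y in S, w y * ‖u y‖ₑ ^ 2 ∂μ := by
  rw [← lintegral_indicator hS]
  refine lintegral_congr fun y => ?_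
  by_cases hy : y ∈ S
  · rw [Set.indicator_of_mem hy, Set.indicator_of_mem hy]
  · rw [Set.indicator_of_notMem hy, Set.indicator_of_notMem hy]
    simp

/-- **UPPER**, selections, generic form. -/
theorem upper_selG (V : Type) [NormedAddCommGroup V] [InnerProductSpace ℝ V] [FiniteDimensional ℝ V]
    [MeasurableSpace V] [BorelSpace V] (n k : ℕ) : ∃ C : ℝ, 0 ≤ C ∧
    ∀ (A A1 : V ≃L[ℝ] V) (L R : ℝ), 1 ≤ L → 1 ≤ R → (∀ x, ‖A1 x‖ ≤ L * ‖A x‖) →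
    ∀ (c : V) (κ : Type) (s : Finset κ) (st : κ → ℤ) (U : ℤ → Set V) (F G u : κ → V → ℂ)
      (S : κ → Set V) (vv cc ξ0 : κ → V) (A' : κ → V ≃L[ℝ] V) (P L' Q Q' : ℝ), 0 < P → 1 ≤ L' →
    0 < Q →
    (∀ ξ, (Set.ncard {j | j ∈ s.image st ∧ ξ ∈ thk A (U j)} : ℝ) ≤ P) →
    (∀ i ∈ s, ∀ ξ, F i ξ ≠ 0 → ξ ∈ U (st i)) →
    (∀ i ∈ s, Integrable (F i)) → (∀ i ∈ s, MemLp (F i) 2) →
    (∀ i ∈ s, ∀ ξ, F i ξ ≠ 0 → ∃ η, ‖η‖ ≤ R ∧ ξ = ξ0 i + adj (A1 : V →L[ℝ] V) η) →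
    (∀ i ∈ s, ∀ x, ‖A1 x‖ ≤ L' * ‖A' i x‖) →
    (∀ i ∈ s, Tra A1 (n + k + dd V) Q (vv i) (F i) (G i)) → (∀ i ∈ s, MeasurableSet (S i)) →
    (∀ i ∈ s, Rep (n + k + dd V) Q' (A' i) (cc i) (G i) ((S i).indicator (u i))) →
    ∀ (X ν : ℝ), 0 ≤ X → 0 ≤ ν →
    (∀ j, (Set.ncard {i | i ∈ s ∧ st i = j ∧ ∃ y ∈ S i, ‖A1 (y - vv i - c)‖ ≤ X} : ℝ) ≤ ν) →
    wE (n + k + dd V) (A : V →L[ℝ] V) c (fun ξ => ∑ i ∈ s, F i ξ) ≤
      ENNReal.ofReal (C * P * (L ^ (2 * (n + k)) * R ^ Module.finrank ℝ V) *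
        (Q ^ 2 * Q' ^ 2 * L' ^ (n + k)) * (adet (A1 : V →L[ℝ] V) / adet (A : V →L[ℝ] V)) *
        (ν + s.card * ((1 + X) ^ k)⁻¹)) *
        ∑ i ∈ s, ∫⁻ y in S i, ENNReal.ofReal (pa n A1 (y - vv i - c)) * ‖u i y‖ₑ ^ 2 := by
  classical
  obtain ⟨C1, hC1, h1⟩ := upper_gen V (n + k)
  refine ⟨C1, hC1, ?_⟩
  intro A A1 L R hL hR hA c κ s st U F G u S vv cc ξ0 A' P L' Q Q' hP hL' hQ hov hU hF hF2 hloc hA' hT
    hSm hRep X ν hX hν0 hν
  have ha := adet0 A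
  have ha1 := adet0 A1
  set Act : κ → Prop := fun i => ∃ y ∈ S i, ‖A1 (y - vv i - c)‖ ≤ X with hAct
  have a1 := h1 A A1 L R hL hR hA c κ s st U F G (fun i => (S i).indicator (u i)) vv cc ξ0 A' P L' Q
    Q' hP hL' hQ hov hU hF hF2 hloc hA' hT hRep Act ν ?_
  swap
  · intro j
    refine le_trans ?_ (hν j)
    have : ((s.filter fun i => st i = j).filter Act).card ≤
        Set.ncard {i | i ∈ s ∧ st i = j ∧ ∃ y ∈ S i, ‖A1 (y - vv i - c)‖ ≤ X} := by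
      rw [← Set.ncard_coe_finset]
      refine Set.ncard_le_ncard ?_ (s.finite_toSet.subset fun i hi => hi.1)
      intro i hi
      simp only [Finset.coe_filter, Set.mem_ofPred_eq, Finset.mem_filter] at hi
      exact ⟨hi.1.1, hi.1.2, hi.2⟩
    exact_mod_cast this
  refine a1.trans ?_
  set T : κ → ℝ≥0∞ := fun i =>
    ∫⁻ y in S i, ENNReal.ofReal (pa n A1 (y - vv i - c)) * ‖u i y‖ₑ ^ 2 with hT'
  have b1 : ∀ i ∈ s, ∫⁻ y, ENNReal.ofReal (pa (n + k) A1 (y - vv i - c)) *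
      ‖(S i).indicator (u i) y‖ₑ ^ 2 ≤ T i := by
    intro i hi
    rw [lint_indG (hSm i hi) (fun y => ENNReal.ofReal (pa (n + k) A1 (y - vv i - c)))]
    exact lintegral_mono fun y => mul_le_mul' (ENNReal.ofReal_le_ofReal (pa_anti _ _ _ _)) le_rfl
  have b2 : ∀ i ∈ s, ¬ Act i → ∫⁻ y, ENNReal.ofReal (pa (n + k) A1 (y - vv i - c)) *
      ‖(S i).indicator (u i) y‖ₑ ^ 2 ≤ ENNReal.ofReal (((1 + X) ^ k)⁻¹) * T i := by
    intro i hi hPi
    rw [lint_indG (hSm i hi) (fun y => ENNReal.ofReal (pa (n + k) A1 (y - vv i - c))), hT',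
      ← lintegral_const_mul' _ _ ENNReal.ofReal_ne_top]
    refine setLIntegral_mono' (hSm i hi) fun y hy => ?_
    rw [← mul_assoc, ← ENNReal.ofReal_mul (by positivity)]
    refine mul_le_mul' (ENNReal.ofReal_le_ofReal (pa_add_le hX n k ?_)) le_rfl
    by_contra hc
    push Not at hc
    exact hPi ⟨y, hy, hc.le⟩
  have c1 : ∑ i ∈ s.filter Act, ∫⁻ y, ENNReal.ofReal (pa (n + k) A1 (y - vv i - c)) *
      ‖(S i).indicator (u i) y‖ₑ ^ 2 ≤ ∑ i ∈ s, T i :=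
    (Finset.sum_le_sum fun i hi => b1 i (Finset.mem_filter.1 hi).1).trans
      (Finset.sum_le_sum_of_subset (Finset.filter_subset _ _))
  have c2 : ∑ i ∈ s.filter (fun i => ¬ Act i), ∫⁻ y, ENNReal.ofReal (pa (n + k) A1 (y - vv i - c)) *
      ‖(S i).indicator (u i) y‖ₑ ^ 2 ≤ ENNReal.ofReal (((1 + X) ^ k)⁻¹) * ∑ i ∈ s, T i := by
    rw [Finset.mul_sum]
    exact (Finset.sum_le_sum fun i hi => b2 i (Finset.mem_filter.1 hi).1
      (Finset.mem_filter.1 hi).2).trans (Finset.sum_le_sum_of_subset (Finset.filter_subset _ _))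
  set D : ℝ := C1 * P * (L ^ (2 * (n + k)) * R ^ Module.finrank ℝ V) *
        (Q ^ 2 * Q' ^ 2 * L' ^ (n + k)) * (adet (A1 : V →L[ℝ] V) / adet (A : V →L[ℝ] V)) with hD
  have hD0 : 0 ≤ D := by positivity
  calc _ ≤ ENNReal.ofReal D * (ENNReal.ofReal ν * (∑ i ∈ s, T i) +
        (s.card : ℝ≥0∞) * (ENNReal.ofReal (((1 + X) ^ k)⁻¹) * ∑ i ∈ s, T i)) := by gcongr
    _ = _ := by
        rw [ENNReal.ofReal_mul hD0, ENNReal.ofReal_add hν0 (by positivity),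
          ENNReal.ofReal_mul (p := (s.card : ℝ)) (by positivity), ENNReal.ofReal_natCast]
        ring

end Crest.Agent.R116.Up192
end

-- ▼ part R116/UpC2_448
section

/-!
# R116: UPPER-C, cone instance, part 1: cell frames, strips (helper448)

Cell frame of the child cap `C` in the strip with normal direction `b 0`:
`X ↦ (s0 <b 0, lat X>, s1 <b 1, lat X>, κ (X 2 + <C, lat X>))`.
-/

set_option autoImplicit false
set_option linter.unusedSectionVars false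

open MeasureTheory FourierTransform
open scoped ContDiff ENNReal

namespace Crest.Agent.R116.UpC448

open Crest.Agent.R138.Wf448
open Crest.Agent.R138.Defs (E2 ee)
open Crest.Agent.R138.Wpk685 (win fat cen caps)
open Crest.Agent.R116.CWp480 Crest.Agent.R116.CDef480 Crest.Agent.R116.CWc480
open Crest.Agent.R116.Up192 (pa pa_pos)

/-! ### the cell frame -/

/-- diagonal map in the basis `b`. -/
noncomputable def dg (b : OrthonormalBasis (Fin 2) ℝ E2) (s0 s1 : ℝ) (x : E2) : E2 :=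
  (s0 * inner ℝ (b 0) x) • b 0 + (s1 * inner ℝ (b 1) x) • b 1

theorem dg_add (b : OrthonormalBasis (Fin 2) ℝ E2) (s0 s1 : ℝ) (x y : E2) :
    dg b s0 s1 (x + y) = dg b s0 s1 x + dg b s0 s1 y := by
  unfold dg
  rw [inner_add_right, inner_add_right, mul_add, mul_add, add_smul, add_smul]
  abel

theorem dg_smul (b : OrthonormalBasis (Fin 2) ℝ E2) (s0 s1 c : ℝ) (x : E2) :
    dg b s0 s1 (c • x) = c • dg b s0 s1 x := by
  unfold dg
  rw [inner_smul_right, inner_smul_right, smul_add, smul_smul, smul_smul]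
  congr 2 <;> ring

theorem inner_b00 (b : OrthonormalBasis (Fin 2) ℝ E2) : inner ℝ (b 0) (b 0) = (1:ℝ) := b.inner_eq_one 0
theorem inner_b11 (b : OrthonormalBasis (Fin 2) ℝ E2) : inner ℝ (b 1) (b 1) = (1:ℝ) := b.inner_eq_one 1
theorem inner_b01 (b : OrthonormalBasis (Fin 2) ℝ E2) : inner ℝ (b 0) (b 1) = (0:ℝ) :=
  b.inner_eq_zero (by decide)
theorem inner_b10 (b : OrthonormalBasis (Fin 2) ℝ E2) : inner ℝ (b 1) (b 0) = (0:ℝ) :=
  b.inner_eq_zero (by decide)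

theorem inner_dg0 (b : OrthonormalBasis (Fin 2) ℝ E2) (s0 s1 : ℝ) (x : E2) :
    inner ℝ (b 0) (dg b s0 s1 x) = s0 * inner ℝ (b 0) x := by
  unfold dg
  rw [inner_add_right, inner_smul_right, inner_smul_right, inner_b00, inner_b01]
  ring

theorem inner_dg1 (b : OrthonormalBasis (Fin 2) ℝ E2) (s0 s1 : ℝ) (x : E2) :
    inner ℝ (b 1) (dg b s0 s1 x) = s1 * inner ℝ (b 1) x := by
  unfold dg
  rw [inner_add_right, inner_smul_right, inner_smul_right, inner_b10, inner_b11]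
  ring

theorem exp_b (b : OrthonormalBasis (Fin 2) ℝ E2) (x : E2) :
    (inner ℝ (b 0) x : ℝ) • b 0 + (inner ℝ (b 1) x : ℝ) • b 1 = x := by
  have h := b.sum_repr x
  rw [Fin.sum_univ_two, b.repr_apply_apply, b.repr_apply_apply] at h
  exact h

theorem norm_sq_b (b : OrthonormalBasis (Fin 2) ℝ E2) (x : E2) :
    ‖x‖ ^ 2 = (inner ℝ (b 0) x : ℝ) ^ 2 + (inner ℝ (b 1) x : ℝ) ^ 2 := by
  have h := b.sum_sq_norm_inner_right x
  rw [Fin.sum_univ_two] at h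
  rw [← h, Real.norm_eq_abs, Real.norm_eq_abs, sq_abs, sq_abs]

theorem dg_dg (b : OrthonormalBasis (Fin 2) ℝ E2) {s0 s1 : ℝ} (h0 : s0 ≠ 0) (h1 : s1 ≠ 0) (x : E2) :
    dg b s0⁻¹ s1⁻¹ (dg b s0 s1 x) = x := by
  show (s0⁻¹ * inner ℝ (b 0) (dg b s0 s1 x)) • b 0 + (s1⁻¹ * inner ℝ (b 1) (dg b s0 s1 x)) • b 1 = x
  rw [inner_dg0, inner_dg1, ← mul_assoc, ← mul_assoc, inv_mul_cancel₀ h0, inv_mul_cancel₀ h1,
    one_mul, one_mul]
  exact exp_b b x

theorem inner_dg (b : OrthonormalBasis (Fin 2) ℝ E2) (s0 s1 : ℝ) (x y : E2) :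
    inner ℝ (dg b s0 s1 x) y = inner ℝ x (dg b s0 s1 y) := by
  unfold dg
  rw [inner_add_left, inner_smul_left, inner_smul_left, inner_add_right, inner_smul_right,
    inner_smul_right]
  simp only [conj_trivial]
  rw [real_inner_comm (b 0) x, real_inner_comm (b 1) x]
  ring

theorem norm_dg_sq (b : OrthonormalBasis (Fin 2) ℝ E2) (s0 s1 : ℝ) (x : E2) :
    ‖dg b s0 s1 x‖ ^ 2 = (s0 * inner ℝ (b 0) x) ^ 2 + (s1 * inner ℝ (b 1) x) ^ 2 := by
  rw [norm_sq_b b, inner_dg0, inner_dg1]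

/-- the cell frame. -/
noncomputable def cfr (b : OrthonormalBasis (Fin 2) ℝ E2) (s0 s1 κ : ℝ) (h0 : 0 < s0) (h1 : 0 < s1)
    (hκ : 0 < κ) (C : E2) : E3 ≃L[ℝ] E3 :=
  LinearEquiv.toContinuousLinearEquiv
    { toFun := fun X => pt (dg b s0 s1 (lat X)) (κ * (X 2 + inner ℝ C (lat X)))
      map_add' := fun X Y => by
        rw [← pt_add]
        congr 1
        · rw [lat_add, dg_add]
        · rw [lat_add, inner_add_right, PiLp.add_apply]; ring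
      map_smul' := fun c X => by
        rw [RingHom.id_apply, ← pt_smul]
        congr 1
        · rw [lat_smul, dg_smul]
        · rw [lat_smul, inner_smul_right, PiLp.smul_apply, smul_eq_mul]; ring
      invFun := fun Y => pt (dg b s0⁻¹ s1⁻¹ (lat Y))
        (κ⁻¹ * Y 2 - inner ℝ C (dg b s0⁻¹ s1⁻¹ (lat Y)))
      left_inv := fun X => by
        show pt (dg b s0⁻¹ s1⁻¹ (lat (pt (dg b s0 s1 (lat X)) (κ * (X 2 + inner ℝ C (lat X))))))
          (κ⁻¹ * (pt (dg b s0 s1 (lat X)) (κ * (X 2 + inner ℝ C (lat X)))) 2 - inner ℝ C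
            (dg b s0⁻¹ s1⁻¹ (lat (pt (dg b s0 s1 (lat X)) (κ * (X 2 + inner ℝ C (lat X))))))) = X
        rw [lat_pt, pt_two, dg_dg b h0.ne' h1.ne', ← mul_assoc, inv_mul_cancel₀ hκ.ne', one_mul,
          add_sub_cancel_right, pt_lat]
      right_inv := fun Y => by
        have e : dg b s0 s1 (dg b s0⁻¹ s1⁻¹ (lat Y)) = lat Y := by
          have := dg_dg b (inv_ne_zero h0.ne') (inv_ne_zero h1.ne') (lat Y)
          rwa [inv_inv, inv_inv] at this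
        show pt (dg b s0 s1 (lat (pt (dg b s0⁻¹ s1⁻¹ (lat Y))
          (κ⁻¹ * Y 2 - inner ℝ C (dg b s0⁻¹ s1⁻¹ (lat Y))))))
          (κ * ((pt (dg b s0⁻¹ s1⁻¹ (lat Y)) (κ⁻¹ * Y 2 - inner ℝ C (dg b s0⁻¹ s1⁻¹ (lat Y)))) 2 +
            inner ℝ C (lat (pt (dg b s0⁻¹ s1⁻¹ (lat Y))
              (κ⁻¹ * Y 2 - inner ℝ C (dg b s0⁻¹ s1⁻¹ (lat Y))))))) = Y
        rw [lat_pt, pt_two, e, sub_add_cancel, ← mul_assoc, mul_inv_cancel₀ hκ.ne', one_mul,
          pt_lat] }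

section

variable {b : OrthonormalBasis (Fin 2) ℝ E2} {s0 s1 κ : ℝ} (h0 : 0 < s0) (h1 : 0 < s1) (hκ : 0 < κ)

theorem cfr_apply (C : E2) (X : E3) :
    cfr b s0 s1 κ h0 h1 hκ C X = pt (dg b s0 s1 (lat X)) (κ * (X 2 + inner ℝ C (lat X))) := rfl

theorem norm_cfr_sq (C : E2) (X : E3) : ‖cfr b s0 s1 κ h0 h1 hκ C X‖ ^ 2 =
    (s0 * inner ℝ (b 0) (lat X)) ^ 2 + (s1 * inner ℝ (b 1) (lat X)) ^ 2 +
      (κ * (X 2 + inner ℝ C (lat X))) ^ 2 := by
  rw [cfr_apply, normsq3, lat_pt, pt_two, norm_dg_sq]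

theorem adjE_cfr (C : E2) (Z : E3) : adjE (cfr b s0 s1 κ h0 h1 hκ C) Z =
    pt (dg b s0 s1 (lat Z) + (κ * Z 2) • C) (κ * Z 2) := by
  refine ext_inner_right ℝ fun X => ?_
  rw [inner_adjE, cfr_apply, inner_split, inner_split, lat_pt, lat_pt, pt_two, pt_two,
    inner_add_left, inner_dg, inner_smul_left]
  simp only [conj_trivial]
  ring

theorem norm_Pl_sq {ρ : ℝ} (hρ : 0 < ρ) (C : E2) (X : E3) : ‖Pl ρ κ hρ hκ C X‖ ^ 2 =
    (ρ * ‖lat X‖) ^ 2 + (κ * (X 2 + inner ℝ C (lat X))) ^ 2 := by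
  rw [Pl_apply, normsq3, lat_pt, pt_two, norm_smul, Real.norm_eq_abs, abs_of_pos hρ]

theorem Pl_le_cfr (h01 : s1 ≤ s0) (C : E2) (X : E3) :
    ‖Pl s1 κ h1 hκ C X‖ ≤ ‖cfr b s0 s1 κ h0 h1 hκ C X‖ := by
  refine le_of_sq_le_sq ?_ (norm_nonneg _)
  rw [norm_Pl_sq, norm_cfr_sq, mul_pow, norm_sq_b b (lat X), mul_add, mul_pow, mul_pow]
  have h2 : s1 ^ 2 ≤ s0 ^ 2 := pow_le_pow_left₀ h1.le h01 2
  nlinarith [mul_le_mul_of_nonneg_right h2 (sq_nonneg (inner ℝ (b 0) (lat X) : ℝ))]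

theorem sq_b (b : OrthonormalBasis (Fin 2) ℝ E2) :
    (b 0 0 * b 1 1 - b 0 1 * b 1 0) ^ 2 = 1 := by
  have a1 := inner_b00 b
  have a2 := inner_b11 b
  have a3 := inner_b01 b
  rw [inner2] at a1 a2 a3
  have e : (b 0 0 * b 1 1 - b 0 1 * b 1 0) ^ 2 = (b 0 0 * b 0 0 + b 0 1 * b 0 1) *
      (b 1 0 * b 1 0 + b 1 1 * b 1 1) - (b 0 0 * b 1 0 + b 0 1 * b 1 1) ^ 2 := by ring
  rw [e, a1, a2, a3]
  norm_num

/-- determinant of a linear map of `E3` by its columns. -/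
theorem det3 (f : E3 →ₗ[ℝ] E3) : LinearMap.det f =
    f (pt !₂[1, 0] 0) 0 * (f (pt !₂[0, 1] 0) 1 * f (pt !₂[0, 0] 1) 2 -
      f (pt !₂[0, 0] 1) 1 * f (pt !₂[0, 1] 0) 2) -
    f (pt !₂[0, 1] 0) 0 * (f (pt !₂[1, 0] 0) 1 * f (pt !₂[0, 0] 1) 2 -
      f (pt !₂[0, 0] 1) 1 * f (pt !₂[1, 0] 0) 2) +
    f (pt !₂[0, 0] 1) 0 * (f (pt !₂[1, 0] 0) 1 * f (pt !₂[0, 1] 0) 2 -
      f (pt !₂[0, 1] 0) 1 * f (pt !₂[1, 0] 0) 2) := by
  have e0 : (EuclideanSpace.single (0 : Fin 3) (1 : ℝ) : E3) = pt !₂[1, 0] 0 := by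
    ext i; fin_cases i <;> simp [pt]
  have e1 : (EuclideanSpace.single (1 : Fin 3) (1 : ℝ) : E3) = pt !₂[0, 1] 0 := by
    ext i; fin_cases i <;> simp [pt]
  have e2 : (EuclideanSpace.single (2 : Fin 3) (1 : ℝ) : E3) = pt !₂[0, 0] 1 := by
    ext i; fin_cases i <;> simp [pt]
  rw [← LinearMap.det_toMatrix (EuclideanSpace.basisFun (Fin 3) ℝ).toBasis, Matrix.det_fin_three]
  simp only [LinearMap.toMatrix_apply, OrthonormalBasis.coe_toBasis,
    OrthonormalBasis.coe_toBasis_repr_apply, EuclideanSpace.basisFun_repr,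
    EuclideanSpace.basisFun_apply, e0, e1, e2]
  ring

theorem adet_cfr (C : E2) :
    adet (cfr b s0 s1 κ h0 h1 hκ C : E3 →L[ℝ] E3) = s0 * s1 * κ := by
  unfold adet
  rw [det3]
  simp only [ContinuousLinearMap.coe_coe, ContinuousLinearEquiv.coe_coe, cfr_apply, lat_pt, pt_two,
    pt_zero, pt_one, dg, inner2, PiLp.add_apply, PiLp.smul_apply, smul_eq_mul]
  simp only [Matrix.cons_val_zero, Matrix.cons_val_one, mul_one, mul_zero, add_zero, zero_add]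
  have e := sq_b b
  have e2 : ∀ x : ℝ, x = s0 * s1 * κ * (b 0 0 * b 1 1 - b 0 1 * b 1 0) ^ 2 → |x| = s0 * s1 * κ := by
    intro x hx
    rw [hx, e, mul_one, abs_of_pos (by positivity)]
  apply e2
  ring

theorem adet_Pl {ρ : ℝ} (hρ : 0 < ρ) (C : E2) :
    adet (Pl ρ κ hρ hκ C : E3 →L[ℝ] E3) = ρ * ρ * κ := by
  unfold adet
  rw [det3]
  simp only [ContinuousLinearMap.coe_coe, ContinuousLinearEquiv.coe_coe, Pl_apply, lat_pt, pt_two,
    pt_zero, pt_one, inner2, PiLp.smul_apply, smul_eq_mul]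
  simp only [Matrix.cons_val_zero, Matrix.cons_val_one, mul_one, mul_zero, add_zero, zero_add]
  rw [← abs_of_pos (show 0 < ρ * ρ * κ by positivity)]
  congr 1
  ring

end

/-! ### overlap of the strips -/

/-- number of integers near a real number. -/
theorem card_int (x R : ℝ) (hR : 0 ≤ R) (K : Set ℤ) (hK : ∀ k ∈ K, |x - k| ≤ R) :
    (K.ncard : ℝ) ≤ 2 * R + 1 := by
  have h : K ⊆ (Finset.Icc ⌈x - R⌉ ⌊x + R⌋ : Finset ℤ) := by
    intro k hk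
    have h1 := abs_le.1 (hK k hk)
    rw [Finset.mem_coe, Finset.mem_Icc]
    exact ⟨Int.ceil_le.2 (by linarith), Int.le_floor.2 (by linarith)⟩
  have h2 := Set.ncard_le_ncard h (Finset.finite_toSet _)
  rw [Set.ncard_coe_finset, Int.card_Icc] at h2
  have h3 : (((⌊x + R⌋ + 1 - ⌈x - R⌉).toNat : ℤ) : ℝ) ≤ 2 * R + 1 := by
    have h4 := Int.floor_le (x + R)
    have h5 := Int.le_ceil (x - R)
    rcases le_or_gt 0 (⌊x + R⌋ + 1 - ⌈x - R⌉) with h6 | h6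
    · rw [Int.toNat_of_nonneg h6]
      push_cast
      linarith
    · rw [Int.toNat_of_nonpos h6.le]
      push_cast
      linarith
  refine le_trans ?_ h3
  exact_mod_cast h2

/-- slope strip of number `k`. -/
def strp (b : OrthonormalBasis (Fin 2) ℝ E2) (η0 θ L0 : ℝ) (C : E2) (k : ℤ) : Set E3 :=
  {ζ | |inner ℝ (b 1) (lat ζ - ζ 2 • C) - η0 * (k * θ - inner ℝ (b 1) C)| ≤ L0 * θ}

/-- **overlap of the strips** in the cell metric. -/
theorem strp_overlap {b : OrthonormalBasis (Fin 2) ℝ E2} {s0 θ κ η0 L0 a : ℝ} (h0 : 0 < s0)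
    (hθ : 0 < θ) (hκ : 0 < κ) (ha : 1 ≤ a) (hη : a⁻¹ ≤ η0) (hL0 : 0 ≤ L0) (C : E2) (ξ : E3)
    (K : Set ℤ) :
    (Set.ncard {k | k ∈ K ∧ ξ ∈ thk (cfr b s0 θ κ h0 hθ hκ C) (strp b η0 θ L0 C k)} : ℝ) ≤
      2 * (a * (L0 + 1)) + 1 := by
  have ha0 : 0 < a := by linarith
  have hη0 : 0 < η0 := (inv_pos.2 ha0).trans_le hη
  have hη1 : 1 ≤ a * η0 := by
    calc (1:ℝ) = a * a⁻¹ := by field_simp
      _ ≤ a * η0 := by gcongr
  set v : ℝ := inner ℝ (b 1) (lat ξ - ξ 2 • C) with hv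
  refine card_int ((v / η0 + inner ℝ (b 1) C) / θ) (a * (L0 + 1)) (by positivity) _ ?_
  rintro k ⟨-, z, hz, hz2⟩
  set η := (adjE (cfr b s0 θ κ h0 hθ hκ C)).symm (ξ - z) with hη'
  have e1 : ξ - z = adjE (cfr b s0 θ κ h0 hθ hκ C) η := by
    rw [hη', ContinuousLinearEquiv.apply_symm_apply]
  rw [adjE_cfr] at e1
  have e2 : lat ξ = lat z + (dg b s0 θ (lat η) + (κ * η 2) • C) := by
    have := congrArg lat e1
    rw [lat_sub, lat_pt] at this
    rw [← this]; abel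
  have e3 : ξ 2 = z 2 + κ * η 2 := by
    have := congrArg (fun w : E3 => w 2) e1
    simp only [pt_two, PiLp.sub_apply] at this
    linarith
  have e4 : v = inner ℝ (b 1) (lat z - z 2 • C) + θ * inner ℝ (b 1) (lat η) := by
    have e5 : lat ξ - ξ 2 • C = (lat z - z 2 • C) + dg b s0 θ (lat η) := by
      rw [e2, e3, add_smul]; abel
    rw [hv, e5, inner_add_right, inner_dg1]
  have h5 : |(inner ℝ (b 1) (lat η) : ℝ)| ≤ 1 := by
    refine (abs_real_inner_le_norm _ _).trans ?_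
    rw [b.norm_eq_one, one_mul]
    exact (norm_lat_le η).trans hz2.le
  have hz' : |inner ℝ (b 1) (lat z - z 2 • C) - η0 * (k * θ - inner ℝ (b 1) C)| ≤ L0 * θ := hz
  have h6 : |v - η0 * (k * θ - inner ℝ (b 1) C)| ≤ (L0 + 1) * θ := by
    have e6 : v - η0 * (k * θ - inner ℝ (b 1) C) =
        (inner ℝ (b 1) (lat z - z 2 • C) - η0 * (k * θ - inner ℝ (b 1) C)) +
          θ * inner ℝ (b 1) (lat η) := by rw [e4]; ring
    rw [e6]
    refine (abs_add_le _ _).trans ?_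
    rw [abs_mul, abs_of_pos hθ]
    nlinarith
  have e7 : (v / η0 + inner ℝ (b 1) C) / θ - k = (v - η0 * (k * θ - inner ℝ (b 1) C)) / (η0 * θ) := by
    field_simp
    ring
  rw [e7, abs_div, abs_of_pos (mul_pos hη0 hθ), div_le_iff₀ (mul_pos hη0 hθ)]
  refine h6.trans ?_
  calc (L0 + 1) * θ = (L0 + 1) * θ * 1 := by ring
    _ ≤ (L0 + 1) * θ * (a * η0) := by gcongr
    _ = _ := by ring

end Crest.Agent.R116.UpC448
end

-- ▼ part R116/UpC3_448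
section

/-!
# R116: UPPER-C, cone instance, part 2: pieces (helper448)

`rep_piece`: the selected piece is represented by `1_{S m} u_m`; `tra_piece`: the product of the window
of a child cap with the translate of a piece is a transport of the piece (metric `Pl ρ κ C'`).
-/

set_option autoImplicit false
set_option linter.unusedSectionVars false

open MeasureTheory FourierTransform
open scoped ContDiff ENNReal

namespace Crest.Agent.R116.UpC448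

open Crest.Agent.R138.Wf448
open Crest.Agent.R138.Defs (E2 ee)
open Crest.Agent.R138.Wpk685 (win fat cen caps)
open Crest.Agent.R116.CWp480 Crest.Agent.R116.CDef480 Crest.Agent.R116.CWc480
  Crest.Agent.R116.CWd480
open Crest.Agent.R116.Up192 (pa pa_pos)

/-! ### elementary facts -/

theorem continuous_capw {b : E2 → ℂ} (hb : Continuous b) (c : E2) (ρ : ℝ) :
    Continuous (Crest.Agent.R138.Wpk685.cap b c ρ) := by
  unfold Crest.Agent.R138.Wpk685.cap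
  exact hb.comp (by fun_prop : Continuous fun ξ : E2 => ρ⁻¹ • (ξ - c))

theorem measurable_capc (ρ : ℝ) (m : ℤ × ℤ) : Measurable (capc ρ m) :=
  (continuous_capw Crest.Agent.R138.Wpk685.win_contDiff.continuous _ _).measurable.comp
    measurable_slp

theorem norm_capc_le (ρ : ℝ) (m : ℤ × ℤ) (ζ : E3) : ‖capc ρ m ζ‖ ≤ 1 := by
  unfold capc Crest.Agent.R138.Wpk685.cap
  exact Crest.Agent.R138.Wpk685.norm_win_le _

theorem capc_mul_int (ρ : ℝ) (m : ℤ × ℤ) {g : E3 → ℂ} (hg : Integrable g) :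
    Integrable (fun ζ => capc ρ m ζ * g ζ) :=
  hg.bdd_mul (c := 1) (measurable_capc ρ m).aestronglyMeasurable
    (Filter.Eventually.of_forall fun ζ => norm_capc_le ρ m ζ)

theorem capc_mul_l2 (ρ : ℝ) (m : ℤ × ℤ) {g : E3 → ℂ} (hg : MemLp g 2) :
    MemLp (fun ζ => capc ρ m ζ * g ζ) 2 := by
  refine MemLp.of_le hg ((measurable_capc ρ m).aestronglyMeasurable.mul hg.1)
    (Filter.Eventually.of_forall fun ζ => ?_)
  rw [norm_mul]
  have := norm_capc_le ρ m ζ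
  nlinarith [norm_nonneg (g ζ)]

theorem continuous_umc (ρ : ℝ) {g : E3 → ℂ} (hg : Integrable g) (m : ℤ × ℤ) :
    Continuous (umc ρ g m) := fourierInv_continuous (capc_mul_int ρ m hg)

theorem umc_bdd (ρ : ℝ) {g : E3 → ℂ} (hg : Integrable g) (m : ℤ × ℤ) :
    ∃ M, ∀ y, ‖umc ρ g m y‖ ≤ M := by
  refine ⟨∫ ζ, ‖capc ρ m ζ * g ζ‖, fun y => ?_⟩
  unfold umc
  rw [CWp480.fourierInv_eq_int]
  refine (norm_integral_le_integral_norm _).trans (le_of_eq ?_)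
  congr 1
  ext ζ
  rw [norm_mul, Crest.Agent.R138.Wpk685.norm_ee, mul_one]

theorem ind_int {ρ : ℝ} {g : E3 → ℂ} (hg : Integrable g) (m : ℤ × ℤ) {S : Set E3}
    (hS : MeasurableSet S) (hb : Bornology.IsBounded S) :
    Integrable (S.indicator (umc ρ g m)) := by
  rw [integrable_indicator_iff hS]
  obtain ⟨M, hM⟩ := umc_bdd ρ hg m
  refine Measure.integrableOn_of_bounded (M := M) hb.measure_lt_top.ne
    (continuous_umc ρ hg m).aestronglyMeasurable (Filter.Eventually.of_forall hM)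

theorem measurable_trc (z : E3 × ℝ) : Measurable (fun ζ : E3 => ee (inner ℝ z.1 ζ + z.2 * hc ζ)) :=
  continuous_ee'.measurable.comp ((measurable_const.inner measurable_id).add
    (measurable_hc.const_mul z.2))

theorem norm_trc' (z : E3 × ℝ) (g : E3 → ℂ) (ζ : E3) : ‖trc z g ζ‖ = ‖g ζ‖ := by
  unfold trc
  rw [norm_mul, Crest.Agent.R138.Wpk685.norm_ee, mul_one]

theorem trc_int (z : E3 × ℝ) {g : E3 → ℂ} (hg : Integrable g) : Integrable (trc z g) :=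
  hg.mul_bdd (c := 1) (measurable_trc z).aestronglyMeasurable
    (Filter.Eventually.of_forall fun _ => (Crest.Agent.R138.Wpk685.norm_ee _).le)

theorem trc_l2 (z : E3 × ℝ) {g : E3 → ℂ} (hg : MemLp g 2) : MemLp (trc z g) 2 := by
  refine MemLp.of_le hg (hg.1.mul (measurable_trc z).aestronglyMeasurable)
    (Filter.Eventually.of_forall fun ζ => (norm_trc' z g ζ).le)

/-! ### representation of a piece -/

/-- **the selected piece is represented by `1_S u_m`**. -/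
theorem rep_piece {N : ℕ} {Q T ρ η0 κ : ℝ} {m : ℤ × ℤ} {B : E3 ≃L[ℝ] E3} {c : E3} {Sf : Set E3}
    (hP : Pk N Q T ρ (etw η0 κ) (cen ρ m) B c Sf) {g : E3 → ℂ} (hg : Integrable g) {S : Set E3}
    (hS : MeasurableSet S) (hb : Bornology.IsBounded S) :
    Rep N Q B c (piecec η0 κ ρ g m S) (S.indicator (umc ρ g m)) := by
  obtain ⟨a, ha, haeq⟩ := hP.ft
  have hv := ind_int (ρ := ρ) hg m hS hb
  have e1 : piecec η0 κ ρ g m S =
      fun ζ => CWp480.cap a c B ζ * 𝓕 (S.indicator (umc ρ g m)) ζ := by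
    funext ζ
    unfold piecec fatc
    rw [haeq]
  obtain ⟨M, hM⟩ := umc_bdd ρ hg m
  have hM0 : 0 ≤ M := (norm_nonneg _).trans (hM 0)
  have hFc : Continuous (𝓕 (S.indicator (umc ρ g m))) := by
    have h1 : 𝓕 (S.indicator (umc ρ g m)) = fun y => 𝓕⁻ (S.indicator (umc ρ g m)) (-y) := by
      funext y
      rw [Real.fourierInv_eq_fourier_neg, neg_neg]
    rw [h1]
    exact (fourierInv_continuous hv).comp continuous_neg
  have hFb : ∀ ζ, ‖𝓕 (S.indicator (umc ρ g m)) ζ‖ ≤ ∫ y, ‖S.indicator (umc ρ g m) y‖ := by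
    intro ζ
    rw [fourier_eq_int]
    refine (norm_integral_le_integral_norm _).trans (le_of_eq ?_)
    congr 1
    ext y
    rw [norm_mul, Crest.Agent.R138.Wpk685.norm_ee, mul_one]
  have hci := cap_int ha c B
  have hci2 : MemLp (CWp480.cap a c B) 2 :=
    (contDiff_cap ha.smooth c B).continuous.memLp_of_hasCompactSupport (hcs_cap ha c B)
  refine ⟨?_, ?_, hv.aestronglyMeasurable, ⟨M, fun y => ?_⟩, a, ha, fun x => ?_⟩
  · rw [e1]
    exact hci.mul_bdd (c := _) hFc.aestronglyMeasurable (Filter.Eventually.of_forall hFb)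
  · rw [e1]
    refine MemLp.of_le_mul (c := ∫ y, ‖S.indicator (umc ρ g m) y‖) hci2
      (hci2.1.mul hFc.aestronglyMeasurable) (Filter.Eventually.of_forall fun ζ => ?_)
    rw [norm_mul, mul_comm]
    exact mul_le_mul_of_nonneg_right (hFb ζ) (norm_nonneg _)
  · by_cases hy : y ∈ S
    · rw [Set.indicator_of_mem hy]; exact hM y
    · rw [Set.indicator_of_notMem hy, norm_zero]; exact hM0
  · rw [e1]
    exact rep_ind hci hv x

/-! ### transport of a piece -/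

theorem Pl_le_Pl {ρ κ D : ℝ} (hρ : 0 < ρ) (hκ : 0 < κ) (hD : 0 ≤ D) {C C' : E2}
    (h : κ * ‖C - C'‖ ≤ D * ρ) (x : E3) :
    ‖Pl ρ κ hρ hκ C x‖ ≤ (1 + D) * ‖Pl ρ κ hρ hκ C' x‖ := by
  have e1 : Pl ρ κ hρ hκ C x = Pl ρ κ hρ hκ C' x + pt 0 (κ * inner ℝ (C - C') (lat x)) := by
    rw [Pl_apply, Pl_apply, ← pt_add, add_zero]
    congr 1
    rw [inner_sub_left]
    ring
  rw [e1]
  refine (norm_add_le _ _).trans ?_
  have h1 : ‖pt (0 : E2) (κ * inner ℝ (C - C') (lat x))‖ ≤ D * ‖Pl ρ κ hρ hκ C' x‖ := by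
    refine (norm_pt_le _ _).trans ?_
    rw [norm_zero, zero_add, abs_mul, abs_of_pos hκ]
    have h2 : ρ * ‖lat x‖ ≤ ‖Pl ρ κ hρ hκ C' x‖ := by
      have h3 := norm_lat_le (Pl ρ κ hρ hκ C' x)
      rwa [Pl_apply, lat_pt, norm_smul, Real.norm_eq_abs, abs_of_pos hρ] at h3
    calc κ * |inner ℝ (C - C') (lat x)| ≤ κ * (‖C - C'‖ * ‖lat x‖) := by
          gcongr
          exact abs_real_inner_le_norm _ _
      _ = (κ * ‖C - C'‖) * ‖lat x‖ := by ring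
      _ ≤ (D * ρ) * ‖lat x‖ := by gcongr
      _ = D * (ρ * ‖lat x‖) := by ring
      _ ≤ _ := by gcongr
  linarith

/-- product of two windows in the metric `A`. -/
theorem Nn_prod {N : ℕ} {Q L : ℝ} {a a' : E3 → ℂ} (ha : Win N Q a) (ha' : Win N Q a') (c c' : E3)
    (A B B' : E3 ≃L[ℝ] E3) (hL : 1 ≤ L) (hB : ∀ x, ‖A x‖ ≤ L * ‖B x‖)
    (hB' : ∀ x, ‖A x‖ ≤ L * ‖B' x‖) {j : ℕ} (hj : j ≤ N) (ξ : E3) :
    Nn (A : E3 →L[ℝ] E3) j (fun ζ => CWp480.cap a c B ζ * CWp480.cap a' c' B' ζ) ξ ≤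
      2 ^ N * (L ^ N * Q) ^ 2 := by
  have hQ := ha.nonneg
  have hL0 : 0 ≤ L := by linarith
  have h1 : ∀ j ≤ N, ∀ ξ, Nn (A : E3 →L[ℝ] E3) j (CWp480.cap a c B) ξ ≤ L ^ N * Q := by
    intro j hj ξ
    refine (Nn_le_of_le hL0 hB j _ ξ).trans ?_
    have := cap_Nn ha c B hj ξ
    have h2 : L ^ j ≤ L ^ N := pow_le_pow_right₀ hL hj
    exact mul_le_mul h2 this (Nn_nonneg _ _ _ _) (by positivity)
  have h1' : ∀ j ≤ N, ∀ ξ, Nn (A : E3 →L[ℝ] E3) j (CWp480.cap a' c' B') ξ ≤ L ^ N * Q := by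
    intro j hj ξ
    refine (Nn_le_of_le hL0 hB' j _ ξ).trans ?_
    have := cap_Nn ha' c' B' hj ξ
    have h2 : L ^ j ≤ L ^ N := pow_le_pow_right₀ hL hj
    exact mul_le_mul h2 this (Nn_nonneg _ _ _ _) (by positivity)
  refine (Nn_mul _ ((contDiff_cap ha.smooth c B).of_le (by exact_mod_cast le_top))
    ((contDiff_cap ha'.smooth c' B').of_le (by exact_mod_cast le_top)) ξ).trans ?_
  calc ∑ l ∈ Finset.range (j + 1), (j.choose l : ℝ) *
        (Nn (A : E3 →L[ℝ] E3) l (CWp480.cap a c B) ξ *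
          Nn (A : E3 →L[ℝ] E3) (j - l) (CWp480.cap a' c' B') ξ)
      ≤ ∑ l ∈ Finset.range (j + 1), (j.choose l : ℝ) * (L ^ N * Q * (L ^ N * Q)) := by
        refine Finset.sum_le_sum fun l hl => ?_
        have hl' := Finset.mem_range.1 hl
        have a1 := h1 l (by omega) ξ
        have a2 := h1' (j - l) (by omega) ξ
        have a3 := Nn_nonneg (A : E3 →L[ℝ] E3) l (CWp480.cap a c B) ξ
        have a4 := Nn_nonneg (A : E3 →L[ℝ] E3) (j - l) (CWp480.cap a' c' B') ξ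
        gcongr
    _ = 2 ^ j * (L ^ N * Q) ^ 2 := by
        rw [← Finset.sum_mul]
        have h5 : ∑ i ∈ Finset.range (j + 1), (j.choose i : ℝ) = 2 ^ j := by
          exact_mod_cast Nat.sum_range_choose j
        rw [h5]
        ring
    _ ≤ _ := by
        have : (2:ℝ) ^ j ≤ 2 ^ N := pow_le_pow_right₀ (by norm_num) hj
        gcongr

/-- one piece seen by the child cap `m'` in the frame `z`. -/
noncomputable def chp (η0 κ ρ ρ' : ℝ) (g : E3 → ℂ) (z : E3 × ℝ) (m' m : ℤ × ℤ) (S : Set E3) :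
    E3 → ℂ := fun ζ => capc ρ' m' ζ * trc z (piecec η0 κ ρ g m S) ζ

/-- **transport**. -/
theorem tra_piece {N : ℕ} {Q T ρ ρ' η0 κ L : ℝ} (hκ : 0 < κ) {m m' : ℤ × ℤ}
    {B B' : E3 ≃L[ℝ] E3} {c c' : E3} {Sf Sf' : Set E3} (A : E3 ≃L[ℝ] E3)
    (hP : Pk N Q T ρ (etw η0 κ) (cen ρ m) B c Sf)
    (hP' : Pk N Q T ρ' (etw η0 (2 * κ)) (cen ρ' m') B' c' Sf')
    (hL : 1 ≤ L) (hB : ∀ x, ‖A x‖ ≤ L * ‖B x‖) (hB' : ∀ x, ‖A x‖ ≤ L * ‖B' x‖)
    (g : E3 → ℂ) (S : Set E3) (z : E3 × ℝ) (hz : |z.2| * ρ ^ 2 ≤ T) :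
    Tra A N (2 ^ N * (L ^ N * Q) ^ 2) (z.1 + z.2 • vel (cen ρ m)) (chp η0 κ ρ ρ' g z m' m S)
      (piecec η0 κ ρ g m S) := by
  obtain ⟨a, ha, haeq⟩ := hP'.wn
  obtain ⟨a', ha', haeq'⟩ := hP.ph z.2 hz
  refine ⟨1, fun ζ => CWp480.cap a c' B' ζ * CWp480.cap a' c B ζ, norm_one,
    ((hcs_cap ha c' B').mul_right).hasTemperateGrowth
      ((contDiff_cap ha.smooth c' B').mul (contDiff_cap ha'.smooth c B)),
    fun j hj ξ => Nn_prod ha ha' c' c A B' B hL hB' hB hj ξ, fun ζ => ?_⟩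
  rw [one_mul]
  by_cases h0 : piecec η0 κ ρ g m S ζ = 0
  · unfold chp trc
    rw [h0]
    ring
  · have h1 : Crest.Agent.R138.Wpk685.cap fat (cen ρ m) ρ (slp ζ) * etw η0 κ ζ ≠ 0 := by
      intro hc
      apply h0
      unfold piecec fatc
      rw [hc, zero_mul]
    have h2 := haeq' ζ (hP.sf ζ h1)
    have h3 : etw η0 (2 * κ) ζ = 1 := by
      rw [etw_eq]
      apply bt_one
      have h4 : etw η0 κ ζ ≠ 0 := right_ne_zero_of_mul h1
      rw [etw_eq] at h4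
      have h5 : |(ζ 2 - η0) / κ| < 2 := by
        by_contra hc
        exact h4 (bt_zero (not_lt.1 hc))
      have e : (ζ 2 - η0) / (2 * κ) = ((ζ 2 - η0) / κ) / 2 := by
        field_simp
      rw [e, abs_div, abs_two]
      linarith
    have h6 := haeq ζ
    rw [h3, mul_one] at h6
    unfold chp trc capc
    beta_reduce
    rw [h6, Crest.Agent.R138.Wf448.ee_add, h2, inner_add_left, Crest.Agent.R138.Wf448.ee_add]
    ring

end Crest.Agent.R116.UpC448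
end

-- ▼ part R116/UpC4_448

/-!
# R116: UPPER-C, cone instance, part 3: one cell (helper448)

`upC_cell`: the energy of a child cap of a selected wave on a cell
`θ'⁻¹ (b 0) × θ⁻¹ (b 1) × κ⁻¹ (null normal)` is at most `(θ / θ') (θ² κ)⁻¹ ν` times the density
`Adc` of the parent packets, `ν` = number of active parent caps in a strip of width `θ`.
-/

set_option autoImplicit false
set_option linter.unusedSectionVars false

open MeasureTheory FourierTransform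
open scoped ContDiff ENNReal

namespace Crest.Agent.R116.UpC448

open Crest.Agent.R138.Wf448
open Crest.Agent.R138.Defs (E2 ee)
open Crest.Agent.R138.Wpk685 (win fat cen caps)
open Crest.Agent.R138.Loc878 (nearL mem_nearL Near)
open Crest.Agent.R116.CWp480 Crest.Agent.R116.CDef480 Crest.Agent.R116.CWc480
  Crest.Agent.R116.CWd480
open Crest.Agent.R116.Up192 (pa pa_pos upper_selG)
open Crest.Agent.R116.Cad538 (frc wt wt_frame)
open Crest.Agent.R116.AlB888 (Adc)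

theorem frc_eq {ρ κ : ℝ} (hρ : 0 < ρ) (hκ : 0 < κ) (C : E2) (x : E3) :
    frc ρ κ C x = Pl ρ κ hρ hκ C x := by
  rw [Cad538.frc_apply, Pl_apply]
  unfold nrm
  rw [zero_mul, zero_div, add_zero]

theorem Pl_le_Fr {l ρ κ : ℝ} (hl : 1 ≤ l) (hρ : 0 < ρ) (hκ : 0 < κ) (C : E2) (x : E3) :
    ‖Pl ρ κ hρ hκ C x‖ ≤ ‖Fr l ρ κ (by linarith) hρ hκ C x‖ := by
  rw [norm_Fr]
  nlinarith [norm_nonneg (Pl ρ κ hρ hκ C x)]

theorem Pl_mono {ρ κ ρ' κ' : ℝ} (hρ : 0 < ρ) (hκ : 0 < κ) (hρ' : 0 < ρ') (hκ' : 0 < κ')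
    (h1 : ρ ≤ ρ') (h2 : κ ≤ κ') (C : E2) (x : E3) :
    ‖Pl ρ κ hρ hκ C x‖ ≤ ‖Pl ρ' κ' hρ' hκ' C x‖ := by
  refine le_of_sq_le_sq ?_ (norm_nonneg _)
  rw [norm_Pl_sq, norm_Pl_sq, mul_pow, mul_pow, mul_pow, mul_pow]
  have h3 : ρ ^ 2 ≤ ρ' ^ 2 := pow_le_pow_left₀ hρ.le h1 2
  have h4 : κ ^ 2 ≤ κ' ^ 2 := pow_le_pow_left₀ hκ.le h2 2
  gcongr

theorem supp_piece {N : ℕ} {Q T ρ η0 κ : ℝ} {m : ℤ × ℤ} {B : E3 ≃L[ℝ] E3} {c : E3} {Sf : Set E3}
    (hP : Pk N Q T ρ (etw η0 κ) (cen ρ m) B c Sf) {g : E3 → ℂ} {S : Set E3} {ζ : E3}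
    (h : piecec η0 κ ρ g m S ζ ≠ 0) : ζ ∈ Sf := by
  refine hP.sf ζ fun hc => h ?_
  unfold piecec fatc
  rw [hc, zero_mul]

theorem supp_chp {η0 κ ρ ρ' : ℝ} {g : E3 → ℂ} {z : E3 × ℝ} {m' m : ℤ × ℤ} {S : Set E3} {ζ : E3}
    (h : chp η0 κ ρ ρ' g z m' m S ζ ≠ 0) : piecec η0 κ ρ g m S ζ ≠ 0 := by
  intro h0
  apply h
  unfold chp trc
  rw [h0, zero_mul, mul_zero]

/-- the child cap sees only the near parent caps. -/
theorem umc_sel {η0 κ θ θ' : ℝ} (hθ : 0 < θ) (hθθ' : θ ≤ θ') (g : E3 → ℂ) (S : ℤ × ℤ → Set E3)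
    (z : E3 × ℝ) (m' : ℤ × ℤ) :
    umc θ' (trc z (selc η0 κ θ g S)) m' =
      𝓕⁻ (fun ζ => ∑ m ∈ nearL θ θ' m', chp η0 κ θ θ' g z m' m (S m) ζ) := by
  have hθ' : 0 < θ' := hθ.trans_le hθθ'
  unfold umc
  congr 1
  funext ζ
  have e1 : capc θ' m' ζ * trc z (selc η0 κ θ g S) ζ =
      ∑ m ∈ caps θ, chp η0 κ θ θ' g z m' m (S m) ζ := by
    unfold trc selc chp trc
    rw [Finset.sum_mul, Finset.mul_sum]
  rw [e1]
  symm
  refine Finset.sum_subset (fun m hm => (mem_nearL.1 hm).1) fun m hm hm2 => ?_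
  by_contra h
  apply hm2
  refine mem_nearL.2 ⟨hm, ?_⟩
  have h1 : capc θ' m' ζ ≠ 0 := fun h0 => h (by unfold chp; rw [h0, zero_mul])
  have h2 : fatc θ m ζ ≠ 0 := by
    intro h0
    have := supp_chp h
    apply this
    unfold piecec
    rw [h0, zero_mul, zero_mul]
  have h3 : ‖slp ζ - cen θ' m'‖ ≤ 71 / 50 * θ' := by
    by_contra hc
    apply h1
    unfold capc Crest.Agent.R138.Wpk685.cap
    apply Crest.Agent.R138.Wpk685.win_zero'
    rw [norm_smul, Real.norm_eq_abs, abs_of_pos (inv_pos.2 hθ'), lt_inv_mul_iff₀ hθ']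
    linarith [not_le.1 hc]
  have h4 : ‖slp ζ - cen θ m‖ < 3 / 2 * θ := by
    by_contra hc
    apply h2
    unfold fatc Crest.Agent.R138.Wpk685.cap
    apply Crest.Agent.R138.Wpk685.fat_zero
    rw [norm_smul, Real.norm_eq_abs, abs_of_pos (inv_pos.2 hθ), le_inv_mul_iff₀ hθ]
    linarith [not_lt.1 hc]
  unfold Near
  have e : cen θ m - cen θ' m' = (slp ζ - cen θ' m') - (slp ζ - cen θ m) := by abel
  rw [e]
  refine lt_of_le_of_lt (norm_sub_le _ _) ?_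
  linarith

/-! ### packets with a double window -/

theorem ew_wide {a : ℝ} (ha : 1 ≤ a) :
    EW (4 * a) 2 bt (Set.Icc (7 / (8 * a)) (2 * a) ×ˢ Set.Icc 0 (4 * a)⁻¹) := by
  have ha0 : 0 < a := by linarith
  refine ⟨by linarith, by norm_num, bt_smooth, ?_, norm_bt_le, isCompact_Icc.prod isCompact_Icc, ?_⟩
  · intro x hx
    by_contra hc
    exact hx (bt_zero (not_le.1 hc).le)
  · rintro ⟨η0, κ⟩ ⟨⟨h1, h2⟩, h3, h4⟩ x hx
    simp only at h1 h2 h3 h4 ⊢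
    have h5 : |x| ≤ 2 := by
      by_contra hc
      exact hx (bt_zero (not_le.1 hc).le)
    have hi : 0 < a⁻¹ := inv_pos.2 ha0
    have hi1 : a⁻¹ ≤ 1 := inv_le_one_of_one_le₀ ha
    have e1 : (4 * a)⁻¹ = a⁻¹ / 4 := by rw [mul_inv]; ring
    have e2 : 7 / (8 * a) = 7 / 8 * a⁻¹ := by field_simp
    have h6 : |κ * x| ≤ a⁻¹ / 2 := by
      rw [abs_mul, abs_of_nonneg h3]
      calc κ * |x| ≤ (4 * a)⁻¹ * 2 := by gcongr
        _ = a⁻¹ / 2 := by rw [e1]; ring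
    obtain ⟨h7, h8⟩ := abs_le.1 h6
    rw [e1]
    rw [e2] at h1
    constructor <;> linarith

/-- packets with `η0 ∈ [7/(8a), 2a]`. -/
theorem pk_wide {a : ℝ} (ha : 1 ≤ a) (N : ℕ) (T : ℝ) :
    ∃ Q : ℝ, 0 < Q ∧ ∀ (η0 κ : ℝ), 7 / (8 * a) ≤ η0 → η0 ≤ 2 * a → ∀ (hκ : 0 < κ), κ ≤ (4 * a)⁻¹ →
      ∀ (ρ : ℝ) (hρ : 0 < ρ) (C : E2), Pk N Q T ρ (etw η0 κ) C
        (Fr (lam (4 * a) 2) ρ κ (lam_pos (by linarith) (by norm_num)) hρ hκ C) (ctr η0 C)
        (Sd (4 * a) 2 η0 κ ρ C) := by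
  obtain ⟨Q, hQ, h⟩ := exists_pk (ew_wide ha) N T
  refine ⟨Q, hQ, ?_⟩
  intro η0 κ h1 h2 hκ h3 ρ hρ C
  exact h (η0, κ) ⟨⟨h1, h2⟩, hκ.le, h3⟩ hκ ρ hρ C

/-- frequency set in the strip. -/
theorem mem_strp {b : OrthonormalBasis (Fin 2) ℝ E2} {a η0 κ θ θ' : ℝ} (hη0 : 0 < η0)
    (hη2 : η0 ≤ a) (hκ : 0 < κ) (hθ : 0 < θ) (hst : κ * θ' ≤ θ) {C C' : E2}
    (hC : ‖C - C'‖ ≤ 3 * θ') {ζ : E3} (hζ : ζ ∈ Sd a 2 η0 κ θ C) :
    ζ ∈ strp b η0 θ (3 * a + 6) C' ⌊(inner ℝ (b 1) C : ℝ) / θ⌋ := by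
  obtain ⟨-, -, h1, h2⟩ := hζ
  set k := ⌊(inner ℝ (b 1) C : ℝ) / θ⌋ with hk
  show |(inner ℝ (b 1) (lat ζ - ζ 2 • C') : ℝ) - η0 * (k * θ - inner ℝ (b 1) C')| ≤
    (3 * a + 6) * θ
  have e1 : (inner ℝ (b 1) (lat ζ - ζ 2 • C') : ℝ) - η0 * (k * θ - inner ℝ (b 1) C') =
      inner ℝ (b 1) (lat ζ - ζ 2 • C) + (ζ 2 - η0) * inner ℝ (b 1) (C - C') +
        η0 * (inner ℝ (b 1) C - k * θ) := by
    rw [inner_sub_right, inner_sub_right, inner_sub_right, inner_smul_right, inner_smul_right]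
    ring
  have a1 : |(inner ℝ (b 1) (lat ζ - ζ 2 • C) : ℝ)| ≤ 2 * a * θ := by
    refine (abs_real_inner_le_norm _ _).trans ?_
    rw [b.norm_eq_one, one_mul]
    exact h2
  have a2 : |(ζ 2 - η0) * (inner ℝ (b 1) (C - C') : ℝ)| ≤ 6 * θ := by
    rw [abs_mul]
    have a3 : |(inner ℝ (b 1) (C - C') : ℝ)| ≤ 3 * θ' := by
      refine (abs_real_inner_le_norm _ _).trans ?_
      rw [b.norm_eq_one, one_mul]
      exact hC
    calc |ζ 2 - η0| * |(inner ℝ (b 1) (C - C') : ℝ)| ≤ (2 * κ) * (3 * θ') := by gcongr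
      _ = 6 * (κ * θ') := by ring
      _ ≤ 6 * θ := by linarith
  have a4 : |(inner ℝ (b 1) C : ℝ) - k * θ| ≤ θ := by
    have f1 := Int.floor_le ((inner ℝ (b 1) C : ℝ) / θ)
    have f2 := Int.lt_floor_add_one ((inner ℝ (b 1) C : ℝ) / θ)
    rw [le_div_iff₀ hθ] at f1
    rw [div_lt_iff₀ hθ] at f2
    rw [abs_le]
    constructor <;> nlinarith
  rw [e1]
  refine (abs_add_le _ _).trans ?_
  refine (add_le_add_left (abs_add_le _ _) _).trans ?_
  rw [abs_mul η0, abs_of_pos hη0]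
  have ha0 : 0 ≤ a := hη0.le.trans hη2
  have a5 : η0 * |(inner ℝ (b 1) C : ℝ) - k * θ| ≤ a * θ := by gcongr
  linarith

/-- the frequency set in the plate metric. -/
theorem mem_loc {a η0 κ θ θ' : ℝ} (hκ : 0 < κ) (hθ : 0 < θ) (hst : κ * θ' ≤ θ)
    {C C' : E2} (hC : ‖C - C'‖ ≤ 3 * θ') {ζ : E3} (hζ : ζ ∈ Sd a 2 η0 κ θ C) :
    ∃ η, ‖η‖ ≤ 2 * a + 8 ∧
      ζ = ctr η0 C + adj (Pl θ κ hθ hκ C' : E3 →L[ℝ] E3) η := by
  obtain ⟨-, -, h1, h2⟩ := hζ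
  refine ⟨(adjE (Pl θ κ hθ hκ C')).symm (ζ - ctr η0 C), ?_, ?_⟩
  · have e1 : (adjE (Pl θ κ hθ hκ C')).symm (ζ - ctr η0 C) =
        pt (θ⁻¹ • ((lat ζ - ζ 2 • C) + (ζ 2 - η0) • (C - C'))) ((ζ 2 - η0) / κ) := by
      rw [ContinuousLinearEquiv.symm_apply_eq, adjE_Pl, lat_pt, pt_two]
      have e1 : κ * ((ζ 2 - η0) / κ) = ζ 2 - η0 := by field_simp
      rw [e1, smul_smul, mul_inv_cancel₀ hθ.ne', one_smul]
      unfold ctr
      ext i
      fin_cases i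
      · show ζ 0 - η0 * C 0 = ((ζ 0 - ζ 2 * C 0) + (ζ 2 - η0) * (C 0 - C' 0)) + (ζ 2 - η0) * C' 0
        ring
      · show ζ 1 - η0 * C 1 = ((ζ 1 - ζ 2 * C 1) + (ζ 2 - η0) * (C 1 - C' 1)) + (ζ 2 - η0) * C' 1
        ring
      · rfl
    rw [e1]
    refine (norm_pt_le _ _).trans ?_
    have a1 : ‖θ⁻¹ • ((lat ζ - ζ 2 • C) + (ζ 2 - η0) • (C - C'))‖ ≤ 2 * a + 6 := by
      rw [norm_smul, Real.norm_eq_abs, abs_of_pos (inv_pos.2 hθ), inv_mul_le_iff₀ hθ]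
      refine (norm_add_le _ _).trans ?_
      rw [norm_smul, Real.norm_eq_abs]
      have a2 : |ζ 2 - η0| * ‖C - C'‖ ≤ 6 * θ := by
        calc |ζ 2 - η0| * ‖C - C'‖ ≤ (2 * κ) * (3 * θ') := by gcongr
          _ = 6 * (κ * θ') := by ring
          _ ≤ 6 * θ := by linarith
      linarith
    have a3 : |(ζ 2 - η0) / κ| ≤ 2 := by
      rw [abs_div, abs_of_pos hκ, div_le_iff₀ hκ]
      exact h1
    linarith
  · rw [← adjE_apply, ContinuousLinearEquiv.apply_symm_apply, add_sub_cancel]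

theorem lam2_ge {a : ℝ} (ha : 1 ≤ a) : 1 ≤ lam (4 * a) 2 := by unfold lam; linarith

set_option maxHeartbeats 1000000 in
open Classical in
/-- **UPPER-C, one cell**. -/
theorem upC_cell (n k : ℕ) (a : ℝ) (ha : 1 ≤ a) (T : ℝ) : ∃ C : ℝ, 0 ≤ C ∧
    ∀ (η0 κ θ θ' : ℝ) (hκ : 0 < κ) (hθ : 0 < θ) (hθ' : 0 < θ'), 7 / (8 * a) ≤ η0 → η0 ≤ 2 * a →
    8 * a * κ ≤ 1 → θ ≤ θ' → κ * θ' ≤ θ →
    ∀ (b : OrthonormalBasis (Fin 2) ℝ E2) (g : E3 → ℂ), Integrable g →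
    ∀ (S : ℤ × ℤ → Set E3), (∀ m, MeasurableSet (S m)) → (∀ m, Bornology.IsBounded (S m)) →
    ∀ (z : E3 × ℝ), |z.2| * θ ^ 2 ≤ T → ∀ (m' : ℤ × ℤ) (c : E3) (X ν : ℝ), 0 ≤ X → 0 ≤ ν →
    (∀ j : ℤ, (Set.ncard {m | m ∈ nearL θ θ' m' ∧ (∃ y ∈ S m,
      ‖frc θ κ (cen θ m) (y - z.1 - z.2 • vel (cen θ m) - c)‖ ≤ X) ∧
      |(inner ℝ (b 1) (cen θ m) : ℝ) - j * θ| ≤ θ} : ℝ) ≤ ν) →
    ∫⁻ y, ENNReal.ofReal (dw (n + k + dd E3)
        (cfr b θ' θ κ hθ' hθ hκ (cen θ' m') : E3 →L[ℝ] E3) (y - c)) *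
        ‖umc θ' (trc z (selc η0 κ θ g S)) m' y‖ₑ ^ 2 ≤
      ENNReal.ofReal (C * (θ / θ') * (θ ^ 2 * κ)⁻¹ * (ν + (caps θ).card * ((1 + X) ^ k)⁻¹)) *
        Adc n θ κ θ' g S m' (z.1 + c) z.2 := by
  obtain ⟨C1, hC1, h1⟩ := upper_selG E3 n k
  obtain ⟨Q, hQ, hpk⟩ := pk_wide ha (n + k + dd E3) T
  set N := n + k + dd E3 with hN
  set L0 : ℝ := 3 * (4 * a) + 6 with hL0
  set P : ℝ := 2 * (4 * a * (L0 + 1)) + 1 with hPdef
  set Qt : ℝ := 2 ^ N * (4 ^ N * Q) ^ 2 with hQt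
  set C2 : ℝ := C1 * P * (1 ^ (2 * (n + k)) * (2 * (4 * a) + 8) ^ Module.finrank ℝ E3) *
    (Qt ^ 2 * Q ^ 2 * 4 ^ (n + k)) with hC2
  have ha0 : 0 < a := by linarith
  have hL00 : 0 < L0 := by positivity
  have hP0 : 0 < P := by positivity
  have hQt0 : 0 < Qt := by positivity
  have hC20 : 0 ≤ C2 := by positivity
  refine ⟨C2 * 4 ^ k * 4 ^ n, by positivity, ?_⟩
  intro η0 κ θ θ' hκ hθ hθ' hη hη2 haκ hθθ' hst b g hg S hSm hSb z hz m' c X ν hX hν hcnt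
  set C' := cen θ' m' with hC'
  have hηi : (4 * a)⁻¹ ≤ η0 := by
    refine le_trans ?_ hη
    rw [← one_div, div_le_div_iff₀ (by positivity) (by positivity)]
    linarith
  have hη0 : 0 < η0 := lt_of_lt_of_le (by positivity) hηi
  have hk1 : κ ≤ (4 * a)⁻¹ := by
    rw [← one_div, le_div_iff₀ (by positivity)]
    nlinarith
  have hk2 : 2 * κ ≤ (4 * a)⁻¹ := by
    rw [← one_div, le_div_iff₀ (by positivity)]
    linarith
  have hPk : ∀ m : ℤ × ℤ, Pk N Q T θ (etw η0 κ) (cen θ m)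
      (Fr (lam (4 * a) 2) θ κ (lam_pos (by linarith) (by norm_num)) hθ hκ (cen θ m))
      (ctr η0 (cen θ m)) (Sd (4 * a) 2 η0 κ θ (cen θ m)) := fun m =>
    hpk η0 κ hη hη2 hκ hk1 θ hθ (cen θ m)
  have hPk' := hpk η0 (2 * κ) hη hη2 (by positivity) hk2 θ' hθ' C'
  have hnear : ∀ m ∈ nearL θ θ' m', ‖cen θ m - C'‖ ≤ 3 * θ' := fun m hm =>
    (mem_nearL.1 hm).2.le
  have hrep : ∀ m, Rep N Q (Fr (lam (4 * a) 2) θ κ (lam_pos (by linarith) (by norm_num)) hθ hκ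
      (cen θ m)) (ctr η0 (cen θ m)) (piecec η0 κ θ g m (S m)) ((S m).indicator (umc θ g m)) :=
    fun m => rep_piece (hPk m) hg (hSm m) (hSb m)
  have hA1 : ∀ m ∈ nearL θ θ' m', ∀ x, ‖Pl θ κ hθ hκ C' x‖ ≤ 4 *
      ‖Fr (lam (4 * a) 2) θ κ (lam_pos (by linarith) (by norm_num)) hθ hκ (cen θ m) x‖ := by
    intro m hm x
    have e1 := Pl_le_Pl hθ hκ (D := 3) (by norm_num) (C := C') (C' := cen θ m) (by
      rw [norm_sub_rev]
      calc κ * ‖cen θ m - C'‖ ≤ κ * (3 * θ') := by gcongr; exact hnear m hm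
        _ = 3 * (κ * θ') := by ring
        _ ≤ 3 * θ := by linarith) x
    have e2 := Pl_le_Fr (lam2_ge ha) hθ hκ (cen θ m) x
    linarith
  have hA1' : ∀ m ∈ nearL θ θ' m', ∀ x, ‖frc θ κ (cen θ m) x‖ ≤ 4 * ‖Pl θ κ hθ hκ C' x‖ := by
    intro m hm x
    rw [frc_eq hθ hκ]
    have e1 := Pl_le_Pl hθ hκ (D := 3) (by norm_num) (C := cen θ m) (C' := C') (by
      calc κ * ‖cen θ m - C'‖ ≤ κ * (3 * θ') := by gcongr; exact hnear m hm
        _ = 3 * (κ * θ') := by ring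
        _ ≤ 3 * θ := by linarith) x
    linarith
  have hB' : ∀ x, ‖Pl θ κ hθ hκ C' x‖ ≤ 4 * ‖Fr (lam (4 * a) 2) θ' (2 * κ)
      (lam_pos (by linarith) (by norm_num)) hθ' (by positivity) C' x‖ := by
    intro x
    have e1 := Pl_mono hθ hκ hθ' (by positivity : 0 < 2 * κ) hθθ' (by linarith) C' x
    have e2 := Pl_le_Fr (lam2_ge ha) hθ' (by positivity : 0 < 2 * κ) C' x
    have e3 := norm_nonneg (Fr (lam (4 * a) 2) θ' (2 * κ)
      (lam_pos (by linarith) (by norm_num)) hθ' (by positivity) C' x)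
    linarith
  have key := h1 (cfr b θ' θ κ hθ' hθ hκ C') (Pl θ κ hθ hκ C') 1 (2 * (4 * a) + 8) le_rfl (by linarith)
    (fun x => by rw [one_mul]; exact Pl_le_cfr hθ' hθ hκ hθθ' C' x) c (ℤ × ℤ) (nearL θ θ' m')
    (fun m => ⌊(inner ℝ (b 1) (cen θ m) : ℝ) / θ⌋) (fun j => strp b η0 θ L0 C' j)
    (fun m => chp η0 κ θ θ' g z m' m (S m)) (fun m => piecec η0 κ θ g m (S m))
    (fun m => umc θ g m) S (fun m => z.1 + z.2 • vel (cen θ m)) (fun m => ctr η0 (cen θ m))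
    (fun m => ctr η0 (cen θ m))
    (fun m => Fr (lam (4 * a) 2) θ κ (lam_pos (by linarith) (by norm_num)) hθ hκ (cen θ m))
    P 4 Qt Q hP0 (by norm_num) hQt0
    (fun ξ => by
      have := strp_overlap (b := b) hθ' hθ hκ (a := 4 * a) (by linarith) hηi hL00.le C' ξ
        ((nearL θ θ' m').image fun m => ⌊(inner ℝ (b 1) (cen θ m) : ℝ) / θ⌋ : Finset ℤ)
      simpa only [Finset.mem_coe] using this)
    (fun m hm ξ hξ => mem_strp hη0 (hη2.trans (by linarith)) hκ hθ hst (hnear m hm)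
      (supp_piece (hPk m) (supp_chp hξ)))
    (fun m _ => capc_mul_int θ' m' (trc_int z (hrep m).int))
    (fun m _ => capc_mul_l2 θ' m' (trc_l2 z (hrep m).l2))
    (fun m hm ξ hξ => mem_loc hκ hθ hst (hnear m hm) (supp_piece (hPk m) (supp_chp hξ)))
    hA1
    (fun m hm => tra_piece hκ (Pl θ κ hθ hκ C') (hPk m) hPk' (by norm_num) (hA1 m hm) hB' g (S m) z
      hz)
    (fun m _ => hSm m) (fun m _ => hrep m) (X / 4) ν (by positivity) hν (by
      intro j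
      refine le_trans ?_ (hcnt j)
      norm_cast
      refine Set.ncard_le_ncard ?_ ((nearL θ θ' m').finite_toSet.subset fun m hm => hm.1)
      rintro m ⟨hm, hj, y, hy, hy2⟩
      refine ⟨hm, ⟨y, hy, ?_⟩, ?_⟩
      · have e1 := hA1' m hm (y - (z.1 + z.2 • vel (cen θ m)) - c)
        have e2 : y - z.1 - z.2 • vel (cen θ m) - c = y - (z.1 + z.2 • vel (cen θ m)) - c := by abel
        rw [e2]
        linarith
      · subst hj
        have f1 := Int.floor_le ((inner ℝ (b 1) (cen θ m) : ℝ) / θ)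
        have f2 := Int.lt_floor_add_one ((inner ℝ (b 1) (cen θ m) : ℝ) / θ)
        rw [le_div_iff₀ hθ] at f1
        rw [div_lt_iff₀ hθ] at f2
        rw [abs_le]
        constructor <;> nlinarith)
  rw [umc_sel hθ hθθ', ← wE_eq]
  refine key.trans ?_
  -- the constant
  have hadet : adet (Pl θ κ hθ hκ C' : E3 →L[ℝ] E3) /
      adet (cfr b θ' θ κ hθ' hθ hκ C' : E3 →L[ℝ] E3) = θ / θ' := by
    rw [adet_Pl, adet_cfr]
    field_simp
  rw [hadet]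
  -- the plate energies
  have hpl : ∑ m ∈ nearL θ θ' m', ∫⁻ y in S m,
      ENNReal.ofReal (pa n (Pl θ κ hθ hκ C') (y - (z.1 + z.2 • vel (cen θ m)) - c)) *
        ‖umc θ g m y‖ₑ ^ 2 ≤
      ENNReal.ofReal (4 ^ n * (θ ^ 2 * κ)⁻¹) * Adc n θ κ θ' g S m' (z.1 + c) z.2 := by
    unfold Adc Cad538.Acc Cad538.Den
    rw [← mul_assoc, ← ENNReal.ofReal_mul (by positivity), mul_assoc,
      inv_mul_cancel₀ (by positivity), mul_one, Finset.mul_sum]
    refine Finset.sum_le_sum fun m hm => ?_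
    rw [← lintegral_const_mul' _ _ ENNReal.ofReal_ne_top]
    refine lintegral_mono fun y => ?_
    rw [← mul_assoc, ← ENNReal.ofReal_mul (by positivity)]
    refine mul_le_mul' (ENNReal.ofReal_le_ofReal ?_) le_rfl
    have e1 := wt_frame (frc θ κ (cen θ m)) (Pl θ κ hθ hκ C' : E3 →L[ℝ] E3) (K := 4) (by norm_num) n
      (z := y - (z.1 + z.2 • vel (cen θ m)) - c) (hA1' m hm _)
    have e2 : y - (z.1 + c) - z.2 • vel (cen θ m) = y - (z.1 + z.2 • vel (cen θ m)) - c := by abel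
    rw [e2]
    exact e1
  refine (mul_le_mul' le_rfl hpl).trans ?_
  rw [← mul_assoc, ← ENNReal.ofReal_mul (by positivity)]
  refine mul_le_mul' (ENNReal.ofReal_le_ofReal ?_) le_rfl
  have h5 : ((1 + X / 4) ^ k)⁻¹ ≤ 4 ^ k * ((1 + X) ^ k)⁻¹ := by
    rw [← div_eq_mul_inv, inv_eq_one_div, div_le_div_iff₀ (by positivity) (by positivity), one_mul,
      ← mul_pow]
    refine pow_le_pow_left₀ (by positivity) ?_ k
    linarith
  have h7 : ((nearL θ θ' m').card : ℝ) ≤ (caps θ).card := by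
    exact_mod_cast Finset.card_le_card fun m hm => (mem_nearL.1 hm).1
  have h8 : ν + ((nearL θ θ' m').card : ℝ) * ((1 + X / 4) ^ k)⁻¹ ≤
      4 ^ k * (ν + (caps θ).card * ((1 + X) ^ k)⁻¹) := by
    have h9 : (1:ℝ) ≤ 4 ^ k := one_le_pow₀ (by norm_num)
    have h10 : ((nearL θ θ' m').card : ℝ) * ((1 + X / 4) ^ k)⁻¹ ≤
        (caps θ).card * (4 ^ k * ((1 + X) ^ k)⁻¹) := by gcongr
    nlinarith
  have hW : 0 ≤ θ / θ' := by positivity
  have hV : 0 ≤ (θ ^ 2 * κ)⁻¹ := by positivity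
  have hY : 0 ≤ ν + (caps θ).card * ((1 + X) ^ k)⁻¹ := by positivity
  rw [← hC2]
  set Y := ν + (caps θ).card * ((1 + X) ^ k)⁻¹ with hYdef
  set Z := ν + ((nearL θ θ' m').card : ℝ) * ((1 + X / 4) ^ k)⁻¹ with hZdef
  set V := (θ ^ 2 * κ)⁻¹ with hVdef
  set W := θ / θ' with hWdef
  calc C2 * W * Z * (4 ^ n * V) ≤ C2 * W * (4 ^ k * Y) * (4 ^ n * V) := by gcongr
    _ = _ := by ring

end Crest.Agent.R116.UpC448
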