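import Crest.Agent.R116.Rm7_618_Mg
import Crest.Agent.R116.KTopA_387
import Crest.Agent.R116.KTopB_387

-- ▼ part R116/KTop_387
section

/-!
# R116, K side: `LKM` from the three rows (helper387)

`RowU`, `RowI`, `RowTie` ⊢ `LKM` (the enemy is `Ene618.enemy2`). Each row may choose its own `η`.
-/

set_option autoImplicit false

namespace Crest.Agent.R116.KTop387

/-- **the K side.** -/
theorem lkm_of_rows {η : ℝ} (hη : 0 < η) (hη4 : η ≤ 1 / 4)
    (hU : RowU η) (hI : RowI η) (hT : RowTie η) : LKMDef299.LKM :=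
  lkm_of hη hη4 (fun h => Ene618.enemy2 h) (ktopB hU hI hT)

theorem NumL.mono {η η' g s : ℝ} {θ q : Fin 2 → ℝ} (h : NumL η' g s θ q) (hη : η' ≤ η) :
    NumL η g s θ q :=
  ⟨h.gpos, h.s0, h.s1, h.qa, h.qb, h.qbg.trans (mul_le_mul_of_nonneg_right hη h.gpos.le),
    h.qba.trans (mul_le_mul_of_nonneg_right hη h.qa.le), h.θa, h.grow⟩

theorem RowU.mono {η η' : ℝ} (h : RowU η) (hη : η' ≤ η) : RowU η' :=
  fun g s θ q hN => h g s θ q (hN.mono hη)

theorem RowI.mono {η η' : ℝ} (h : RowI η) (hη : η' ≤ η) : RowI η' :=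
  fun g s θ q hN => h g s θ q (hN.mono hη)

theorem RowTie.mono {η η' : ℝ} (h : RowTie η) (hη : η' ≤ η) : RowTie η' :=
  fun g s θ q hN => h g s θ q (hN.mono hη)

/-- **the K side, each row with its own `η`.** -/
theorem lkm_of_rows' (hU : ∃ η : ℝ, 0 < η ∧ RowU η) (hI : ∃ η : ℝ, 0 < η ∧ RowI η)
    (hT : ∃ η : ℝ, 0 < η ∧ RowTie η) : LKMDef299.LKM := by
  obtain ⟨η1, h1, hU⟩ := hU
  obtain ⟨η2, h2, hI⟩ := hI
  obtain ⟨η3, h3, hT⟩ := hT
  have h0 : 0 < min (min η1 η2) (min η3 (1 / 4)) :=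
    lt_min (lt_min h1 h2) (lt_min h3 (by norm_num))
  exact lkm_of_rows h0 ((min_le_right _ _).trans (min_le_right _ _))
    (hU.mono ((min_le_left _ _).trans (min_le_left _ _)))
    (hI.mono ((min_le_left _ _).trans (min_le_right _ _)))
    (hT.mono ((min_le_right _ _).trans (min_le_left _ _)))

end Crest.Agent.R116.KTop387
end

-- ▼ part R116/WTop8_188

/-!
# R116: the literal of `S0155` from the three rows of the K side (helper188)
-/

set_option autoImplicit false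

open MeasureTheory FourierTransform

namespace Crest.Agent.R116.WTop188

/-- **`S0155` from `RowU`, `RowI`, `RowTie`**, each with its own `η`. -/
theorem S0155_of_rows (hU : ∃ η : ℝ, 0 < η ∧ KTop387.RowU η) (hI : ∃ η : ℝ, 0 < η ∧ KTop387.RowI η)
    (hT : ∃ η : ℝ, 0 < η ∧ KTop387.RowTie η)
    (p : ℝ) (hp : 2 < p) (α : ℝ) (hα : max 0 (1 - 3 / p) < α) :
    ∃ C : ℝ, ∀ f : SchwartzMap (EuclideanSpace ℝ (Fin 3)) ℂ,
      MeasureTheory.eLpNorm
          (fun z : (EuclideanSpace ℝ (Fin 3)) × ℝ =>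
            𝓕⁻ (fun ξ : EuclideanSpace ℝ (Fin 3) =>
              Complex.exp (2 * Real.pi * z.2 * ‖ξ‖ * Complex.I) • 𝓕 (⇑f) ξ) z.1)
          (ENNReal.ofReal p)
          ((MeasureTheory.volume : MeasureTheory.Measure (EuclideanSpace ℝ (Fin 3))).prod
            (MeasureTheory.volume.restrict (Set.Icc (1 : ℝ) 2))) ≤
        ENNReal.ofReal C *
          MeasureTheory.eLpNorm
            (𝓕⁻ (fun ξ : EuclideanSpace ℝ (Fin 3) =>
              ((1 + 4 * Real.pi ^ 2 * ‖ξ‖ ^ 2) ^ (α / 2) : ℝ) • 𝓕 (⇑f) ξ))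
            (ENNReal.ofReal p) MeasureTheory.volume :=
  S0155_of_LKM (KTop387.lkm_of_rows' hU hI hT) p hp α hα

end Crest.Agent.R116.WTop188
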